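import Vale.Agent.Lib.P154.PChain.BA.R2_0

set_option linter.all false

namespace Vale.Agent.Lib.P154.PChain.BA.S3

open Vale.Agent.Lib.P154.Chain

noncomputable def pc0 : PT := (PT.nd (nat_lit 1187628) (PT.nd (nat_lit 869154) (PT.nd (nat_lit 709878) (PT.nd (nat_lit 603798) (PT.nd (nat_lit 603720) (PT.nd (nat_lit 550680) PT.nil (PT.lf (nat_lit 1216) (nat_lit 3) (nat_lit 16) (nat_lit 1) (nat_lit 250) (nat_lit 10) (nat_lit 250))) (PT.lf (nat_lit 1292) (nat_lit 6) (nat_lit 17) (nat_lit 3) (nat_lit 249) (nat_lit 11) (nat_lit 250))) (PT.nd (nat_lit 53040) (PT.lf (nat_lit 1292) (nat_lit 6) (nat_lit 17) (nat_lit 1) (nat_lit 250) (nat_lit 11) (nat_lit 249)) (PT.lf (nat_lit 1444) (nat_lit 3) (nat_lit 19) (nat_lit 1) (nat_lit 249) (nat_lit 12) (nat_lit 249)))) (PT.nd (nat_lit 53118) (PT.nd (nat_lit 78) (PT.lf (nat_lit 1520) (nat_lit 6) (nat_lit 20) (nat_lit 3) (nat_lit 248) (nat_lit 13) (nat_lit 249)) (PT.lf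 (nat_lit 1520) (nat_lit 6) (nat_lit 20) (nat_lit 1) (nat_lit 249) (nat_lit 13) (nat_lit 248))) (PT.nd (nat_lit 53040) (PT.lf (nat_lit 1672) (nat_lit 3) (nat_lit 22) (nat_lit 1) (nat_lit 248) (nat_lit 14) (nat_lit 248)) (PT.nd (nat_lit 78) (PT.lf (nat_lit 1748) (nat_lit 6) (nat_lit 23) (nat_lit 3) (nat_lit 247) (nat_lit 15) (nat_lit 248)) (PT.lf (nat_lit 1748) (nat_lit 6) (nat_lit 23) (nat_lit 1) (nat_lit 248) (nat_lit 15) (nat_lit 247)))))) (PT.nd (nat_lit 159198) (PT.nd (nat_lit 53118) (PT.nd (nat_lit 53040) (PT.lf (nat_lit 1900) (nat_lit 3) (nat_lit 25) (nat_lit 1) (nat_lit 247) (nat_lit 16) (nat_lit 247)) (PT.lf (nat_lit 1976) (nat_lit 6) (nat_lit 26) (nat_lit 3) (nat_lit 246) (nat_lit 17) (nat_lit 247))) (PT.nd (nat_lit 53040) (PT.lf (nat_lit 1976) (nat_lit 6) (nat_lit 26) (nat_lit 1) (nat_lit 247) (nat_lit 17) (nat_lit 246)) (PT.lf (nat_lit 2128) (nat_lit 3) (nat_lit 28) (nat_lit 1) (nat_lit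 246) (nat_lit 18) (nat_lit 246)))) (PT.nd (nat_lit 53118) (PT.nd (nat_lit 78) (PT.lf (nat_lit 2204) (nat_lit 6) (nat_lit 29) (nat_lit 3) (nat_lit 245) (nat_lit 19) (nat_lit 246)) (PT.lf (nat_lit 2204) (nat_lit 6) (nat_lit 29) (nat_lit 1) (nat_lit 246) (nat_lit 19) (nat_lit 245))) (PT.nd (nat_lit 53040) (PT.lf (nat_lit 2356) (nat_lit 3) (nat_lit 31) (nat_lit 1) (nat_lit 245) (nat_lit 20) (nat_lit 245)) (PT.nd (nat_lit 78) (PT.lf (nat_lit 2432) (nat_lit 6) (nat_lit 32) (nat_lit 3) (nat_lit 244) (nat_lit 21) (nat_lit 245)) (PT.lf (nat_lit 2432) (nat_lit 6) (nat_lit 32) (nat_lit 1) (nat_lit 245) (nat_lit 21) (nat_lit 244))))))) (PT.nd (nat_lit 318474) (PT.nd (nat_lit 159198) (PT.nd (nat_lit 53118) (PT.nd (nat_lit 53040) (PT.lf (nat_lit 2584) (nat_lit 3) (nat_lit 34) (nat_lit 1) (nat_lit 244) (nat_lit 22) (nat_lit 244)) (PT.lf (nat_lit 2660) (nat_lit 6) (nat_lit 35) (nat_lit 3) (nat_lit 243) (nat_lit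 23) (nat_lit 244))) (PT.nd (nat_lit 53040) (PT.lf (nat_lit 2660) (nat_lit 6) (nat_lit 35) (nat_lit 1) (nat_lit 244) (nat_lit 23) (nat_lit 243)) (PT.lf (nat_lit 2812) (nat_lit 3) (nat_lit 37) (nat_lit 1) (nat_lit 243) (nat_lit 24) (nat_lit 243)))) (PT.nd (nat_lit 53118) (PT.nd (nat_lit 78) (PT.lf (nat_lit 2888) (nat_lit 6) (nat_lit 38) (nat_lit 3) (nat_lit 242) (nat_lit 25) (nat_lit 243)) (PT.lf (nat_lit 2888) (nat_lit 6) (nat_lit 38) (nat_lit 1) (nat_lit 243) (nat_lit 25) (nat_lit 242))) (PT.nd (nat_lit 53040) (PT.lf (nat_lit 3040) (nat_lit 3) (nat_lit 40) (nat_lit 1) (nat_lit 242) (nat_lit 26) (nat_lit 242)) (PT.nd (nat_lit 78) (PT.lf (nat_lit 3116) (nat_lit 6) (nat_lit 41) (nat_lit 3) (nat_lit 241) (nat_lit 27) (nat_lit 242)) (PT.lf (nat_lit 3116) (nat_lit 6) (nat_lit 41) (nat_lit 1) (nat_lit 242) (nat_lit 27) (nat_lit 241)))))) (PT.nd (nat_lit 159276) (PT.nd (nat_lit 53118) (PT.nd (nat_lit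 53040) (PT.lf (nat_lit 3268) (nat_lit 3) (nat_lit 43) (nat_lit 1) (nat_lit 241) (nat_lit 28) (nat_lit 241)) (PT.lf (nat_lit 3344) (nat_lit 6) (nat_lit 44) (nat_lit 3) (nat_lit 240) (nat_lit 29) (nat_lit 241))) (PT.nd (nat_lit 53040) (PT.lf (nat_lit 3344) (nat_lit 6) (nat_lit 44) (nat_lit 1) (nat_lit 241) (nat_lit 29) (nat_lit 240)) (PT.nd (nat_lit 53040) (PT.lf (nat_lit 3496) (nat_lit 3) (nat_lit 46) (nat_lit 1) (nat_lit 240) (nat_lit 30) (nat_lit 240)) (PT.lf (nat_lit 3572) (nat_lit 6) (nat_lit 47) (nat_lit 3) (nat_lit 239) (nat_lit 31) (nat_lit 240))))) (PT.nd (nat_lit 106080) (PT.nd (nat_lit 53040) (PT.lf (nat_lit 3572) (nat_lit 6) (nat_lit 47) (nat_lit 1) (nat_lit 240) (nat_lit 31) (nat_lit 239)) (PT.lf (nat_lit 3724) (nat_lit 3) (nat_lit 49) (nat_lit 1) (nat_lit 239) (nat_lit 32) (nat_lit 239))) (PT.nd (nat_lit 78) (PT.lf (nat_lit 3800) (nat_lit 6) (nat_lit 50) (nat_lit 3) (nat_lit 238)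 (nat_lit 33) (nat_lit 239)) (PT.nd (nat_lit 53040) (PT.lf (nat_lit 3800) (nat_lit 6) (nat_lit 50) (nat_lit 1) (nat_lit 239) (nat_lit 33) (nat_lit 238)) (PT.lf (nat_lit 3952) (nat_lit 3) (nat_lit 52) (nat_lit 1) (nat_lit 238) (nat_lit 34) (nat_lit 238))))))))
noncomputable def pc1 : PT := (PT.nd (nat_lit 637026) (PT.nd (nat_lit 318474) (PT.nd (nat_lit 106236) (PT.nd (nat_lit 53118) (PT.nd (nat_lit 78) (PT.lf (nat_lit 4028) (nat_lit 6) (nat_lit 53) (nat_lit 3) (nat_lit 237) (nat_lit 35) (nat_lit 238)) (PT.lf (nat_lit 4028) (nat_lit 6) (nat_lit 53) (nat_lit 1) (nat_lit 238) (nat_lit 35) (nat_lit 237))) (PT.nd (nat_lit 53040) (PT.lf (nat_lit 4180) (nat_lit 3) (nat_lit 55) (nat_lit 1) (nat_lit 237) (nat_lit 36) (nat_lit 237)) (PT.lf (nat_lit 4256) (nat_lit 6) (nat_lit 56) (nat_lit 3) (nat_lit 236) (nat_lit 37) (nat_lit 237)))) (PT.nd (nat_lit 106080) (PT.nd (nat_lit 53040) (PT.lf (nat_lit 4256) (nat_lit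 6) (nat_lit 56) (nat_lit 1) (nat_lit 237) (nat_lit 37) (nat_lit 236)) (PT.lf (nat_lit 4408) (nat_lit 3) (nat_lit 58) (nat_lit 1) (nat_lit 236) (nat_lit 38) (nat_lit 236))) (PT.nd (nat_lit 78) (PT.lf (nat_lit 4484) (nat_lit 6) (nat_lit 59) (nat_lit 3) (nat_lit 235) (nat_lit 39) (nat_lit 236)) (PT.nd (nat_lit 53040) (PT.lf (nat_lit 4484) (nat_lit 6) (nat_lit 59) (nat_lit 1) (nat_lit 236) (nat_lit 39) (nat_lit 235)) (PT.lf (nat_lit 4636) (nat_lit 3) (nat_lit 61) (nat_lit 1) (nat_lit 235) (nat_lit 40) (nat_lit 235)))))) (PT.nd (nat_lit 159276) (PT.nd (nat_lit 53118) (PT.nd (nat_lit 78) (PT.lf (nat_lit 4712) (nat_lit 6) (nat_lit 62) (nat_lit 3) (nat_lit 234) (nat_lit 41) (nat_lit 235)) (PT.lf (nat_lit 4712) (nat_lit 6) (nat_lit 62) (nat_lit 1) (nat_lit 235) (nat_lit 41) (nat_lit 234))) (PT.nd (nat_lit 53040) (PT.lf (nat_lit 4864) (nat_lit 3) (nat_lit 64) (nat_lit 1) (nat_lit 234) (nat_lit 42) (nat_lit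 234)) (PT.nd (nat_lit 78) (PT.lf (nat_lit 4940) (nat_lit 6) (nat_lit 65) (nat_lit 3) (nat_lit 233) (nat_lit 43) (nat_lit 234)) (PT.lf (nat_lit 4940) (nat_lit 6) (nat_lit 65) (nat_lit 1) (nat_lit 234) (nat_lit 43) (nat_lit 233))))) (PT.nd (nat_lit 53118) (PT.nd (nat_lit 53040) (PT.lf (nat_lit 5092) (nat_lit 3) (nat_lit 67) (nat_lit 1) (nat_lit 233) (nat_lit 44) (nat_lit 233)) (PT.lf (nat_lit 5168) (nat_lit 6) (nat_lit 68) (nat_lit 3) (nat_lit 232) (nat_lit 45) (nat_lit 233))) (PT.nd (nat_lit 53040) (PT.lf (nat_lit 5168) (nat_lit 6) (nat_lit 68) (nat_lit 1) (nat_lit 233) (nat_lit 45) (nat_lit 232)) (PT.nd (nat_lit 53040) (PT.lf (nat_lit 5320) (nat_lit 3) (nat_lit 70) (nat_lit 1) (nat_lit 232) (nat_lit 46) (nat_lit 232)) (PT.lf (nat_lit 5396) (nat_lit 6) (nat_lit 71) (nat_lit 3) (nat_lit 231) (nat_lit 47) (nat_lit 232))))))) (PT.nd (nat_lit 318474) (PT.nd (nat_lit 159198) (PT.nd (nat_lit 106080)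 (PT.nd (nat_lit 53040) (PT.lf (nat_lit 5396) (nat_lit 6) (nat_lit 71) (nat_lit 1) (nat_lit 232) (nat_lit 47) (nat_lit 231)) (PT.lf (nat_lit 5548) (nat_lit 3) (nat_lit 73) (nat_lit 1) (nat_lit 231) (nat_lit 48) (nat_lit 231))) (PT.nd (nat_lit 78) (PT.lf (nat_lit 5624) (nat_lit 6) (nat_lit 74) (nat_lit 3) (nat_lit 230) (nat_lit 49) (nat_lit 231)) (PT.lf (nat_lit 5624) (nat_lit 6) (nat_lit 74) (nat_lit 1) (nat_lit 231) (nat_lit 49) (nat_lit 230)))) (PT.nd (nat_lit 53118) (PT.nd (nat_lit 53040) (PT.lf (nat_lit 5776) (nat_lit 3) (nat_lit 76) (nat_lit 1) (nat_lit 230) (nat_lit 50) (nat_lit 230)) (PT.lf (nat_lit 5852) (nat_lit 6) (nat_lit 77) (nat_lit 3) (nat_lit 229) (nat_lit 51) (nat_lit 230))) (PT.nd (nat_lit 53040) (PT.lf (nat_lit 5852) (nat_lit 6) (nat_lit 77) (nat_lit 1) (nat_lit 230) (nat_lit 51) (nat_lit 229)) (PT.nd (nat_lit 53040) (PT.lf (nat_lit 6004) (nat_lit 3) (nat_lit 79) (nat_lit 1)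 (nat_lit 229) (nat_lit 52) (nat_lit 229)) (PT.lf (nat_lit 6080) (nat_lit 6) (nat_lit 80) (nat_lit 3) (nat_lit 228) (nat_lit 53) (nat_lit 229)))))) (PT.nd (nat_lit 212238) (PT.nd (nat_lit 106080) (PT.nd (nat_lit 53040) (PT.lf (nat_lit 6080) (nat_lit 6) (nat_lit 80) (nat_lit 1) (nat_lit 229) (nat_lit 53) (nat_lit 228)) (PT.lf (nat_lit 6232) (nat_lit 3) (nat_lit 82) (nat_lit 1) (nat_lit 228) (nat_lit 54) (nat_lit 228))) (PT.nd (nat_lit 78) (PT.lf (nat_lit 6308) (nat_lit 6) (nat_lit 83) (nat_lit 3) (nat_lit 227) (nat_lit 55) (nat_lit 228)) (PT.nd (nat_lit 53040) (PT.lf (nat_lit 6308) (nat_lit 6) (nat_lit 83) (nat_lit 1) (nat_lit 228) (nat_lit 55) (nat_lit 227)) (PT.lf (nat_lit 6460) (nat_lit 3) (nat_lit 85) (nat_lit 1) (nat_lit 227) (nat_lit 56) (nat_lit 227))))) (PT.nd (nat_lit 53118) (PT.nd (nat_lit 78) (PT.lf (nat_lit 6536) (nat_lit 6) (nat_lit 86) (nat_lit 3) (nat_lit 226) (nat_lit 57) (nat_lit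 227)) (PT.lf (nat_lit 6536) (nat_lit 6) (nat_lit 86) (nat_lit 1) (nat_lit 227) (nat_lit 57) (nat_lit 226))) (PT.nd (nat_lit 53040) (PT.lf (nat_lit 6688) (nat_lit 3) (nat_lit 88) (nat_lit 1) (nat_lit 226) (nat_lit 58) (nat_lit 226)) (PT.nd (nat_lit 78) (PT.lf (nat_lit 6764) (nat_lit 6) (nat_lit 89) (nat_lit 3) (nat_lit 225) (nat_lit 59) (nat_lit 226)) (PT.lf (nat_lit 6764) (nat_lit 6) (nat_lit 89) (nat_lit 1) (nat_lit 226) (nat_lit 59) (nat_lit 225))))))))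
noncomputable def pc2 : PT := (PT.nd (nat_lit 636948) (PT.nd (nat_lit 318474) (PT.nd (nat_lit 159198) (PT.nd (nat_lit 53118) (PT.nd (nat_lit 53040) (PT.lf (nat_lit 6916) (nat_lit 3) (nat_lit 91) (nat_lit 1) (nat_lit 225) (nat_lit 60) (nat_lit 225)) (PT.lf (nat_lit 6992) (nat_lit 6) (nat_lit 92) (nat_lit 3) (nat_lit 224) (nat_lit 61) (nat_lit 225))) (PT.nd (nat_lit 53040) (PT.lf (nat_lit 6992) (nat_lit 6) (nat_lit 92) (nat_lit 1) (nat_lit 225) (nat_lit 61) (nat_lit 224)) (PT.lf (nat_lit 7144) (nat_lit 3) (nat_lit 94) (nat_lit 1) (nat_lit 224) (nat_lit 62) (nat_lit 224)))) (PT.nd (nat_lit 53118) (PT.nd (nat_lit 78) (PT.lf (nat_lit 7220) (nat_lit 6) (nat_lit 95) (nat_lit 3) (nat_lit 223) (nat_lit 63) (nat_lit 224)) (PT.lf (nat_lit 7220) (nat_lit 6) (nat_lit 95) (nat_lit 1) (nat_lit 224) (nat_lit 63) (nat_lit 223))) (PT.nd (nat_lit 53040) (PT.lf (nat_lit 7372) (nat_lit 3) (nat_lit 97) (nat_lit 1)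 (nat_lit 223) (nat_lit 64) (nat_lit 223)) (PT.nd (nat_lit 78) (PT.lf (nat_lit 7448) (nat_lit 6) (nat_lit 98) (nat_lit 3) (nat_lit 222) (nat_lit 65) (nat_lit 223)) (PT.lf (nat_lit 7448) (nat_lit 6) (nat_lit 98) (nat_lit 1) (nat_lit 223) (nat_lit 65) (nat_lit 222)))))) (PT.nd (nat_lit 159198) (PT.nd (nat_lit 53118) (PT.nd (nat_lit 53040) (PT.lf (nat_lit 7600) (nat_lit 3) (nat_lit 100) (nat_lit 1) (nat_lit 222) (nat_lit 66) (nat_lit 222)) (PT.lf (nat_lit 7676) (nat_lit 6) (nat_lit 101) (nat_lit 3) (nat_lit 221) (nat_lit 67) (nat_lit 222))) (PT.nd (nat_lit 53040) (PT.lf (nat_lit 7676) (nat_lit 6) (nat_lit 101) (nat_lit 1) (nat_lit 222) (nat_lit 67) (nat_lit 221)) (PT.lf (nat_lit 7828) (nat_lit 3) (nat_lit 103) (nat_lit 1) (nat_lit 221) (nat_lit 68) (nat_lit 221)))) (PT.nd (nat_lit 53118) (PT.nd (nat_lit 78) (PT.lf (nat_lit 7904) (nat_lit 6) (nat_lit 104) (nat_lit 3) (nat_lit 220) (nat_lit 69) (nat_lit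 221)) (PT.lf (nat_lit 7904) (nat_lit 6) (nat_lit 104) (nat_lit 1) (nat_lit 221) (nat_lit 69) (nat_lit 220))) (PT.nd (nat_lit 53040) (PT.lf (nat_lit 8056) (nat_lit 3) (nat_lit 106) (nat_lit 1) (nat_lit 220) (nat_lit 70) (nat_lit 220)) (PT.nd (nat_lit 78) (PT.lf (nat_lit 8132) (nat_lit 6) (nat_lit 107) (nat_lit 3) (nat_lit 219) (nat_lit 71) (nat_lit 220)) (PT.lf (nat_lit 8132) (nat_lit 6) (nat_lit 107) (nat_lit 1) (nat_lit 220) (nat_lit 71) (nat_lit 219))))))) (PT.nd (nat_lit 318474) (PT.nd (nat_lit 159198) (PT.nd (nat_lit 53118) (PT.nd (nat_lit 53040) (PT.lf (nat_lit 8284) (nat_lit 3) (nat_lit 109) (nat_lit 1) (nat_lit 219) (nat_lit 72) (nat_lit 219)) (PT.lf (nat_lit 8360) (nat_lit 6) (nat_lit 110) (nat_lit 3) (nat_lit 218) (nat_lit 73) (nat_lit 219))) (PT.nd (nat_lit 53040) (PT.lf (nat_lit 8360) (nat_lit 6) (nat_lit 110) (nat_lit 1) (nat_lit 219) (nat_lit 73) (nat_lit 218)) (PT.lf (nat_lit 8512)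 (nat_lit 3) (nat_lit 112) (nat_lit 1) (nat_lit 218) (nat_lit 74) (nat_lit 218)))) (PT.nd (nat_lit 53118) (PT.nd (nat_lit 78) (PT.lf (nat_lit 8588) (nat_lit 6) (nat_lit 113) (nat_lit 3) (nat_lit 217) (nat_lit 75) (nat_lit 218)) (PT.lf (nat_lit 8588) (nat_lit 6) (nat_lit 113) (nat_lit 1) (nat_lit 218) (nat_lit 75) (nat_lit 217))) (PT.nd (nat_lit 53040) (PT.lf (nat_lit 8740) (nat_lit 3) (nat_lit 115) (nat_lit 1) (nat_lit 217) (nat_lit 76) (nat_lit 217)) (PT.nd (nat_lit 78) (PT.lf (nat_lit 8816) (nat_lit 6) (nat_lit 116) (nat_lit 3) (nat_lit 216) (nat_lit 77) (nat_lit 217)) (PT.lf (nat_lit 8816) (nat_lit 6) (nat_lit 116) (nat_lit 1) (nat_lit 217) (nat_lit 77) (nat_lit 216)))))) (PT.nd (nat_lit 106236) (PT.nd (nat_lit 53118) (PT.nd (nat_lit 53040) (PT.lf (nat_lit 8968) (nat_lit 3) (nat_lit 118) (nat_lit 1) (nat_lit 216) (nat_lit 78) (nat_lit 216)) (PT.lf (nat_lit 9044) (nat_lit 6) (nat_lit 119) (nat_lit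 3) (nat_lit 215) (nat_lit 79) (nat_lit 216))) (PT.nd (nat_lit 52962) (PT.lf (nat_lit 9044) (nat_lit 6) (nat_lit 119) (nat_lit 1) (nat_lit 216) (nat_lit 79) (nat_lit 215)) (PT.nd (nat_lit 78) (PT.lf (nat_lit 9120) (nat_lit 6) (nat_lit 120) (nat_lit 3) (nat_lit 214) (nat_lit 80) (nat_lit 216)) (PT.lf (nat_lit 9196) (nat_lit 3) (nat_lit 121) (nat_lit 1) (nat_lit 215) (nat_lit 80) (nat_lit 215))))) (PT.nd (nat_lit 53040) (PT.nd (nat_lit 52962) (PT.lf (nat_lit 9120) (nat_lit 6) (nat_lit 120) (nat_lit 1) (nat_lit 216) (nat_lit 80) (nat_lit 214)) (PT.lf (nat_lit 9272) (nat_lit 6) (nat_lit 122) (nat_lit 3) (nat_lit 214) (nat_lit 81) (nat_lit 215))) (PT.nd (nat_lit 52962) (PT.lf (nat_lit 9272) (nat_lit 6) (nat_lit 122) (nat_lit 1) (nat_lit 215) (nat_lit 81) (nat_lit 214)) (PT.nd (nat_lit 78) (PT.lf (nat_lit 9348) (nat_lit 6) (nat_lit 123) (nat_lit 3) (nat_lit 213) (nat_lit 82) (nat_lit 215)) (PT.lf (nat_lit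 9424) (nat_lit 3) (nat_lit 124) (nat_lit 1) (nat_lit 214) (nat_lit 82) (nat_lit 214))))))))
noncomputable def pc3 : PT := (PT.nd (nat_lit 424554) (PT.nd (nat_lit 212238) (PT.nd (nat_lit 106080) (PT.nd (nat_lit 53040) (PT.nd (nat_lit 52962) (PT.lf (nat_lit 9348) (nat_lit 6) (nat_lit 123) (nat_lit 1) (nat_lit 215) (nat_lit 82) (nat_lit 213)) (PT.lf (nat_lit 9500) (nat_lit 6) (nat_lit 125) (nat_lit 3) (nat_lit 213) (nat_lit 83) (nat_lit 214))) (PT.nd (nat_lit 52962) (PT.lf (nat_lit 9500) (nat_lit 6) (nat_lit 125) (nat_lit 1) (nat_lit 214) (nat_lit 83) (nat_lit 213)) (PT.lf (nat_lit 9576) (nat_lit 6) (nat_lit 126) (nat_lit 3) (nat_lit 212) (nat_lit 84) (nat_lit 214)))) (PT.nd (nat_lit 53040) (PT.nd (nat_lit 78) (PT.lf (nat_lit 9652) (nat_lit 3) (nat_lit 127) (nat_lit 1) (nat_lit 213) (nat_lit 84) (nat_lit 213)) (PT.lf (nat_lit 9576) (nat_lit 6) (nat_lit 126) (nat_lit 1) (nat_lit 214) (nat_lit 84)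 (nat_lit 212))) (PT.nd (nat_lit 78) (PT.lf (nat_lit 9728) (nat_lit 6) (nat_lit 128) (nat_lit 3) (nat_lit 212) (nat_lit 85) (nat_lit 213)) (PT.nd (nat_lit 52962) (PT.lf (nat_lit 9728) (nat_lit 6) (nat_lit 128) (nat_lit 1) (nat_lit 213) (nat_lit 85) (nat_lit 212)) (PT.lf (nat_lit 9804) (nat_lit 6) (nat_lit 129) (nat_lit 3) (nat_lit 211) (nat_lit 86) (nat_lit 213)))))) (PT.nd (nat_lit 106158) (PT.nd (nat_lit 53040) (PT.nd (nat_lit 78) (PT.lf (nat_lit 9880) (nat_lit 3) (nat_lit 130) (nat_lit 1) (nat_lit 212) (nat_lit 86) (nat_lit 212)) (PT.lf (nat_lit 9804) (nat_lit 6) (nat_lit 129) (nat_lit 1) (nat_lit 213) (nat_lit 86) (nat_lit 211))) (PT.nd (nat_lit 78) (PT.lf (nat_lit 9956) (nat_lit 6) (nat_lit 131) (nat_lit 3) (nat_lit 211) (nat_lit 87) (nat_lit 212)) (PT.nd (nat_lit 52962) (PT.lf (nat_lit 9956) (nat_lit 6) (nat_lit 131) (nat_lit 1) (nat_lit 212) (nat_lit 87) (nat_lit 211)) (PT.lf (nat_lit 10032)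 (nat_lit 6) (nat_lit 132) (nat_lit 3) (nat_lit 210) (nat_lit 88) (nat_lit 212))))) (PT.nd (nat_lit 53040) (PT.nd (nat_lit 78) (PT.lf (nat_lit 10108) (nat_lit 3) (nat_lit 133) (nat_lit 1) (nat_lit 211) (nat_lit 88) (nat_lit 211)) (PT.lf (nat_lit 10032) (nat_lit 6) (nat_lit 132) (nat_lit 1) (nat_lit 212) (nat_lit 88) (nat_lit 210))) (PT.nd (nat_lit 78) (PT.lf (nat_lit 10184) (nat_lit 6) (nat_lit 134) (nat_lit 3) (nat_lit 210) (nat_lit 89) (nat_lit 211)) (PT.nd (nat_lit 52962) (PT.lf (nat_lit 10184) (nat_lit 6) (nat_lit 134) (nat_lit 1) (nat_lit 211) (nat_lit 89) (nat_lit 210)) (PT.lf (nat_lit 10260) (nat_lit 6) (nat_lit 135) (nat_lit 3) (nat_lit 209) (nat_lit 90) (nat_lit 211))))))) (PT.nd (nat_lit 212238) (PT.nd (nat_lit 106080) (PT.nd (nat_lit 53040) (PT.nd (nat_lit 78) (PT.lf (nat_lit 10336) (nat_lit 3) (nat_lit 136) (nat_lit 1) (nat_lit 210) (nat_lit 90) (nat_lit 210)) (PT.lf (nat_lit 10260)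 (nat_lit 6) (nat_lit 135) (nat_lit 1) (nat_lit 211) (nat_lit 90) (nat_lit 209))) (PT.nd (nat_lit 78) (PT.lf (nat_lit 10412) (nat_lit 6) (nat_lit 137) (nat_lit 3) (nat_lit 209) (nat_lit 91) (nat_lit 210)) (PT.lf (nat_lit 10412) (nat_lit 6) (nat_lit 137) (nat_lit 1) (nat_lit 210) (nat_lit 91) (nat_lit 209)))) (PT.nd (nat_lit 156) (PT.nd (nat_lit 78) (PT.lf (nat_lit 10488) (nat_lit 6) (nat_lit 138) (nat_lit 3) (nat_lit 208) (nat_lit 92) (nat_lit 210)) (PT.lf (nat_lit 10564) (nat_lit 3) (nat_lit 139) (nat_lit 1) (nat_lit 209) (nat_lit 92) (nat_lit 209))) (PT.nd (nat_lit 52962) (PT.lf (nat_lit 10488) (nat_lit 6) (nat_lit 138) (nat_lit 1) (nat_lit 210) (nat_lit 92) (nat_lit 208)) (PT.nd (nat_lit 78) (PT.lf (nat_lit 10640) (nat_lit 6) (nat_lit 140) (nat_lit 3) (nat_lit 208) (nat_lit 93) (nat_lit 209)) (PT.lf (nat_lit 10640) (nat_lit 6) (nat_lit 140) (nat_lit 1) (nat_lit 209) (nat_lit 93) (nat_lit 208))))))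 (PT.nd (nat_lit 106158) (PT.nd (nat_lit 156) (PT.nd (nat_lit 78) (PT.lf (nat_lit 10716) (nat_lit 6) (nat_lit 141) (nat_lit 3) (nat_lit 207) (nat_lit 94) (nat_lit 209)) (PT.lf (nat_lit 10792) (nat_lit 3) (nat_lit 142) (nat_lit 1) (nat_lit 208) (nat_lit 94) (nat_lit 208))) (PT.nd (nat_lit 52962) (PT.lf (nat_lit 10716) (nat_lit 6) (nat_lit 141) (nat_lit 1) (nat_lit 209) (nat_lit 94) (nat_lit 207)) (PT.nd (nat_lit 78) (PT.lf (nat_lit 10868) (nat_lit 6) (nat_lit 143) (nat_lit 3) (nat_lit 207) (nat_lit 95) (nat_lit 208)) (PT.lf (nat_lit 10868) (nat_lit 6) (nat_lit 143) (nat_lit 1) (nat_lit 208) (nat_lit 95) (nat_lit 207))))) (PT.nd (nat_lit 156) (PT.nd (nat_lit 78) (PT.lf (nat_lit 10944) (nat_lit 6) (nat_lit 144) (nat_lit 3) (nat_lit 206) (nat_lit 96) (nat_lit 208)) (PT.lf (nat_lit 11020) (nat_lit 3) (nat_lit 145) (nat_lit 1) (nat_lit 207) (nat_lit 96) (nat_lit 207))) (PT.nd (nat_lit 52962) (PT.lf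 (nat_lit 10944) (nat_lit 6) (nat_lit 144) (nat_lit 1) (nat_lit 208) (nat_lit 96) (nat_lit 206)) (PT.nd (nat_lit 78) (PT.lf (nat_lit 11096) (nat_lit 6) (nat_lit 146) (nat_lit 3) (nat_lit 206) (nat_lit 97) (nat_lit 207)) (PT.lf (nat_lit 11096) (nat_lit 6) (nat_lit 146) (nat_lit 1) (nat_lit 207) (nat_lit 97) (nat_lit 206))))))))
noncomputable def pc4 : PT := (PT.nd (nat_lit 371592) (PT.nd (nat_lit 159354) (PT.nd (nat_lit 53196) (PT.nd (nat_lit 156) (PT.nd (nat_lit 78) (PT.lf (nat_lit 11172) (nat_lit 6) (nat_lit 147) (nat_lit 3) (nat_lit 205) (nat_lit 98) (nat_lit 207)) (PT.lf (nat_lit 11248) (nat_lit 3) (nat_lit 148) (nat_lit 1) (nat_lit 206) (nat_lit 98) (nat_lit 206))) (PT.nd (nat_lit 52962) (PT.lf (nat_lit 11172) (nat_lit 6) (nat_lit 147) (nat_lit 1) (nat_lit 207) (nat_lit 98) (nat_lit 205)) (PT.lf (nat_lit 11324) (nat_lit 6) (nat_lit 149) (nat_lit 3) (nat_lit 205) (nat_lit 99) (nat_lit 206))))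 (PT.nd (nat_lit 53040) (PT.nd (nat_lit 52962) (PT.lf (nat_lit 11324) (nat_lit 6) (nat_lit 149) (nat_lit 1) (nat_lit 206) (nat_lit 99) (nat_lit 205)) (PT.lf (nat_lit 11400) (nat_lit 6) (nat_lit 150) (nat_lit 3) (nat_lit 204) (nat_lit 100) (nat_lit 206))) (PT.nd (nat_lit 78) (PT.lf (nat_lit 11476) (nat_lit 3) (nat_lit 151) (nat_lit 1) (nat_lit 205) (nat_lit 100) (nat_lit 205)) (PT.nd (nat_lit 52962) (PT.lf (nat_lit 11400) (nat_lit 6) (nat_lit 150) (nat_lit 1) (nat_lit 206) (nat_lit 100) (nat_lit 204)) (PT.lf (nat_lit 11552) (nat_lit 6) (nat_lit 152) (nat_lit 3) (nat_lit 204) (nat_lit 101) (nat_lit 205)))))) (PT.nd (nat_lit 106080) (PT.nd (nat_lit 53040) (PT.nd (nat_lit 52962) (PT.lf (nat_lit 11552) (nat_lit 6) (nat_lit 152) (nat_lit 1) (nat_lit 205) (nat_lit 101) (nat_lit 204)) (PT.lf (nat_lit 11628) (nat_lit 6) (nat_lit 153) (nat_lit 3) (nat_lit 203) (nat_lit 102) (nat_lit 205))) (PT.nd (nat_lit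 78) (PT.lf (nat_lit 11704) (nat_lit 3) (nat_lit 154) (nat_lit 1) (nat_lit 204) (nat_lit 102) (nat_lit 204)) (PT.lf (nat_lit 11628) (nat_lit 6) (nat_lit 153) (nat_lit 1) (nat_lit 205) (nat_lit 102) (nat_lit 203)))) (PT.nd (nat_lit 53040) (PT.nd (nat_lit 78) (PT.lf (nat_lit 11780) (nat_lit 6) (nat_lit 155) (nat_lit 3) (nat_lit 203) (nat_lit 103) (nat_lit 204)) (PT.lf (nat_lit 11780) (nat_lit 6) (nat_lit 155) (nat_lit 1) (nat_lit 204) (nat_lit 103) (nat_lit 203))) (PT.nd (nat_lit 78) (PT.lf (nat_lit 11856) (nat_lit 6) (nat_lit 156) (nat_lit 3) (nat_lit 202) (nat_lit 104) (nat_lit 204)) (PT.nd (nat_lit 78) (PT.lf (nat_lit 11932) (nat_lit 3) (nat_lit 157) (nat_lit 1) (nat_lit 203) (nat_lit 104) (nat_lit 203)) (PT.lf (nat_lit 11856) (nat_lit 6) (nat_lit 156) (nat_lit 1) (nat_lit 204) (nat_lit 104) (nat_lit 202))))))) (PT.nd (nat_lit 159354) (PT.nd (nat_lit 53196) (PT.nd (nat_lit 53040) (PT.nd (nat_lit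 78) (PT.lf (nat_lit 12008) (nat_lit 6) (nat_lit 158) (nat_lit 3) (nat_lit 202) (nat_lit 105) (nat_lit 203)) (PT.lf (nat_lit 12008) (nat_lit 6) (nat_lit 158) (nat_lit 1) (nat_lit 203) (nat_lit 105) (nat_lit 202))) (PT.nd (nat_lit 78) (PT.lf (nat_lit 12084) (nat_lit 6) (nat_lit 159) (nat_lit 3) (nat_lit 201) (nat_lit 106) (nat_lit 203)) (PT.lf (nat_lit 12160) (nat_lit 3) (nat_lit 160) (nat_lit 1) (nat_lit 202) (nat_lit 106) (nat_lit 202)))) (PT.nd (nat_lit 53040) (PT.nd (nat_lit 52962) (PT.lf (nat_lit 12084) (nat_lit 6) (nat_lit 159) (nat_lit 1) (nat_lit 203) (nat_lit 106) (nat_lit 201)) (PT.lf (nat_lit 12236) (nat_lit 6) (nat_lit 161) (nat_lit 3) (nat_lit 201) (nat_lit 107) (nat_lit 202))) (PT.nd (nat_lit 52962) (PT.lf (nat_lit 12236) (nat_lit 6) (nat_lit 161) (nat_lit 1) (nat_lit 202) (nat_lit 107) (nat_lit 201)) (PT.nd (nat_lit 78) (PT.lf (nat_lit 12312) (nat_lit 6) (nat_lit 162) (nat_lit 3)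 (nat_lit 200) (nat_lit 108) (nat_lit 202)) (PT.lf (nat_lit 12388) (nat_lit 3) (nat_lit 163) (nat_lit 1) (nat_lit 201) (nat_lit 108) (nat_lit 201)))))) (PT.nd (nat_lit 106158) (PT.nd (nat_lit 53040) (PT.nd (nat_lit 52962) (PT.lf (nat_lit 12312) (nat_lit 6) (nat_lit 162) (nat_lit 1) (nat_lit 202) (nat_lit 108) (nat_lit 200)) (PT.lf (nat_lit 12464) (nat_lit 6) (nat_lit 164) (nat_lit 3) (nat_lit 200) (nat_lit 109) (nat_lit 201))) (PT.nd (nat_lit 52962) (PT.lf (nat_lit 12464) (nat_lit 6) (nat_lit 164) (nat_lit 1) (nat_lit 201) (nat_lit 109) (nat_lit 200)) (PT.nd (nat_lit 78) (PT.lf (nat_lit 12540) (nat_lit 6) (nat_lit 165) (nat_lit 3) (nat_lit 199) (nat_lit 110) (nat_lit 201)) (PT.lf (nat_lit 12616) (nat_lit 3) (nat_lit 166) (nat_lit 1) (nat_lit 200) (nat_lit 110) (nat_lit 200))))) (PT.nd (nat_lit 53040) (PT.nd (nat_lit 52962) (PT.lf (nat_lit 12540) (nat_lit 6) (nat_lit 165) (nat_lit 1) (nat_lit 201)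 (nat_lit 110) (nat_lit 199)) (PT.lf (nat_lit 12692) (nat_lit 6) (nat_lit 167) (nat_lit 3) (nat_lit 199) (nat_lit 111) (nat_lit 200))) (PT.nd (nat_lit 52962) (PT.lf (nat_lit 12692) (nat_lit 6) (nat_lit 167) (nat_lit 1) (nat_lit 200) (nat_lit 111) (nat_lit 199)) (PT.nd (nat_lit 78) (PT.lf (nat_lit 12768) (nat_lit 6) (nat_lit 168) (nat_lit 3) (nat_lit 198) (nat_lit 112) (nat_lit 200)) (PT.lf (nat_lit 12844) (nat_lit 3) (nat_lit 169) (nat_lit 1) (nat_lit 199) (nat_lit 112) (nat_lit 199))))))))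
noncomputable def pc5 : PT := (PT.nd (nat_lit 424554) (PT.nd (nat_lit 212238) (PT.nd (nat_lit 106080) (PT.nd (nat_lit 53040) (PT.nd (nat_lit 52962) (PT.lf (nat_lit 12768) (nat_lit 6) (nat_lit 168) (nat_lit 1) (nat_lit 200) (nat_lit 112) (nat_lit 198)) (PT.lf (nat_lit 12920) (nat_lit 6) (nat_lit 170) (nat_lit 3) (nat_lit 198) (nat_lit 113) (nat_lit 199))) (PT.nd (nat_lit 52962) (PT.lf (nat_lit 12920) (nat_lit 6) (nat_lit 170) (nat_lit 1) (nat_lit 199) (nat_lit 113) (nat_lit 198)) (PT.lf (nat_lit 12996) (nat_lit 6) (nat_lit 171) (nat_lit 3) (nat_lit 197) (nat_lit 114) (nat_lit 199)))) (PT.nd (nat_lit 53040) (PT.nd (nat_lit 78) (PT.lf (nat_lit 13072) (nat_lit 3) (nat_lit 172) (nat_lit 1) (nat_lit 198) (nat_lit 114) (nat_lit 198)) (PT.lf (nat_lit 12996) (nat_lit 6) (nat_lit 171) (nat_lit 1) (nat_lit 199) (nat_lit 114) (nat_lit 197))) (PT.nd (nat_lit 78) (PT.lf (nat_lit 13148) (nat_lit 6) (nat_lit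 173) (nat_lit 3) (nat_lit 197) (nat_lit 115) (nat_lit 198)) (PT.nd (nat_lit 52962) (PT.lf (nat_lit 13148) (nat_lit 6) (nat_lit 173) (nat_lit 1) (nat_lit 198) (nat_lit 115) (nat_lit 197)) (PT.lf (nat_lit 13224) (nat_lit 6) (nat_lit 174) (nat_lit 3) (nat_lit 196) (nat_lit 116) (nat_lit 198)))))) (PT.nd (nat_lit 106158) (PT.nd (nat_lit 53040) (PT.nd (nat_lit 78) (PT.lf (nat_lit 13300) (nat_lit 3) (nat_lit 175) (nat_lit 1) (nat_lit 197) (nat_lit 116) (nat_lit 197)) (PT.lf (nat_lit 13224) (nat_lit 6) (nat_lit 174) (nat_lit 1) (nat_lit 198) (nat_lit 116) (nat_lit 196))) (PT.nd (nat_lit 78) (PT.lf (nat_lit 13376) (nat_lit 6) (nat_lit 176) (nat_lit 3) (nat_lit 196) (nat_lit 117) (nat_lit 197)) (PT.nd (nat_lit 52962) (PT.lf (nat_lit 13376) (nat_lit 6) (nat_lit 176) (nat_lit 1) (nat_lit 197) (nat_lit 117) (nat_lit 196)) (PT.lf (nat_lit 13452) (nat_lit 6) (nat_lit 177) (nat_lit 3) (nat_lit 195) (nat_lit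 118) (nat_lit 197))))) (PT.nd (nat_lit 53040) (PT.nd (nat_lit 78) (PT.lf (nat_lit 13528) (nat_lit 3) (nat_lit 178) (nat_lit 1) (nat_lit 196) (nat_lit 118) (nat_lit 196)) (PT.lf (nat_lit 13452) (nat_lit 6) (nat_lit 177) (nat_lit 1) (nat_lit 197) (nat_lit 118) (nat_lit 195))) (PT.nd (nat_lit 78) (PT.lf (nat_lit 13604) (nat_lit 6) (nat_lit 179) (nat_lit 3) (nat_lit 195) (nat_lit 119) (nat_lit 196)) (PT.nd (nat_lit 52962) (PT.lf (nat_lit 13604) (nat_lit 6) (nat_lit 179) (nat_lit 1) (nat_lit 196) (nat_lit 119) (nat_lit 195)) (PT.lf (nat_lit 13680) (nat_lit 6) (nat_lit 180) (nat_lit 3) (nat_lit 194) (nat_lit 120) (nat_lit 196))))))) (PT.nd (nat_lit 212238) (PT.nd (nat_lit 106080) (PT.nd (nat_lit 53040) (PT.nd (nat_lit 78) (PT.lf (nat_lit 13756) (nat_lit 3) (nat_lit 181) (nat_lit 1) (nat_lit 195) (nat_lit 120) (nat_lit 195)) (PT.lf (nat_lit 13680) (nat_lit 6) (nat_lit 180) (nat_lit 1) (nat_lit 196)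 (nat_lit 120) (nat_lit 194))) (PT.nd (nat_lit 78) (PT.lf (nat_lit 13832) (nat_lit 6) (nat_lit 182) (nat_lit 3) (nat_lit 194) (nat_lit 121) (nat_lit 195)) (PT.lf (nat_lit 13832) (nat_lit 6) (nat_lit 182) (nat_lit 1) (nat_lit 195) (nat_lit 121) (nat_lit 194)))) (PT.nd (nat_lit 156) (PT.nd (nat_lit 78) (PT.lf (nat_lit 13908) (nat_lit 6) (nat_lit 183) (nat_lit 3) (nat_lit 193) (nat_lit 122) (nat_lit 195)) (PT.lf (nat_lit 13984) (nat_lit 3) (nat_lit 184) (nat_lit 1) (nat_lit 194) (nat_lit 122) (nat_lit 194))) (PT.nd (nat_lit 52962) (PT.lf (nat_lit 13908) (nat_lit 6) (nat_lit 183) (nat_lit 1) (nat_lit 195) (nat_lit 122) (nat_lit 193)) (PT.nd (nat_lit 78) (PT.lf (nat_lit 14060) (nat_lit 6) (nat_lit 185) (nat_lit 3) (nat_lit 193) (nat_lit 123) (nat_lit 194)) (PT.lf (nat_lit 14060) (nat_lit 6) (nat_lit 185) (nat_lit 1) (nat_lit 194) (nat_lit 123) (nat_lit 193)))))) (PT.nd (nat_lit 106158) (PT.nd (nat_lit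 156) (PT.nd (nat_lit 78) (PT.lf (nat_lit 14136) (nat_lit 6) (nat_lit 186) (nat_lit 3) (nat_lit 192) (nat_lit 124) (nat_lit 194)) (PT.lf (nat_lit 14212) (nat_lit 3) (nat_lit 187) (nat_lit 1) (nat_lit 193) (nat_lit 124) (nat_lit 193))) (PT.nd (nat_lit 52962) (PT.lf (nat_lit 14136) (nat_lit 6) (nat_lit 186) (nat_lit 1) (nat_lit 194) (nat_lit 124) (nat_lit 192)) (PT.nd (nat_lit 78) (PT.lf (nat_lit 14288) (nat_lit 6) (nat_lit 188) (nat_lit 3) (nat_lit 192) (nat_lit 125) (nat_lit 193)) (PT.lf (nat_lit 14288) (nat_lit 6) (nat_lit 188) (nat_lit 1) (nat_lit 193) (nat_lit 125) (nat_lit 192))))) (PT.nd (nat_lit 156) (PT.nd (nat_lit 78) (PT.lf (nat_lit 14364) (nat_lit 6) (nat_lit 189) (nat_lit 3) (nat_lit 191) (nat_lit 126) (nat_lit 193)) (PT.lf (nat_lit 14440) (nat_lit 3) (nat_lit 190) (nat_lit 1) (nat_lit 192) (nat_lit 126) (nat_lit 192))) (PT.nd (nat_lit 52962) (PT.lf (nat_lit 14364) (nat_lit 6) (nat_lit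 189) (nat_lit 1) (nat_lit 193) (nat_lit 126) (nat_lit 191)) (PT.nd (nat_lit 78) (PT.lf (nat_lit 14516) (nat_lit 6) (nat_lit 191) (nat_lit 3) (nat_lit 191) (nat_lit 127) (nat_lit 192)) (PT.lf (nat_lit 14516) (nat_lit 6) (nat_lit 191) (nat_lit 1) (nat_lit 192) (nat_lit 127) (nat_lit 191))))))))
noncomputable def pc6 : PT := (PT.nd (nat_lit 371670) (PT.nd (nat_lit 159354) (PT.nd (nat_lit 53196) (PT.nd (nat_lit 156) (PT.nd (nat_lit 78) (PT.lf (nat_lit 14592) (nat_lit 6) (nat_lit 192) (nat_lit 3) (nat_lit 190) (nat_lit 128) (nat_lit 192)) (PT.lf (nat_lit 14668) (nat_lit 3) (nat_lit 193) (nat_lit 1) (nat_lit 191) (nat_lit 128) (nat_lit 191))) (PT.nd (nat_lit 52962) (PT.lf (nat_lit 14592) (nat_lit 6) (nat_lit 192) (nat_lit 1) (nat_lit 192) (nat_lit 128) (nat_lit 190)) (PT.lf (nat_lit 14744) (nat_lit 6) (nat_lit 194) (nat_lit 3) (nat_lit 190) (nat_lit 129) (nat_lit 191)))) (PT.nd (nat_lit 53040) (PT.nd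 (nat_lit 52962) (PT.lf (nat_lit 14744) (nat_lit 6) (nat_lit 194) (nat_lit 1) (nat_lit 191) (nat_lit 129) (nat_lit 190)) (PT.lf (nat_lit 14820) (nat_lit 6) (nat_lit 195) (nat_lit 3) (nat_lit 189) (nat_lit 130) (nat_lit 191))) (PT.nd (nat_lit 78) (PT.lf (nat_lit 14896) (nat_lit 3) (nat_lit 196) (nat_lit 1) (nat_lit 190) (nat_lit 130) (nat_lit 190)) (PT.nd (nat_lit 52962) (PT.lf (nat_lit 14820) (nat_lit 6) (nat_lit 195) (nat_lit 1) (nat_lit 191) (nat_lit 130) (nat_lit 189)) (PT.lf (nat_lit 14972) (nat_lit 6) (nat_lit 197) (nat_lit 3) (nat_lit 189) (nat_lit 131) (nat_lit 190)))))) (PT.nd (nat_lit 106158) (PT.nd (nat_lit 53040) (PT.nd (nat_lit 52962) (PT.lf (nat_lit 14972) (nat_lit 6) (nat_lit 197) (nat_lit 1) (nat_lit 190) (nat_lit 131) (nat_lit 189)) (PT.lf (nat_lit 15048) (nat_lit 6) (nat_lit 198) (nat_lit 3) (nat_lit 188) (nat_lit 132) (nat_lit 190))) (PT.nd (nat_lit 78) (PT.lf (nat_lit 15124)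 (nat_lit 3) (nat_lit 199) (nat_lit 1) (nat_lit 189) (nat_lit 132) (nat_lit 189)) (PT.nd (nat_lit 52962) (PT.lf (nat_lit 15048) (nat_lit 6) (nat_lit 198) (nat_lit 1) (nat_lit 190) (nat_lit 132) (nat_lit 188)) (PT.lf (nat_lit 15200) (nat_lit 6) (nat_lit 200) (nat_lit 3) (nat_lit 188) (nat_lit 133) (nat_lit 189))))) (PT.nd (nat_lit 53040) (PT.nd (nat_lit 52962) (PT.lf (nat_lit 15200) (nat_lit 6) (nat_lit 200) (nat_lit 1) (nat_lit 189) (nat_lit 133) (nat_lit 188)) (PT.lf (nat_lit 15276) (nat_lit 6) (nat_lit 201) (nat_lit 3) (nat_lit 187) (nat_lit 134) (nat_lit 189))) (PT.nd (nat_lit 78) (PT.lf (nat_lit 15352) (nat_lit 3) (nat_lit 202) (nat_lit 1) (nat_lit 188) (nat_lit 134) (nat_lit 188)) (PT.nd (nat_lit 52962) (PT.lf (nat_lit 15276) (nat_lit 6) (nat_lit 201) (nat_lit 1) (nat_lit 189) (nat_lit 134) (nat_lit 187)) (PT.lf (nat_lit 15428) (nat_lit 6) (nat_lit 203) (nat_lit 3) (nat_lit 187) (nat_lit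 135) (nat_lit 188))))))) (PT.nd (nat_lit 212238) (PT.nd (nat_lit 106080) (PT.nd (nat_lit 53040) (PT.nd (nat_lit 52962) (PT.lf (nat_lit 15428) (nat_lit 6) (nat_lit 203) (nat_lit 1) (nat_lit 188) (nat_lit 135) (nat_lit 187)) (PT.lf (nat_lit 15504) (nat_lit 6) (nat_lit 204) (nat_lit 3) (nat_lit 186) (nat_lit 136) (nat_lit 188))) (PT.nd (nat_lit 78) (PT.lf (nat_lit 15580) (nat_lit 3) (nat_lit 205) (nat_lit 1) (nat_lit 187) (nat_lit 136) (nat_lit 187)) (PT.lf (nat_lit 15504) (nat_lit 6) (nat_lit 204) (nat_lit 1) (nat_lit 188) (nat_lit 136) (nat_lit 186)))) (PT.nd (nat_lit 53040) (PT.nd (nat_lit 78) (PT.lf (nat_lit 15656) (nat_lit 6) (nat_lit 206) (nat_lit 3) (nat_lit 186) (nat_lit 137) (nat_lit 187)) (PT.lf (nat_lit 15656) (nat_lit 6) (nat_lit 206) (nat_lit 1) (nat_lit 187) (nat_lit 137) (nat_lit 186))) (PT.nd (nat_lit 78) (PT.lf (nat_lit 15732) (nat_lit 6) (nat_lit 207) (nat_lit 3) (nat_lit 185)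 (nat_lit 138) (nat_lit 187)) (PT.nd (nat_lit 78) (PT.lf (nat_lit 15808) (nat_lit 3) (nat_lit 208) (nat_lit 1) (nat_lit 186) (nat_lit 138) (nat_lit 186)) (PT.lf (nat_lit 15732) (nat_lit 6) (nat_lit 207) (nat_lit 1) (nat_lit 187) (nat_lit 138) (nat_lit 185)))))) (PT.nd (nat_lit 106158) (PT.nd (nat_lit 53040) (PT.nd (nat_lit 78) (PT.lf (nat_lit 15884) (nat_lit 6) (nat_lit 209) (nat_lit 3) (nat_lit 185) (nat_lit 139) (nat_lit 186)) (PT.lf (nat_lit 15884) (nat_lit 6) (nat_lit 209) (nat_lit 1) (nat_lit 186) (nat_lit 139) (nat_lit 185))) (PT.nd (nat_lit 78) (PT.lf (nat_lit 15960) (nat_lit 6) (nat_lit 210) (nat_lit 3) (nat_lit 184) (nat_lit 140) (nat_lit 186)) (PT.nd (nat_lit 78) (PT.lf (nat_lit 16036) (nat_lit 3) (nat_lit 211) (nat_lit 1) (nat_lit 185) (nat_lit 140) (nat_lit 185)) (PT.lf (nat_lit 15960) (nat_lit 6) (nat_lit 210) (nat_lit 1) (nat_lit 186) (nat_lit 140) (nat_lit 184))))) (PT.nd (nat_lit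 53040) (PT.nd (nat_lit 78) (PT.lf (nat_lit 16112) (nat_lit 6) (nat_lit 212) (nat_lit 3) (nat_lit 184) (nat_lit 141) (nat_lit 185)) (PT.lf (nat_lit 16112) (nat_lit 6) (nat_lit 212) (nat_lit 1) (nat_lit 185) (nat_lit 141) (nat_lit 184))) (PT.nd (nat_lit 78) (PT.lf (nat_lit 16188) (nat_lit 6) (nat_lit 213) (nat_lit 3) (nat_lit 183) (nat_lit 142) (nat_lit 185)) (PT.nd (nat_lit 78) (PT.lf (nat_lit 16264) (nat_lit 3) (nat_lit 214) (nat_lit 1) (nat_lit 184) (nat_lit 142) (nat_lit 184)) (PT.lf (nat_lit 16188) (nat_lit 6) (nat_lit 213) (nat_lit 1) (nat_lit 185) (nat_lit 142) (nat_lit 183))))))))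
noncomputable def pc7 : PT := (PT.nd (nat_lit 371514) (PT.nd (nat_lit 159354) (PT.nd (nat_lit 53196) (PT.nd (nat_lit 53040) (PT.nd (nat_lit 78) (PT.lf (nat_lit 16340) (nat_lit 6) (nat_lit 215) (nat_lit 3) (nat_lit 183) (nat_lit 143) (nat_lit 184)) (PT.lf (nat_lit 16340) (nat_lit 6) (nat_lit 215) (nat_lit 1) (nat_lit 184) (nat_lit 143) (nat_lit 183))) (PT.nd (nat_lit 78) (PT.lf (nat_lit 16416) (nat_lit 6) (nat_lit 216) (nat_lit 3) (nat_lit 182) (nat_lit 144) (nat_lit 184)) (PT.lf (nat_lit 16492) (nat_lit 3) (nat_lit 217) (nat_lit 1) (nat_lit 183) (nat_lit 144) (nat_lit 183)))) (PT.nd (nat_lit 53040) (PT.nd (nat_lit 52962) (PT.lf (nat_lit 16416) (nat_lit 6) (nat_lit 216) (nat_lit 1) (nat_lit 184) (nat_lit 144) (nat_lit 182)) (PT.lf (nat_lit 16568) (nat_lit 6) (nat_lit 218) (nat_lit 3) (nat_lit 182) (nat_lit 145) (nat_lit 183))) (PT.nd (nat_lit 52962) (PT.lf (nat_lit 16568) (nat_lit 6) (nat_lit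 218) (nat_lit 1) (nat_lit 183) (nat_lit 145) (nat_lit 182)) (PT.nd (nat_lit 78) (PT.lf (nat_lit 16644) (nat_lit 6) (nat_lit 219) (nat_lit 3) (nat_lit 181) (nat_lit 146) (nat_lit 183)) (PT.lf (nat_lit 16720) (nat_lit 3) (nat_lit 220) (nat_lit 1) (nat_lit 182) (nat_lit 146) (nat_lit 182)))))) (PT.nd (nat_lit 106158) (PT.nd (nat_lit 53040) (PT.nd (nat_lit 52962) (PT.lf (nat_lit 16644) (nat_lit 6) (nat_lit 219) (nat_lit 1) (nat_lit 183) (nat_lit 146) (nat_lit 181)) (PT.lf (nat_lit 16796) (nat_lit 6) (nat_lit 221) (nat_lit 3) (nat_lit 181) (nat_lit 147) (nat_lit 182))) (PT.nd (nat_lit 52962) (PT.lf (nat_lit 16796) (nat_lit 6) (nat_lit 221) (nat_lit 1) (nat_lit 182) (nat_lit 147) (nat_lit 181)) (PT.nd (nat_lit 78) (PT.lf (nat_lit 16872) (nat_lit 6) (nat_lit 222) (nat_lit 3) (nat_lit 180) (nat_lit 148) (nat_lit 182)) (PT.lf (nat_lit 16948) (nat_lit 3) (nat_lit 223) (nat_lit 1) (nat_lit 181) (nat_lit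 148) (nat_lit 181))))) (PT.nd (nat_lit 52962) (PT.nd (nat_lit 52884) (PT.lf (nat_lit 16872) (nat_lit 6) (nat_lit 222) (nat_lit 1) (nat_lit 182) (nat_lit 148) (nat_lit 180)) (PT.lf (nat_lit 17024) (nat_lit 6) (nat_lit 224) (nat_lit 3) (nat_lit 179) (nat_lit 149) (nat_lit 182))) (PT.nd (nat_lit 78) (PT.lf (nat_lit 17100) (nat_lit 6) (nat_lit 225) (nat_lit 3) (nat_lit 180) (nat_lit 149) (nat_lit 181)) (PT.nd (nat_lit 78) (PT.lf (nat_lit 17100) (nat_lit 6) (nat_lit 225) (nat_lit 1) (nat_lit 181) (nat_lit 149) (nat_lit 180)) (PT.lf (nat_lit 17024) (nat_lit 6) (nat_lit 224) (nat_lit 1) (nat_lit 182) (nat_lit 149) (nat_lit 179))))))) (PT.nd (nat_lit 106314) (PT.nd (nat_lit 53118) (PT.nd (nat_lit 156) (PT.nd (nat_lit 78) (PT.lf (nat_lit 17176) (nat_lit 6) (nat_lit 226) (nat_lit 3) (nat_lit 179) (nat_lit 150) (nat_lit 181)) (PT.lf (nat_lit 17252) (nat_lit 3) (nat_lit 227) (nat_lit 1) (nat_lit 180) (nat_lit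 150) (nat_lit 180))) (PT.nd (nat_lit 52884) (PT.lf (nat_lit 17176) (nat_lit 6) (nat_lit 226) (nat_lit 1) (nat_lit 181) (nat_lit 150) (nat_lit 179)) (PT.lf (nat_lit 17328) (nat_lit 6) (nat_lit 228) (nat_lit 3) (nat_lit 178) (nat_lit 151) (nat_lit 181)))) (PT.nd (nat_lit 156) (PT.nd (nat_lit 78) (PT.lf (nat_lit 17404) (nat_lit 6) (nat_lit 229) (nat_lit 3) (nat_lit 179) (nat_lit 151) (nat_lit 180)) (PT.lf (nat_lit 17404) (nat_lit 6) (nat_lit 229) (nat_lit 1) (nat_lit 180) (nat_lit 151) (nat_lit 179))) (PT.nd (nat_lit 52884) (PT.lf (nat_lit 17328) (nat_lit 6) (nat_lit 228) (nat_lit 1) (nat_lit 181) (nat_lit 151) (nat_lit 178)) (PT.nd (nat_lit 78) (PT.lf (nat_lit 17480) (nat_lit 6) (nat_lit 230) (nat_lit 3) (nat_lit 178) (nat_lit 152) (nat_lit 180)) (PT.lf (nat_lit 17556) (nat_lit 3) (nat_lit 231) (nat_lit 1) (nat_lit 179) (nat_lit 152) (nat_lit 179)))))) (PT.nd (nat_lit 105924) (PT.nd (nat_lit 52962)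 (PT.nd (nat_lit 52884) (PT.lf (nat_lit 17480) (nat_lit 6) (nat_lit 230) (nat_lit 1) (nat_lit 180) (nat_lit 152) (nat_lit 178)) (PT.lf (nat_lit 17632) (nat_lit 6) (nat_lit 232) (nat_lit 3) (nat_lit 177) (nat_lit 153) (nat_lit 180))) (PT.nd (nat_lit 78) (PT.lf (nat_lit 17708) (nat_lit 6) (nat_lit 233) (nat_lit 3) (nat_lit 178) (nat_lit 153) (nat_lit 179)) (PT.nd (nat_lit 78) (PT.lf (nat_lit 17708) (nat_lit 6) (nat_lit 233) (nat_lit 1) (nat_lit 179) (nat_lit 153) (nat_lit 178)) (PT.lf (nat_lit 17632) (nat_lit 6) (nat_lit 232) (nat_lit 1) (nat_lit 180) (nat_lit 153) (nat_lit 177))))) (PT.nd (nat_lit 156) (PT.nd (nat_lit 78) (PT.lf (nat_lit 17784) (nat_lit 6) (nat_lit 234) (nat_lit 3) (nat_lit 176) (nat_lit 154) (nat_lit 180)) (PT.lf (nat_lit 17860) (nat_lit 6) (nat_lit 235) (nat_lit 3) (nat_lit 177) (nat_lit 154) (nat_lit 179))) (PT.nd (nat_lit 78) (PT.lf (nat_lit 17936) (nat_lit 3) (nat_lit 236)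 (nat_lit 1) (nat_lit 178) (nat_lit 154) (nat_lit 178)) (PT.nd (nat_lit 78) (PT.lf (nat_lit 17860) (nat_lit 6) (nat_lit 235) (nat_lit 1) (nat_lit 179) (nat_lit 154) (nat_lit 177)) (PT.lf (nat_lit 17784) (nat_lit 6) (nat_lit 234) (nat_lit 1) (nat_lit 180) (nat_lit 154) (nat_lit 176))))))))
noncomputable def pc8 : PT := (PT.nd (nat_lit 212238) (PT.nd (nat_lit 106158) (PT.nd (nat_lit 53040) (PT.nd (nat_lit 156) (PT.nd (nat_lit 78) (PT.lf (nat_lit 18012) (nat_lit 6) (nat_lit 237) (nat_lit 3) (nat_lit 176) (nat_lit 155) (nat_lit 179)) (PT.lf (nat_lit 18088) (nat_lit 6) (nat_lit 238) (nat_lit 3) (nat_lit 177) (nat_lit 155) (nat_lit 178))) (PT.nd (nat_lit 78) (PT.lf (nat_lit 18088) (nat_lit 6) (nat_lit 238) (nat_lit 1) (nat_lit 178) (nat_lit 155) (nat_lit 177)) (PT.lf (nat_lit 18012) (nat_lit 6) (nat_lit 237) (nat_lit 1) (nat_lit 179) (nat_lit 155) (nat_lit 176)))) (PT.nd (nat_lit 156) (PT.nd (nat_lit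 78) (PT.lf (nat_lit 18164) (nat_lit 6) (nat_lit 239) (nat_lit 3) (nat_lit 175) (nat_lit 156) (nat_lit 179)) (PT.lf (nat_lit 18240) (nat_lit 6) (nat_lit 240) (nat_lit 3) (nat_lit 176) (nat_lit 156) (nat_lit 178))) (PT.nd (nat_lit 78) (PT.lf (nat_lit 18316) (nat_lit 3) (nat_lit 241) (nat_lit 1) (nat_lit 177) (nat_lit 156) (nat_lit 177)) (PT.nd (nat_lit 78) (PT.lf (nat_lit 18240) (nat_lit 6) (nat_lit 240) (nat_lit 1) (nat_lit 178) (nat_lit 156) (nat_lit 176)) (PT.lf (nat_lit 18164) (nat_lit 6) (nat_lit 239) (nat_lit 1) (nat_lit 179) (nat_lit 156) (nat_lit 175)))))) (PT.nd (nat_lit 53040) (PT.nd (nat_lit 156) (PT.nd (nat_lit 78) (PT.lf (nat_lit 18392) (nat_lit 6) (nat_lit 242) (nat_lit 3) (nat_lit 175) (nat_lit 157) (nat_lit 178)) (PT.lf (nat_lit 18468) (nat_lit 6) (nat_lit 243) (nat_lit 3) (nat_lit 176) (nat_lit 157) (nat_lit 177))) (PT.nd (nat_lit 78) (PT.lf (nat_lit 18468) (nat_lit 6) (nat_lit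 243) (nat_lit 1) (nat_lit 177) (nat_lit 157) (nat_lit 176)) (PT.lf (nat_lit 18392) (nat_lit 6) (nat_lit 242) (nat_lit 1) (nat_lit 178) (nat_lit 157) (nat_lit 175)))) (PT.nd (nat_lit 156) (PT.nd (nat_lit 78) (PT.lf (nat_lit 18544) (nat_lit 6) (nat_lit 244) (nat_lit 3) (nat_lit 174) (nat_lit 158) (nat_lit 178)) (PT.lf (nat_lit 18620) (nat_lit 6) (nat_lit 245) (nat_lit 3) (nat_lit 175) (nat_lit 158) (nat_lit 177))) (PT.nd (nat_lit 78) (PT.lf (nat_lit 18696) (nat_lit 3) (nat_lit 246) (nat_lit 1) (nat_lit 176) (nat_lit 158) (nat_lit 176)) (PT.nd (nat_lit 78) (PT.lf (nat_lit 18620) (nat_lit 6) (nat_lit 245) (nat_lit 1) (nat_lit 177) (nat_lit 158) (nat_lit 175)) (PT.lf (nat_lit 18544) (nat_lit 6) (nat_lit 244) (nat_lit 1) (nat_lit 178) (nat_lit 158) (nat_lit 174))))))) (PT.nd (nat_lit 53274) (PT.nd (nat_lit 312) (PT.nd (nat_lit 156) (PT.nd (nat_lit 78) (PT.lf (nat_lit 18772) (nat_lit 6) (nat_lit 247)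 (nat_lit 3) (nat_lit 173) (nat_lit 159) (nat_lit 178)) (PT.lf (nat_lit 18848) (nat_lit 6) (nat_lit 248) (nat_lit 3) (nat_lit 174) (nat_lit 159) (nat_lit 177))) (PT.nd (nat_lit 78) (PT.lf (nat_lit 18924) (nat_lit 6) (nat_lit 249) (nat_lit 3) (nat_lit 175) (nat_lit 159) (nat_lit 176)) (PT.lf (nat_lit 18924) (nat_lit 6) (nat_lit 249) (nat_lit 1) (nat_lit 176) (nat_lit 159) (nat_lit 175)))) (PT.nd (nat_lit 52728) (PT.nd (nat_lit 78) (PT.lf (nat_lit 18848) (nat_lit 6) (nat_lit 248) (nat_lit 1) (nat_lit 177) (nat_lit 159) (nat_lit 174)) (PT.lf (nat_lit 18772) (nat_lit 6) (nat_lit 247) (nat_lit 1) (nat_lit 178) (nat_lit 159) (nat_lit 173))) (PT.nd (nat_lit 78) (PT.lf (nat_lit 19000) (nat_lit 6) (nat_lit 250) (nat_lit 3) (nat_lit 172) (nat_lit 160) (nat_lit 178)) (PT.nd (nat_lit 78) (PT.lf (nat_lit 19076) (nat_lit 6) (nat_lit 251) (nat_lit 3) (nat_lit 173) (nat_lit 160) (nat_lit 177)) (PT.lf (nat_lit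 19152) (nat_lit 6) (nat_lit 252) (nat_lit 3) (nat_lit 174) (nat_lit 160) (nat_lit 176)))))) (PT.nd (nat_lit 52962) (PT.nd (nat_lit 156) (PT.nd (nat_lit 78) (PT.lf (nat_lit 19228) (nat_lit 3) (nat_lit 253) (nat_lit 1) (nat_lit 175) (nat_lit 160) (nat_lit 175)) (PT.lf (nat_lit 19152) (nat_lit 6) (nat_lit 252) (nat_lit 1) (nat_lit 176) (nat_lit 160) (nat_lit 174))) (PT.nd (nat_lit 78) (PT.lf (nat_lit 19076) (nat_lit 6) (nat_lit 251) (nat_lit 1) (nat_lit 177) (nat_lit 160) (nat_lit 173)) (PT.nd (nat_lit 52650) (PT.lf (nat_lit 19000) (nat_lit 6) (nat_lit 250) (nat_lit 1) (nat_lit 178) (nat_lit 160) (nat_lit 172)) (PT.lf (nat_lit 19304) (nat_lit 6) (nat_lit 254) (nat_lit 3) (nat_lit 172) (nat_lit 161) (nat_lit 177))))) (PT.nd (nat_lit 156) (PT.nd (nat_lit 78) (PT.lf (nat_lit 19380) (nat_lit 6) (nat_lit 255) (nat_lit 3) (nat_lit 173) (nat_lit 161) (nat_lit 176)) (PT.lf (nat_lit 19456) (nat_lit 6) (nat_lit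 256) (nat_lit 3) (nat_lit 174) (nat_lit 161) (nat_lit 175))) (PT.nd (nat_lit 78) (PT.lf (nat_lit 19456) (nat_lit 6) (nat_lit 256) (nat_lit 1) (nat_lit 175) (nat_lit 161) (nat_lit 174)) (PT.nd (nat_lit 78) (PT.lf (nat_lit 19380) (nat_lit 6) (nat_lit 255) (nat_lit 1) (nat_lit 176) (nat_lit 161) (nat_lit 173)) (PT.lf (nat_lit 19304) (nat_lit 6) (nat_lit 254) (nat_lit 1) (nat_lit 177) (nat_lit 161) (nat_lit 172))))))))
noncomputable def pc9 : PT := (PT.nd (nat_lit 106392) (PT.nd (nat_lit 53196) (PT.nd (nat_lit 312) (PT.nd (nat_lit 156) (PT.nd (nat_lit 78) (PT.lf (nat_lit 19532) (nat_lit 6) (nat_lit 257) (nat_lit 3) (nat_lit 171) (nat_lit 162) (nat_lit 177)) (PT.lf (nat_lit 19608) (nat_lit 6) (nat_lit 258) (nat_lit 3) (nat_lit 172) (nat_lit 162) (nat_lit 176))) (PT.nd (nat_lit 78) (PT.lf (nat_lit 19684) (nat_lit 6) (nat_lit 259) (nat_lit 3) (nat_lit 173) (nat_lit 162) (nat_lit 175)) (PT.lf (nat_lit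 19760) (nat_lit 3) (nat_lit 260) (nat_lit 1) (nat_lit 174) (nat_lit 162) (nat_lit 174)))) (PT.nd (nat_lit 156) (PT.nd (nat_lit 78) (PT.lf (nat_lit 19684) (nat_lit 6) (nat_lit 259) (nat_lit 1) (nat_lit 175) (nat_lit 162) (nat_lit 173)) (PT.lf (nat_lit 19608) (nat_lit 6) (nat_lit 258) (nat_lit 1) (nat_lit 176) (nat_lit 162) (nat_lit 172))) (PT.nd (nat_lit 52572) (PT.lf (nat_lit 19532) (nat_lit 6) (nat_lit 257) (nat_lit 1) (nat_lit 177) (nat_lit 162) (nat_lit 171)) (PT.nd (nat_lit 78) (PT.lf (nat_lit 20064) (nat_lit 6) (nat_lit 264) (nat_lit 3) (nat_lit 170) (nat_lit 163) (nat_lit 177)) (PT.lf (nat_lit 20140) (nat_lit 6) (nat_lit 265) (nat_lit 3) (nat_lit 171) (nat_lit 163) (nat_lit 176)))))) (PT.nd (nat_lit 390) (PT.nd (nat_lit 156) (PT.nd (nat_lit 78) (PT.lf (nat_lit 20216) (nat_lit 6) (nat_lit 266) (nat_lit 3) (nat_lit 172) (nat_lit 163) (nat_lit 175)) (PT.lf (nat_lit 20292) (nat_lit 6) (nat_lit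 267) (nat_lit 3) (nat_lit 173) (nat_lit 163) (nat_lit 174))) (PT.nd (nat_lit 78) (PT.lf (nat_lit 20292) (nat_lit 6) (nat_lit 267) (nat_lit 1) (nat_lit 174) (nat_lit 163) (nat_lit 173)) (PT.nd (nat_lit 78) (PT.lf (nat_lit 20216) (nat_lit 6) (nat_lit 266) (nat_lit 1) (nat_lit 175) (nat_lit 163) (nat_lit 172)) (PT.lf (nat_lit 20140) (nat_lit 6) (nat_lit 265) (nat_lit 1) (nat_lit 176) (nat_lit 163) (nat_lit 171))))) (PT.nd (nat_lit 52572) (PT.nd (nat_lit 52494) (PT.lf (nat_lit 20064) (nat_lit 6) (nat_lit 264) (nat_lit 1) (nat_lit 177) (nat_lit 163) (nat_lit 170)) (PT.lf (nat_lit 19988) (nat_lit 6) (nat_lit 263) (nat_lit 3) (nat_lit 169) (nat_lit 164) (nat_lit 177))) (PT.nd (nat_lit 78) (PT.lf (nat_lit 20596) (nat_lit 6) (nat_lit 271) (nat_lit 3) (nat_lit 170) (nat_lit 164) (nat_lit 176)) (PT.nd (nat_lit 78) (PT.lf (nat_lit 20672) (nat_lit 6) (nat_lit 272) (nat_lit 3) (nat_lit 171) (nat_lit 164) (nat_lit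 175)) (PT.lf (nat_lit 20748) (nat_lit 6) (nat_lit 273) (nat_lit 3) (nat_lit 172) (nat_lit 164) (nat_lit 174))))))) (PT.nd (nat_lit 53040) (PT.nd (nat_lit 312) (PT.nd (nat_lit 156) (PT.nd (nat_lit 78) (PT.lf (nat_lit 20824) (nat_lit 3) (nat_lit 274) (nat_lit 1) (nat_lit 173) (nat_lit 164) (nat_lit 173)) (PT.lf (nat_lit 20748) (nat_lit 6) (nat_lit 273) (nat_lit 1) (nat_lit 174) (nat_lit 164) (nat_lit 172))) (PT.nd (nat_lit 78) (PT.lf (nat_lit 20672) (nat_lit 6) (nat_lit 272) (nat_lit 1) (nat_lit 175) (nat_lit 164) (nat_lit 171)) (PT.lf (nat_lit 20596) (nat_lit 6) (nat_lit 271) (nat_lit 1) (nat_lit 176) (nat_lit 164) (nat_lit 170)))) (PT.nd (nat_lit 52494) (PT.nd (nat_lit 52416) (PT.lf (nat_lit 19988) (nat_lit 6) (nat_lit 263) (nat_lit 1) (nat_lit 177) (nat_lit 164) (nat_lit 169)) (PT.lf (nat_lit 19912) (nat_lit 6) (nat_lit 262) (nat_lit 3) (nat_lit 168) (nat_lit 165) (nat_lit 177))) (PT.nd (nat_lit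 78) (PT.lf (nat_lit 20520) (nat_lit 6) (nat_lit 270) (nat_lit 3) (nat_lit 169) (nat_lit 165) (nat_lit 176)) (PT.nd (nat_lit 78) (PT.lf (nat_lit 21052) (nat_lit 6) (nat_lit 277) (nat_lit 3) (nat_lit 170) (nat_lit 165) (nat_lit 175)) (PT.lf (nat_lit 21128) (nat_lit 6) (nat_lit 278) (nat_lit 3) (nat_lit 171) (nat_lit 165) (nat_lit 174)))))) (PT.nd (nat_lit 390) (PT.nd (nat_lit 156) (PT.nd (nat_lit 78) (PT.lf (nat_lit 21204) (nat_lit 6) (nat_lit 279) (nat_lit 3) (nat_lit 172) (nat_lit 165) (nat_lit 173)) (PT.lf (nat_lit 21204) (nat_lit 6) (nat_lit 279) (nat_lit 1) (nat_lit 173) (nat_lit 165) (nat_lit 172))) (PT.nd (nat_lit 78) (PT.lf (nat_lit 21128) (nat_lit 6) (nat_lit 278) (nat_lit 1) (nat_lit 174) (nat_lit 165) (nat_lit 171)) (PT.nd (nat_lit 78) (PT.lf (nat_lit 21052) (nat_lit 6) (nat_lit 277) (nat_lit 1) (nat_lit 175) (nat_lit 165) (nat_lit 170)) (PT.lf (nat_lit 20520) (nat_lit 6) (nat_lit 270)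 (nat_lit 1) (nat_lit 176) (nat_lit 165) (nat_lit 169))))) (PT.nd (nat_lit 52416) (PT.nd (nat_lit 52338) (PT.lf (nat_lit 19912) (nat_lit 6) (nat_lit 262) (nat_lit 1) (nat_lit 177) (nat_lit 165) (nat_lit 168)) (PT.lf (nat_lit 19836) (nat_lit 6) (nat_lit 261) (nat_lit 3) (nat_lit 167) (nat_lit 166) (nat_lit 177))) (PT.nd (nat_lit 78) (PT.lf (nat_lit 20444) (nat_lit 6) (nat_lit 269) (nat_lit 3) (nat_lit 168) (nat_lit 166) (nat_lit 176)) (PT.nd (nat_lit 78) (PT.lf (nat_lit 20976) (nat_lit 6) (nat_lit 276) (nat_lit 3) (nat_lit 169) (nat_lit 166) (nat_lit 175)) (PT.lf (nat_lit 21432) (nat_lit 6) (nat_lit 282) (nat_lit 3) (nat_lit 170) (nat_lit 166) (nat_lit 174))))))))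
noncomputable def pc10 : PT := (PT.nd (nat_lit 53586) (PT.nd (nat_lit 52884) (PT.nd (nat_lit 312) (PT.nd (nat_lit 156) (PT.nd (nat_lit 78) (PT.lf (nat_lit 21508) (nat_lit 6) (nat_lit 283) (nat_lit 3) (nat_lit 171) (nat_lit 166) (nat_lit 173)) (PT.lf (nat_lit 21584) (nat_lit 3) (nat_lit 284) (nat_lit 1) (nat_lit 172) (nat_lit 166) (nat_lit 172))) (PT.nd (nat_lit 78) (PT.lf (nat_lit 21508) (nat_lit 6) (nat_lit 283) (nat_lit 1) (nat_lit 173) (nat_lit 166) (nat_lit 171)) (PT.lf (nat_lit 21432) (nat_lit 6) (nat_lit 282) (nat_lit 1) (nat_lit 174) (nat_lit 166) (nat_lit 170)))) (PT.nd (nat_lit 156) (PT.nd (nat_lit 78) (PT.lf (nat_lit 20976) (nat_lit 6) (nat_lit 276) (nat_lit 1) (nat_lit 175) (nat_lit 166) (nat_lit 169)) (PT.lf (nat_lit 20444) (nat_lit 6) (nat_lit 269) (nat_lit 1) (nat_lit 176) (nat_lit 166) (nat_lit 168))) (PT.nd (nat_lit 52260) (PT.lf (nat_lit 19836) (nat_lit 6) (nat_lit 261) (nat_lit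 1) (nat_lit 177) (nat_lit 166) (nat_lit 167)) (PT.nd (nat_lit 78) (PT.lf (nat_lit 19836) (nat_lit 6) (nat_lit 261) (nat_lit 5) (nat_lit 166) (nat_lit 167) (nat_lit 177)) (PT.lf (nat_lit 20368) (nat_lit 3) (nat_lit 268) (nat_lit 3) (nat_lit 167) (nat_lit 167) (nat_lit 176)))))) (PT.nd (nat_lit 312) (PT.nd (nat_lit 156) (PT.nd (nat_lit 78) (PT.lf (nat_lit 20900) (nat_lit 6) (nat_lit 275) (nat_lit 3) (nat_lit 168) (nat_lit 167) (nat_lit 175)) (PT.lf (nat_lit 21356) (nat_lit 6) (nat_lit 281) (nat_lit 3) (nat_lit 169) (nat_lit 167) (nat_lit 174))) (PT.nd (nat_lit 78) (PT.lf (nat_lit 21736) (nat_lit 6) (nat_lit 286) (nat_lit 3) (nat_lit 170) (nat_lit 167) (nat_lit 173)) (PT.lf (nat_lit 21812) (nat_lit 6) (nat_lit 287) (nat_lit 3) (nat_lit 171) (nat_lit 167) (nat_lit 172)))) (PT.nd (nat_lit 156) (PT.nd (nat_lit 78) (PT.lf (nat_lit 21812) (nat_lit 6) (nat_lit 287) (nat_lit 1) (nat_lit 172) (nat_lit 167)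 (nat_lit 171)) (PT.lf (nat_lit 21736) (nat_lit 6) (nat_lit 286) (nat_lit 1) (nat_lit 173) (nat_lit 167) (nat_lit 170))) (PT.nd (nat_lit 78) (PT.lf (nat_lit 21356) (nat_lit 6) (nat_lit 281) (nat_lit 1) (nat_lit 174) (nat_lit 167) (nat_lit 169)) (PT.nd (nat_lit 78) (PT.lf (nat_lit 20900) (nat_lit 6) (nat_lit 275) (nat_lit 1) (nat_lit 175) (nat_lit 167) (nat_lit 168)) (PT.lf (nat_lit 20368) (nat_lit 3) (nat_lit 268) (nat_lit 0) (nat_lit 176) (nat_lit 167) (nat_lit 167))))))) (PT.nd (nat_lit 52806) (PT.nd (nat_lit 52416) (PT.nd (nat_lit 52260) (PT.nd (nat_lit 52182) (PT.lf (nat_lit 19836) (nat_lit 6) (nat_lit 261) (nat_lit 0) (nat_lit 177) (nat_lit 167) (nat_lit 166)) (PT.lf (nat_lit 19912) (nat_lit 6) (nat_lit 262) (nat_lit 5) (nat_lit 165) (nat_lit 168) (nat_lit 177))) (PT.nd (nat_lit 78) (PT.lf (nat_lit 20444) (nat_lit 6) (nat_lit 269) (nat_lit 5) (nat_lit 166) (nat_lit 168) (nat_lit 176)) (PT.lf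 (nat_lit 20900) (nat_lit 6) (nat_lit 275) (nat_lit 5) (nat_lit 167) (nat_lit 168) (nat_lit 175)))) (PT.nd (nat_lit 156) (PT.nd (nat_lit 78) (PT.lf (nat_lit 21280) (nat_lit 3) (nat_lit 280) (nat_lit 3) (nat_lit 168) (nat_lit 168) (nat_lit 174)) (PT.lf (nat_lit 21660) (nat_lit 6) (nat_lit 285) (nat_lit 3) (nat_lit 169) (nat_lit 168) (nat_lit 173))) (PT.nd (nat_lit 78) (PT.lf (nat_lit 21964) (nat_lit 6) (nat_lit 289) (nat_lit 3) (nat_lit 170) (nat_lit 168) (nat_lit 172)) (PT.nd (nat_lit 78) (PT.lf (nat_lit 22040) (nat_lit 3) (nat_lit 290) (nat_lit 1) (nat_lit 171) (nat_lit 168) (nat_lit 171)) (PT.lf (nat_lit 21964) (nat_lit 6) (nat_lit 289) (nat_lit 1) (nat_lit 172) (nat_lit 168) (nat_lit 170)))))) (PT.nd (nat_lit 52416) (PT.nd (nat_lit 156) (PT.nd (nat_lit 78) (PT.lf (nat_lit 21660) (nat_lit 6) (nat_lit 285) (nat_lit 1) (nat_lit 173) (nat_lit 168) (nat_lit 169)) (PT.lf (nat_lit 21280) (nat_lit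 3) (nat_lit 280) (nat_lit 0) (nat_lit 174) (nat_lit 168) (nat_lit 168))) (PT.nd (nat_lit 78) (PT.lf (nat_lit 20900) (nat_lit 6) (nat_lit 275) (nat_lit 0) (nat_lit 175) (nat_lit 168) (nat_lit 167)) (PT.nd (nat_lit 78) (PT.lf (nat_lit 20444) (nat_lit 6) (nat_lit 269) (nat_lit 0) (nat_lit 176) (nat_lit 168) (nat_lit 166)) (PT.lf (nat_lit 19912) (nat_lit 6) (nat_lit 262) (nat_lit 0) (nat_lit 177) (nat_lit 168) (nat_lit 165))))) (PT.nd (nat_lit 156) (PT.nd (nat_lit 78) (PT.lf (nat_lit 19988) (nat_lit 6) (nat_lit 263) (nat_lit 5) (nat_lit 164) (nat_lit 169) (nat_lit 177)) (PT.lf (nat_lit 20520) (nat_lit 6) (nat_lit 270) (nat_lit 5) (nat_lit 165) (nat_lit 169) (nat_lit 176))) (PT.nd (nat_lit 78) (PT.lf (nat_lit 20976) (nat_lit 6) (nat_lit 276) (nat_lit 5) (nat_lit 166) (nat_lit 169) (nat_lit 175)) (PT.nd (nat_lit 78) (PT.lf (nat_lit 21356) (nat_lit 6) (nat_lit 281) (nat_lit 5) (nat_lit 167) (nat_lit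 169) (nat_lit 174)) (PT.lf (nat_lit 21660) (nat_lit 6) (nat_lit 285) (nat_lit 5) (nat_lit 168) (nat_lit 169) (nat_lit 173))))))))
noncomputable def pc11 : PT := (PT.nd (nat_lit 53430) (PT.nd (nat_lit 52650) (PT.nd (nat_lit 312) (PT.nd (nat_lit 156) (PT.nd (nat_lit 78) (PT.lf (nat_lit 21888) (nat_lit 3) (nat_lit 288) (nat_lit 3) (nat_lit 169) (nat_lit 169) (nat_lit 172)) (PT.lf (nat_lit 22116) (nat_lit 6) (nat_lit 291) (nat_lit 3) (nat_lit 170) (nat_lit 169) (nat_lit 171))) (PT.nd (nat_lit 78) (PT.lf (nat_lit 22116) (nat_lit 6) (nat_lit 291) (nat_lit 1) (nat_lit 171) (nat_lit 169) (nat_lit 170)) (PT.lf (nat_lit 21888) (nat_lit 3) (nat_lit 288) (nat_lit 0) (nat_lit 172) (nat_lit 169) (nat_lit 169)))) (PT.nd (nat_lit 156) (PT.nd (nat_lit 78) (PT.lf (nat_lit 21660) (nat_lit 6) (nat_lit 285) (nat_lit 0) (nat_lit 173) (nat_lit 169) (nat_lit 168)) (PT.lf (nat_lit 21356) (nat_lit 6) (nat_lit 281) (nat_lit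 0) (nat_lit 174) (nat_lit 169) (nat_lit 167))) (PT.nd (nat_lit 78) (PT.lf (nat_lit 20976) (nat_lit 6) (nat_lit 276) (nat_lit 0) (nat_lit 175) (nat_lit 169) (nat_lit 166)) (PT.nd (nat_lit 78) (PT.lf (nat_lit 20520) (nat_lit 6) (nat_lit 270) (nat_lit 0) (nat_lit 176) (nat_lit 169) (nat_lit 165)) (PT.lf (nat_lit 19988) (nat_lit 6) (nat_lit 263) (nat_lit 0) (nat_lit 177) (nat_lit 169) (nat_lit 164)))))) (PT.nd (nat_lit 390) (PT.nd (nat_lit 156) (PT.nd (nat_lit 78) (PT.lf (nat_lit 20064) (nat_lit 6) (nat_lit 264) (nat_lit 5) (nat_lit 163) (nat_lit 170) (nat_lit 177)) (PT.lf (nat_lit 20596) (nat_lit 6) (nat_lit 271) (nat_lit 5) (nat_lit 164) (nat_lit 170) (nat_lit 176))) (PT.nd (nat_lit 78) (PT.lf (nat_lit 21052) (nat_lit 6) (nat_lit 277) (nat_lit 5) (nat_lit 165) (nat_lit 170) (nat_lit 175)) (PT.nd (nat_lit 78) (PT.lf (nat_lit 21432) (nat_lit 6) (nat_lit 282) (nat_lit 5) (nat_lit 166) (nat_lit 170)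 (nat_lit 174)) (PT.lf (nat_lit 21736) (nat_lit 6) (nat_lit 286) (nat_lit 5) (nat_lit 167) (nat_lit 170) (nat_lit 173))))) (PT.nd (nat_lit 156) (PT.nd (nat_lit 78) (PT.lf (nat_lit 21964) (nat_lit 6) (nat_lit 289) (nat_lit 5) (nat_lit 168) (nat_lit 170) (nat_lit 172)) (PT.lf (nat_lit 22116) (nat_lit 6) (nat_lit 291) (nat_lit 5) (nat_lit 169) (nat_lit 170) (nat_lit 171))) (PT.nd (nat_lit 78) (PT.lf (nat_lit 22192) (nat_lit 1) (nat_lit 292) (nat_lit 0) (nat_lit 170) (nat_lit 170) (nat_lit 170)) (PT.nd (nat_lit 78) (PT.lf (nat_lit 22116) (nat_lit 6) (nat_lit 291) (nat_lit 0) (nat_lit 171) (nat_lit 170) (nat_lit 169)) (PT.lf (nat_lit 21964) (nat_lit 6) (nat_lit 289) (nat_lit 0) (nat_lit 172) (nat_lit 170) (nat_lit 168))))))) (PT.nd (nat_lit 52572) (PT.nd (nat_lit 312) (PT.nd (nat_lit 156) (PT.nd (nat_lit 78) (PT.lf (nat_lit 21736) (nat_lit 6) (nat_lit 286) (nat_lit 0) (nat_lit 173) (nat_lit 170) (nat_lit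 167)) (PT.lf (nat_lit 21432) (nat_lit 6) (nat_lit 282) (nat_lit 0) (nat_lit 174) (nat_lit 170) (nat_lit 166))) (PT.nd (nat_lit 78) (PT.lf (nat_lit 21052) (nat_lit 6) (nat_lit 277) (nat_lit 0) (nat_lit 175) (nat_lit 170) (nat_lit 165)) (PT.lf (nat_lit 20596) (nat_lit 6) (nat_lit 271) (nat_lit 0) (nat_lit 176) (nat_lit 170) (nat_lit 164)))) (PT.nd (nat_lit 52026) (PT.nd (nat_lit 51948) (PT.lf (nat_lit 20064) (nat_lit 6) (nat_lit 264) (nat_lit 0) (nat_lit 177) (nat_lit 170) (nat_lit 163)) (PT.lf (nat_lit 19532) (nat_lit 6) (nat_lit 257) (nat_lit 5) (nat_lit 162) (nat_lit 171) (nat_lit 177))) (PT.nd (nat_lit 78) (PT.lf (nat_lit 20140) (nat_lit 6) (nat_lit 265) (nat_lit 5) (nat_lit 163) (nat_lit 171) (nat_lit 176)) (PT.nd (nat_lit 78) (PT.lf (nat_lit 20672) (nat_lit 6) (nat_lit 272) (nat_lit 5) (nat_lit 164) (nat_lit 171) (nat_lit 175)) (PT.lf (nat_lit 21128) (nat_lit 6) (nat_lit 278) (nat_lit 5)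 (nat_lit 165) (nat_lit 171) (nat_lit 174)))))) (PT.nd (nat_lit 390) (PT.nd (nat_lit 156) (PT.nd (nat_lit 78) (PT.lf (nat_lit 21508) (nat_lit 6) (nat_lit 283) (nat_lit 5) (nat_lit 166) (nat_lit 171) (nat_lit 173)) (PT.lf (nat_lit 21812) (nat_lit 6) (nat_lit 287) (nat_lit 5) (nat_lit 167) (nat_lit 171) (nat_lit 172))) (PT.nd (nat_lit 78) (PT.lf (nat_lit 22040) (nat_lit 3) (nat_lit 290) (nat_lit 4) (nat_lit 168) (nat_lit 171) (nat_lit 171)) (PT.nd (nat_lit 78) (PT.lf (nat_lit 22116) (nat_lit 6) (nat_lit 291) (nat_lit 4) (nat_lit 169) (nat_lit 171) (nat_lit 170)) (PT.lf (nat_lit 22116) (nat_lit 6) (nat_lit 291) (nat_lit 2) (nat_lit 170) (nat_lit 171) (nat_lit 169))))) (PT.nd (nat_lit 156) (PT.nd (nat_lit 78) (PT.lf (nat_lit 22040) (nat_lit 3) (nat_lit 290) (nat_lit 0) (nat_lit 171) (nat_lit 171) (nat_lit 168)) (PT.lf (nat_lit 21812) (nat_lit 6) (nat_lit 287) (nat_lit 0) (nat_lit 172) (nat_lit 171)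 (nat_lit 167))) (PT.nd (nat_lit 78) (PT.lf (nat_lit 21508) (nat_lit 6) (nat_lit 283) (nat_lit 0) (nat_lit 173) (nat_lit 171) (nat_lit 166)) (PT.nd (nat_lit 78) (PT.lf (nat_lit 21128) (nat_lit 6) (nat_lit 278) (nat_lit 0) (nat_lit 174) (nat_lit 171) (nat_lit 165)) (PT.lf (nat_lit 20672) (nat_lit 6) (nat_lit 272) (nat_lit 0) (nat_lit 175) (nat_lit 171) (nat_lit 164))))))))
noncomputable def pc12 : PT := (PT.nd (nat_lit 53118) (PT.nd (nat_lit 52416) (PT.nd (nat_lit 52026) (PT.nd (nat_lit 51870) (PT.nd (nat_lit 78) (PT.lf (nat_lit 20140) (nat_lit 6) (nat_lit 265) (nat_lit 0) (nat_lit 176) (nat_lit 171) (nat_lit 163)) (PT.lf (nat_lit 19532) (nat_lit 6) (nat_lit 257) (nat_lit 0) (nat_lit 177) (nat_lit 171) (nat_lit 162))) (PT.nd (nat_lit 78) (PT.lf (nat_lit 19000) (nat_lit 6) (nat_lit 250) (nat_lit 5) (nat_lit 160) (nat_lit 172) (nat_lit 178)) (PT.lf (nat_lit 19304) (nat_lit 6) (nat_lit 254) (nat_lit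 5) (nat_lit 161) (nat_lit 172) (nat_lit 177)))) (PT.nd (nat_lit 156) (PT.nd (nat_lit 78) (PT.lf (nat_lit 19608) (nat_lit 6) (nat_lit 258) (nat_lit 5) (nat_lit 162) (nat_lit 172) (nat_lit 176)) (PT.lf (nat_lit 20216) (nat_lit 6) (nat_lit 266) (nat_lit 5) (nat_lit 163) (nat_lit 172) (nat_lit 175))) (PT.nd (nat_lit 78) (PT.lf (nat_lit 20748) (nat_lit 6) (nat_lit 273) (nat_lit 5) (nat_lit 164) (nat_lit 172) (nat_lit 174)) (PT.nd (nat_lit 78) (PT.lf (nat_lit 21204) (nat_lit 6) (nat_lit 279) (nat_lit 5) (nat_lit 165) (nat_lit 172) (nat_lit 173)) (PT.lf (nat_lit 21584) (nat_lit 3) (nat_lit 284) (nat_lit 4) (nat_lit 166) (nat_lit 172) (nat_lit 172)))))) (PT.nd (nat_lit 312) (PT.nd (nat_lit 156) (PT.nd (nat_lit 78) (PT.lf (nat_lit 21812) (nat_lit 6) (nat_lit 287) (nat_lit 4) (nat_lit 167) (nat_lit 172) (nat_lit 171)) (PT.lf (nat_lit 21964) (nat_lit 6) (nat_lit 289) (nat_lit 4) (nat_lit 168) (nat_lit 172)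 (nat_lit 170))) (PT.nd (nat_lit 78) (PT.lf (nat_lit 21888) (nat_lit 3) (nat_lit 288) (nat_lit 2) (nat_lit 169) (nat_lit 172) (nat_lit 169)) (PT.lf (nat_lit 21964) (nat_lit 6) (nat_lit 289) (nat_lit 2) (nat_lit 170) (nat_lit 172) (nat_lit 168)))) (PT.nd (nat_lit 156) (PT.nd (nat_lit 78) (PT.lf (nat_lit 21812) (nat_lit 6) (nat_lit 287) (nat_lit 2) (nat_lit 171) (nat_lit 172) (nat_lit 167)) (PT.lf (nat_lit 21584) (nat_lit 3) (nat_lit 284) (nat_lit 0) (nat_lit 172) (nat_lit 172) (nat_lit 166))) (PT.nd (nat_lit 78) (PT.lf (nat_lit 21204) (nat_lit 6) (nat_lit 279) (nat_lit 0) (nat_lit 173) (nat_lit 172) (nat_lit 165)) (PT.nd (nat_lit 78) (PT.lf (nat_lit 20748) (nat_lit 6) (nat_lit 273) (nat_lit 0) (nat_lit 174) (nat_lit 172) (nat_lit 164)) (PT.lf (nat_lit 20216) (nat_lit 6) (nat_lit 266) (nat_lit 0) (nat_lit 175) (nat_lit 172) (nat_lit 163))))))) (PT.nd (nat_lit 52260) (PT.nd (nat_lit 51870) (PT.nd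 (nat_lit 156) (PT.nd (nat_lit 78) (PT.lf (nat_lit 19608) (nat_lit 6) (nat_lit 258) (nat_lit 0) (nat_lit 176) (nat_lit 172) (nat_lit 162)) (PT.lf (nat_lit 19304) (nat_lit 6) (nat_lit 254) (nat_lit 0) (nat_lit 177) (nat_lit 172) (nat_lit 161))) (PT.nd (nat_lit 51636) (PT.lf (nat_lit 19000) (nat_lit 6) (nat_lit 250) (nat_lit 0) (nat_lit 178) (nat_lit 172) (nat_lit 160)) (PT.lf (nat_lit 18772) (nat_lit 6) (nat_lit 247) (nat_lit 5) (nat_lit 159) (nat_lit 173) (nat_lit 178)))) (PT.nd (nat_lit 156) (PT.nd (nat_lit 78) (PT.lf (nat_lit 19076) (nat_lit 6) (nat_lit 251) (nat_lit 5) (nat_lit 160) (nat_lit 173) (nat_lit 177)) (PT.lf (nat_lit 19380) (nat_lit 6) (nat_lit 255) (nat_lit 5) (nat_lit 161) (nat_lit 173) (nat_lit 176))) (PT.nd (nat_lit 78) (PT.lf (nat_lit 19684) (nat_lit 6) (nat_lit 259) (nat_lit 5) (nat_lit 162) (nat_lit 173) (nat_lit 175)) (PT.nd (nat_lit 78) (PT.lf (nat_lit 20292) (nat_lit 6)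 (nat_lit 267) (nat_lit 5) (nat_lit 163) (nat_lit 173) (nat_lit 174)) (PT.lf (nat_lit 20824) (nat_lit 3) (nat_lit 274) (nat_lit 4) (nat_lit 164) (nat_lit 173) (nat_lit 173)))))) (PT.nd (nat_lit 390) (PT.nd (nat_lit 156) (PT.nd (nat_lit 78) (PT.lf (nat_lit 21204) (nat_lit 6) (nat_lit 279) (nat_lit 4) (nat_lit 165) (nat_lit 173) (nat_lit 172)) (PT.lf (nat_lit 21508) (nat_lit 6) (nat_lit 283) (nat_lit 4) (nat_lit 166) (nat_lit 173) (nat_lit 171))) (PT.nd (nat_lit 78) (PT.lf (nat_lit 21736) (nat_lit 6) (nat_lit 286) (nat_lit 4) (nat_lit 167) (nat_lit 173) (nat_lit 170)) (PT.nd (nat_lit 78) (PT.lf (nat_lit 21660) (nat_lit 6) (nat_lit 285) (nat_lit 4) (nat_lit 168) (nat_lit 173) (nat_lit 169)) (PT.lf (nat_lit 21660) (nat_lit 6) (nat_lit 285) (nat_lit 2) (nat_lit 169) (nat_lit 173) (nat_lit 168))))) (PT.nd (nat_lit 156) (PT.nd (nat_lit 78) (PT.lf (nat_lit 21736) (nat_lit 6) (nat_lit 286) (nat_lit 2)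 (nat_lit 170) (nat_lit 173) (nat_lit 167)) (PT.lf (nat_lit 21508) (nat_lit 6) (nat_lit 283) (nat_lit 2) (nat_lit 171) (nat_lit 173) (nat_lit 166))) (PT.nd (nat_lit 78) (PT.lf (nat_lit 21204) (nat_lit 6) (nat_lit 279) (nat_lit 2) (nat_lit 172) (nat_lit 173) (nat_lit 165)) (PT.nd (nat_lit 78) (PT.lf (nat_lit 20824) (nat_lit 3) (nat_lit 274) (nat_lit 0) (nat_lit 173) (nat_lit 173) (nat_lit 164)) (PT.lf (nat_lit 20292) (nat_lit 6) (nat_lit 267) (nat_lit 0) (nat_lit 174) (nat_lit 173) (nat_lit 163))))))))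
noncomputable def pc13 : PT := (PT.nd (nat_lit 52962) (PT.nd (nat_lit 52182) (PT.nd (nat_lit 51792) (PT.nd (nat_lit 156) (PT.nd (nat_lit 78) (PT.lf (nat_lit 19684) (nat_lit 6) (nat_lit 259) (nat_lit 0) (nat_lit 175) (nat_lit 173) (nat_lit 162)) (PT.lf (nat_lit 19380) (nat_lit 6) (nat_lit 255) (nat_lit 0) (nat_lit 176) (nat_lit 173) (nat_lit 161))) (PT.nd (nat_lit 78) (PT.lf (nat_lit 19076) (nat_lit 6) (nat_lit 251) (nat_lit 0) (nat_lit 177) (nat_lit 173) (nat_lit 160)) (PT.lf (nat_lit 18772) (nat_lit 6) (nat_lit 247) (nat_lit 0) (nat_lit 178) (nat_lit 173) (nat_lit 159)))) (PT.nd (nat_lit 156) (PT.nd (nat_lit 78) (PT.lf (nat_lit 18544) (nat_lit 6) (nat_lit 244) (nat_lit 5) (nat_lit 158) (nat_lit 174) (nat_lit 178)) (PT.lf (nat_lit 18848) (nat_lit 6) (nat_lit 248) (nat_lit 5) (nat_lit 159) (nat_lit 174) (nat_lit 177))) (PT.nd (nat_lit 78) (PT.lf (nat_lit 19152) (nat_lit 6) (nat_lit 252) (nat_lit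 5) (nat_lit 160) (nat_lit 174) (nat_lit 176)) (PT.nd (nat_lit 78) (PT.lf (nat_lit 19456) (nat_lit 6) (nat_lit 256) (nat_lit 5) (nat_lit 161) (nat_lit 174) (nat_lit 175)) (PT.lf (nat_lit 19760) (nat_lit 3) (nat_lit 260) (nat_lit 4) (nat_lit 162) (nat_lit 174) (nat_lit 174)))))) (PT.nd (nat_lit 390) (PT.nd (nat_lit 156) (PT.nd (nat_lit 78) (PT.lf (nat_lit 20292) (nat_lit 6) (nat_lit 267) (nat_lit 4) (nat_lit 163) (nat_lit 174) (nat_lit 173)) (PT.lf (nat_lit 20748) (nat_lit 6) (nat_lit 273) (nat_lit 4) (nat_lit 164) (nat_lit 174) (nat_lit 172))) (PT.nd (nat_lit 78) (PT.lf (nat_lit 21128) (nat_lit 6) (nat_lit 278) (nat_lit 4) (nat_lit 165) (nat_lit 174) (nat_lit 171)) (PT.nd (nat_lit 78) (PT.lf (nat_lit 21432) (nat_lit 6) (nat_lit 282) (nat_lit 4) (nat_lit 166) (nat_lit 174) (nat_lit 170)) (PT.lf (nat_lit 21356) (nat_lit 6) (nat_lit 281) (nat_lit 4) (nat_lit 167) (nat_lit 174) (nat_lit 169))))) (PT.nd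 (nat_lit 156) (PT.nd (nat_lit 78) (PT.lf (nat_lit 21280) (nat_lit 3) (nat_lit 280) (nat_lit 2) (nat_lit 168) (nat_lit 174) (nat_lit 168)) (PT.lf (nat_lit 21356) (nat_lit 6) (nat_lit 281) (nat_lit 2) (nat_lit 169) (nat_lit 174) (nat_lit 167))) (PT.nd (nat_lit 78) (PT.lf (nat_lit 21432) (nat_lit 6) (nat_lit 282) (nat_lit 2) (nat_lit 170) (nat_lit 174) (nat_lit 166)) (PT.nd (nat_lit 78) (PT.lf (nat_lit 21128) (nat_lit 6) (nat_lit 278) (nat_lit 2) (nat_lit 171) (nat_lit 174) (nat_lit 165)) (PT.lf (nat_lit 20748) (nat_lit 6) (nat_lit 273) (nat_lit 2) (nat_lit 172) (nat_lit 174) (nat_lit 164))))))) (PT.nd (nat_lit 52026) (PT.nd (nat_lit 312) (PT.nd (nat_lit 156) (PT.nd (nat_lit 78) (PT.lf (nat_lit 20292) (nat_lit 6) (nat_lit 267) (nat_lit 2) (nat_lit 173) (nat_lit 174) (nat_lit 163)) (PT.lf (nat_lit 19760) (nat_lit 3) (nat_lit 260) (nat_lit 0) (nat_lit 174) (nat_lit 174) (nat_lit 162))) (PT.nd (nat_lit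 78) (PT.lf (nat_lit 19456) (nat_lit 6) (nat_lit 256) (nat_lit 0) (nat_lit 175) (nat_lit 174) (nat_lit 161)) (PT.lf (nat_lit 19152) (nat_lit 6) (nat_lit 252) (nat_lit 0) (nat_lit 176) (nat_lit 174) (nat_lit 160)))) (PT.nd (nat_lit 51480) (PT.nd (nat_lit 78) (PT.lf (nat_lit 18848) (nat_lit 6) (nat_lit 248) (nat_lit 0) (nat_lit 177) (nat_lit 174) (nat_lit 159)) (PT.lf (nat_lit 18544) (nat_lit 6) (nat_lit 244) (nat_lit 0) (nat_lit 178) (nat_lit 174) (nat_lit 158))) (PT.nd (nat_lit 78) (PT.lf (nat_lit 18164) (nat_lit 6) (nat_lit 239) (nat_lit 5) (nat_lit 156) (nat_lit 175) (nat_lit 179)) (PT.nd (nat_lit 78) (PT.lf (nat_lit 18392) (nat_lit 6) (nat_lit 242) (nat_lit 5) (nat_lit 157) (nat_lit 175) (nat_lit 178)) (PT.lf (nat_lit 18620) (nat_lit 6) (nat_lit 245) (nat_lit 5) (nat_lit 158) (nat_lit 175) (nat_lit 177)))))) (PT.nd (nat_lit 390) (PT.nd (nat_lit 156) (PT.nd (nat_lit 78) (PT.lf (nat_lit 18924)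 (nat_lit 6) (nat_lit 249) (nat_lit 5) (nat_lit 159) (nat_lit 175) (nat_lit 176)) (PT.lf (nat_lit 19228) (nat_lit 3) (nat_lit 253) (nat_lit 4) (nat_lit 160) (nat_lit 175) (nat_lit 175))) (PT.nd (nat_lit 78) (PT.lf (nat_lit 19456) (nat_lit 6) (nat_lit 256) (nat_lit 4) (nat_lit 161) (nat_lit 175) (nat_lit 174)) (PT.nd (nat_lit 78) (PT.lf (nat_lit 19684) (nat_lit 6) (nat_lit 259) (nat_lit 4) (nat_lit 162) (nat_lit 175) (nat_lit 173)) (PT.lf (nat_lit 20216) (nat_lit 6) (nat_lit 266) (nat_lit 4) (nat_lit 163) (nat_lit 175) (nat_lit 172))))) (PT.nd (nat_lit 156) (PT.nd (nat_lit 78) (PT.lf (nat_lit 20672) (nat_lit 6) (nat_lit 272) (nat_lit 4) (nat_lit 164) (nat_lit 175) (nat_lit 171)) (PT.lf (nat_lit 21052) (nat_lit 6) (nat_lit 277) (nat_lit 4) (nat_lit 165) (nat_lit 175) (nat_lit 170))) (PT.nd (nat_lit 78) (PT.lf (nat_lit 20976) (nat_lit 6) (nat_lit 276) (nat_lit 4) (nat_lit 166) (nat_lit 175) (nat_lit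 169)) (PT.nd (nat_lit 78) (PT.lf (nat_lit 20900) (nat_lit 6) (nat_lit 275) (nat_lit 4) (nat_lit 167) (nat_lit 175) (nat_lit 168)) (PT.lf (nat_lit 20900) (nat_lit 6) (nat_lit 275) (nat_lit 2) (nat_lit 168) (nat_lit 175) (nat_lit 167))))))))
noncomputable def pc14 : PT := (PT.nd (nat_lit 52572) (PT.nd (nat_lit 702) (PT.nd (nat_lit 312) (PT.nd (nat_lit 156) (PT.nd (nat_lit 78) (PT.lf (nat_lit 20976) (nat_lit 6) (nat_lit 276) (nat_lit 2) (nat_lit 169) (nat_lit 175) (nat_lit 166)) (PT.lf (nat_lit 21052) (nat_lit 6) (nat_lit 277) (nat_lit 2) (nat_lit 170) (nat_lit 175) (nat_lit 165))) (PT.nd (nat_lit 78) (PT.lf (nat_lit 20672) (nat_lit 6) (nat_lit 272) (nat_lit 2) (nat_lit 171) (nat_lit 175) (nat_lit 164)) (PT.lf (nat_lit 20216) (nat_lit 6) (nat_lit 266) (nat_lit 2) (nat_lit 172) (nat_lit 175) (nat_lit 163)))) (PT.nd (nat_lit 156) (PT.nd (nat_lit 78) (PT.lf (nat_lit 19684) (nat_lit 6) (nat_lit 259)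 (nat_lit 2) (nat_lit 173) (nat_lit 175) (nat_lit 162)) (PT.lf (nat_lit 19456) (nat_lit 6) (nat_lit 256) (nat_lit 2) (nat_lit 174) (nat_lit 175) (nat_lit 161))) (PT.nd (nat_lit 78) (PT.lf (nat_lit 19228) (nat_lit 3) (nat_lit 253) (nat_lit 0) (nat_lit 175) (nat_lit 175) (nat_lit 160)) (PT.nd (nat_lit 78) (PT.lf (nat_lit 18924) (nat_lit 6) (nat_lit 249) (nat_lit 0) (nat_lit 176) (nat_lit 175) (nat_lit 159)) (PT.lf (nat_lit 18620) (nat_lit 6) (nat_lit 245) (nat_lit 0) (nat_lit 177) (nat_lit 175) (nat_lit 158)))))) (PT.nd (nat_lit 51480) (PT.nd (nat_lit 51246) (PT.nd (nat_lit 78) (PT.lf (nat_lit 18392) (nat_lit 6) (nat_lit 242) (nat_lit 0) (nat_lit 178) (nat_lit 175) (nat_lit 157)) (PT.lf (nat_lit 18164) (nat_lit 6) (nat_lit 239) (nat_lit 0) (nat_lit 179) (nat_lit 175) (nat_lit 156))) (PT.nd (nat_lit 78) (PT.lf (nat_lit 17784) (nat_lit 6) (nat_lit 234) (nat_lit 5) (nat_lit 154) (nat_lit 176) (nat_lit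 180)) (PT.nd (nat_lit 78) (PT.lf (nat_lit 18012) (nat_lit 6) (nat_lit 237) (nat_lit 5) (nat_lit 155) (nat_lit 176) (nat_lit 179)) (PT.lf (nat_lit 18240) (nat_lit 6) (nat_lit 240) (nat_lit 5) (nat_lit 156) (nat_lit 176) (nat_lit 178))))) (PT.nd (nat_lit 156) (PT.nd (nat_lit 78) (PT.lf (nat_lit 18468) (nat_lit 6) (nat_lit 243) (nat_lit 5) (nat_lit 157) (nat_lit 176) (nat_lit 177)) (PT.lf (nat_lit 18696) (nat_lit 3) (nat_lit 246) (nat_lit 4) (nat_lit 158) (nat_lit 176) (nat_lit 176))) (PT.nd (nat_lit 78) (PT.lf (nat_lit 18924) (nat_lit 6) (nat_lit 249) (nat_lit 4) (nat_lit 159) (nat_lit 176) (nat_lit 175)) (PT.nd (nat_lit 78) (PT.lf (nat_lit 19152) (nat_lit 6) (nat_lit 252) (nat_lit 4) (nat_lit 160) (nat_lit 176) (nat_lit 174)) (PT.lf (nat_lit 19380) (nat_lit 6) (nat_lit 255) (nat_lit 4) (nat_lit 161) (nat_lit 176) (nat_lit 173))))))) (PT.nd (nat_lit 702) (PT.nd (nat_lit 312) (PT.nd (nat_lit 156)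 (PT.nd (nat_lit 78) (PT.lf (nat_lit 19608) (nat_lit 6) (nat_lit 258) (nat_lit 4) (nat_lit 162) (nat_lit 176) (nat_lit 172)) (PT.lf (nat_lit 20140) (nat_lit 6) (nat_lit 265) (nat_lit 4) (nat_lit 163) (nat_lit 176) (nat_lit 171))) (PT.nd (nat_lit 78) (PT.lf (nat_lit 20596) (nat_lit 6) (nat_lit 271) (nat_lit 4) (nat_lit 164) (nat_lit 176) (nat_lit 170)) (PT.lf (nat_lit 20520) (nat_lit 6) (nat_lit 270) (nat_lit 4) (nat_lit 165) (nat_lit 176) (nat_lit 169)))) (PT.nd (nat_lit 156) (PT.nd (nat_lit 78) (PT.lf (nat_lit 20444) (nat_lit 6) (nat_lit 269) (nat_lit 4) (nat_lit 166) (nat_lit 176) (nat_lit 168)) (PT.lf (nat_lit 20368) (nat_lit 3) (nat_lit 268) (nat_lit 2) (nat_lit 167) (nat_lit 176) (nat_lit 167))) (PT.nd (nat_lit 78) (PT.lf (nat_lit 20444) (nat_lit 6) (nat_lit 269) (nat_lit 2) (nat_lit 168) (nat_lit 176) (nat_lit 166)) (PT.nd (nat_lit 78) (PT.lf (nat_lit 20520) (nat_lit 6) (nat_lit 270) (nat_lit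 2) (nat_lit 169) (nat_lit 176) (nat_lit 165)) (PT.lf (nat_lit 20596) (nat_lit 6) (nat_lit 271) (nat_lit 2) (nat_lit 170) (nat_lit 176) (nat_lit 164)))))) (PT.nd (nat_lit 390) (PT.nd (nat_lit 156) (PT.nd (nat_lit 78) (PT.lf (nat_lit 20140) (nat_lit 6) (nat_lit 265) (nat_lit 2) (nat_lit 171) (nat_lit 176) (nat_lit 163)) (PT.lf (nat_lit 19608) (nat_lit 6) (nat_lit 258) (nat_lit 2) (nat_lit 172) (nat_lit 176) (nat_lit 162))) (PT.nd (nat_lit 78) (PT.lf (nat_lit 19380) (nat_lit 6) (nat_lit 255) (nat_lit 2) (nat_lit 173) (nat_lit 176) (nat_lit 161)) (PT.nd (nat_lit 78) (PT.lf (nat_lit 19152) (nat_lit 6) (nat_lit 252) (nat_lit 2) (nat_lit 174) (nat_lit 176) (nat_lit 160)) (PT.lf (nat_lit 18924) (nat_lit 6) (nat_lit 249) (nat_lit 2) (nat_lit 175) (nat_lit 176) (nat_lit 159))))) (PT.nd (nat_lit 156) (PT.nd (nat_lit 78) (PT.lf (nat_lit 18696) (nat_lit 3) (nat_lit 246) (nat_lit 0) (nat_lit 176) (nat_lit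 176) (nat_lit 158)) (PT.lf (nat_lit 18468) (nat_lit 6) (nat_lit 243) (nat_lit 0) (nat_lit 177) (nat_lit 176) (nat_lit 157))) (PT.nd (nat_lit 78) (PT.lf (nat_lit 18240) (nat_lit 6) (nat_lit 240) (nat_lit 0) (nat_lit 178) (nat_lit 176) (nat_lit 156)) (PT.nd (nat_lit 78) (PT.lf (nat_lit 18012) (nat_lit 6) (nat_lit 237) (nat_lit 0) (nat_lit 179) (nat_lit 176) (nat_lit 155)) (PT.lf (nat_lit 17784) (nat_lit 6) (nat_lit 234) (nat_lit 0) (nat_lit 180) (nat_lit 176) (nat_lit 154))))))))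
noncomputable def pc15 : PT := (PT.nd (nat_lit 1482) (PT.nd (nat_lit 702) (PT.nd (nat_lit 312) (PT.nd (nat_lit 156) (PT.nd (nat_lit 78) (PT.lf (nat_lit 17632) (nat_lit 6) (nat_lit 232) (nat_lit 5) (nat_lit 153) (nat_lit 177) (nat_lit 180)) (PT.lf (nat_lit 17860) (nat_lit 6) (nat_lit 235) (nat_lit 5) (nat_lit 154) (nat_lit 177) (nat_lit 179))) (PT.nd (nat_lit 78) (PT.lf (nat_lit 18088) (nat_lit 6) (nat_lit 238) (nat_lit 5) (nat_lit 155) (nat_lit 177) (nat_lit 178)) (PT.lf (nat_lit 18316) (nat_lit 3) (nat_lit 241) (nat_lit 4) (nat_lit 156) (nat_lit 177) (nat_lit 177)))) (PT.nd (nat_lit 156) (PT.nd (nat_lit 78) (PT.lf (nat_lit 18468) (nat_lit 6) (nat_lit 243) (nat_lit 4) (nat_lit 157) (nat_lit 177) (nat_lit 176)) (PT.lf (nat_lit 18620) (nat_lit 6) (nat_lit 245) (nat_lit 4) (nat_lit 158) (nat_lit 177) (nat_lit 175))) (PT.nd (nat_lit 78) (PT.lf (nat_lit 18848) (nat_lit 6) (nat_lit 248) (nat_lit 4)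 (nat_lit 159) (nat_lit 177) (nat_lit 174)) (PT.nd (nat_lit 78) (PT.lf (nat_lit 19076) (nat_lit 6) (nat_lit 251) (nat_lit 4) (nat_lit 160) (nat_lit 177) (nat_lit 173)) (PT.lf (nat_lit 19304) (nat_lit 6) (nat_lit 254) (nat_lit 4) (nat_lit 161) (nat_lit 177) (nat_lit 172)))))) (PT.nd (nat_lit 390) (PT.nd (nat_lit 156) (PT.nd (nat_lit 78) (PT.lf (nat_lit 19532) (nat_lit 6) (nat_lit 257) (nat_lit 4) (nat_lit 162) (nat_lit 177) (nat_lit 171)) (PT.lf (nat_lit 20064) (nat_lit 6) (nat_lit 264) (nat_lit 4) (nat_lit 163) (nat_lit 177) (nat_lit 170))) (PT.nd (nat_lit 78) (PT.lf (nat_lit 19988) (nat_lit 6) (nat_lit 263) (nat_lit 4) (nat_lit 164) (nat_lit 177) (nat_lit 169)) (PT.nd (nat_lit 78) (PT.lf (nat_lit 19912) (nat_lit 6) (nat_lit 262) (nat_lit 4) (nat_lit 165) (nat_lit 177) (nat_lit 168)) (PT.lf (nat_lit 19836) (nat_lit 6) (nat_lit 261) (nat_lit 4) (nat_lit 166) (nat_lit 177) (nat_lit 167))))) (PT.nd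 (nat_lit 156) (PT.nd (nat_lit 78) (PT.lf (nat_lit 19836) (nat_lit 6) (nat_lit 261) (nat_lit 2) (nat_lit 167) (nat_lit 177) (nat_lit 166)) (PT.lf (nat_lit 19912) (nat_lit 6) (nat_lit 262) (nat_lit 2) (nat_lit 168) (nat_lit 177) (nat_lit 165))) (PT.nd (nat_lit 78) (PT.lf (nat_lit 19988) (nat_lit 6) (nat_lit 263) (nat_lit 2) (nat_lit 169) (nat_lit 177) (nat_lit 164)) (PT.nd (nat_lit 78) (PT.lf (nat_lit 20064) (nat_lit 6) (nat_lit 264) (nat_lit 2) (nat_lit 170) (nat_lit 177) (nat_lit 163)) (PT.lf (nat_lit 19532) (nat_lit 6) (nat_lit 257) (nat_lit 2) (nat_lit 171) (nat_lit 177) (nat_lit 162))))))) (PT.nd (nat_lit 51480) (PT.nd (nat_lit 312) (PT.nd (nat_lit 156) (PT.nd (nat_lit 78) (PT.lf (nat_lit 19304) (nat_lit 6) (nat_lit 254) (nat_lit 2) (nat_lit 172) (nat_lit 177) (nat_lit 161)) (PT.lf (nat_lit 19076) (nat_lit 6) (nat_lit 251) (nat_lit 2) (nat_lit 173) (nat_lit 177) (nat_lit 160))) (PT.nd (nat_lit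 78) (PT.lf (nat_lit 18848) (nat_lit 6) (nat_lit 248) (nat_lit 2) (nat_lit 174) (nat_lit 177) (nat_lit 159)) (PT.lf (nat_lit 18620) (nat_lit 6) (nat_lit 245) (nat_lit 2) (nat_lit 175) (nat_lit 177) (nat_lit 158)))) (PT.nd (nat_lit 156) (PT.nd (nat_lit 78) (PT.lf (nat_lit 18468) (nat_lit 6) (nat_lit 243) (nat_lit 2) (nat_lit 176) (nat_lit 177) (nat_lit 157)) (PT.lf (nat_lit 18316) (nat_lit 3) (nat_lit 241) (nat_lit 0) (nat_lit 177) (nat_lit 177) (nat_lit 156))) (PT.nd (nat_lit 78) (PT.lf (nat_lit 18088) (nat_lit 6) (nat_lit 238) (nat_lit 0) (nat_lit 178) (nat_lit 177) (nat_lit 155)) (PT.nd (nat_lit 78) (PT.lf (nat_lit 17860) (nat_lit 6) (nat_lit 235) (nat_lit 0) (nat_lit 179) (nat_lit 177) (nat_lit 154)) (PT.lf (nat_lit 17632) (nat_lit 6) (nat_lit 232) (nat_lit 0) (nat_lit 180) (nat_lit 177) (nat_lit 153)))))) (PT.nd (nat_lit 390) (PT.nd (nat_lit 156) (PT.nd (nat_lit 78) (PT.lf (nat_lit 17328)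 (nat_lit 6) (nat_lit 228) (nat_lit 5) (nat_lit 151) (nat_lit 178) (nat_lit 181)) (PT.lf (nat_lit 17480) (nat_lit 6) (nat_lit 230) (nat_lit 5) (nat_lit 152) (nat_lit 178) (nat_lit 180))) (PT.nd (nat_lit 78) (PT.lf (nat_lit 17708) (nat_lit 6) (nat_lit 233) (nat_lit 5) (nat_lit 153) (nat_lit 178) (nat_lit 179)) (PT.nd (nat_lit 78) (PT.lf (nat_lit 17936) (nat_lit 3) (nat_lit 236) (nat_lit 4) (nat_lit 154) (nat_lit 178) (nat_lit 178)) (PT.lf (nat_lit 18088) (nat_lit 6) (nat_lit 238) (nat_lit 4) (nat_lit 155) (nat_lit 178) (nat_lit 177))))) (PT.nd (nat_lit 156) (PT.nd (nat_lit 78) (PT.lf (nat_lit 18240) (nat_lit 6) (nat_lit 240) (nat_lit 4) (nat_lit 156) (nat_lit 178) (nat_lit 176)) (PT.lf (nat_lit 18392) (nat_lit 6) (nat_lit 242) (nat_lit 4) (nat_lit 157) (nat_lit 178) (nat_lit 175))) (PT.nd (nat_lit 78) (PT.lf (nat_lit 18544) (nat_lit 6) (nat_lit 244) (nat_lit 4) (nat_lit 158) (nat_lit 178) (nat_lit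 174)) (PT.nd (nat_lit 78) (PT.lf (nat_lit 18772) (nat_lit 6) (nat_lit 247) (nat_lit 4) (nat_lit 159) (nat_lit 178) (nat_lit 173)) (PT.lf (nat_lit 19000) (nat_lit 6) (nat_lit 250) (nat_lit 4) (nat_lit 160) (nat_lit 178) (nat_lit 172))))))))
noncomputable def pc16 : PT := (PT.nd (nat_lit 53352) (PT.nd (nat_lit 702) (PT.nd (nat_lit 312) (PT.nd (nat_lit 156) (PT.nd (nat_lit 78) (PT.lf (nat_lit 19000) (nat_lit 6) (nat_lit 250) (nat_lit 2) (nat_lit 172) (nat_lit 178) (nat_lit 160)) (PT.lf (nat_lit 18772) (nat_lit 6) (nat_lit 247) (nat_lit 2) (nat_lit 173) (nat_lit 178) (nat_lit 159))) (PT.nd (nat_lit 78) (PT.lf (nat_lit 18544) (nat_lit 6) (nat_lit 244) (nat_lit 2) (nat_lit 174) (nat_lit 178) (nat_lit 158)) (PT.lf (nat_lit 18392) (nat_lit 6) (nat_lit 242) (nat_lit 2) (nat_lit 175) (nat_lit 178) (nat_lit 157)))) (PT.nd (nat_lit 156) (PT.nd (nat_lit 78) (PT.lf (nat_lit 18240) (nat_lit 6) (nat_lit 240)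 (nat_lit 2) (nat_lit 176) (nat_lit 178) (nat_lit 156)) (PT.lf (nat_lit 18088) (nat_lit 6) (nat_lit 238) (nat_lit 2) (nat_lit 177) (nat_lit 178) (nat_lit 155))) (PT.nd (nat_lit 78) (PT.lf (nat_lit 17936) (nat_lit 3) (nat_lit 236) (nat_lit 0) (nat_lit 178) (nat_lit 178) (nat_lit 154)) (PT.nd (nat_lit 78) (PT.lf (nat_lit 17708) (nat_lit 6) (nat_lit 233) (nat_lit 0) (nat_lit 179) (nat_lit 178) (nat_lit 153)) (PT.lf (nat_lit 17480) (nat_lit 6) (nat_lit 230) (nat_lit 0) (nat_lit 180) (nat_lit 178) (nat_lit 152)))))) (PT.nd (nat_lit 50856) (PT.nd (nat_lit 50700) (PT.nd (nat_lit 50622) (PT.lf (nat_lit 17328) (nat_lit 6) (nat_lit 228) (nat_lit 0) (nat_lit 181) (nat_lit 178) (nat_lit 151)) (PT.lf (nat_lit 17024) (nat_lit 6) (nat_lit 224) (nat_lit 5) (nat_lit 149) (nat_lit 179) (nat_lit 182))) (PT.nd (nat_lit 78) (PT.lf (nat_lit 17176) (nat_lit 6) (nat_lit 226) (nat_lit 5) (nat_lit 150) (nat_lit 179) (nat_lit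 181)) (PT.lf (nat_lit 17404) (nat_lit 6) (nat_lit 229) (nat_lit 5) (nat_lit 151) (nat_lit 179) (nat_lit 180)))) (PT.nd (nat_lit 156) (PT.nd (nat_lit 78) (PT.lf (nat_lit 17556) (nat_lit 3) (nat_lit 231) (nat_lit 4) (nat_lit 152) (nat_lit 179) (nat_lit 179)) (PT.lf (nat_lit 17708) (nat_lit 6) (nat_lit 233) (nat_lit 4) (nat_lit 153) (nat_lit 179) (nat_lit 178))) (PT.nd (nat_lit 78) (PT.lf (nat_lit 17860) (nat_lit 6) (nat_lit 235) (nat_lit 4) (nat_lit 154) (nat_lit 179) (nat_lit 177)) (PT.nd (nat_lit 78) (PT.lf (nat_lit 18012) (nat_lit 6) (nat_lit 237) (nat_lit 4) (nat_lit 155) (nat_lit 179) (nat_lit 176)) (PT.lf (nat_lit 18164) (nat_lit 6) (nat_lit 239) (nat_lit 4) (nat_lit 156) (nat_lit 179) (nat_lit 175))))))) (PT.nd (nat_lit 51090) (PT.nd (nat_lit 312) (PT.nd (nat_lit 156) (PT.nd (nat_lit 78) (PT.lf (nat_lit 18164) (nat_lit 6) (nat_lit 239) (nat_lit 2) (nat_lit 175) (nat_lit 179) (nat_lit 156))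 (PT.lf (nat_lit 18012) (nat_lit 6) (nat_lit 237) (nat_lit 2) (nat_lit 176) (nat_lit 179) (nat_lit 155))) (PT.nd (nat_lit 78) (PT.lf (nat_lit 17860) (nat_lit 6) (nat_lit 235) (nat_lit 2) (nat_lit 177) (nat_lit 179) (nat_lit 154)) (PT.lf (nat_lit 17708) (nat_lit 6) (nat_lit 233) (nat_lit 2) (nat_lit 178) (nat_lit 179) (nat_lit 153)))) (PT.nd (nat_lit 156) (PT.nd (nat_lit 78) (PT.lf (nat_lit 17556) (nat_lit 3) (nat_lit 231) (nat_lit 0) (nat_lit 179) (nat_lit 179) (nat_lit 152)) (PT.lf (nat_lit 17404) (nat_lit 6) (nat_lit 229) (nat_lit 0) (nat_lit 180) (nat_lit 179) (nat_lit 151))) (PT.nd (nat_lit 78) (PT.lf (nat_lit 17176) (nat_lit 6) (nat_lit 226) (nat_lit 0) (nat_lit 181) (nat_lit 179) (nat_lit 150)) (PT.nd (nat_lit 50466) (PT.lf (nat_lit 17024) (nat_lit 6) (nat_lit 224) (nat_lit 0) (nat_lit 182) (nat_lit 179) (nat_lit 149)) (PT.lf (nat_lit 16872) (nat_lit 6) (nat_lit 222) (nat_lit 5) (nat_lit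 148) (nat_lit 180) (nat_lit 182)))))) (PT.nd (nat_lit 390) (PT.nd (nat_lit 156) (PT.nd (nat_lit 78) (PT.lf (nat_lit 17100) (nat_lit 6) (nat_lit 225) (nat_lit 5) (nat_lit 149) (nat_lit 180) (nat_lit 181)) (PT.lf (nat_lit 17252) (nat_lit 3) (nat_lit 227) (nat_lit 4) (nat_lit 150) (nat_lit 180) (nat_lit 180))) (PT.nd (nat_lit 78) (PT.lf (nat_lit 17404) (nat_lit 6) (nat_lit 229) (nat_lit 4) (nat_lit 151) (nat_lit 180) (nat_lit 179)) (PT.nd (nat_lit 78) (PT.lf (nat_lit 17480) (nat_lit 6) (nat_lit 230) (nat_lit 4) (nat_lit 152) (nat_lit 180) (nat_lit 178)) (PT.lf (nat_lit 17632) (nat_lit 6) (nat_lit 232) (nat_lit 4) (nat_lit 153) (nat_lit 180) (nat_lit 177))))) (PT.nd (nat_lit 1794) (PT.nd (nat_lit 1716) (PT.lf (nat_lit 17784) (nat_lit 6) (nat_lit 234) (nat_lit 4) (nat_lit 154) (nat_lit 180) (nat_lit 176)) (PT.lf (nat_lit 17784) (nat_lit 6) (nat_lit 234) (nat_lit 2) (nat_lit 176) (nat_lit 180) (nat_lit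 154))) (PT.nd (nat_lit 78) (PT.lf (nat_lit 17632) (nat_lit 6) (nat_lit 232) (nat_lit 2) (nat_lit 177) (nat_lit 180) (nat_lit 153)) (PT.nd (nat_lit 78) (PT.lf (nat_lit 17480) (nat_lit 6) (nat_lit 230) (nat_lit 2) (nat_lit 178) (nat_lit 180) (nat_lit 152)) (PT.lf (nat_lit 17404) (nat_lit 6) (nat_lit 229) (nat_lit 2) (nat_lit 179) (nat_lit 180) (nat_lit 151))))))))
noncomputable def pc17 : PT := (PT.nd (nat_lit 103740) (PT.nd (nat_lit 52962) (PT.nd (nat_lit 50544) (PT.nd (nat_lit 156) (PT.nd (nat_lit 78) (PT.lf (nat_lit 17252) (nat_lit 3) (nat_lit 227) (nat_lit 0) (nat_lit 180) (nat_lit 180) (nat_lit 150)) (PT.lf (nat_lit 17100) (nat_lit 6) (nat_lit 225) (nat_lit 0) (nat_lit 181) (nat_lit 180) (nat_lit 149))) (PT.nd (nat_lit 50310) (PT.lf (nat_lit 16872) (nat_lit 6) (nat_lit 222) (nat_lit 0) (nat_lit 182) (nat_lit 180) (nat_lit 148)) (PT.lf (nat_lit 16644) (nat_lit 6) (nat_lit 219) (nat_lit 5) (nat_lit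 146) (nat_lit 181) (nat_lit 183)))) (PT.nd (nat_lit 156) (PT.nd (nat_lit 78) (PT.lf (nat_lit 16796) (nat_lit 6) (nat_lit 221) (nat_lit 5) (nat_lit 147) (nat_lit 181) (nat_lit 182)) (PT.lf (nat_lit 16948) (nat_lit 3) (nat_lit 223) (nat_lit 4) (nat_lit 148) (nat_lit 181) (nat_lit 181))) (PT.nd (nat_lit 78) (PT.lf (nat_lit 17100) (nat_lit 6) (nat_lit 225) (nat_lit 4) (nat_lit 149) (nat_lit 181) (nat_lit 180)) (PT.nd (nat_lit 78) (PT.lf (nat_lit 17176) (nat_lit 6) (nat_lit 226) (nat_lit 4) (nat_lit 150) (nat_lit 181) (nat_lit 179)) (PT.lf (nat_lit 17328) (nat_lit 6) (nat_lit 228) (nat_lit 4) (nat_lit 151) (nat_lit 181) (nat_lit 178)))))) (PT.nd (nat_lit 390) (PT.nd (nat_lit 156) (PT.nd (nat_lit 78) (PT.lf (nat_lit 17328) (nat_lit 6) (nat_lit 228) (nat_lit 2) (nat_lit 178) (nat_lit 181) (nat_lit 151)) (PT.lf (nat_lit 17176) (nat_lit 6) (nat_lit 226) (nat_lit 2) (nat_lit 179) (nat_lit 181) (nat_lit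 150))) (PT.nd (nat_lit 78) (PT.lf (nat_lit 17100) (nat_lit 6) (nat_lit 225) (nat_lit 2) (nat_lit 180) (nat_lit 181) (nat_lit 149)) (PT.nd (nat_lit 78) (PT.lf (nat_lit 16948) (nat_lit 3) (nat_lit 223) (nat_lit 0) (nat_lit 181) (nat_lit 181) (nat_lit 148)) (PT.lf (nat_lit 16796) (nat_lit 6) (nat_lit 221) (nat_lit 0) (nat_lit 182) (nat_lit 181) (nat_lit 147))))) (PT.nd (nat_lit 50154) (PT.nd (nat_lit 50076) (PT.lf (nat_lit 16644) (nat_lit 6) (nat_lit 219) (nat_lit 0) (nat_lit 183) (nat_lit 181) (nat_lit 146)) (PT.lf (nat_lit 16416) (nat_lit 6) (nat_lit 216) (nat_lit 5) (nat_lit 144) (nat_lit 182) (nat_lit 184))) (PT.nd (nat_lit 78) (PT.lf (nat_lit 16568) (nat_lit 6) (nat_lit 218) (nat_lit 5) (nat_lit 145) (nat_lit 182) (nat_lit 183)) (PT.nd (nat_lit 78) (PT.lf (nat_lit 16720) (nat_lit 3) (nat_lit 220) (nat_lit 4) (nat_lit 146) (nat_lit 182) (nat_lit 182)) (PT.lf (nat_lit 16796) (nat_lit 6) (nat_lit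 221) (nat_lit 4) (nat_lit 147) (nat_lit 182) (nat_lit 181))))))) (PT.nd (nat_lit 52728) (PT.nd (nat_lit 2574) (PT.nd (nat_lit 2418) (PT.nd (nat_lit 78) (PT.lf (nat_lit 16872) (nat_lit 6) (nat_lit 222) (nat_lit 4) (nat_lit 148) (nat_lit 182) (nat_lit 180)) (PT.lf (nat_lit 17024) (nat_lit 6) (nat_lit 224) (nat_lit 4) (nat_lit 149) (nat_lit 182) (nat_lit 179))) (PT.nd (nat_lit 78) (PT.lf (nat_lit 17024) (nat_lit 6) (nat_lit 224) (nat_lit 2) (nat_lit 179) (nat_lit 182) (nat_lit 149)) (PT.lf (nat_lit 16872) (nat_lit 6) (nat_lit 222) (nat_lit 2) (nat_lit 180) (nat_lit 182) (nat_lit 148)))) (PT.nd (nat_lit 156) (PT.nd (nat_lit 78) (PT.lf (nat_lit 16796) (nat_lit 6) (nat_lit 221) (nat_lit 2) (nat_lit 181) (nat_lit 182) (nat_lit 147)) (PT.lf (nat_lit 16720) (nat_lit 3) (nat_lit 220) (nat_lit 0) (nat_lit 182) (nat_lit 182) (nat_lit 146))) (PT.nd (nat_lit 78) (PT.lf (nat_lit 16568) (nat_lit 6) (nat_lit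 218) (nat_lit 0) (nat_lit 183) (nat_lit 182) (nat_lit 145)) (PT.nd (nat_lit 49842) (PT.lf (nat_lit 16416) (nat_lit 6) (nat_lit 216) (nat_lit 0) (nat_lit 184) (nat_lit 182) (nat_lit 144)) (PT.lf (nat_lit 16188) (nat_lit 6) (nat_lit 213) (nat_lit 5) (nat_lit 142) (nat_lit 183) (nat_lit 185)))))) (PT.nd (nat_lit 3042) (PT.nd (nat_lit 156) (PT.nd (nat_lit 78) (PT.lf (nat_lit 16340) (nat_lit 6) (nat_lit 215) (nat_lit 5) (nat_lit 143) (nat_lit 183) (nat_lit 184)) (PT.lf (nat_lit 16492) (nat_lit 3) (nat_lit 217) (nat_lit 4) (nat_lit 144) (nat_lit 183) (nat_lit 183))) (PT.nd (nat_lit 78) (PT.lf (nat_lit 16568) (nat_lit 6) (nat_lit 218) (nat_lit 4) (nat_lit 145) (nat_lit 183) (nat_lit 182)) (PT.nd (nat_lit 2730) (PT.lf (nat_lit 16644) (nat_lit 6) (nat_lit 219) (nat_lit 4) (nat_lit 146) (nat_lit 183) (nat_lit 181)) (PT.lf (nat_lit 16644) (nat_lit 6) (nat_lit 219) (nat_lit 2) (nat_lit 181) (nat_lit 183)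 (nat_lit 146))))) (PT.nd (nat_lit 156) (PT.nd (nat_lit 78) (PT.lf (nat_lit 16568) (nat_lit 6) (nat_lit 218) (nat_lit 2) (nat_lit 182) (nat_lit 183) (nat_lit 145)) (PT.lf (nat_lit 16492) (nat_lit 3) (nat_lit 217) (nat_lit 0) (nat_lit 183) (nat_lit 183) (nat_lit 144))) (PT.nd (nat_lit 78) (PT.lf (nat_lit 16340) (nat_lit 6) (nat_lit 215) (nat_lit 0) (nat_lit 184) (nat_lit 183) (nat_lit 143)) (PT.nd (nat_lit 49608) (PT.lf (nat_lit 16188) (nat_lit 6) (nat_lit 213) (nat_lit 0) (nat_lit 185) (nat_lit 183) (nat_lit 142)) (PT.lf (nat_lit 15960) (nat_lit 6) (nat_lit 210) (nat_lit 5) (nat_lit 140) (nat_lit 184) (nat_lit 186))))))))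
noncomputable def pc18 : PT := (PT.nd (nat_lit 56706) (PT.nd (nat_lit 52884) (PT.nd (nat_lit 3198) (PT.nd (nat_lit 156) (PT.nd (nat_lit 78) (PT.lf (nat_lit 16112) (nat_lit 6) (nat_lit 212) (nat_lit 5) (nat_lit 141) (nat_lit 184) (nat_lit 185)) (PT.lf (nat_lit 16264) (nat_lit 3) (nat_lit 214) (nat_lit 4) (nat_lit 142) (nat_lit 184) (nat_lit 184))) (PT.nd (nat_lit 78) (PT.lf (nat_lit 16340) (nat_lit 6) (nat_lit 215) (nat_lit 4) (nat_lit 143) (nat_lit 184) (nat_lit 183)) (PT.lf (nat_lit 16416) (nat_lit 6) (nat_lit 216) (nat_lit 4) (nat_lit 144) (nat_lit 184) (nat_lit 182)))) (PT.nd (nat_lit 156) (PT.nd (nat_lit 78) (PT.lf (nat_lit 16416) (nat_lit 6) (nat_lit 216) (nat_lit 2) (nat_lit 182) (nat_lit 184) (nat_lit 144)) (PT.lf (nat_lit 16340) (nat_lit 6) (nat_lit 215) (nat_lit 2) (nat_lit 183) (nat_lit 184) (nat_lit 143))) (PT.nd (nat_lit 78) (PT.lf (nat_lit 16264) (nat_lit 3) (nat_lit 214) (nat_lit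 0) (nat_lit 184) (nat_lit 184) (nat_lit 142)) (PT.nd (nat_lit 78) (PT.lf (nat_lit 16112) (nat_lit 6) (nat_lit 212) (nat_lit 0) (nat_lit 185) (nat_lit 184) (nat_lit 141)) (PT.lf (nat_lit 15960) (nat_lit 6) (nat_lit 210) (nat_lit 0) (nat_lit 186) (nat_lit 184) (nat_lit 140)))))) (PT.nd (nat_lit 312) (PT.nd (nat_lit 156) (PT.nd (nat_lit 78) (PT.lf (nat_lit 15732) (nat_lit 6) (nat_lit 207) (nat_lit 5) (nat_lit 138) (nat_lit 185) (nat_lit 187)) (PT.lf (nat_lit 15884) (nat_lit 6) (nat_lit 209) (nat_lit 5) (nat_lit 139) (nat_lit 185) (nat_lit 186))) (PT.nd (nat_lit 78) (PT.lf (nat_lit 16036) (nat_lit 3) (nat_lit 211) (nat_lit 4) (nat_lit 140) (nat_lit 185) (nat_lit 185)) (PT.lf (nat_lit 16112) (nat_lit 6) (nat_lit 212) (nat_lit 4) (nat_lit 141) (nat_lit 185) (nat_lit 184)))) (PT.nd (nat_lit 3276) (PT.nd (nat_lit 3198) (PT.lf (nat_lit 16188) (nat_lit 6) (nat_lit 213) (nat_lit 4) (nat_lit 142) (nat_lit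 185) (nat_lit 183)) (PT.lf (nat_lit 16188) (nat_lit 6) (nat_lit 213) (nat_lit 2) (nat_lit 183) (nat_lit 185) (nat_lit 142))) (PT.nd (nat_lit 78) (PT.lf (nat_lit 16112) (nat_lit 6) (nat_lit 212) (nat_lit 2) (nat_lit 184) (nat_lit 185) (nat_lit 141)) (PT.nd (nat_lit 78) (PT.lf (nat_lit 16036) (nat_lit 3) (nat_lit 211) (nat_lit 0) (nat_lit 185) (nat_lit 185) (nat_lit 140)) (PT.lf (nat_lit 15884) (nat_lit 6) (nat_lit 209) (nat_lit 0) (nat_lit 186) (nat_lit 185) (nat_lit 139))))))) (PT.nd (nat_lit 53118) (PT.nd (nat_lit 49374) (PT.nd (nat_lit 49218) (PT.nd (nat_lit 49140) (PT.lf (nat_lit 15732) (nat_lit 6) (nat_lit 207) (nat_lit 0) (nat_lit 187) (nat_lit 185) (nat_lit 138)) (PT.lf (nat_lit 15504) (nat_lit 6) (nat_lit 204) (nat_lit 5) (nat_lit 136) (nat_lit 186) (nat_lit 188))) (PT.nd (nat_lit 78) (PT.lf (nat_lit 15656) (nat_lit 6) (nat_lit 206) (nat_lit 5) (nat_lit 137) (nat_lit 186) (nat_lit 187))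 (PT.lf (nat_lit 15808) (nat_lit 3) (nat_lit 208) (nat_lit 4) (nat_lit 138) (nat_lit 186) (nat_lit 186)))) (PT.nd (nat_lit 3510) (PT.nd (nat_lit 78) (PT.lf (nat_lit 15884) (nat_lit 6) (nat_lit 209) (nat_lit 4) (nat_lit 139) (nat_lit 186) (nat_lit 185)) (PT.lf (nat_lit 15960) (nat_lit 6) (nat_lit 210) (nat_lit 4) (nat_lit 140) (nat_lit 186) (nat_lit 184))) (PT.nd (nat_lit 78) (PT.lf (nat_lit 15960) (nat_lit 6) (nat_lit 210) (nat_lit 2) (nat_lit 184) (nat_lit 186) (nat_lit 140)) (PT.nd (nat_lit 78) (PT.lf (nat_lit 15884) (nat_lit 6) (nat_lit 209) (nat_lit 2) (nat_lit 185) (nat_lit 186) (nat_lit 139)) (PT.lf (nat_lit 15808) (nat_lit 3) (nat_lit 208) (nat_lit 0) (nat_lit 186) (nat_lit 186) (nat_lit 138)))))) (PT.nd (nat_lit 49218) (PT.nd (nat_lit 48984) (PT.nd (nat_lit 78) (PT.lf (nat_lit 15656) (nat_lit 6) (nat_lit 206) (nat_lit 0) (nat_lit 187) (nat_lit 186) (nat_lit 137)) (PT.lf (nat_lit 15504)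 (nat_lit 6) (nat_lit 204) (nat_lit 0) (nat_lit 188) (nat_lit 186) (nat_lit 136))) (PT.nd (nat_lit 78) (PT.lf (nat_lit 15276) (nat_lit 6) (nat_lit 201) (nat_lit 5) (nat_lit 134) (nat_lit 187) (nat_lit 189)) (PT.nd (nat_lit 78) (PT.lf (nat_lit 15428) (nat_lit 6) (nat_lit 203) (nat_lit 5) (nat_lit 135) (nat_lit 187) (nat_lit 188)) (PT.lf (nat_lit 15580) (nat_lit 3) (nat_lit 205) (nat_lit 4) (nat_lit 136) (nat_lit 187) (nat_lit 187))))) (PT.nd (nat_lit 3744) (PT.nd (nat_lit 78) (PT.lf (nat_lit 15656) (nat_lit 6) (nat_lit 206) (nat_lit 4) (nat_lit 137) (nat_lit 187) (nat_lit 186)) (PT.lf (nat_lit 15732) (nat_lit 6) (nat_lit 207) (nat_lit 4) (nat_lit 138) (nat_lit 187) (nat_lit 185))) (PT.nd (nat_lit 78) (PT.lf (nat_lit 15732) (nat_lit 6) (nat_lit 207) (nat_lit 2) (nat_lit 185) (nat_lit 187) (nat_lit 138)) (PT.nd (nat_lit 78) (PT.lf (nat_lit 15656) (nat_lit 6) (nat_lit 206) (nat_lit 2) (nat_lit 186)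 (nat_lit 187) (nat_lit 137)) (PT.lf (nat_lit 15580) (nat_lit 3) (nat_lit 205) (nat_lit 0) (nat_lit 187) (nat_lit 187) (nat_lit 136))))))))
noncomputable def pc19 : PT := (PT.nd (nat_lit 106314) (PT.nd (nat_lit 53118) (PT.nd (nat_lit 48906) (PT.nd (nat_lit 48750) (PT.nd (nat_lit 78) (PT.lf (nat_lit 15428) (nat_lit 6) (nat_lit 203) (nat_lit 0) (nat_lit 188) (nat_lit 187) (nat_lit 135)) (PT.lf (nat_lit 15276) (nat_lit 6) (nat_lit 201) (nat_lit 0) (nat_lit 189) (nat_lit 187) (nat_lit 134))) (PT.nd (nat_lit 78) (PT.lf (nat_lit 15048) (nat_lit 6) (nat_lit 198) (nat_lit 5) (nat_lit 132) (nat_lit 188) (nat_lit 190)) (PT.lf (nat_lit 15200) (nat_lit 6) (nat_lit 200) (nat_lit 5) (nat_lit 133) (nat_lit 188) (nat_lit 189)))) (PT.nd (nat_lit 156) (PT.nd (nat_lit 78) (PT.lf (nat_lit 15352) (nat_lit 3) (nat_lit 202) (nat_lit 4) (nat_lit 134) (nat_lit 188) (nat_lit 188)) (PT.lf (nat_lit 15428) (nat_lit 6) (nat_lit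 203) (nat_lit 4) (nat_lit 135) (nat_lit 188) (nat_lit 187))) (PT.nd (nat_lit 3900) (PT.lf (nat_lit 15504) (nat_lit 6) (nat_lit 204) (nat_lit 4) (nat_lit 136) (nat_lit 188) (nat_lit 186)) (PT.nd (nat_lit 78) (PT.lf (nat_lit 15504) (nat_lit 6) (nat_lit 204) (nat_lit 2) (nat_lit 186) (nat_lit 188) (nat_lit 136)) (PT.lf (nat_lit 15428) (nat_lit 6) (nat_lit 203) (nat_lit 2) (nat_lit 187) (nat_lit 188) (nat_lit 135)))))) (PT.nd (nat_lit 48750) (PT.nd (nat_lit 156) (PT.nd (nat_lit 78) (PT.lf (nat_lit 15352) (nat_lit 3) (nat_lit 202) (nat_lit 0) (nat_lit 188) (nat_lit 188) (nat_lit 134)) (PT.lf (nat_lit 15200) (nat_lit 6) (nat_lit 200) (nat_lit 0) (nat_lit 189) (nat_lit 188) (nat_lit 133))) (PT.nd (nat_lit 48438) (PT.lf (nat_lit 15048) (nat_lit 6) (nat_lit 198) (nat_lit 0) (nat_lit 190) (nat_lit 188) (nat_lit 132)) (PT.nd (nat_lit 78) (PT.lf (nat_lit 14820) (nat_lit 6) (nat_lit 195) (nat_lit 5) (nat_lit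 130) (nat_lit 189) (nat_lit 191)) (PT.lf (nat_lit 14972) (nat_lit 6) (nat_lit 197) (nat_lit 5) (nat_lit 131) (nat_lit 189) (nat_lit 190))))) (PT.nd (nat_lit 156) (PT.nd (nat_lit 78) (PT.lf (nat_lit 15124) (nat_lit 3) (nat_lit 199) (nat_lit 4) (nat_lit 132) (nat_lit 189) (nat_lit 189)) (PT.lf (nat_lit 15200) (nat_lit 6) (nat_lit 200) (nat_lit 4) (nat_lit 133) (nat_lit 189) (nat_lit 188))) (PT.nd (nat_lit 4134) (PT.lf (nat_lit 15276) (nat_lit 6) (nat_lit 201) (nat_lit 4) (nat_lit 134) (nat_lit 189) (nat_lit 187)) (PT.nd (nat_lit 78) (PT.lf (nat_lit 15276) (nat_lit 6) (nat_lit 201) (nat_lit 2) (nat_lit 187) (nat_lit 189) (nat_lit 134)) (PT.lf (nat_lit 15200) (nat_lit 6) (nat_lit 200) (nat_lit 2) (nat_lit 188) (nat_lit 189) (nat_lit 133))))))) (PT.nd (nat_lit 53118) (PT.nd (nat_lit 48438) (PT.nd (nat_lit 156) (PT.nd (nat_lit 78) (PT.lf (nat_lit 15124) (nat_lit 3) (nat_lit 199) (nat_lit 0) (nat_lit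 189) (nat_lit 189) (nat_lit 132)) (PT.lf (nat_lit 14972) (nat_lit 6) (nat_lit 197) (nat_lit 0) (nat_lit 190) (nat_lit 189) (nat_lit 131))) (PT.nd (nat_lit 48204) (PT.lf (nat_lit 14820) (nat_lit 6) (nat_lit 195) (nat_lit 0) (nat_lit 191) (nat_lit 189) (nat_lit 130)) (PT.lf (nat_lit 14592) (nat_lit 6) (nat_lit 192) (nat_lit 5) (nat_lit 128) (nat_lit 190) (nat_lit 192)))) (PT.nd (nat_lit 156) (PT.nd (nat_lit 78) (PT.lf (nat_lit 14744) (nat_lit 6) (nat_lit 194) (nat_lit 5) (nat_lit 129) (nat_lit 190) (nat_lit 191)) (PT.lf (nat_lit 14896) (nat_lit 3) (nat_lit 196) (nat_lit 4) (nat_lit 130) (nat_lit 190) (nat_lit 190))) (PT.nd (nat_lit 78) (PT.lf (nat_lit 14972) (nat_lit 6) (nat_lit 197) (nat_lit 4) (nat_lit 131) (nat_lit 190) (nat_lit 189)) (PT.nd (nat_lit 4368) (PT.lf (nat_lit 15048) (nat_lit 6) (nat_lit 198) (nat_lit 4) (nat_lit 132) (nat_lit 190) (nat_lit 188)) (PT.lf (nat_lit 15048) (nat_lit 6)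 (nat_lit 198) (nat_lit 2) (nat_lit 188) (nat_lit 190) (nat_lit 132)))))) (PT.nd (nat_lit 48282) (PT.nd (nat_lit 156) (PT.nd (nat_lit 78) (PT.lf (nat_lit 14972) (nat_lit 6) (nat_lit 197) (nat_lit 2) (nat_lit 189) (nat_lit 190) (nat_lit 131)) (PT.lf (nat_lit 14896) (nat_lit 3) (nat_lit 196) (nat_lit 0) (nat_lit 190) (nat_lit 190) (nat_lit 130))) (PT.nd (nat_lit 78) (PT.lf (nat_lit 14744) (nat_lit 6) (nat_lit 194) (nat_lit 0) (nat_lit 191) (nat_lit 190) (nat_lit 129)) (PT.nd (nat_lit 47970) (PT.lf (nat_lit 14592) (nat_lit 6) (nat_lit 192) (nat_lit 0) (nat_lit 192) (nat_lit 190) (nat_lit 128)) (PT.lf (nat_lit 14364) (nat_lit 6) (nat_lit 189) (nat_lit 5) (nat_lit 126) (nat_lit 191) (nat_lit 193))))) (PT.nd (nat_lit 156) (PT.nd (nat_lit 78) (PT.lf (nat_lit 14516) (nat_lit 6) (nat_lit 191) (nat_lit 5) (nat_lit 127) (nat_lit 191) (nat_lit 192)) (PT.lf (nat_lit 14668) (nat_lit 3) (nat_lit 193) (nat_lit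 4) (nat_lit 128) (nat_lit 191) (nat_lit 191))) (PT.nd (nat_lit 78) (PT.lf (nat_lit 14744) (nat_lit 6) (nat_lit 194) (nat_lit 4) (nat_lit 129) (nat_lit 191) (nat_lit 190)) (PT.nd (nat_lit 4602) (PT.lf (nat_lit 14820) (nat_lit 6) (nat_lit 195) (nat_lit 4) (nat_lit 130) (nat_lit 191) (nat_lit 189)) (PT.lf (nat_lit 14820) (nat_lit 6) (nat_lit 195) (nat_lit 2) (nat_lit 189) (nat_lit 191) (nat_lit 130))))))))
noncomputable def pc20 : PT := (PT.nd (nat_lit 101244) (PT.nd (nat_lit 53118) (PT.nd (nat_lit 47970) (PT.nd (nat_lit 156) (PT.nd (nat_lit 78) (PT.lf (nat_lit 14744) (nat_lit 6) (nat_lit 194) (nat_lit 2) (nat_lit 190) (nat_lit 191) (nat_lit 129)) (PT.lf (nat_lit 14668) (nat_lit 3) (nat_lit 193) (nat_lit 0) (nat_lit 191) (nat_lit 191) (nat_lit 128))) (PT.nd (nat_lit 78) (PT.lf (nat_lit 14516) (nat_lit 6) (nat_lit 191) (nat_lit 0) (nat_lit 192) (nat_lit 191) (nat_lit 127)) (PT.lf (nat_lit 14364)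 (nat_lit 6) (nat_lit 189) (nat_lit 0) (nat_lit 193) (nat_lit 191) (nat_lit 126)))) (PT.nd (nat_lit 156) (PT.nd (nat_lit 78) (PT.lf (nat_lit 14136) (nat_lit 6) (nat_lit 186) (nat_lit 5) (nat_lit 124) (nat_lit 192) (nat_lit 194)) (PT.lf (nat_lit 14288) (nat_lit 6) (nat_lit 188) (nat_lit 5) (nat_lit 125) (nat_lit 192) (nat_lit 193))) (PT.nd (nat_lit 78) (PT.lf (nat_lit 14440) (nat_lit 3) (nat_lit 190) (nat_lit 4) (nat_lit 126) (nat_lit 192) (nat_lit 192)) (PT.nd (nat_lit 78) (PT.lf (nat_lit 14516) (nat_lit 6) (nat_lit 191) (nat_lit 4) (nat_lit 127) (nat_lit 192) (nat_lit 191)) (PT.lf (nat_lit 14592) (nat_lit 6) (nat_lit 192) (nat_lit 4) (nat_lit 128) (nat_lit 192) (nat_lit 190)))))) (PT.nd (nat_lit 312) (PT.nd (nat_lit 156) (PT.nd (nat_lit 78) (PT.lf (nat_lit 14592) (nat_lit 6) (nat_lit 192) (nat_lit 2) (nat_lit 190) (nat_lit 192) (nat_lit 128)) (PT.lf (nat_lit 14516) (nat_lit 6) (nat_lit 191) (nat_lit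 2) (nat_lit 191) (nat_lit 192) (nat_lit 127))) (PT.nd (nat_lit 78) (PT.lf (nat_lit 14440) (nat_lit 3) (nat_lit 190) (nat_lit 0) (nat_lit 192) (nat_lit 192) (nat_lit 126)) (PT.lf (nat_lit 14288) (nat_lit 6) (nat_lit 188) (nat_lit 0) (nat_lit 193) (nat_lit 192) (nat_lit 125)))) (PT.nd (nat_lit 47580) (PT.nd (nat_lit 47502) (PT.lf (nat_lit 14136) (nat_lit 6) (nat_lit 186) (nat_lit 0) (nat_lit 194) (nat_lit 192) (nat_lit 124)) (PT.lf (nat_lit 13908) (nat_lit 6) (nat_lit 183) (nat_lit 5) (nat_lit 122) (nat_lit 193) (nat_lit 195))) (PT.nd (nat_lit 78) (PT.lf (nat_lit 14060) (nat_lit 6) (nat_lit 185) (nat_lit 5) (nat_lit 123) (nat_lit 193) (nat_lit 194)) (PT.nd (nat_lit 78) (PT.lf (nat_lit 14212) (nat_lit 3) (nat_lit 187) (nat_lit 4) (nat_lit 124) (nat_lit 193) (nat_lit 193)) (PT.lf (nat_lit 14288) (nat_lit 6) (nat_lit 188) (nat_lit 4) (nat_lit 125) (nat_lit 193) (nat_lit 192))))))) (PT.nd (nat_lit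 52884) (PT.nd (nat_lit 5304) (PT.nd (nat_lit 5148) (PT.nd (nat_lit 5070) (PT.lf (nat_lit 14364) (nat_lit 6) (nat_lit 189) (nat_lit 4) (nat_lit 126) (nat_lit 193) (nat_lit 191)) (PT.lf (nat_lit 14364) (nat_lit 6) (nat_lit 189) (nat_lit 2) (nat_lit 191) (nat_lit 193) (nat_lit 126))) (PT.nd (nat_lit 78) (PT.lf (nat_lit 14288) (nat_lit 6) (nat_lit 188) (nat_lit 2) (nat_lit 192) (nat_lit 193) (nat_lit 125)) (PT.lf (nat_lit 14212) (nat_lit 3) (nat_lit 187) (nat_lit 0) (nat_lit 193) (nat_lit 193) (nat_lit 124)))) (PT.nd (nat_lit 47346) (PT.nd (nat_lit 78) (PT.lf (nat_lit 14060) (nat_lit 6) (nat_lit 185) (nat_lit 0) (nat_lit 194) (nat_lit 193) (nat_lit 123)) (PT.lf (nat_lit 13908) (nat_lit 6) (nat_lit 183) (nat_lit 0) (nat_lit 195) (nat_lit 193) (nat_lit 122))) (PT.nd (nat_lit 78) (PT.lf (nat_lit 13680) (nat_lit 6) (nat_lit 180) (nat_lit 5) (nat_lit 120) (nat_lit 194) (nat_lit 196)) (PT.nd (nat_lit 78)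 (PT.lf (nat_lit 13832) (nat_lit 6) (nat_lit 182) (nat_lit 5) (nat_lit 121) (nat_lit 194) (nat_lit 195)) (PT.lf (nat_lit 13984) (nat_lit 3) (nat_lit 184) (nat_lit 4) (nat_lit 122) (nat_lit 194) (nat_lit 194)))))) (PT.nd (nat_lit 5616) (PT.nd (nat_lit 5382) (PT.nd (nat_lit 78) (PT.lf (nat_lit 14060) (nat_lit 6) (nat_lit 185) (nat_lit 4) (nat_lit 123) (nat_lit 194) (nat_lit 193)) (PT.lf (nat_lit 14136) (nat_lit 6) (nat_lit 186) (nat_lit 4) (nat_lit 124) (nat_lit 194) (nat_lit 192))) (PT.nd (nat_lit 78) (PT.lf (nat_lit 14136) (nat_lit 6) (nat_lit 186) (nat_lit 2) (nat_lit 192) (nat_lit 194) (nat_lit 124)) (PT.nd (nat_lit 78) (PT.lf (nat_lit 14060) (nat_lit 6) (nat_lit 185) (nat_lit 2) (nat_lit 193) (nat_lit 194) (nat_lit 123)) (PT.lf (nat_lit 13984) (nat_lit 3) (nat_lit 184) (nat_lit 0) (nat_lit 194) (nat_lit 194) (nat_lit 122))))) (PT.nd (nat_lit 47112) (PT.nd (nat_lit 78) (PT.lf (nat_lit 13832)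 (nat_lit 6) (nat_lit 182) (nat_lit 0) (nat_lit 195) (nat_lit 194) (nat_lit 121)) (PT.lf (nat_lit 13680) (nat_lit 6) (nat_lit 180) (nat_lit 0) (nat_lit 196) (nat_lit 194) (nat_lit 120))) (PT.nd (nat_lit 78) (PT.lf (nat_lit 13452) (nat_lit 6) (nat_lit 177) (nat_lit 5) (nat_lit 118) (nat_lit 195) (nat_lit 197)) (PT.nd (nat_lit 78) (PT.lf (nat_lit 13604) (nat_lit 6) (nat_lit 179) (nat_lit 5) (nat_lit 119) (nat_lit 195) (nat_lit 196)) (PT.lf (nat_lit 13756) (nat_lit 3) (nat_lit 181) (nat_lit 4) (nat_lit 120) (nat_lit 195) (nat_lit 195))))))))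
noncomputable def pc21 : PT := (PT.nd (nat_lit 105846) (PT.nd (nat_lit 52884) (PT.nd (nat_lit 5772) (PT.nd (nat_lit 5616) (PT.nd (nat_lit 78) (PT.lf (nat_lit 13832) (nat_lit 6) (nat_lit 182) (nat_lit 4) (nat_lit 121) (nat_lit 195) (nat_lit 194)) (PT.lf (nat_lit 13908) (nat_lit 6) (nat_lit 183) (nat_lit 4) (nat_lit 122) (nat_lit 195) (nat_lit 193))) (PT.nd (nat_lit 78) (PT.lf (nat_lit 13908) (nat_lit 6) (nat_lit 183) (nat_lit 2) (nat_lit 193) (nat_lit 195) (nat_lit 122)) (PT.lf (nat_lit 13832) (nat_lit 6) (nat_lit 182) (nat_lit 2) (nat_lit 194) (nat_lit 195) (nat_lit 121)))) (PT.nd (nat_lit 156) (PT.nd (nat_lit 78) (PT.lf (nat_lit 13756) (nat_lit 3) (nat_lit 181) (nat_lit 0) (nat_lit 195) (nat_lit 195) (nat_lit 120)) (PT.lf (nat_lit 13604) (nat_lit 6) (nat_lit 179) (nat_lit 0) (nat_lit 196) (nat_lit 195) (nat_lit 119))) (PT.nd (nat_lit 46800) (PT.lf (nat_lit 13452) (nat_lit 6) (nat_lit 177) (nat_lit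 0) (nat_lit 197) (nat_lit 195) (nat_lit 118)) (PT.nd (nat_lit 78) (PT.lf (nat_lit 13224) (nat_lit 6) (nat_lit 174) (nat_lit 5) (nat_lit 116) (nat_lit 196) (nat_lit 198)) (PT.lf (nat_lit 13376) (nat_lit 6) (nat_lit 176) (nat_lit 5) (nat_lit 117) (nat_lit 196) (nat_lit 197)))))) (PT.nd (nat_lit 6084) (PT.nd (nat_lit 156) (PT.nd (nat_lit 78) (PT.lf (nat_lit 13528) (nat_lit 3) (nat_lit 178) (nat_lit 4) (nat_lit 118) (nat_lit 196) (nat_lit 196)) (PT.lf (nat_lit 13604) (nat_lit 6) (nat_lit 179) (nat_lit 4) (nat_lit 119) (nat_lit 196) (nat_lit 195))) (PT.nd (nat_lit 5772) (PT.lf (nat_lit 13680) (nat_lit 6) (nat_lit 180) (nat_lit 4) (nat_lit 120) (nat_lit 196) (nat_lit 194)) (PT.nd (nat_lit 78) (PT.lf (nat_lit 13680) (nat_lit 6) (nat_lit 180) (nat_lit 2) (nat_lit 194) (nat_lit 196) (nat_lit 120)) (PT.lf (nat_lit 13604) (nat_lit 6) (nat_lit 179) (nat_lit 2) (nat_lit 195) (nat_lit 196) (nat_lit 119)))))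 (PT.nd (nat_lit 156) (PT.nd (nat_lit 78) (PT.lf (nat_lit 13528) (nat_lit 3) (nat_lit 178) (nat_lit 0) (nat_lit 196) (nat_lit 196) (nat_lit 118)) (PT.lf (nat_lit 13376) (nat_lit 6) (nat_lit 176) (nat_lit 0) (nat_lit 197) (nat_lit 196) (nat_lit 117))) (PT.nd (nat_lit 46566) (PT.lf (nat_lit 13224) (nat_lit 6) (nat_lit 174) (nat_lit 0) (nat_lit 198) (nat_lit 196) (nat_lit 116)) (PT.nd (nat_lit 78) (PT.lf (nat_lit 12996) (nat_lit 6) (nat_lit 171) (nat_lit 5) (nat_lit 114) (nat_lit 197) (nat_lit 199)) (PT.lf (nat_lit 13148) (nat_lit 6) (nat_lit 173) (nat_lit 5) (nat_lit 115) (nat_lit 197) (nat_lit 198))))))) (PT.nd (nat_lit 52884) (PT.nd (nat_lit 6240) (PT.nd (nat_lit 156) (PT.nd (nat_lit 78) (PT.lf (nat_lit 13300) (nat_lit 3) (nat_lit 175) (nat_lit 4) (nat_lit 116) (nat_lit 197) (nat_lit 197)) (PT.lf (nat_lit 13376) (nat_lit 6) (nat_lit 176) (nat_lit 4) (nat_lit 117) (nat_lit 197) (nat_lit 196)))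 (PT.nd (nat_lit 6006) (PT.lf (nat_lit 13452) (nat_lit 6) (nat_lit 177) (nat_lit 4) (nat_lit 118) (nat_lit 197) (nat_lit 195)) (PT.lf (nat_lit 13452) (nat_lit 6) (nat_lit 177) (nat_lit 2) (nat_lit 195) (nat_lit 197) (nat_lit 118)))) (PT.nd (nat_lit 156) (PT.nd (nat_lit 78) (PT.lf (nat_lit 13376) (nat_lit 6) (nat_lit 176) (nat_lit 2) (nat_lit 196) (nat_lit 197) (nat_lit 117)) (PT.lf (nat_lit 13300) (nat_lit 3) (nat_lit 175) (nat_lit 0) (nat_lit 197) (nat_lit 197) (nat_lit 116))) (PT.nd (nat_lit 78) (PT.lf (nat_lit 13148) (nat_lit 6) (nat_lit 173) (nat_lit 0) (nat_lit 198) (nat_lit 197) (nat_lit 115)) (PT.nd (nat_lit 46332) (PT.lf (nat_lit 12996) (nat_lit 6) (nat_lit 171) (nat_lit 0) (nat_lit 199) (nat_lit 197) (nat_lit 114)) (PT.lf (nat_lit 12768) (nat_lit 6) (nat_lit 168) (nat_lit 5) (nat_lit 112) (nat_lit 198) (nat_lit 200)))))) (PT.nd (nat_lit 6552) (PT.nd (nat_lit 156) (PT.nd (nat_lit 78) (PT.lf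 (nat_lit 12920) (nat_lit 6) (nat_lit 170) (nat_lit 5) (nat_lit 113) (nat_lit 198) (nat_lit 199)) (PT.lf (nat_lit 13072) (nat_lit 3) (nat_lit 172) (nat_lit 4) (nat_lit 114) (nat_lit 198) (nat_lit 198))) (PT.nd (nat_lit 78) (PT.lf (nat_lit 13148) (nat_lit 6) (nat_lit 173) (nat_lit 4) (nat_lit 115) (nat_lit 198) (nat_lit 197)) (PT.nd (nat_lit 6240) (PT.lf (nat_lit 13224) (nat_lit 6) (nat_lit 174) (nat_lit 4) (nat_lit 116) (nat_lit 198) (nat_lit 196)) (PT.lf (nat_lit 13224) (nat_lit 6) (nat_lit 174) (nat_lit 2) (nat_lit 196) (nat_lit 198) (nat_lit 116))))) (PT.nd (nat_lit 156) (PT.nd (nat_lit 78) (PT.lf (nat_lit 13148) (nat_lit 6) (nat_lit 173) (nat_lit 2) (nat_lit 197) (nat_lit 198) (nat_lit 115)) (PT.lf (nat_lit 13072) (nat_lit 3) (nat_lit 172) (nat_lit 0) (nat_lit 198) (nat_lit 198) (nat_lit 114))) (PT.nd (nat_lit 78) (PT.lf (nat_lit 12920) (nat_lit 6) (nat_lit 170) (nat_lit 0) (nat_lit 199) (nat_lit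 198) (nat_lit 113)) (PT.nd (nat_lit 46098) (PT.lf (nat_lit 12768) (nat_lit 6) (nat_lit 168) (nat_lit 0) (nat_lit 200) (nat_lit 198) (nat_lit 112)) (PT.lf (nat_lit 12540) (nat_lit 6) (nat_lit 165) (nat_lit 5) (nat_lit 110) (nat_lit 199) (nat_lit 201))))))))
noncomputable def pc22 : PT := (PT.nd (nat_lit 105846) (PT.nd (nat_lit 52884) (PT.nd (nat_lit 6708) (PT.nd (nat_lit 156) (PT.nd (nat_lit 78) (PT.lf (nat_lit 12692) (nat_lit 6) (nat_lit 167) (nat_lit 5) (nat_lit 111) (nat_lit 199) (nat_lit 200)) (PT.lf (nat_lit 12844) (nat_lit 3) (nat_lit 169) (nat_lit 4) (nat_lit 112) (nat_lit 199) (nat_lit 199))) (PT.nd (nat_lit 78) (PT.lf (nat_lit 12920) (nat_lit 6) (nat_lit 170) (nat_lit 4) (nat_lit 113) (nat_lit 199) (nat_lit 198)) (PT.lf (nat_lit 12996) (nat_lit 6) (nat_lit 171) (nat_lit 4) (nat_lit 114) (nat_lit 199) (nat_lit 197)))) (PT.nd (nat_lit 156) (PT.nd (nat_lit 78) (PT.lf (nat_lit 12996) (nat_lit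 6) (nat_lit 171) (nat_lit 2) (nat_lit 197) (nat_lit 199) (nat_lit 114)) (PT.lf (nat_lit 12920) (nat_lit 6) (nat_lit 170) (nat_lit 2) (nat_lit 198) (nat_lit 199) (nat_lit 113))) (PT.nd (nat_lit 78) (PT.lf (nat_lit 12844) (nat_lit 3) (nat_lit 169) (nat_lit 0) (nat_lit 199) (nat_lit 199) (nat_lit 112)) (PT.nd (nat_lit 78) (PT.lf (nat_lit 12692) (nat_lit 6) (nat_lit 167) (nat_lit 0) (nat_lit 200) (nat_lit 199) (nat_lit 111)) (PT.lf (nat_lit 12540) (nat_lit 6) (nat_lit 165) (nat_lit 0) (nat_lit 201) (nat_lit 199) (nat_lit 110)))))) (PT.nd (nat_lit 7020) (PT.nd (nat_lit 156) (PT.nd (nat_lit 78) (PT.lf (nat_lit 12312) (nat_lit 6) (nat_lit 162) (nat_lit 5) (nat_lit 108) (nat_lit 200) (nat_lit 202)) (PT.lf (nat_lit 12464) (nat_lit 6) (nat_lit 164) (nat_lit 5) (nat_lit 109) (nat_lit 200) (nat_lit 201))) (PT.nd (nat_lit 78) (PT.lf (nat_lit 12616) (nat_lit 3) (nat_lit 166) (nat_lit 4) (nat_lit 110) (nat_lit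 200) (nat_lit 200)) (PT.nd (nat_lit 78) (PT.lf (nat_lit 12692) (nat_lit 6) (nat_lit 167) (nat_lit 4) (nat_lit 111) (nat_lit 200) (nat_lit 199)) (PT.lf (nat_lit 12768) (nat_lit 6) (nat_lit 168) (nat_lit 4) (nat_lit 112) (nat_lit 200) (nat_lit 198))))) (PT.nd (nat_lit 156) (PT.nd (nat_lit 78) (PT.lf (nat_lit 12768) (nat_lit 6) (nat_lit 168) (nat_lit 2) (nat_lit 198) (nat_lit 200) (nat_lit 112)) (PT.lf (nat_lit 12692) (nat_lit 6) (nat_lit 167) (nat_lit 2) (nat_lit 199) (nat_lit 200) (nat_lit 111))) (PT.nd (nat_lit 78) (PT.lf (nat_lit 12616) (nat_lit 3) (nat_lit 166) (nat_lit 0) (nat_lit 200) (nat_lit 200) (nat_lit 110)) (PT.nd (nat_lit 78) (PT.lf (nat_lit 12464) (nat_lit 6) (nat_lit 164) (nat_lit 0) (nat_lit 201) (nat_lit 200) (nat_lit 109)) (PT.lf (nat_lit 12312) (nat_lit 6) (nat_lit 162) (nat_lit 0) (nat_lit 202) (nat_lit 200) (nat_lit 108))))))) (PT.nd (nat_lit 7566) (PT.nd (nat_lit 312) (PT.nd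 (nat_lit 156) (PT.nd (nat_lit 78) (PT.lf (nat_lit 12084) (nat_lit 6) (nat_lit 159) (nat_lit 5) (nat_lit 106) (nat_lit 201) (nat_lit 203)) (PT.lf (nat_lit 12236) (nat_lit 6) (nat_lit 161) (nat_lit 5) (nat_lit 107) (nat_lit 201) (nat_lit 202))) (PT.nd (nat_lit 78) (PT.lf (nat_lit 12388) (nat_lit 3) (nat_lit 163) (nat_lit 4) (nat_lit 108) (nat_lit 201) (nat_lit 201)) (PT.lf (nat_lit 12464) (nat_lit 6) (nat_lit 164) (nat_lit 4) (nat_lit 109) (nat_lit 201) (nat_lit 200)))) (PT.nd (nat_lit 7020) (PT.nd (nat_lit 6942) (PT.lf (nat_lit 12540) (nat_lit 6) (nat_lit 165) (nat_lit 4) (nat_lit 110) (nat_lit 201) (nat_lit 199)) (PT.lf (nat_lit 12540) (nat_lit 6) (nat_lit 165) (nat_lit 2) (nat_lit 199) (nat_lit 201) (nat_lit 110))) (PT.nd (nat_lit 78) (PT.lf (nat_lit 12464) (nat_lit 6) (nat_lit 164) (nat_lit 2) (nat_lit 200) (nat_lit 201) (nat_lit 109)) (PT.nd (nat_lit 78) (PT.lf (nat_lit 12388) (nat_lit 3)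 (nat_lit 163) (nat_lit 0) (nat_lit 201) (nat_lit 201) (nat_lit 108)) (PT.lf (nat_lit 12236) (nat_lit 6) (nat_lit 161) (nat_lit 0) (nat_lit 202) (nat_lit 201) (nat_lit 107)))))) (PT.nd (nat_lit 45708) (PT.nd (nat_lit 45474) (PT.nd (nat_lit 45396) (PT.lf (nat_lit 12084) (nat_lit 6) (nat_lit 159) (nat_lit 0) (nat_lit 203) (nat_lit 201) (nat_lit 106)) (PT.lf (nat_lit 11856) (nat_lit 6) (nat_lit 156) (nat_lit 5) (nat_lit 104) (nat_lit 202) (nat_lit 204))) (PT.nd (nat_lit 78) (PT.lf (nat_lit 12008) (nat_lit 6) (nat_lit 158) (nat_lit 5) (nat_lit 105) (nat_lit 202) (nat_lit 203)) (PT.nd (nat_lit 78) (PT.lf (nat_lit 12160) (nat_lit 3) (nat_lit 160) (nat_lit 4) (nat_lit 106) (nat_lit 202) (nat_lit 202)) (PT.lf (nat_lit 12236) (nat_lit 6) (nat_lit 161) (nat_lit 4) (nat_lit 107) (nat_lit 202) (nat_lit 201))))) (PT.nd (nat_lit 7254) (PT.nd (nat_lit 7176) (PT.lf (nat_lit 12312) (nat_lit 6) (nat_lit 162) (nat_lit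 4) (nat_lit 108) (nat_lit 202) (nat_lit 200)) (PT.lf (nat_lit 12312) (nat_lit 6) (nat_lit 162) (nat_lit 2) (nat_lit 200) (nat_lit 202) (nat_lit 108))) (PT.nd (nat_lit 78) (PT.lf (nat_lit 12236) (nat_lit 6) (nat_lit 161) (nat_lit 2) (nat_lit 201) (nat_lit 202) (nat_lit 107)) (PT.nd (nat_lit 78) (PT.lf (nat_lit 12160) (nat_lit 3) (nat_lit 160) (nat_lit 0) (nat_lit 202) (nat_lit 202) (nat_lit 106)) (PT.lf (nat_lit 12008) (nat_lit 6) (nat_lit 158) (nat_lit 0) (nat_lit 203) (nat_lit 202) (nat_lit 105))))))))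
noncomputable def pc23 : PT := (PT.nd (nat_lit 106314) (PT.nd (nat_lit 53118) (PT.nd (nat_lit 45396) (PT.nd (nat_lit 45240) (PT.nd (nat_lit 45162) (PT.lf (nat_lit 11856) (nat_lit 6) (nat_lit 156) (nat_lit 0) (nat_lit 204) (nat_lit 202) (nat_lit 104)) (PT.lf (nat_lit 11628) (nat_lit 6) (nat_lit 153) (nat_lit 5) (nat_lit 102) (nat_lit 203) (nat_lit 205))) (PT.nd (nat_lit 78) (PT.lf (nat_lit 11780) (nat_lit 6) (nat_lit 155) (nat_lit 5) (nat_lit 103) (nat_lit 203) (nat_lit 204)) (PT.lf (nat_lit 11932) (nat_lit 3) (nat_lit 157) (nat_lit 4) (nat_lit 104) (nat_lit 203) (nat_lit 203)))) (PT.nd (nat_lit 7488) (PT.nd (nat_lit 78) (PT.lf (nat_lit 12008) (nat_lit 6) (nat_lit 158) (nat_lit 4) (nat_lit 105) (nat_lit 203) (nat_lit 202)) (PT.lf (nat_lit 12084) (nat_lit 6) (nat_lit 159) (nat_lit 4) (nat_lit 106) (nat_lit 203) (nat_lit 201))) (PT.nd (nat_lit 78) (PT.lf (nat_lit 12084) (nat_lit 6) (nat_lit 159)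 (nat_lit 2) (nat_lit 201) (nat_lit 203) (nat_lit 106)) (PT.nd (nat_lit 78) (PT.lf (nat_lit 12008) (nat_lit 6) (nat_lit 158) (nat_lit 2) (nat_lit 202) (nat_lit 203) (nat_lit 105)) (PT.lf (nat_lit 11932) (nat_lit 3) (nat_lit 157) (nat_lit 0) (nat_lit 203) (nat_lit 203) (nat_lit 104)))))) (PT.nd (nat_lit 45240) (PT.nd (nat_lit 45006) (PT.nd (nat_lit 78) (PT.lf (nat_lit 11780) (nat_lit 6) (nat_lit 155) (nat_lit 0) (nat_lit 204) (nat_lit 203) (nat_lit 103)) (PT.lf (nat_lit 11628) (nat_lit 6) (nat_lit 153) (nat_lit 0) (nat_lit 205) (nat_lit 203) (nat_lit 102))) (PT.nd (nat_lit 78) (PT.lf (nat_lit 11400) (nat_lit 6) (nat_lit 150) (nat_lit 5) (nat_lit 100) (nat_lit 204) (nat_lit 206)) (PT.nd (nat_lit 78) (PT.lf (nat_lit 11552) (nat_lit 6) (nat_lit 152) (nat_lit 5) (nat_lit 101) (nat_lit 204) (nat_lit 205)) (PT.lf (nat_lit 11704) (nat_lit 3) (nat_lit 154) (nat_lit 4) (nat_lit 102) (nat_lit 204) (nat_lit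 204))))) (PT.nd (nat_lit 7722) (PT.nd (nat_lit 78) (PT.lf (nat_lit 11780) (nat_lit 6) (nat_lit 155) (nat_lit 4) (nat_lit 103) (nat_lit 204) (nat_lit 203)) (PT.lf (nat_lit 11856) (nat_lit 6) (nat_lit 156) (nat_lit 4) (nat_lit 104) (nat_lit 204) (nat_lit 202))) (PT.nd (nat_lit 78) (PT.lf (nat_lit 11856) (nat_lit 6) (nat_lit 156) (nat_lit 2) (nat_lit 202) (nat_lit 204) (nat_lit 104)) (PT.nd (nat_lit 78) (PT.lf (nat_lit 11780) (nat_lit 6) (nat_lit 155) (nat_lit 2) (nat_lit 203) (nat_lit 204) (nat_lit 103)) (PT.lf (nat_lit 11704) (nat_lit 3) (nat_lit 154) (nat_lit 0) (nat_lit 204) (nat_lit 204) (nat_lit 102))))))) (PT.nd (nat_lit 53118) (PT.nd (nat_lit 44928) (PT.nd (nat_lit 44772) (PT.nd (nat_lit 78) (PT.lf (nat_lit 11552) (nat_lit 6) (nat_lit 152) (nat_lit 0) (nat_lit 205) (nat_lit 204) (nat_lit 101)) (PT.lf (nat_lit 11400) (nat_lit 6) (nat_lit 150) (nat_lit 0) (nat_lit 206) (nat_lit 204) (nat_lit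 100))) (PT.nd (nat_lit 78) (PT.lf (nat_lit 11172) (nat_lit 6) (nat_lit 147) (nat_lit 5) (nat_lit 98) (nat_lit 205) (nat_lit 207)) (PT.lf (nat_lit 11324) (nat_lit 6) (nat_lit 149) (nat_lit 5) (nat_lit 99) (nat_lit 205) (nat_lit 206)))) (PT.nd (nat_lit 156) (PT.nd (nat_lit 78) (PT.lf (nat_lit 11476) (nat_lit 3) (nat_lit 151) (nat_lit 4) (nat_lit 100) (nat_lit 205) (nat_lit 205)) (PT.lf (nat_lit 11552) (nat_lit 6) (nat_lit 152) (nat_lit 4) (nat_lit 101) (nat_lit 205) (nat_lit 204))) (PT.nd (nat_lit 7878) (PT.lf (nat_lit 11628) (nat_lit 6) (nat_lit 153) (nat_lit 4) (nat_lit 102) (nat_lit 205) (nat_lit 203)) (PT.nd (nat_lit 78) (PT.lf (nat_lit 11628) (nat_lit 6) (nat_lit 153) (nat_lit 2) (nat_lit 203) (nat_lit 205) (nat_lit 102)) (PT.lf (nat_lit 11552) (nat_lit 6) (nat_lit 152) (nat_lit 2) (nat_lit 204) (nat_lit 205) (nat_lit 101)))))) (PT.nd (nat_lit 44772) (PT.nd (nat_lit 156) (PT.nd (nat_lit 78)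 (PT.lf (nat_lit 11476) (nat_lit 3) (nat_lit 151) (nat_lit 0) (nat_lit 205) (nat_lit 205) (nat_lit 100)) (PT.lf (nat_lit 11324) (nat_lit 6) (nat_lit 149) (nat_lit 0) (nat_lit 206) (nat_lit 205) (nat_lit 99))) (PT.nd (nat_lit 44460) (PT.lf (nat_lit 11172) (nat_lit 6) (nat_lit 147) (nat_lit 0) (nat_lit 207) (nat_lit 205) (nat_lit 98)) (PT.nd (nat_lit 78) (PT.lf (nat_lit 10944) (nat_lit 6) (nat_lit 144) (nat_lit 5) (nat_lit 96) (nat_lit 206) (nat_lit 208)) (PT.lf (nat_lit 11096) (nat_lit 6) (nat_lit 146) (nat_lit 5) (nat_lit 97) (nat_lit 206) (nat_lit 207))))) (PT.nd (nat_lit 156) (PT.nd (nat_lit 78) (PT.lf (nat_lit 11248) (nat_lit 3) (nat_lit 148) (nat_lit 4) (nat_lit 98) (nat_lit 206) (nat_lit 206)) (PT.lf (nat_lit 11324) (nat_lit 6) (nat_lit 149) (nat_lit 4) (nat_lit 99) (nat_lit 206) (nat_lit 205))) (PT.nd (nat_lit 8112) (PT.lf (nat_lit 11400) (nat_lit 6) (nat_lit 150) (nat_lit 4) (nat_lit 100)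 (nat_lit 206) (nat_lit 204)) (PT.nd (nat_lit 78) (PT.lf (nat_lit 11400) (nat_lit 6) (nat_lit 150) (nat_lit 2) (nat_lit 204) (nat_lit 206) (nat_lit 100)) (PT.lf (nat_lit 11324) (nat_lit 6) (nat_lit 149) (nat_lit 2) (nat_lit 205) (nat_lit 206) (nat_lit 99))))))))
noncomputable def pc24 : PT := (PT.nd (nat_lit 106236) (PT.nd (nat_lit 53118) (PT.nd (nat_lit 44460) (PT.nd (nat_lit 156) (PT.nd (nat_lit 78) (PT.lf (nat_lit 11248) (nat_lit 3) (nat_lit 148) (nat_lit 0) (nat_lit 206) (nat_lit 206) (nat_lit 98)) (PT.lf (nat_lit 11096) (nat_lit 6) (nat_lit 146) (nat_lit 0) (nat_lit 207) (nat_lit 206) (nat_lit 97))) (PT.nd (nat_lit 44226) (PT.lf (nat_lit 10944) (nat_lit 6) (nat_lit 144) (nat_lit 0) (nat_lit 208) (nat_lit 206) (nat_lit 96)) (PT.lf (nat_lit 10716) (nat_lit 6) (nat_lit 141) (nat_lit 5) (nat_lit 94) (nat_lit 207) (nat_lit 209)))) (PT.nd (nat_lit 156) (PT.nd (nat_lit 78) (PT.lf (nat_lit 10868)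 (nat_lit 6) (nat_lit 143) (nat_lit 5) (nat_lit 95) (nat_lit 207) (nat_lit 208)) (PT.lf (nat_lit 11020) (nat_lit 3) (nat_lit 145) (nat_lit 4) (nat_lit 96) (nat_lit 207) (nat_lit 207))) (PT.nd (nat_lit 78) (PT.lf (nat_lit 11096) (nat_lit 6) (nat_lit 146) (nat_lit 4) (nat_lit 97) (nat_lit 207) (nat_lit 206)) (PT.nd (nat_lit 8346) (PT.lf (nat_lit 11172) (nat_lit 6) (nat_lit 147) (nat_lit 4) (nat_lit 98) (nat_lit 207) (nat_lit 205)) (PT.lf (nat_lit 11172) (nat_lit 6) (nat_lit 147) (nat_lit 2) (nat_lit 205) (nat_lit 207) (nat_lit 98)))))) (PT.nd (nat_lit 44226) (PT.nd (nat_lit 156) (PT.nd (nat_lit 78) (PT.lf (nat_lit 11096) (nat_lit 6) (nat_lit 146) (nat_lit 2) (nat_lit 206) (nat_lit 207) (nat_lit 97)) (PT.lf (nat_lit 11020) (nat_lit 3) (nat_lit 145) (nat_lit 0) (nat_lit 207) (nat_lit 207) (nat_lit 96))) (PT.nd (nat_lit 78) (PT.lf (nat_lit 10868) (nat_lit 6) (nat_lit 143) (nat_lit 0) (nat_lit 208)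 (nat_lit 207) (nat_lit 95)) (PT.lf (nat_lit 10716) (nat_lit 6) (nat_lit 141) (nat_lit 0) (nat_lit 209) (nat_lit 207) (nat_lit 94)))) (PT.nd (nat_lit 156) (PT.nd (nat_lit 78) (PT.lf (nat_lit 10488) (nat_lit 6) (nat_lit 138) (nat_lit 5) (nat_lit 92) (nat_lit 208) (nat_lit 210)) (PT.lf (nat_lit 10640) (nat_lit 6) (nat_lit 140) (nat_lit 5) (nat_lit 93) (nat_lit 208) (nat_lit 209))) (PT.nd (nat_lit 78) (PT.lf (nat_lit 10792) (nat_lit 3) (nat_lit 142) (nat_lit 4) (nat_lit 94) (nat_lit 208) (nat_lit 208)) (PT.nd (nat_lit 78) (PT.lf (nat_lit 10868) (nat_lit 6) (nat_lit 143) (nat_lit 4) (nat_lit 95) (nat_lit 208) (nat_lit 207)) (PT.lf (nat_lit 10944) (nat_lit 6) (nat_lit 144) (nat_lit 4) (nat_lit 96) (nat_lit 208) (nat_lit 206))))))) (PT.nd (nat_lit 44382) (PT.nd (nat_lit 312) (PT.nd (nat_lit 156) (PT.nd (nat_lit 78) (PT.lf (nat_lit 10944) (nat_lit 6) (nat_lit 144) (nat_lit 2) (nat_lit 206) (nat_lit 208)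 (nat_lit 96)) (PT.lf (nat_lit 10868) (nat_lit 6) (nat_lit 143) (nat_lit 2) (nat_lit 207) (nat_lit 208) (nat_lit 95))) (PT.nd (nat_lit 78) (PT.lf (nat_lit 10792) (nat_lit 3) (nat_lit 142) (nat_lit 0) (nat_lit 208) (nat_lit 208) (nat_lit 94)) (PT.lf (nat_lit 10640) (nat_lit 6) (nat_lit 140) (nat_lit 0) (nat_lit 209) (nat_lit 208) (nat_lit 93)))) (PT.nd (nat_lit 43836) (PT.nd (nat_lit 43758) (PT.lf (nat_lit 10488) (nat_lit 6) (nat_lit 138) (nat_lit 0) (nat_lit 210) (nat_lit 208) (nat_lit 92)) (PT.lf (nat_lit 10260) (nat_lit 6) (nat_lit 135) (nat_lit 5) (nat_lit 90) (nat_lit 209) (nat_lit 211))) (PT.nd (nat_lit 78) (PT.lf (nat_lit 10412) (nat_lit 6) (nat_lit 137) (nat_lit 5) (nat_lit 91) (nat_lit 209) (nat_lit 210)) (PT.nd (nat_lit 78) (PT.lf (nat_lit 10564) (nat_lit 3) (nat_lit 139) (nat_lit 4) (nat_lit 92) (nat_lit 209) (nat_lit 209)) (PT.lf (nat_lit 10640) (nat_lit 6) (nat_lit 140) (nat_lit 4)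 (nat_lit 93) (nat_lit 209) (nat_lit 208)))))) (PT.nd (nat_lit 9126) (PT.nd (nat_lit 8892) (PT.nd (nat_lit 8814) (PT.lf (nat_lit 10716) (nat_lit 6) (nat_lit 141) (nat_lit 4) (nat_lit 94) (nat_lit 209) (nat_lit 207)) (PT.lf (nat_lit 10716) (nat_lit 6) (nat_lit 141) (nat_lit 2) (nat_lit 207) (nat_lit 209) (nat_lit 94))) (PT.nd (nat_lit 78) (PT.lf (nat_lit 10640) (nat_lit 6) (nat_lit 140) (nat_lit 2) (nat_lit 208) (nat_lit 209) (nat_lit 93)) (PT.nd (nat_lit 78) (PT.lf (nat_lit 10564) (nat_lit 3) (nat_lit 139) (nat_lit 0) (nat_lit 209) (nat_lit 209) (nat_lit 92)) (PT.lf (nat_lit 10412) (nat_lit 6) (nat_lit 137) (nat_lit 0) (nat_lit 210) (nat_lit 209) (nat_lit 91))))) (PT.nd (nat_lit 43602) (PT.nd (nat_lit 43524) (PT.lf (nat_lit 10260) (nat_lit 6) (nat_lit 135) (nat_lit 0) (nat_lit 211) (nat_lit 209) (nat_lit 90)) (PT.lf (nat_lit 10032) (nat_lit 6) (nat_lit 132) (nat_lit 5) (nat_lit 88) (nat_lit 210)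 (nat_lit 212))) (PT.nd (nat_lit 78) (PT.lf (nat_lit 10184) (nat_lit 6) (nat_lit 134) (nat_lit 5) (nat_lit 89) (nat_lit 210) (nat_lit 211)) (PT.nd (nat_lit 78) (PT.lf (nat_lit 10336) (nat_lit 3) (nat_lit 136) (nat_lit 4) (nat_lit 90) (nat_lit 210) (nat_lit 210)) (PT.lf (nat_lit 10412) (nat_lit 6) (nat_lit 137) (nat_lit 4) (nat_lit 91) (nat_lit 210) (nat_lit 209))))))))
noncomputable def pc25 : PT := (PT.nd (nat_lit 105846) (PT.nd (nat_lit 52884) (PT.nd (nat_lit 9282) (PT.nd (nat_lit 9126) (PT.nd (nat_lit 9048) (PT.lf (nat_lit 10488) (nat_lit 6) (nat_lit 138) (nat_lit 4) (nat_lit 92) (nat_lit 210) (nat_lit 208)) (PT.lf (nat_lit 10488) (nat_lit 6) (nat_lit 138) (nat_lit 2) (nat_lit 208) (nat_lit 210) (nat_lit 92))) (PT.nd (nat_lit 78) (PT.lf (nat_lit 10412) (nat_lit 6) (nat_lit 137) (nat_lit 2) (nat_lit 209) (nat_lit 210) (nat_lit 91)) (PT.lf (nat_lit 10336) (nat_lit 3) (nat_lit 136) (nat_lit 0)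 (nat_lit 210) (nat_lit 210) (nat_lit 90)))) (PT.nd (nat_lit 43368) (PT.nd (nat_lit 78) (PT.lf (nat_lit 10184) (nat_lit 6) (nat_lit 134) (nat_lit 0) (nat_lit 211) (nat_lit 210) (nat_lit 89)) (PT.lf (nat_lit 10032) (nat_lit 6) (nat_lit 132) (nat_lit 0) (nat_lit 212) (nat_lit 210) (nat_lit 88))) (PT.nd (nat_lit 78) (PT.lf (nat_lit 9804) (nat_lit 6) (nat_lit 129) (nat_lit 5) (nat_lit 86) (nat_lit 211) (nat_lit 213)) (PT.nd (nat_lit 78) (PT.lf (nat_lit 9956) (nat_lit 6) (nat_lit 131) (nat_lit 5) (nat_lit 87) (nat_lit 211) (nat_lit 212)) (PT.lf (nat_lit 10108) (nat_lit 3) (nat_lit 133) (nat_lit 4) (nat_lit 88) (nat_lit 211) (nat_lit 211)))))) (PT.nd (nat_lit 9594) (PT.nd (nat_lit 9360) (PT.nd (nat_lit 78) (PT.lf (nat_lit 10184) (nat_lit 6) (nat_lit 134) (nat_lit 4) (nat_lit 89) (nat_lit 211) (nat_lit 210)) (PT.lf (nat_lit 10260) (nat_lit 6) (nat_lit 135) (nat_lit 4) (nat_lit 90) (nat_lit 211) (nat_lit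 209))) (PT.nd (nat_lit 78) (PT.lf (nat_lit 10260) (nat_lit 6) (nat_lit 135) (nat_lit 2) (nat_lit 209) (nat_lit 211) (nat_lit 90)) (PT.nd (nat_lit 78) (PT.lf (nat_lit 10184) (nat_lit 6) (nat_lit 134) (nat_lit 2) (nat_lit 210) (nat_lit 211) (nat_lit 89)) (PT.lf (nat_lit 10108) (nat_lit 3) (nat_lit 133) (nat_lit 0) (nat_lit 211) (nat_lit 211) (nat_lit 88))))) (PT.nd (nat_lit 43134) (PT.nd (nat_lit 78) (PT.lf (nat_lit 9956) (nat_lit 6) (nat_lit 131) (nat_lit 0) (nat_lit 212) (nat_lit 211) (nat_lit 87)) (PT.lf (nat_lit 9804) (nat_lit 6) (nat_lit 129) (nat_lit 0) (nat_lit 213) (nat_lit 211) (nat_lit 86))) (PT.nd (nat_lit 78) (PT.lf (nat_lit 9576) (nat_lit 6) (nat_lit 126) (nat_lit 5) (nat_lit 84) (nat_lit 212) (nat_lit 214)) (PT.nd (nat_lit 78) (PT.lf (nat_lit 9728) (nat_lit 6) (nat_lit 128) (nat_lit 5) (nat_lit 85) (nat_lit 212) (nat_lit 213)) (PT.lf (nat_lit 9880) (nat_lit 3) (nat_lit 130) (nat_lit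 4) (nat_lit 86) (nat_lit 212) (nat_lit 212))))))) (PT.nd (nat_lit 52884) (PT.nd (nat_lit 9750) (PT.nd (nat_lit 9594) (PT.nd (nat_lit 78) (PT.lf (nat_lit 9956) (nat_lit 6) (nat_lit 131) (nat_lit 4) (nat_lit 87) (nat_lit 212) (nat_lit 211)) (PT.lf (nat_lit 10032) (nat_lit 6) (nat_lit 132) (nat_lit 4) (nat_lit 88) (nat_lit 212) (nat_lit 210))) (PT.nd (nat_lit 78) (PT.lf (nat_lit 10032) (nat_lit 6) (nat_lit 132) (nat_lit 2) (nat_lit 210) (nat_lit 212) (nat_lit 88)) (PT.lf (nat_lit 9956) (nat_lit 6) (nat_lit 131) (nat_lit 2) (nat_lit 211) (nat_lit 212) (nat_lit 87)))) (PT.nd (nat_lit 156) (PT.nd (nat_lit 78) (PT.lf (nat_lit 9880) (nat_lit 3) (nat_lit 130) (nat_lit 0) (nat_lit 212) (nat_lit 212) (nat_lit 86)) (PT.lf (nat_lit 9728) (nat_lit 6) (nat_lit 128) (nat_lit 0) (nat_lit 213) (nat_lit 212) (nat_lit 85))) (PT.nd (nat_lit 42822) (PT.lf (nat_lit 9576) (nat_lit 6) (nat_lit 126) (nat_lit 0) (nat_lit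 214) (nat_lit 212) (nat_lit 84)) (PT.nd (nat_lit 78) (PT.lf (nat_lit 9348) (nat_lit 6) (nat_lit 123) (nat_lit 5) (nat_lit 82) (nat_lit 213) (nat_lit 215)) (PT.lf (nat_lit 9500) (nat_lit 6) (nat_lit 125) (nat_lit 5) (nat_lit 83) (nat_lit 213) (nat_lit 214)))))) (PT.nd (nat_lit 10062) (PT.nd (nat_lit 156) (PT.nd (nat_lit 78) (PT.lf (nat_lit 9652) (nat_lit 3) (nat_lit 127) (nat_lit 4) (nat_lit 84) (nat_lit 213) (nat_lit 213)) (PT.lf (nat_lit 9728) (nat_lit 6) (nat_lit 128) (nat_lit 4) (nat_lit 85) (nat_lit 213) (nat_lit 212))) (PT.nd (nat_lit 9750) (PT.lf (nat_lit 9804) (nat_lit 6) (nat_lit 129) (nat_lit 4) (nat_lit 86) (nat_lit 213) (nat_lit 211)) (PT.nd (nat_lit 78) (PT.lf (nat_lit 9804) (nat_lit 6) (nat_lit 129) (nat_lit 2) (nat_lit 211) (nat_lit 213) (nat_lit 86)) (PT.lf (nat_lit 9728) (nat_lit 6) (nat_lit 128) (nat_lit 2) (nat_lit 212) (nat_lit 213) (nat_lit 85))))) (PT.nd (nat_lit 156) (PT.nd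 (nat_lit 78) (PT.lf (nat_lit 9652) (nat_lit 3) (nat_lit 127) (nat_lit 0) (nat_lit 213) (nat_lit 213) (nat_lit 84)) (PT.lf (nat_lit 9500) (nat_lit 6) (nat_lit 125) (nat_lit 0) (nat_lit 214) (nat_lit 213) (nat_lit 83))) (PT.nd (nat_lit 42588) (PT.lf (nat_lit 9348) (nat_lit 6) (nat_lit 123) (nat_lit 0) (nat_lit 215) (nat_lit 213) (nat_lit 82)) (PT.nd (nat_lit 78) (PT.lf (nat_lit 9120) (nat_lit 6) (nat_lit 120) (nat_lit 5) (nat_lit 80) (nat_lit 214) (nat_lit 216)) (PT.lf (nat_lit 9272) (nat_lit 6) (nat_lit 122) (nat_lit 5) (nat_lit 81) (nat_lit 214) (nat_lit 215))))))))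
noncomputable def pc26 : PT := (PT.nd (nat_lit 106002) (PT.nd (nat_lit 52962) (PT.nd (nat_lit 10218) (PT.nd (nat_lit 156) (PT.nd (nat_lit 78) (PT.lf (nat_lit 9424) (nat_lit 3) (nat_lit 124) (nat_lit 4) (nat_lit 82) (nat_lit 214) (nat_lit 214)) (PT.lf (nat_lit 9500) (nat_lit 6) (nat_lit 125) (nat_lit 4) (nat_lit 83) (nat_lit 214) (nat_lit 213))) (PT.nd (nat_lit 9984) (PT.lf (nat_lit 9576) (nat_lit 6) (nat_lit 126) (nat_lit 4) (nat_lit 84) (nat_lit 214) (nat_lit 212)) (PT.lf (nat_lit 9576) (nat_lit 6) (nat_lit 126) (nat_lit 2) (nat_lit 212) (nat_lit 214) (nat_lit 84)))) (PT.nd (nat_lit 156) (PT.nd (nat_lit 78) (PT.lf (nat_lit 9500) (nat_lit 6) (nat_lit 125) (nat_lit 2) (nat_lit 213) (nat_lit 214) (nat_lit 83)) (PT.lf (nat_lit 9424) (nat_lit 3) (nat_lit 124) (nat_lit 0) (nat_lit 214) (nat_lit 214) (nat_lit 82))) (PT.nd (nat_lit 78) (PT.lf (nat_lit 9272) (nat_lit 6) (nat_lit 122) (nat_lit 0) (nat_lit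 215) (nat_lit 214) (nat_lit 81)) (PT.nd (nat_lit 42432) (PT.lf (nat_lit 9120) (nat_lit 6) (nat_lit 120) (nat_lit 0) (nat_lit 216) (nat_lit 214) (nat_lit 80)) (PT.lf (nat_lit 9044) (nat_lit 6) (nat_lit 119) (nat_lit 5) (nat_lit 79) (nat_lit 215) (nat_lit 216)))))) (PT.nd (nat_lit 10452) (PT.nd (nat_lit 156) (PT.nd (nat_lit 78) (PT.lf (nat_lit 9196) (nat_lit 3) (nat_lit 121) (nat_lit 4) (nat_lit 80) (nat_lit 215) (nat_lit 215)) (PT.lf (nat_lit 9272) (nat_lit 6) (nat_lit 122) (nat_lit 4) (nat_lit 81) (nat_lit 215) (nat_lit 214))) (PT.nd (nat_lit 10218) (PT.lf (nat_lit 9348) (nat_lit 6) (nat_lit 123) (nat_lit 4) (nat_lit 82) (nat_lit 215) (nat_lit 213)) (PT.lf (nat_lit 9348) (nat_lit 6) (nat_lit 123) (nat_lit 2) (nat_lit 213) (nat_lit 215) (nat_lit 82)))) (PT.nd (nat_lit 156) (PT.nd (nat_lit 78) (PT.lf (nat_lit 9272) (nat_lit 6) (nat_lit 122) (nat_lit 2) (nat_lit 214) (nat_lit 215) (nat_lit 81))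 (PT.lf (nat_lit 9196) (nat_lit 3) (nat_lit 121) (nat_lit 0) (nat_lit 215) (nat_lit 215) (nat_lit 80))) (PT.nd (nat_lit 42276) (PT.lf (nat_lit 9044) (nat_lit 6) (nat_lit 119) (nat_lit 0) (nat_lit 216) (nat_lit 215) (nat_lit 79)) (PT.nd (nat_lit 78) (PT.lf (nat_lit 8816) (nat_lit 6) (nat_lit 116) (nat_lit 5) (nat_lit 77) (nat_lit 216) (nat_lit 217)) (PT.lf (nat_lit 8968) (nat_lit 3) (nat_lit 118) (nat_lit 4) (nat_lit 78) (nat_lit 216) (nat_lit 216))))))) (PT.nd (nat_lit 63804) (PT.nd (nat_lit 10686) (PT.nd (nat_lit 10530) (PT.nd (nat_lit 78) (PT.lf (nat_lit 9044) (nat_lit 6) (nat_lit 119) (nat_lit 4) (nat_lit 79) (nat_lit 216) (nat_lit 215)) (PT.lf (nat_lit 9120) (nat_lit 6) (nat_lit 120) (nat_lit 4) (nat_lit 80) (nat_lit 216) (nat_lit 214))) (PT.nd (nat_lit 78) (PT.lf (nat_lit 9120) (nat_lit 6) (nat_lit 120) (nat_lit 2) (nat_lit 214) (nat_lit 216) (nat_lit 80)) (PT.lf (nat_lit 9044) (nat_lit 6)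 (nat_lit 119) (nat_lit 2) (nat_lit 215) (nat_lit 216) (nat_lit 79)))) (PT.nd (nat_lit 42120) (PT.nd (nat_lit 78) (PT.lf (nat_lit 8968) (nat_lit 3) (nat_lit 118) (nat_lit 0) (nat_lit 216) (nat_lit 216) (nat_lit 78)) (PT.lf (nat_lit 8816) (nat_lit 6) (nat_lit 116) (nat_lit 0) (nat_lit 217) (nat_lit 216) (nat_lit 77))) (PT.nd (nat_lit 78) (PT.lf (nat_lit 8588) (nat_lit 6) (nat_lit 113) (nat_lit 5) (nat_lit 75) (nat_lit 217) (nat_lit 218)) (PT.nd (nat_lit 78) (PT.lf (nat_lit 8740) (nat_lit 3) (nat_lit 115) (nat_lit 4) (nat_lit 76) (nat_lit 217) (nat_lit 217)) (PT.lf (nat_lit 8816) (nat_lit 6) (nat_lit 116) (nat_lit 4) (nat_lit 77) (nat_lit 217) (nat_lit 216)))))) (PT.nd (nat_lit 42120) (PT.nd (nat_lit 156) (PT.nd (nat_lit 78) (PT.lf (nat_lit 8816) (nat_lit 6) (nat_lit 116) (nat_lit 2) (nat_lit 216) (nat_lit 217) (nat_lit 77)) (PT.lf (nat_lit 8740) (nat_lit 3) (nat_lit 115) (nat_lit 0) (nat_lit 217)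 (nat_lit 217) (nat_lit 76))) (PT.nd (nat_lit 41808) (PT.lf (nat_lit 8588) (nat_lit 6) (nat_lit 113) (nat_lit 0) (nat_lit 218) (nat_lit 217) (nat_lit 75)) (PT.nd (nat_lit 78) (PT.lf (nat_lit 8360) (nat_lit 6) (nat_lit 110) (nat_lit 5) (nat_lit 73) (nat_lit 218) (nat_lit 219)) (PT.lf (nat_lit 8512) (nat_lit 3) (nat_lit 112) (nat_lit 4) (nat_lit 74) (nat_lit 218) (nat_lit 218))))) (PT.nd (nat_lit 11154) (PT.nd (nat_lit 11076) (PT.lf (nat_lit 8588) (nat_lit 6) (nat_lit 113) (nat_lit 4) (nat_lit 75) (nat_lit 218) (nat_lit 217)) (PT.lf (nat_lit 8588) (nat_lit 6) (nat_lit 113) (nat_lit 2) (nat_lit 217) (nat_lit 218) (nat_lit 75))) (PT.nd (nat_lit 78) (PT.lf (nat_lit 8512) (nat_lit 3) (nat_lit 112) (nat_lit 0) (nat_lit 218) (nat_lit 218) (nat_lit 74)) (PT.nd (nat_lit 41574) (PT.lf (nat_lit 8360) (nat_lit 6) (nat_lit 110) (nat_lit 0) (nat_lit 219) (nat_lit 218) (nat_lit 73)) (PT.lf (nat_lit 8132) (nat_lit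 6) (nat_lit 107) (nat_lit 5) (nat_lit 71) (nat_lit 219) (nat_lit 220))))))))
noncomputable def pc27 : PT := (PT.nd (nat_lit 158964) (PT.nd (nat_lit 64662) (PT.nd (nat_lit 11544) (PT.nd (nat_lit 11388) (PT.nd (nat_lit 78) (PT.lf (nat_lit 8284) (nat_lit 3) (nat_lit 109) (nat_lit 4) (nat_lit 72) (nat_lit 219) (nat_lit 219)) (PT.lf (nat_lit 8360) (nat_lit 6) (nat_lit 110) (nat_lit 4) (nat_lit 73) (nat_lit 219) (nat_lit 218))) (PT.nd (nat_lit 78) (PT.lf (nat_lit 8360) (nat_lit 6) (nat_lit 110) (nat_lit 2) (nat_lit 218) (nat_lit 219) (nat_lit 73)) (PT.lf (nat_lit 8284) (nat_lit 3) (nat_lit 109) (nat_lit 0) (nat_lit 219) (nat_lit 219) (nat_lit 72)))) (PT.nd (nat_lit 41418) (PT.nd (nat_lit 41340) (PT.lf (nat_lit 8132) (nat_lit 6) (nat_lit 107) (nat_lit 0) (nat_lit 220) (nat_lit 219) (nat_lit 71)) (PT.lf (nat_lit 7904) (nat_lit 6) (nat_lit 104) (nat_lit 5) (nat_lit 69) (nat_lit 220) (nat_lit 221))) (PT.nd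 (nat_lit 78) (PT.lf (nat_lit 8056) (nat_lit 3) (nat_lit 106) (nat_lit 4) (nat_lit 70) (nat_lit 220) (nat_lit 220)) (PT.nd (nat_lit 11544) (PT.lf (nat_lit 8132) (nat_lit 6) (nat_lit 107) (nat_lit 4) (nat_lit 71) (nat_lit 220) (nat_lit 219)) (PT.lf (nat_lit 8132) (nat_lit 6) (nat_lit 107) (nat_lit 2) (nat_lit 219) (nat_lit 220) (nat_lit 71)))))) (PT.nd (nat_lit 53118) (PT.nd (nat_lit 41184) (PT.nd (nat_lit 78) (PT.lf (nat_lit 8056) (nat_lit 3) (nat_lit 106) (nat_lit 0) (nat_lit 220) (nat_lit 220) (nat_lit 70)) (PT.lf (nat_lit 7904) (nat_lit 6) (nat_lit 104) (nat_lit 0) (nat_lit 221) (nat_lit 220) (nat_lit 69))) (PT.nd (nat_lit 78) (PT.lf (nat_lit 7676) (nat_lit 6) (nat_lit 101) (nat_lit 5) (nat_lit 67) (nat_lit 221) (nat_lit 222)) (PT.nd (nat_lit 78) (PT.lf (nat_lit 7828) (nat_lit 3) (nat_lit 103) (nat_lit 4) (nat_lit 68) (nat_lit 221) (nat_lit 221)) (PT.lf (nat_lit 7904) (nat_lit 6) (nat_lit 104)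 (nat_lit 4) (nat_lit 69) (nat_lit 221) (nat_lit 220))))) (PT.nd (nat_lit 156) (PT.nd (nat_lit 78) (PT.lf (nat_lit 7904) (nat_lit 6) (nat_lit 104) (nat_lit 2) (nat_lit 220) (nat_lit 221) (nat_lit 69)) (PT.lf (nat_lit 7828) (nat_lit 3) (nat_lit 103) (nat_lit 0) (nat_lit 221) (nat_lit 221) (nat_lit 68))) (PT.nd (nat_lit 40872) (PT.lf (nat_lit 7676) (nat_lit 6) (nat_lit 101) (nat_lit 0) (nat_lit 222) (nat_lit 221) (nat_lit 67)) (PT.nd (nat_lit 78) (PT.lf (nat_lit 7448) (nat_lit 6) (nat_lit 98) (nat_lit 5) (nat_lit 65) (nat_lit 222) (nat_lit 223)) (PT.lf (nat_lit 7600) (nat_lit 3) (nat_lit 100) (nat_lit 4) (nat_lit 66) (nat_lit 222) (nat_lit 222))))))) (PT.nd (nat_lit 65364) (PT.nd (nat_lit 52806) (PT.nd (nat_lit 12090) (PT.nd (nat_lit 12012) (PT.lf (nat_lit 7676) (nat_lit 6) (nat_lit 101) (nat_lit 4) (nat_lit 67) (nat_lit 222) (nat_lit 221)) (PT.lf (nat_lit 7676) (nat_lit 6) (nat_lit 101) (nat_lit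 2) (nat_lit 221) (nat_lit 222) (nat_lit 67))) (PT.nd (nat_lit 78) (PT.lf (nat_lit 7600) (nat_lit 3) (nat_lit 100) (nat_lit 0) (nat_lit 222) (nat_lit 222) (nat_lit 66)) (PT.lf (nat_lit 7448) (nat_lit 6) (nat_lit 98) (nat_lit 0) (nat_lit 223) (nat_lit 222) (nat_lit 65)))) (PT.nd (nat_lit 156) (PT.nd (nat_lit 78) (PT.lf (nat_lit 7220) (nat_lit 6) (nat_lit 95) (nat_lit 5) (nat_lit 63) (nat_lit 223) (nat_lit 224)) (PT.lf (nat_lit 7372) (nat_lit 3) (nat_lit 97) (nat_lit 4) (nat_lit 64) (nat_lit 223) (nat_lit 223))) (PT.nd (nat_lit 12246) (PT.lf (nat_lit 7448) (nat_lit 6) (nat_lit 98) (nat_lit 4) (nat_lit 65) (nat_lit 223) (nat_lit 222)) (PT.nd (nat_lit 78) (PT.lf (nat_lit 7448) (nat_lit 6) (nat_lit 98) (nat_lit 2) (nat_lit 222) (nat_lit 223) (nat_lit 65)) (PT.lf (nat_lit 7372) (nat_lit 3) (nat_lit 97) (nat_lit 0) (nat_lit 223) (nat_lit 223) (nat_lit 64)))))) (PT.nd (nat_lit 53118) (PT.nd (nat_lit 40482)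 (PT.nd (nat_lit 40404) (PT.lf (nat_lit 7220) (nat_lit 6) (nat_lit 95) (nat_lit 0) (nat_lit 224) (nat_lit 223) (nat_lit 63)) (PT.lf (nat_lit 6992) (nat_lit 6) (nat_lit 92) (nat_lit 5) (nat_lit 61) (nat_lit 224) (nat_lit 225))) (PT.nd (nat_lit 78) (PT.lf (nat_lit 7144) (nat_lit 3) (nat_lit 94) (nat_lit 4) (nat_lit 62) (nat_lit 224) (nat_lit 224)) (PT.nd (nat_lit 12480) (PT.lf (nat_lit 7220) (nat_lit 6) (nat_lit 95) (nat_lit 4) (nat_lit 63) (nat_lit 224) (nat_lit 223)) (PT.lf (nat_lit 7220) (nat_lit 6) (nat_lit 95) (nat_lit 2) (nat_lit 223) (nat_lit 224) (nat_lit 63))))) (PT.nd (nat_lit 40248) (PT.nd (nat_lit 78) (PT.lf (nat_lit 7144) (nat_lit 3) (nat_lit 94) (nat_lit 0) (nat_lit 224) (nat_lit 224) (nat_lit 62)) (PT.lf (nat_lit 6992) (nat_lit 6) (nat_lit 92) (nat_lit 0) (nat_lit 225) (nat_lit 224) (nat_lit 61))) (PT.nd (nat_lit 78) (PT.lf (nat_lit 6764) (nat_lit 6) (nat_lit 89) (nat_lit 5) (nat_lit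 59) (nat_lit 225) (nat_lit 226)) (PT.nd (nat_lit 78) (PT.lf (nat_lit 6916) (nat_lit 3) (nat_lit 91) (nat_lit 4) (nat_lit 60) (nat_lit 225) (nat_lit 225)) (PT.lf (nat_lit 6992) (nat_lit 6) (nat_lit 92) (nat_lit 4) (nat_lit 61) (nat_lit 225) (nat_lit 224))))))))
noncomputable def pc28 : PT := (PT.nd (nat_lit 159588) (PT.nd (nat_lit 93054) (PT.nd (nat_lit 40170) (PT.nd (nat_lit 156) (PT.nd (nat_lit 78) (PT.lf (nat_lit 6992) (nat_lit 6) (nat_lit 92) (nat_lit 2) (nat_lit 224) (nat_lit 225) (nat_lit 61)) (PT.lf (nat_lit 6916) (nat_lit 3) (nat_lit 91) (nat_lit 0) (nat_lit 225) (nat_lit 225) (nat_lit 60))) (PT.nd (nat_lit 39936) (PT.lf (nat_lit 6764) (nat_lit 6) (nat_lit 89) (nat_lit 0) (nat_lit 226) (nat_lit 225) (nat_lit 59)) (PT.lf (nat_lit 6536) (nat_lit 6) (nat_lit 86) (nat_lit 5) (nat_lit 57) (nat_lit 226) (nat_lit 227)))) (PT.nd (nat_lit 13026) (PT.nd (nat_lit 78) (PT.lf (nat_lit 6688) (nat_lit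 3) (nat_lit 88) (nat_lit 4) (nat_lit 58) (nat_lit 226) (nat_lit 226)) (PT.lf (nat_lit 6764) (nat_lit 6) (nat_lit 89) (nat_lit 4) (nat_lit 59) (nat_lit 226) (nat_lit 225))) (PT.nd (nat_lit 78) (PT.lf (nat_lit 6764) (nat_lit 6) (nat_lit 89) (nat_lit 2) (nat_lit 225) (nat_lit 226) (nat_lit 59)) (PT.nd (nat_lit 78) (PT.lf (nat_lit 6688) (nat_lit 3) (nat_lit 88) (nat_lit 0) (nat_lit 226) (nat_lit 226) (nat_lit 58)) (PT.lf (nat_lit 6536) (nat_lit 6) (nat_lit 86) (nat_lit 0) (nat_lit 227) (nat_lit 226) (nat_lit 57)))))) (PT.nd (nat_lit 13416) (PT.nd (nat_lit 156) (PT.nd (nat_lit 78) (PT.lf (nat_lit 6308) (nat_lit 6) (nat_lit 83) (nat_lit 5) (nat_lit 55) (nat_lit 227) (nat_lit 228)) (PT.lf (nat_lit 6460) (nat_lit 3) (nat_lit 85) (nat_lit 4) (nat_lit 56) (nat_lit 227) (nat_lit 227))) (PT.nd (nat_lit 13182) (PT.lf (nat_lit 6536) (nat_lit 6) (nat_lit 86) (nat_lit 4) (nat_lit 57) (nat_lit 227) (nat_lit 226))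 (PT.lf (nat_lit 6536) (nat_lit 6) (nat_lit 86) (nat_lit 2) (nat_lit 226) (nat_lit 227) (nat_lit 57)))) (PT.nd (nat_lit 39546) (PT.nd (nat_lit 78) (PT.lf (nat_lit 6460) (nat_lit 3) (nat_lit 85) (nat_lit 0) (nat_lit 227) (nat_lit 227) (nat_lit 56)) (PT.lf (nat_lit 6308) (nat_lit 6) (nat_lit 83) (nat_lit 0) (nat_lit 228) (nat_lit 227) (nat_lit 55))) (PT.nd (nat_lit 78) (PT.lf (nat_lit 6080) (nat_lit 6) (nat_lit 80) (nat_lit 5) (nat_lit 53) (nat_lit 228) (nat_lit 229)) (PT.nd (nat_lit 78) (PT.lf (nat_lit 6232) (nat_lit 3) (nat_lit 82) (nat_lit 4) (nat_lit 54) (nat_lit 228) (nat_lit 228)) (PT.lf (nat_lit 6308) (nat_lit 6) (nat_lit 83) (nat_lit 4) (nat_lit 55) (nat_lit 228) (nat_lit 227))))))) (PT.nd (nat_lit 92352) (PT.nd (nat_lit 39468) (PT.nd (nat_lit 156) (PT.nd (nat_lit 78) (PT.lf (nat_lit 6308) (nat_lit 6) (nat_lit 83) (nat_lit 2) (nat_lit 227) (nat_lit 228) (nat_lit 55)) (PT.lf (nat_lit 6232)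 (nat_lit 3) (nat_lit 82) (nat_lit 0) (nat_lit 228) (nat_lit 228) (nat_lit 54))) (PT.nd (nat_lit 39234) (PT.lf (nat_lit 6080) (nat_lit 6) (nat_lit 80) (nat_lit 0) (nat_lit 229) (nat_lit 228) (nat_lit 53)) (PT.lf (nat_lit 5852) (nat_lit 6) (nat_lit 77) (nat_lit 5) (nat_lit 51) (nat_lit 229) (nat_lit 230)))) (PT.nd (nat_lit 13728) (PT.nd (nat_lit 78) (PT.lf (nat_lit 6004) (nat_lit 3) (nat_lit 79) (nat_lit 4) (nat_lit 52) (nat_lit 229) (nat_lit 229)) (PT.lf (nat_lit 6080) (nat_lit 6) (nat_lit 80) (nat_lit 4) (nat_lit 53) (nat_lit 229) (nat_lit 228))) (PT.nd (nat_lit 78) (PT.lf (nat_lit 6080) (nat_lit 6) (nat_lit 80) (nat_lit 2) (nat_lit 228) (nat_lit 229) (nat_lit 53)) (PT.nd (nat_lit 78) (PT.lf (nat_lit 6004) (nat_lit 3) (nat_lit 79) (nat_lit 0) (nat_lit 229) (nat_lit 229) (nat_lit 52)) (PT.lf (nat_lit 5852) (nat_lit 6) (nat_lit 77) (nat_lit 0) (nat_lit 230) (nat_lit 229) (nat_lit 51)))))) (PT.nd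 (nat_lit 14196) (PT.nd (nat_lit 156) (PT.nd (nat_lit 78) (PT.lf (nat_lit 5624) (nat_lit 6) (nat_lit 74) (nat_lit 5) (nat_lit 49) (nat_lit 230) (nat_lit 231)) (PT.lf (nat_lit 5776) (nat_lit 3) (nat_lit 76) (nat_lit 4) (nat_lit 50) (nat_lit 230) (nat_lit 230))) (PT.nd (nat_lit 13884) (PT.lf (nat_lit 5852) (nat_lit 6) (nat_lit 77) (nat_lit 4) (nat_lit 51) (nat_lit 230) (nat_lit 229)) (PT.nd (nat_lit 78) (PT.lf (nat_lit 5852) (nat_lit 6) (nat_lit 77) (nat_lit 2) (nat_lit 229) (nat_lit 230) (nat_lit 51)) (PT.lf (nat_lit 5776) (nat_lit 3) (nat_lit 76) (nat_lit 0) (nat_lit 230) (nat_lit 230) (nat_lit 50))))) (PT.nd (nat_lit 38844) (PT.nd (nat_lit 38766) (PT.lf (nat_lit 5624) (nat_lit 6) (nat_lit 74) (nat_lit 0) (nat_lit 231) (nat_lit 230) (nat_lit 49)) (PT.lf (nat_lit 5396) (nat_lit 6) (nat_lit 71) (nat_lit 5) (nat_lit 47) (nat_lit 231) (nat_lit 232))) (PT.nd (nat_lit 78) (PT.lf (nat_lit 5548) (nat_lit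 3) (nat_lit 73) (nat_lit 4) (nat_lit 48) (nat_lit 231) (nat_lit 231)) (PT.nd (nat_lit 14118) (PT.lf (nat_lit 5624) (nat_lit 6) (nat_lit 74) (nat_lit 4) (nat_lit 49) (nat_lit 231) (nat_lit 230)) (PT.lf (nat_lit 5624) (nat_lit 6) (nat_lit 74) (nat_lit 2) (nat_lit 230) (nat_lit 231) (nat_lit 49))))))))
noncomputable def pc29 : PT := (PT.nd (nat_lit 159666) (PT.nd (nat_lit 91650) (PT.nd (nat_lit 38766) (PT.nd (nat_lit 38610) (PT.nd (nat_lit 78) (PT.lf (nat_lit 5548) (nat_lit 3) (nat_lit 73) (nat_lit 0) (nat_lit 231) (nat_lit 231) (nat_lit 48)) (PT.lf (nat_lit 5396) (nat_lit 6) (nat_lit 71) (nat_lit 0) (nat_lit 232) (nat_lit 231) (nat_lit 47))) (PT.nd (nat_lit 78) (PT.lf (nat_lit 5168) (nat_lit 6) (nat_lit 68) (nat_lit 5) (nat_lit 45) (nat_lit 232) (nat_lit 233)) (PT.lf (nat_lit 5320) (nat_lit 3) (nat_lit 70) (nat_lit 4) (nat_lit 46) (nat_lit 232) (nat_lit 232)))) (PT.nd (nat_lit 14430) (PT.nd (nat_lit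 14352) (PT.lf (nat_lit 5396) (nat_lit 6) (nat_lit 71) (nat_lit 4) (nat_lit 47) (nat_lit 232) (nat_lit 231)) (PT.lf (nat_lit 5396) (nat_lit 6) (nat_lit 71) (nat_lit 2) (nat_lit 231) (nat_lit 232) (nat_lit 47))) (PT.nd (nat_lit 78) (PT.lf (nat_lit 5320) (nat_lit 3) (nat_lit 70) (nat_lit 0) (nat_lit 232) (nat_lit 232) (nat_lit 46)) (PT.nd (nat_lit 38298) (PT.lf (nat_lit 5168) (nat_lit 6) (nat_lit 68) (nat_lit 0) (nat_lit 233) (nat_lit 232) (nat_lit 45)) (PT.lf (nat_lit 4940) (nat_lit 6) (nat_lit 65) (nat_lit 5) (nat_lit 43) (nat_lit 233) (nat_lit 234)))))) (PT.nd (nat_lit 52884) (PT.nd (nat_lit 14664) (PT.nd (nat_lit 78) (PT.lf (nat_lit 5092) (nat_lit 3) (nat_lit 67) (nat_lit 4) (nat_lit 44) (nat_lit 233) (nat_lit 233)) (PT.lf (nat_lit 5168) (nat_lit 6) (nat_lit 68) (nat_lit 4) (nat_lit 45) (nat_lit 233) (nat_lit 232))) (PT.nd (nat_lit 78) (PT.lf (nat_lit 5168) (nat_lit 6) (nat_lit 68) (nat_lit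 2) (nat_lit 232) (nat_lit 233) (nat_lit 45)) (PT.nd (nat_lit 78) (PT.lf (nat_lit 5092) (nat_lit 3) (nat_lit 67) (nat_lit 0) (nat_lit 233) (nat_lit 233) (nat_lit 44)) (PT.lf (nat_lit 4940) (nat_lit 6) (nat_lit 65) (nat_lit 0) (nat_lit 234) (nat_lit 233) (nat_lit 43))))) (PT.nd (nat_lit 156) (PT.nd (nat_lit 78) (PT.lf (nat_lit 4712) (nat_lit 6) (nat_lit 62) (nat_lit 5) (nat_lit 41) (nat_lit 234) (nat_lit 235)) (PT.lf (nat_lit 4864) (nat_lit 3) (nat_lit 64) (nat_lit 4) (nat_lit 42) (nat_lit 234) (nat_lit 234))) (PT.nd (nat_lit 14820) (PT.lf (nat_lit 4940) (nat_lit 6) (nat_lit 65) (nat_lit 4) (nat_lit 43) (nat_lit 234) (nat_lit 233)) (PT.nd (nat_lit 78) (PT.lf (nat_lit 4940) (nat_lit 6) (nat_lit 65) (nat_lit 2) (nat_lit 233) (nat_lit 234) (nat_lit 43)) (PT.lf (nat_lit 4864) (nat_lit 3) (nat_lit 64) (nat_lit 0) (nat_lit 234) (nat_lit 234) (nat_lit 42))))))) (PT.nd (nat_lit 90948) (PT.nd (nat_lit 53040)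 (PT.nd (nat_lit 37908) (PT.nd (nat_lit 37830) (PT.lf (nat_lit 4712) (nat_lit 6) (nat_lit 62) (nat_lit 0) (nat_lit 235) (nat_lit 234) (nat_lit 41)) (PT.lf (nat_lit 4484) (nat_lit 6) (nat_lit 59) (nat_lit 5) (nat_lit 39) (nat_lit 235) (nat_lit 236))) (PT.nd (nat_lit 78) (PT.lf (nat_lit 4636) (nat_lit 3) (nat_lit 61) (nat_lit 4) (nat_lit 40) (nat_lit 235) (nat_lit 235)) (PT.lf (nat_lit 4712) (nat_lit 6) (nat_lit 62) (nat_lit 4) (nat_lit 41) (nat_lit 235) (nat_lit 234)))) (PT.nd (nat_lit 156) (PT.nd (nat_lit 78) (PT.lf (nat_lit 4712) (nat_lit 6) (nat_lit 62) (nat_lit 2) (nat_lit 234) (nat_lit 235) (nat_lit 41)) (PT.lf (nat_lit 4636) (nat_lit 3) (nat_lit 61) (nat_lit 0) (nat_lit 235) (nat_lit 235) (nat_lit 40))) (PT.nd (nat_lit 37596) (PT.lf (nat_lit 4484) (nat_lit 6) (nat_lit 59) (nat_lit 0) (nat_lit 236) (nat_lit 235) (nat_lit 39)) (PT.nd (nat_lit 78) (PT.lf (nat_lit 4256) (nat_lit 6) (nat_lit 56)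 (nat_lit 5) (nat_lit 37) (nat_lit 236) (nat_lit 237)) (PT.lf (nat_lit 4408) (nat_lit 3) (nat_lit 58) (nat_lit 4) (nat_lit 38) (nat_lit 236) (nat_lit 236)))))) (PT.nd (nat_lit 52884) (PT.nd (nat_lit 15366) (PT.nd (nat_lit 15288) (PT.lf (nat_lit 4484) (nat_lit 6) (nat_lit 59) (nat_lit 4) (nat_lit 39) (nat_lit 236) (nat_lit 235)) (PT.lf (nat_lit 4484) (nat_lit 6) (nat_lit 59) (nat_lit 2) (nat_lit 235) (nat_lit 236) (nat_lit 39))) (PT.nd (nat_lit 78) (PT.lf (nat_lit 4408) (nat_lit 3) (nat_lit 58) (nat_lit 0) (nat_lit 236) (nat_lit 236) (nat_lit 38)) (PT.nd (nat_lit 37362) (PT.lf (nat_lit 4256) (nat_lit 6) (nat_lit 56) (nat_lit 0) (nat_lit 237) (nat_lit 236) (nat_lit 37)) (PT.lf (nat_lit 4028) (nat_lit 6) (nat_lit 53) (nat_lit 5) (nat_lit 35) (nat_lit 237) (nat_lit 238))))) (PT.nd (nat_lit 15600) (PT.nd (nat_lit 78) (PT.lf (nat_lit 4180) (nat_lit 3) (nat_lit 55) (nat_lit 4) (nat_lit 36) (nat_lit 237)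 (nat_lit 237)) (PT.lf (nat_lit 4256) (nat_lit 6) (nat_lit 56) (nat_lit 4) (nat_lit 37) (nat_lit 237) (nat_lit 236))) (PT.nd (nat_lit 78) (PT.lf (nat_lit 4256) (nat_lit 6) (nat_lit 56) (nat_lit 2) (nat_lit 236) (nat_lit 237) (nat_lit 37)) (PT.nd (nat_lit 78) (PT.lf (nat_lit 4180) (nat_lit 3) (nat_lit 55) (nat_lit 0) (nat_lit 237) (nat_lit 237) (nat_lit 36)) (PT.lf (nat_lit 4028) (nat_lit 6) (nat_lit 53) (nat_lit 0) (nat_lit 238) (nat_lit 237) (nat_lit 35))))))))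
noncomputable def pc30 : PT := (PT.nd (nat_lit 158964) (PT.nd (nat_lit 69108) (PT.nd (nat_lit 15990) (PT.nd (nat_lit 156) (PT.nd (nat_lit 78) (PT.lf (nat_lit 3800) (nat_lit 6) (nat_lit 50) (nat_lit 5) (nat_lit 33) (nat_lit 238) (nat_lit 239)) (PT.lf (nat_lit 3952) (nat_lit 3) (nat_lit 52) (nat_lit 4) (nat_lit 34) (nat_lit 238) (nat_lit 238))) (PT.nd (nat_lit 15756) (PT.lf (nat_lit 4028) (nat_lit 6) (nat_lit 53) (nat_lit 4) (nat_lit 35) (nat_lit 238) (nat_lit 237)) (PT.lf (nat_lit 4028) (nat_lit 6) (nat_lit 53) (nat_lit 2) (nat_lit 237) (nat_lit 238) (nat_lit 35)))) (PT.nd (nat_lit 36972) (PT.nd (nat_lit 78) (PT.lf (nat_lit 3952) (nat_lit 3) (nat_lit 52) (nat_lit 0) (nat_lit 238) (nat_lit 238) (nat_lit 34)) (PT.lf (nat_lit 3800) (nat_lit 6) (nat_lit 50) (nat_lit 0) (nat_lit 239) (nat_lit 238) (nat_lit 33))) (PT.nd (nat_lit 78) (PT.lf (nat_lit 3572) (nat_lit 6) (nat_lit 47) (nat_lit 5) (nat_lit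 31) (nat_lit 239) (nat_lit 240)) (PT.nd (nat_lit 78) (PT.lf (nat_lit 3724) (nat_lit 3) (nat_lit 49) (nat_lit 4) (nat_lit 32) (nat_lit 239) (nat_lit 239)) (PT.lf (nat_lit 3800) (nat_lit 6) (nat_lit 50) (nat_lit 4) (nat_lit 33) (nat_lit 239) (nat_lit 238)))))) (PT.nd (nat_lit 36972) (PT.nd (nat_lit 156) (PT.nd (nat_lit 78) (PT.lf (nat_lit 3800) (nat_lit 6) (nat_lit 50) (nat_lit 2) (nat_lit 238) (nat_lit 239) (nat_lit 33)) (PT.lf (nat_lit 3724) (nat_lit 3) (nat_lit 49) (nat_lit 0) (nat_lit 239) (nat_lit 239) (nat_lit 32))) (PT.nd (nat_lit 36660) (PT.lf (nat_lit 3572) (nat_lit 6) (nat_lit 47) (nat_lit 0) (nat_lit 240) (nat_lit 239) (nat_lit 31)) (PT.nd (nat_lit 78) (PT.lf (nat_lit 3344) (nat_lit 6) (nat_lit 44) (nat_lit 5) (nat_lit 29) (nat_lit 240) (nat_lit 241)) (PT.lf (nat_lit 3496) (nat_lit 3) (nat_lit 46) (nat_lit 4) (nat_lit 30) (nat_lit 240) (nat_lit 240))))) (PT.nd (nat_lit 16302) (PT.nd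 (nat_lit 16224) (PT.lf (nat_lit 3572) (nat_lit 6) (nat_lit 47) (nat_lit 4) (nat_lit 31) (nat_lit 240) (nat_lit 239)) (PT.lf (nat_lit 3572) (nat_lit 6) (nat_lit 47) (nat_lit 2) (nat_lit 239) (nat_lit 240) (nat_lit 31))) (PT.nd (nat_lit 78) (PT.lf (nat_lit 3496) (nat_lit 3) (nat_lit 46) (nat_lit 0) (nat_lit 240) (nat_lit 240) (nat_lit 30)) (PT.nd (nat_lit 36426) (PT.lf (nat_lit 3344) (nat_lit 6) (nat_lit 44) (nat_lit 0) (nat_lit 241) (nat_lit 240) (nat_lit 29)) (PT.lf (nat_lit 3116) (nat_lit 6) (nat_lit 41) (nat_lit 5) (nat_lit 27) (nat_lit 241) (nat_lit 242))))))) (PT.nd (nat_lit 69810) (PT.nd (nat_lit 16692) (PT.nd (nat_lit 16536) (PT.nd (nat_lit 78) (PT.lf (nat_lit 3268) (nat_lit 3) (nat_lit 43) (nat_lit 4) (nat_lit 28) (nat_lit 241) (nat_lit 241)) (PT.lf (nat_lit 3344) (nat_lit 6) (nat_lit 44) (nat_lit 4) (nat_lit 29) (nat_lit 241) (nat_lit 240))) (PT.nd (nat_lit 78) (PT.lf (nat_lit 3344) (nat_lit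 6) (nat_lit 44) (nat_lit 2) (nat_lit 240) (nat_lit 241) (nat_lit 29)) (PT.lf (nat_lit 3268) (nat_lit 3) (nat_lit 43) (nat_lit 0) (nat_lit 241) (nat_lit 241) (nat_lit 28)))) (PT.nd (nat_lit 36270) (PT.nd (nat_lit 36192) (PT.lf (nat_lit 3116) (nat_lit 6) (nat_lit 41) (nat_lit 0) (nat_lit 242) (nat_lit 241) (nat_lit 27)) (PT.lf (nat_lit 2888) (nat_lit 6) (nat_lit 38) (nat_lit 5) (nat_lit 25) (nat_lit 242) (nat_lit 243))) (PT.nd (nat_lit 78) (PT.lf (nat_lit 3040) (nat_lit 3) (nat_lit 40) (nat_lit 4) (nat_lit 26) (nat_lit 242) (nat_lit 242)) (PT.nd (nat_lit 16692) (PT.lf (nat_lit 3116) (nat_lit 6) (nat_lit 41) (nat_lit 4) (nat_lit 27) (nat_lit 242) (nat_lit 241)) (PT.lf (nat_lit 3116) (nat_lit 6) (nat_lit 41) (nat_lit 2) (nat_lit 241) (nat_lit 242) (nat_lit 27)))))) (PT.nd (nat_lit 53118) (PT.nd (nat_lit 36036) (PT.nd (nat_lit 78) (PT.lf (nat_lit 3040) (nat_lit 3) (nat_lit 40) (nat_lit 0) (nat_lit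 242) (nat_lit 242) (nat_lit 26)) (PT.lf (nat_lit 2888) (nat_lit 6) (nat_lit 38) (nat_lit 0) (nat_lit 243) (nat_lit 242) (nat_lit 25))) (PT.nd (nat_lit 78) (PT.lf (nat_lit 2660) (nat_lit 6) (nat_lit 35) (nat_lit 5) (nat_lit 23) (nat_lit 243) (nat_lit 244)) (PT.nd (nat_lit 78) (PT.lf (nat_lit 2812) (nat_lit 3) (nat_lit 37) (nat_lit 4) (nat_lit 24) (nat_lit 243) (nat_lit 243)) (PT.lf (nat_lit 2888) (nat_lit 6) (nat_lit 38) (nat_lit 4) (nat_lit 25) (nat_lit 243) (nat_lit 242))))) (PT.nd (nat_lit 156) (PT.nd (nat_lit 78) (PT.lf (nat_lit 2888) (nat_lit 6) (nat_lit 38) (nat_lit 2) (nat_lit 242) (nat_lit 243) (nat_lit 25)) (PT.lf (nat_lit 2812) (nat_lit 3) (nat_lit 37) (nat_lit 0) (nat_lit 243) (nat_lit 243) (nat_lit 24))) (PT.nd (nat_lit 35724) (PT.lf (nat_lit 2660) (nat_lit 6) (nat_lit 35) (nat_lit 0) (nat_lit 244) (nat_lit 243) (nat_lit 23)) (PT.nd (nat_lit 78) (PT.lf (nat_lit 2432) (nat_lit 6) (nat_lit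 32) (nat_lit 5) (nat_lit 21) (nat_lit 244) (nat_lit 245)) (PT.lf (nat_lit 2584) (nat_lit 3) (nat_lit 34) (nat_lit 4) (nat_lit 22) (nat_lit 244) (nat_lit 244))))))))
noncomputable def pc31 : PT := (PT.nd (nat_lit 176748) (PT.nd (nat_lit 70512) (PT.nd (nat_lit 52806) (PT.nd (nat_lit 17238) (PT.nd (nat_lit 17160) (PT.lf (nat_lit 2660) (nat_lit 6) (nat_lit 35) (nat_lit 4) (nat_lit 23) (nat_lit 244) (nat_lit 243)) (PT.lf (nat_lit 2660) (nat_lit 6) (nat_lit 35) (nat_lit 2) (nat_lit 243) (nat_lit 244) (nat_lit 23))) (PT.nd (nat_lit 78) (PT.lf (nat_lit 2584) (nat_lit 3) (nat_lit 34) (nat_lit 0) (nat_lit 244) (nat_lit 244) (nat_lit 22)) (PT.lf (nat_lit 2432) (nat_lit 6) (nat_lit 32) (nat_lit 0) (nat_lit 245) (nat_lit 244) (nat_lit 21)))) (PT.nd (nat_lit 156) (PT.nd (nat_lit 78) (PT.lf (nat_lit 2204) (nat_lit 6) (nat_lit 29) (nat_lit 5) (nat_lit 19) (nat_lit 245) (nat_lit 246)) (PT.lf (nat_lit 2356) (nat_lit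 3) (nat_lit 31) (nat_lit 4) (nat_lit 20) (nat_lit 245) (nat_lit 245))) (PT.nd (nat_lit 17394) (PT.lf (nat_lit 2432) (nat_lit 6) (nat_lit 32) (nat_lit 4) (nat_lit 21) (nat_lit 245) (nat_lit 244)) (PT.nd (nat_lit 78) (PT.lf (nat_lit 2432) (nat_lit 6) (nat_lit 32) (nat_lit 2) (nat_lit 244) (nat_lit 245) (nat_lit 21)) (PT.lf (nat_lit 2356) (nat_lit 3) (nat_lit 31) (nat_lit 0) (nat_lit 245) (nat_lit 245) (nat_lit 20)))))) (PT.nd (nat_lit 53118) (PT.nd (nat_lit 35334) (PT.nd (nat_lit 35256) (PT.lf (nat_lit 2204) (nat_lit 6) (nat_lit 29) (nat_lit 0) (nat_lit 246) (nat_lit 245) (nat_lit 19)) (PT.lf (nat_lit 1976) (nat_lit 6) (nat_lit 26) (nat_lit 5) (nat_lit 17) (nat_lit 246) (nat_lit 247))) (PT.nd (nat_lit 78) (PT.lf (nat_lit 2128) (nat_lit 3) (nat_lit 28) (nat_lit 4) (nat_lit 18) (nat_lit 246) (nat_lit 246)) (PT.nd (nat_lit 17628) (PT.lf (nat_lit 2204) (nat_lit 6) (nat_lit 29) (nat_lit 4) (nat_lit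 19) (nat_lit 246) (nat_lit 245)) (PT.lf (nat_lit 2204) (nat_lit 6) (nat_lit 29) (nat_lit 2) (nat_lit 245) (nat_lit 246) (nat_lit 19))))) (PT.nd (nat_lit 35100) (PT.nd (nat_lit 78) (PT.lf (nat_lit 2128) (nat_lit 3) (nat_lit 28) (nat_lit 0) (nat_lit 246) (nat_lit 246) (nat_lit 18)) (PT.lf (nat_lit 1976) (nat_lit 6) (nat_lit 26) (nat_lit 0) (nat_lit 247) (nat_lit 246) (nat_lit 17))) (PT.nd (nat_lit 78) (PT.lf (nat_lit 1748) (nat_lit 6) (nat_lit 23) (nat_lit 5) (nat_lit 15) (nat_lit 247) (nat_lit 248)) (PT.nd (nat_lit 78) (PT.lf (nat_lit 1900) (nat_lit 3) (nat_lit 25) (nat_lit 4) (nat_lit 16) (nat_lit 247) (nat_lit 247)) (PT.lf (nat_lit 1976) (nat_lit 6) (nat_lit 26) (nat_lit 4) (nat_lit 17) (nat_lit 247) (nat_lit 246))))))) (PT.nd (nat_lit 87906) (PT.nd (nat_lit 35022) (PT.nd (nat_lit 156) (PT.nd (nat_lit 78) (PT.lf (nat_lit 1976) (nat_lit 6) (nat_lit 26) (nat_lit 2) (nat_lit 246) (nat_lit 247)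 (nat_lit 17)) (PT.lf (nat_lit 1900) (nat_lit 3) (nat_lit 25) (nat_lit 0) (nat_lit 247) (nat_lit 247) (nat_lit 16))) (PT.nd (nat_lit 34788) (PT.lf (nat_lit 1748) (nat_lit 6) (nat_lit 23) (nat_lit 0) (nat_lit 248) (nat_lit 247) (nat_lit 15)) (PT.lf (nat_lit 1520) (nat_lit 6) (nat_lit 20) (nat_lit 5) (nat_lit 13) (nat_lit 248) (nat_lit 249)))) (PT.nd (nat_lit 18174) (PT.nd (nat_lit 78) (PT.lf (nat_lit 1672) (nat_lit 3) (nat_lit 22) (nat_lit 4) (nat_lit 14) (nat_lit 248) (nat_lit 248)) (PT.lf (nat_lit 1748) (nat_lit 6) (nat_lit 23) (nat_lit 4) (nat_lit 15) (nat_lit 248) (nat_lit 247))) (PT.nd (nat_lit 78) (PT.lf (nat_lit 1748) (nat_lit 6) (nat_lit 23) (nat_lit 2) (nat_lit 247) (nat_lit 248) (nat_lit 15)) (PT.nd (nat_lit 78) (PT.lf (nat_lit 1672) (nat_lit 3) (nat_lit 22) (nat_lit 0) (nat_lit 248) (nat_lit 248) (nat_lit 14)) (PT.lf (nat_lit 1520) (nat_lit 6) (nat_lit 20) (nat_lit 0) (nat_lit 249) (nat_lit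 248) (nat_lit 13)))))) (PT.nd (nat_lit 18642) (PT.nd (nat_lit 156) (PT.nd (nat_lit 78) (PT.lf (nat_lit 1292) (nat_lit 6) (nat_lit 17) (nat_lit 5) (nat_lit 11) (nat_lit 249) (nat_lit 250)) (PT.lf (nat_lit 1444) (nat_lit 3) (nat_lit 19) (nat_lit 4) (nat_lit 12) (nat_lit 249) (nat_lit 249))) (PT.nd (nat_lit 18330) (PT.lf (nat_lit 1520) (nat_lit 6) (nat_lit 20) (nat_lit 4) (nat_lit 13) (nat_lit 249) (nat_lit 248)) (PT.nd (nat_lit 78) (PT.lf (nat_lit 1520) (nat_lit 6) (nat_lit 20) (nat_lit 2) (nat_lit 248) (nat_lit 249) (nat_lit 13)) (PT.lf (nat_lit 1444) (nat_lit 3) (nat_lit 19) (nat_lit 0) (nat_lit 249) (nat_lit 249) (nat_lit 12))))) (PT.nd (nat_lit 34476) (PT.nd (nat_lit 34398) (PT.lf (nat_lit 1292) (nat_lit 6) (nat_lit 17) (nat_lit 0) (nat_lit 250) (nat_lit 249) (nat_lit 11)) (PT.lf (nat_lit 1216) (nat_lit 3) (nat_lit 16) (nat_lit 4) (nat_lit 10) (nat_lit 250) (nat_lit 250))) (PT.nd (nat_lit 18564)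 (PT.lf (nat_lit 1292) (nat_lit 6) (nat_lit 17) (nat_lit 4) (nat_lit 11) (nat_lit 250) (nat_lit 249)) (PT.nd (nat_lit 78) (PT.lf (nat_lit 1292) (nat_lit 6) (nat_lit 17) (nat_lit 2) (nat_lit 249) (nat_lit 250) (nat_lit 11)) (PT.lf (nat_lit 1216) (nat_lit 3) (nat_lit 16) (nat_lit 0) (nat_lit 250) (nat_lit 250) (nat_lit 10))))))))
noncomputable def xc0 : XT := (XT.nd (nat_lit 158964) (nat_lit 0) (nat_lit 0) (XT.nd (nat_lit 105924) (nat_lit 0) (nat_lit 0) (XT.nd (nat_lit 53040) (nat_lit 0) (nat_lit 0) (XT.nd (nat_lit 52884) (nat_lit 0) (nat_lit 456) (XT.nd (nat_lit 78) (nat_lit 152) (nat_lit 0) (XT.lf (nat_lit 0) (nat_lit 74527326070) (nat_lit 76) (nat_lit 87331971353) (nat_lit 76) (nat_lit 87330260142) (nat_lit 16) (nat_lit 4) (nat_lit 17) (nat_lit 5) (nat_lit 17) (nat_lit 4) (nat_lit 447) (nat_lit 287) (nat_lit 286)) (XT.lf (nat_lit 0) (nat_lit 109448724049) (nat_lit 152) (nat_lit 40266618074) (nat_lit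 0) (nat_lit 109445585318) (nat_lit 14) (nat_lit 5) (nat_lit 16) (nat_lit 4) (nat_lit 14) (nat_lit 4) (nat_lit 448) (nat_lit 287) (nat_lit 285))) (XT.nd (nat_lit 78) (nat_lit 228) (nat_lit 0) (XT.lf (nat_lit 0) (nat_lit 32072052442) (nat_lit 152) (nat_lit 46839312404) (nat_lit 0) (nat_lit 32072052442) (nat_lit 23) (nat_lit 5) (nat_lit 25) (nat_lit 4) (nat_lit 23) (nat_lit 4) (nat_lit 444) (nat_lit 288) (nat_lit 288)) (XT.lf (nat_lit 0) (nat_lit 16789422706) (nat_lit 152) (nat_lit 197191102997) (nat_lit 0) (nat_lit 16787482192) (nat_lit 20) (nat_lit 5) (nat_lit 22) (nat_lit 4) (nat_lit 20) (nat_lit 4) (nat_lit 445) (nat_lit 288) (nat_lit 287)))) (XT.nd (nat_lit 156) (nat_lit 152) (nat_lit 0) (XT.nd (nat_lit 78) (nat_lit 228) (nat_lit 0) (XT.lf (nat_lit 0) (nat_lit 166322961837) (nat_lit 76) (nat_lit 36829560938) (nat_lit 76) (nat_lit 36825823652) (nat_lit 19) (nat_lit 4) (nat_lit 20) (nat_lit 5)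 (nat_lit 20) (nat_lit 4) (nat_lit 446) (nat_lit 288) (nat_lit 286)) (XT.lf (nat_lit 0) (nat_lit 54312687659) (nat_lit 76) (nat_lit 97687530036) (nat_lit 76) (nat_lit 97682386261) (nat_lit 16) (nat_lit 4) (nat_lit 17) (nat_lit 5) (nat_lit 17) (nat_lit 4) (nat_lit 447) (nat_lit 288) (nat_lit 285))) (XT.nd (nat_lit 52650) (nat_lit 0) (nat_lit 1064) (XT.lf (nat_lit 0) (nat_lit 94242084200) (nat_lit 152) (nat_lit 71443475099) (nat_lit 0) (nat_lit 94235788140) (nat_lit 14) (nat_lit 5) (nat_lit 16) (nat_lit 4) (nat_lit 14) (nat_lit 4) (nat_lit 448) (nat_lit 288) (nat_lit 284)) (XT.lf (nat_lit 0) (nat_lit 43493238186) (nat_lit 76) (nat_lit 29634793604) (nat_lit 76) (nat_lit 29634793604) (nat_lit 28) (nat_lit 4) (nat_lit 29) (nat_lit 5) (nat_lit 29) (nat_lit 4) (nat_lit 442) (nat_lit 289) (nat_lit 289))))) (XT.nd (nat_lit 312) (nat_lit 380) (nat_lit 0) (XT.nd (nat_lit 156) (nat_lit 304) (nat_lit 0) (XT.nd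 (nat_lit 78) (nat_lit 228) (nat_lit 0) (XT.lf (nat_lit 0) (nat_lit 105333979383) (nat_lit 152) (nat_lit 2987080718) (nat_lit 0) (nat_lit 105331668813) (nat_lit 26) (nat_lit 5) (nat_lit 28) (nat_lit 4) (nat_lit 26) (nat_lit 4) (nat_lit 443) (nat_lit 289) (nat_lit 288)) (XT.lf (nat_lit 0) (nat_lit 59742594118) (nat_lit 152) (nat_lit 102706069991) (nat_lit 0) (nat_lit 59738356036) (nat_lit 23) (nat_lit 5) (nat_lit 25) (nat_lit 4) (nat_lit 23) (nat_lit 4) (nat_lit 444) (nat_lit 289) (nat_lit 287))) (XT.nd (nat_lit 78) (nat_lit 76) (nat_lit 0) (XT.lf (nat_lit 0) (nat_lit 7440986897) (nat_lit 152) (nat_lit 216359393720) (nat_lit 0) (nat_lit 7435153856) (nat_lit 20) (nat_lit 5) (nat_lit 22) (nat_lit 4) (nat_lit 20) (nat_lit 4) (nat_lit 445) (nat_lit 289) (nat_lit 286)) (XT.lf (nat_lit 0) (nat_lit 137705851929) (nat_lit 76) (nat_lit 51488990023) (nat_lit 76) (nat_lit 51481493304) (nat_lit 19) (nat_lit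 4) (nat_lit 20) (nat_lit 5) (nat_lit 20) (nat_lit 4) (nat_lit 446) (nat_lit 289) (nat_lit 285)))) (XT.nd (nat_lit 52572) (nat_lit 0) (nat_lit 1292) (XT.nd (nat_lit 78) (nat_lit 152) (nat_lit 0) (XT.lf (nat_lit 0) (nat_lit 13763620387) (nat_lit 76) (nat_lit 118458302465) (nat_lit 76) (nat_lit 118449695645) (nat_lit 16) (nat_lit 4) (nat_lit 17) (nat_lit 5) (nat_lit 17) (nat_lit 4) (nat_lit 447) (nat_lit 289) (nat_lit 284)) (XT.lf (nat_lit 0) (nat_lit 68796533986) (nat_lit 152) (nat_lit 123610142723) (nat_lit 0) (nat_lit 68787043286) (nat_lit 14) (nat_lit 5) (nat_lit 16) (nat_lit 4) (nat_lit 14) (nat_lit 4) (nat_lit 448) (nat_lit 289) (nat_lit 283))) (XT.nd (nat_lit 78) (nat_lit 76) (nat_lit 0) (XT.lf (nat_lit 0) (nat_lit 12803780559) (nat_lit 152) (nat_lit 69551642533) (nat_lit 0) (nat_lit 12803780559) (nat_lit 32) (nat_lit 5) (nat_lit 34) (nat_lit 4) (nat_lit 32) (nat_lit 4) (nat_lit 440) (nat_lit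 290) (nat_lit 290)) (XT.lf (nat_lit 0) (nat_lit 165427829071) (nat_lit 76) (nat_lit 16209790387) (nat_lit 76) (nat_lit 16207039192) (nat_lit 31) (nat_lit 4) (nat_lit 32) (nat_lit 5) (nat_lit 32) (nat_lit 4) (nat_lit 441) (nat_lit 290) (nat_lit 289)))))) (XT.nd (nat_lit 52884) (nat_lit 0) (nat_lit 380) (XT.nd (nat_lit 312) (nat_lit 608) (nat_lit 0) (XT.nd (nat_lit 156) (nat_lit 304) (nat_lit 0) (XT.nd (nat_lit 78) (nat_lit 152) (nat_lit 0) (XT.lf (nat_lit 0) (nat_lit 78700227187) (nat_lit 76) (nat_lit 63516289130) (nat_lit 76) (nat_lit 63511242846) (nat_lit 28) (nat_lit 4) (nat_lit 29) (nat_lit 5) (nat_lit 29) (nat_lit 4) (nat_lit 442) (nat_lit 290) (nat_lit 288)) (XT.lf (nat_lit 0) (nat_lit 97028323282) (nat_lit 152) (nat_lit 20018435329) (nat_lit 0) (nat_lit 97021377880) (nat_lit 26) (nat_lit 5) (nat_lit 28) (nat_lit 4) (nat_lit 26) (nat_lit 4) (nat_lit 443) (nat_lit 290) (nat_lit 287))) (XT.nd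 (nat_lit 78) (nat_lit 76) (nat_lit 0) (XT.lf (nat_lit 0) (nat_lit 46507740706) (nat_lit 152) (nat_lit 129841901511) (nat_lit 0) (nat_lit 46499239427) (nat_lit 23) (nat_lit 5) (nat_lit 25) (nat_lit 4) (nat_lit 23) (nat_lit 4) (nat_lit 444) (nat_lit 290) (nat_lit 286)) (XT.lf (nat_lit 0) (nat_lit 209866610667) (nat_lit 76) (nat_lit 11140677454) (nat_lit 76) (nat_lit 11130429313) (nat_lit 22) (nat_lit 4) (nat_lit 23) (nat_lit 5) (nat_lit 23) (nat_lit 4) (nat_lit 445) (nat_lit 290) (nat_lit 285)))) (XT.nd (nat_lit 156) (nat_lit 228) (nat_lit 0) (XT.nd (nat_lit 78) (nat_lit 152) (nat_lit 0) (XT.lf (nat_lit 0) (nat_lit 89822280481) (nat_lit 76) (nat_lit 76016632485) (nat_lit 76) (nat_lit 76005331909) (nat_lit 19) (nat_lit 4) (nat_lit 20) (nat_lit 5) (nat_lit 20) (nat_lit 4) (nat_lit 446) (nat_lit 290) (nat_lit 284)) (XT.lf (nat_lit 0) (nat_lit 103146633109) (nat_lit 152) (nat_lit 45844345415) (nat_lit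 0) (nat_lit 103134512241) (nat_lit 17) (nat_lit 5) (nat_lit 19) (nat_lit 4) (nat_lit 17) (nat_lit 4) (nat_lit 447) (nat_lit 290) (nat_lit 283))) (XT.nd (nat_lit 52338) (nat_lit 0) (nat_lit 1748) (XT.lf (nat_lit 0) (nat_lit 32961284962) (nat_lit 152) (nat_lit 197075756753) (nat_lit 0) (nat_lit 32948543381) (nat_lit 14) (nat_lit 5) (nat_lit 16) (nat_lit 4) (nat_lit 14) (nat_lit 4) (nat_lit 448) (nat_lit 290) (nat_lit 282)) (XT.lf (nat_lit 0) (nat_lit 9750906757) (nat_lit 76) (nat_lit 39177024061) (nat_lit 76) (nat_lit 39177024061) (nat_lit 37) (nat_lit 4) (nat_lit 38) (nat_lit 5) (nat_lit 38) (nat_lit 4) (nat_lit 438) (nat_lit 291) (nat_lit 291))))) (XT.nd (nat_lit 312) (nat_lit 684) (nat_lit 0) (XT.nd (nat_lit 156) (nat_lit 304) (nat_lit 0) (XT.nd (nat_lit 78) (nat_lit 228) (nat_lit 0) (XT.lf (nat_lit 0) (nat_lit 62299250192) (nat_lit 152) (nat_lit 58566554269) (nat_lit 0) (nat_lit 62296130336)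 (nat_lit 35) (nat_lit 5) (nat_lit 37) (nat_lit 4) (nat_lit 35) (nat_lit 4) (nat_lit 439) (nat_lit 291) (nat_lit 290)) (XT.lf (nat_lit 0) (nat_lit 21777579682) (nat_lit 152) (nat_lit 146960618061) (nat_lit 0) (nat_lit 21771857196) (nat_lit 32) (nat_lit 5) (nat_lit 34) (nat_lit 4) (nat_lit 32) (nat_lit 4) (nat_lit 440) (nat_lit 291) (nat_lit 289))) (XT.nd (nat_lit 78) (nat_lit 228) (nat_lit 0) (XT.lf (nat_lit 0) (nat_lit 149794834284) (nat_lit 76) (nat_lit 24219698575) (nat_lit 76) (nat_lit 24211428685) (nat_lit 31) (nat_lit 4) (nat_lit 32) (nat_lit 5) (nat_lit 32) (nat_lit 4) (nat_lit 441) (nat_lit 291) (nat_lit 288)) (XT.lf (nat_lit 0) (nat_lit 53792375932) (nat_lit 76) (nat_lit 76276514250) (nat_lit 76) (nat_lit 76266391777) (nat_lit 28) (nat_lit 4) (nat_lit 29) (nat_lit 5) (nat_lit 29) (nat_lit 4) (nat_lit 442) (nat_lit 291) (nat_lit 287)))) (XT.nd (nat_lit 156) (nat_lit 304) (nat_lit 0) (XT.nd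 (nat_lit 78) (nat_lit 228) (nat_lit 0) (XT.lf (nat_lit 0) (nat_lit 80365481806) (nat_lit 152) (nat_lit 54182071096) (nat_lit 0) (nat_lit 80353860415) (nat_lit 26) (nat_lit 5) (nat_lit 28) (nat_lit 4) (nat_lit 26) (nat_lit 4) (nat_lit 443) (nat_lit 291) (nat_lit 286)) (XT.lf (nat_lit 0) (nat_lit 24361115889) (nat_lit 152) (nat_lit 175246924296) (nat_lit 0) (nat_lit 24348301036) (nat_lit 23) (nat_lit 5) (nat_lit 25) (nat_lit 4) (nat_lit 23) (nat_lit 4) (nat_lit 444) (nat_lit 291) (nat_lit 285))) (XT.nd (nat_lit 78) (nat_lit 228) (nat_lit 0) (XT.lf (nat_lit 0) (nat_lit 155557066251) (nat_lit 76) (nat_lit 38959864844) (nat_lit 76) (nat_lit 38945432526) (nat_lit 22) (nat_lit 4) (nat_lit 23) (nat_lit 5) (nat_lit 23) (nat_lit 4) (nat_lit 445) (nat_lit 291) (nat_lit 284)) (XT.lf (nat_lit 0) (nat_lit 22388492996) (nat_lit 76) (nat_lit 110557837319) (nat_lit 76) (nat_lit 110542665918) (nat_lit 19) (nat_lit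 4) (nat_lit 20) (nat_lit 5) (nat_lit 20) (nat_lit 4) (nat_lit 446) (nat_lit 291) (nat_lit 283)))))))
noncomputable def xc1 : XT := (XT.nd (nat_lit 105300) (nat_lit 0) (nat_lit 76) (XT.nd (nat_lit 52728) (nat_lit 0) (nat_lit 0) (XT.nd (nat_lit 52416) (nat_lit 0) (nat_lit 1140) (XT.nd (nat_lit 52260) (nat_lit 0) (nat_lit 1824) (XT.nd (nat_lit 78) (nat_lit 76) (nat_lit 0) (XT.lf (nat_lit 0) (nat_lit 64400016663) (nat_lit 152) (nat_lit 125278611411) (nat_lit 0) (nat_lit 64384309919) (nat_lit 17) (nat_lit 5) (nat_lit 19) (nat_lit 4) (nat_lit 17) (nat_lit 4) (nat_lit 447) (nat_lit 291) (nat_lit 282)) (XT.lf (nat_lit 0) (nat_lit 238731961599) (nat_lit 76) (nat_lit 13275004830) (nat_lit 76) (nat_lit 13258133464) (nat_lit 16) (nat_lit 4) (nat_lit 17) (nat_lit 5) (nat_lit 17) (nat_lit 4) (nat_lit 448) (nat_lit 291) (nat_lit 281))) (XT.nd (nat_lit 78) (nat_lit 228) (nat_lit 0) (XT.lf (nat_lit 0) (nat_lit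 78225285371) (nat_lit 76) (nat_lit 1685030450) (nat_lit 76) (nat_lit 1685030450) (nat_lit 43) (nat_lit 4) (nat_lit 44) (nat_lit 5) (nat_lit 44) (nat_lit 4) (nat_lit 436) (nat_lit 292) (nat_lit 292)) (XT.lf (nat_lit 0) (nat_lit 89338703589) (nat_lit 76) (nat_lit 40131954133) (nat_lit 76) (nat_lit 40128239321) (nat_lit 40) (nat_lit 4) (nat_lit 41) (nat_lit 5) (nat_lit 41) (nat_lit 4) (nat_lit 437) (nat_lit 292) (nat_lit 291)))) (XT.nd (nat_lit 156) (nat_lit 304) (nat_lit 0) (XT.nd (nat_lit 78) (nat_lit 152) (nat_lit 0) (XT.lf (nat_lit 0) (nat_lit 12289612772) (nat_lit 76) (nat_lit 82051512239) (nat_lit 76) (nat_lit 82044698474) (nat_lit 37) (nat_lit 4) (nat_lit 38) (nat_lit 5) (nat_lit 38) (nat_lit 4) (nat_lit 438) (nat_lit 292) (nat_lit 290)) (XT.lf (nat_lit 0) (nat_lit 55071267861) (nat_lit 152) (nat_lit 73390344718) (nat_lit 0) (nat_lit 55061889806) (nat_lit 35) (nat_lit 5) (nat_lit 37) (nat_lit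 4) (nat_lit 35) (nat_lit 4) (nat_lit 439) (nat_lit 292) (nat_lit 289))) (XT.nd (nat_lit 78) (nat_lit 76) (nat_lit 0) (XT.lf (nat_lit 0) (nat_lit 10259216701) (nat_lit 152) (nat_lit 170579179019) (nat_lit 0) (nat_lit 10247737817) (nat_lit 32) (nat_lit 5) (nat_lit 34) (nat_lit 4) (nat_lit 32) (nat_lit 4) (nat_lit 440) (nat_lit 292) (nat_lit 288)) (XT.lf (nat_lit 0) (nat_lit 118436204742) (nat_lit 76) (nat_lit 40284229877) (nat_lit 76) (nat_lit 40270392286) (nat_lit 31) (nat_lit 4) (nat_lit 32) (nat_lit 5) (nat_lit 32) (nat_lit 4) (nat_lit 441) (nat_lit 292) (nat_lit 287))))) (XT.nd (nat_lit 312) (nat_lit 456) (nat_lit 0) (XT.nd (nat_lit 156) (nat_lit 304) (nat_lit 0) (XT.nd (nat_lit 78) (nat_lit 152) (nat_lit 0) (XT.lf (nat_lit 0) (nat_lit 12115320527) (nat_lit 76) (nat_lit 97625878718) (nat_lit 76) (nat_lit 97610620071) (nat_lit 28) (nat_lit 4) (nat_lit 29) (nat_lit 5) (nat_lit 29) (nat_lit 4)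 (nat_lit 442) (nat_lit 292) (nat_lit 286)) (XT.lf (nat_lit 0) (nat_lit 55246712192) (nat_lit 152) (nat_lit 105680439195) (nat_lit 0) (nat_lit 55230345943) (nat_lit 26) (nat_lit 5) (nat_lit 28) (nat_lit 4) (nat_lit 26) (nat_lit 4) (nat_lit 443) (nat_lit 292) (nat_lit 285))) (XT.nd (nat_lit 78) (nat_lit 228) (nat_lit 0) (XT.lf (nat_lit 0) (nat_lit 212040740259) (nat_lit 76) (nat_lit 6735877909) (nat_lit 76) (nat_lit 6717813323) (nat_lit 25) (nat_lit 4) (nat_lit 26) (nat_lit 5) (nat_lit 26) (nat_lit 4) (nat_lit 444) (nat_lit 292) (nat_lit 284)) (XT.lf (nat_lit 0) (nat_lit 82644692385) (nat_lit 76) (nat_lit 76307377460) (nat_lit 76) (nat_lit 76288675440) (nat_lit 22) (nat_lit 4) (nat_lit 23) (nat_lit 5) (nat_lit 23) (nat_lit 4) (nat_lit 445) (nat_lit 292) (nat_lit 283)))) (XT.nd (nat_lit 156) (nat_lit 76) (nat_lit 0) (XT.nd (nat_lit 78) (nat_lit 228) (nat_lit 0) (XT.lf (nat_lit 0) (nat_lit 91336930930)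 (nat_lit 152) (nat_lit 62914868473) (nat_lit 0) (nat_lit 91317798801) (nat_lit 20) (nat_lit 5) (nat_lit 22) (nat_lit 4) (nat_lit 20) (nat_lit 4) (nat_lit 446) (nat_lit 292) (nat_lit 282)) (XT.lf (nat_lit 0) (nat_lit 15537575247) (nat_lit 152) (nat_lit 225450420983) (nat_lit 0) (nat_lit 15518189550) (nat_lit 17) (nat_lit 5) (nat_lit 19) (nat_lit 4) (nat_lit 17) (nat_lit 4) (nat_lit 447) (nat_lit 292) (nat_lit 281))) (XT.nd (nat_lit 52026) (nat_lit 0) (nat_lit 2356) (XT.lf (nat_lit 0) (nat_lit 128633719981) (nat_lit 76) (nat_lit 69668600977) (nat_lit 76) (nat_lit 69648136926) (nat_lit 16) (nat_lit 4) (nat_lit 17) (nat_lit 5) (nat_lit 17) (nat_lit 4) (nat_lit 448) (nat_lit 292) (nat_lit 280)) (XT.lf (nat_lit 0) (nat_lit 30301884895) (nat_lit 152) (nat_lit 14930830884) (nat_lit 0) (nat_lit 30301884895) (nat_lit 47) (nat_lit 5) (nat_lit 49) (nat_lit 4) (nat_lit 47) (nat_lit 4) (nat_lit 434) (nat_lit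 293) (nat_lit 293)))))) (XT.nd (nat_lit 624) (nat_lit 912) (nat_lit 0) (XT.nd (nat_lit 312) (nat_lit 684) (nat_lit 0) (XT.nd (nat_lit 156) (nat_lit 380) (nat_lit 0) (XT.nd (nat_lit 78) (nat_lit 76) (nat_lit 0) (XT.lf (nat_lit 0) (nat_lit 29226366056) (nat_lit 152) (nat_lit 98592164252) (nat_lit 0) (nat_lit 29222153459) (nat_lit 44) (nat_lit 5) (nat_lit 46) (nat_lit 4) (nat_lit 44) (nat_lit 4) (nat_lit 435) (nat_lit 293) (nat_lit 292)) (XT.lf (nat_lit 0) (nat_lit 150042422533) (nat_lit 76) (nat_lit 6656343534) (nat_lit 76) (nat_lit 6648230384) (nat_lit 43) (nat_lit 4) (nat_lit 44) (nat_lit 5) (nat_lit 44) (nat_lit 4) (nat_lit 436) (nat_lit 293) (nat_lit 291))) (XT.nd (nat_lit 78) (nat_lit 152) (nat_lit 0) (XT.lf (nat_lit 0) (nat_lit 75732038335) (nat_lit 76) (nat_lit 47104954501) (nat_lit 76) (nat_lit 47093788051) (nat_lit 40) (nat_lit 4) (nat_lit 41) (nat_lit 5) (nat_lit 41) (nat_lit 4) (nat_lit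 437) (nat_lit 293) (nat_lit 290)) (XT.lf (nat_lit 0) (nat_lit 83915873277) (nat_lit 152) (nat_lit 9089198473) (nat_lit 0) (nat_lit 83902205370) (nat_lit 38) (nat_lit 5) (nat_lit 40) (nat_lit 4) (nat_lit 38) (nat_lit 4) (nat_lit 438) (nat_lit 293) (nat_lit 289)))) (XT.nd (nat_lit 156) (nat_lit 380) (nat_lit 0) (XT.nd (nat_lit 78) (nat_lit 76) (nat_lit 0) (XT.lf (nat_lit 0) (nat_lit 40569350857) (nat_lit 152) (nat_lit 103125770301) (nat_lit 0) (nat_lit 40553659029) (nat_lit 35) (nat_lit 5) (nat_lit 37) (nat_lit 4) (nat_lit 35) (nat_lit 4) (nat_lit 439) (nat_lit 293) (nat_lit 288)) (XT.lf (nat_lit 0) (nat_lit 174263876904) (nat_lit 76) (nat_lit 8887965250) (nat_lit 76) (nat_lit 8869796780) (nat_lit 34) (nat_lit 4) (nat_lit 35) (nat_lit 5) (nat_lit 35) (nat_lit 4) (nat_lit 440) (nat_lit 293) (nat_lit 287))) (XT.nd (nat_lit 78) (nat_lit 152) (nat_lit 0) (XT.lf (nat_lit 0) (nat_lit 71166111529) (nat_lit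 76) (nat_lit 64498581517) (nat_lit 76) (nat_lit 64479094224) (nat_lit 31) (nat_lit 4) (nat_lit 32) (nat_lit 5) (nat_lit 32) (nat_lit 4) (nat_lit 441) (nat_lit 293) (nat_lit 286)) (XT.lf (nat_lit 0) (nat_lit 81840194887) (nat_lit 152) (nat_lit 45087130034) (nat_lit 0) (nat_lit 81819709646) (nat_lit 29) (nat_lit 5) (nat_lit 31) (nat_lit 4) (nat_lit 29) (nat_lit 4) (nat_lit 442) (nat_lit 293) (nat_lit 285))))) (XT.nd (nat_lit 312) (nat_lit 228) (nat_lit 0) (XT.nd (nat_lit 156) (nat_lit 380) (nat_lit 0) (XT.nd (nat_lit 78) (nat_lit 76) (nat_lit 0) (XT.lf (nat_lit 0) (nat_lit 21523162471) (nat_lit 152) (nat_lit 174818715139) (nat_lit 0) (nat_lit 21501954380) (nat_lit 26) (nat_lit 5) (nat_lit 28) (nat_lit 4) (nat_lit 26) (nat_lit 4) (nat_lit 443) (nat_lit 293) (nat_lit 284)) (XT.lf (nat_lit 0) (nat_lit 134398905094) (nat_lit 76) (nat_lit 46506024318) (nat_lit 76) (nat_lit 46483243692) (nat_lit 25)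 (nat_lit 4) (nat_lit 26) (nat_lit 5) (nat_lit 26) (nat_lit 4) (nat_lit 444) (nat_lit 293) (nat_lit 283))) (XT.nd (nat_lit 78) (nat_lit 228) (nat_lit 0) (XT.lf (nat_lit 0) (nat_lit 114247189051) (nat_lit 152) (nat_lit 9004843463) (nat_lit 0) (nat_lit 114224106501) (nat_lit 23) (nat_lit 5) (nat_lit 25) (nat_lit 4) (nat_lit 23) (nat_lit 4) (nat_lit 445) (nat_lit 293) (nat_lit 282)) (XT.lf (nat_lit 0) (nat_lit 40412475818) (nat_lit 152) (nat_lit 167314218120) (nat_lit 0) (nat_lit 40389269585) (nat_lit 20) (nat_lit 5) (nat_lit 22) (nat_lit 4) (nat_lit 20) (nat_lit 4) (nat_lit 446) (nat_lit 293) (nat_lit 281)))) (XT.nd (nat_lit 51948) (nat_lit 0) (nat_lit 2280) (XT.nd (nat_lit 78) (nat_lit 152) (nat_lit 0) (XT.lf (nat_lit 0) (nat_lit 173259324275) (nat_lit 76) (nat_lit 43048491877) (nat_lit 76) (nat_lit 43024153372) (nat_lit 19) (nat_lit 4) (nat_lit 20) (nat_lit 5) (nat_lit 20) (nat_lit 4) (nat_lit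 447) (nat_lit 293) (nat_lit 280)) (XT.lf (nat_lit 0) (nat_lit 134134257283) (nat_lit 152) (nat_lit 2914660279) (nat_lit 0) (nat_lit 134110079279) (nat_lit 17) (nat_lit 5) (nat_lit 19) (nat_lit 4) (nat_lit 17) (nat_lit 4) (nat_lit 448) (nat_lit 293) (nat_lit 279))) (XT.nd (nat_lit 78) (nat_lit 380) (nat_lit 0) (XT.lf (nat_lit 0) (nat_lit 45486338476) (nat_lit 76) (nat_lit 12228448442) (nat_lit 76) (nat_lit 12228448442) (nat_lit 52) (nat_lit 4) (nat_lit 53) (nat_lit 5) (nat_lit 53) (nat_lit 4) (nat_lit 432) (nat_lit 294) (nat_lit 294)) (XT.nd (nat_lit 78) (nat_lit 152) (nat_lit 0) (XT.lf (nat_lit 0) (nat_lit 31266144966) (nat_lit 76) (nat_lit 57070681939) (nat_lit 76) (nat_lit 57065666000) (nat_lit 49) (nat_lit 4) (nat_lit 50) (nat_lit 5) (nat_lit 50) (nat_lit 4) (nat_lit 433) (nat_lit 294) (nat_lit 293)) (XT.lf (nat_lit 0) (nat_lit 57644257753) (nat_lit 152) (nat_lit 35938100612) (nat_lit 0) (nat_lit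 57635057441) (nat_lit 47) (nat_lit 5) (nat_lit 49) (nat_lit 4) (nat_lit 47) (nat_lit 4) (nat_lit 434) (nat_lit 294) (nat_lit 292))))))))
noncomputable def xc2 : XT := (XT.nd (nat_lit 52884) (nat_lit 0) (nat_lit 228) (XT.nd (nat_lit 624) (nat_lit 912) (nat_lit 0) (XT.nd (nat_lit 312) (nat_lit 684) (nat_lit 0) (XT.nd (nat_lit 156) (nat_lit 380) (nat_lit 0) (XT.nd (nat_lit 78) (nat_lit 76) (nat_lit 0) (XT.lf (nat_lit 0) (nat_lit 22936775299) (nat_lit 152) (nat_lit 111494502941) (nat_lit 0) (nat_lit 22924112545) (nat_lit 44) (nat_lit 5) (nat_lit 46) (nat_lit 4) (nat_lit 44) (nat_lit 4) (nat_lit 435) (nat_lit 294) (nat_lit 291)) (XT.lf (nat_lit 0) (nat_lit 130780003696) (nat_lit 76) (nat_lit 16526552552) (nat_lit 76) (nat_lit 16510278175) (nat_lit 43) (nat_lit 4) (nat_lit 44) (nat_lit 5) (nat_lit 44) (nat_lit 4) (nat_lit 436) (nat_lit 294) (nat_lit 290))) (XT.nd (nat_lit 78) (nat_lit 152) (nat_lit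 0) (XT.lf (nat_lit 0) (nat_lit 48438075736) (nat_lit 76) (nat_lit 61088561909) (nat_lit 76) (nat_lit 61069877649) (nat_lit 40) (nat_lit 4) (nat_lit 41) (nat_lit 5) (nat_lit 41) (nat_lit 4) (nat_lit 437) (nat_lit 294) (nat_lit 289)) (XT.lf (nat_lit 0) (nat_lit 66790612131) (nat_lit 152) (nat_lit 44203125292) (nat_lit 0) (nat_lit 66770009086) (nat_lit 38) (nat_lit 5) (nat_lit 40) (nat_lit 4) (nat_lit 38) (nat_lit 4) (nat_lit 438) (nat_lit 294) (nat_lit 288)))) (XT.nd (nat_lit 156) (nat_lit 380) (nat_lit 0) (XT.nd (nat_lit 78) (nat_lit 76) (nat_lit 0) (XT.lf (nat_lit 0) (nat_lit 18707561892) (nat_lit 152) (nat_lit 147949040945) (nat_lit 0) (nat_lit 18685463303) (nat_lit 35) (nat_lit 5) (nat_lit 37) (nat_lit 4) (nat_lit 35) (nat_lit 4) (nat_lit 439) (nat_lit 294) (nat_lit 287)) (XT.lf (nat_lit 0) (nat_lit 122113982617) (nat_lit 76) (nat_lit 35602018330) (nat_lit 76) (nat_lit 35577626553) (nat_lit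 34) (nat_lit 4) (nat_lit 35) (nat_lit 5) (nat_lit 35) (nat_lit 4) (nat_lit 440) (nat_lit 294) (nat_lit 286))) (XT.nd (nat_lit 78) (nat_lit 152) (nat_lit 0) (XT.lf (nat_lit 0) (nat_lit 7704435573) (nat_lit 76) (nat_lit 97006245948) (nat_lit 76) (nat_lit 96980993474) (nat_lit 31) (nat_lit 4) (nat_lit 32) (nat_lit 5) (nat_lit 32) (nat_lit 4) (nat_lit 441) (nat_lit 294) (nat_lit 285)) (XT.lf (nat_lit 0) (nat_lit 45929271317) (nat_lit 152) (nat_lit 118710049579) (nat_lit 0) (nat_lit 45903438087) (nat_lit 29) (nat_lit 5) (nat_lit 31) (nat_lit 4) (nat_lit 29) (nat_lit 4) (nat_lit 442) (nat_lit 294) (nat_lit 284))))) (XT.nd (nat_lit 312) (nat_lit 380) (nat_lit 0) (XT.nd (nat_lit 156) (nat_lit 228) (nat_lit 0) (XT.nd (nat_lit 78) (nat_lit 228) (nat_lit 0) (XT.lf (nat_lit 0) (nat_lit 178546030709) (nat_lit 76) (nat_lit 20692839027) (nat_lit 76) (nat_lit 20665354635) (nat_lit 28) (nat_lit 4) (nat_lit 29)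 (nat_lit 5) (nat_lit 29) (nat_lit 4) (nat_lit 443) (nat_lit 294) (nat_lit 283)) (XT.lf (nat_lit 0) (nat_lit 38571210148) (nat_lit 76) (nat_lit 95590951381) (nat_lit 76) (nat_lit 95563319718) (nat_lit 25) (nat_lit 4) (nat_lit 26) (nat_lit 5) (nat_lit 26) (nat_lit 4) (nat_lit 444) (nat_lit 294) (nat_lit 282))) (XT.nd (nat_lit 78) (nat_lit 76) (nat_lit 0) (XT.lf (nat_lit 0) (nat_lit 61587281237) (nat_lit 152) (nat_lit 116962333461) (nat_lit 0) (nat_lit 61559681373) (nat_lit 23) (nat_lit 5) (nat_lit 25) (nat_lit 4) (nat_lit 23) (nat_lit 4) (nat_lit 445) (nat_lit 294) (nat_lit 281)) (XT.lf (nat_lit 0) (nat_lit 210773032711) (nat_lit 76) (nat_lit 20175942804) (nat_lit 76) (nat_lit 20147154055) (nat_lit 22) (nat_lit 4) (nat_lit 23) (nat_lit 5) (nat_lit 23) (nat_lit 4) (nat_lit 446) (nat_lit 294) (nat_lit 280)))) (XT.nd (nat_lit 51792) (nat_lit 0) (nat_lit 2736) (XT.nd (nat_lit 78) (nat_lit 152) (nat_lit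 0) (XT.lf (nat_lit 0) (nat_lit 38746326085) (nat_lit 76) (nat_lit 111947482032) (nat_lit 76) (nat_lit 111919015776) (nat_lit 19) (nat_lit 4) (nat_lit 20) (nat_lit 5) (nat_lit 20) (nat_lit 4) (nat_lit 447) (nat_lit 294) (nat_lit 279)) (XT.lf (nat_lit 0) (nat_lit 61432145071) (nat_lit 152) (nat_lit 151957994179) (nat_lit 0) (nat_lit 61404109837) (nat_lit 17) (nat_lit 5) (nat_lit 19) (nat_lit 4) (nat_lit 17) (nat_lit 4) (nat_lit 448) (nat_lit 294) (nat_lit 278))) (XT.nd (nat_lit 78) (nat_lit 228) (nat_lit 0) (XT.lf (nat_lit 0) (nat_lit 16036337177) (nat_lit 152) (nat_lit 32686986983) (nat_lit 0) (nat_lit 16036337177) (nat_lit 56) (nat_lit 5) (nat_lit 58) (nat_lit 4) (nat_lit 56) (nat_lit 4) (nat_lit 430) (nat_lit 295) (nat_lit 295)) (XT.lf (nat_lit 0) (nat_lit 4171401765) (nat_lit 152) (nat_lit 126323333875) (nat_lit 0) (nat_lit 4165713690) (nat_lit 53) (nat_lit 5) (nat_lit 55) (nat_lit 4) (nat_lit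 53) (nat_lit 4) (nat_lit 431) (nat_lit 295) (nat_lit 294)))))) (XT.nd (nat_lit 624) (nat_lit 1292) (nat_lit 0) (XT.nd (nat_lit 312) (nat_lit 532) (nat_lit 0) (XT.nd (nat_lit 156) (nat_lit 380) (nat_lit 0) (XT.nd (nat_lit 78) (nat_lit 228) (nat_lit 0) (XT.lf (nat_lit 0) (nat_lit 85395167500) (nat_lit 76) (nat_lit 27319152562) (nat_lit 76) (nat_lit 27308197751) (nat_lit 52) (nat_lit 4) (nat_lit 53) (nat_lit 5) (nat_lit 53) (nat_lit 4) (nat_lit 432) (nat_lit 295) (nat_lit 293)) (XT.lf (nat_lit 0) (nat_lit 19423191967) (nat_lit 76) (nat_lit 63141624920) (nat_lit 76) (nat_lit 63126547378) (nat_lit 49) (nat_lit 4) (nat_lit 50) (nat_lit 5) (nat_lit 50) (nat_lit 4) (nat_lit 433) (nat_lit 295) (nat_lit 292))) (XT.nd (nat_lit 78) (nat_lit 228) (nat_lit 0) (XT.lf (nat_lit 0) (nat_lit 48738983478) (nat_lit 152) (nat_lit 54203425670) (nat_lit 0) (nat_lit 48720528334) (nat_lit 47) (nat_lit 5) (nat_lit 49)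 (nat_lit 4) (nat_lit 47) (nat_lit 4) (nat_lit 434) (nat_lit 295) (nat_lit 291)) (XT.lf (nat_lit 0) (nat_lit 10316109540) (nat_lit 152) (nat_lit 137375638621) (nat_lit 0) (nat_lit 10294921590) (nat_lit 44) (nat_lit 5) (nat_lit 46) (nat_lit 4) (nat_lit 44) (nat_lit 4) (nat_lit 435) (nat_lit 295) (nat_lit 290)))) (XT.nd (nat_lit 156) (nat_lit 228) (nat_lit 0) (XT.nd (nat_lit 78) (nat_lit 228) (nat_lit 0) (XT.lf (nat_lit 0) (nat_lit 98549166562) (nat_lit 76) (nat_lit 33039178083) (nat_lit 76) (nat_lit 33014646037) (nat_lit 43) (nat_lit 4) (nat_lit 44) (nat_lit 5) (nat_lit 44) (nat_lit 4) (nat_lit 436) (nat_lit 295) (nat_lit 289)) (XT.lf (nat_lit 0) (nat_lit 7295073793) (nat_lit 76) (nat_lit 82165642178) (nat_lit 76) (nat_lit 82139329387) (nat_lit 40) (nat_lit 4) (nat_lit 41) (nat_lit 5) (nat_lit 41) (nat_lit 4) (nat_lit 437) (nat_lit 295) (nat_lit 288))) (XT.nd (nat_lit 78) (nat_lit 76) (nat_lit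 0) (XT.lf (nat_lit 0) (nat_lit 42671983246) (nat_lit 152) (nat_lit 93653594572) (nat_lit 0) (nat_lit 42644322972) (nat_lit 38) (nat_lit 5) (nat_lit 40) (nat_lit 4) (nat_lit 38) (nat_lit 4) (nat_lit 438) (nat_lit 295) (nat_lit 287)) (XT.lf (nat_lit 0) (nat_lit 165804145404) (nat_lit 76) (nat_lit 10501099869) (nat_lit 76) (nat_lit 10471031748) (nat_lit 37) (nat_lit 4) (nat_lit 38) (nat_lit 5) (nat_lit 38) (nat_lit 4) (nat_lit 439) (nat_lit 295) (nat_lit 286))))) (XT.nd (nat_lit 312) (nat_lit 608) (nat_lit 0) (XT.nd (nat_lit 156) (nat_lit 304) (nat_lit 0) (XT.nd (nat_lit 78) (nat_lit 152) (nat_lit 0) (XT.lf (nat_lit 0) (nat_lit 54535899671) (nat_lit 76) (nat_lit 70218392559) (nat_lit 76) (nat_lit 70187632932) (nat_lit 34) (nat_lit 4) (nat_lit 35) (nat_lit 5) (nat_lit 35) (nat_lit 4) (nat_lit 440) (nat_lit 295) (nat_lit 285)) (XT.lf (nat_lit 0) (nat_lit 66804163126) (nat_lit 152) (nat_lit 70010044083)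 (nat_lit 0) (nat_lit 66772995826) (nat_lit 32) (nat_lit 5) (nat_lit 34) (nat_lit 4) (nat_lit 32) (nat_lit 4) (nat_lit 441) (nat_lit 295) (nat_lit 284))) (XT.nd (nat_lit 78) (nat_lit 76) (nat_lit 0) (XT.lf (nat_lit 0) (nat_lit 1606468955) (nat_lit 152) (nat_lit 209577487992) (nat_lit 0) (nat_lit 1575134650) (nat_lit 29) (nat_lit 5) (nat_lit 31) (nat_lit 4) (nat_lit 29) (nat_lit 4) (nat_lit 442) (nat_lit 295) (nat_lit 283)) (XT.lf (nat_lit 0) (nat_lit 79452361855) (nat_lit 76) (nat_lit 71450850519) (nat_lit 76) (nat_lit 71417987360) (nat_lit 28) (nat_lit 4) (nat_lit 29) (nat_lit 5) (nat_lit 29) (nat_lit 4) (nat_lit 443) (nat_lit 295) (nat_lit 282)))) (XT.nd (nat_lit 156) (nat_lit 380) (nat_lit 0) (XT.nd (nat_lit 78) (nat_lit 76) (nat_lit 0) (XT.lf (nat_lit 0) (nat_lit 79458052773) (nat_lit 152) (nat_lit 73577410910) (nat_lit 0) (nat_lit 79425406332) (nat_lit 26) (nat_lit 5) (nat_lit 28) (nat_lit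 4) (nat_lit 26) (nat_lit 4) (nat_lit 444) (nat_lit 295) (nat_lit 281)) (XT.lf (nat_lit 0) (nat_lit 241946809588) (nat_lit 76) (nat_lit 652693255) (nat_lit 76) (nat_lit 618798485) (nat_lit 25) (nat_lit 4) (nat_lit 26) (nat_lit 5) (nat_lit 26) (nat_lit 4) (nat_lit 445) (nat_lit 295) (nat_lit 280))) (XT.nd (nat_lit 78) (nat_lit 152) (nat_lit 0) (XT.lf (nat_lit 0) (nat_lit 73966792391) (nat_lit 76) (nat_lit 90249757311) (nat_lit 76) (nat_lit 90216375758) (nat_lit 22) (nat_lit 4) (nat_lit 23) (nat_lit 5) (nat_lit 23) (nat_lit 4) (nat_lit 446) (nat_lit 295) (nat_lit 279)) (XT.lf (nat_lit 0) (nat_lit 76442074309) (nat_lit 152) (nat_lit 113474190945) (nat_lit 0) (nat_lit 76409311614) (nat_lit 20) (nat_lit 5) (nat_lit 22) (nat_lit 4) (nat_lit 20) (nat_lit 4) (nat_lit 447) (nat_lit 295) (nat_lit 278)))))))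
noncomputable def xc3 : XT := (XT.nd (nat_lit 52728) (nat_lit 0) (nat_lit 0) (XT.nd (nat_lit 52104) (nat_lit 0) (nat_lit 912) (XT.nd (nat_lit 51792) (nat_lit 0) (nat_lit 2128) (XT.nd (nat_lit 51636) (nat_lit 0) (nat_lit 2812) (XT.nd (nat_lit 51558) (nat_lit 0) (nat_lit 3192) (XT.lf (nat_lit 0) (nat_lit 235107707765) (nat_lit 76) (nat_lit 21917016497) (nat_lit 76) (nat_lit 21883354968) (nat_lit 19) (nat_lit 4) (nat_lit 20) (nat_lit 5) (nat_lit 20) (nat_lit 4) (nat_lit 448) (nat_lit 295) (nat_lit 277)) (XT.lf (nat_lit 0) (nat_lit 20364987440) (nat_lit 76) (nat_lit 19798546061) (nat_lit 76) (nat_lit 19798546061) (nat_lit 61) (nat_lit 4) (nat_lit 62) (nat_lit 5) (nat_lit 62) (nat_lit 4) (nat_lit 428) (nat_lit 296) (nat_lit 296))) (XT.nd (nat_lit 78) (nat_lit 228) (nat_lit 0) (XT.lf (nat_lit 0) (nat_lit 56362966113) (nat_lit 152) (nat_lit 11943996502) (nat_lit 0) (nat_lit 56356193322) (nat_lit 59)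 (nat_lit 5) (nat_lit 61) (nat_lit 4) (nat_lit 59) (nat_lit 4) (nat_lit 429) (nat_lit 296) (nat_lit 295)) (XT.lf (nat_lit 0) (nat_lit 29498994275) (nat_lit 152) (nat_lit 70662763397) (nat_lit 0) (nat_lit 29486571519) (nat_lit 56) (nat_lit 5) (nat_lit 58) (nat_lit 4) (nat_lit 56) (nat_lit 4) (nat_lit 430) (nat_lit 296) (nat_lit 294)))) (XT.nd (nat_lit 156) (nat_lit 380) (nat_lit 0) (XT.nd (nat_lit 78) (nat_lit 228) (nat_lit 0) (XT.lf (nat_lit 0) (nat_lit 132353616199) (nat_lit 76) (nat_lit 1297292060) (nat_lit 76) (nat_lit 1279339231) (nat_lit 55) (nat_lit 4) (nat_lit 56) (nat_lit 5) (nat_lit 56) (nat_lit 4) (nat_lit 431) (nat_lit 296) (nat_lit 293)) (XT.lf (nat_lit 0) (nat_lit 68629587235) (nat_lit 76) (nat_lit 35911926300) (nat_lit 76) (nat_lit 35889951761) (nat_lit 52) (nat_lit 4) (nat_lit 53) (nat_lit 5) (nat_lit 53) (nat_lit 4) (nat_lit 432) (nat_lit 296) (nat_lit 292))) (XT.nd (nat_lit 78)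 (nat_lit 228) (nat_lit 0) (XT.lf (nat_lit 0) (nat_lit 71049225036) (nat_lit 152) (nat_lit 4194214807) (nat_lit 0) (nat_lit 71023996544) (nat_lit 50) (nat_lit 5) (nat_lit 52) (nat_lit 4) (nat_lit 50) (nat_lit 4) (nat_lit 433) (nat_lit 296) (nat_lit 291)) (XT.lf (nat_lit 0) (nat_lit 33835174971) (nat_lit 152) (nat_lit 84765875906) (nat_lit 0) (nat_lit 33807355631) (nat_lit 47) (nat_lit 5) (nat_lit 49) (nat_lit 4) (nat_lit 47) (nat_lit 4) (nat_lit 434) (nat_lit 296) (nat_lit 290))))) (XT.nd (nat_lit 312) (nat_lit 532) (nat_lit 0) (XT.nd (nat_lit 156) (nat_lit 380) (nat_lit 0) (XT.nd (nat_lit 78) (nat_lit 228) (nat_lit 0) (XT.lf (nat_lit 0) (nat_lit 141741568636) (nat_lit 76) (nat_lit 8600273737) (nat_lit 76) (nat_lit 8568943097) (nat_lit 46) (nat_lit 4) (nat_lit 47) (nat_lit 5) (nat_lit 47) (nat_lit 4) (nat_lit 435) (nat_lit 296) (nat_lit 289)) (XT.lf (nat_lit 0) (nat_lit 53158913578) (nat_lit 76)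 (nat_lit 56292072721) (nat_lit 76) (nat_lit 56259137632) (nat_lit 43) (nat_lit 4) (nat_lit 44) (nat_lit 5) (nat_lit 44) (nat_lit 4) (nat_lit 436) (nat_lit 296) (nat_lit 288))) (XT.nd (nat_lit 78) (nat_lit 228) (nat_lit 0) (XT.lf (nat_lit 0) (nat_lit 63268808544) (nat_lit 152) (nat_lit 46406373589) (nat_lit 0) (nat_lit 63234711294) (nat_lit 41) (nat_lit 5) (nat_lit 43) (nat_lit 4) (nat_lit 41) (nat_lit 4) (nat_lit 437) (nat_lit 296) (nat_lit 287)) (XT.lf (nat_lit 0) (nat_lit 11417061416) (nat_lit 152) (nat_lit 157733646131) (nat_lit 0) (nat_lit 11382179999) (nat_lit 38) (nat_lit 5) (nat_lit 40) (nat_lit 4) (nat_lit 38) (nat_lit 4) (nat_lit 438) (nat_lit 296) (nat_lit 286)))) (XT.nd (nat_lit 156) (nat_lit 304) (nat_lit 0) (XT.nd (nat_lit 78) (nat_lit 152) (nat_lit 0) (XT.lf (nat_lit 0) (nat_lit 94696815308) (nat_lit 76) (nat_lit 46925480381) (nat_lit 76) (nat_lit 46888369476) (nat_lit 37) (nat_lit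 4) (nat_lit 38) (nat_lit 5) (nat_lit 38) (nat_lit 4) (nat_lit 439) (nat_lit 296) (nat_lit 285)) (XT.lf (nat_lit 0) (nat_lit 84522142000) (nat_lit 152) (nat_lit 27946787635) (nat_lit 0) (nat_lit 84484832243) (nat_lit 35) (nat_lit 5) (nat_lit 37) (nat_lit 4) (nat_lit 35) (nat_lit 4) (nat_lit 440) (nat_lit 296) (nat_lit 284))) (XT.nd (nat_lit 78) (nat_lit 76) (nat_lit 0) (XT.lf (nat_lit 0) (nat_lit 20970980505) (nat_lit 152) (nat_lit 163974386267) (nat_lit 0) (nat_lit 20933713684) (nat_lit 32) (nat_lit 5) (nat_lit 34) (nat_lit 4) (nat_lit 32) (nat_lit 4) (nat_lit 441) (nat_lit 296) (nat_lit 283)) (XT.lf (nat_lit 0) (nat_lit 114086892256) (nat_lit 76) (nat_lit 50599628944) (nat_lit 76) (nat_lit 50560756826) (nat_lit 31) (nat_lit 4) (nat_lit 32) (nat_lit 5) (nat_lit 32) (nat_lit 4) (nat_lit 442) (nat_lit 296) (nat_lit 282)))))) (XT.nd (nat_lit 51948) (nat_lit 0) (nat_lit 1900) (XT.nd (nat_lit 312)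 (nat_lit 304) (nat_lit 0) (XT.nd (nat_lit 156) (nat_lit 228) (nat_lit 0) (XT.nd (nat_lit 78) (nat_lit 228) (nat_lit 0) (XT.lf (nat_lit 0) (nat_lit 94382324728) (nat_lit 152) (nat_lit 36421239224) (nat_lit 0) (nat_lit 94343888059) (nat_lit 29) (nat_lit 5) (nat_lit 31) (nat_lit 4) (nat_lit 29) (nat_lit 4) (nat_lit 443) (nat_lit 296) (nat_lit 281)) (XT.lf (nat_lit 0) (nat_lit 16180269765) (nat_lit 152) (nat_lit 203302272312) (nat_lit 0) (nat_lit 16142415084) (nat_lit 26) (nat_lit 5) (nat_lit 28) (nat_lit 4) (nat_lit 26) (nat_lit 4) (nat_lit 444) (nat_lit 296) (nat_lit 280))) (XT.nd (nat_lit 78) (nat_lit 152) (nat_lit 0) (XT.lf (nat_lit 0) (nat_lit 103362584151) (nat_lit 76) (nat_lit 71637449584) (nat_lit 76) (nat_lit 71598439043) (nat_lit 25) (nat_lit 4) (nat_lit 26) (nat_lit 5) (nat_lit 26) (nat_lit 4) (nat_lit 445) (nat_lit 296) (nat_lit 279)) (XT.lf (nat_lit 0) (nat_lit 88715363787) (nat_lit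 152) (nat_lit 80815617922) (nat_lit 0) (nat_lit 88677191614) (nat_lit 23) (nat_lit 5) (nat_lit 25) (nat_lit 4) (nat_lit 23) (nat_lit 4) (nat_lit 446) (nat_lit 296) (nat_lit 278)))) (XT.nd (nat_lit 51480) (nat_lit 0) (nat_lit 3420) (XT.nd (nat_lit 78) (nat_lit 228) (nat_lit 0) (XT.lf (nat_lit 0) (nat_lit 255178031297) (nat_lit 76) (nat_lit 7686554276) (nat_lit 76) (nat_lit 7647438328) (nat_lit 22) (nat_lit 4) (nat_lit 23) (nat_lit 5) (nat_lit 23) (nat_lit 4) (nat_lit 447) (nat_lit 296) (nat_lit 277)) (XT.lf (nat_lit 0) (nat_lit 52341742943) (nat_lit 76) (nat_lit 115531097794) (nat_lit 76) (nat_lit 115493012257) (nat_lit 19) (nat_lit 4) (nat_lit 20) (nat_lit 5) (nat_lit 20) (nat_lit 4) (nat_lit 448) (nat_lit 296) (nat_lit 276))) (XT.nd (nat_lit 78) (nat_lit 76) (nat_lit 0) (XT.lf (nat_lit 0) (nat_lit 5163780816) (nat_lit 152) (nat_lit 45200792151) (nat_lit 0) (nat_lit 5163780816) (nat_lit 65) (nat_lit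 5) (nat_lit 67) (nat_lit 4) (nat_lit 65) (nat_lit 4) (nat_lit 426) (nat_lit 297) (nat_lit 297)) (XT.lf (nat_lit 0) (nat_lit 86976936164) (nat_lit 76) (nat_lit 14234526058) (nat_lit 76) (nat_lit 14226461696) (nat_lit 64) (nat_lit 4) (nat_lit 65) (nat_lit 5) (nat_lit 65) (nat_lit 4) (nat_lit 427) (nat_lit 297) (nat_lit 296))))) (XT.nd (nat_lit 312) (nat_lit 836) (nat_lit 0) (XT.nd (nat_lit 156) (nat_lit 304) (nat_lit 0) (XT.nd (nat_lit 78) (nat_lit 152) (nat_lit 0) (XT.lf (nat_lit 0) (nat_lit 35875459236) (nat_lit 76) (nat_lit 42090954180) (nat_lit 76) (nat_lit 42076162405) (nat_lit 61) (nat_lit 4) (nat_lit 62) (nat_lit 5) (nat_lit 62) (nat_lit 4) (nat_lit 428) (nat_lit 297) (nat_lit 295)) (XT.lf (nat_lit 0) (nat_lit 51502505217) (nat_lit 152) (nat_lit 21921892787) (nat_lit 0) (nat_lit 51482146709) (nat_lit 59) (nat_lit 5) (nat_lit 61) (nat_lit 4) (nat_lit 59) (nat_lit 4) (nat_lit 429) (nat_lit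 297) (nat_lit 294))) (XT.nd (nat_lit 78) (nat_lit 76) (nat_lit 0) (XT.lf (nat_lit 0) (nat_lit 21750279848) (nat_lit 152) (nat_lit 86560472661) (nat_lit 0) (nat_lit 21725360719) (nat_lit 56) (nat_lit 5) (nat_lit 58) (nat_lit 4) (nat_lit 56) (nat_lit 4) (nat_lit 430) (nat_lit 297) (nat_lit 293)) (XT.lf (nat_lit 0) (nat_lit 111246048457) (nat_lit 76) (nat_lit 12114551173) (nat_lit 76) (nat_lit 12084511607) (nat_lit 55) (nat_lit 4) (nat_lit 56) (nat_lit 5) (nat_lit 56) (nat_lit 4) (nat_lit 431) (nat_lit 297) (nat_lit 292)))) (XT.nd (nat_lit 156) (nat_lit 456) (nat_lit 0) (XT.nd (nat_lit 78) (nat_lit 152) (nat_lit 0) (XT.lf (nat_lit 0) (nat_lit 40576584569) (nat_lit 76) (nat_lit 50286138240) (nat_lit 76) (nat_lit 50253013752) (nat_lit 52) (nat_lit 4) (nat_lit 53) (nat_lit 5) (nat_lit 53) (nat_lit 4) (nat_lit 432) (nat_lit 297) (nat_lit 291)) (XT.lf (nat_lit 0) (nat_lit 54145207080) (nat_lit 152) (nat_lit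 38858068002) (nat_lit 0) (nat_lit 54109678135) (nat_lit 50) (nat_lit 5) (nat_lit 52) (nat_lit 4) (nat_lit 50) (nat_lit 4) (nat_lit 433) (nat_lit 297) (nat_lit 290))) (XT.nd (nat_lit 78) (nat_lit 228) (nat_lit 0) (XT.lf (nat_lit 0) (nat_lit 12844513365) (nat_lit 152) (nat_lit 127806562135) (nat_lit 0) (nat_lit 12807164974) (nat_lit 47) (nat_lit 5) (nat_lit 49) (nat_lit 4) (nat_lit 47) (nat_lit 4) (nat_lit 434) (nat_lit 297) (nat_lit 289)) (XT.nd (nat_lit 78) (nat_lit 152) (nat_lit 0) (XT.lf (nat_lit 0) (nat_lit 92663720831) (nat_lit 76) (nat_lit 33742376194) (nat_lit 76) (nat_lit 33701776600) (nat_lit 46) (nat_lit 4) (nat_lit 47) (nat_lit 5) (nat_lit 47) (nat_lit 4) (nat_lit 435) (nat_lit 297) (nat_lit 288)) (XT.lf (nat_lit 0) (nat_lit 80851661185) (nat_lit 152) (nat_lit 5478587680) (nat_lit 0) (nat_lit 80810127882) (nat_lit 44) (nat_lit 5) (nat_lit 46) (nat_lit 4) (nat_lit 44) (nat_lit 4) (nat_lit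 436) (nat_lit 297) (nat_lit 287))))))))
noncomputable def xc4 : XT := (XT.nd (nat_lit 52416) (nat_lit 0) (nat_lit 836) (XT.nd (nat_lit 624) (nat_lit 608) (nat_lit 0) (XT.nd (nat_lit 312) (nat_lit 532) (nat_lit 0) (XT.nd (nat_lit 156) (nat_lit 380) (nat_lit 0) (XT.nd (nat_lit 78) (nat_lit 76) (nat_lit 0) (XT.lf (nat_lit 0) (nat_lit 30381814532) (nat_lit 152) (nat_lit 113832970742) (nat_lit 0) (nat_lit 30339730767) (nat_lit 41) (nat_lit 5) (nat_lit 43) (nat_lit 4) (nat_lit 41) (nat_lit 4) (nat_lit 437) (nat_lit 297) (nat_lit 286)) (XT.lf (nat_lit 0) (nat_lit 128892123772) (nat_lit 76) (nat_lit 26764339185) (nat_lit 76) (nat_lit 26719914457) (nat_lit 40) (nat_lit 4) (nat_lit 41) (nat_lit 5) (nat_lit 41) (nat_lit 4) (nat_lit 438) (nat_lit 297) (nat_lit 285))) (XT.nd (nat_lit 78) (nat_lit 152) (nat_lit 0) (XT.lf (nat_lit 0) (nat_lit 8447486313) (nat_lit 76) (nat_lit 91105635533) (nat_lit 76) (nat_lit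 91061261929) (nat_lit 37) (nat_lit 4) (nat_lit 38) (nat_lit 5) (nat_lit 38) (nat_lit 4) (nat_lit 439) (nat_lit 297) (nat_lit 284)) (XT.lf (nat_lit 0) (nat_lit 37434016390) (nat_lit 152) (nat_lit 124484463901) (nat_lit 0) (nat_lit 37389935409) (nat_lit 35) (nat_lit 5) (nat_lit 37) (nat_lit 4) (nat_lit 35) (nat_lit 4) (nat_lit 440) (nat_lit 297) (nat_lit 283)))) (XT.nd (nat_lit 156) (nat_lit 304) (nat_lit 0) (XT.nd (nat_lit 78) (nat_lit 152) (nat_lit 0) (XT.lf (nat_lit 0) (nat_lit 143148294703) (nat_lit 76) (nat_lit 32689910049) (nat_lit 76) (nat_lit 32644143507) (nat_lit 34) (nat_lit 4) (nat_lit 35) (nat_lit 5) (nat_lit 35) (nat_lit 4) (nat_lit 441) (nat_lit 297) (nat_lit 282)) (XT.lf (nat_lit 0) (nat_lit 106682741268) (nat_lit 152) (nat_lit 4827293808) (nat_lit 0) (nat_lit 106637667700) (nat_lit 32) (nat_lit 5) (nat_lit 34) (nat_lit 4) (nat_lit 32) (nat_lit 4) (nat_lit 442) (nat_lit 297) (nat_lit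 281))) (XT.nd (nat_lit 78) (nat_lit 76) (nat_lit 0) (XT.lf (nat_lit 0) (nat_lit 30282437349) (nat_lit 152) (nat_lit 167832034162) (nat_lit 0) (nat_lit 30238199396) (nat_lit 29) (nat_lit 5) (nat_lit 31) (nat_lit 4) (nat_lit 29) (nat_lit 4) (nat_lit 443) (nat_lit 297) (nat_lit 280)) (XT.lf (nat_lit 0) (nat_lit 127576183593) (nat_lit 76) (nat_lit 55778708557) (nat_lit 76) (nat_lit 55733256951) (nat_lit 28) (nat_lit 4) (nat_lit 29) (nat_lit 5) (nat_lit 29) (nat_lit 4) (nat_lit 444) (nat_lit 297) (nat_lit 279))))) (XT.nd (nat_lit 51480) (nat_lit 0) (nat_lit 3344) (XT.nd (nat_lit 156) (nat_lit 228) (nat_lit 0) (XT.nd (nat_lit 78) (nat_lit 228) (nat_lit 0) (XT.lf (nat_lit 0) (nat_lit 98559466465) (nat_lit 152) (nat_lit 53346139532) (nat_lit 0) (nat_lit 98515108980) (nat_lit 26) (nat_lit 5) (nat_lit 28) (nat_lit 4) (nat_lit 26) (nat_lit 4) (nat_lit 445) (nat_lit 297) (nat_lit 278)) (XT.lf (nat_lit 0)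 (nat_lit 4178575796) (nat_lit 152) (nat_lit 254121253781) (nat_lit 0) (nat_lit 4135386797) (nat_lit 23) (nat_lit 5) (nat_lit 25) (nat_lit 4) (nat_lit 23) (nat_lit 4) (nat_lit 446) (nat_lit 297) (nat_lit 277))) (XT.nd (nat_lit 78) (nat_lit 152) (nat_lit 0) (XT.lf (nat_lit 0) (nat_lit 72142395511) (nat_lit 76) (nat_lit 101439026542) (nat_lit 76) (nat_lit 101394963677) (nat_lit 22) (nat_lit 4) (nat_lit 23) (nat_lit 5) (nat_lit 23) (nat_lit 4) (nat_lit 447) (nat_lit 297) (nat_lit 276)) (XT.lf (nat_lit 0) (nat_lit 69843090548) (nat_lit 152) (nat_lit 148624088600) (nat_lit 0) (nat_lit 69800355310) (nat_lit 20) (nat_lit 5) (nat_lit 22) (nat_lit 4) (nat_lit 20) (nat_lit 4) (nat_lit 448) (nat_lit 297) (nat_lit 275)))) (XT.nd (nat_lit 156) (nat_lit 304) (nat_lit 0) (XT.nd (nat_lit 78) (nat_lit 152) (nat_lit 0) (XT.lf (nat_lit 0) (nat_lit 1372255076) (nat_lit 76) (nat_lit 25019578501) (nat_lit 76) (nat_lit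 25019578501) (nat_lit 70) (nat_lit 4) (nat_lit 71) (nat_lit 5) (nat_lit 71) (nat_lit 4) (nat_lit 424) (nat_lit 298) (nat_lit 298)) (XT.lf (nat_lit 0) (nat_lit 31961259673) (nat_lit 152) (nat_lit 42963276559) (nat_lit 0) (nat_lit 31952114686) (nat_lit 68) (nat_lit 5) (nat_lit 70) (nat_lit 4) (nat_lit 68) (nat_lit 4) (nat_lit 425) (nat_lit 298) (nat_lit 297))) (XT.nd (nat_lit 78) (nat_lit 76) (nat_lit 0) (XT.lf (nat_lit 0) (nat_lit 8090487564) (nat_lit 152) (nat_lit 95004795495) (nat_lit 0) (nat_lit 8073713690) (nat_lit 65) (nat_lit 5) (nat_lit 67) (nat_lit 4) (nat_lit 65) (nat_lit 4) (nat_lit 426) (nat_lit 298) (nat_lit 296)) (XT.lf (nat_lit 0) (nat_lit 77818360778) (nat_lit 76) (nat_lit 18933607104) (nat_lit 76) (nat_lit 18909366228) (nat_lit 64) (nat_lit 4) (nat_lit 65) (nat_lit 5) (nat_lit 65) (nat_lit 4) (nat_lit 427) (nat_lit 298) (nat_lit 295)))))) (XT.nd (nat_lit 624) (nat_lit 1140) (nat_lit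 0) (XT.nd (nat_lit 312) (nat_lit 684) (nat_lit 0) (XT.nd (nat_lit 156) (nat_lit 304) (nat_lit 0) (XT.nd (nat_lit 78) (nat_lit 152) (nat_lit 0) (XT.lf (nat_lit 0) (nat_lit 21283144803) (nat_lit 76) (nat_lit 49572527021) (nat_lit 76) (nat_lit 49542855815) (nat_lit 61) (nat_lit 4) (nat_lit 62) (nat_lit 5) (nat_lit 62) (nat_lit 4) (nat_lit 428) (nat_lit 298) (nat_lit 294)) (XT.lf (nat_lit 0) (nat_lit 41746007903) (nat_lit 152) (nat_lit 41936813629) (nat_lit 0) (nat_lit 41711943035) (nat_lit 59) (nat_lit 5) (nat_lit 61) (nat_lit 4) (nat_lit 59) (nat_lit 4) (nat_lit 429) (nat_lit 298) (nat_lit 293))) (XT.nd (nat_lit 78) (nat_lit 76) (nat_lit 0) (XT.lf (nat_lit 0) (nat_lit 8780612762) (nat_lit 152) (nat_lit 113161310407) (nat_lit 0) (nat_lit 8743049593) (nat_lit 56) (nat_lit 5) (nat_lit 58) (nat_lit 4) (nat_lit 56) (nat_lit 4) (nat_lit 430) (nat_lit 298) (nat_lit 292)) (XT.lf (nat_lit 0) (nat_lit 79428436870)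 (nat_lit 76) (nat_lit 28417542927) (nat_lit 76) (nat_lit 28375238612) (nat_lit 55) (nat_lit 4) (nat_lit 56) (nat_lit 5) (nat_lit 56) (nat_lit 4) (nat_lit 431) (nat_lit 298) (nat_lit 291)))) (XT.nd (nat_lit 156) (nat_lit 304) (nat_lit 0) (XT.nd (nat_lit 78) (nat_lit 152) (nat_lit 0) (XT.lf (nat_lit 0) (nat_lit 1069919487) (nat_lit 76) (nat_lit 70526968895) (nat_lit 76) (nat_lit 70482498166) (nat_lit 52) (nat_lit 4) (nat_lit 53) (nat_lit 5) (nat_lit 53) (nat_lit 4) (nat_lit 432) (nat_lit 298) (nat_lit 290)) (XT.lf (nat_lit 0) (nat_lit 31449340601) (nat_lit 152) (nat_lit 85395446486) (nat_lit 0) (nat_lit 31403300661) (nat_lit 50) (nat_lit 5) (nat_lit 52) (nat_lit 4) (nat_lit 50) (nat_lit 4) (nat_lit 433) (nat_lit 298) (nat_lit 289))) (XT.nd (nat_lit 78) (nat_lit 228) (nat_lit 0) (XT.lf (nat_lit 0) (nat_lit 126475396657) (nat_lit 76) (nat_lit 14173716035) (nat_lit 76) (nat_lit 14124262331) (nat_lit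 49) (nat_lit 4) (nat_lit 50) (nat_lit 5) (nat_lit 50) (nat_lit 4) (nat_lit 434) (nat_lit 298) (nat_lit 288)) (XT.lf (nat_lit 0) (nat_lit 30773341875) (nat_lit 76) (nat_lit 65447123710) (nat_lit 76) (nat_lit 65397014570) (nat_lit 46) (nat_lit 4) (nat_lit 47) (nat_lit 5) (nat_lit 47) (nat_lit 4) (nat_lit 435) (nat_lit 298) (nat_lit 287))))) (XT.nd (nat_lit 312) (nat_lit 532) (nat_lit 0) (XT.nd (nat_lit 156) (nat_lit 380) (nat_lit 0) (XT.nd (nat_lit 78) (nat_lit 76) (nat_lit 0) (XT.lf (nat_lit 0) (nat_lit 46577060280) (nat_lit 152) (nat_lit 75750673357) (nat_lit 0) (nat_lit 46526682639) (nat_lit 44) (nat_lit 5) (nat_lit 46) (nat_lit 4) (nat_lit 44) (nat_lit 4) (nat_lit 436) (nat_lit 298) (nat_lit 286)) (XT.lf (nat_lit 0) (nat_lit 157758469145) (nat_lit 76) (nat_lit 9406848604) (nat_lit 76) (nat_lit 9354012953) (nat_lit 43) (nat_lit 4) (nat_lit 44) (nat_lit 5) (nat_lit 44) (nat_lit 4) (nat_lit 437)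 (nat_lit 298) (nat_lit 285))) (XT.nd (nat_lit 78) (nat_lit 152) (nat_lit 0) (XT.lf (nat_lit 0) (nat_lit 40280789859) (nat_lit 76) (nat_lit 72154708869) (nat_lit 76) (nat_lit 72102221645) (nat_lit 40) (nat_lit 4) (nat_lit 41) (nat_lit 5) (nat_lit 41) (nat_lit 4) (nat_lit 438) (nat_lit 298) (nat_lit 284)) (XT.lf (nat_lit 0) (nat_lit 51307518595) (nat_lit 152) (nat_lit 90463806717) (nat_lit 0) (nat_lit 51255619336) (nat_lit 38) (nat_lit 5) (nat_lit 40) (nat_lit 4) (nat_lit 38) (nat_lit 4) (nat_lit 439) (nat_lit 298) (nat_lit 283)))) (XT.nd (nat_lit 156) (nat_lit 228) (nat_lit 0) (XT.nd (nat_lit 78) (nat_lit 228) (nat_lit 0) (XT.lf (nat_lit 0) (nat_lit 167244377260) (nat_lit 76) (nat_lit 17408037089) (nat_lit 76) (nat_lit 17354367990) (nat_lit 37) (nat_lit 4) (nat_lit 38) (nat_lit 5) (nat_lit 38) (nat_lit 4) (nat_lit 440) (nat_lit 298) (nat_lit 282)) (XT.lf (nat_lit 0) (nat_lit 22527030901) (nat_lit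 76) (nat_lit 94475032940) (nat_lit 76) (nat_lit 94422358808) (nat_lit 34) (nat_lit 4) (nat_lit 35) (nat_lit 5) (nat_lit 35) (nat_lit 4) (nat_lit 441) (nat_lit 298) (nat_lit 281))) (XT.nd (nat_lit 78) (nat_lit 76) (nat_lit 0) (XT.lf (nat_lit 0) (nat_lit 41974116610) (nat_lit 152) (nat_lit 137486697525) (nat_lit 0) (nat_lit 41922574488) (nat_lit 32) (nat_lit 5) (nat_lit 34) (nat_lit 4) (nat_lit 32) (nat_lit 4) (nat_lit 442) (nat_lit 298) (nat_lit 280)) (XT.lf (nat_lit 0) (nat_lit 147186932789) (nat_lit 76) (nat_lit 42374109296) (nat_lit 76) (nat_lit 42321292838) (nat_lit 31) (nat_lit 4) (nat_lit 32) (nat_lit 5) (nat_lit 32) (nat_lit 4) (nat_lit 443) (nat_lit 298) (nat_lit 279)))))))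
noncomputable def xc5 : XT := (XT.nd (nat_lit 52260) (nat_lit 0) (nat_lit 76) (XT.nd (nat_lit 51636) (nat_lit 0) (nat_lit 2356) (XT.nd (nat_lit 312) (nat_lit 76) (nat_lit 0) (XT.nd (nat_lit 156) (nat_lit 228) (nat_lit 0) (XT.nd (nat_lit 78) (nat_lit 228) (nat_lit 0) (XT.lf (nat_lit 0) (nat_lit 106251476491) (nat_lit 152) (nat_lit 30492034532) (nat_lit 0) (nat_lit 106200051349) (nat_lit 29) (nat_lit 5) (nat_lit 31) (nat_lit 4) (nat_lit 29) (nat_lit 4) (nat_lit 444) (nat_lit 298) (nat_lit 278)) (XT.lf (nat_lit 0) (nat_lit 13898254113) (nat_lit 152) (nat_lit 226907465599) (nat_lit 0) (nat_lit 13848286824) (nat_lit 26) (nat_lit 5) (nat_lit 28) (nat_lit 4) (nat_lit 26) (nat_lit 4) (nat_lit 445) (nat_lit 298) (nat_lit 277))) (XT.nd (nat_lit 78) (nat_lit 152) (nat_lit 0) (XT.lf (nat_lit 0) (nat_lit 87700253515) (nat_lit 76) (nat_lit 89630342450) (nat_lit 76) (nat_lit 89579457602) (nat_lit 25) (nat_lit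 4) (nat_lit 26) (nat_lit 5) (nat_lit 26) (nat_lit 4) (nat_lit 446) (nat_lit 298) (nat_lit 276)) (XT.lf (nat_lit 0) (nat_lit 75478125000) (nat_lit 152) (nat_lit 128974791423) (nat_lit 0) (nat_lit 75428854105) (nat_lit 23) (nat_lit 5) (nat_lit 25) (nat_lit 4) (nat_lit 23) (nat_lit 4) (nat_lit 447) (nat_lit 298) (nat_lit 275)))) (XT.nd (nat_lit 51168) (nat_lit 0) (nat_lit 3724) (XT.nd (nat_lit 51090) (nat_lit 0) (nat_lit 4104) (XT.lf (nat_lit 0) (nat_lit 217067733066) (nat_lit 76) (nat_lit 38281362807) (nat_lit 76) (nat_lit 38231342713) (nat_lit 22) (nat_lit 4) (nat_lit 23) (nat_lit 5) (nat_lit 23) (nat_lit 4) (nat_lit 448) (nat_lit 298) (nat_lit 274)) (XT.lf (nat_lit 0) (nat_lit 41735795406) (nat_lit 76) (nat_lit 2936781185) (nat_lit 76) (nat_lit 2936781185) (nat_lit 76) (nat_lit 4) (nat_lit 77) (nat_lit 5) (nat_lit 77) (nat_lit 4) (nat_lit 422) (nat_lit 299) (nat_lit 299))) (XT.nd (nat_lit 78)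 (nat_lit 152) (nat_lit 0) (XT.lf (nat_lit 0) (nat_lit 43909446787) (nat_lit 76) (nat_lit 27531475942) (nat_lit 76) (nat_lit 27520587006) (nat_lit 73) (nat_lit 4) (nat_lit 74) (nat_lit 5) (nat_lit 74) (nat_lit 4) (nat_lit 423) (nat_lit 299) (nat_lit 298)) (XT.lf (nat_lit 0) (nat_lit 50755703511) (nat_lit 152) (nat_lit 1433306491) (nat_lit 0) (nat_lit 50735730860) (nat_lit 71) (nat_lit 5) (nat_lit 73) (nat_lit 4) (nat_lit 71) (nat_lit 4) (nat_lit 424) (nat_lit 299) (nat_lit 297))))) (XT.nd (nat_lit 312) (nat_lit 684) (nat_lit 0) (XT.nd (nat_lit 156) (nat_lit 228) (nat_lit 0) (XT.nd (nat_lit 78) (nat_lit 228) (nat_lit 0) (XT.lf (nat_lit 0) (nat_lit 27734130182) (nat_lit 152) (nat_lit 51647730009) (nat_lit 0) (nat_lit 27706641030) (nat_lit 68) (nat_lit 5) (nat_lit 70) (nat_lit 4) (nat_lit 68) (nat_lit 4) (nat_lit 425) (nat_lit 299) (nat_lit 296)) (XT.lf (nat_lit 0) (nat_lit 1349234746) (nat_lit 152)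 (nat_lit 108841707359) (nat_lit 0) (nat_lit 1315587599) (nat_lit 65) (nat_lit 5) (nat_lit 67) (nat_lit 4) (nat_lit 65) (nat_lit 4) (nat_lit 426) (nat_lit 299) (nat_lit 295))) (XT.nd (nat_lit 78) (nat_lit 152) (nat_lit 0) (XT.lf (nat_lit 0) (nat_lit 59446936968) (nat_lit 76) (nat_lit 28351551239) (nat_lit 76) (nat_lit 28310990201) (nat_lit 64) (nat_lit 4) (nat_lit 65) (nat_lit 5) (nat_lit 65) (nat_lit 4) (nat_lit 427) (nat_lit 299) (nat_lit 294)) (XT.lf (nat_lit 0) (nat_lit 59001626300) (nat_lit 152) (nat_lit 3033151699) (nat_lit 0) (nat_lit 58956899834) (nat_lit 62) (nat_lit 5) (nat_lit 64) (nat_lit 4) (nat_lit 62) (nat_lit 4) (nat_lit 428) (nat_lit 299) (nat_lit 293)))) (XT.nd (nat_lit 156) (nat_lit 380) (nat_lit 0) (XT.nd (nat_lit 78) (nat_lit 76) (nat_lit 0) (XT.lf (nat_lit 0) (nat_lit 27035657891) (nat_lit 152) (nat_lit 72107365968) (nat_lit 0) (nat_lit 26987684797) (nat_lit 59) (nat_lit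 5) (nat_lit 61) (nat_lit 4) (nat_lit 59) (nat_lit 4) (nat_lit 429) (nat_lit 299) (nat_lit 292)) (XT.lf (nat_lit 0) (nat_lit 112851482263) (nat_lit 76) (nat_lit 9385134186) (nat_lit 76) (nat_lit 9332182889) (nat_lit 58) (nat_lit 4) (nat_lit 59) (nat_lit 5) (nat_lit 59) (nat_lit 4) (nat_lit 430) (nat_lit 299) (nat_lit 291))) (XT.nd (nat_lit 78) (nat_lit 152) (nat_lit 0) (XT.lf (nat_lit 0) (nat_lit 36712232629) (nat_lit 76) (nat_lit 50302877644) (nat_lit 76) (nat_lit 50248057887) (nat_lit 55) (nat_lit 4) (nat_lit 56) (nat_lit 5) (nat_lit 56) (nat_lit 4) (nat_lit 431) (nat_lit 299) (nat_lit 290)) (XT.lf (nat_lit 0) (nat_lit 47412426605) (nat_lit 152) (nat_lit 48520223856) (nat_lit 0) (nat_lit 47356346104) (nat_lit 53) (nat_lit 5) (nat_lit 55) (nat_lit 4) (nat_lit 53) (nat_lit 4) (nat_lit 432) (nat_lit 299) (nat_lit 289)))))) (XT.nd (nat_lit 624) (nat_lit 1064) (nat_lit 0) (XT.nd (nat_lit 312) (nat_lit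 532) (nat_lit 0) (XT.nd (nat_lit 156) (nat_lit 380) (nat_lit 0) (XT.nd (nat_lit 78) (nat_lit 76) (nat_lit 0) (XT.lf (nat_lit 0) (nat_lit 2827131575) (nat_lit 152) (nat_lit 144082127317) (nat_lit 0) (nat_lit 2770307810) (nat_lit 50) (nat_lit 5) (nat_lit 52) (nat_lit 4) (nat_lit 50) (nat_lit 4) (nat_lit 433) (nat_lit 299) (nat_lit 288)) (XT.lf (nat_lit 0) (nat_lit 61973213922) (nat_lit 76) (nat_lit 47216736195) (nat_lit 76) (nat_lit 47156751537) (nat_lit 49) (nat_lit 4) (nat_lit 50) (nat_lit 5) (nat_lit 50) (nat_lit 4) (nat_lit 434) (nat_lit 299) (nat_lit 287))) (XT.nd (nat_lit 78) (nat_lit 228) (nat_lit 0) (XT.lf (nat_lit 0) (nat_lit 60297660027) (nat_lit 152) (nat_lit 42878566963) (nat_lit 0) (nat_lit 60237744399) (nat_lit 47) (nat_lit 5) (nat_lit 49) (nat_lit 4) (nat_lit 47) (nat_lit 4) (nat_lit 435) (nat_lit 299) (nat_lit 286)) (XT.lf (nat_lit 0) (nat_lit 5594115219) (nat_lit 152) (nat_lit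 159775187847) (nat_lit 0) (nat_lit 5534594707) (nat_lit 44) (nat_lit 5) (nat_lit 46) (nat_lit 4) (nat_lit 44) (nat_lit 4) (nat_lit 436) (nat_lit 299) (nat_lit 285)))) (XT.nd (nat_lit 156) (nat_lit 304) (nat_lit 0) (XT.nd (nat_lit 78) (nat_lit 152) (nat_lit 0) (XT.lf (nat_lit 0) (nat_lit 67216631810) (nat_lit 76) (nat_lit 55786470186) (nat_lit 76) (nat_lit 55724673738) (nat_lit 43) (nat_lit 4) (nat_lit 44) (nat_lit 5) (nat_lit 44) (nat_lit 4) (nat_lit 437) (nat_lit 299) (nat_lit 284)) (XT.lf (nat_lit 0) (nat_lit 62873045229) (nat_lit 152) (nat_lit 61330931675) (nat_lit 0) (nat_lit 62812184471) (nat_lit 41) (nat_lit 5) (nat_lit 43) (nat_lit 4) (nat_lit 41) (nat_lit 4) (nat_lit 438) (nat_lit 299) (nat_lit 283))) (XT.nd (nat_lit 78) (nat_lit 228) (nat_lit 0) (XT.lf (nat_lit 0) (nat_lit 186923466461) (nat_lit 76) (nat_lit 4470894750) (nat_lit 76) (nat_lit 4408175662) (nat_lit 40) (nat_lit 4) (nat_lit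 41) (nat_lit 5) (nat_lit 41) (nat_lit 4) (nat_lit 439) (nat_lit 299) (nat_lit 282)) (XT.lf (nat_lit 0) (nat_lit 45477073946) (nat_lit 76) (nat_lit 79780560871) (nat_lit 76) (nat_lit 79719189667) (nat_lit 37) (nat_lit 4) (nat_lit 38) (nat_lit 5) (nat_lit 38) (nat_lit 4) (nat_lit 440) (nat_lit 299) (nat_lit 281))))) (XT.nd (nat_lit 312) (nat_lit 456) (nat_lit 0) (XT.nd (nat_lit 156) (nat_lit 380) (nat_lit 0) (XT.nd (nat_lit 78) (nat_lit 76) (nat_lit 0) (XT.lf (nat_lit 0) (nat_lit 51523740162) (nat_lit 152) (nat_lit 111711041104) (nat_lit 0) (nat_lit 51463846299) (nat_lit 35) (nat_lit 5) (nat_lit 37) (nat_lit 4) (nat_lit 35) (nat_lit 4) (nat_lit 441) (nat_lit 299) (nat_lit 280)) (XT.lf (nat_lit 0) (nat_lit 162717012272) (nat_lit 76) (nat_lit 31153588750) (nat_lit 76) (nat_lit 31092356834) (nat_lit 34) (nat_lit 4) (nat_lit 35) (nat_lit 5) (nat_lit 35) (nat_lit 4) (nat_lit 442) (nat_lit 299) (nat_lit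 279))) (XT.nd (nat_lit 78) (nat_lit 228) (nat_lit 0) (XT.lf (nat_lit 0) (nat_lit 112041009831) (nat_lit 152) (nat_lit 11736087907) (nat_lit 0) (nat_lit 111981513780) (nat_lit 32) (nat_lit 5) (nat_lit 34) (nat_lit 4) (nat_lit 32) (nat_lit 4) (nat_lit 443) (nat_lit 299) (nat_lit 278)) (XT.lf (nat_lit 0) (nat_lit 21640442421) (nat_lit 152) (nat_lit 203951194539) (nat_lit 0) (nat_lit 21582739004) (nat_lit 29) (nat_lit 5) (nat_lit 31) (nat_lit 4) (nat_lit 29) (nat_lit 4) (nat_lit 444) (nat_lit 299) (nat_lit 277)))) (XT.nd (nat_lit 156) (nat_lit 228) (nat_lit 0) (XT.nd (nat_lit 78) (nat_lit 152) (nat_lit 0) (XT.lf (nat_lit 0) (nat_lit 99511622813) (nat_lit 76) (nat_lit 79847848777) (nat_lit 76) (nat_lit 79789181923) (nat_lit 28) (nat_lit 4) (nat_lit 29) (nat_lit 5) (nat_lit 29) (nat_lit 4) (nat_lit 445) (nat_lit 299) (nat_lit 276)) (XT.lf (nat_lit 0) (nat_lit 79377823188) (nat_lit 152) (nat_lit 113109018033)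 (nat_lit 0) (nat_lit 79321100402) (nat_lit 26) (nat_lit 5) (nat_lit 28) (nat_lit 4) (nat_lit 26) (nat_lit 4) (nat_lit 446) (nat_lit 299) (nat_lit 275))) (XT.nd (nat_lit 78) (nat_lit 152) (nat_lit 0) (XT.lf (nat_lit 0) (nat_lit 220932887003) (nat_lit 76) (nat_lit 32154482013) (nat_lit 76) (nat_lit 32096972567) (nat_lit 25) (nat_lit 4) (nat_lit 26) (nat_lit 5) (nat_lit 26) (nat_lit 4) (nat_lit 447) (nat_lit 299) (nat_lit 274)) (XT.nd (nat_lit 50934) (nat_lit 0) (nat_lit 4332) (XT.lf (nat_lit 0) (nat_lit 142357649982) (nat_lit 152) (nat_lit 14570413060) (nat_lit 0) (nat_lit 142302185379) (nat_lit 23) (nat_lit 5) (nat_lit 25) (nat_lit 4) (nat_lit 23) (nat_lit 4) (nat_lit 448) (nat_lit 299) (nat_lit 273)) (XT.lf (nat_lit 0) (nat_lit 15884978264) (nat_lit 152) (nat_lit 12305640418) (nat_lit 0) (nat_lit 15884978264) (nat_lit 80) (nat_lit 5) (nat_lit 82) (nat_lit 4) (nat_lit 80) (nat_lit 4) (nat_lit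 420) (nat_lit 300) (nat_lit 300))))))))
noncomputable def xc6 : XT := (XT.nd (nat_lit 1248) (nat_lit 1748) (nat_lit 0) (XT.nd (nat_lit 624) (nat_lit 1216) (nat_lit 0) (XT.nd (nat_lit 312) (nat_lit 684) (nat_lit 0) (XT.nd (nat_lit 156) (nat_lit 380) (nat_lit 0) (XT.nd (nat_lit 78) (nat_lit 76) (nat_lit 0) (XT.lf (nat_lit 0) (nat_lit 13279680771) (nat_lit 152) (nat_lit 65092018591) (nat_lit 0) (nat_lit 13267332718) (nat_lit 77) (nat_lit 5) (nat_lit 79) (nat_lit 4) (nat_lit 77) (nat_lit 4) (nat_lit 421) (nat_lit 300) (nat_lit 299)) (XT.lf (nat_lit 0) (nat_lit 79717493027) (nat_lit 76) (nat_lit 7808294815) (nat_lit 76) (nat_lit 7784513379) (nat_lit 76) (nat_lit 4) (nat_lit 77) (nat_lit 5) (nat_lit 77) (nat_lit 4) (nat_lit 422) (nat_lit 300) (nat_lit 298))) (XT.nd (nat_lit 78) (nat_lit 152) (nat_lit 0) (XT.lf (nat_lit 0) (nat_lit 35938156254) (nat_lit 76) (nat_lit 31625273728) (nat_lit 76) (nat_lit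 31592542393) (nat_lit 73) (nat_lit 4) (nat_lit 74) (nat_lit 5) (nat_lit 74) (nat_lit 4) (nat_lit 423) (nat_lit 300) (nat_lit 297)) (XT.lf (nat_lit 0) (nat_lit 44768624769) (nat_lit 152) (nat_lit 13727468921) (nat_lit 0) (nat_lit 44728561111) (nat_lit 71) (nat_lit 5) (nat_lit 73) (nat_lit 4) (nat_lit 71) (nat_lit 4) (nat_lit 424) (nat_lit 300) (nat_lit 296)))) (XT.nd (nat_lit 156) (nat_lit 380) (nat_lit 0) (XT.nd (nat_lit 78) (nat_lit 76) (nat_lit 0) (XT.lf (nat_lit 0) (nat_lit 19245676559) (nat_lit 152) (nat_lit 69068100337) (nat_lit 0) (nat_lit 19199680342) (nat_lit 68) (nat_lit 5) (nat_lit 70) (nat_lit 4) (nat_lit 68) (nat_lit 4) (nat_lit 425) (nat_lit 300) (nat_lit 295)) (XT.lf (nat_lit 0) (nat_lit 92438266924) (nat_lit 76) (nat_lit 9827463357) (nat_lit 76) (nat_lit 9774207554) (nat_lit 67) (nat_lit 4) (nat_lit 68) (nat_lit 5) (nat_lit 68) (nat_lit 4) (nat_lit 426) (nat_lit 300) (nat_lit 294)))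 (XT.nd (nat_lit 78) (nat_lit 152) (nat_lit 0) (XT.lf (nat_lit 0) (nat_lit 31753797036) (nat_lit 76) (nat_lit 42544168503) (nat_lit 76) (nat_lit 42487046940) (nat_lit 64) (nat_lit 4) (nat_lit 65) (nat_lit 5) (nat_lit 65) (nat_lit 4) (nat_lit 427) (nat_lit 300) (nat_lit 293)) (XT.lf (nat_lit 0) (nat_lit 42772751920) (nat_lit 152) (nat_lit 36318148234) (nat_lit 0) (nat_lit 42712705149) (nat_lit 62) (nat_lit 5) (nat_lit 64) (nat_lit 4) (nat_lit 62) (nat_lit 4) (nat_lit 428) (nat_lit 300) (nat_lit 292))))) (XT.nd (nat_lit 312) (nat_lit 532) (nat_lit 0) (XT.nd (nat_lit 156) (nat_lit 380) (nat_lit 0) (XT.nd (nat_lit 78) (nat_lit 76) (nat_lit 0) (XT.lf (nat_lit 0) (nat_lit 7284282736) (nat_lit 152) (nat_lit 112612338263) (nat_lit 0) (nat_lit 7222117131) (nat_lit 59) (nat_lit 5) (nat_lit 61) (nat_lit 4) (nat_lit 59) (nat_lit 4) (nat_lit 429) (nat_lit 300) (nat_lit 291)) (XT.lf (nat_lit 0) (nat_lit 67364661262)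 (nat_lit 76) (nat_lit 32690230050) (nat_lit 76) (nat_lit 32623454998) (nat_lit 58) (nat_lit 4) (nat_lit 59) (nat_lit 5) (nat_lit 59) (nat_lit 4) (nat_lit 430) (nat_lit 300) (nat_lit 290))) (XT.nd (nat_lit 78) (nat_lit 228) (nat_lit 0) (XT.lf (nat_lit 0) (nat_lit 61012397381) (nat_lit 152) (nat_lit 16606607874) (nat_lit 0) (nat_lit 60944737325) (nat_lit 56) (nat_lit 5) (nat_lit 58) (nat_lit 4) (nat_lit 56) (nat_lit 4) (nat_lit 431) (nat_lit 300) (nat_lit 289)) (XT.lf (nat_lit 0) (nat_lit 17582720260) (nat_lit 152) (nat_lit 109683481846) (nat_lit 0) (nat_lit 17514697659) (nat_lit 53) (nat_lit 5) (nat_lit 55) (nat_lit 4) (nat_lit 53) (nat_lit 4) (nat_lit 432) (nat_lit 300) (nat_lit 288)))) (XT.nd (nat_lit 156) (nat_lit 304) (nat_lit 0) (XT.nd (nat_lit 78) (nat_lit 152) (nat_lit 0) (XT.lf (nat_lit 0) (nat_lit 88495169411) (nat_lit 76) (nat_lit 31445756578) (nat_lit 76) (nat_lit 31374415039) (nat_lit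 52) (nat_lit 4) (nat_lit 53) (nat_lit 5) (nat_lit 53) (nat_lit 4) (nat_lit 433) (nat_lit 300) (nat_lit 287)) (XT.lf (nat_lit 0) (nat_lit 71809863878) (nat_lit 152) (nat_lit 14667247268) (nat_lit 0) (nat_lit 71738992804) (nat_lit 50) (nat_lit 5) (nat_lit 52) (nat_lit 4) (nat_lit 50) (nat_lit 4) (nat_lit 434) (nat_lit 300) (nat_lit 286))) (XT.nd (nat_lit 78) (nat_lit 76) (nat_lit 0) (XT.lf (nat_lit 0) (nat_lit 18422285579) (nat_lit 152) (nat_lit 128733625158) (nat_lit 0) (nat_lit 18352208407) (nat_lit 47) (nat_lit 5) (nat_lit 49) (nat_lit 4) (nat_lit 47) (nat_lit 4) (nat_lit 435) (nat_lit 300) (nat_lit 285)) (XT.lf (nat_lit 0) (nat_lit 89785361696) (nat_lit 76) (nat_lit 41727317007) (nat_lit 76) (nat_lit 41654850104) (nat_lit 46) (nat_lit 4) (nat_lit 47) (nat_lit 5) (nat_lit 47) (nat_lit 4) (nat_lit 436) (nat_lit 300) (nat_lit 284)))))) (XT.nd (nat_lit 624) (nat_lit 608) (nat_lit 0) (XT.nd (nat_lit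 312) (nat_lit 532) (nat_lit 0) (XT.nd (nat_lit 156) (nat_lit 228) (nat_lit 0) (XT.nd (nat_lit 78) (nat_lit 228) (nat_lit 0) (XT.lf (nat_lit 0) (nat_lit 72384641564) (nat_lit 152) (nat_lit 36560900056) (nat_lit 0) (nat_lit 72313518118) (nat_lit 44) (nat_lit 5) (nat_lit 46) (nat_lit 4) (nat_lit 44) (nat_lit 4) (nat_lit 437) (nat_lit 300) (nat_lit 283)) (XT.lf (nat_lit 0) (nat_lit 6553446598) (nat_lit 152) (nat_lit 176795186849) (nat_lit 0) (nat_lit 6483851652) (nat_lit 41) (nat_lit 5) (nat_lit 43) (nat_lit 4) (nat_lit 41) (nat_lit 4) (nat_lit 438) (nat_lit 300) (nat_lit 282))) (XT.nd (nat_lit 78) (nat_lit 152) (nat_lit 0) (XT.lf (nat_lit 0) (nat_lit 64368979906) (nat_lit 76) (nat_lit 67247066073) (nat_lit 76) (nat_lit 67175750450) (nat_lit 40) (nat_lit 4) (nat_lit 41) (nat_lit 5) (nat_lit 41) (nat_lit 4) (nat_lit 439) (nat_lit 300) (nat_lit 281)) (XT.lf (nat_lit 0) (nat_lit 59173298642) (nat_lit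 152) (nat_lit 90004208423) (nat_lit 0) (nat_lit 59103861650) (nat_lit 38) (nat_lit 5) (nat_lit 40) (nat_lit 4) (nat_lit 38) (nat_lit 4) (nat_lit 440) (nat_lit 300) (nat_lit 280)))) (XT.nd (nat_lit 156) (nat_lit 228) (nat_lit 0) (XT.nd (nat_lit 78) (nat_lit 228) (nat_lit 0) (XT.lf (nat_lit 0) (nat_lit 174636860709) (nat_lit 76) (nat_lit 21873668744) (nat_lit 76) (nat_lit 21802826796) (nat_lit 37) (nat_lit 4) (nat_lit 38) (nat_lit 5) (nat_lit 38) (nat_lit 4) (nat_lit 441) (nat_lit 300) (nat_lit 279)) (XT.lf (nat_lit 0) (nat_lit 3499779716) (nat_lit 76) (nat_lit 112707677315) (nat_lit 76) (nat_lit 112638969855) (nat_lit 34) (nat_lit 4) (nat_lit 35) (nat_lit 5) (nat_lit 35) (nat_lit 4) (nat_lit 442) (nat_lit 300) (nat_lit 278))) (XT.nd (nat_lit 78) (nat_lit 76) (nat_lit 0) (XT.lf (nat_lit 0) (nat_lit 27635209560) (nat_lit 152) (nat_lit 184775307606) (nat_lit 0) (nat_lit 27568681347) (nat_lit 32)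 (nat_lit 5) (nat_lit 34) (nat_lit 4) (nat_lit 32) (nat_lit 4) (nat_lit 443) (nat_lit 300) (nat_lit 277)) (XT.lf (nat_lit 0) (nat_lit 108023133909) (nat_lit 76) (nat_lit 71859884970) (nat_lit 76) (nat_lit 71792345148) (nat_lit 31) (nat_lit 4) (nat_lit 32) (nat_lit 5) (nat_lit 32) (nat_lit 4) (nat_lit 444) (nat_lit 300) (nat_lit 276))))) (XT.nd (nat_lit 51012) (nat_lit 0) (nat_lit 4028) (XT.nd (nat_lit 156) (nat_lit 380) (nat_lit 0) (XT.nd (nat_lit 78) (nat_lit 76) (nat_lit 0) (XT.lf (nat_lit 0) (nat_lit 81755216397) (nat_lit 152) (nat_lit 100583932031) (nat_lit 0) (nat_lit 81690000685) (nat_lit 29) (nat_lit 5) (nat_lit 31) (nat_lit 4) (nat_lit 29) (nat_lit 4) (nat_lit 445) (nat_lit 300) (nat_lit 275)) (XT.lf (nat_lit 0) (nat_lit 221954617819) (nat_lit 76) (nat_lit 27599829392) (nat_lit 76) (nat_lit 27533787689) (nat_lit 28) (nat_lit 4) (nat_lit 29) (nat_lit 5) (nat_lit 29) (nat_lit 4) (nat_lit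 446) (nat_lit 300) (nat_lit 274))) (XT.nd (nat_lit 78) (nat_lit 228) (nat_lit 0) (XT.lf (nat_lit 0) (nat_lit 140912984525) (nat_lit 152) (nat_lit 9030986377) (nat_lit 0) (nat_lit 140849359277) (nat_lit 26) (nat_lit 5) (nat_lit 28) (nat_lit 4) (nat_lit 26) (nat_lit 4) (nat_lit 447) (nat_lit 300) (nat_lit 273)) (XT.lf (nat_lit 0) (nat_lit 21099521316) (nat_lit 152) (nat_lit 263155606557) (nat_lit 0) (nat_lit 21038283524) (nat_lit 23) (nat_lit 5) (nat_lit 25) (nat_lit 4) (nat_lit 23) (nat_lit 4) (nat_lit 448) (nat_lit 300) (nat_lit 272)))) (XT.nd (nat_lit 156) (nat_lit 456) (nat_lit 0) (XT.nd (nat_lit 78) (nat_lit 228) (nat_lit 0) (XT.lf (nat_lit 0) (nat_lit 23186373160) (nat_lit 76) (nat_lit 8813210156) (nat_lit 76) (nat_lit 8813210156) (nat_lit 85) (nat_lit 4) (nat_lit 86) (nat_lit 5) (nat_lit 86) (nat_lit 4) (nat_lit 418) (nat_lit 301) (nat_lit 301)) (XT.lf (nat_lit 0) (nat_lit 11181982263) (nat_lit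 76) (nat_lit 36839980383) (nat_lit 76) (nat_lit 36825277556) (nat_lit 82) (nat_lit 4) (nat_lit 83) (nat_lit 5) (nat_lit 83) (nat_lit 4) (nat_lit 419) (nat_lit 301) (nat_lit 300))) (XT.nd (nat_lit 78) (nat_lit 304) (nat_lit 0) (XT.lf (nat_lit 0) (nat_lit 30046997253) (nat_lit 152) (nat_lit 28171015635) (nat_lit 0) (nat_lit 30020029105) (nat_lit 80) (nat_lit 5) (nat_lit 82) (nat_lit 4) (nat_lit 80) (nat_lit 4) (nat_lit 420) (nat_lit 301) (nat_lit 299)) (XT.nd (nat_lit 78) (nat_lit 76) (nat_lit 0) (XT.lf (nat_lit 0) (nat_lit 9604965745) (nat_lit 152) (nat_lit 72650620469) (nat_lit 0) (nat_lit 9567848412) (nat_lit 77) (nat_lit 5) (nat_lit 79) (nat_lit 4) (nat_lit 77) (nat_lit 4) (nat_lit 421) (nat_lit 301) (nat_lit 298)) (XT.lf (nat_lit 0) (nat_lit 68432953168) (nat_lit 76) (nat_lit 13600175795) (nat_lit 76) (nat_lit 13552471997) (nat_lit 76) (nat_lit 4) (nat_lit 77) (nat_lit 5) (nat_lit 77) (nat_lit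 4) (nat_lit 422) (nat_lit 301) (nat_lit 297))))))))
noncomputable def xc7 : XT := (XT.nd (nat_lit 1248) (nat_lit 1368) (nat_lit 0) (XT.nd (nat_lit 624) (nat_lit 1140) (nat_lit 0) (XT.nd (nat_lit 312) (nat_lit 684) (nat_lit 0) (XT.nd (nat_lit 156) (nat_lit 304) (nat_lit 0) (XT.nd (nat_lit 78) (nat_lit 152) (nat_lit 0) (XT.lf (nat_lit 0) (nat_lit 19948337909) (nat_lit 76) (nat_lit 39826239906) (nat_lit 76) (nat_lit 39771472210) (nat_lit 73) (nat_lit 4) (nat_lit 74) (nat_lit 5) (nat_lit 74) (nat_lit 4) (nat_lit 423) (nat_lit 301) (nat_lit 296)) (XT.lf (nat_lit 0) (nat_lit 34744102452) (nat_lit 152) (nat_lit 34298672896) (nat_lit 0) (nat_lit 34683710371) (nat_lit 71) (nat_lit 5) (nat_lit 73) (nat_lit 4) (nat_lit 71) (nat_lit 4) (nat_lit 424) (nat_lit 301) (nat_lit 295))) (XT.nd (nat_lit 78) (nat_lit 76) (nat_lit 0) (XT.lf (nat_lit 0) (nat_lit 6445596856) (nat_lit 152) (nat_lit 95327619366) (nat_lit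 0) (nat_lit 6380821004) (nat_lit 68) (nat_lit 5) (nat_lit 70) (nat_lit 4) (nat_lit 68) (nat_lit 4) (nat_lit 425) (nat_lit 301) (nat_lit 294)) (XT.lf (nat_lit 0) (nat_lit 61886477157) (nat_lit 76) (nat_lit 25485120501) (nat_lit 76) (nat_lit 25413622811) (nat_lit 67) (nat_lit 4) (nat_lit 68) (nat_lit 5) (nat_lit 68) (nat_lit 4) (nat_lit 426) (nat_lit 301) (nat_lit 293)))) (XT.nd (nat_lit 156) (nat_lit 304) (nat_lit 0) (XT.nd (nat_lit 78) (nat_lit 228) (nat_lit 0) (XT.lf (nat_lit 0) (nat_lit 56255098836) (nat_lit 152) (nat_lit 5251527302) (nat_lit 0) (nat_lit 56181078251) (nat_lit 65) (nat_lit 5) (nat_lit 67) (nat_lit 4) (nat_lit 65) (nat_lit 4) (nat_lit 427) (nat_lit 301) (nat_lit 292)) (XT.lf (nat_lit 0) (nat_lit 21740588041) (nat_lit 152) (nat_lit 79450282775) (nat_lit 0) (nat_lit 21664865132) (nat_lit 62) (nat_lit 5) (nat_lit 64) (nat_lit 4) (nat_lit 62) (nat_lit 4) (nat_lit 428) (nat_lit 301)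 (nat_lit 291))) (XT.nd (nat_lit 78) (nat_lit 228) (nat_lit 0) (XT.lf (nat_lit 0) (nat_lit 93551824667) (nat_lit 76) (nat_lit 17418911834) (nat_lit 76) (nat_lit 17338349004) (nat_lit 61) (nat_lit 4) (nat_lit 62) (nat_lit 5) (nat_lit 62) (nat_lit 4) (nat_lit 429) (nat_lit 301) (nat_lit 290)) (XT.lf (nat_lit 0) (nat_lit 11223571890) (nat_lit 76) (nat_lit 61452601207) (nat_lit 76) (nat_lit 61371606695) (nat_lit 58) (nat_lit 4) (nat_lit 59) (nat_lit 5) (nat_lit 59) (nat_lit 4) (nat_lit 430) (nat_lit 301) (nat_lit 289))))) (XT.nd (nat_lit 312) (nat_lit 532) (nat_lit 0) (XT.nd (nat_lit 156) (nat_lit 380) (nat_lit 0) (XT.nd (nat_lit 78) (nat_lit 76) (nat_lit 0) (XT.lf (nat_lit 0) (nat_lit 30166589613) (nat_lit 152) (nat_lit 79854228925) (nat_lit 0) (nat_lit 30085688309) (nat_lit 56) (nat_lit 5) (nat_lit 58) (nat_lit 4) (nat_lit 56) (nat_lit 4) (nat_lit 431) (nat_lit 301) (nat_lit 288)) (XT.lf (nat_lit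 0) (nat_lit 110840624637) (nat_lit 76) (nat_lit 17875727690) (nat_lit 76) (nat_lit 17791341502) (nat_lit 55) (nat_lit 4) (nat_lit 56) (nat_lit 5) (nat_lit 56) (nat_lit 4) (nat_lit 432) (nat_lit 301) (nat_lit 287))) (XT.nd (nat_lit 78) (nat_lit 152) (nat_lit 0) (XT.lf (nat_lit 0) (nat_lit 9689571108) (nat_lit 76) (nat_lit 71815721886) (nat_lit 76) (nat_lit 71732280997) (nat_lit 52) (nat_lit 4) (nat_lit 53) (nat_lit 5) (nat_lit 53) (nat_lit 4) (nat_lit 433) (nat_lit 301) (nat_lit 286)) (XT.lf (nat_lit 0) (nat_lit 29221167392) (nat_lit 152) (nat_lit 101985811281) (nat_lit 0) (nat_lit 29138989923) (nat_lit 50) (nat_lit 5) (nat_lit 52) (nat_lit 4) (nat_lit 50) (nat_lit 4) (nat_lit 434) (nat_lit 301) (nat_lit 285)))) (XT.nd (nat_lit 156) (nat_lit 304) (nat_lit 0) (XT.nd (nat_lit 78) (nat_lit 152) (nat_lit 0) (XT.lf (nat_lit 0) (nat_lit 108465523766) (nat_lit 76) (nat_lit 29730249584) (nat_lit 76) (nat_lit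 29645562897) (nat_lit 49) (nat_lit 4) (nat_lit 50) (nat_lit 5) (nat_lit 50) (nat_lit 4) (nat_lit 435) (nat_lit 301) (nat_lit 284)) (XT.lf (nat_lit 0) (nat_lit 80071443198) (nat_lit 152) (nat_lit 15679980243) (nat_lit 0) (nat_lit 79988576495) (nat_lit 47) (nat_lit 5) (nat_lit 49) (nat_lit 4) (nat_lit 47) (nat_lit 4) (nat_lit 436) (nat_lit 301) (nat_lit 283))) (XT.nd (nat_lit 78) (nat_lit 76) (nat_lit 0) (XT.lf (nat_lit 0) (nat_lit 15701462279) (nat_lit 152) (nat_lit 152771555922) (nat_lit 0) (nat_lit 15620590362) (nat_lit 44) (nat_lit 5) (nat_lit 46) (nat_lit 4) (nat_lit 44) (nat_lit 4) (nat_lit 437) (nat_lit 301) (nat_lit 282)) (XT.lf (nat_lit 0) (nat_lit 79658714091) (nat_lit 76) (nat_lit 56638821460) (nat_lit 76) (nat_lit 56556142833) (nat_lit 43) (nat_lit 4) (nat_lit 44) (nat_lit 5) (nat_lit 44) (nat_lit 4) (nat_lit 438) (nat_lit 301) (nat_lit 281)))))) (XT.nd (nat_lit 624) (nat_lit 304) (nat_lit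 0) (XT.nd (nat_lit 312) (nat_lit 456) (nat_lit 0) (XT.nd (nat_lit 156) (nat_lit 380) (nat_lit 0) (XT.nd (nat_lit 78) (nat_lit 76) (nat_lit 0) (XT.lf (nat_lit 0) (nat_lit 65140849143) (nat_lit 152) (nat_lit 71914564050) (nat_lit 0) (nat_lit 65060514374) (nat_lit 41) (nat_lit 5) (nat_lit 43) (nat_lit 4) (nat_lit 41) (nat_lit 4) (nat_lit 439) (nat_lit 301) (nat_lit 280)) (XT.lf (nat_lit 0) (nat_lit 183370087721) (nat_lit 76) (nat_lit 14314938776) (nat_lit 76) (nat_lit 14233128804) (nat_lit 40) (nat_lit 4) (nat_lit 41) (nat_lit 5) (nat_lit 41) (nat_lit 4) (nat_lit 440) (nat_lit 301) (nat_lit 279))) (XT.nd (nat_lit 78) (nat_lit 152) (nat_lit 0) (XT.lf (nat_lit 0) (nat_lit 15805156661) (nat_lit 76) (nat_lit 103230749750) (nat_lit 76) (nat_lit 103151534607) (nat_lit 37) (nat_lit 4) (nat_lit 38) (nat_lit 5) (nat_lit 38) (nat_lit 4) (nat_lit 441) (nat_lit 301) (nat_lit 278)) (XT.lf (nat_lit 0) (nat_lit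 32089644251) (nat_lit 152) (nat_lit 168949955959) (nat_lit 0) (nat_lit 32013054093) (nat_lit 35) (nat_lit 5) (nat_lit 37) (nat_lit 4) (nat_lit 35) (nat_lit 4) (nat_lit 442) (nat_lit 301) (nat_lit 277)))) (XT.nd (nat_lit 156) (nat_lit 228) (nat_lit 0) (XT.nd (nat_lit 78) (nat_lit 152) (nat_lit 0) (XT.lf (nat_lit 0) (nat_lit 113636474501) (nat_lit 76) (nat_lit 65457901385) (nat_lit 76) (nat_lit 65380249038) (nat_lit 34) (nat_lit 4) (nat_lit 35) (nat_lit 5) (nat_lit 35) (nat_lit 4) (nat_lit 443) (nat_lit 301) (nat_lit 276)) (XT.lf (nat_lit 0) (nat_lit 82801752628) (nat_lit 152) (nat_lit 91001134115) (nat_lit 0) (nat_lit 82726861336) (nat_lit 32) (nat_lit 5) (nat_lit 34) (nat_lit 4) (nat_lit 32) (nat_lit 4) (nat_lit 444) (nat_lit 301) (nat_lit 275))) (XT.nd (nat_lit 78) (nat_lit 152) (nat_lit 0) (XT.lf (nat_lit 0) (nat_lit 220503462643) (nat_lit 76) (nat_lit 24424487306) (nat_lit 76) (nat_lit 24348728723)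 (nat_lit 31) (nat_lit 4) (nat_lit 32) (nat_lit 5) (nat_lit 32) (nat_lit 4) (nat_lit 445) (nat_lit 301) (nat_lit 274)) (XT.lf (nat_lit 0) (nat_lit 138350107801) (nat_lit 152) (nat_lit 6021457574) (nat_lit 0) (nat_lit 138277191962) (nat_lit 29) (nat_lit 5) (nat_lit 31) (nat_lit 4) (nat_lit 29) (nat_lit 4) (nat_lit 446) (nat_lit 301) (nat_lit 273))))) (XT.nd (nat_lit 50856) (nat_lit 0) (nat_lit 3876) (XT.nd (nat_lit 50700) (nat_lit 0) (nat_lit 4788) (XT.nd (nat_lit 78) (nat_lit 76) (nat_lit 0) (XT.lf (nat_lit 0) (nat_lit 20870905477) (nat_lit 152) (nat_lit 255124032186) (nat_lit 0) (nat_lit 20800787388) (nat_lit 26) (nat_lit 5) (nat_lit 28) (nat_lit 4) (nat_lit 26) (nat_lit 4) (nat_lit 447) (nat_lit 301) (nat_lit 272)) (XT.lf (nat_lit 0) (nat_lit 90118858018) (nat_lit 76) (nat_lit 110786360685) (nat_lit 76) (nat_lit 110715618120) (nat_lit 25) (nat_lit 4) (nat_lit 26) (nat_lit 5) (nat_lit 26) (nat_lit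 4) (nat_lit 448) (nat_lit 301) (nat_lit 271))) (XT.nd (nat_lit 78) (nat_lit 76) (nat_lit 0) (XT.lf (nat_lit 0) (nat_lit 7817791568) (nat_lit 152) (nat_lit 22154967709) (nat_lit 0) (nat_lit 7817791568) (nat_lit 89) (nat_lit 5) (nat_lit 91) (nat_lit 4) (nat_lit 89) (nat_lit 4) (nat_lit 416) (nat_lit 302) (nat_lit 302)) (XT.lf (nat_lit 0) (nat_lit 76987412456) (nat_lit 76) (nat_lit 805702213) (nat_lit 76) (nat_lit 788195557) (nat_lit 88) (nat_lit 4) (nat_lit 89) (nat_lit 5) (nat_lit 89) (nat_lit 4) (nat_lit 417) (nat_lit 302) (nat_lit 301)))) (XT.nd (nat_lit 156) (nat_lit 456) (nat_lit 0) (XT.nd (nat_lit 78) (nat_lit 228) (nat_lit 0) (XT.lf (nat_lit 0) (nat_lit 43105382191) (nat_lit 76) (nat_lit 19316018831) (nat_lit 76) (nat_lit 19283907857) (nat_lit 85) (nat_lit 4) (nat_lit 86) (nat_lit 5) (nat_lit 86) (nat_lit 4) (nat_lit 418) (nat_lit 302) (nat_lit 300)) (XT.lf (nat_lit 0) (nat_lit 4244158148)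 (nat_lit 76) (nat_lit 40408274068) (nat_lit 76) (nat_lit 40364078460) (nat_lit 82) (nat_lit 4) (nat_lit 83) (nat_lit 5) (nat_lit 83) (nat_lit 4) (nat_lit 419) (nat_lit 302) (nat_lit 299))) (XT.nd (nat_lit 78) (nat_lit 304) (nat_lit 0) (XT.lf (nat_lit 0) (nat_lit 24840941148) (nat_lit 152) (nat_lit 38871314755) (nat_lit 0) (nat_lit 24786845041) (nat_lit 80) (nat_lit 5) (nat_lit 82) (nat_lit 4) (nat_lit 80) (nat_lit 4) (nat_lit 420) (nat_lit 302) (nat_lit 298)) (XT.nd (nat_lit 78) (nat_lit 76) (nat_lit 0) (XT.lf (nat_lit 0) (nat_lit 2221411551) (nat_lit 152) (nat_lit 87812615940) (nat_lit 0) (nat_lit 2159304983) (nat_lit 77) (nat_lit 5) (nat_lit 79) (nat_lit 4) (nat_lit 77) (nat_lit 4) (nat_lit 421) (nat_lit 302) (nat_lit 297)) (XT.lf (nat_lit 0) (nat_lit 49551099888) (nat_lit 76) (nat_lit 23283527568) (nat_lit 76) (nat_lit 23211618718) (nat_lit 76) (nat_lit 4) (nat_lit 77) (nat_lit 5) (nat_lit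 77) (nat_lit 4) (nat_lit 422) (nat_lit 302) (nat_lit 296))))))))
noncomputable def xc8 : XT := (XT.nd (nat_lit 1248) (nat_lit 1368) (nat_lit 0) (XT.nd (nat_lit 624) (nat_lit 1140) (nat_lit 0) (XT.nd (nat_lit 312) (nat_lit 608) (nat_lit 0) (XT.nd (nat_lit 156) (nat_lit 304) (nat_lit 0) (XT.nd (nat_lit 78) (nat_lit 228) (nat_lit 0) (XT.lf (nat_lit 0) (nat_lit 48093077561) (nat_lit 152) (nat_lit 4021784369) (nat_lit 0) (nat_lit 48015948954) (nat_lit 74) (nat_lit 5) (nat_lit 76) (nat_lit 4) (nat_lit 74) (nat_lit 4) (nat_lit 423) (nat_lit 302) (nat_lit 295)) (XT.lf (nat_lit 0) (nat_lit 20622731981) (nat_lit 152) (nat_lit 63268821848) (nat_lit 0) (nat_lit 20541653600) (nat_lit 71) (nat_lit 5) (nat_lit 73) (nat_lit 4) (nat_lit 71) (nat_lit 4) (nat_lit 424) (nat_lit 302) (nat_lit 294))) (XT.nd (nat_lit 78) (nat_lit 228) (nat_lit 0) (XT.lf (nat_lit 0) (nat_lit 87760085492) (nat_lit 76) (nat_lit 10654064709)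 (nat_lit 76) (nat_lit 10565928398) (nat_lit 70) (nat_lit 4) (nat_lit 71) (nat_lit 5) (nat_lit 71) (nat_lit 4) (nat_lit 425) (nat_lit 302) (nat_lit 293)) (XT.lf (nat_lit 0) (nat_lit 22296149866) (nat_lit 76) (nat_lit 45772501631) (nat_lit 76) (nat_lit 45682338363) (nat_lit 67) (nat_lit 4) (nat_lit 68) (nat_lit 5) (nat_lit 68) (nat_lit 4) (nat_lit 426) (nat_lit 302) (nat_lit 292)))) (XT.nd (nat_lit 156) (nat_lit 380) (nat_lit 0) (XT.nd (nat_lit 78) (nat_lit 76) (nat_lit 0) (XT.lf (nat_lit 0) (nat_lit 34125069274) (nat_lit 152) (nat_lit 50636018027) (nat_lit 0) (nat_lit 34033711026) (nat_lit 65) (nat_lit 5) (nat_lit 67) (nat_lit 4) (nat_lit 65) (nat_lit 4) (nat_lit 427) (nat_lit 302) (nat_lit 291)) (XT.lf (nat_lit 0) (nat_lit 115747618581) (nat_lit 76) (nat_lit 4244847186) (nat_lit 76) (nat_lit 4148407021) (nat_lit 64) (nat_lit 4) (nat_lit 65) (nat_lit 5) (nat_lit 65) (nat_lit 4) (nat_lit 428) (nat_lit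 302) (nat_lit 290))) (XT.nd (nat_lit 78) (nat_lit 152) (nat_lit 0) (XT.lf (nat_lit 0) (nat_lit 35497600743) (nat_lit 76) (nat_lit 47161968283) (nat_lit 76) (nat_lit 47065639100) (nat_lit 61) (nat_lit 4) (nat_lit 62) (nat_lit 5) (nat_lit 62) (nat_lit 4) (nat_lit 429) (nat_lit 302) (nat_lit 289)) (XT.lf (nat_lit 0) (nat_lit 40811043057) (nat_lit 152) (nat_lit 54115181496) (nat_lit 0) (nat_lit 40715349119) (nat_lit 59) (nat_lit 5) (nat_lit 61) (nat_lit 4) (nat_lit 59) (nat_lit 4) (nat_lit 430) (nat_lit 302) (nat_lit 288))))) (XT.nd (nat_lit 312) (nat_lit 608) (nat_lit 0) (XT.nd (nat_lit 156) (nat_lit 228) (nat_lit 0) (XT.nd (nat_lit 78) (nat_lit 228) (nat_lit 0) (XT.lf (nat_lit 0) (nat_lit 129462204802) (nat_lit 76) (nat_lit 6273245633) (nat_lit 76) (nat_lit 6173892567) (nat_lit 58) (nat_lit 4) (nat_lit 59) (nat_lit 5) (nat_lit 59) (nat_lit 4) (nat_lit 431) (nat_lit 302) (nat_lit 287)) (XT.lf (nat_lit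 0) (nat_lit 30691769331) (nat_lit 76) (nat_lit 58934397146) (nat_lit 76) (nat_lit 58836548434) (nat_lit 55) (nat_lit 4) (nat_lit 56) (nat_lit 5) (nat_lit 56) (nat_lit 4) (nat_lit 432) (nat_lit 302) (nat_lit 286))) (XT.nd (nat_lit 78) (nat_lit 76) (nat_lit 0) (XT.lf (nat_lit 0) (nat_lit 38212508268) (nat_lit 152) (nat_lit 79073718812) (nat_lit 0) (nat_lit 38116473565) (nat_lit 53) (nat_lit 5) (nat_lit 55) (nat_lit 4) (nat_lit 53) (nat_lit 4) (nat_lit 433) (nat_lit 302) (nat_lit 285)) (XT.lf (nat_lit 0) (nat_lit 123688753650) (nat_lit 76) (nat_lit 19572362820) (nat_lit 76) (nat_lit 19473693438) (nat_lit 52) (nat_lit 4) (nat_lit 53) (nat_lit 5) (nat_lit 53) (nat_lit 4) (nat_lit 434) (nat_lit 302) (nat_lit 284)))) (XT.nd (nat_lit 156) (nat_lit 228) (nat_lit 0) (XT.nd (nat_lit 78) (nat_lit 152) (nat_lit 0) (XT.lf (nat_lit 0) (nat_lit 1796696620) (nat_lit 76) (nat_lit 84371391153) (nat_lit 76) (nat_lit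 84275096962) (nat_lit 49) (nat_lit 4) (nat_lit 50) (nat_lit 5) (nat_lit 50) (nat_lit 4) (nat_lit 435) (nat_lit 302) (nat_lit 283)) (XT.lf (nat_lit 0) (nat_lit 23172932070) (nat_lit 152) (nat_lit 132333261018) (nat_lit 0) (nat_lit 23079174507) (nat_lit 47) (nat_lit 5) (nat_lit 49) (nat_lit 4) (nat_lit 47) (nat_lit 4) (nat_lit 436) (nat_lit 302) (nat_lit 282))) (XT.nd (nat_lit 78) (nat_lit 152) (nat_lit 0) (XT.lf (nat_lit 0) (nat_lit 91757169091) (nat_lit 76) (nat_lit 47743260940) (nat_lit 76) (nat_lit 47647606331) (nat_lit 46) (nat_lit 4) (nat_lit 47) (nat_lit 5) (nat_lit 47) (nat_lit 4) (nat_lit 437) (nat_lit 302) (nat_lit 281)) (XT.lf (nat_lit 0) (nat_lit 69622789346) (nat_lit 152) (nat_lit 57035030560) (nat_lit 0) (nat_lit 69530016838) (nat_lit 44) (nat_lit 5) (nat_lit 46) (nat_lit 4) (nat_lit 44) (nat_lit 4) (nat_lit 438) (nat_lit 302) (nat_lit 280)))))) (XT.nd (nat_lit 624) (nat_lit 228)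 (nat_lit 0) (XT.nd (nat_lit 312) (nat_lit 608) (nat_lit 0) (XT.nd (nat_lit 156) (nat_lit 228) (nat_lit 0) (XT.nd (nat_lit 78) (nat_lit 228) (nat_lit 0) (XT.lf (nat_lit 0) (nat_lit 189297927079) (nat_lit 76) (nat_lit 8279774446) (nat_lit 76) (nat_lit 8185452974) (nat_lit 43) (nat_lit 4) (nat_lit 44) (nat_lit 5) (nat_lit 44) (nat_lit 4) (nat_lit 439) (nat_lit 302) (nat_lit 279)) (XT.lf (nat_lit 0) (nat_lit 25182363295) (nat_lit 76) (nat_lit 95342693691) (nat_lit 76) (nat_lit 95251497790) (nat_lit 40) (nat_lit 4) (nat_lit 41) (nat_lit 5) (nat_lit 41) (nat_lit 4) (nat_lit 440) (nat_lit 302) (nat_lit 278))) (XT.nd (nat_lit 78) (nat_lit 76) (nat_lit 0) (XT.lf (nat_lit 0) (nat_lit 35190045763) (nat_lit 152) (nat_lit 156088082190) (nat_lit 0) (nat_lit 35101988001) (nat_lit 38) (nat_lit 5) (nat_lit 40) (nat_lit 4) (nat_lit 38) (nat_lit 4) (nat_lit 441) (nat_lit 302) (nat_lit 277)) (XT.lf (nat_lit 0) (nat_lit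 116712678768) (nat_lit 76) (nat_lit 60454261268) (nat_lit 76) (nat_lit 60365088208) (nat_lit 37) (nat_lit 4) (nat_lit 38) (nat_lit 5) (nat_lit 38) (nat_lit 4) (nat_lit 442) (nat_lit 302) (nat_lit 276)))) (XT.nd (nat_lit 156) (nat_lit 380) (nat_lit 0) (XT.nd (nat_lit 78) (nat_lit 76) (nat_lit 0) (XT.lf (nat_lit 0) (nat_lit 82689363141) (nat_lit 152) (nat_lit 84002423231) (nat_lit 0) (nat_lit 82603452908) (nat_lit 35) (nat_lit 5) (nat_lit 37) (nat_lit 4) (nat_lit 35) (nat_lit 4) (nat_lit 443) (nat_lit 302) (nat_lit 275)) (XT.lf (nat_lit 0) (nat_lit 216911816678) (nat_lit 76) (nat_lit 22455172972) (nat_lit 76) (nat_lit 22368352083) (nat_lit 34) (nat_lit 4) (nat_lit 35) (nat_lit 5) (nat_lit 35) (nat_lit 4) (nat_lit 444) (nat_lit 302) (nat_lit 274))) (XT.nd (nat_lit 78) (nat_lit 228) (nat_lit 0) (XT.lf (nat_lit 0) (nat_lit 134826892754) (nat_lit 152) (nat_lit 5211782030) (nat_lit 0) (nat_lit 134743403145)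 (nat_lit 32) (nat_lit 5) (nat_lit 34) (nat_lit 4) (nat_lit 32) (nat_lit 4) (nat_lit 445) (nat_lit 302) (nat_lit 273)) (XT.lf (nat_lit 0) (nat_lit 19616397275) (nat_lit 152) (nat_lit 249433200285) (nat_lit 0) (nat_lit 19536175207) (nat_lit 29) (nat_lit 5) (nat_lit 31) (nat_lit 4) (nat_lit 29) (nat_lit 4) (nat_lit 446) (nat_lit 302) (nat_lit 272))))) (XT.nd (nat_lit 50700) (nat_lit 0) (nat_lit 4332) (XT.nd (nat_lit 50544) (nat_lit 0) (nat_lit 5016) (XT.nd (nat_lit 78) (nat_lit 152) (nat_lit 0) (XT.lf (nat_lit 0) (nat_lit 84161355870) (nat_lit 76) (nat_lit 109484398951) (nat_lit 76) (nat_lit 109403521183) (nat_lit 28) (nat_lit 4) (nat_lit 29) (nat_lit 5) (nat_lit 29) (nat_lit 4) (nat_lit 447) (nat_lit 302) (nat_lit 271)) (XT.lf (nat_lit 0) (nat_lit 66348158919) (nat_lit 152) (nat_lit 185730290830) (nat_lit 0) (nat_lit 66270554256) (nat_lit 26) (nat_lit 5) (nat_lit 28) (nat_lit 4) (nat_lit 26) (nat_lit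 4) (nat_lit 448) (nat_lit 302) (nat_lit 270))) (XT.nd (nat_lit 78) (nat_lit 152) (nat_lit 0) (XT.lf (nat_lit 0) (nat_lit 9013049372) (nat_lit 76) (nat_lit 12989004331) (nat_lit 76) (nat_lit 12989004331) (nat_lit 94) (nat_lit 4) (nat_lit 95) (nat_lit 5) (nat_lit 95) (nat_lit 4) (nat_lit 414) (nat_lit 303) (nat_lit 303)) (XT.lf (nat_lit 0) (nat_lit 29969925808) (nat_lit 152) (nat_lit 12825106084) (nat_lit 0) (nat_lit 29950073260) (nat_lit 92) (nat_lit 5) (nat_lit 94) (nat_lit 4) (nat_lit 92) (nat_lit 4) (nat_lit 415) (nat_lit 303) (nat_lit 302)))) (XT.nd (nat_lit 156) (nat_lit 380) (nat_lit 0) (XT.nd (nat_lit 78) (nat_lit 76) (nat_lit 0) (XT.lf (nat_lit 0) (nat_lit 14142500381) (nat_lit 152) (nat_lit 47408114273) (nat_lit 0) (nat_lit 14106086537) (nat_lit 89) (nat_lit 5) (nat_lit 91) (nat_lit 4) (nat_lit 89) (nat_lit 4) (nat_lit 416) (nat_lit 303) (nat_lit 301)) (XT.lf (nat_lit 0) (nat_lit 70823258041)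 (nat_lit 76) (nat_lit 3980543456) (nat_lit 76) (nat_lit 3927919745) (nat_lit 88) (nat_lit 4) (nat_lit 89) (nat_lit 5) (nat_lit 89) (nat_lit 4) (nat_lit 417) (nat_lit 303) (nat_lit 300))) (XT.nd (nat_lit 78) (nat_lit 152) (nat_lit 0) (XT.lf (nat_lit 0) (nat_lit 33283927641) (nat_lit 76) (nat_lit 24362715846) (nat_lit 76) (nat_lit 24298303611) (nat_lit 85) (nat_lit 4) (nat_lit 86) (nat_lit 5) (nat_lit 86) (nat_lit 4) (nat_lit 418) (nat_lit 303) (nat_lit 299)) (XT.lf (nat_lit 0) (nat_lit 38029717385) (nat_lit 152) (nat_lit 9363019405) (nat_lit 0) (nat_lit 37955767096) (nat_lit 83) (nat_lit 5) (nat_lit 85) (nat_lit 4) (nat_lit 83) (nat_lit 4) (nat_lit 419) (nat_lit 303) (nat_lit 298)))))))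
noncomputable def xc9 : XT := (XT.nd (nat_lit 1248) (nat_lit 1672) (nat_lit 0) (XT.nd (nat_lit 624) (nat_lit 1140) (nat_lit 0) (XT.nd (nat_lit 312) (nat_lit 684) (nat_lit 0) (XT.nd (nat_lit 156) (nat_lit 380) (nat_lit 0) (XT.nd (nat_lit 78) (nat_lit 76) (nat_lit 0) (XT.lf (nat_lit 0) (nat_lit 16120937511) (nat_lit 152) (nat_lit 56775587377) (nat_lit 0) (nat_lit 16039392875) (nat_lit 80) (nat_lit 5) (nat_lit 82) (nat_lit 4) (nat_lit 80) (nat_lit 4) (nat_lit 420) (nat_lit 303) (nat_lit 297)) (XT.lf (nat_lit 0) (nat_lit 75094753972) (nat_lit 76) (nat_lit 8859895221) (nat_lit 76) (nat_lit 8768058189) (nat_lit 79) (nat_lit 4) (nat_lit 80) (nat_lit 5) (nat_lit 80) (nat_lit 4) (nat_lit 421) (nat_lit 303) (nat_lit 296))) (XT.nd (nat_lit 78) (nat_lit 152) (nat_lit 0) (XT.lf (nat_lit 0) (nat_lit 22960040722) (nat_lit 76) (nat_lit 36915732959) (nat_lit 76) (nat_lit 36819192931) (nat_lit 76) (nat_lit 4)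 (nat_lit 77) (nat_lit 5) (nat_lit 77) (nat_lit 4) (nat_lit 422) (nat_lit 303) (nat_lit 295)) (XT.lf (nat_lit 0) (nat_lit 32824804183) (nat_lit 152) (nat_lit 35345303479) (nat_lit 0) (nat_lit 32724857606) (nat_lit 74) (nat_lit 5) (nat_lit 76) (nat_lit 4) (nat_lit 74) (nat_lit 4) (nat_lit 423) (nat_lit 303) (nat_lit 294)))) (XT.nd (nat_lit 156) (nat_lit 380) (nat_lit 0) (XT.nd (nat_lit 78) (nat_lit 76) (nat_lit 0) (XT.lf (nat_lit 0) (nat_lit 2320831162) (nat_lit 152) (nat_lit 100809590733) (nat_lit 0) (nat_lit 2218586016) (nat_lit 71) (nat_lit 5) (nat_lit 73) (nat_lit 4) (nat_lit 71) (nat_lit 4) (nat_lit 424) (nat_lit 303) (nat_lit 293)) (XT.lf (nat_lit 0) (nat_lit 46102443523) (nat_lit 76) (nat_lit 32001320058) (nat_lit 76) (nat_lit 31892539791) (nat_lit 70) (nat_lit 4) (nat_lit 71) (nat_lit 5) (nat_lit 71) (nat_lit 4) (nat_lit 425) (nat_lit 303) (nat_lit 292))) (XT.nd (nat_lit 78) (nat_lit 228)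 (nat_lit 0) (XT.lf (nat_lit 0) (nat_lit 44657294356) (nat_lit 152) (nat_lit 25717004001) (nat_lit 0) (nat_lit 44547931209) (nat_lit 68) (nat_lit 5) (nat_lit 70) (nat_lit 4) (nat_lit 68) (nat_lit 4) (nat_lit 426) (nat_lit 303) (nat_lit 291)) (XT.lf (nat_lit 0) (nat_lit 7280970177) (nat_lit 152) (nat_lit 105684940078) (nat_lit 0) (nat_lit 7171732883) (nat_lit 65) (nat_lit 5) (nat_lit 67) (nat_lit 4) (nat_lit 65) (nat_lit 4) (nat_lit 427) (nat_lit 303) (nat_lit 290))))) (XT.nd (nat_lit 312) (nat_lit 608) (nat_lit 0) (XT.nd (nat_lit 156) (nat_lit 304) (nat_lit 0) (XT.nd (nat_lit 78) (nat_lit 152) (nat_lit 0) (XT.lf (nat_lit 0) (nat_lit 56103792082) (nat_lit 76) (nat_lit 34802974156) (nat_lit 76) (nat_lit 34689031384) (nat_lit 64) (nat_lit 4) (nat_lit 65) (nat_lit 5) (nat_lit 65) (nat_lit 4) (nat_lit 428) (nat_lit 303) (nat_lit 289)) (XT.lf (nat_lit 0) (nat_lit 49725825618) (nat_lit 152) (nat_lit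 32033519825) (nat_lit 0) (nat_lit 49613159241) (nat_lit 62) (nat_lit 5) (nat_lit 64) (nat_lit 4) (nat_lit 62) (nat_lit 4) (nat_lit 429) (nat_lit 303) (nat_lit 288))) (XT.nd (nat_lit 78) (nat_lit 76) (nat_lit 0) (XT.lf (nat_lit 0) (nat_lit 3745652282) (nat_lit 152) (nat_lit 130115079457) (nat_lit 0) (nat_lit 3634691842) (nat_lit 59) (nat_lit 5) (nat_lit 61) (nat_lit 4) (nat_lit 59) (nat_lit 4) (nat_lit 430) (nat_lit 303) (nat_lit 287)) (XT.lf (nat_lit 0) (nat_lit 48272008272) (nat_lit 76) (nat_lit 47866066209) (nat_lit 76) (nat_lit 47751717688) (nat_lit 58) (nat_lit 4) (nat_lit 59) (nat_lit 5) (nat_lit 59) (nat_lit 4) (nat_lit 431) (nat_lit 303) (nat_lit 286)))) (XT.nd (nat_lit 156) (nat_lit 380) (nat_lit 0) (XT.nd (nat_lit 78) (nat_lit 76) (nat_lit 0) (XT.lf (nat_lit 0) (nat_lit 45596365640) (nat_lit 152) (nat_lit 59583917485) (nat_lit 0) (nat_lit 45484474560) (nat_lit 56) (nat_lit 5) (nat_lit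 58) (nat_lit 4) (nat_lit 56) (nat_lit 4) (nat_lit 432) (nat_lit 303) (nat_lit 285)) (XT.lf (nat_lit 0) (nat_lit 135844217639) (nat_lit 76) (nat_lit 11052572715) (nat_lit 76) (nat_lit 10937915222) (nat_lit 55) (nat_lit 4) (nat_lit 56) (nat_lit 5) (nat_lit 56) (nat_lit 4) (nat_lit 433) (nat_lit 303) (nat_lit 284))) (XT.nd (nat_lit 78) (nat_lit 152) (nat_lit 0) (XT.lf (nat_lit 0) (nat_lit 16613739333) (nat_lit 76) (nat_lit 74422245353) (nat_lit 76) (nat_lit 74310608223) (nat_lit 52) (nat_lit 4) (nat_lit 53) (nat_lit 5) (nat_lit 53) (nat_lit 4) (nat_lit 434) (nat_lit 303) (nat_lit 283)) (XT.lf (nat_lit 0) (nat_lit 29158345743) (nat_lit 152) (nat_lit 115085954022) (nat_lit 0) (nat_lit 29049873416) (nat_lit 50) (nat_lit 5) (nat_lit 52) (nat_lit 4) (nat_lit 50) (nat_lit 4) (nat_lit 435) (nat_lit 303) (nat_lit 282)))))) (XT.nd (nat_lit 624) (nat_lit 684) (nat_lit 0) (XT.nd (nat_lit 312) (nat_lit 456)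 (nat_lit 0) (XT.nd (nat_lit 156) (nat_lit 304) (nat_lit 0) (XT.nd (nat_lit 78) (nat_lit 152) (nat_lit 0) (XT.lf (nat_lit 0) (nat_lit 101034442318) (nat_lit 76) (nat_lit 40368788314) (nat_lit 76) (nat_lit 40258324089) (nat_lit 49) (nat_lit 4) (nat_lit 50) (nat_lit 5) (nat_lit 50) (nat_lit 4) (nat_lit 436) (nat_lit 303) (nat_lit 281)) (XT.lf (nat_lit 0) (nat_lit 72795919246) (nat_lit 152) (nat_lit 44998861428) (nat_lit 0) (nat_lit 72688958698) (nat_lit 47) (nat_lit 5) (nat_lit 49) (nat_lit 4) (nat_lit 47) (nat_lit 4) (nat_lit 437) (nat_lit 303) (nat_lit 280))) (XT.nd (nat_lit 78) (nat_lit 228) (nat_lit 0) (XT.lf (nat_lit 0) (nat_lit 192763273131) (nat_lit 76) (nat_lit 3590269593) (nat_lit 76) (nat_lit 3481682633) (nat_lit 46) (nat_lit 4) (nat_lit 47) (nat_lit 5) (nat_lit 47) (nat_lit 4) (nat_lit 438) (nat_lit 303) (nat_lit 279)) (XT.lf (nat_lit 0) (nat_lit 31982608767) (nat_lit 76) (nat_lit 88861270966)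 (nat_lit 76) (nat_lit 88756420589) (nat_lit 43) (nat_lit 4) (nat_lit 44) (nat_lit 5) (nat_lit 44) (nat_lit 4) (nat_lit 439) (nat_lit 303) (nat_lit 278)))) (XT.nd (nat_lit 156) (nat_lit 228) (nat_lit 0) (XT.nd (nat_lit 78) (nat_lit 76) (nat_lit 0) (XT.lf (nat_lit 0) (nat_lit 37103909708) (nat_lit 152) (nat_lit 145841348055) (nat_lit 0) (nat_lit 37002787457) (nat_lit 41) (nat_lit 5) (nat_lit 43) (nat_lit 4) (nat_lit 41) (nat_lit 4) (nat_lit 440) (nat_lit 303) (nat_lit 277)) (XT.lf (nat_lit 0) (nat_lit 117576014733) (nat_lit 76) (nat_lit 56680248820) (nat_lit 76) (nat_lit 56577955505) (nat_lit 40) (nat_lit 4) (nat_lit 41) (nat_lit 5) (nat_lit 41) (nat_lit 4) (nat_lit 441) (nat_lit 303) (nat_lit 276))) (XT.nd (nat_lit 78) (nat_lit 76) (nat_lit 0) (XT.lf (nat_lit 0) (nat_lit 81572335464) (nat_lit 152) (nat_lit 79265954891) (nat_lit 0) (nat_lit 81473880575) (nat_lit 38) (nat_lit 5) (nat_lit 40) (nat_lit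 4) (nat_lit 38) (nat_lit 4) (nat_lit 442) (nat_lit 303) (nat_lit 275)) (XT.lf (nat_lit 0) (nat_lit 211477599083) (nat_lit 76) (nat_lit 21536359661) (nat_lit 76) (nat_lit 21436948584) (nat_lit 37) (nat_lit 4) (nat_lit 38) (nat_lit 5) (nat_lit 38) (nat_lit 4) (nat_lit 443) (nat_lit 303) (nat_lit 274))))) (XT.nd (nat_lit 312) (nat_lit 76) (nat_lit 0) (XT.nd (nat_lit 156) (nat_lit 228) (nat_lit 0) (XT.nd (nat_lit 78) (nat_lit 228) (nat_lit 0) (XT.lf (nat_lit 0) (nat_lit 130484679673) (nat_lit 152) (nat_lit 6306011118) (nat_lit 0) (nat_lit 130389159257) (nat_lit 35) (nat_lit 5) (nat_lit 37) (nat_lit 4) (nat_lit 35) (nat_lit 4) (nat_lit 444) (nat_lit 303) (nat_lit 273)) (XT.lf (nat_lit 0) (nat_lit 17481111680) (nat_lit 152) (nat_lit 245779233123) (nat_lit 0) (nat_lit 17389396291) (nat_lit 32) (nat_lit 5) (nat_lit 34) (nat_lit 4) (nat_lit 32) (nat_lit 4) (nat_lit 445) (nat_lit 303) (nat_lit 272))) (XT.nd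 (nat_lit 78) (nat_lit 152) (nat_lit 0) (XT.lf (nat_lit 0) (nat_lit 76615496063) (nat_lit 76) (nat_lit 109117770429) (nat_lit 76) (nat_lit 109025366557) (nat_lit 31) (nat_lit 4) (nat_lit 32) (nat_lit 5) (nat_lit 32) (nat_lit 4) (nat_lit 446) (nat_lit 303) (nat_lit 271)) (XT.lf (nat_lit 0) (nat_lit 60920564399) (nat_lit 152) (nat_lit 187933373839) (nat_lit 0) (nat_lit 60831953583) (nat_lit 29) (nat_lit 5) (nat_lit 31) (nat_lit 4) (nat_lit 29) (nat_lit 4) (nat_lit 447) (nat_lit 303) (nat_lit 270)))) (XT.nd (nat_lit 50388) (nat_lit 0) (nat_lit 4864) (XT.nd (nat_lit 50310) (nat_lit 0) (nat_lit 5320) (XT.lf (nat_lit 0) (nat_lit 168808834263) (nat_lit 76) (nat_lit 78336578459) (nat_lit 76) (nat_lit 78247405486) (nat_lit 28) (nat_lit 4) (nat_lit 29) (nat_lit 5) (nat_lit 29) (nat_lit 4) (nat_lit 448) (nat_lit 303) (nat_lit 269)) (XT.lf (nat_lit 0) (nat_lit 1699346713) (nat_lit 152) (nat_lit 29007454849)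 (nat_lit 0) (nat_lit 1699346713) (nat_lit 98) (nat_lit 5) (nat_lit 100) (nat_lit 4) (nat_lit 98) (nat_lit 4) (nat_lit 412) (nat_lit 304) (nat_lit 304))) (XT.nd (nat_lit 78) (nat_lit 380) (nat_lit 0) (XT.lf (nat_lit 0) (nat_lit 45301225805) (nat_lit 76) (nat_lit 11042382722) (nat_lit 76) (nat_lit 11018744293) (nat_lit 97) (nat_lit 4) (nat_lit 98) (nat_lit 5) (nat_lit 98) (nat_lit 4) (nat_lit 413) (nat_lit 304) (nat_lit 303)) (XT.nd (nat_lit 78) (nat_lit 152) (nat_lit 0) (XT.lf (nat_lit 0) (nat_lit 15182432667) (nat_lit 76) (nat_lit 27456219874) (nat_lit 76) (nat_lit 27412861910) (nat_lit 94) (nat_lit 4) (nat_lit 95) (nat_lit 5) (nat_lit 95) (nat_lit 4) (nat_lit 414) (nat_lit 304) (nat_lit 302)) (XT.lf (nat_lit 0) (nat_lit 27138677548) (nat_lit 152) (nat_lit 18670059794) (nat_lit 0) (nat_lit 27079002260) (nat_lit 92) (nat_lit 5) (nat_lit 94) (nat_lit 4) (nat_lit 92) (nat_lit 4) (nat_lit 415) (nat_lit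 304) (nat_lit 301))))))))
noncomputable def xc10 : XT := (XT.nd (nat_lit 1248) (nat_lit 2128) (nat_lit 0) (XT.nd (nat_lit 624) (nat_lit 1140) (nat_lit 0) (XT.nd (nat_lit 312) (nat_lit 684) (nat_lit 0) (XT.nd (nat_lit 156) (nat_lit 380) (nat_lit 0) (XT.nd (nat_lit 78) (nat_lit 76) (nat_lit 0) (XT.lf (nat_lit 0) (nat_lit 9617990370) (nat_lit 152) (nat_lit 56721010412) (nat_lit 0) (nat_lit 9544946896) (nat_lit 89) (nat_lit 5) (nat_lit 91) (nat_lit 4) (nat_lit 89) (nat_lit 4) (nat_lit 416) (nat_lit 304) (nat_lit 300)) (XT.lf (nat_lit 0) (nat_lit 58458420890) (nat_lit 76) (nat_lit 10331533162) (nat_lit 76) (nat_lit 10243480552) (nat_lit 88) (nat_lit 4) (nat_lit 89) (nat_lit 5) (nat_lit 89) (nat_lit 4) (nat_lit 417) (nat_lit 304) (nat_lit 299))) (XT.nd (nat_lit 78) (nat_lit 152) (nat_lit 0) (XT.lf (nat_lit 0) (nat_lit 16850181459) (nat_lit 76) (nat_lit 32796417711) (nat_lit 76) (nat_lit 32699322513)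 (nat_lit 85) (nat_lit 4) (nat_lit 86) (nat_lit 5) (nat_lit 86) (nat_lit 4) (nat_lit 418) (nat_lit 304) (nat_lit 298)) (XT.lf (nat_lit 0) (nat_lit 28139172633) (nat_lit 152) (nat_lit 29669755119) (nat_lit 0) (nat_lit 28035029439) (nat_lit 83) (nat_lit 5) (nat_lit 85) (nat_lit 4) (nat_lit 83) (nat_lit 4) (nat_lit 419) (nat_lit 304) (nat_lit 297)))) (XT.nd (nat_lit 156) (nat_lit 380) (nat_lit 0) (XT.nd (nat_lit 78) (nat_lit 76) (nat_lit 0) (XT.lf (nat_lit 0) (nat_lit 3835312246) (nat_lit 152) (nat_lit 81989932894) (nat_lit 0) (nat_lit 3725835854) (nat_lit 80) (nat_lit 5) (nat_lit 82) (nat_lit 4) (nat_lit 80) (nat_lit 4) (nat_lit 420) (nat_lit 304) (nat_lit 296)) (XT.lf (nat_lit 0) (nat_lit 46343683295) (nat_lit 76) (nat_lit 23599736946) (nat_lit 76) (nat_lit 23480730557) (nat_lit 79) (nat_lit 4) (nat_lit 80) (nat_lit 5) (nat_lit 80) (nat_lit 4) (nat_lit 421) (nat_lit 304) (nat_lit 295))) (XT.nd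 (nat_lit 78) (nat_lit 228) (nat_lit 0) (XT.lf (nat_lit 0) (nat_lit 43259287328) (nat_lit 152) (nat_lit 11129799539) (nat_lit 0) (nat_lit 43137544032) (nat_lit 77) (nat_lit 5) (nat_lit 79) (nat_lit 4) (nat_lit 77) (nat_lit 4) (nat_lit 422) (nat_lit 304) (nat_lit 294)) (XT.lf (nat_lit 0) (nat_lit 13567829563) (nat_lit 152) (nat_lit 74846311665) (nat_lit 0) (nat_lit 13444472741) (nat_lit 74) (nat_lit 5) (nat_lit 76) (nat_lit 4) (nat_lit 74) (nat_lit 4) (nat_lit 423) (nat_lit 304) (nat_lit 293))))) (XT.nd (nat_lit 312) (nat_lit 608) (nat_lit 0) (XT.nd (nat_lit 156) (nat_lit 304) (nat_lit 0) (XT.nd (nat_lit 78) (nat_lit 152) (nat_lit 0) (XT.lf (nat_lit 0) (nat_lit 66407032250) (nat_lit 76) (nat_lit 20069237440) (nat_lit 76) (nat_lit 19939018741) (nat_lit 73) (nat_lit 4) (nat_lit 74) (nat_lit 5) (nat_lit 74) (nat_lit 4) (nat_lit 424) (nat_lit 304) (nat_lit 292)) (XT.lf (nat_lit 0) (nat_lit 53535594596)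 (nat_lit 152) (nat_lit 4284353351) (nat_lit 0) (nat_lit 53405525750) (nat_lit 71) (nat_lit 5) (nat_lit 73) (nat_lit 4) (nat_lit 71) (nat_lit 4) (nat_lit 425) (nat_lit 304) (nat_lit 291))) (XT.nd (nat_lit 78) (nat_lit 76) (nat_lit 0) (XT.lf (nat_lit 0) (nat_lit 17078949920) (nat_lit 152) (nat_lit 82273183648) (nat_lit 0) (nat_lit 16949738817) (nat_lit 68) (nat_lit 5) (nat_lit 70) (nat_lit 4) (nat_lit 68) (nat_lit 4) (nat_lit 426) (nat_lit 304) (nat_lit 290)) (XT.lf (nat_lit 0) (nat_lit 73437060152) (nat_lit 76) (nat_lit 24172068547) (nat_lit 76) (nat_lit 24037916692) (nat_lit 67) (nat_lit 4) (nat_lit 68) (nat_lit 5) (nat_lit 68) (nat_lit 4) (nat_lit 427) (nat_lit 304) (nat_lit 289)))) (XT.nd (nat_lit 156) (nat_lit 228) (nat_lit 0) (XT.nd (nat_lit 78) (nat_lit 228) (nat_lit 0) (XT.lf (nat_lit 0) (nat_lit 57100257047) (nat_lit 152) (nat_lit 13218420627) (nat_lit 0) (nat_lit 56968136452) (nat_lit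 65) (nat_lit 5) (nat_lit 67) (nat_lit 4) (nat_lit 65) (nat_lit 4) (nat_lit 428) (nat_lit 304) (nat_lit 288)) (XT.lf (nat_lit 0) (nat_lit 12179672526) (nat_lit 152) (nat_lit 109020796648) (nat_lit 0) (nat_lit 12050001303) (nat_lit 62) (nat_lit 5) (nat_lit 64) (nat_lit 4) (nat_lit 62) (nat_lit 4) (nat_lit 429) (nat_lit 304) (nat_lit 287))) (XT.nd (nat_lit 78) (nat_lit 152) (nat_lit 0) (XT.lf (nat_lit 0) (nat_lit 62807059939) (nat_lit 76) (nat_lit 38416251422) (nat_lit 76) (nat_lit 38283022713) (nat_lit 61) (nat_lit 4) (nat_lit 62) (nat_lit 5) (nat_lit 62) (nat_lit 4) (nat_lit 430) (nat_lit 304) (nat_lit 286)) (XT.lf (nat_lit 0) (nat_lit 51553162471) (nat_lit 152) (nat_lit 43143361221) (nat_lit 0) (nat_lit 51423140874) (nat_lit 59) (nat_lit 5) (nat_lit 61) (nat_lit 4) (nat_lit 59) (nat_lit 4) (nat_lit 431) (nat_lit 304) (nat_lit 285)))))) (XT.nd (nat_lit 624) (nat_lit 988) (nat_lit 0) (XT.nd (nat_lit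 312) (nat_lit 608) (nat_lit 0) (XT.nd (nat_lit 156) (nat_lit 228) (nat_lit 0) (XT.nd (nat_lit 78) (nat_lit 228) (nat_lit 0) (XT.lf (nat_lit 0) (nat_lit 145282637215) (nat_lit 76) (nat_lit 3989555522) (nat_lit 76) (nat_lit 3856629190) (nat_lit 58) (nat_lit 4) (nat_lit 59) (nat_lit 5) (nat_lit 59) (nat_lit 4) (nat_lit 432) (nat_lit 304) (nat_lit 284)) (XT.lf (nat_lit 0) (nat_lit 28611560310) (nat_lit 76) (nat_lit 65983981326) (nat_lit 76) (nat_lit 65854823326) (nat_lit 55) (nat_lit 4) (nat_lit 56) (nat_lit 5) (nat_lit 56) (nat_lit 4) (nat_lit 433) (nat_lit 304) (nat_lit 283))) (XT.nd (nat_lit 78) (nat_lit 76) (nat_lit 0) (XT.lf (nat_lit 0) (nat_lit 33829330299) (nat_lit 152) (nat_lit 100674099987) (nat_lit 0) (nat_lit 33704063867) (nat_lit 53) (nat_lit 5) (nat_lit 55) (nat_lit 4) (nat_lit 53) (nat_lit 4) (nat_lit 434) (nat_lit 304) (nat_lit 282)) (XT.lf (nat_lit 0) (nat_lit 107823713516) (nat_lit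 76) (nat_lit 34342791341) (nat_lit 76) (nat_lit 34215433416) (nat_lit 52) (nat_lit 4) (nat_lit 53) (nat_lit 5) (nat_lit 53) (nat_lit 4) (nat_lit 435) (nat_lit 304) (nat_lit 281)))) (XT.nd (nat_lit 156) (nat_lit 304) (nat_lit 0) (XT.nd (nat_lit 78) (nat_lit 152) (nat_lit 0) (XT.lf (nat_lit 0) (nat_lit 74819310283) (nat_lit 152) (nat_lit 35475809237) (nat_lit 0) (nat_lit 74696172670) (nat_lit 50) (nat_lit 5) (nat_lit 52) (nat_lit 4) (nat_lit 50) (nat_lit 4) (nat_lit 436) (nat_lit 304) (nat_lit 280)) (XT.lf (nat_lit 0) (nat_lit 37251389) (nat_lit 152) (nat_lit 48479996) (nat_lit 76) (nat_lit 194036457049) (nat_lit 48) (nat_lit 5) (nat_lit 50) (nat_lit 5) (nat_lit 49) (nat_lit 4) (nat_lit 437) (nat_lit 304) (nat_lit 279))) (XT.nd (nat_lit 78) (nat_lit 152) (nat_lit 0) (XT.lf (nat_lit 0) (nat_lit 36521677898) (nat_lit 76) (nat_lit 83622469577) (nat_lit 76) (nat_lit 83502063313) (nat_lit 46) (nat_lit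 4) (nat_lit 47) (nat_lit 5) (nat_lit 47) (nat_lit 4) (nat_lit 438) (nat_lit 304) (nat_lit 278)) (XT.lf (nat_lit 0) (nat_lit 37981728098) (nat_lit 152) (nat_lit 137896443440) (nat_lit 0) (nat_lit 37865727479) (nat_lit 44) (nat_lit 5) (nat_lit 46) (nat_lit 4) (nat_lit 44) (nat_lit 4) (nat_lit 439) (nat_lit 304) (nat_lit 277))))) (XT.nd (nat_lit 312) (nat_lit 532) (nat_lit 0) (XT.nd (nat_lit 156) (nat_lit 228) (nat_lit 0) (XT.nd (nat_lit 78) (nat_lit 152) (nat_lit 0) (XT.lf (nat_lit 0) (nat_lit 116517507176) (nat_lit 76) (nat_lit 53984264173) (nat_lit 76) (nat_lit 53867033937) (nat_lit 43) (nat_lit 4) (nat_lit 44) (nat_lit 5) (nat_lit 44) (nat_lit 4) (nat_lit 440) (nat_lit 304) (nat_lit 276)) (XT.lf (nat_lit 0) (nat_lit 79589010963) (nat_lit 152) (nat_lit 76502759649) (nat_lit 0) (nat_lit 79476278802) (nat_lit 41) (nat_lit 5) (nat_lit 43) (nat_lit 4) (nat_lit 41) (nat_lit 4) (nat_lit 441) (nat_lit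 304) (nat_lit 275))) (XT.nd (nat_lit 78) (nat_lit 152) (nat_lit 0) (XT.lf (nat_lit 0) (nat_lit 204467574628) (nat_lit 76) (nat_lit 21528574447) (nat_lit 76) (nat_lit 21414838286) (nat_lit 40) (nat_lit 4) (nat_lit 41) (nat_lit 5) (nat_lit 41) (nat_lit 4) (nat_lit 442) (nat_lit 304) (nat_lit 274)) (XT.lf (nat_lit 0) (nat_lit 125449876450) (nat_lit 152) (nat_lit 9039009510) (nat_lit 0) (nat_lit 125340670937) (nat_lit 38) (nat_lit 5) (nat_lit 40) (nat_lit 4) (nat_lit 38) (nat_lit 4) (nat_lit 443) (nat_lit 304) (nat_lit 273)))) (XT.nd (nat_lit 156) (nat_lit 228) (nat_lit 0) (XT.nd (nat_lit 78) (nat_lit 76) (nat_lit 0) (XT.lf (nat_lit 0) (nat_lit 14594904498) (nat_lit 152) (nat_lit 243889740043) (nat_lit 0) (nat_lit 14490118507) (nat_lit 35) (nat_lit 5) (nat_lit 37) (nat_lit 4) (nat_lit 35) (nat_lit 4) (nat_lit 444) (nat_lit 304) (nat_lit 272)) (XT.lf (nat_lit 0) (nat_lit 67730954915) (nat_lit 76)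 (nat_lit 109555325362) (nat_lit 76) (nat_lit 109449816463) (nat_lit 34) (nat_lit 4) (nat_lit 35) (nat_lit 5) (nat_lit 35) (nat_lit 4) (nat_lit 445) (nat_lit 304) (nat_lit 271))) (XT.nd (nat_lit 78) (nat_lit 76) (nat_lit 0) (XT.lf (nat_lit 0) (nat_lit 54920378122) (nat_lit 152) (nat_lit 191560047413) (nat_lit 0) (nat_lit 54819255971) (nat_lit 32) (nat_lit 5) (nat_lit 34) (nat_lit 4) (nat_lit 32) (nat_lit 4) (nat_lit 446) (nat_lit 304) (nat_lit 270)) (XT.lf (nat_lit 0) (nat_lit 153415459094) (nat_lit 76) (nat_lit 81650927048) (nat_lit 76) (nat_lit 81549214633) (nat_lit 31) (nat_lit 4) (nat_lit 32) (nat_lit 5) (nat_lit 32) (nat_lit 4) (nat_lit 447) (nat_lit 304) (nat_lit 269)))))))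
noncomputable def xc11 : XT := (XT.nd (nat_lit 51324) (nat_lit 0) (nat_lit 1064) (XT.nd (nat_lit 50700) (nat_lit 0) (nat_lit 3344) (XT.nd (nat_lit 50388) (nat_lit 0) (nat_lit 4560) (XT.nd (nat_lit 50232) (nat_lit 0) (nat_lit 5244) (XT.nd (nat_lit 50154) (nat_lit 0) (nat_lit 5700) (XT.lf (nat_lit 0) (nat_lit 99860443555) (nat_lit 152) (nat_lit 133133953839) (nat_lit 0) (nat_lit 99763054073) (nat_lit 29) (nat_lit 5) (nat_lit 31) (nat_lit 4) (nat_lit 29) (nat_lit 4) (nat_lit 448) (nat_lit 304) (nat_lit 268)) (XT.lf (nat_lit 0) (nat_lit 14207117391) (nat_lit 152) (nat_lit 1588491751) (nat_lit 0) (nat_lit 14207117391) (nat_lit 104) (nat_lit 5) (nat_lit 106) (nat_lit 4) (nat_lit 104) (nat_lit 4) (nat_lit 410) (nat_lit 305) (nat_lit 305))) (XT.nd (nat_lit 78) (nat_lit 228) (nat_lit 0) (XT.lf (nat_lit 0) (nat_lit 16168158536) (nat_lit 152) (nat_lit 30061831541) (nat_lit 0) (nat_lit 16141352558) (nat_lit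 101) (nat_lit 5) (nat_lit 103) (nat_lit 4) (nat_lit 101) (nat_lit 4) (nat_lit 411) (nat_lit 305) (nat_lit 304)) (XT.lf (nat_lit 0) (nat_lit 2107988246) (nat_lit 152) (nat_lit 60711299727) (nat_lit 0) (nat_lit 2058820314) (nat_lit 98) (nat_lit 5) (nat_lit 100) (nat_lit 4) (nat_lit 98) (nat_lit 4) (nat_lit 412) (nat_lit 305) (nat_lit 303)))) (XT.nd (nat_lit 156) (nat_lit 380) (nat_lit 0) (XT.nd (nat_lit 78) (nat_lit 228) (nat_lit 0) (XT.lf (nat_lit 0) (nat_lit 39936472741) (nat_lit 76) (nat_lit 13813935956) (nat_lit 76) (nat_lit 13742880591) (nat_lit 97) (nat_lit 4) (nat_lit 98) (nat_lit 5) (nat_lit 98) (nat_lit 4) (nat_lit 413) (nat_lit 305) (nat_lit 302)) (XT.lf (nat_lit 0) (nat_lit 6634583080) (nat_lit 76) (nat_lit 31856255317) (nat_lit 76) (nat_lit 31769282452) (nat_lit 94) (nat_lit 4) (nat_lit 95) (nat_lit 5) (nat_lit 95) (nat_lit 4) (nat_lit 414) (nat_lit 305) (nat_lit 301))) (XT.nd (nat_lit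 78) (nat_lit 228) (nat_lit 0) (XT.lf (nat_lit 0) (nat_lit 21439550714) (nat_lit 152) (nat_lit 30394603976) (nat_lit 0) (nat_lit 21339699054) (nat_lit 92) (nat_lit 5) (nat_lit 94) (nat_lit 4) (nat_lit 92) (nat_lit 4) (nat_lit 415) (nat_lit 305) (nat_lit 300)) (XT.lf (nat_lit 0) (nat_lit 2035241195) (nat_lit 152) (nat_lit 72303811369) (nat_lit 0) (nat_lit 1925135241) (nat_lit 89) (nat_lit 5) (nat_lit 91) (nat_lit 4) (nat_lit 89) (nat_lit 4) (nat_lit 416) (nat_lit 305) (nat_lit 299))))) (XT.nd (nat_lit 312) (nat_lit 684) (nat_lit 0) (XT.nd (nat_lit 156) (nat_lit 304) (nat_lit 0) (XT.nd (nat_lit 78) (nat_lit 152) (nat_lit 0) (XT.lf (nat_lit 0) (nat_lit 39819627893) (nat_lit 76) (nat_lit 19896306823) (nat_lit 76) (nat_lit 19772303521) (nat_lit 88) (nat_lit 4) (nat_lit 89) (nat_lit 5) (nat_lit 89) (nat_lit 4) (nat_lit 417) (nat_lit 305) (nat_lit 298)) (XT.lf (nat_lit 0) (nat_lit 38472115539) (nat_lit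 152) (nat_lit 6091818485) (nat_lit 0) (nat_lit 38341761999) (nat_lit 86) (nat_lit 5) (nat_lit 88) (nat_lit 4) (nat_lit 86) (nat_lit 4) (nat_lit 418) (nat_lit 305) (nat_lit 297))) (XT.nd (nat_lit 78) (nat_lit 76) (nat_lit 0) (XT.lf (nat_lit 0) (nat_lit 14855924122) (nat_lit 152) (nat_lit 56932224768) (nat_lit 0) (nat_lit 14720970877) (nat_lit 83) (nat_lit 5) (nat_lit 85) (nat_lit 4) (nat_lit 83) (nat_lit 4) (nat_lit 419) (nat_lit 305) (nat_lit 296)) (XT.lf (nat_lit 0) (nat_lit 66386603651) (nat_lit 76) (nat_lit 12034153657) (nat_lit 76) (nat_lit 11889193915) (nat_lit 82) (nat_lit 4) (nat_lit 83) (nat_lit 5) (nat_lit 83) (nat_lit 4) (nat_lit 420) (nat_lit 305) (nat_lit 295)))) (XT.nd (nat_lit 156) (nat_lit 304) (nat_lit 0) (XT.nd (nat_lit 78) (nat_lit 152) (nat_lit 0) (XT.lf (nat_lit 0) (nat_lit 10086700987) (nat_lit 76) (nat_lit 42184448423) (nat_lit 76) (nat_lit 42037567455) (nat_lit 79) (nat_lit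 4) (nat_lit 80) (nat_lit 5) (nat_lit 80) (nat_lit 4) (nat_lit 421) (nat_lit 305) (nat_lit 294)) (XT.lf (nat_lit 0) (nat_lit 23190604805) (nat_lit 152) (nat_lit 52297430586) (nat_lit 0) (nat_lit 23042936801) (nat_lit 77) (nat_lit 5) (nat_lit 79) (nat_lit 4) (nat_lit 77) (nat_lit 4) (nat_lit 422) (nat_lit 305) (nat_lit 293))) (XT.nd (nat_lit 78) (nat_lit 228) (nat_lit 0) (XT.lf (nat_lit 0) (nat_lit 83583227622) (nat_lit 76) (nat_lit 9784022858) (nat_lit 76) (nat_lit 9629149883) (nat_lit 76) (nat_lit 4) (nat_lit 77) (nat_lit 5) (nat_lit 77) (nat_lit 4) (nat_lit 423) (nat_lit 305) (nat_lit 292)) (XT.lf (nat_lit 0) (nat_lit 14495217415) (nat_lit 76) (nat_lit 46670165492) (nat_lit 76) (nat_lit 46516313831) (nat_lit 73) (nat_lit 4) (nat_lit 74) (nat_lit 5) (nat_lit 74) (nat_lit 4) (nat_lit 424) (nat_lit 305) (nat_lit 291)))))) (XT.nd (nat_lit 624) (nat_lit 1140) (nat_lit 0) (XT.nd (nat_lit 312) (nat_lit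 532) (nat_lit 0) (XT.nd (nat_lit 156) (nat_lit 380) (nat_lit 0) (XT.nd (nat_lit 78) (nat_lit 76) (nat_lit 0) (XT.lf (nat_lit 0) (nat_lit 25357503664) (nat_lit 152) (nat_lit 62072321947) (nat_lit 0) (nat_lit 25205375460) (nat_lit 71) (nat_lit 5) (nat_lit 73) (nat_lit 4) (nat_lit 71) (nat_lit 4) (nat_lit 425) (nat_lit 305) (nat_lit 290)) (XT.lf (nat_lit 0) (nat_lit 87853841148) (nat_lit 76) (nat_lit 15085471458) (nat_lit 76) (nat_lit 14928155465) (nat_lit 70) (nat_lit 4) (nat_lit 71) (nat_lit 5) (nat_lit 71) (nat_lit 4) (nat_lit 426) (nat_lit 305) (nat_lit 289))) (XT.nd (nat_lit 78) (nat_lit 152) (nat_lit 0) (XT.lf (nat_lit 0) (nat_lit 2771615024) (nat_lit 76) (nat_lit 60376824010) (nat_lit 76) (nat_lit 60222424485) (nat_lit 67) (nat_lit 4) (nat_lit 68) (nat_lit 5) (nat_lit 68) (nat_lit 4) (nat_lit 427) (nat_lit 305) (nat_lit 288)) (XT.lf (nat_lit 0) (nat_lit 19198461634) (nat_lit 152) (nat_lit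 90936808314) (nat_lit 0) (nat_lit 19047380278) (nat_lit 65) (nat_lit 5) (nat_lit 67) (nat_lit 4) (nat_lit 65) (nat_lit 4) (nat_lit 428) (nat_lit 305) (nat_lit 287)))) (XT.nd (nat_lit 156) (nat_lit 304) (nat_lit 0) (XT.nd (nat_lit 78) (nat_lit 152) (nat_lit 0) (XT.lf (nat_lit 0) (nat_lit 74636707323) (nat_lit 76) (nat_lit 30409486421) (nat_lit 76) (nat_lit 30254669705) (nat_lit 64) (nat_lit 4) (nat_lit 65) (nat_lit 5) (nat_lit 65) (nat_lit 4) (nat_lit 429) (nat_lit 305) (nat_lit 286)) (XT.lf (nat_lit 0) (nat_lit 56245551395) (nat_lit 152) (nat_lit 29415568531) (nat_lit 0) (nat_lit 56094812935) (nat_lit 62) (nat_lit 5) (nat_lit 64) (nat_lit 4) (nat_lit 62) (nat_lit 4) (nat_lit 430) (nat_lit 305) (nat_lit 285))) (XT.nd (nat_lit 78) (nat_lit 76) (nat_lit 0) (XT.lf (nat_lit 0) (nat_lit 1960689821) (nat_lit 152) (nat_lit 144825050671) (nat_lit 0) (nat_lit 1814224649) (nat_lit 59) (nat_lit 5) (nat_lit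 61) (nat_lit 4) (nat_lit 59) (nat_lit 4) (nat_lit 431) (nat_lit 305) (nat_lit 284)) (XT.lf (nat_lit 0) (nat_lit 38113486480) (nat_lit 76) (nat_lit 58889318264) (nat_lit 76) (nat_lit 58740163524) (nat_lit 58) (nat_lit 4) (nat_lit 59) (nat_lit 5) (nat_lit 59) (nat_lit 4) (nat_lit 432) (nat_lit 305) (nat_lit 283))))) (XT.nd (nat_lit 312) (nat_lit 532) (nat_lit 0) (XT.nd (nat_lit 156) (nat_lit 380) (nat_lit 0) (XT.nd (nat_lit 78) (nat_lit 76) (nat_lit 0) (XT.lf (nat_lit 0) (nat_lit 37340445918) (nat_lit 152) (nat_lit 88777296506) (nat_lit 0) (nat_lit 37196022031) (nat_lit 56) (nat_lit 5) (nat_lit 58) (nat_lit 4) (nat_lit 56) (nat_lit 4) (nat_lit 433) (nat_lit 305) (nat_lit 282)) (XT.lf (nat_lit 0) (nat_lit 112424759542) (nat_lit 76) (nat_lit 29509841875) (nat_lit 76) (nat_lit 29363221920) (nat_lit 55) (nat_lit 4) (nat_lit 56) (nat_lit 5) (nat_lit 56) (nat_lit 4) (nat_lit 434) (nat_lit 305) (nat_lit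 281))) (XT.nd (nat_lit 78) (nat_lit 228) (nat_lit 0) (XT.lf (nat_lit 0) (nat_lit 75835999913) (nat_lit 152) (nat_lit 28168652321) (nat_lit 0) (nat_lit 75694425292) (nat_lit 53) (nat_lit 5) (nat_lit 55) (nat_lit 4) (nat_lit 53) (nat_lit 4) (nat_lit 435) (nat_lit 305) (nat_lit 280)) (XT.lf (nat_lit 0) (nat_lit 2555941525) (nat_lit 152) (nat_lit 183629703050) (nat_lit 0) (nat_lit 2419400821) (nat_lit 50) (nat_lit 5) (nat_lit 52) (nat_lit 4) (nat_lit 50) (nat_lit 4) (nat_lit 436) (nat_lit 305) (nat_lit 279)))) (XT.nd (nat_lit 156) (nat_lit 304) (nat_lit 0) (XT.nd (nat_lit 78) (nat_lit 152) (nat_lit 0) (XT.lf (nat_lit 0) (nat_lit 39083316323) (nat_lit 76) (nat_lit 79478769814) (nat_lit 76) (nat_lit 79340647877) (nat_lit 49) (nat_lit 4) (nat_lit 50) (nat_lit 5) (nat_lit 50) (nat_lit 4) (nat_lit 437) (nat_lit 305) (nat_lit 278)) (XT.lf (nat_lit 0) (nat_lit 37958621046) (nat_lit 152) (nat_lit 131971741027)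 (nat_lit 0) (nat_lit 37825681958) (nat_lit 47) (nat_lit 5) (nat_lit 49) (nat_lit 4) (nat_lit 47) (nat_lit 4) (nat_lit 438) (nat_lit 305) (nat_lit 277))) (XT.nd (nat_lit 78) (nat_lit 228) (nat_lit 0) (XT.lf (nat_lit 0) (nat_lit 113798130123) (nat_lit 76) (nat_lit 52230187888) (nat_lit 76) (nat_lit 52095957703) (nat_lit 46) (nat_lit 4) (nat_lit 47) (nat_lit 5) (nat_lit 47) (nat_lit 4) (nat_lit 439) (nat_lit 305) (nat_lit 276)) (XT.nd (nat_lit 78) (nat_lit 76) (nat_lit 0) (XT.lf (nat_lit 0) (nat_lit 76863323398) (nat_lit 152) (nat_lit 75453588095) (nat_lit 0) (nat_lit 76734346592) (nat_lit 44) (nat_lit 5) (nat_lit 46) (nat_lit 4) (nat_lit 44) (nat_lit 4) (nat_lit 440) (nat_lit 305) (nat_lit 275)) (XT.lf (nat_lit 0) (nat_lit 196120363261) (nat_lit 76) (nat_lit 22306856069) (nat_lit 76) (nat_lit 22176825065) (nat_lit 43) (nat_lit 4) (nat_lit 44) (nat_lit 5) (nat_lit 44) (nat_lit 4) (nat_lit 441) (nat_lit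 305) (nat_lit 274))))))))
noncomputable def xc12 : XT := (XT.nd (nat_lit 51168) (nat_lit 0) (nat_lit 2128) (XT.nd (nat_lit 50544) (nat_lit 0) (nat_lit 4560) (XT.nd (nat_lit 312) (nat_lit 304) (nat_lit 0) (XT.nd (nat_lit 156) (nat_lit 228) (nat_lit 0) (XT.nd (nat_lit 78) (nat_lit 228) (nat_lit 0) (XT.lf (nat_lit 0) (nat_lit 119835408657) (nat_lit 152) (nat_lit 13173480892) (nat_lit 0) (nat_lit 119710639977) (nat_lit 41) (nat_lit 5) (nat_lit 43) (nat_lit 4) (nat_lit 41) (nat_lit 4) (nat_lit 442) (nat_lit 305) (nat_lit 273)) (XT.lf (nat_lit 0) (nat_lit 11073852749) (nat_lit 152) (nat_lit 243520780765) (nat_lit 0) (nat_lit 10954205658) (nat_lit 38) (nat_lit 5) (nat_lit 40) (nat_lit 4) (nat_lit 38) (nat_lit 4) (nat_lit 443) (nat_lit 305) (nat_lit 272))) (XT.nd (nat_lit 78) (nat_lit 152) (nat_lit 0) (XT.lf (nat_lit 0) (nat_lit 57730515690) (nat_lit 76) (nat_lit 110679794852) (nat_lit 76) (nat_lit 110559388707)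 (nat_lit 37) (nat_lit 4) (nat_lit 38) (nat_lit 5) (nat_lit 38) (nat_lit 4) (nat_lit 444) (nat_lit 305) (nat_lit 271)) (XT.lf (nat_lit 0) (nat_lit 48452641495) (nat_lit 152) (nat_lit 196388295749) (nat_lit 0) (nat_lit 48337299616) (nat_lit 35) (nat_lit 5) (nat_lit 37) (nat_lit 4) (nat_lit 35) (nat_lit 4) (nat_lit 445) (nat_lit 305) (nat_lit 270)))) (XT.nd (nat_lit 156) (nat_lit 76) (nat_lit 0) (XT.nd (nat_lit 78) (nat_lit 152) (nat_lit 0) (XT.lf (nat_lit 0) (nat_lit 137249767852) (nat_lit 76) (nat_lit 85488853183) (nat_lit 76) (nat_lit 85372891527) (nat_lit 34) (nat_lit 4) (nat_lit 35) (nat_lit 5) (nat_lit 35) (nat_lit 4) (nat_lit 446) (nat_lit 305) (nat_lit 269)) (XT.lf (nat_lit 0) (nat_lit 90213166044) (nat_lit 152) (nat_lit 143543352269) (nat_lit 0) (nat_lit 90102179831) (nat_lit 32) (nat_lit 5) (nat_lit 34) (nat_lit 4) (nat_lit 32) (nat_lit 4) (nat_lit 447) (nat_lit 305) (nat_lit 268))) (XT.nd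 (nat_lit 49998) (nat_lit 0) (nat_lit 5928) (XT.lf (nat_lit 0) (nat_lit 226277450405) (nat_lit 76) (nat_lit 57150538065) (nat_lit 76) (nat_lit 57039045796) (nat_lit 31) (nat_lit 4) (nat_lit 32) (nat_lit 5) (nat_lit 32) (nat_lit 4) (nat_lit 448) (nat_lit 305) (nat_lit 267)) (XT.lf (nat_lit 0) (nat_lit 22166022193) (nat_lit 76) (nat_lit 2809027830) (nat_lit 76) (nat_lit 2809027830) (nat_lit 109) (nat_lit 4) (nat_lit 110) (nat_lit 5) (nat_lit 110) (nat_lit 4) (nat_lit 408) (nat_lit 306) (nat_lit 306))))) (XT.nd (nat_lit 312) (nat_lit 684) (nat_lit 0) (XT.nd (nat_lit 156) (nat_lit 304) (nat_lit 0) (XT.nd (nat_lit 78) (nat_lit 152) (nat_lit 0) (XT.lf (nat_lit 0) (nat_lit 20995798336) (nat_lit 76) (nat_lit 18394773487) (nat_lit 76) (nat_lit 18362855609) (nat_lit 106) (nat_lit 4) (nat_lit 107) (nat_lit 5) (nat_lit 107) (nat_lit 4) (nat_lit 409) (nat_lit 306) (nat_lit 305)) (XT.lf (nat_lit 0) (nat_lit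 27274946306) (nat_lit 152) (nat_lit 5572589032) (nat_lit 0) (nat_lit 27216402050) (nat_lit 104) (nat_lit 5) (nat_lit 106) (nat_lit 4) (nat_lit 104) (nat_lit 4) (nat_lit 410) (nat_lit 306) (nat_lit 304))) (XT.nd (nat_lit 78) (nat_lit 76) (nat_lit 0) (XT.lf (nat_lit 0) (nat_lit 13713688199) (nat_lit 152) (nat_lit 35148714062) (nat_lit 0) (nat_lit 13633111414) (nat_lit 101) (nat_lit 5) (nat_lit 103) (nat_lit 4) (nat_lit 101) (nat_lit 4) (nat_lit 411) (nat_lit 306) (nat_lit 303)) (XT.lf (nat_lit 0) (nat_lit 61389859993) (nat_lit 76) (nat_lit 1891871319) (nat_lit 76) (nat_lit 1788312729) (nat_lit 100) (nat_lit 4) (nat_lit 101) (nat_lit 5) (nat_lit 101) (nat_lit 4) (nat_lit 412) (nat_lit 306) (nat_lit 302)))) (XT.nd (nat_lit 156) (nat_lit 304) (nat_lit 0) (XT.nd (nat_lit 78) (nat_lit 152) (nat_lit 0) (XT.lf (nat_lit 0) (nat_lit 29175175482) (nat_lit 76) (nat_lit 19349828015) (nat_lit 76) (nat_lit 19230934644)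 (nat_lit 97) (nat_lit 4) (nat_lit 98) (nat_lit 5) (nat_lit 98) (nat_lit 4) (nat_lit 413) (nat_lit 306) (nat_lit 301)) (XT.lf (nat_lit 0) (nat_lit 31655805926) (nat_lit 152) (nat_lit 7422676725) (nat_lit 0) (nat_lit 31524702766) (nat_lit 95) (nat_lit 5) (nat_lit 97) (nat_lit 4) (nat_lit 95) (nat_lit 4) (nat_lit 414) (nat_lit 306) (nat_lit 300))) (XT.nd (nat_lit 78) (nat_lit 76) (nat_lit 0) (XT.lf (nat_lit 0) (nat_lit 12838772701) (nat_lit 152) (nat_lit 48068217411) (nat_lit 0) (nat_lit 12698152957) (nat_lit 92) (nat_lit 5) (nat_lit 94) (nat_lit 4) (nat_lit 92) (nat_lit 4) (nat_lit 415) (nat_lit 306) (nat_lit 299)) (XT.lf (nat_lit 0) (nat_lit 59604454729) (nat_lit 76) (nat_lit 8661479159) (nat_lit 76) (nat_lit 8506267200) (nat_lit 91) (nat_lit 4) (nat_lit 92) (nat_lit 5) (nat_lit 92) (nat_lit 4) (nat_lit 416) (nat_lit 306) (nat_lit 298)))))) (XT.nd (nat_lit 624) (nat_lit 1140) (nat_lit 0) (XT.nd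 (nat_lit 312) (nat_lit 608) (nat_lit 0) (XT.nd (nat_lit 156) (nat_lit 304) (nat_lit 0) (XT.nd (nat_lit 78) (nat_lit 152) (nat_lit 0) (XT.lf (nat_lit 0) (nat_lit 14796426944) (nat_lit 76) (nat_lit 32731544581) (nat_lit 76) (nat_lit 32570855753) (nat_lit 88) (nat_lit 4) (nat_lit 89) (nat_lit 5) (nat_lit 89) (nat_lit 4) (nat_lit 417) (nat_lit 306) (nat_lit 297)) (XT.lf (nat_lit 0) (nat_lit 24328112692) (nat_lit 152) (nat_lit 35122189300) (nat_lit 0) (nat_lit 24163728345) (nat_lit 86) (nat_lit 5) (nat_lit 88) (nat_lit 4) (nat_lit 86) (nat_lit 4) (nat_lit 418) (nat_lit 306) (nat_lit 296))) (XT.nd (nat_lit 78) (nat_lit 228) (nat_lit 0) (XT.lf (nat_lit 0) (nat_lit 83441577814) (nat_lit 76) (nat_lit 2037502638) (nat_lit 76) (nat_lit 1862611469) (nat_lit 85) (nat_lit 4) (nat_lit 86) (nat_lit 5) (nat_lit 86) (nat_lit 4) (nat_lit 419) (nat_lit 306) (nat_lit 295)) (XT.lf (nat_lit 0) (nat_lit 28600014539)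 (nat_lit 76) (nat_lit 31403845014) (nat_lit 76) (nat_lit 31228016721) (nat_lit 82) (nat_lit 4) (nat_lit 83) (nat_lit 5) (nat_lit 83) (nat_lit 4) (nat_lit 420) (nat_lit 306) (nat_lit 294)))) (XT.nd (nat_lit 156) (nat_lit 380) (nat_lit 0) (XT.nd (nat_lit 78) (nat_lit 76) (nat_lit 0) (XT.lf (nat_lit 0) (nat_lit 31362246390) (nat_lit 152) (nat_lit 32806323916) (nat_lit 0) (nat_lit 31186620436) (nat_lit 80) (nat_lit 5) (nat_lit 82) (nat_lit 4) (nat_lit 80) (nat_lit 4) (nat_lit 421) (nat_lit 306) (nat_lit 293)) (XT.lf (nat_lit 0) (nat_lit 97968107718) (nat_lit 76) (nat_lit 972065537) (nat_lit 76) (nat_lit 788874364) (nat_lit 79) (nat_lit 4) (nat_lit 80) (nat_lit 5) (nat_lit 80) (nat_lit 4) (nat_lit 422) (nat_lit 306) (nat_lit 292))) (XT.nd (nat_lit 78) (nat_lit 152) (nat_lit 0) (XT.lf (nat_lit 0) (nat_lit 30540928994) (nat_lit 76) (nat_lit 36965320115) (nat_lit 76) (nat_lit 36784181063) (nat_lit 76)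 (nat_lit 4) (nat_lit 77) (nat_lit 5) (nat_lit 77) (nat_lit 4) (nat_lit 423) (nat_lit 306) (nat_lit 291)) (XT.lf (nat_lit 0) (nat_lit 32281918410) (nat_lit 152) (nat_lit 44741362565) (nat_lit 0) (nat_lit 32103522074) (nat_lit 74) (nat_lit 5) (nat_lit 76) (nat_lit 4) (nat_lit 74) (nat_lit 4) (nat_lit 424) (nat_lit 306) (nat_lit 290))))) (XT.nd (nat_lit 312) (nat_lit 608) (nat_lit 0) (XT.nd (nat_lit 156) (nat_lit 228) (nat_lit 0) (XT.nd (nat_lit 78) (nat_lit 228) (nat_lit 0) (XT.lf (nat_lit 0) (nat_lit 99675729579) (nat_lit 76) (nat_lit 7377312493) (nat_lit 76) (nat_lit 7193468978) (nat_lit 73) (nat_lit 4) (nat_lit 74) (nat_lit 5) (nat_lit 74) (nat_lit 4) (nat_lit 425) (nat_lit 306) (nat_lit 289)) (XT.lf (nat_lit 0) (nat_lit 16517472336) (nat_lit 76) (nat_lit 51635058036) (nat_lit 76) (nat_lit 51455165465) (nat_lit 70) (nat_lit 4) (nat_lit 71) (nat_lit 5) (nat_lit 71) (nat_lit 4) (nat_lit 426) (nat_lit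 306) (nat_lit 288))) (XT.nd (nat_lit 78) (nat_lit 76) (nat_lit 0) (XT.lf (nat_lit 0) (nat_lit 24959612096) (nat_lit 152) (nat_lit 75537489167) (nat_lit 0) (nat_lit 24784049940) (nat_lit 68) (nat_lit 5) (nat_lit 70) (nat_lit 4) (nat_lit 68) (nat_lit 4) (nat_lit 427) (nat_lit 306) (nat_lit 287)) (XT.lf (nat_lit 0) (nat_lit 84067248731) (nat_lit 76) (nat_lit 23687522647) (nat_lit 76) (nat_lit 23508038363) (nat_lit 67) (nat_lit 4) (nat_lit 68) (nat_lit 5) (nat_lit 68) (nat_lit 4) (nat_lit 428) (nat_lit 306) (nat_lit 286)))) (XT.nd (nat_lit 156) (nat_lit 228) (nat_lit 0) (XT.nd (nat_lit 78) (nat_lit 228) (nat_lit 0) (XT.lf (nat_lit 0) (nat_lit 59820105197) (nat_lit 152) (nat_lit 18097159598) (nat_lit 0) (nat_lit 59645709117) (nat_lit 65) (nat_lit 5) (nat_lit 67) (nat_lit 4) (nat_lit 65) (nat_lit 4) (nat_lit 429) (nat_lit 306) (nat_lit 285)) (XT.lf (nat_lit 0) (nat_lit 6683490489) (nat_lit 152) (nat_lit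 131036964057) (nat_lit 0) (nat_lit 6514349013) (nat_lit 62) (nat_lit 5) (nat_lit 64) (nat_lit 4) (nat_lit 62) (nat_lit 4) (nat_lit 430) (nat_lit 306) (nat_lit 284))) (XT.nd (nat_lit 78) (nat_lit 152) (nat_lit 0) (XT.lf (nat_lit 0) (nat_lit 45410684750) (nat_lit 76) (nat_lit 52987518927) (nat_lit 76) (nat_lit 52815553405) (nat_lit 61) (nat_lit 4) (nat_lit 62) (nat_lit 5) (nat_lit 62) (nat_lit 4) (nat_lit 431) (nat_lit 306) (nat_lit 283)) (XT.lf (nat_lit 0) (nat_lit 39830814394) (nat_lit 152) (nat_lit 79106937123) (nat_lit 0) (nat_lit 39664547365) (nat_lit 59) (nat_lit 5) (nat_lit 61) (nat_lit 4) (nat_lit 59) (nat_lit 4) (nat_lit 432) (nat_lit 306) (nat_lit 282)))))))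
noncomputable def xc13 : XT := (XT.nd (nat_lit 51012) (nat_lit 0) (nat_lit 3572) (XT.nd (nat_lit 624) (nat_lit 1064) (nat_lit 0) (XT.nd (nat_lit 312) (nat_lit 456) (nat_lit 0) (XT.nd (nat_lit 156) (nat_lit 304) (nat_lit 0) (XT.nd (nat_lit 78) (nat_lit 152) (nat_lit 0) (XT.lf (nat_lit 0) (nat_lit 115107140255) (nat_lit 76) (nat_lit 25730064790) (nat_lit 76) (nat_lit 25561491889) (nat_lit 58) (nat_lit 4) (nat_lit 59) (nat_lit 5) (nat_lit 59) (nat_lit 4) (nat_lit 433) (nat_lit 306) (nat_lit 281)) (XT.lf (nat_lit 0) (nat_lit 75974527939) (nat_lit 152) (nat_lit 22810046433) (nat_lit 0) (nat_lit 75811948923) (nat_lit 56) (nat_lit 5) (nat_lit 58) (nat_lit 4) (nat_lit 56) (nat_lit 4) (nat_lit 434) (nat_lit 306) (nat_lit 280))) (XT.nd (nat_lit 78) (nat_lit 76) (nat_lit 0) (XT.lf (nat_lit 0) (nat_lit 4151966852) (nat_lit 152) (nat_lit 175136638878) (nat_lit 0) (nat_lit 3995336576) (nat_lit 53) (nat_lit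 5) (nat_lit 55) (nat_lit 4) (nat_lit 53) (nat_lit 4) (nat_lit 435) (nat_lit 306) (nat_lit 279)) (XT.lf (nat_lit 0) (nat_lit 39922298460) (nat_lit 76) (nat_lit 76297573128) (nat_lit 76) (nat_lit 76139282556) (nat_lit 52) (nat_lit 4) (nat_lit 53) (nat_lit 5) (nat_lit 53) (nat_lit 4) (nat_lit 436) (nat_lit 306) (nat_lit 278)))) (XT.nd (nat_lit 156) (nat_lit 228) (nat_lit 0) (XT.nd (nat_lit 78) (nat_lit 76) (nat_lit 0) (XT.lf (nat_lit 0) (nat_lit 37155815860) (nat_lit 152) (nat_lit 127814264388) (nat_lit 0) (nat_lit 37003598830) (nat_lit 50) (nat_lit 5) (nat_lit 52) (nat_lit 4) (nat_lit 50) (nat_lit 4) (nat_lit 437) (nat_lit 306) (nat_lit 277)) (XT.lf (nat_lit 0) (nat_lit 109651699740) (nat_lit 76) (nat_lit 51295899191) (nat_lit 76) (nat_lit 51142326509) (nat_lit 49) (nat_lit 4) (nat_lit 50) (nat_lit 5) (nat_lit 50) (nat_lit 4) (nat_lit 438) (nat_lit 306) (nat_lit 276))) (XT.nd (nat_lit 78) (nat_lit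 76) (nat_lit 0) (XT.lf (nat_lit 0) (nat_lit 73506193332) (nat_lit 152) (nat_lit 75886051917) (nat_lit 0) (nat_lit 73358738174) (nat_lit 47) (nat_lit 5) (nat_lit 49) (nat_lit 4) (nat_lit 47) (nat_lit 4) (nat_lit 439) (nat_lit 306) (nat_lit 275)) (XT.lf (nat_lit 0) (nat_lit 186649166741) (nat_lit 76) (nat_lit 23759358016) (nat_lit 76) (nat_lit 23610795949) (nat_lit 46) (nat_lit 4) (nat_lit 47) (nat_lit 5) (nat_lit 47) (nat_lit 4) (nat_lit 440) (nat_lit 306) (nat_lit 274))))) (XT.nd (nat_lit 312) (nat_lit 456) (nat_lit 0) (XT.nd (nat_lit 156) (nat_lit 228) (nat_lit 0) (XT.nd (nat_lit 78) (nat_lit 228) (nat_lit 0) (XT.lf (nat_lit 0) (nat_lit 113742033519) (nat_lit 152) (nat_lit 18497273274) (nat_lit 0) (nat_lit 113599569727) (nat_lit 44) (nat_lit 5) (nat_lit 46) (nat_lit 4) (nat_lit 44) (nat_lit 4) (nat_lit 441) (nat_lit 306) (nat_lit 273)) (XT.lf (nat_lit 0) (nat_lit 7021596066) (nat_lit 152) (nat_lit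 244454114148) (nat_lit 0) (nat_lit 6885055497) (nat_lit 41) (nat_lit 5) (nat_lit 43) (nat_lit 4) (nat_lit 41) (nat_lit 4) (nat_lit 442) (nat_lit 306) (nat_lit 272))) (XT.nd (nat_lit 78) (nat_lit 152) (nat_lit 0) (XT.lf (nat_lit 0) (nat_lit 46812691098) (nat_lit 76) (nat_lit 112386446770) (nat_lit 76) (nat_lit 112249109195) (nat_lit 40) (nat_lit 4) (nat_lit 41) (nat_lit 5) (nat_lit 41) (nat_lit 4) (nat_lit 443) (nat_lit 306) (nat_lit 271)) (XT.lf (nat_lit 0) (nat_lit 41610787671) (nat_lit 152) (nat_lit 202220120146) (nat_lit 0) (nat_lit 41479287153) (nat_lit 38) (nat_lit 5) (nat_lit 40) (nat_lit 4) (nat_lit 38) (nat_lit 4) (nat_lit 444) (nat_lit 306) (nat_lit 270)))) (XT.nd (nat_lit 156) (nat_lit 228) (nat_lit 0) (XT.nd (nat_lit 78) (nat_lit 152) (nat_lit 0) (XT.lf (nat_lit 0) (nat_lit 120489754336) (nat_lit 76) (nat_lit 89755776190) (nat_lit 76) (nat_lit 89623624906) (nat_lit 37) (nat_lit 4)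 (nat_lit 38) (nat_lit 5) (nat_lit 38) (nat_lit 4) (nat_lit 445) (nat_lit 306) (nat_lit 269)) (XT.lf (nat_lit 0) (nat_lit 80355382854) (nat_lit 152) (nat_lit 154646835834) (nat_lit 0) (nat_lit 80228950620) (nat_lit 35) (nat_lit 5) (nat_lit 37) (nat_lit 4) (nat_lit 35) (nat_lit 4) (nat_lit 446) (nat_lit 306) (nat_lit 268))) (XT.nd (nat_lit 78) (nat_lit 152) (nat_lit 0) (XT.lf (nat_lit 0) (nat_lit 203185456194) (nat_lit 76) (nat_lit 64180757899) (nat_lit 76) (nat_lit 64053794306) (nat_lit 34) (nat_lit 4) (nat_lit 35) (nat_lit 5) (nat_lit 35) (nat_lit 4) (nat_lit 447) (nat_lit 306) (nat_lit 267)) (XT.lf (nat_lit 0) (nat_lit 123921266714) (nat_lit 152) (nat_lit 100721694476) (nat_lit 0) (nat_lit 123799880436) (nat_lit 32) (nat_lit 5) (nat_lit 34) (nat_lit 4) (nat_lit 32) (nat_lit 4) (nat_lit 448) (nat_lit 306) (nat_lit 266)))))) (XT.nd (nat_lit 624) (nat_lit 1368) (nat_lit 0) (XT.nd (nat_lit 312)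 (nat_lit 684) (nat_lit 0) (XT.nd (nat_lit 156) (nat_lit 304) (nat_lit 0) (XT.nd (nat_lit 78) (nat_lit 228) (nat_lit 0) (XT.lf (nat_lit 0) (nat_lit 8275419935) (nat_lit 152) (nat_lit 9173554707) (nat_lit 0) (nat_lit 8275419935) (nat_lit 113) (nat_lit 5) (nat_lit 115) (nat_lit 4) (nat_lit 113) (nat_lit 4) (nat_lit 406) (nat_lit 307) (nat_lit 307)) (XT.lf (nat_lit 0) (nat_lit 5657737205) (nat_lit 152) (nat_lit 42205819693) (nat_lit 0) (nat_lit 5621542331) (nat_lit 110) (nat_lit 5) (nat_lit 112) (nat_lit 4) (nat_lit 110) (nat_lit 4) (nat_lit 407) (nat_lit 307) (nat_lit 306))) (XT.nd (nat_lit 78) (nat_lit 228) (nat_lit 0) (XT.lf (nat_lit 0) (nat_lit 42133355453) (nat_lit 76) (nat_lit 6779100426) (nat_lit 76) (nat_lit 6709391781) (nat_lit 109) (nat_lit 4) (nat_lit 110) (nat_lit 5) (nat_lit 110) (nat_lit 4) (nat_lit 408) (nat_lit 307) (nat_lit 305)) (XT.lf (nat_lit 0) (nat_lit 16326986281) (nat_lit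 76) (nat_lit 20818188668) (nat_lit 76) (nat_lit 20722245891) (nat_lit 106) (nat_lit 4) (nat_lit 107) (nat_lit 5) (nat_lit 107) (nat_lit 4) (nat_lit 409) (nat_lit 307) (nat_lit 304)))) (XT.nd (nat_lit 156) (nat_lit 304) (nat_lit 0) (XT.nd (nat_lit 78) (nat_lit 228) (nat_lit 0) (XT.lf (nat_lit 0) (nat_lit 23791785284) (nat_lit 152) (nat_lit 12773601803) (nat_lit 0) (nat_lit 23674349843) (nat_lit 104) (nat_lit 5) (nat_lit 106) (nat_lit 4) (nat_lit 104) (nat_lit 4) (nat_lit 410) (nat_lit 307) (nat_lit 303)) (XT.lf (nat_lit 0) (nat_lit 8763396537) (nat_lit 152) (nat_lit 45352623592) (nat_lit 0) (nat_lit 8628571454) (nat_lit 101) (nat_lit 5) (nat_lit 103) (nat_lit 4) (nat_lit 101) (nat_lit 4) (nat_lit 411) (nat_lit 307) (nat_lit 302))) (XT.nd (nat_lit 78) (nat_lit 228) (nat_lit 0) (XT.lf (nat_lit 0) (nat_lit 48682513984) (nat_lit 76) (nat_lit 8426906722) (nat_lit 76) (nat_lit 8270802190) (nat_lit 100)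 (nat_lit 4) (nat_lit 101) (nat_lit 5) (nat_lit 101) (nat_lit 4) (nat_lit 412) (nat_lit 307) (nat_lit 301)) (XT.lf (nat_lit 0) (nat_lit 12953563379) (nat_lit 76) (nat_lit 27682864184) (nat_lit 76) (nat_lit 27515428255) (nat_lit 97) (nat_lit 4) (nat_lit 98) (nat_lit 5) (nat_lit 98) (nat_lit 4) (nat_lit 413) (nat_lit 307) (nat_lit 300))))) (XT.nd (nat_lit 312) (nat_lit 760) (nat_lit 0) (XT.nd (nat_lit 156) (nat_lit 228) (nat_lit 0) (XT.nd (nat_lit 78) (nat_lit 228) (nat_lit 0) (XT.lf (nat_lit 0) (nat_lit 22167378050) (nat_lit 152) (nat_lit 26920279056) (nat_lit 0) (nat_lit 21991367687) (nat_lit 95) (nat_lit 5) (nat_lit 97) (nat_lit 4) (nat_lit 95) (nat_lit 4) (nat_lit 414) (nat_lit 307) (nat_lit 299)) (XT.lf (nat_lit 0) (nat_lit 1285375937) (nat_lit 152) (nat_lit 71795632623) (nat_lit 0) (nat_lit 1103154806) (nat_lit 92) (nat_lit 5) (nat_lit 94) (nat_lit 4) (nat_lit 92) (nat_lit 4) (nat_lit 415)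 (nat_lit 307) (nat_lit 298))) (XT.nd (nat_lit 78) (nat_lit 152) (nat_lit 0) (XT.lf (nat_lit 0) (nat_lit 32958721442) (nat_lit 76) (nat_lit 22329718619) (nat_lit 76) (nat_lit 22133986177) (nat_lit 91) (nat_lit 4) (nat_lit 92) (nat_lit 5) (nat_lit 92) (nat_lit 4) (nat_lit 416) (nat_lit 307) (nat_lit 297)) (XT.lf (nat_lit 0) (nat_lit 32415501769) (nat_lit 152) (nat_lit 16223059965) (nat_lit 0) (nat_lit 32217175183) (nat_lit 89) (nat_lit 5) (nat_lit 91) (nat_lit 4) (nat_lit 89) (nat_lit 4) (nat_lit 417) (nat_lit 307) (nat_lit 296)))) (XT.nd (nat_lit 156) (nat_lit 456) (nat_lit 0) (XT.nd (nat_lit 78) (nat_lit 76) (nat_lit 0) (XT.lf (nat_lit 0) (nat_lit 6867695761) (nat_lit 152) (nat_lit 70952273852) (nat_lit 0) (nat_lit 6668306477) (nat_lit 86) (nat_lit 5) (nat_lit 88) (nat_lit 4) (nat_lit 86) (nat_lit 4) (nat_lit 418) (nat_lit 307) (nat_lit 295)) (XT.lf (nat_lit 0) (nat_lit 44367795219) (nat_lit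 76) (nat_lit 22068196923) (nat_lit 76) (nat_lit 21859079101) (nat_lit 85) (nat_lit 4) (nat_lit 86) (nat_lit 5) (nat_lit 86) (nat_lit 4) (nat_lit 419) (nat_lit 307) (nat_lit 294))) (XT.nd (nat_lit 78) (nat_lit 304) (nat_lit 0) (XT.lf (nat_lit 0) (nat_lit 38239111554) (nat_lit 152) (nat_lit 16050795933) (nat_lit 0) (nat_lit 38031372764) (nat_lit 83) (nat_lit 5) (nat_lit 85) (nat_lit 4) (nat_lit 83) (nat_lit 4) (nat_lit 420) (nat_lit 307) (nat_lit 293)) (XT.nd (nat_lit 78) (nat_lit 76) (nat_lit 0) (XT.lf (nat_lit 0) (nat_lit 6842630031) (nat_lit 152) (nat_lit 83102434209) (nat_lit 0) (nat_lit 6637218346) (nat_lit 80) (nat_lit 5) (nat_lit 82) (nat_lit 4) (nat_lit 80) (nat_lit 4) (nat_lit 421) (nat_lit 307) (nat_lit 292)) (XT.lf (nat_lit 0) (nat_lit 44022176788) (nat_lit 76) (nat_lit 28617706438) (nat_lit 76) (nat_lit 28405289920) (nat_lit 79) (nat_lit 4) (nat_lit 80) (nat_lit 5) (nat_lit 80) (nat_lit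 4) (nat_lit 422) (nat_lit 307) (nat_lit 291))))))))
noncomputable def xc14 : XT := (XT.nd (nat_lit 1248) (nat_lit 1216) (nat_lit 0) (XT.nd (nat_lit 624) (nat_lit 1064) (nat_lit 0) (XT.nd (nat_lit 312) (nat_lit 532) (nat_lit 0) (XT.nd (nat_lit 156) (nat_lit 380) (nat_lit 0) (XT.nd (nat_lit 78) (nat_lit 76) (nat_lit 0) (XT.lf (nat_lit 0) (nat_lit 38001389025) (nat_lit 152) (nat_lit 29972431792) (nat_lit 0) (nat_lit 37792910479) (nat_lit 77) (nat_lit 5) (nat_lit 79) (nat_lit 4) (nat_lit 77) (nat_lit 4) (nat_lit 423) (nat_lit 307) (nat_lit 290)) (XT.lf (nat_lit 0) (nat_lit 109192775334) (nat_lit 76) (nat_lit 897944400) (nat_lit 76) (nat_lit 683746317) (nat_lit 76) (nat_lit 4) (nat_lit 77) (nat_lit 5) (nat_lit 77) (nat_lit 4) (nat_lit 424) (nat_lit 307) (nat_lit 289))) (XT.nd (nat_lit 78) (nat_lit 152) (nat_lit 0) (XT.lf (nat_lit 0) (nat_lit 27878753592) (nat_lit 76) (nat_lit 44164156817) (nat_lit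 76) (nat_lit 43955114958) (nat_lit 73) (nat_lit 4) (nat_lit 74) (nat_lit 5) (nat_lit 74) (nat_lit 4) (nat_lit 425) (nat_lit 307) (nat_lit 288)) (XT.lf (nat_lit 0) (nat_lit 29605248465) (nat_lit 152) (nat_lit 62529057926) (nat_lit 0) (nat_lit 29401713287) (nat_lit 71) (nat_lit 5) (nat_lit 73) (nat_lit 4) (nat_lit 71) (nat_lit 4) (nat_lit 426) (nat_lit 307) (nat_lit 287)))) (XT.nd (nat_lit 156) (nat_lit 304) (nat_lit 0) (XT.nd (nat_lit 78) (nat_lit 152) (nat_lit 0) (XT.lf (nat_lit 0) (nat_lit 91374674850) (nat_lit 76) (nat_lit 18107703885) (nat_lit 76) (nat_lit 17900050472) (nat_lit 70) (nat_lit 4) (nat_lit 71) (nat_lit 5) (nat_lit 71) (nat_lit 4) (nat_lit 427) (nat_lit 307) (nat_lit 286)) (XT.lf (nat_lit 0) (nat_lit 62408849916) (nat_lit 152) (nat_lit 8914716779) (nat_lit 0) (nat_lit 62207453162) (nat_lit 68) (nat_lit 5) (nat_lit 70) (nat_lit 4) (nat_lit 68) (nat_lit 4) (nat_lit 428) (nat_lit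 307) (nat_lit 285))) (XT.nd (nat_lit 78) (nat_lit 76) (nat_lit 0) (XT.lf (nat_lit 0) (nat_lit 10379431147) (nat_lit 152) (nat_lit 119472024740) (nat_lit 0) (nat_lit 10184422245) (nat_lit 65) (nat_lit 5) (nat_lit 67) (nat_lit 4) (nat_lit 65) (nat_lit 4) (nat_lit 429) (nat_lit 307) (nat_lit 284)) (XT.lf (nat_lit 0) (nat_lit 50765222776) (nat_lit 76) (nat_lit 48142823289) (nat_lit 76) (nat_lit 47944849138) (nat_lit 64) (nat_lit 4) (nat_lit 65) (nat_lit 5) (nat_lit 65) (nat_lit 4) (nat_lit 430) (nat_lit 307) (nat_lit 283))))) (XT.nd (nat_lit 312) (nat_lit 456) (nat_lit 0) (XT.nd (nat_lit 156) (nat_lit 380) (nat_lit 0) (XT.nd (nat_lit 78) (nat_lit 76) (nat_lit 0) (XT.lf (nat_lit 0) (nat_lit 41425595764) (nat_lit 152) (nat_lit 71403186684) (nat_lit 0) (nat_lit 41234434095) (nat_lit 62) (nat_lit 5) (nat_lit 64) (nat_lit 4) (nat_lit 62) (nat_lit 4) (nat_lit 431) (nat_lit 307) (nat_lit 282)) (XT.lf (nat_lit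 0) (nat_lit 116113086194) (nat_lit 76) (nat_lit 22877659989) (nat_lit 76) (nat_lit 22684077155) (nat_lit 61) (nat_lit 4) (nat_lit 62) (nat_lit 5) (nat_lit 62) (nat_lit 4) (nat_lit 432) (nat_lit 307) (nat_lit 281))) (XT.nd (nat_lit 78) (nat_lit 228) (nat_lit 0) (XT.lf (nat_lit 0) (nat_lit 75350329433) (nat_lit 152) (nat_lit 19159671104) (nat_lit 0) (nat_lit 75163829763) (nat_lit 59) (nat_lit 5) (nat_lit 61) (nat_lit 4) (nat_lit 59) (nat_lit 4) (nat_lit 433) (nat_lit 307) (nat_lit 280)) (XT.lf (nat_lit 0) (nat_lit 4941536834) (nat_lit 152) (nat_lit 168445352676) (nat_lit 0) (nat_lit 4762035326) (nat_lit 56) (nat_lit 5) (nat_lit 58) (nat_lit 4) (nat_lit 56) (nat_lit 4) (nat_lit 434) (nat_lit 307) (nat_lit 279)))) (XT.nd (nat_lit 156) (nat_lit 228) (nat_lit 0) (XT.nd (nat_lit 78) (nat_lit 152) (nat_lit 0) (XT.lf (nat_lit 0) (nat_lit 39267207901) (nat_lit 76) (nat_lit 73959778628) (nat_lit 76) (nat_lit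 73778533811) (nat_lit 55) (nat_lit 4) (nat_lit 56) (nat_lit 5) (nat_lit 56) (nat_lit 4) (nat_lit 435) (nat_lit 307) (nat_lit 278)) (XT.lf (nat_lit 0) (nat_lit 35681987831) (nat_lit 152) (nat_lit 125196940269) (nat_lit 0) (nat_lit 35507836409) (nat_lit 53) (nat_lit 5) (nat_lit 55) (nat_lit 4) (nat_lit 53) (nat_lit 4) (nat_lit 436) (nat_lit 307) (nat_lit 277))) (XT.nd (nat_lit 78) (nat_lit 152) (nat_lit 0) (XT.lf (nat_lit 0) (nat_lit 104287495621) (nat_lit 76) (nat_lit 51071933657) (nat_lit 76) (nat_lit 50896358800) (nat_lit 52) (nat_lit 4) (nat_lit 53) (nat_lit 5) (nat_lit 53) (nat_lit 4) (nat_lit 437) (nat_lit 307) (nat_lit 276)) (XT.lf (nat_lit 0) (nat_lit 69616791942) (nat_lit 152) (nat_lit 77592033364) (nat_lit 0) (nat_lit 69448322558) (nat_lit 50) (nat_lit 5) (nat_lit 52) (nat_lit 4) (nat_lit 50) (nat_lit 4) (nat_lit 438) (nat_lit 307) (nat_lit 275)))))) (XT.nd (nat_lit 624) (nat_lit 228)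 (nat_lit 0) (XT.nd (nat_lit 312) (nat_lit 456) (nat_lit 0) (XT.nd (nat_lit 156) (nat_lit 304) (nat_lit 0) (XT.nd (nat_lit 78) (nat_lit 152) (nat_lit 0) (XT.lf (nat_lit 0) (nat_lit 176244238763) (nat_lit 76) (nat_lit 25786083294) (nat_lit 76) (nat_lit 25616451657) (nat_lit 49) (nat_lit 4) (nat_lit 50) (nat_lit 5) (nat_lit 50) (nat_lit 4) (nat_lit 439) (nat_lit 307) (nat_lit 274)) (XT.lf (nat_lit 0) (nat_lit 107259530537) (nat_lit 152) (nat_lit 24820937792) (nat_lit 0) (nat_lit 107096951682) (nat_lit 47) (nat_lit 5) (nat_lit 49) (nat_lit 4) (nat_lit 47) (nat_lit 4) (nat_lit 440) (nat_lit 307) (nat_lit 273))) (XT.nd (nat_lit 78) (nat_lit 76) (nat_lit 0) (XT.lf (nat_lit 0) (nat_lit 2530552165) (nat_lit 152) (nat_lit 246494705728) (nat_lit 0) (nat_lit 2374811355) (nat_lit 44) (nat_lit 5) (nat_lit 46) (nat_lit 4) (nat_lit 44) (nat_lit 4) (nat_lit 441) (nat_lit 307) (nat_lit 272)) (XT.lf (nat_lit 0)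 (nat_lit 35154098531) (nat_lit 76) (nat_lit 114581868615) (nat_lit 76) (nat_lit 114425290948) (nat_lit 43) (nat_lit 4) (nat_lit 44) (nat_lit 5) (nat_lit 44) (nat_lit 4) (nat_lit 442) (nat_lit 307) (nat_lit 271)))) (XT.nd (nat_lit 156) (nat_lit 228) (nat_lit 0) (XT.nd (nat_lit 78) (nat_lit 76) (nat_lit 0) (XT.lf (nat_lit 0) (nat_lit 34477785991) (nat_lit 152) (nat_lit 208879191432) (nat_lit 0) (nat_lit 34327926435) (nat_lit 41) (nat_lit 5) (nat_lit 43) (nat_lit 4) (nat_lit 41) (nat_lit 4) (nat_lit 443) (nat_lit 307) (nat_lit 270)) (XT.lf (nat_lit 0) (nat_lit 103293021215) (nat_lit 76) (nat_lit 94367673589) (nat_lit 76) (nat_lit 94217130729) (nat_lit 40) (nat_lit 4) (nat_lit 41) (nat_lit 5) (nat_lit 41) (nat_lit 4) (nat_lit 444) (nat_lit 307) (nat_lit 269))) (XT.nd (nat_lit 78) (nat_lit 76) (nat_lit 0) (XT.lf (nat_lit 0) (nat_lit 70360626939) (nat_lit 152) (nat_lit 166286684593) (nat_lit 0) (nat_lit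 70216650224) (nat_lit 38) (nat_lit 5) (nat_lit 40) (nat_lit 4) (nat_lit 38) (nat_lit 4) (nat_lit 445) (nat_lit 307) (nat_lit 268)) (XT.lf (nat_lit 0) (nat_lit 179975297330) (nat_lit 76) (nat_lit 71406058030) (nat_lit 76) (nat_lit 71261523389) (nat_lit 37) (nat_lit 4) (nat_lit 38) (nat_lit 5) (nat_lit 38) (nat_lit 4) (nat_lit 446) (nat_lit 307) (nat_lit 267))))) (XT.nd (nat_lit 49920) (nat_lit 0) (nat_lit 5320) (XT.nd (nat_lit 49764) (nat_lit 0) (nat_lit 6156) (XT.nd (nat_lit 78) (nat_lit 76) (nat_lit 0) (XT.lf (nat_lit 0) (nat_lit 110812045682) (nat_lit 152) (nat_lit 117762303916) (nat_lit 0) (nat_lit 110673901644) (nat_lit 35) (nat_lit 5) (nat_lit 37) (nat_lit 4) (nat_lit 35) (nat_lit 4) (nat_lit 447) (nat_lit 307) (nat_lit 266)) (XT.lf (nat_lit 0) (nat_lit 266555953624) (nat_lit 76) (nat_lit 45183528253) (nat_lit 76) (nat_lit 45044928660) (nat_lit 34) (nat_lit 4) (nat_lit 35) (nat_lit 5) (nat_lit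 35) (nat_lit 4) (nat_lit 448) (nat_lit 307) (nat_lit 265))) (XT.nd (nat_lit 78) (nat_lit 228) (nat_lit 0) (XT.lf (nat_lit 0) (nat_lit 11700521759) (nat_lit 76) (nat_lit 6060397302) (nat_lit 76) (nat_lit 6060397302) (nat_lit 118) (nat_lit 4) (nat_lit 119) (nat_lit 5) (nat_lit 119) (nat_lit 4) (nat_lit 404) (nat_lit 308) (nat_lit 308)) (XT.lf (nat_lit 0) (nat_lit 2639261458) (nat_lit 76) (nat_lit 23463528610) (nat_lit 76) (nat_lit 23420431374) (nat_lit 115) (nat_lit 4) (nat_lit 116) (nat_lit 5) (nat_lit 116) (nat_lit 4) (nat_lit 405) (nat_lit 308) (nat_lit 307)))) (XT.nd (nat_lit 156) (nat_lit 456) (nat_lit 0) (XT.nd (nat_lit 78) (nat_lit 228) (nat_lit 0) (XT.lf (nat_lit 0) (nat_lit 15573452297) (nat_lit 152) (nat_lit 20431855795) (nat_lit 0) (nat_lit 15494402693) (nat_lit 113) (nat_lit 5) (nat_lit 115) (nat_lit 4) (nat_lit 113) (nat_lit 4) (nat_lit 406) (nat_lit 308) (nat_lit 306)) (XT.lf (nat_lit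 0) (nat_lit 3534644070) (nat_lit 152) (nat_lit 46632719379) (nat_lit 0) (nat_lit 3425844961) (nat_lit 110) (nat_lit 5) (nat_lit 112) (nat_lit 4) (nat_lit 110) (nat_lit 4) (nat_lit 407) (nat_lit 308) (nat_lit 305))) (XT.nd (nat_lit 78) (nat_lit 380) (nat_lit 0) (XT.lf (nat_lit 0) (nat_lit 35524259384) (nat_lit 76) (nat_lit 10199406343) (nat_lit 76) (nat_lit 10059575964) (nat_lit 109) (nat_lit 4) (nat_lit 110) (nat_lit 5) (nat_lit 110) (nat_lit 4) (nat_lit 408) (nat_lit 308) (nat_lit 304)) (XT.nd (nat_lit 78) (nat_lit 152) (nat_lit 0) (XT.lf (nat_lit 0) (nat_lit 6961695136) (nat_lit 76) (nat_lit 25647462132) (nat_lit 76) (nat_lit 25486925906) (nat_lit 106) (nat_lit 4) (nat_lit 107) (nat_lit 5) (nat_lit 107) (nat_lit 4) (nat_lit 409) (nat_lit 308) (nat_lit 303)) (XT.lf (nat_lit 0) (nat_lit 17944110761) (nat_lit 152) (nat_lit 24822694483) (nat_lit 0) (nat_lit 17767088222) (nat_lit 104) (nat_lit 5)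 (nat_lit 106) (nat_lit 4) (nat_lit 104) (nat_lit 4) (nat_lit 410) (nat_lit 308) (nat_lit 302))))))))
noncomputable def xc15 : XT := (XT.nd (nat_lit 1248) (nat_lit 2280) (nat_lit 0) (XT.nd (nat_lit 624) (nat_lit 1140) (nat_lit 0) (XT.nd (nat_lit 312) (nat_lit 532) (nat_lit 0) (XT.nd (nat_lit 156) (nat_lit 380) (nat_lit 0) (XT.nd (nat_lit 78) (nat_lit 76) (nat_lit 0) (XT.lf (nat_lit 0) (nat_lit 1287948488) (nat_lit 152) (nat_lit 60734027744) (nat_lit 0) (nat_lit 1098076144) (nat_lit 101) (nat_lit 5) (nat_lit 103) (nat_lit 4) (nat_lit 101) (nat_lit 4) (nat_lit 411) (nat_lit 308) (nat_lit 301)) (XT.lf (nat_lit 0) (nat_lit 30786930084) (nat_lit 76) (nat_lit 17619844523) (nat_lit 76) (nat_lit 17410268985) (nat_lit 100) (nat_lit 4) (nat_lit 101) (nat_lit 5) (nat_lit 101) (nat_lit 4) (nat_lit 412) (nat_lit 308) (nat_lit 300))) (XT.nd (nat_lit 78) (nat_lit 228) (nat_lit 0) (XT.lf (nat_lit 0) (nat_lit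 30175708825) (nat_lit 152) (nat_lit 8542052797) (nat_lit 0) (nat_lit 29958738123) (nat_lit 98) (nat_lit 5) (nat_lit 100) (nat_lit 4) (nat_lit 98) (nat_lit 4) (nat_lit 413) (nat_lit 308) (nat_lit 299)) (XT.lf (nat_lit 0) (nat_lit 9865742612) (nat_lit 152) (nat_lit 52186113351) (nat_lit 0) (nat_lit 9643782023) (nat_lit 95) (nat_lit 5) (nat_lit 97) (nat_lit 4) (nat_lit 95) (nat_lit 4) (nat_lit 414) (nat_lit 308) (nat_lit 298)))) (XT.nd (nat_lit 156) (nat_lit 228) (nat_lit 0) (XT.nd (nat_lit 78) (nat_lit 228) (nat_lit 0) (XT.lf (nat_lit 0) (nat_lit 48501341935) (nat_lit 76) (nat_lit 13303474939) (nat_lit 76) (nat_lit 13067327474) (nat_lit 94) (nat_lit 4) (nat_lit 95) (nat_lit 5) (nat_lit 95) (nat_lit 4) (nat_lit 415) (nat_lit 308) (nat_lit 297)) (XT.lf (nat_lit 0) (nat_lit 71822315) (nat_lit 76) (nat_lit 39195271281) (nat_lit 76) (nat_lit 38957858460) (nat_lit 91) (nat_lit 4) (nat_lit 92) (nat_lit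 5) (nat_lit 92) (nat_lit 4) (nat_lit 416) (nat_lit 308) (nat_lit 296))) (XT.nd (nat_lit 78) (nat_lit 76) (nat_lit 0) (XT.lf (nat_lit 0) (nat_lit 14361684129) (nat_lit 152) (nat_lit 53273588195) (nat_lit 0) (nat_lit 14124544518) (nat_lit 89) (nat_lit 5) (nat_lit 91) (nat_lit 4) (nat_lit 89) (nat_lit 4) (nat_lit 417) (nat_lit 308) (nat_lit 295)) (XT.lf (nat_lit 0) (nat_lit 57684151907) (nat_lit 76) (nat_lit 14026160019) (nat_lit 76) (nat_lit 13778805443) (nat_lit 88) (nat_lit 4) (nat_lit 89) (nat_lit 5) (nat_lit 89) (nat_lit 4) (nat_lit 418) (nat_lit 308) (nat_lit 294))))) (XT.nd (nat_lit 312) (nat_lit 532) (nat_lit 0) (XT.nd (nat_lit 156) (nat_lit 228) (nat_lit 0) (XT.nd (nat_lit 78) (nat_lit 228) (nat_lit 0) (XT.lf (nat_lit 0) (nat_lit 43962412173) (nat_lit 152) (nat_lit 1739832487) (nat_lit 0) (nat_lit 43717828480) (nat_lit 86) (nat_lit 5) (nat_lit 88) (nat_lit 4) (nat_lit 86) (nat_lit 4) (nat_lit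 419) (nat_lit 308) (nat_lit 293)) (XT.lf (nat_lit 0) (nat_lit 13303281310) (nat_lit 152) (nat_lit 67203649377) (nat_lit 0) (nat_lit 13062400979) (nat_lit 83) (nat_lit 5) (nat_lit 85) (nat_lit 4) (nat_lit 83) (nat_lit 4) (nat_lit 420) (nat_lit 308) (nat_lit 292))) (XT.nd (nat_lit 78) (nat_lit 152) (nat_lit 0) (XT.lf (nat_lit 0) (nat_lit 55219677558) (nat_lit 76) (nat_lit 21482667641) (nat_lit 76) (nat_lit 21234432236) (nat_lit 82) (nat_lit 4) (nat_lit 83) (nat_lit 5) (nat_lit 83) (nat_lit 4) (nat_lit 421) (nat_lit 308) (nat_lit 291)) (XT.lf (nat_lit 0) (nat_lit 42650547446) (nat_lit 152) (nat_lit 17487645578) (nat_lit 0) (nat_lit 42407646819) (nat_lit 80) (nat_lit 5) (nat_lit 82) (nat_lit 4) (nat_lit 80) (nat_lit 4) (nat_lit 422) (nat_lit 308) (nat_lit 290)))) (XT.nd (nat_lit 156) (nat_lit 228) (nat_lit 0) (XT.nd (nat_lit 78) (nat_lit 76) (nat_lit 0) (XT.lf (nat_lit 0) (nat_lit 4806172320) (nat_lit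 152) (nat_lit 98052343727) (nat_lit 0) (nat_lit 4569118852) (nat_lit 77) (nat_lit 5) (nat_lit 79) (nat_lit 4) (nat_lit 77) (nat_lit 4) (nat_lit 423) (nat_lit 308) (nat_lit 289)) (XT.lf (nat_lit 0) (nat_lit 37122960404) (nat_lit 76) (nat_lit 37826041814) (nat_lit 76) (nat_lit 37583692477) (nat_lit 76) (nat_lit 4) (nat_lit 77) (nat_lit 5) (nat_lit 77) (nat_lit 4) (nat_lit 424) (nat_lit 308) (nat_lit 288))) (XT.nd (nat_lit 78) (nat_lit 76) (nat_lit 0) (XT.lf (nat_lit 0) (nat_lit 33263500704) (nat_lit 152) (nat_lit 51646561765) (nat_lit 0) (nat_lit 33028021734) (nat_lit 74) (nat_lit 5) (nat_lit 76) (nat_lit 4) (nat_lit 74) (nat_lit 4) (nat_lit 425) (nat_lit 308) (nat_lit 287)) (XT.lf (nat_lit 0) (nat_lit 96807549068) (nat_lit 76) (nat_lit 13541493245) (nat_lit 76) (nat_lit 13301690129) (nat_lit 73) (nat_lit 4) (nat_lit 74) (nat_lit 5) (nat_lit 74) (nat_lit 4) (nat_lit 426) (nat_lit 308) (nat_lit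 286)))))) (XT.nd (nat_lit 624) (nat_lit 1140) (nat_lit 0) (XT.nd (nat_lit 312) (nat_lit 532) (nat_lit 0) (XT.nd (nat_lit 156) (nat_lit 228) (nat_lit 0) (XT.nd (nat_lit 78) (nat_lit 228) (nat_lit 0) (XT.lf (nat_lit 0) (nat_lit 64130655321) (nat_lit 152) (nat_lit 1621938361) (nat_lit 0) (nat_lit 63898458221) (nat_lit 71) (nat_lit 5) (nat_lit 73) (nat_lit 4) (nat_lit 71) (nat_lit 4) (nat_lit 427) (nat_lit 308) (nat_lit 285)) (XT.lf (nat_lit 0) (nat_lit 13170208709) (nat_lit 152) (nat_lit 109878024354) (nat_lit 0) (nat_lit 12945706021) (nat_lit 68) (nat_lit 5) (nat_lit 70) (nat_lit 4) (nat_lit 68) (nat_lit 4) (nat_lit 428) (nat_lit 308) (nat_lit 284))) (XT.nd (nat_lit 78) (nat_lit 152) (nat_lit 0) (XT.lf (nat_lit 0) (nat_lit 54412843519) (nat_lit 76) (nat_lit 44233029193) (nat_lit 76) (nat_lit 44005412994) (nat_lit 67) (nat_lit 4) (nat_lit 68) (nat_lit 5) (nat_lit 68) (nat_lit 4) (nat_lit 429) (nat_lit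 308) (nat_lit 283)) (XT.lf (nat_lit 0) (nat_lit 42237327357) (nat_lit 152) (nat_lit 65432239517) (nat_lit 0) (nat_lit 42017804423) (nat_lit 65) (nat_lit 5) (nat_lit 67) (nat_lit 4) (nat_lit 65) (nat_lit 4) (nat_lit 430) (nat_lit 308) (nat_lit 282)))) (XT.nd (nat_lit 156) (nat_lit 304) (nat_lit 0) (XT.nd (nat_lit 78) (nat_lit 152) (nat_lit 0) (XT.lf (nat_lit 0) (nat_lit 115660115901) (nat_lit 76) (nat_lit 20839563301) (nat_lit 76) (nat_lit 20617498144) (nat_lit 64) (nat_lit 4) (nat_lit 65) (nat_lit 5) (nat_lit 65) (nat_lit 4) (nat_lit 431) (nat_lit 308) (nat_lit 281)) (XT.lf (nat_lit 0) (nat_lit 74066997708) (nat_lit 152) (nat_lit 17001643180) (nat_lit 0) (nat_lit 73853265263) (nat_lit 62) (nat_lit 5) (nat_lit 64) (nat_lit 4) (nat_lit 62) (nat_lit 4) (nat_lit 432) (nat_lit 308) (nat_lit 280))) (XT.nd (nat_lit 78) (nat_lit 76) (nat_lit 0) (XT.lf (nat_lit 0) (nat_lit 5030894571) (nat_lit 152) (nat_lit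 163334397276) (nat_lit 0) (nat_lit 4825362948) (nat_lit 59) (nat_lit 5) (nat_lit 61) (nat_lit 4) (nat_lit 59) (nat_lit 4) (nat_lit 433) (nat_lit 308) (nat_lit 279)) (XT.lf (nat_lit 0) (nat_lit 37322957101) (nat_lit 76) (nat_lit 72358493490) (nat_lit 76) (nat_lit 72151131392) (nat_lit 58) (nat_lit 4) (nat_lit 59) (nat_lit 5) (nat_lit 59) (nat_lit 4) (nat_lit 434) (nat_lit 308) (nat_lit 278))))) (XT.nd (nat_lit 312) (nat_lit 684) (nat_lit 0) (XT.nd (nat_lit 156) (nat_lit 228) (nat_lit 0) (XT.nd (nat_lit 78) (nat_lit 76) (nat_lit 0) (XT.lf (nat_lit 0) (nat_lit 33634475701) (nat_lit 152) (nat_lit 123916108512) (nat_lit 0) (nat_lit 33435373813) (nat_lit 56) (nat_lit 5) (nat_lit 58) (nat_lit 4) (nat_lit 56) (nat_lit 4) (nat_lit 435) (nat_lit 308) (nat_lit 277)) (XT.lf (nat_lit 0) (nat_lit 97892635845) (nat_lit 76) (nat_lit 51460267365) (nat_lit 76) (nat_lit 51259670870) (nat_lit 55) (nat_lit 4) (nat_lit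 56) (nat_lit 5) (nat_lit 56) (nat_lit 4) (nat_lit 436) (nat_lit 308) (nat_lit 276))) (XT.nd (nat_lit 78) (nat_lit 76) (nat_lit 0) (XT.lf (nat_lit 0) (nat_lit 65283686458) (nat_lit 152) (nat_lit 80385338050) (nat_lit 0) (nat_lit 65091324182) (nat_lit 53) (nat_lit 5) (nat_lit 55) (nat_lit 4) (nat_lit 53) (nat_lit 4) (nat_lit 437) (nat_lit 308) (nat_lit 275)) (XT.lf (nat_lit 0) (nat_lit 165075122572) (nat_lit 76) (nat_lit 28297738657) (nat_lit 76) (nat_lit 28104156014) (nat_lit 52) (nat_lit 4) (nat_lit 53) (nat_lit 5) (nat_lit 53) (nat_lit 4) (nat_lit 438) (nat_lit 308) (nat_lit 274)))) (XT.nd (nat_lit 156) (nat_lit 456) (nat_lit 0) (XT.nd (nat_lit 78) (nat_lit 76) (nat_lit 0) (XT.lf (nat_lit 0) (nat_lit 100467780370) (nat_lit 152) (nat_lit 31975517282) (nat_lit 0) (nat_lit 100282339787) (nat_lit 50) (nat_lit 5) (nat_lit 52) (nat_lit 4) (nat_lit 50) (nat_lit 4) (nat_lit 439) (nat_lit 308) (nat_lit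 273)) (XT.lf (nat_lit 0) (nat_lit 239915454000) (nat_lit 76) (nat_lit 2460177235) (nat_lit 76) (nat_lit 2273740207) (nat_lit 49) (nat_lit 4) (nat_lit 50) (nat_lit 5) (nat_lit 50) (nat_lit 4) (nat_lit 440) (nat_lit 308) (nat_lit 272))) (XT.nd (nat_lit 78) (nat_lit 228) (nat_lit 0) (XT.lf (nat_lit 0) (nat_lit 22911611188) (nat_lit 76) (nat_lit 117182865505) (nat_lit 76) (nat_lit 117004427732) (nat_lit 46) (nat_lit 4) (nat_lit 47) (nat_lit 5) (nat_lit 47) (nat_lit 4) (nat_lit 441) (nat_lit 308) (nat_lit 271)) (XT.nd (nat_lit 78) (nat_lit 76) (nat_lit 0) (XT.lf (nat_lit 0) (nat_lit 27127178698) (nat_lit 152) (nat_lit 216208723877) (nat_lit 0) (nat_lit 26956463094) (nat_lit 44) (nat_lit 5) (nat_lit 46) (nat_lit 4) (nat_lit 44) (nat_lit 4) (nat_lit 442) (nat_lit 308) (nat_lit 270)) (XT.lf (nat_lit 0) (nat_lit 85798804098) (nat_lit 76) (nat_lit 99250043775) (nat_lit 76) (nat_lit 99078610701) (nat_lit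 43) (nat_lit 4) (nat_lit 44) (nat_lit 5) (nat_lit 44) (nat_lit 4) (nat_lit 443) (nat_lit 308) (nat_lit 269))))))))
noncomputable def xc16 : XT := (XT.nd (nat_lit 50700) (nat_lit 0) (nat_lit 2660) (XT.nd (nat_lit 50076) (nat_lit 0) (nat_lit 4940) (XT.nd (nat_lit 312) (nat_lit 152) (nat_lit 0) (XT.nd (nat_lit 156) (nat_lit 228) (nat_lit 0) (XT.nd (nat_lit 78) (nat_lit 76) (nat_lit 0) (XT.lf (nat_lit 0) (nat_lit 60293675399) (nat_lit 152) (nat_lit 178323364324) (nat_lit 0) (nat_lit 60129773116) (nat_lit 41) (nat_lit 5) (nat_lit 43) (nat_lit 4) (nat_lit 41) (nat_lit 4) (nat_lit 444) (nat_lit 308) (nat_lit 268)) (XT.lf (nat_lit 0) (nat_lit 156768495515) (nat_lit 76) (nat_lit 78760632639) (nat_lit 76) (nat_lit 78596144533) (nat_lit 40) (nat_lit 4) (nat_lit 41) (nat_lit 5) (nat_lit 41) (nat_lit 4) (nat_lit 445) (nat_lit 308) (nat_lit 267))) (XT.nd (nat_lit 78) (nat_lit 76) (nat_lit 0) (XT.lf (nat_lit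 0) (nat_lit 97783866886) (nat_lit 152) (nat_lit 134912797374) (nat_lit 0) (nat_lit 97626694947) (nat_lit 38) (nat_lit 5) (nat_lit 40) (nat_lit 4) (nat_lit 38) (nat_lit 4) (nat_lit 446) (nat_lit 308) (nat_lit 266)) (XT.lf (nat_lit 0) (nat_lit 237108542863) (nat_lit 76) (nat_lit 55230528050) (nat_lit 76) (nat_lit 55072877778) (nat_lit 37) (nat_lit 4) (nat_lit 38) (nat_lit 5) (nat_lit 38) (nat_lit 4) (nat_lit 447) (nat_lit 308) (nat_lit 265)))) (XT.nd (nat_lit 49608) (nat_lit 0) (nat_lit 6308) (XT.nd (nat_lit 49530) (nat_lit 0) (nat_lit 6612) (XT.lf (nat_lit 0) (nat_lit 140277345586) (nat_lit 152) (nat_lit 84953968283) (nat_lit 0) (nat_lit 140126780660) (nat_lit 35) (nat_lit 5) (nat_lit 37) (nat_lit 4) (nat_lit 35) (nat_lit 4) (nat_lit 448) (nat_lit 308) (nat_lit 264)) (XT.lf (nat_lit 0) (nat_lit 3738130420) (nat_lit 152) (nat_lit 14583913598) (nat_lit 0) (nat_lit 3738130420) (nat_lit 122) (nat_lit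 5) (nat_lit 124) (nat_lit 4) (nat_lit 122) (nat_lit 4) (nat_lit 402) (nat_lit 309) (nat_lit 309))) (XT.nd (nat_lit 78) (nat_lit 228) (nat_lit 0) (XT.lf (nat_lit 0) (nat_lit 41481587264) (nat_lit 76) (nat_lit 2217840520) (nat_lit 76) (nat_lit 2166524641) (nat_lit 121) (nat_lit 4) (nat_lit 122) (nat_lit 5) (nat_lit 122) (nat_lit 4) (nat_lit 403) (nat_lit 309) (nat_lit 308)) (XT.lf (nat_lit 0) (nat_lit 21487772023) (nat_lit 76) (nat_lit 13147869263) (nat_lit 76) (nat_lit 13053744899) (nat_lit 118) (nat_lit 4) (nat_lit 119) (nat_lit 5) (nat_lit 119) (nat_lit 4) (nat_lit 404) (nat_lit 309) (nat_lit 307))))) (XT.nd (nat_lit 312) (nat_lit 684) (nat_lit 0) (XT.nd (nat_lit 156) (nat_lit 304) (nat_lit 0) (XT.nd (nat_lit 78) (nat_lit 228) (nat_lit 0) (XT.lf (nat_lit 0) (nat_lit 24186435799) (nat_lit 152) (nat_lit 1378041908) (nat_lit 0) (nat_lit 24056888699) (nat_lit 116) (nat_lit 5) (nat_lit 118) (nat_lit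 4) (nat_lit 116) (nat_lit 4) (nat_lit 405) (nat_lit 309) (nat_lit 306)) (XT.lf (nat_lit 0) (nat_lit 12556448045) (nat_lit 152) (nat_lit 26698448989) (nat_lit 0) (nat_lit 12397880394) (nat_lit 113) (nat_lit 5) (nat_lit 115) (nat_lit 4) (nat_lit 113) (nat_lit 4) (nat_lit 406) (nat_lit 309) (nat_lit 305))) (XT.nd (nat_lit 78) (nat_lit 228) (nat_lit 0) (XT.lf (nat_lit 0) (nat_lit 52132164384) (nat_lit 76) (nat_lit 933186319) (nat_lit 76) (nat_lit 742035835) (nat_lit 112) (nat_lit 4) (nat_lit 113) (nat_lit 5) (nat_lit 113) (nat_lit 4) (nat_lit 407) (nat_lit 309) (nat_lit 304)) (XT.lf (nat_lit 0) (nat_lit 24465591166) (nat_lit 76) (nat_lit 15899241890) (nat_lit 76) (nat_lit 15688461152) (nat_lit 109) (nat_lit 4) (nat_lit 110) (nat_lit 5) (nat_lit 110) (nat_lit 4) (nat_lit 408) (nat_lit 309) (nat_lit 303)))) (XT.nd (nat_lit 156) (nat_lit 304) (nat_lit 0) (XT.nd (nat_lit 78) (nat_lit 228) (nat_lit 0)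 (XT.lf (nat_lit 0) (nat_lit 25867357227) (nat_lit 152) (nat_lit 6926550091) (nat_lit 0) (nat_lit 25641276226) (nat_lit 107) (nat_lit 5) (nat_lit 109) (nat_lit 4) (nat_lit 107) (nat_lit 4) (nat_lit 409) (nat_lit 309) (nat_lit 302)) (XT.lf (nat_lit 0) (nat_lit 9697269852) (nat_lit 152) (nat_lit 41791269103) (nat_lit 0) (nat_lit 9459611191) (nat_lit 104) (nat_lit 5) (nat_lit 106) (nat_lit 4) (nat_lit 104) (nat_lit 4) (nat_lit 410) (nat_lit 309) (nat_lit 301))) (XT.nd (nat_lit 78) (nat_lit 228) (nat_lit 0) (XT.lf (nat_lit 0) (nat_lit 46122654254) (nat_lit 76) (nat_lit 8865925352) (nat_lit 76) (nat_lit 8607578338) (nat_lit 103) (nat_lit 4) (nat_lit 104) (nat_lit 5) (nat_lit 104) (nat_lit 4) (nat_lit 411) (nat_lit 309) (nat_lit 300)) (XT.lf (nat_lit 0) (nat_lit 7597060388) (nat_lit 76) (nat_lit 29525161391) (nat_lit 76) (nat_lit 29260872917) (nat_lit 100) (nat_lit 4) (nat_lit 101) (nat_lit 5) (nat_lit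 101) (nat_lit 4) (nat_lit 412) (nat_lit 309) (nat_lit 299)))))) (XT.nd (nat_lit 624) (nat_lit 1140) (nat_lit 0) (XT.nd (nat_lit 312) (nat_lit 532) (nat_lit 0) (XT.nd (nat_lit 156) (nat_lit 380) (nat_lit 0) (XT.nd (nat_lit 78) (nat_lit 76) (nat_lit 0) (XT.lf (nat_lit 0) (nat_lit 17233274332) (nat_lit 152) (nat_lit 35126600662) (nat_lit 0) (nat_lit 16965483107) (nat_lit 98) (nat_lit 5) (nat_lit 100) (nat_lit 4) (nat_lit 98) (nat_lit 4) (nat_lit 413) (nat_lit 309) (nat_lit 298)) (XT.lf (nat_lit 0) (nat_lit 61702291789) (nat_lit 76) (nat_lit 5509945887) (nat_lit 76) (nat_lit 5227258442) (nat_lit 97) (nat_lit 4) (nat_lit 98) (nat_lit 5) (nat_lit 98) (nat_lit 4) (nat_lit 414) (nat_lit 309) (nat_lit 297))) (XT.nd (nat_lit 78) (nat_lit 152) (nat_lit 0) (XT.lf (nat_lit 0) (nat_lit 14494483305) (nat_lit 76) (nat_lit 30744972581) (nat_lit 76) (nat_lit 30462610446) (nat_lit 94) (nat_lit 4) (nat_lit 95) (nat_lit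 5) (nat_lit 95) (nat_lit 4) (nat_lit 415) (nat_lit 309) (nat_lit 296)) (XT.lf (nat_lit 0) (nat_lit 20719773291) (nat_lit 152) (nat_lit 37994846755) (nat_lit 0) (nat_lit 20439273201) (nat_lit 92) (nat_lit 5) (nat_lit 94) (nat_lit 4) (nat_lit 92) (nat_lit 4) (nat_lit 416) (nat_lit 309) (nat_lit 295)))) (XT.nd (nat_lit 156) (nat_lit 228) (nat_lit 0) (XT.nd (nat_lit 78) (nat_lit 228) (nat_lit 0) (XT.lf (nat_lit 0) (nat_lit 68814626083) (nat_lit 76) (nat_lit 7141092533) (nat_lit 76) (nat_lit 6849866729) (nat_lit 91) (nat_lit 4) (nat_lit 92) (nat_lit 5) (nat_lit 92) (nat_lit 4) (nat_lit 417) (nat_lit 309) (nat_lit 294)) (XT.lf (nat_lit 0) (nat_lit 10732861458) (nat_lit 76) (nat_lit 38094363322) (nat_lit 76) (nat_lit 37807547113) (nat_lit 88) (nat_lit 4) (nat_lit 89) (nat_lit 5) (nat_lit 89) (nat_lit 4) (nat_lit 418) (nat_lit 309) (nat_lit 293))) (XT.nd (nat_lit 78) (nat_lit 76) (nat_lit 0) (XT.lf (nat_lit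 0) (nat_lit 18704628693) (nat_lit 152) (nat_lit 53556632606) (nat_lit 0) (nat_lit 18423129745) (nat_lit 86) (nat_lit 5) (nat_lit 88) (nat_lit 4) (nat_lit 86) (nat_lit 4) (nat_lit 419) (nat_lit 309) (nat_lit 292)) (XT.lf (nat_lit 0) (nat_lit 64386680731) (nat_lit 76) (nat_lit 15429685979) (nat_lit 76) (nat_lit 15140464203) (nat_lit 85) (nat_lit 4) (nat_lit 86) (nat_lit 5) (nat_lit 86) (nat_lit 4) (nat_lit 420) (nat_lit 309) (nat_lit 291))))) (XT.nd (nat_lit 312) (nat_lit 532) (nat_lit 0) (XT.nd (nat_lit 156) (nat_lit 228) (nat_lit 0) (XT.nd (nat_lit 78) (nat_lit 228) (nat_lit 0) (XT.lf (nat_lit 0) (nat_lit 46350850113) (nat_lit 152) (nat_lit 7036272224) (nat_lit 0) (nat_lit 46068590549) (nat_lit 83) (nat_lit 5) (nat_lit 85) (nat_lit 4) (nat_lit 83) (nat_lit 4) (nat_lit 421) (nat_lit 309) (nat_lit 290)) (XT.lf (nat_lit 0) (nat_lit 9330896216) (nat_lit 152) (nat_lit 85826150021) (nat_lit 0) (nat_lit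 9056072068) (nat_lit 80) (nat_lit 5) (nat_lit 82) (nat_lit 4) (nat_lit 80) (nat_lit 4) (nat_lit 422) (nat_lit 309) (nat_lit 289))) (XT.nd (nat_lit 78) (nat_lit 152) (nat_lit 0) (XT.lf (nat_lit 0) (nat_lit 44491199938) (nat_lit 76) (nat_lit 32496225106) (nat_lit 76) (nat_lit 32215840296) (nat_lit 79) (nat_lit 4) (nat_lit 80) (nat_lit 5) (nat_lit 80) (nat_lit 4) (nat_lit 423) (nat_lit 309) (nat_lit 288)) (XT.lf (nat_lit 0) (nat_lit 36049840757) (nat_lit 152) (nat_lit 42651142179) (nat_lit 0) (nat_lit 35777904024) (nat_lit 77) (nat_lit 5) (nat_lit 79) (nat_lit 4) (nat_lit 77) (nat_lit 4) (nat_lit 424) (nat_lit 309) (nat_lit 287)))) (XT.nd (nat_lit 156) (nat_lit 228) (nat_lit 0) (XT.nd (nat_lit 78) (nat_lit 228) (nat_lit 0) (XT.lf (nat_lit 0) (nat_lit 100589618749) (nat_lit 76) (nat_lit 9873138435) (nat_lit 76) (nat_lit 9596661348) (nat_lit 76) (nat_lit 4) (nat_lit 77) (nat_lit 5) (nat_lit 77) (nat_lit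 4) (nat_lit 425) (nat_lit 309) (nat_lit 286)) (XT.lf (nat_lit 0) (nat_lit 4135297147) (nat_lit 76) (nat_lit 61021762597) (nat_lit 76) (nat_lit 60754447246) (nat_lit 73) (nat_lit 4) (nat_lit 74) (nat_lit 5) (nat_lit 74) (nat_lit 4) (nat_lit 426) (nat_lit 309) (nat_lit 285))) (XT.nd (nat_lit 78) (nat_lit 76) (nat_lit 0) (XT.lf (nat_lit 0) (nat_lit 15165368057) (nat_lit 152) (nat_lit 102027816371) (nat_lit 0) (nat_lit 14907251286) (nat_lit 71) (nat_lit 5) (nat_lit 73) (nat_lit 4) (nat_lit 71) (nat_lit 4) (nat_lit 427) (nat_lit 309) (nat_lit 284)) (XT.lf (nat_lit 0) (nat_lit 56565480336) (nat_lit 76) (nat_lit 41148206365) (nat_lit 76) (nat_lit 40886820407) (nat_lit 70) (nat_lit 4) (nat_lit 71) (nat_lit 5) (nat_lit 71) (nat_lit 4) (nat_lit 428) (nat_lit 309) (nat_lit 283)))))))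
noncomputable def xc17 : XT := (XT.nd (nat_lit 1248) (nat_lit 380) (nat_lit 0) (XT.nd (nat_lit 624) (nat_lit 988) (nat_lit 0) (XT.nd (nat_lit 312) (nat_lit 456) (nat_lit 0) (XT.nd (nat_lit 156) (nat_lit 380) (nat_lit 0) (XT.nd (nat_lit 78) (nat_lit 76) (nat_lit 0) (XT.lf (nat_lit 0) (nat_lit 42367138205) (nat_lit 152) (nat_lit 60983834049) (nat_lit 0) (nat_lit 42115316317) (nat_lit 68) (nat_lit 5) (nat_lit 70) (nat_lit 4) (nat_lit 68) (nat_lit 4) (nat_lit 429) (nat_lit 309) (nat_lit 282)) (XT.lf (nat_lit 0) (nat_lit 113943408124) (nat_lit 76) (nat_lit 19514233357) (nat_lit 76) (nat_lit 19259742134) (nat_lit 67) (nat_lit 4) (nat_lit 68) (nat_lit 5) (nat_lit 68) (nat_lit 4) (nat_lit 430) (nat_lit 309) (nat_lit 281))) (XT.nd (nat_lit 78) (nat_lit 228) (nat_lit 0) (XT.lf (nat_lit 0) (nat_lit 72217429559) (nat_lit 152) (nat_lit 16142172586) (nat_lit 0) (nat_lit 71972703055) (nat_lit 65) (nat_lit 5)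 (nat_lit 67) (nat_lit 4) (nat_lit 65) (nat_lit 4) (nat_lit 431) (nat_lit 309) (nat_lit 280)) (XT.lf (nat_lit 0) (nat_lit 4515352489) (nat_lit 152) (nat_lit 159604899075) (nat_lit 0) (nat_lit 4280203870) (nat_lit 62) (nat_lit 5) (nat_lit 64) (nat_lit 4) (nat_lit 62) (nat_lit 4) (nat_lit 432) (nat_lit 309) (nat_lit 279)))) (XT.nd (nat_lit 156) (nat_lit 228) (nat_lit 0) (XT.nd (nat_lit 78) (nat_lit 152) (nat_lit 0) (XT.lf (nat_lit 0) (nat_lit 34273070703) (nat_lit 76) (nat_lit 71397864829) (nat_lit 76) (nat_lit 71160794211) (nat_lit 61) (nat_lit 4) (nat_lit 62) (nat_lit 5) (nat_lit 62) (nat_lit 4) (nat_lit 433) (nat_lit 309) (nat_lit 278)) (XT.lf (nat_lit 0) (nat_lit 31100383587) (nat_lit 152) (nat_lit 123789265557) (nat_lit 0) (nat_lit 30872907162) (nat_lit 59) (nat_lit 5) (nat_lit 61) (nat_lit 4) (nat_lit 59) (nat_lit 4) (nat_lit 434) (nat_lit 309) (nat_lit 277))) (XT.nd (nat_lit 78) (nat_lit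 152) (nat_lit 0) (XT.lf (nat_lit 0) (nat_lit 90634228828) (nat_lit 76) (nat_lit 52373215789) (nat_lit 76) (nat_lit 52144170026) (nat_lit 58) (nat_lit 4) (nat_lit 59) (nat_lit 5) (nat_lit 59) (nat_lit 4) (nat_lit 435) (nat_lit 309) (nat_lit 276)) (XT.lf (nat_lit 0) (nat_lit 60585878408) (nat_lit 152) (nat_lit 84099568337) (nat_lit 0) (nat_lit 60366355691) (nat_lit 56) (nat_lit 5) (nat_lit 58) (nat_lit 4) (nat_lit 56) (nat_lit 4) (nat_lit 436) (nat_lit 309) (nat_lit 275))))) (XT.nd (nat_lit 312) (nat_lit 456) (nat_lit 0) (XT.nd (nat_lit 156) (nat_lit 304) (nat_lit 0) (XT.nd (nat_lit 78) (nat_lit 152) (nat_lit 0) (XT.lf (nat_lit 0) (nat_lit 153292677810) (nat_lit 76) (nat_lit 31214697162) (nat_lit 76) (nat_lit 30993893060) (nat_lit 55) (nat_lit 4) (nat_lit 56) (nat_lit 5) (nat_lit 56) (nat_lit 4) (nat_lit 437) (nat_lit 309) (nat_lit 274)) (XT.lf (nat_lit 0) (nat_lit 93437742487) (nat_lit 152) (nat_lit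 39810543145) (nat_lit 0) (nat_lit 93226322897) (nat_lit 53) (nat_lit 5) (nat_lit 55) (nat_lit 4) (nat_lit 53) (nat_lit 4) (nat_lit 438) (nat_lit 309) (nat_lit 273))) (XT.nd (nat_lit 78) (nat_lit 228) (nat_lit 0) (XT.lf (nat_lit 0) (nat_lit 223243947279) (nat_lit 76) (nat_lit 7533480167) (nat_lit 76) (nat_lit 7321014310) (nat_lit 52) (nat_lit 4) (nat_lit 53) (nat_lit 5) (nat_lit 53) (nat_lit 4) (nat_lit 439) (nat_lit 309) (nat_lit 272)) (XT.lf (nat_lit 0) (nat_lit 10224306053) (nat_lit 76) (nat_lit 120115462580) (nat_lit 76) (nat_lit 119912191510) (nat_lit 49) (nat_lit 4) (nat_lit 50) (nat_lit 5) (nat_lit 50) (nat_lit 4) (nat_lit 440) (nat_lit 309) (nat_lit 271)))) (XT.nd (nat_lit 156) (nat_lit 228) (nat_lit 0) (XT.nd (nat_lit 78) (nat_lit 76) (nat_lit 0) (XT.lf (nat_lit 0) (nat_lit 19624020091) (nat_lit 152) (nat_lit 224069549866) (nat_lit 0) (nat_lit 19429614985) (nat_lit 47) (nat_lit 5) (nat_lit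 49) (nat_lit 4) (nat_lit 47) (nat_lit 4) (nat_lit 441) (nat_lit 309) (nat_lit 270)) (XT.lf (nat_lit 0) (nat_lit 68129803875) (nat_lit 76) (nat_lit 104336967269) (nat_lit 76) (nat_lit 104141808820) (nat_lit 46) (nat_lit 4) (nat_lit 47) (nat_lit 5) (nat_lit 47) (nat_lit 4) (nat_lit 442) (nat_lit 309) (nat_lit 269))) (XT.nd (nat_lit 78) (nat_lit 76) (nat_lit 0) (XT.lf (nat_lit 0) (nat_lit 50211432521) (nat_lit 152) (nat_lit 190633715418) (nat_lit 0) (nat_lit 50024903008) (nat_lit 44) (nat_lit 5) (nat_lit 46) (nat_lit 4) (nat_lit 44) (nat_lit 4) (nat_lit 443) (nat_lit 309) (nat_lit 268)) (XT.lf (nat_lit 0) (nat_lit 133671262681) (nat_lit 76) (nat_lit 86186639930) (nat_lit 76) (nat_lit 85999495303) (nat_lit 43) (nat_lit 4) (nat_lit 44) (nat_lit 5) (nat_lit 44) (nat_lit 4) (nat_lit 444) (nat_lit 309) (nat_lit 267)))))) (XT.nd (nat_lit 49998) (nat_lit 0) (nat_lit 4560) (XT.nd (nat_lit 49686) (nat_lit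 0) (nat_lit 6080) (XT.nd (nat_lit 156) (nat_lit 152) (nat_lit 0) (XT.nd (nat_lit 78) (nat_lit 76) (nat_lit 0) (XT.lf (nat_lit 0) (nat_lit 84885402052) (nat_lit 152) (nat_lit 152066117540) (nat_lit 0) (nat_lit 84706626644) (nat_lit 41) (nat_lit 5) (nat_lit 43) (nat_lit 4) (nat_lit 41) (nat_lit 4) (nat_lit 445) (nat_lit 309) (nat_lit 266)) (XT.lf (nat_lit 0) (nat_lit 208072005852) (nat_lit 76) (nat_lit 65208555578) (nat_lit 76) (nat_lit 65029277921) (nat_lit 40) (nat_lit 4) (nat_lit 41) (nat_lit 5) (nat_lit 41) (nat_lit 4) (nat_lit 446) (nat_lit 309) (nat_lit 265))) (XT.nd (nat_lit 49452) (nat_lit 0) (nat_lit 6764) (XT.lf (nat_lit 0) (nat_lit 124291752670) (nat_lit 152) (nat_lit 107402647307) (nat_lit 0) (nat_lit 124120569144) (nat_lit 38) (nat_lit 5) (nat_lit 40) (nat_lit 4) (nat_lit 38) (nat_lit 4) (nat_lit 447) (nat_lit 309) (nat_lit 264)) (XT.lf (nat_lit 0) (nat_lit 3760342982) (nat_lit 76)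 (nat_lit 8333750929) (nat_lit 76) (nat_lit 8333750929) (nat_lit 127) (nat_lit 4) (nat_lit 128) (nat_lit 5) (nat_lit 128) (nat_lit 4) (nat_lit 400) (nat_lit 310) (nat_lit 310)))) (XT.nd (nat_lit 156) (nat_lit 304) (nat_lit 0) (XT.nd (nat_lit 78) (nat_lit 228) (nat_lit 0) (XT.lf (nat_lit 0) (nat_lit 15967250422) (nat_lit 152) (nat_lit 10589145510) (nat_lit 0) (nat_lit 15909058216) (nat_lit 125) (nat_lit 5) (nat_lit 127) (nat_lit 4) (nat_lit 125) (nat_lit 4) (nat_lit 401) (nat_lit 310) (nat_lit 309)) (XT.lf (nat_lit 0) (nat_lit 6644774561) (nat_lit 152) (nat_lit 30981882153) (nat_lit 0) (nat_lit 6538037533) (nat_lit 122) (nat_lit 5) (nat_lit 124) (nat_lit 4) (nat_lit 122) (nat_lit 4) (nat_lit 402) (nat_lit 310) (nat_lit 308))) (XT.nd (nat_lit 78) (nat_lit 228) (nat_lit 0) (XT.lf (nat_lit 0) (nat_lit 37872333119) (nat_lit 76) (nat_lit 4118047233) (nat_lit 76) (nat_lit 3963795501) (nat_lit 121) (nat_lit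 4) (nat_lit 122) (nat_lit 5) (nat_lit 122) (nat_lit 4) (nat_lit 403) (nat_lit 310) (nat_lit 307)) (XT.lf (nat_lit 0) (nat_lit 15736619629) (nat_lit 76) (nat_lit 16141055240) (nat_lit 76) (nat_lit 15952248739) (nat_lit 118) (nat_lit 4) (nat_lit 119) (nat_lit 5) (nat_lit 119) (nat_lit 4) (nat_lit 404) (nat_lit 310) (nat_lit 306))))) (XT.nd (nat_lit 312) (nat_lit 836) (nat_lit 0) (XT.nd (nat_lit 156) (nat_lit 304) (nat_lit 0) (XT.nd (nat_lit 78) (nat_lit 228) (nat_lit 0) (XT.lf (nat_lit 0) (nat_lit 20381930571) (nat_lit 152) (nat_lit 9267008607) (nat_lit 0) (nat_lit 20165165921) (nat_lit 116) (nat_lit 5) (nat_lit 118) (nat_lit 4) (nat_lit 116) (nat_lit 4) (nat_lit 405) (nat_lit 310) (nat_lit 305)) (XT.lf (nat_lit 0) (nat_lit 7481948570) (nat_lit 152) (nat_lit 37184024362) (nat_lit 0) (nat_lit 7242923213) (nat_lit 113) (nat_lit 5) (nat_lit 115) (nat_lit 4) (nat_lit 113) (nat_lit 4) (nat_lit 406)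 (nat_lit 310) (nat_lit 304))) (XT.nd (nat_lit 78) (nat_lit 228) (nat_lit 0) (XT.lf (nat_lit 0) (nat_lit 39590229890) (nat_lit 76) (nat_lit 7396341990) (nat_lit 76) (nat_lit 7127147343) (nat_lit 112) (nat_lit 4) (nat_lit 113) (nat_lit 5) (nat_lit 113) (nat_lit 4) (nat_lit 407) (nat_lit 310) (nat_lit 303)) (XT.lf (nat_lit 0) (nat_lit 8891817951) (nat_lit 76) (nat_lit 23912383871) (nat_lit 76) (nat_lit 23629403704) (nat_lit 109) (nat_lit 4) (nat_lit 110) (nat_lit 5) (nat_lit 110) (nat_lit 4) (nat_lit 408) (nat_lit 310) (nat_lit 302)))) (XT.nd (nat_lit 156) (nat_lit 608) (nat_lit 0) (XT.nd (nat_lit 78) (nat_lit 76) (nat_lit 0) (XT.lf (nat_lit 0) (nat_lit 16951632214) (nat_lit 152) (nat_lit 25272842077) (nat_lit 0) (nat_lit 16658666700) (nat_lit 107) (nat_lit 5) (nat_lit 109) (nat_lit 4) (nat_lit 107) (nat_lit 4) (nat_lit 409) (nat_lit 310) (nat_lit 301)) (XT.lf (nat_lit 0) (nat_lit 59223444936) (nat_lit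 76) (nat_lit 1286295913) (nat_lit 76) (nat_lit 971607627) (nat_lit 106) (nat_lit 4) (nat_lit 107) (nat_lit 5) (nat_lit 107) (nat_lit 4) (nat_lit 410) (nat_lit 310) (nat_lit 300))) (XT.nd (nat_lit 78) (nat_lit 380) (nat_lit 0) (XT.lf (nat_lit 0) (nat_lit 21722682842) (nat_lit 76) (nat_lit 21393998419) (nat_lit 76) (nat_lit 21075139407) (nat_lit 103) (nat_lit 4) (nat_lit 104) (nat_lit 5) (nat_lit 104) (nat_lit 4) (nat_lit 411) (nat_lit 310) (nat_lit 299)) (XT.nd (nat_lit 78) (nat_lit 228) (nat_lit 0) (XT.lf (nat_lit 0) (nat_lit 23517142421) (nat_lit 152) (nat_lit 20351600722) (nat_lit 0) (nat_lit 23196574858) (nat_lit 101) (nat_lit 5) (nat_lit 103) (nat_lit 4) (nat_lit 101) (nat_lit 4) (nat_lit 412) (nat_lit 310) (nat_lit 298)) (XT.lf (nat_lit 0) (nat_lit 1530186751) (nat_lit 152) (nat_lit 67372213200) (nat_lit 0) (nat_lit 1209988090) (nat_lit 98) (nat_lit 5) (nat_lit 100) (nat_lit 4) (nat_lit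 98) (nat_lit 4) (nat_lit 413) (nat_lit 310) (nat_lit 297))))))))
noncomputable def xc18 : XT := (XT.nd (nat_lit 1248) (nat_lit 2052) (nat_lit 0) (XT.nd (nat_lit 624) (nat_lit 988) (nat_lit 0) (XT.nd (nat_lit 312) (nat_lit 608) (nat_lit 0) (XT.nd (nat_lit 156) (nat_lit 304) (nat_lit 0) (XT.nd (nat_lit 78) (nat_lit 152) (nat_lit 0) (XT.lf (nat_lit 0) (nat_lit 26765155003) (nat_lit 76) (nat_lit 23430518179) (nat_lit 76) (nat_lit 23096526722) (nat_lit 97) (nat_lit 4) (nat_lit 98) (nat_lit 5) (nat_lit 98) (nat_lit 4) (nat_lit 414) (nat_lit 310) (nat_lit 296)) (XT.lf (nat_lit 0) (nat_lit 26065347003) (nat_lit 152) (nat_lit 24862114078) (nat_lit 0) (nat_lit 25735096942) (nat_lit 95) (nat_lit 5) (nat_lit 97) (nat_lit 4) (nat_lit 95) (nat_lit 4) (nat_lit 415) (nat_lit 310) (nat_lit 295))) (XT.nd (nat_lit 78) (nat_lit 228) (nat_lit 0) (XT.lf (nat_lit 0) (nat_lit 77998893648) (nat_lit 76) (nat_lit 1289676091)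 (nat_lit 76) (nat_lit 948164030) (nat_lit 94) (nat_lit 4) (nat_lit 95) (nat_lit 5) (nat_lit 95) (nat_lit 4) (nat_lit 416) (nat_lit 310) (nat_lit 294)) (XT.lf (nat_lit 0) (nat_lit 21254205840) (nat_lit 76) (nat_lit 31523579088) (nat_lit 76) (nat_lit 31188398290) (nat_lit 91) (nat_lit 4) (nat_lit 92) (nat_lit 5) (nat_lit 92) (nat_lit 4) (nat_lit 417) (nat_lit 310) (nat_lit 293)))) (XT.nd (nat_lit 156) (nat_lit 380) (nat_lit 0) (XT.nd (nat_lit 78) (nat_lit 76) (nat_lit 0) (XT.lf (nat_lit 0) (nat_lit 23164352611) (nat_lit 152) (nat_lit 41918807954) (nat_lit 0) (nat_lit 22836375117) (nat_lit 89) (nat_lit 5) (nat_lit 91) (nat_lit 4) (nat_lit 89) (nat_lit 4) (nat_lit 418) (nat_lit 310) (nat_lit 292)) (XT.lf (nat_lit 0) (nat_lit 71751572130) (nat_lit 76) (nat_lit 10341053419) (nat_lit 76) (nat_lit 10004966956) (nat_lit 88) (nat_lit 4) (nat_lit 89) (nat_lit 5) (nat_lit 89) (nat_lit 4) (nat_lit 419) (nat_lit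 310) (nat_lit 291))) (XT.nd (nat_lit 78) (nat_lit 152) (nat_lit 0) (XT.lf (nat_lit 0) (nat_lit 1661002890) (nat_lit 76) (nat_lit 47576767002) (nat_lit 76) (nat_lit 47249533890) (nat_lit 85) (nat_lit 4) (nat_lit 86) (nat_lit 5) (nat_lit 86) (nat_lit 4) (nat_lit 420) (nat_lit 310) (nat_lit 290)) (XT.lf (nat_lit 0) (nat_lit 12984413025) (nat_lit 152) (nat_lit 75474634614) (nat_lit 0) (nat_lit 12666456651) (nat_lit 83) (nat_lit 5) (nat_lit 85) (nat_lit 4) (nat_lit 83) (nat_lit 4) (nat_lit 421) (nat_lit 310) (nat_lit 289))))) (XT.nd (nat_lit 312) (nat_lit 456) (nat_lit 0) (XT.nd (nat_lit 156) (nat_lit 304) (nat_lit 0) (XT.nd (nat_lit 78) (nat_lit 152) (nat_lit 0) (XT.lf (nat_lit 0) (nat_lit 50200693651) (nat_lit 76) (nat_lit 28062528076) (nat_lit 76) (nat_lit 27738733008) (nat_lit 82) (nat_lit 4) (nat_lit 83) (nat_lit 5) (nat_lit 83) (nat_lit 4) (nat_lit 422) (nat_lit 310) (nat_lit 288)) (XT.lf (nat_lit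 0) (nat_lit 38068295214) (nat_lit 152) (nat_lit 35327555993) (nat_lit 0) (nat_lit 37754770197) (nat_lit 80) (nat_lit 5) (nat_lit 82) (nat_lit 4) (nat_lit 80) (nat_lit 4) (nat_lit 423) (nat_lit 310) (nat_lit 287))) (XT.nd (nat_lit 78) (nat_lit 228) (nat_lit 0) (XT.lf (nat_lit 0) (nat_lit 102922182615) (nat_lit 76) (nat_lit 6998462518) (nat_lit 76) (nat_lit 6680170130) (nat_lit 79) (nat_lit 4) (nat_lit 80) (nat_lit 5) (nat_lit 80) (nat_lit 4) (nat_lit 424) (nat_lit 310) (nat_lit 286)) (XT.lf (nat_lit 0) (nat_lit 8429283391) (nat_lit 76) (nat_lit 57092917754) (nat_lit 76) (nat_lit 56785578116) (nat_lit 76) (nat_lit 4) (nat_lit 77) (nat_lit 5) (nat_lit 77) (nat_lit 4) (nat_lit 425) (nat_lit 310) (nat_lit 285)))) (XT.nd (nat_lit 156) (nat_lit 228) (nat_lit 0) (XT.nd (nat_lit 78) (nat_lit 76) (nat_lit 0) (XT.lf (nat_lit 0) (nat_lit 16463469807) (nat_lit 152) (nat_lit 95716928002) (nat_lit 0) (nat_lit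 16167058132) (nat_lit 74) (nat_lit 5) (nat_lit 76) (nat_lit 4) (nat_lit 74) (nat_lit 4) (nat_lit 426) (nat_lit 310) (nat_lit 284)) (XT.lf (nat_lit 0) (nat_lit 57413536827) (nat_lit 76) (nat_lit 38789531429) (nat_lit 76) (nat_lit 38489687107) (nat_lit 73) (nat_lit 4) (nat_lit 74) (nat_lit 5) (nat_lit 74) (nat_lit 4) (nat_lit 427) (nat_lit 310) (nat_lit 283))) (XT.nd (nat_lit 78) (nat_lit 76) (nat_lit 0) (XT.lf (nat_lit 0) (nat_lit 41905850539) (nat_lit 152) (nat_lit 57868999887) (nat_lit 0) (nat_lit 41617257493) (nat_lit 71) (nat_lit 5) (nat_lit 73) (nat_lit 4) (nat_lit 71) (nat_lit 4) (nat_lit 428) (nat_lit 310) (nat_lit 282)) (XT.lf (nat_lit 0) (nat_lit 111137951840) (nat_lit 76) (nat_lit 18810552768) (nat_lit 76) (nat_lit 18519156920) (nat_lit 70) (nat_lit 4) (nat_lit 71) (nat_lit 5) (nat_lit 71) (nat_lit 4) (nat_lit 429) (nat_lit 310) (nat_lit 281)))))) (XT.nd (nat_lit 624) (nat_lit 988) (nat_lit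 0) (XT.nd (nat_lit 312) (nat_lit 456) (nat_lit 0) (XT.nd (nat_lit 156) (nat_lit 228) (nat_lit 0) (XT.nd (nat_lit 78) (nat_lit 228) (nat_lit 0) (XT.lf (nat_lit 0) (nat_lit 69884863856) (nat_lit 152) (nat_lit 16407437676) (nat_lit 0) (nat_lit 69604872395) (nat_lit 68) (nat_lit 5) (nat_lit 70) (nat_lit 4) (nat_lit 68) (nat_lit 4) (nat_lit 430) (nat_lit 310) (nat_lit 280)) (XT.lf (nat_lit 0) (nat_lit 3480352381) (nat_lit 152) (nat_lit 157078388980) (nat_lit 0) (nat_lit 3211514300) (nat_lit 65) (nat_lit 5) (nat_lit 67) (nat_lit 4) (nat_lit 65) (nat_lit 4) (nat_lit 431) (nat_lit 310) (nat_lit 279))) (XT.nd (nat_lit 78) (nat_lit 152) (nat_lit 0) (XT.lf (nat_lit 0) (nat_lit 30281754626) (nat_lit 76) (nat_lit 70992021773) (nat_lit 76) (nat_lit 70721165593) (nat_lit 64) (nat_lit 4) (nat_lit 65) (nat_lit 5) (nat_lit 65) (nat_lit 4) (nat_lit 432) (nat_lit 310) (nat_lit 278)) (XT.lf (nat_lit 0) (nat_lit 28157580062)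 (nat_lit 152) (nat_lit 124653019670) (nat_lit 0) (nat_lit 27897842167) (nat_lit 62) (nat_lit 5) (nat_lit 64) (nat_lit 4) (nat_lit 62) (nat_lit 4) (nat_lit 433) (nat_lit 310) (nat_lit 277)))) (XT.nd (nat_lit 156) (nat_lit 228) (nat_lit 0) (XT.nd (nat_lit 78) (nat_lit 152) (nat_lit 0) (XT.lf (nat_lit 0) (nat_lit 82661322851) (nat_lit 76) (nat_lit 53732436755) (nat_lit 76) (nat_lit 53471051055) (nat_lit 61) (nat_lit 4) (nat_lit 62) (nat_lit 5) (nat_lit 62) (nat_lit 4) (nat_lit 434) (nat_lit 310) (nat_lit 276)) (XT.lf (nat_lit 0) (nat_lit 55593744736) (nat_lit 152) (nat_lit 88586196667) (nat_lit 0) (nat_lit 55343352885) (nat_lit 59) (nat_lit 5) (nat_lit 61) (nat_lit 4) (nat_lit 59) (nat_lit 4) (nat_lit 435) (nat_lit 310) (nat_lit 275))) (XT.nd (nat_lit 78) (nat_lit 152) (nat_lit 0) (XT.lf (nat_lit 0) (nat_lit 141030916345) (nat_lit 76) (nat_lit 34466059009) (nat_lit 76) (nat_lit 34214321703) (nat_lit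 58) (nat_lit 4) (nat_lit 59) (nat_lit 5) (nat_lit 59) (nat_lit 4) (nat_lit 436) (nat_lit 310) (nat_lit 274)) (XT.lf (nat_lit 0) (nat_lit 86232341146) (nat_lit 152) (nat_lit 48192220998) (nat_lit 0) (nat_lit 85991404864) (nat_lit 56) (nat_lit 5) (nat_lit 58) (nat_lit 4) (nat_lit 56) (nat_lit 4) (nat_lit 437) (nat_lit 310) (nat_lit 273))))) (XT.nd (nat_lit 312) (nat_lit 456) (nat_lit 0) (XT.nd (nat_lit 156) (nat_lit 304) (nat_lit 0) (XT.nd (nat_lit 78) (nat_lit 152) (nat_lit 0) (XT.lf (nat_lit 0) (nat_lit 206338526103) (nat_lit 76) (nat_lit 12825048867) (nat_lit 76) (nat_lit 12583014004) (nat_lit 55) (nat_lit 4) (nat_lit 56) (nat_lit 5) (nat_lit 56) (nat_lit 4) (nat_lit 438) (nat_lit 310) (nat_lit 272)) (XT.lf (nat_lit 0) (nat_lit 120572707970) (nat_lit 152) (nat_lit 2695642127) (nat_lit 0) (nat_lit 120341229811) (nat_lit 53) (nat_lit 5) (nat_lit 55) (nat_lit 4) (nat_lit 53) (nat_lit 4) (nat_lit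 439) (nat_lit 310) (nat_lit 271))) (XT.nd (nat_lit 78) (nat_lit 76) (nat_lit 0) (XT.lf (nat_lit 0) (nat_lit 12025727297) (nat_lit 152) (nat_lit 232338376511) (nat_lit 0) (nat_lit 11804417617) (nat_lit 50) (nat_lit 5) (nat_lit 52) (nat_lit 4) (nat_lit 50) (nat_lit 4) (nat_lit 440) (nat_lit 310) (nat_lit 270)) (XT.lf (nat_lit 0) (nat_lit 50393845295) (nat_lit 76) (nat_lit 109570257362) (nat_lit 76) (nat_lit 109348156671) (nat_lit 49) (nat_lit 4) (nat_lit 50) (nat_lit 5) (nat_lit 50) (nat_lit 4) (nat_lit 441) (nat_lit 310) (nat_lit 269)))) (XT.nd (nat_lit 156) (nat_lit 228) (nat_lit 0) (XT.nd (nat_lit 78) (nat_lit 76) (nat_lit 0) (XT.lf (nat_lit 0) (nat_lit 40163729438) (nat_lit 152) (nat_lit 203109313482) (nat_lit 0) (nat_lit 39951507431) (nat_lit 47) (nat_lit 5) (nat_lit 49) (nat_lit 4) (nat_lit 47) (nat_lit 4) (nat_lit 442) (nat_lit 310) (nat_lit 268)) (XT.lf (nat_lit 0) (nat_lit 110776059063)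 (nat_lit 76) (nat_lit 93633403837) (nat_lit 76) (nat_lit 93420535959) (nat_lit 46) (nat_lit 4) (nat_lit 47) (nat_lit 5) (nat_lit 47) (nat_lit 4) (nat_lit 443) (nat_lit 310) (nat_lit 267))) (XT.nd (nat_lit 78) (nat_lit 76) (nat_lit 0) (XT.lf (nat_lit 0) (nat_lit 72158799392) (nat_lit 152) (nat_lit 169128834489) (nat_lit 0) (nat_lit 71955498529) (nat_lit 44) (nat_lit 5) (nat_lit 46) (nat_lit 4) (nat_lit 44) (nat_lit 4) (nat_lit 444) (nat_lit 310) (nat_lit 266)) (XT.lf (nat_lit 0) (nat_lit 179523189224) (nat_lit 76) (nat_lit 75074534648) (nat_lit 76) (nat_lit 74870706424) (nat_lit 43) (nat_lit 4) (nat_lit 44) (nat_lit 5) (nat_lit 44) (nat_lit 4) (nat_lit 445) (nat_lit 310) (nat_lit 265)))))))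
noncomputable def xc19 : XT := (XT.nd (nat_lit 50466) (nat_lit 0) (nat_lit 2508) (XT.nd (nat_lit 49842) (nat_lit 0) (nat_lit 4864) (XT.nd (nat_lit 49530) (nat_lit 0) (nat_lit 6156) (XT.nd (nat_lit 49374) (nat_lit 0) (nat_lit 6840) (XT.nd (nat_lit 78) (nat_lit 76) (nat_lit 0) (XT.lf (nat_lit 0) (nat_lit 108624307450) (nat_lit 152) (nat_lit 129489366536) (nat_lit 0) (nat_lit 108429720286) (nat_lit 41) (nat_lit 5) (nat_lit 43) (nat_lit 4) (nat_lit 41) (nat_lit 4) (nat_lit 446) (nat_lit 310) (nat_lit 264)) (XT.lf (nat_lit 0) (nat_lit 257949959989) (nat_lit 76) (nat_lit 53404554434) (nat_lit 76) (nat_lit 53209536672) (nat_lit 40) (nat_lit 4) (nat_lit 41) (nat_lit 5) (nat_lit 41) (nat_lit 4) (nat_lit 447) (nat_lit 310) (nat_lit 263))) (XT.nd (nat_lit 78) (nat_lit 76) (nat_lit 0) (XT.lf (nat_lit 0) (nat_lit 326722981) (nat_lit 152) (nat_lit 18268661429) (nat_lit 0) (nat_lit 326722981) (nat_lit 131)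 (nat_lit 5) (nat_lit 133) (nat_lit 4) (nat_lit 131) (nat_lit 4) (nat_lit 398) (nat_lit 311) (nat_lit 311)) (XT.lf (nat_lit 0) (nat_lit 23638385907) (nat_lit 76) (nat_lit 7879161306) (nat_lit 76) (nat_lit 7809871845) (nat_lit 130) (nat_lit 4) (nat_lit 131) (nat_lit 5) (nat_lit 131) (nat_lit 4) (nat_lit 399) (nat_lit 311) (nat_lit 310)))) (XT.nd (nat_lit 156) (nat_lit 304) (nat_lit 0) (XT.nd (nat_lit 78) (nat_lit 152) (nat_lit 0) (XT.lf (nat_lit 0) (nat_lit 5855990339) (nat_lit 76) (nat_lit 17583756340) (nat_lit 76) (nat_lit 17456664560) (nat_lit 127) (nat_lit 4) (nat_lit 128) (nat_lit 5) (nat_lit 128) (nat_lit 4) (nat_lit 400) (nat_lit 311) (nat_lit 309)) (XT.lf (nat_lit 0) (nat_lit 14356439279) (nat_lit 152) (nat_lit 14011179990) (nat_lit 0) (nat_lit 14181517816) (nat_lit 125) (nat_lit 5) (nat_lit 127) (nat_lit 4) (nat_lit 125) (nat_lit 4) (nat_lit 401) (nat_lit 311) (nat_lit 308))) (XT.nd (nat_lit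 78) (nat_lit 76) (nat_lit 0) (XT.lf (nat_lit 0) (nat_lit 4038651372) (nat_lit 152) (nat_lit 36434796978) (nat_lit 0) (nat_lit 3824544799) (nat_lit 122) (nat_lit 5) (nat_lit 124) (nat_lit 4) (nat_lit 122) (nat_lit 4) (nat_lit 402) (nat_lit 311) (nat_lit 307)) (XT.lf (nat_lit 0) (nat_lit 30632436657) (nat_lit 76) (nat_lit 7878405264) (nat_lit 76) (nat_lit 7620303596) (nat_lit 121) (nat_lit 4) (nat_lit 122) (nat_lit 5) (nat_lit 122) (nat_lit 4) (nat_lit 403) (nat_lit 311) (nat_lit 306))))) (XT.nd (nat_lit 312) (nat_lit 608) (nat_lit 0) (XT.nd (nat_lit 156) (nat_lit 304) (nat_lit 0) (XT.nd (nat_lit 78) (nat_lit 152) (nat_lit 0) (XT.lf (nat_lit 0) (nat_lit 6113505435) (nat_lit 76) (nat_lit 21118089935) (nat_lit 76) (nat_lit 20833482443) (nat_lit 118) (nat_lit 4) (nat_lit 119) (nat_lit 5) (nat_lit 119) (nat_lit 4) (nat_lit 404) (nat_lit 311) (nat_lit 305)) (XT.lf (nat_lit 0) (nat_lit 14625522900) (nat_lit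 152) (nat_lit 21158860918) (nat_lit 0) (nat_lit 14320256170) (nat_lit 116) (nat_lit 5) (nat_lit 118) (nat_lit 4) (nat_lit 116) (nat_lit 4) (nat_lit 405) (nat_lit 311) (nat_lit 304))) (XT.nd (nat_lit 78) (nat_lit 76) (nat_lit 0) (XT.lf (nat_lit 0) (nat_lit 318848801) (nat_lit 76) (nat_lit 1050362) (nat_lit 152) (nat_lit 51949684695) (nat_lit 113) (nat_lit 5) (nat_lit 114) (nat_lit 5) (nat_lit 115) (nat_lit 4) (nat_lit 406) (nat_lit 311) (nat_lit 303)) (XT.lf (nat_lit 0) (nat_lit 22752264728) (nat_lit 76) (nat_lit 16060775187) (nat_lit 76) (nat_lit 15711941149) (nat_lit 112) (nat_lit 4) (nat_lit 113) (nat_lit 5) (nat_lit 113) (nat_lit 4) (nat_lit 407) (nat_lit 311) (nat_lit 302)))) (XT.nd (nat_lit 156) (nat_lit 228) (nat_lit 0) (XT.nd (nat_lit 78) (nat_lit 228) (nat_lit 0) (XT.lf (nat_lit 0) (nat_lit 23173226665) (nat_lit 152) (nat_lit 10928019606) (nat_lit 0) (nat_lit 22816370149) (nat_lit 110)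 (nat_lit 5) (nat_lit 112) (nat_lit 4) (nat_lit 110) (nat_lit 4) (nat_lit 408) (nat_lit 311) (nat_lit 301)) (XT.lf (nat_lit 0) (nat_lit 5700456735) (nat_lit 152) (nat_lit 48408717307) (nat_lit 0) (nat_lit 5338870614) (nat_lit 107) (nat_lit 5) (nat_lit 109) (nat_lit 4) (nat_lit 107) (nat_lit 4) (nat_lit 409) (nat_lit 311) (nat_lit 300))) (XT.nd (nat_lit 78) (nat_lit 152) (nat_lit 0) (XT.lf (nat_lit 0) (nat_lit 33794941726) (nat_lit 76) (nat_lit 14344483607) (nat_lit 76) (nat_lit 13962783810) (nat_lit 106) (nat_lit 4) (nat_lit 107) (nat_lit 5) (nat_lit 107) (nat_lit 4) (nat_lit 410) (nat_lit 311) (nat_lit 299)) (XT.lf (nat_lit 0) (nat_lit 28834137357) (nat_lit 152) (nat_lit 7621166925) (nat_lit 0) (nat_lit 28452876811) (nat_lit 104) (nat_lit 5) (nat_lit 106) (nat_lit 4) (nat_lit 104) (nat_lit 4) (nat_lit 411) (nat_lit 311) (nat_lit 298)))))) (XT.nd (nat_lit 624) (nat_lit 1140) (nat_lit 0) (XT.nd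 (nat_lit 312) (nat_lit 532) (nat_lit 0) (XT.nd (nat_lit 156) (nat_lit 380) (nat_lit 0) (XT.nd (nat_lit 78) (nat_lit 76) (nat_lit 0) (XT.lf (nat_lit 0) (nat_lit 7386780676) (nat_lit 152) (nat_lit 53479147936) (nat_lit 0) (nat_lit 7008034364) (nat_lit 101) (nat_lit 5) (nat_lit 103) (nat_lit 4) (nat_lit 101) (nat_lit 4) (nat_lit 412) (nat_lit 311) (nat_lit 297)) (XT.lf (nat_lit 0) (nat_lit 37115610736) (nat_lit 76) (nat_lit 17132832492) (nat_lit 76) (nat_lit 16739603744) (nat_lit 100) (nat_lit 4) (nat_lit 101) (nat_lit 5) (nat_lit 101) (nat_lit 4) (nat_lit 413) (nat_lit 311) (nat_lit 296))) (XT.nd (nat_lit 78) (nat_lit 228) (nat_lit 0) (XT.lf (nat_lit 0) (nat_lit 30509877454) (nat_lit 152) (nat_lit 13646035065) (nat_lit 0) (nat_lit 30122602777) (nat_lit 98) (nat_lit 5) (nat_lit 100) (nat_lit 4) (nat_lit 98) (nat_lit 4) (nat_lit 414) (nat_lit 311) (nat_lit 295)) (XT.lf (nat_lit 0) (nat_lit 4091863556)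 (nat_lit 152) (nat_lit 69959529257) (nat_lit 0) (nat_lit 3711768531) (nat_lit 95) (nat_lit 5) (nat_lit 97) (nat_lit 4) (nat_lit 95) (nat_lit 4) (nat_lit 415) (nat_lit 311) (nat_lit 294)))) (XT.nd (nat_lit 156) (nat_lit 304) (nat_lit 0) (XT.nd (nat_lit 78) (nat_lit 152) (nat_lit 0) (XT.lf (nat_lit 0) (nat_lit 29987813238) (nat_lit 76) (nat_lit 25905566003) (nat_lit 76) (nat_lit 25515043200) (nat_lit 94) (nat_lit 4) (nat_lit 95) (nat_lit 5) (nat_lit 95) (nat_lit 4) (nat_lit 416) (nat_lit 311) (nat_lit 293)) (XT.lf (nat_lit 0) (nat_lit 26788679661) (nat_lit 152) (nat_lit 32071238493) (nat_lit 0) (nat_lit 26407557612) (nat_lit 92) (nat_lit 5) (nat_lit 94) (nat_lit 4) (nat_lit 92) (nat_lit 4) (nat_lit 417) (nat_lit 311) (nat_lit 292))) (XT.nd (nat_lit 78) (nat_lit 228) (nat_lit 0) (XT.lf (nat_lit 0) (nat_lit 77520235087) (nat_lit 76) (nat_lit 6110667262) (nat_lit 76) (nat_lit 5721030795) (nat_lit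 91) (nat_lit 4) (nat_lit 92) (nat_lit 5) (nat_lit 92) (nat_lit 4) (nat_lit 418) (nat_lit 311) (nat_lit 291)) (XT.lf (nat_lit 0) (nat_lit 8934559702) (nat_lit 76) (nat_lit 42537208070) (nat_lit 76) (nat_lit 42158617416) (nat_lit 88) (nat_lit 4) (nat_lit 89) (nat_lit 5) (nat_lit 89) (nat_lit 4) (nat_lit 419) (nat_lit 311) (nat_lit 290))))) (XT.nd (nat_lit 312) (nat_lit 684) (nat_lit 0) (XT.nd (nat_lit 156) (nat_lit 228) (nat_lit 0) (XT.nd (nat_lit 78) (nat_lit 76) (nat_lit 0) (XT.lf (nat_lit 0) (nat_lit 15867768183) (nat_lit 152) (nat_lit 66789117580) (nat_lit 0) (nat_lit 15500584576) (nat_lit 86) (nat_lit 5) (nat_lit 88) (nat_lit 4) (nat_lit 86) (nat_lit 4) (nat_lit 420) (nat_lit 311) (nat_lit 289)) (XT.lf (nat_lit 0) (nat_lit 54447052000) (nat_lit 76) (nat_lit 24423920632) (nat_lit 76) (nat_lit 24050606395) (nat_lit 85) (nat_lit 4) (nat_lit 86) (nat_lit 5) (nat_lit 86) (nat_lit 4) (nat_lit 421)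 (nat_lit 311) (nat_lit 288))) (XT.nd (nat_lit 78) (nat_lit 76) (nat_lit 0) (XT.lf (nat_lit 0) (nat_lit 39412545781) (nat_lit 152) (nat_lit 29481927654) (nat_lit 0) (nat_lit 39051602213) (nat_lit 83) (nat_lit 5) (nat_lit 85) (nat_lit 4) (nat_lit 83) (nat_lit 4) (nat_lit 422) (nat_lit 311) (nat_lit 287)) (XT.lf (nat_lit 0) (nat_lit 103986237025) (nat_lit 76) (nat_lit 4823768546) (nat_lit 76) (nat_lit 4457819238) (nat_lit 82) (nat_lit 4) (nat_lit 83) (nat_lit 5) (nat_lit 83) (nat_lit 4) (nat_lit 423) (nat_lit 311) (nat_lit 286)))) (XT.nd (nat_lit 156) (nat_lit 304) (nat_lit 0) (XT.nd (nat_lit 78) (nat_lit 152) (nat_lit 0) (XT.lf (nat_lit 0) (nat_lit 11391821196) (nat_lit 76) (nat_lit 53897504480) (nat_lit 76) (nat_lit 53544567098) (nat_lit 79) (nat_lit 4) (nat_lit 80) (nat_lit 5) (nat_lit 80) (nat_lit 4) (nat_lit 424) (nat_lit 311) (nat_lit 285)) (XT.lf (nat_lit 0) (nat_lit 17153149831) (nat_lit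 152) (nat_lit 90761395186) (nat_lit 0) (nat_lit 16813126369) (nat_lit 77) (nat_lit 5) (nat_lit 79) (nat_lit 4) (nat_lit 77) (nat_lit 4) (nat_lit 425) (nat_lit 311) (nat_lit 284))) (XT.nd (nat_lit 78) (nat_lit 228) (nat_lit 0) (XT.lf (nat_lit 0) (nat_lit 57127953457) (nat_lit 76) (nat_lit 37068232719) (nat_lit 76) (nat_lit 36724604978) (nat_lit 76) (nat_lit 4) (nat_lit 77) (nat_lit 5) (nat_lit 77) (nat_lit 4) (nat_lit 426) (nat_lit 311) (nat_lit 283)) (XT.nd (nat_lit 78) (nat_lit 76) (nat_lit 0) (XT.lf (nat_lit 0) (nat_lit 40934979045) (nat_lit 152) (nat_lit 55918015635) (nat_lit 0) (nat_lit 40604536154) (nat_lit 74) (nat_lit 5) (nat_lit 76) (nat_lit 4) (nat_lit 74) (nat_lit 4) (nat_lit 427) (nat_lit 311) (nat_lit 282)) (XT.lf (nat_lit 0) (nat_lit 107400494866) (nat_lit 76) (nat_lit 18646833025) (nat_lit 76) (nat_lit 18313447193) (nat_lit 73) (nat_lit 4) (nat_lit 74) (nat_lit 5) (nat_lit 74) (nat_lit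 4) (nat_lit 428) (nat_lit 311) (nat_lit 281))))))))
noncomputable def xc20 : XT := (XT.nd (nat_lit 1248) (nat_lit 380) (nat_lit 0) (XT.nd (nat_lit 624) (nat_lit 988) (nat_lit 0) (XT.nd (nat_lit 312) (nat_lit 456) (nat_lit 0) (XT.nd (nat_lit 156) (nat_lit 228) (nat_lit 0) (XT.nd (nat_lit 78) (nat_lit 228) (nat_lit 0) (XT.lf (nat_lit 0) (nat_lit 67143823588) (nat_lit 152) (nat_lit 17641659630) (nat_lit 0) (nat_lit 66823718085) (nat_lit 71) (nat_lit 5) (nat_lit 73) (nat_lit 4) (nat_lit 71) (nat_lit 4) (nat_lit 429) (nat_lit 311) (nat_lit 280)) (XT.lf (nat_lit 0) (nat_lit 2002426833) (nat_lit 152) (nat_lit 155594836566) (nat_lit 0) (nat_lit 1695275925) (nat_lit 68) (nat_lit 5) (nat_lit 70) (nat_lit 4) (nat_lit 68) (nat_lit 4) (nat_lit 430) (nat_lit 311) (nat_lit 279))) (XT.nd (nat_lit 78) (nat_lit 152) (nat_lit 0) (XT.lf (nat_lit 0) (nat_lit 25495770951) (nat_lit 76) (nat_lit 71064117513) (nat_lit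 76) (nat_lit 70754847602) (nat_lit 67) (nat_lit 4) (nat_lit 68) (nat_lit 5) (nat_lit 68) (nat_lit 4) (nat_lit 431) (nat_lit 311) (nat_lit 278)) (XT.lf (nat_lit 0) (nat_lit 24875604110) (nat_lit 152) (nat_lit 126361238100) (nat_lit 0) (nat_lit 24579192727) (nat_lit 65) (nat_lit 5) (nat_lit 67) (nat_lit 4) (nat_lit 65) (nat_lit 4) (nat_lit 432) (nat_lit 311) (nat_lit 277)))) (XT.nd (nat_lit 156) (nat_lit 228) (nat_lit 0) (XT.nd (nat_lit 78) (nat_lit 152) (nat_lit 0) (XT.lf (nat_lit 0) (nat_lit 74106672221) (nat_lit 76) (nat_lit 55468027816) (nat_lit 76) (nat_lit 55169886239) (nat_lit 64) (nat_lit 4) (nat_lit 65) (nat_lit 5) (nat_lit 65) (nat_lit 4) (nat_lit 433) (nat_lit 311) (nat_lit 276)) (XT.lf (nat_lit 0) (nat_lit 50369891006) (nat_lit 152) (nat_lit 93712820117) (nat_lit 0) (nat_lit 50084420902) (nat_lit 62) (nat_lit 5) (nat_lit 64) (nat_lit 4) (nat_lit 62) (nat_lit 4) (nat_lit 434) (nat_lit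 311) (nat_lit 275))) (XT.nd (nat_lit 78) (nat_lit 152) (nat_lit 0) (XT.lf (nat_lit 0) (nat_lit 128408664973) (nat_lit 76) (nat_lit 37988801533) (nat_lit 76) (nat_lit 37701918702) (nat_lit 61) (nat_lit 4) (nat_lit 62) (nat_lit 5) (nat_lit 62) (nat_lit 4) (nat_lit 435) (nat_lit 311) (nat_lit 274)) (XT.lf (nat_lit 0) (nat_lit 78907268373) (nat_lit 152) (nat_lit 57001787415) (nat_lit 0) (nat_lit 78632800839) (nat_lit 59) (nat_lit 5) (nat_lit 61) (nat_lit 4) (nat_lit 59) (nat_lit 4) (nat_lit 436) (nat_lit 311) (nat_lit 273))))) (XT.nd (nat_lit 312) (nat_lit 456) (nat_lit 0) (XT.nd (nat_lit 156) (nat_lit 304) (nat_lit 0) (XT.nd (nat_lit 78) (nat_lit 152) (nat_lit 0) (XT.lf (nat_lit 0) (nat_lit 189304086849) (nat_lit 76) (nat_lit 18278715777) (nat_lit 76) (nat_lit 18003094733) (nat_lit 58) (nat_lit 4) (nat_lit 59) (nat_lit 5) (nat_lit 59) (nat_lit 4) (nat_lit 437) (nat_lit 311) (nat_lit 272)) (XT.lf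 (nat_lit 0) (nat_lit 110963226504) (nat_lit 152) (nat_lit 15494689894) (nat_lit 0) (nat_lit 110699713067) (nat_lit 56) (nat_lit 5) (nat_lit 58) (nat_lit 4) (nat_lit 56) (nat_lit 4) (nat_lit 438) (nat_lit 311) (nat_lit 271))) (XT.nd (nat_lit 78) (nat_lit 76) (nat_lit 0) (XT.lf (nat_lit 0) (nat_lit 4382851067) (nat_lit 152) (nat_lit 240906207154) (nat_lit 0) (nat_lit 4130988883) (nat_lit 53) (nat_lit 5) (nat_lit 55) (nat_lit 4) (nat_lit 53) (nat_lit 4) (nat_lit 439) (nat_lit 311) (nat_lit 270)) (XT.lf (nat_lit 0) (nat_lit 32685378107) (nat_lit 76) (nat_lit 114898691836) (nat_lit 76) (nat_lit 114645999091) (nat_lit 52) (nat_lit 4) (nat_lit 53) (nat_lit 5) (nat_lit 53) (nat_lit 4) (nat_lit 440) (nat_lit 311) (nat_lit 269)))) (XT.nd (nat_lit 156) (nat_lit 228) (nat_lit 0) (XT.nd (nat_lit 78) (nat_lit 76) (nat_lit 0) (XT.lf (nat_lit 0) (nat_lit 30194048311) (nat_lit 152) (nat_lit 215654985549) (nat_lit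 0) (nat_lit 29952656138) (nat_lit 50) (nat_lit 5) (nat_lit 52) (nat_lit 4) (nat_lit 50) (nat_lit 4) (nat_lit 441) (nat_lit 311) (nat_lit 268)) (XT.lf (nat_lit 0) (nat_lit 88163002745) (nat_lit 76) (nat_lit 101056692230) (nat_lit 76) (nat_lit 100814621893) (nat_lit 49) (nat_lit 4) (nat_lit 50) (nat_lit 5) (nat_lit 50) (nat_lit 4) (nat_lit 442) (nat_lit 311) (nat_lit 267))) (XT.nd (nat_lit 78) (nat_lit 76) (nat_lit 0) (XT.lf (nat_lit 0) (nat_lit 59640363236) (nat_lit 152) (nat_lit 186019752341) (nat_lit 0) (nat_lit 59409222030) (nat_lit 47) (nat_lit 5) (nat_lit 49) (nat_lit 4) (nat_lit 47) (nat_lit 4) (nat_lit 443) (nat_lit 311) (nat_lit 266)) (XT.lf (nat_lit 0) (nat_lit 151527607846) (nat_lit 76) (nat_lit 84791325103) (nat_lit 76) (nat_lit 84559630167) (nat_lit 46) (nat_lit 4) (nat_lit 47) (nat_lit 5) (nat_lit 47) (nat_lit 4) (nat_lit 444) (nat_lit 311) (nat_lit 265)))))) (XT.nd (nat_lit 49686)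 (nat_lit 0) (nat_lit 5244) (XT.nd (nat_lit 49374) (nat_lit 0) (nat_lit 6536) (XT.nd (nat_lit 156) (nat_lit 152) (nat_lit 0) (XT.nd (nat_lit 78) (nat_lit 76) (nat_lit 0) (XT.lf (nat_lit 0) (nat_lit 93303976139) (nat_lit 152) (nat_lit 151147157226) (nat_lit 0) (nat_lit 93082825998) (nat_lit 44) (nat_lit 5) (nat_lit 46) (nat_lit 4) (nat_lit 44) (nat_lit 4) (nat_lit 445) (nat_lit 311) (nat_lit 264)) (XT.lf (nat_lit 0) (nat_lit 224027555960) (nat_lit 76) (nat_lit 65642366010) (nat_lit 76) (nat_lit 65420763741) (nat_lit 43) (nat_lit 4) (nat_lit 44) (nat_lit 5) (nat_lit 44) (nat_lit 4) (nat_lit 446) (nat_lit 311) (nat_lit 263))) (XT.nd (nat_lit 49140) (nat_lit 0) (nat_lit 7296) (XT.lf (nat_lit 0) (nat_lit 131844493160) (nat_lit 152) (nat_lit 110062815921) (nat_lit 0) (nat_lit 131633044678) (nat_lit 41) (nat_lit 5) (nat_lit 43) (nat_lit 4) (nat_lit 41) (nat_lit 4) (nat_lit 447) (nat_lit 311) (nat_lit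 262)) (XT.lf (nat_lit 0) (nat_lit 7722927622) (nat_lit 152) (nat_lit 2074659849) (nat_lit 0) (nat_lit 7722927622) (nat_lit 137) (nat_lit 5) (nat_lit 139) (nat_lit 4) (nat_lit 137) (nat_lit 4) (nat_lit 396) (nat_lit 312) (nat_lit 312)))) (XT.nd (nat_lit 156) (nat_lit 456) (nat_lit 0) (XT.nd (nat_lit 78) (nat_lit 76) (nat_lit 0) (XT.lf (nat_lit 0) (nat_lit 8234156733) (nat_lit 152) (nat_lit 20030870686) (nat_lit 0) (nat_lit 8155582485) (nat_lit 134) (nat_lit 5) (nat_lit 136) (nat_lit 4) (nat_lit 134) (nat_lit 4) (nat_lit 397) (nat_lit 312) (nat_lit 311)) (XT.lf (nat_lit 0) (nat_lit 37653472677) (nat_lit 76) (nat_lit 190166840) (nat_lit 76) (nat_lit 38838658) (nat_lit 133) (nat_lit 4) (nat_lit 134) (nat_lit 5) (nat_lit 134) (nat_lit 4) (nat_lit 398) (nat_lit 312) (nat_lit 310))) (XT.nd (nat_lit 78) (nat_lit 228) (nat_lit 0) (XT.lf (nat_lit 0) (nat_lit 20498228015) (nat_lit 76) (nat_lit 9557159815)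 (nat_lit 76) (nat_lit 9348880829) (nat_lit 130) (nat_lit 4) (nat_lit 131) (nat_lit 5) (nat_lit 131) (nat_lit 4) (nat_lit 399) (nat_lit 312) (nat_lit 309)) (XT.lf (nat_lit 0) (nat_lit 852038600) (nat_lit 76) (nat_lit 20210857657) (nat_lit 76) (nat_lit 19955920961) (nat_lit 127) (nat_lit 4) (nat_lit 128) (nat_lit 5) (nat_lit 128) (nat_lit 4) (nat_lit 400) (nat_lit 312) (nat_lit 308))))) (XT.nd (nat_lit 312) (nat_lit 684) (nat_lit 0) (XT.nd (nat_lit 156) (nat_lit 380) (nat_lit 0) (XT.nd (nat_lit 78) (nat_lit 76) (nat_lit 0) (XT.lf (nat_lit 0) (nat_lit 11067079238) (nat_lit 152) (nat_lit 20875527671) (nat_lit 0) (nat_lit 10774391947) (nat_lit 125) (nat_lit 5) (nat_lit 127) (nat_lit 4) (nat_lit 125) (nat_lit 4) (nat_lit 401) (nat_lit 312) (nat_lit 307)) (XT.lf (nat_lit 0) (nat_lit 43498291177) (nat_lit 76) (nat_lit 679996184) (nat_lit 76) (nat_lit 341114043) (nat_lit 124) (nat_lit 4) (nat_lit 125)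 (nat_lit 5) (nat_lit 125) (nat_lit 4) (nat_lit 402) (nat_lit 312) (nat_lit 306))) (XT.nd (nat_lit 78) (nat_lit 152) (nat_lit 0) (XT.lf (nat_lit 0) (nat_lit 19718994787) (nat_lit 76) (nat_lit 13521198217) (nat_lit 76) (nat_lit 13157717121) (nat_lit 121) (nat_lit 4) (nat_lit 122) (nat_lit 5) (nat_lit 122) (nat_lit 4) (nat_lit 403) (nat_lit 312) (nat_lit 305)) (XT.lf (nat_lit 0) (nat_lit 20786007803) (nat_lit 152) (nat_lit 7200514881) (nat_lit 0) (nat_lit 20403912757) (nat_lit 119) (nat_lit 5) (nat_lit 121) (nat_lit 4) (nat_lit 119) (nat_lit 4) (nat_lit 404) (nat_lit 312) (nat_lit 304)))) (XT.nd (nat_lit 156) (nat_lit 380) (nat_lit 0) (XT.nd (nat_lit 78) (nat_lit 76) (nat_lit 0) (XT.lf (nat_lit 0) (nat_lit 6883100741) (nat_lit 152) (nat_lit 37124069078) (nat_lit 0) (nat_lit 6487522942) (nat_lit 116) (nat_lit 5) (nat_lit 118) (nat_lit 4) (nat_lit 116) (nat_lit 4) (nat_lit 405) (nat_lit 312) (nat_lit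 303)) (XT.lf (nat_lit 0) (nat_lit 34654984609) (nat_lit 76) (nat_lit 9239007141) (nat_lit 76) (nat_lit 8814098087) (nat_lit 115) (nat_lit 4) (nat_lit 116) (nat_lit 5) (nat_lit 116) (nat_lit 4) (nat_lit 406) (nat_lit 312) (nat_lit 302))) (XT.nd (nat_lit 78) (nat_lit 152) (nat_lit 0) (XT.lf (nat_lit 0) (nat_lit 1518488364) (nat_lit 76) (nat_lit 26977830699) (nat_lit 76) (nat_lit 26547290106) (nat_lit 112) (nat_lit 4) (nat_lit 113) (nat_lit 5) (nat_lit 113) (nat_lit 4) (nat_lit 407) (nat_lit 312) (nat_lit 301)) (XT.lf (nat_lit 0) (nat_lit 11450159962) (nat_lit 152) (nat_lit 35038956510) (nat_lit 0) (nat_lit 11017312392) (nat_lit 110) (nat_lit 5) (nat_lit 112) (nat_lit 4) (nat_lit 110) (nat_lit 4) (nat_lit 408) (nat_lit 312) (nat_lit 300)))))))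
noncomputable def xc21 : XT := (XT.nd (nat_lit 1248) (nat_lit 2128) (nat_lit 0) (XT.nd (nat_lit 624) (nat_lit 1140) (nat_lit 0) (XT.nd (nat_lit 312) (nat_lit 608) (nat_lit 0) (XT.nd (nat_lit 156) (nat_lit 228) (nat_lit 0) (XT.nd (nat_lit 78) (nat_lit 228) (nat_lit 0) (XT.lf (nat_lit 0) (nat_lit 44032999419) (nat_lit 76) (nat_lit 8264242691) (nat_lit 76) (nat_lit 7810275759) (nat_lit 109) (nat_lit 4) (nat_lit 110) (nat_lit 5) (nat_lit 110) (nat_lit 4) (nat_lit 409) (nat_lit 312) (nat_lit 299)) (XT.lf (nat_lit 0) (nat_lit 3390014709) (nat_lit 76) (nat_lit 29952766186) (nat_lit 76) (nat_lit 29501792952) (nat_lit 106) (nat_lit 4) (nat_lit 107) (nat_lit 5) (nat_lit 107) (nat_lit 4) (nat_lit 410) (nat_lit 312) (nat_lit 298))) (XT.nd (nat_lit 78) (nat_lit 76) (nat_lit 0) (XT.lf (nat_lit 0) (nat_lit 12355672365) (nat_lit 152) (nat_lit 41469092902) (nat_lit 0) (nat_lit 11909750965) (nat_lit 104) (nat_lit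 5) (nat_lit 106) (nat_lit 4) (nat_lit 104) (nat_lit 4) (nat_lit 411) (nat_lit 312) (nat_lit 297)) (XT.lf (nat_lit 0) (nat_lit 45755111380) (nat_lit 76) (nat_lit 11744458540) (nat_lit 76) (nat_lit 11283330582) (nat_lit 103) (nat_lit 4) (nat_lit 104) (nat_lit 5) (nat_lit 104) (nat_lit 4) (nat_lit 412) (nat_lit 312) (nat_lit 296)))) (XT.nd (nat_lit 156) (nat_lit 228) (nat_lit 0) (XT.nd (nat_lit 78) (nat_lit 228) (nat_lit 0) (XT.lf (nat_lit 0) (nat_lit 34154066383) (nat_lit 152) (nat_lit 4139509232) (nat_lit 0) (nat_lit 33701487236) (nat_lit 101) (nat_lit 5) (nat_lit 103) (nat_lit 4) (nat_lit 101) (nat_lit 4) (nat_lit 413) (nat_lit 312) (nat_lit 295)) (XT.lf (nat_lit 0) (nat_lit 8330961786) (nat_lit 152) (nat_lit 59170578018) (nat_lit 0) (nat_lit 7888108928) (nat_lit 98) (nat_lit 5) (nat_lit 100) (nat_lit 4) (nat_lit 98) (nat_lit 4) (nat_lit 414) (nat_lit 312) (nat_lit 294))) (XT.nd (nat_lit 78)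 (nat_lit 152) (nat_lit 0) (XT.lf (nat_lit 0) (nat_lit 37133179045) (nat_lit 76) (nat_lit 21137704356) (nat_lit 76) (nat_lit 20683902331) (nat_lit 97) (nat_lit 4) (nat_lit 98) (nat_lit 5) (nat_lit 98) (nat_lit 4) (nat_lit 415) (nat_lit 312) (nat_lit 293)) (XT.lf (nat_lit 0) (nat_lit 29673481782) (nat_lit 152) (nat_lit 23816384985) (nat_lit 0) (nat_lit 29231634028) (nat_lit 95) (nat_lit 5) (nat_lit 97) (nat_lit 4) (nat_lit 95) (nat_lit 4) (nat_lit 416) (nat_lit 312) (nat_lit 292))))) (XT.nd (nat_lit 312) (nat_lit 608) (nat_lit 0) (XT.nd (nat_lit 156) (nat_lit 228) (nat_lit 0) (XT.nd (nat_lit 78) (nat_lit 228) (nat_lit 0) (XT.lf (nat_lit 0) (nat_lit 81878191621) (nat_lit 76) (nat_lit 2642939222) (nat_lit 76) (nat_lit 2192151330) (nat_lit 94) (nat_lit 4) (nat_lit 95) (nat_lit 5) (nat_lit 95) (nat_lit 4) (nat_lit 417) (nat_lit 312) (nat_lit 291)) (XT.lf (nat_lit 0) (nat_lit 14741598456) (nat_lit 76)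 (nat_lit 38289751059) (nat_lit 76) (nat_lit 37852545537) (nat_lit 91) (nat_lit 4) (nat_lit 92) (nat_lit 5) (nat_lit 92) (nat_lit 4) (nat_lit 418) (nat_lit 312) (nat_lit 290))) (XT.nd (nat_lit 78) (nat_lit 76) (nat_lit 0) (XT.lf (nat_lit 0) (nat_lit 18072058855) (nat_lit 152) (nat_lit 59581481048) (nat_lit 0) (nat_lit 17648720510) (nat_lit 89) (nat_lit 5) (nat_lit 91) (nat_lit 4) (nat_lit 89) (nat_lit 4) (nat_lit 419) (nat_lit 312) (nat_lit 289)) (XT.lf (nat_lit 0) (nat_lit 57406336998) (nat_lit 76) (nat_lit 21489469815) (nat_lit 76) (nat_lit 21059694309) (nat_lit 88) (nat_lit 4) (nat_lit 89) (nat_lit 5) (nat_lit 89) (nat_lit 4) (nat_lit 420) (nat_lit 312) (nat_lit 288)))) (XT.nd (nat_lit 156) (nat_lit 380) (nat_lit 0) (XT.nd (nat_lit 78) (nat_lit 76) (nat_lit 0) (XT.lf (nat_lit 0) (nat_lit 40166928176) (nat_lit 152) (nat_lit 24939711201) (nat_lit 0) (nat_lit 39751941662) (nat_lit 86) (nat_lit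 5) (nat_lit 88) (nat_lit 4) (nat_lit 86) (nat_lit 4) (nat_lit 421) (nat_lit 312) (nat_lit 287)) (XT.lf (nat_lit 0) (nat_lit 103944421851) (nat_lit 76) (nat_lit 3264847546) (nat_lit 76) (nat_lit 2844605005) (nat_lit 85) (nat_lit 4) (nat_lit 86) (nat_lit 5) (nat_lit 86) (nat_lit 4) (nat_lit 422) (nat_lit 312) (nat_lit 286))) (XT.nd (nat_lit 78) (nat_lit 152) (nat_lit 0) (XT.lf (nat_lit 0) (nat_lit 13189587156) (nat_lit 76) (nat_lit 51349189558) (nat_lit 76) (nat_lit 50944323622) (nat_lit 82) (nat_lit 4) (nat_lit 83) (nat_lit 5) (nat_lit 83) (nat_lit 4) (nat_lit 423) (nat_lit 312) (nat_lit 285)) (XT.lf (nat_lit 0) (nat_lit 17314080769) (nat_lit 152) (nat_lit 86995799801) (nat_lit 0) (nat_lit 16924406911) (nat_lit 80) (nat_lit 5) (nat_lit 82) (nat_lit 4) (nat_lit 80) (nat_lit 4) (nat_lit 424) (nat_lit 312) (nat_lit 284)))))) (XT.nd (nat_lit 624) (nat_lit 1140) (nat_lit 0) (XT.nd (nat_lit 312) (nat_lit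 532) (nat_lit 0) (XT.nd (nat_lit 156) (nat_lit 228) (nat_lit 0) (XT.nd (nat_lit 78) (nat_lit 152) (nat_lit 0) (XT.lf (nat_lit 0) (nat_lit 55862080899) (nat_lit 76) (nat_lit 35904634726) (nat_lit 76) (nat_lit 35511176376) (nat_lit 79) (nat_lit 4) (nat_lit 80) (nat_lit 5) (nat_lit 80) (nat_lit 4) (nat_lit 425) (nat_lit 312) (nat_lit 283)) (XT.lf (nat_lit 0) (nat_lit 39527637559) (nat_lit 152) (nat_lit 54978557726) (nat_lit 0) (nat_lit 39149578025) (nat_lit 77) (nat_lit 5) (nat_lit 79) (nat_lit 4) (nat_lit 77) (nat_lit 4) (nat_lit 426) (nat_lit 312) (nat_lit 282))) (XT.nd (nat_lit 78) (nat_lit 152) (nat_lit 0) (XT.lf (nat_lit 0) (nat_lit 102871309928) (nat_lit 76) (nat_lit 18949913511) (nat_lit 76) (nat_lit 18568763889) (nat_lit 76) (nat_lit 4) (nat_lit 77) (nat_lit 5) (nat_lit 77) (nat_lit 4) (nat_lit 427) (nat_lit 312) (nat_lit 281)) (XT.lf (nat_lit 0) (nat_lit 64060970487) (nat_lit 152) (nat_lit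 19705357257) (nat_lit 0) (nat_lit 63695245901) (nat_lit 74) (nat_lit 5) (nat_lit 76) (nat_lit 4) (nat_lit 74) (nat_lit 4) (nat_lit 428) (nat_lit 312) (nat_lit 280)))) (XT.nd (nat_lit 156) (nat_lit 228) (nat_lit 0) (XT.nd (nat_lit 78) (nat_lit 152) (nat_lit 0) (XT.lf (nat_lit 0) (nat_lit 154150094) (nat_lit 152) (nat_lit 52239990) (nat_lit 76) (nat_lit 154753705075) (nat_lit 72) (nat_lit 5) (nat_lit 74) (nat_lit 5) (nat_lit 73) (nat_lit 4) (nat_lit 429) (nat_lit 312) (nat_lit 279)) (XT.lf (nat_lit 0) (nat_lit 20046136815) (nat_lit 76) (nat_lit 71545462077) (nat_lit 76) (nat_lit 71192525044) (nat_lit 70) (nat_lit 4) (nat_lit 71) (nat_lit 5) (nat_lit 71) (nat_lit 4) (nat_lit 430) (nat_lit 312) (nat_lit 278))) (XT.nd (nat_lit 78) (nat_lit 76) (nat_lit 0) (XT.lf (nat_lit 0) (nat_lit 21316486780) (nat_lit 152) (nat_lit 128783368169) (nat_lit 0) (nat_lit 20978394231) (nat_lit 68) (nat_lit 5) (nat_lit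 70) (nat_lit 4) (nat_lit 68) (nat_lit 4) (nat_lit 431) (nat_lit 312) (nat_lit 277)) (XT.lf (nat_lit 0) (nat_lit 65088337248) (nat_lit 76) (nat_lit 57517709303) (nat_lit 76) (nat_lit 57177800050) (nat_lit 67) (nat_lit 4) (nat_lit 68) (nat_lit 5) (nat_lit 68) (nat_lit 4) (nat_lit 432) (nat_lit 312) (nat_lit 276))))) (XT.nd (nat_lit 312) (nat_lit 684) (nat_lit 0) (XT.nd (nat_lit 156) (nat_lit 228) (nat_lit 0) (XT.nd (nat_lit 78) (nat_lit 76) (nat_lit 0) (XT.lf (nat_lit 0) (nat_lit 44969925020) (nat_lit 152) (nat_lit 99361579193) (nat_lit 0) (nat_lit 44644599890) (nat_lit 65) (nat_lit 5) (nat_lit 67) (nat_lit 4) (nat_lit 65) (nat_lit 4) (nat_lit 433) (nat_lit 312) (nat_lit 275)) (XT.lf (nat_lit 0) (nat_lit 115531071247) (nat_lit 76) (nat_lit 41727010080) (nat_lit 76) (nat_lit 41400201587) (nat_lit 64) (nat_lit 4) (nat_lit 65) (nat_lit 5) (nat_lit 65) (nat_lit 4) (nat_lit 434) (nat_lit 312) (nat_lit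 274))) (XT.nd (nat_lit 78) (nat_lit 76) (nat_lit 0) (XT.lf (nat_lit 0) (nat_lit 71511711829) (nat_lit 152) (nat_lit 66134021715) (nat_lit 0) (nat_lit 71199157565) (nat_lit 62) (nat_lit 5) (nat_lit 64) (nat_lit 4) (nat_lit 62) (nat_lit 4) (nat_lit 435) (nat_lit 312) (nat_lit 273)) (XT.lf (nat_lit 0) (nat_lit 172232829615) (nat_lit 76) (nat_lit 23844923692) (nat_lit 76) (nat_lit 23531158243) (nat_lit 61) (nat_lit 4) (nat_lit 62) (nat_lit 5) (nat_lit 62) (nat_lit 4) (nat_lit 436) (nat_lit 312) (nat_lit 272)))) (XT.nd (nat_lit 156) (nat_lit 456) (nat_lit 0) (XT.nd (nat_lit 78) (nat_lit 76) (nat_lit 0) (XT.lf (nat_lit 0) (nat_lit 101394424653) (nat_lit 152) (nat_lit 28407519413) (nat_lit 0) (nat_lit 101094532351) (nat_lit 59) (nat_lit 5) (nat_lit 61) (nat_lit 4) (nat_lit 59) (nat_lit 4) (nat_lit 437) (nat_lit 312) (nat_lit 271)) (XT.lf (nat_lit 0) (nat_lit 236161974494) (nat_lit 76) (nat_lit 3499048059)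 (nat_lit 76) (nat_lit 3198166809) (nat_lit 58) (nat_lit 4) (nat_lit 59) (nat_lit 5) (nat_lit 59) (nat_lit 4) (nat_lit 438) (nat_lit 312) (nat_lit 270))) (XT.nd (nat_lit 78) (nat_lit 228) (nat_lit 0) (XT.lf (nat_lit 0) (nat_lit 15086835566) (nat_lit 76) (nat_lit 120277318229) (nat_lit 76) (nat_lit 119989892568) (nat_lit 55) (nat_lit 4) (nat_lit 56) (nat_lit 5) (nat_lit 56) (nat_lit 4) (nat_lit 439) (nat_lit 312) (nat_lit 269)) (XT.nd (nat_lit 78) (nat_lit 76) (nat_lit 0) (XT.lf (nat_lit 0) (nat_lit 20340178210) (nat_lit 152) (nat_lit 228187467261) (nat_lit 0) (nat_lit 20065670448) (nat_lit 53) (nat_lit 5) (nat_lit 55) (nat_lit 4) (nat_lit 53) (nat_lit 4) (nat_lit 440) (nat_lit 312) (nat_lit 268)) (XT.lf (nat_lit 0) (nat_lit 65901144669) (nat_lit 76) (nat_lit 108418064520) (nat_lit 76) (nat_lit 108142844685) (nat_lit 52) (nat_lit 4) (nat_lit 53) (nat_lit 5) (nat_lit 53) (nat_lit 4) (nat_lit 441)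 (nat_lit 312) (nat_lit 267))))))))
noncomputable def xc22 : XT := (XT.nd (nat_lit 50154) (nat_lit 0) (nat_lit 3496) (XT.nd (nat_lit 49530) (nat_lit 0) (nat_lit 5928) (XT.nd (nat_lit 312) (nat_lit 228) (nat_lit 0) (XT.nd (nat_lit 156) (nat_lit 228) (nat_lit 0) (XT.nd (nat_lit 78) (nat_lit 76) (nat_lit 0) (XT.lf (nat_lit 0) (nat_lit 47361169253) (nat_lit 152) (nat_lit 202668648896) (nat_lit 0) (nat_lit 47098427195) (nat_lit 50) (nat_lit 5) (nat_lit 52) (nat_lit 4) (nat_lit 50) (nat_lit 4) (nat_lit 442) (nat_lit 312) (nat_lit 266)) (XT.lf (nat_lit 0) (nat_lit 124140639867) (nat_lit 76) (nat_lit 94327110907) (nat_lit 76) (nat_lit 94063787434) (nat_lit 49) (nat_lit 4) (nat_lit 50) (nat_lit 5) (nat_lit 50) (nat_lit 4) (nat_lit 443) (nat_lit 312) (nat_lit 265))) (XT.nd (nat_lit 78) (nat_lit 76) (nat_lit 0) (XT.lf (nat_lit 0) (nat_lit 78354952585) (nat_lit 152) (nat_lit 172319108403) (nat_lit 0) (nat_lit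 78103655612) (nat_lit 47) (nat_lit 5) (nat_lit 49) (nat_lit 4) (nat_lit 47) (nat_lit 4) (nat_lit 444) (nat_lit 312) (nat_lit 264)) (XT.lf (nat_lit 0) (nat_lit 190989891970) (nat_lit 76) (nat_lit 77571929602) (nat_lit 76) (nat_lit 77320157895) (nat_lit 46) (nat_lit 4) (nat_lit 47) (nat_lit 5) (nat_lit 47) (nat_lit 4) (nat_lit 445) (nat_lit 312) (nat_lit 263)))) (XT.nd (nat_lit 49062) (nat_lit 0) (nat_lit 7296) (XT.nd (nat_lit 78) (nat_lit 76) (nat_lit 0) (XT.lf (nat_lit 0) (nat_lit 113947711923) (nat_lit 152) (nat_lit 136222482597) (nat_lit 0) (nat_lit 113707510708) (nat_lit 44) (nat_lit 5) (nat_lit 46) (nat_lit 4) (nat_lit 44) (nat_lit 4) (nat_lit 446) (nat_lit 312) (nat_lit 262)) (XT.lf (nat_lit 0) (nat_lit 267792105771) (nat_lit 76) (nat_lit 57658045920) (nat_lit 76) (nat_lit 57417457078) (nat_lit 43) (nat_lit 4) (nat_lit 44) (nat_lit 5) (nat_lit 44) (nat_lit 4) (nat_lit 447) (nat_lit 312)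 (nat_lit 261))) (XT.nd (nat_lit 78) (nat_lit 228) (nat_lit 0) (XT.lf (nat_lit 0) (nat_lit 11943430255) (nat_lit 76) (nat_lit 2142389019) (nat_lit 76) (nat_lit 2142389019) (nat_lit 142) (nat_lit 4) (nat_lit 143) (nat_lit 5) (nat_lit 143) (nat_lit 4) (nat_lit 394) (nat_lit 313) (nat_lit 313)) (XT.lf (nat_lit 0) (nat_lit 10075117586) (nat_lit 76) (nat_lit 11874245190) (nat_lit 76) (nat_lit 11780686832) (nat_lit 139) (nat_lit 4) (nat_lit 140) (nat_lit 5) (nat_lit 140) (nat_lit 4) (nat_lit 395) (nat_lit 313) (nat_lit 312))))) (XT.nd (nat_lit 312) (nat_lit 684) (nat_lit 0) (XT.nd (nat_lit 156) (nat_lit 304) (nat_lit 0) (XT.nd (nat_lit 78) (nat_lit 228) (nat_lit 0) (XT.lf (nat_lit 0) (nat_lit 14847942045) (nat_lit 152) (nat_lit 5551103076) (nat_lit 0) (nat_lit 14676335887) (nat_lit 137) (nat_lit 5) (nat_lit 139) (nat_lit 4) (nat_lit 137) (nat_lit 4) (nat_lit 396) (nat_lit 313) (nat_lit 311)) (XT.lf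 (nat_lit 0) (nat_lit 6860877761) (nat_lit 152) (nat_lit 23007949711) (nat_lit 0) (nat_lit 6624689390) (nat_lit 134) (nat_lit 5) (nat_lit 136) (nat_lit 4) (nat_lit 134) (nat_lit 4) (nat_lit 397) (nat_lit 313) (nat_lit 310))) (XT.nd (nat_lit 78) (nat_lit 228) (nat_lit 0) (XT.lf (nat_lit 0) (nat_lit 33208872014) (nat_lit 76) (nat_lit 2542995448) (nat_lit 76) (nat_lit 2239442324) (nat_lit 133) (nat_lit 4) (nat_lit 134) (nat_lit 5) (nat_lit 134) (nat_lit 4) (nat_lit 398) (nat_lit 313) (nat_lit 309)) (XT.lf (nat_lit 0) (nat_lit 14199303888) (nat_lit 76) (nat_lit 12853811066) (nat_lit 76) (nat_lit 12505308309) (nat_lit 130) (nat_lit 4) (nat_lit 131) (nat_lit 5) (nat_lit 131) (nat_lit 4) (nat_lit 399) (nat_lit 313) (nat_lit 308)))) (XT.nd (nat_lit 156) (nat_lit 304) (nat_lit 0) (XT.nd (nat_lit 78) (nat_lit 228) (nat_lit 0) (XT.lf (nat_lit 0) (nat_lit 17160972632) (nat_lit 152) (nat_lit 7280109018) (nat_lit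 0) (nat_lit 16776680284) (nat_lit 128) (nat_lit 5) (nat_lit 130) (nat_lit 4) (nat_lit 128) (nat_lit 4) (nat_lit 400) (nat_lit 313) (nat_lit 307)) (XT.lf (nat_lit 0) (nat_lit 6079677796) (nat_lit 152) (nat_lit 31222866170) (nat_lit 0) (nat_lit 5667490233) (nat_lit 125) (nat_lit 5) (nat_lit 127) (nat_lit 4) (nat_lit 125) (nat_lit 4) (nat_lit 401) (nat_lit 313) (nat_lit 306))) (XT.nd (nat_lit 78) (nat_lit 228) (nat_lit 0) (XT.lf (nat_lit 0) (nat_lit 31459620167) (nat_lit 76) (nat_lit 6904556312) (nat_lit 76) (nat_lit 6449595741) (nat_lit 124) (nat_lit 4) (nat_lit 125) (nat_lit 5) (nat_lit 125) (nat_lit 4) (nat_lit 402) (nat_lit 313) (nat_lit 305)) (XT.lf (nat_lit 0) (nat_lit 5067335260) (nat_lit 76) (nat_lit 21079864864) (nat_lit 76) (nat_lit 20608850378) (nat_lit 121) (nat_lit 4) (nat_lit 122) (nat_lit 5) (nat_lit 122) (nat_lit 4) (nat_lit 403) (nat_lit 313) (nat_lit 304)))))) (XT.nd (nat_lit 624)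 (nat_lit 1292) (nat_lit 0) (XT.nd (nat_lit 312) (nat_lit 532) (nat_lit 0) (XT.nd (nat_lit 156) (nat_lit 380) (nat_lit 0) (XT.nd (nat_lit 78) (nat_lit 76) (nat_lit 0) (XT.lf (nat_lit 0) (nat_lit 12543935840) (nat_lit 152) (nat_lit 24199838734) (nat_lit 0) (nat_lit 12062088973) (nat_lit 119) (nat_lit 5) (nat_lit 121) (nat_lit 4) (nat_lit 119) (nat_lit 4) (nat_lit 404) (nat_lit 313) (nat_lit 303)) (XT.lf (nat_lit 0) (nat_lit 44807174581) (nat_lit 76) (nat_lit 3341085889) (nat_lit 76) (nat_lit 2828441204) (nat_lit 118) (nat_lit 4) (nat_lit 119) (nat_lit 5) (nat_lit 119) (nat_lit 4) (nat_lit 405) (nat_lit 313) (nat_lit 302))) (XT.nd (nat_lit 78) (nat_lit 152) (nat_lit 0) (XT.lf (nat_lit 0) (nat_lit 12526733993) (nat_lit 76) (nat_lit 20618671479) (nat_lit 76) (nat_lit 20103279877) (nat_lit 115) (nat_lit 4) (nat_lit 116) (nat_lit 5) (nat_lit 116) (nat_lit 4) (nat_lit 406) (nat_lit 313) (nat_lit 301))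 (XT.lf (nat_lit 0) (nat_lit 16353679587) (nat_lit 152) (nat_lit 23461195897) (nat_lit 0) (nat_lit 15838881087) (nat_lit 113) (nat_lit 5) (nat_lit 115) (nat_lit 4) (nat_lit 113) (nat_lit 4) (nat_lit 407) (nat_lit 313) (nat_lit 300)))) (XT.nd (nat_lit 156) (nat_lit 228) (nat_lit 0) (XT.nd (nat_lit 78) (nat_lit 228) (nat_lit 0) (XT.lf (nat_lit 0) (nat_lit 52634830191) (nat_lit 76) (nat_lit 3051854274) (nat_lit 76) (nat_lit 2514880444) (nat_lit 112) (nat_lit 4) (nat_lit 113) (nat_lit 5) (nat_lit 113) (nat_lit 4) (nat_lit 408) (nat_lit 313) (nat_lit 299)) (XT.lf (nat_lit 0) (nat_lit 12967342181) (nat_lit 76) (nat_lit 24214878601) (nat_lit 76) (nat_lit 23683919990) (nat_lit 109) (nat_lit 4) (nat_lit 110) (nat_lit 5) (nat_lit 110) (nat_lit 4) (nat_lit 409) (nat_lit 313) (nat_lit 298))) (XT.nd (nat_lit 78) (nat_lit 76) (nat_lit 0) (XT.lf (nat_lit 0) (nat_lit 16534411202) (nat_lit 152) (nat_lit 31141824114)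 (nat_lit 0) (nat_lit 16011492098) (nat_lit 107) (nat_lit 5) (nat_lit 109) (nat_lit 4) (nat_lit 107) (nat_lit 4) (nat_lit 410) (nat_lit 313) (nat_lit 297)) (XT.lf (nat_lit 0) (nat_lit 52872540544) (nat_lit 76) (nat_lit 7168472362) (nat_lit 76) (nat_lit 6629586372) (nat_lit 106) (nat_lit 4) (nat_lit 107) (nat_lit 5) (nat_lit 107) (nat_lit 4) (nat_lit 411) (nat_lit 313) (nat_lit 296))))) (XT.nd (nat_lit 312) (nat_lit 684) (nat_lit 0) (XT.nd (nat_lit 156) (nat_lit 228) (nat_lit 0) (XT.nd (nat_lit 78) (nat_lit 152) (nat_lit 0) (XT.lf (nat_lit 0) (nat_lit 3971532728) (nat_lit 76) (nat_lit 33179355791) (nat_lit 76) (nat_lit 32652050893) (nat_lit 103) (nat_lit 4) (nat_lit 104) (nat_lit 5) (nat_lit 104) (nat_lit 4) (nat_lit 412) (nat_lit 313) (nat_lit 295)) (XT.lf (nat_lit 0) (nat_lit 11835647699) (nat_lit 152) (nat_lit 49956780682) (nat_lit 0) (nat_lit 11321036203) (nat_lit 101) (nat_lit 5) (nat_lit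 103) (nat_lit 4) (nat_lit 101) (nat_lit 4) (nat_lit 413) (nat_lit 313) (nat_lit 294))) (XT.nd (nat_lit 78) (nat_lit 152) (nat_lit 0) (XT.lf (nat_lit 0) (nat_lit 42870212156) (nat_lit 76) (nat_lit 17127498936) (nat_lit 76) (nat_lit 16601390816) (nat_lit 100) (nat_lit 4) (nat_lit 101) (nat_lit 5) (nat_lit 101) (nat_lit 4) (nat_lit 414) (nat_lit 313) (nat_lit 293)) (XT.lf (nat_lit 0) (nat_lit 31905274618) (nat_lit 152) (nat_lit 16976073070) (nat_lit 0) (nat_lit 31394081149) (nat_lit 98) (nat_lit 5) (nat_lit 100) (nat_lit 4) (nat_lit 98) (nat_lit 4) (nat_lit 415) (nat_lit 313) (nat_lit 292)))) (XT.nd (nat_lit 156) (nat_lit 380) (nat_lit 0) (XT.nd (nat_lit 78) (nat_lit 76) (nat_lit 0) (XT.lf (nat_lit 0) (nat_lit 663074765) (nat_lit 152) (nat_lit 83343912835) (nat_lit 0) (nat_lit 167283704) (nat_lit 95) (nat_lit 5) (nat_lit 97) (nat_lit 4) (nat_lit 95) (nat_lit 4) (nat_lit 416) (nat_lit 313) (nat_lit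 291)) (XT.lf (nat_lit 0) (nat_lit 19253155942) (nat_lit 76) (nat_lit 34746265416) (nat_lit 76) (nat_lit 34242196449) (nat_lit 94) (nat_lit 4) (nat_lit 95) (nat_lit 5) (nat_lit 95) (nat_lit 4) (nat_lit 417) (nat_lit 313) (nat_lit 290))) (XT.nd (nat_lit 78) (nat_lit 228) (nat_lit 0) (XT.lf (nat_lit 0) (nat_lit 19679395226) (nat_lit 152) (nat_lit 53682210747) (nat_lit 0) (nat_lit 19192029802) (nat_lit 92) (nat_lit 5) (nat_lit 94) (nat_lit 4) (nat_lit 92) (nat_lit 4) (nat_lit 418) (nat_lit 313) (nat_lit 289)) (XT.nd (nat_lit 78) (nat_lit 152) (nat_lit 0) (XT.lf (nat_lit 0) (nat_lit 59236932514) (nat_lit 76) (nat_lit 19177387724) (nat_lit 76) (nat_lit 18683263281) (nat_lit 91) (nat_lit 4) (nat_lit 92) (nat_lit 5) (nat_lit 92) (nat_lit 4) (nat_lit 419) (nat_lit 313) (nat_lit 288)) (XT.lf (nat_lit 0) (nat_lit 40407339132) (nat_lit 152) (nat_lit 21543842244) (nat_lit 0) (nat_lit 39930784090) (nat_lit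 89) (nat_lit 5) (nat_lit 91) (nat_lit 4) (nat_lit 89) (nat_lit 4) (nat_lit 420) (nat_lit 313) (nat_lit 287))))))))
noncomputable def xc23 : XT := (XT.nd (nat_lit 1248) (nat_lit 1368) (nat_lit 0) (XT.nd (nat_lit 624) (nat_lit 1064) (nat_lit 0) (XT.nd (nat_lit 312) (nat_lit 456) (nat_lit 0) (XT.nd (nat_lit 156) (nat_lit 228) (nat_lit 0) (XT.nd (nat_lit 78) (nat_lit 228) (nat_lit 0) (XT.lf (nat_lit 0) (nat_lit 102942784733) (nat_lit 76) (nat_lit 2246080332) (nat_lit 76) (nat_lit 1764006462) (nat_lit 88) (nat_lit 4) (nat_lit 89) (nat_lit 5) (nat_lit 89) (nat_lit 4) (nat_lit 421) (nat_lit 313) (nat_lit 286)) (XT.lf (nat_lit 0) (nat_lit 13972305908) (nat_lit 76) (nat_lit 49370412245) (nat_lit 76) (nat_lit 48906427583) (nat_lit 85) (nat_lit 4) (nat_lit 86) (nat_lit 5) (nat_lit 86) (nat_lit 4) (nat_lit 422) (nat_lit 313) (nat_lit 285))) (XT.nd (nat_lit 78) (nat_lit 76) (nat_lit 0) (XT.lf (nat_lit 0)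 (nat_lit 17017844875) (nat_lit 152) (nat_lit 84271490159) (nat_lit 0) (nat_lit 16571663105) (nat_lit 83) (nat_lit 5) (nat_lit 85) (nat_lit 4) (nat_lit 83) (nat_lit 4) (nat_lit 423) (nat_lit 313) (nat_lit 284)) (XT.lf (nat_lit 0) (nat_lit 53753378228) (nat_lit 76) (nat_lit 35227293002) (nat_lit 76) (nat_lit 34777137515) (nat_lit 82) (nat_lit 4) (nat_lit 83) (nat_lit 5) (nat_lit 83) (nat_lit 4) (nat_lit 424) (nat_lit 313) (nat_lit 283)))) (XT.nd (nat_lit 156) (nat_lit 228) (nat_lit 0) (XT.nd (nat_lit 78) (nat_lit 76) (nat_lit 0) (XT.lf (nat_lit 0) (nat_lit 37749362021) (nat_lit 152) (nat_lit 54914022370) (nat_lit 0) (nat_lit 37317138349) (nat_lit 80) (nat_lit 5) (nat_lit 82) (nat_lit 4) (nat_lit 80) (nat_lit 4) (nat_lit 425) (nat_lit 313) (nat_lit 282)) (XT.lf (nat_lit 0) (nat_lit 97675795320) (nat_lit 76) (nat_lit 19654345943) (nat_lit 76) (nat_lit 19218877679) (nat_lit 79) (nat_lit 4) (nat_lit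 80) (nat_lit 5) (nat_lit 80) (nat_lit 4) (nat_lit 426) (nat_lit 313) (nat_lit 281))) (XT.nd (nat_lit 78) (nat_lit 76) (nat_lit 0) (XT.lf (nat_lit 0) (nat_lit 60695880579) (nat_lit 152) (nat_lit 22473765290) (nat_lit 0) (nat_lit 60278287705) (nat_lit 77) (nat_lit 5) (nat_lit 79) (nat_lit 4) (nat_lit 77) (nat_lit 4) (nat_lit 427) (nat_lit 313) (nat_lit 280)) (XT.lf (nat_lit 0) (nat_lit 146400329019) (nat_lit 76) (nat_lit 2389965384) (nat_lit 76) (nat_lit 1969723258) (nat_lit 76) (nat_lit 4) (nat_lit 77) (nat_lit 5) (nat_lit 77) (nat_lit 4) (nat_lit 428) (nat_lit 313) (nat_lit 279))))) (XT.nd (nat_lit 312) (nat_lit 456) (nat_lit 0) (XT.nd (nat_lit 156) (nat_lit 228) (nat_lit 0) (XT.nd (nat_lit 78) (nat_lit 152) (nat_lit 0) (XT.lf (nat_lit 0) (nat_lit 14049663804) (nat_lit 76) (nat_lit 72374737437) (nat_lit 76) (nat_lit 71972170639) (nat_lit 73) (nat_lit 4) (nat_lit 74) (nat_lit 5) (nat_lit 74) (nat_lit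 4) (nat_lit 429) (nat_lit 313) (nat_lit 278)) (XT.lf (nat_lit 0) (nat_lit 17535496567) (nat_lit 152) (nat_lit 131802916007) (nat_lit 0) (nat_lit 17150039474) (nat_lit 71) (nat_lit 5) (nat_lit 73) (nat_lit 4) (nat_lit 71) (nat_lit 4) (nat_lit 430) (nat_lit 313) (nat_lit 277))) (XT.nd (nat_lit 78) (nat_lit 152) (nat_lit 0) (XT.lf (nat_lit 0) (nat_lit 55711133651) (nat_lit 76) (nat_lit 59826085117) (nat_lit 76) (nat_lit 59438720485) (nat_lit 70) (nat_lit 4) (nat_lit 71) (nat_lit 5) (nat_lit 71) (nat_lit 4) (nat_lit 431) (nat_lit 313) (nat_lit 276)) (XT.lf (nat_lit 0) (nat_lit 39443158432) (nat_lit 152) (nat_lit 105427725447) (nat_lit 0) (nat_lit 39072557601) (nat_lit 68) (nat_lit 5) (nat_lit 70) (nat_lit 4) (nat_lit 68) (nat_lit 4) (nat_lit 432) (nat_lit 313) (nat_lit 275)))) (XT.nd (nat_lit 156) (nat_lit 228) (nat_lit 0) (XT.nd (nat_lit 78) (nat_lit 152) (nat_lit 0) (XT.lf (nat_lit 0) (nat_lit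 102490967173) (nat_lit 76) (nat_lit 45631182280) (nat_lit 76) (nat_lit 45259023918) (nat_lit 67) (nat_lit 4) (nat_lit 68) (nat_lit 5) (nat_lit 68) (nat_lit 4) (nat_lit 433) (nat_lit 313) (nat_lit 274)) (XT.lf (nat_lit 0) (nat_lit 64089014718) (nat_lit 152) (nat_lit 75495898229) (nat_lit 0) (nat_lit 63733204699) (nat_lit 65) (nat_lit 5) (nat_lit 67) (nat_lit 4) (nat_lit 65) (nat_lit 4) (nat_lit 434) (nat_lit 313) (nat_lit 273))) (XT.nd (nat_lit 78) (nat_lit 152) (nat_lit 0) (XT.lf (nat_lit 0) (nat_lit 155205540184) (nat_lit 76) (nat_lit 29480071468) (nat_lit 76) (nat_lit 29122989704) (nat_lit 64) (nat_lit 4) (nat_lit 65) (nat_lit 5) (nat_lit 65) (nat_lit 4) (nat_lit 435) (nat_lit 313) (nat_lit 272)) (XT.lf (nat_lit 0) (nat_lit 91903627464) (nat_lit 152) (nat_lit 41352877873) (nat_lit 0) (nat_lit 91562428126) (nat_lit 62) (nat_lit 5) (nat_lit 64) (nat_lit 4) (nat_lit 62) (nat_lit 4) (nat_lit 436)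 (nat_lit 313) (nat_lit 271)))))) (XT.nd (nat_lit 624) (nat_lit 380) (nat_lit 0) (XT.nd (nat_lit 312) (nat_lit 456) (nat_lit 0) (XT.nd (nat_lit 156) (nat_lit 304) (nat_lit 0) (XT.nd (nat_lit 78) (nat_lit 152) (nat_lit 0) (XT.lf (nat_lit 0) (nat_lit 214776434932) (nat_lit 76) (nat_lit 11020880102) (nat_lit 76) (nat_lit 10678642368) (nat_lit 61) (nat_lit 4) (nat_lit 62) (nat_lit 5) (nat_lit 62) (nat_lit 4) (nat_lit 437) (nat_lit 313) (nat_lit 270)) (XT.lf (nat_lit 0) (nat_lit 123373069512) (nat_lit 152) (nat_lit 2255557355) (nat_lit 0) (nat_lit 123046213119) (nat_lit 59) (nat_lit 5) (nat_lit 61) (nat_lit 4) (nat_lit 59) (nat_lit 4) (nat_lit 438) (nat_lit 313) (nat_lit 269))) (XT.nd (nat_lit 78) (nat_lit 76) (nat_lit 0) (XT.lf (nat_lit 0) (nat_lit 10634809216) (nat_lit 152) (nat_lit 240634187761) (nat_lit 0) (nat_lit 10322709923) (nat_lit 56) (nat_lit 5) (nat_lit 58) (nat_lit 4) (nat_lit 56) (nat_lit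 4) (nat_lit 439) (nat_lit 313) (nat_lit 268)) (XT.lf (nat_lit 0) (nat_lit 44049621773) (nat_lit 76) (nat_lit 115684282188) (nat_lit 76) (nat_lit 115371435220) (nat_lit 55) (nat_lit 4) (nat_lit 56) (nat_lit 5) (nat_lit 56) (nat_lit 4) (nat_lit 440) (nat_lit 313) (nat_lit 267)))) (XT.nd (nat_lit 156) (nat_lit 228) (nat_lit 0) (XT.nd (nat_lit 78) (nat_lit 76) (nat_lit 0) (XT.lf (nat_lit 0) (nat_lit 35347621426) (nat_lit 152) (nat_lit 219015135712) (nat_lit 0) (nat_lit 35049012607) (nat_lit 53) (nat_lit 5) (nat_lit 55) (nat_lit 4) (nat_lit 53) (nat_lit 4) (nat_lit 441) (nat_lit 313) (nat_lit 266)) (XT.lf (nat_lit 0) (nat_lit 97408606881) (nat_lit 76) (nat_lit 103654847591) (nat_lit 76) (nat_lit 103355628284) (nat_lit 52) (nat_lit 4) (nat_lit 53) (nat_lit 5) (nat_lit 53) (nat_lit 4) (nat_lit 442) (nat_lit 313) (nat_lit 265))) (XT.nd (nat_lit 78) (nat_lit 76) (nat_lit 0) (XT.lf (nat_lit 0) (nat_lit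 63797179628) (nat_lit 152) (nat_lit 192957298989) (nat_lit 0) (nat_lit 63511670512) (nat_lit 50) (nat_lit 5) (nat_lit 52) (nat_lit 4) (nat_lit 50) (nat_lit 4) (nat_lit 443) (nat_lit 313) (nat_lit 264)) (XT.lf (nat_lit 0) (nat_lit 158870070842) (nat_lit 76) (nat_lit 89172562444) (nat_lit 76) (nat_lit 88886554857) (nat_lit 49) (nat_lit 4) (nat_lit 50) (nat_lit 5) (nat_lit 50) (nat_lit 4) (nat_lit 444) (nat_lit 313) (nat_lit 263))))) (XT.nd (nat_lit 49062) (nat_lit 0) (nat_lit 6840) (XT.nd (nat_lit 156) (nat_lit 152) (nat_lit 0) (XT.nd (nat_lit 78) (nat_lit 76) (nat_lit 0) (XT.lf (nat_lit 0) (nat_lit 96577532855) (nat_lit 152) (nat_lit 161599986763) (nat_lit 0) (nat_lit 96304705108) (nat_lit 47) (nat_lit 5) (nat_lit 49) (nat_lit 4) (nat_lit 47) (nat_lit 4) (nat_lit 445) (nat_lit 313) (nat_lit 262)) (XT.lf (nat_lit 0) (nat_lit 229708791400) (nat_lit 76) (nat_lit 71772624377) (nat_lit 76) (nat_lit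 71499389623) (nat_lit 46) (nat_lit 4) (nat_lit 47) (nat_lit 5) (nat_lit 47) (nat_lit 4) (nat_lit 446) (nat_lit 313) (nat_lit 261))) (XT.nd (nat_lit 48828) (nat_lit 0) (nat_lit 7752) (XT.lf (nat_lit 0) (nat_lit 134362755293) (nat_lit 152) (nat_lit 123958032228) (nat_lit 0) (nat_lit 134102172804) (nat_lit 44) (nat_lit 5) (nat_lit 46) (nat_lit 4) (nat_lit 44) (nat_lit 4) (nat_lit 447) (nat_lit 313) (nat_lit 260)) (XT.lf (nat_lit 0) (nat_lit 4413879240) (nat_lit 152) (nat_lit 6202032329) (nat_lit 0) (nat_lit 4413879240) (nat_lit 146) (nat_lit 5) (nat_lit 148) (nat_lit 4) (nat_lit 146) (nat_lit 4) (nat_lit 392) (nat_lit 314) (nat_lit 314)))) (XT.nd (nat_lit 156) (nat_lit 608) (nat_lit 0) (XT.nd (nat_lit 78) (nat_lit 76) (nat_lit 0) (XT.lf (nat_lit 0) (nat_lit 2417254760) (nat_lit 152) (nat_lit 26517419596) (nat_lit 0) (nat_lit 2311159583) (nat_lit 143) (nat_lit 5) (nat_lit 145) (nat_lit 4) (nat_lit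 143) (nat_lit 4) (nat_lit 393) (nat_lit 314) (nat_lit 313)) (XT.lf (nat_lit 0) (nat_lit 22600843142) (nat_lit 76) (nat_lit 5045731427) (nat_lit 76) (nat_lit 4841399974) (nat_lit 142) (nat_lit 4) (nat_lit 143) (nat_lit 5) (nat_lit 143) (nat_lit 4) (nat_lit 394) (nat_lit 314) (nat_lit 312))) (XT.nd (nat_lit 78) (nat_lit 380) (nat_lit 0) (XT.lf (nat_lit 0) (nat_lit 7343704441) (nat_lit 76) (nat_lit 13367273038) (nat_lit 76) (nat_lit 13086043546) (nat_lit 139) (nat_lit 4) (nat_lit 140) (nat_lit 5) (nat_lit 140) (nat_lit 4) (nat_lit 395) (nat_lit 314) (nat_lit 311)) (XT.nd (nat_lit 78) (nat_lit 228) (nat_lit 0) (XT.lf (nat_lit 0) (nat_lit 12879053100) (nat_lit 152) (nat_lit 9764760070) (nat_lit 0) (nat_lit 12534823858) (nat_lit 137) (nat_lit 5) (nat_lit 139) (nat_lit 4) (nat_lit 137) (nat_lit 4) (nat_lit 396) (nat_lit 314) (nat_lit 310)) (XT.lf (nat_lit 0) (nat_lit 4027607618) (nat_lit 152) (nat_lit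 28979749710) (nat_lit 0) (nat_lit 3632405491) (nat_lit 134) (nat_lit 5) (nat_lit 136) (nat_lit 4) (nat_lit 134) (nat_lit 4) (nat_lit 397) (nat_lit 314) (nat_lit 309))))))))
noncomputable def xc24 : XT := (XT.nd (nat_lit 1248) (nat_lit 2204) (nat_lit 0) (XT.nd (nat_lit 624) (nat_lit 1140) (nat_lit 0) (XT.nd (nat_lit 312) (nat_lit 684) (nat_lit 0) (XT.nd (nat_lit 156) (nat_lit 228) (nat_lit 0) (XT.nd (nat_lit 78) (nat_lit 228) (nat_lit 0) (XT.lf (nat_lit 0) (nat_lit 25771945151) (nat_lit 76) (nat_lit 6429522000) (nat_lit 76) (nat_lit 5971945101) (nat_lit 133) (nat_lit 4) (nat_lit 134) (nat_lit 5) (nat_lit 134) (nat_lit 4) (nat_lit 398) (nat_lit 314) (nat_lit 308)) (XT.lf (nat_lit 0) (nat_lit 4704286569) (nat_lit 76) (nat_lit 17788650772) (nat_lit 76) (nat_lit 17297859041) (nat_lit 130) (nat_lit 4) (nat_lit 131) (nat_lit 5) (nat_lit 131) (nat_lit 4) (nat_lit 399) (nat_lit 314) (nat_lit 307))) (XT.nd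 (nat_lit 78) (nat_lit 76) (nat_lit 0) (XT.lf (nat_lit 0) (nat_lit 11659411834) (nat_lit 152) (nat_lit 18694098010) (nat_lit 0) (nat_lit 11143486546) (nat_lit 128) (nat_lit 5) (nat_lit 130) (nat_lit 4) (nat_lit 128) (nat_lit 4) (nat_lit 400) (nat_lit 314) (nat_lit 306)) (XT.lf (nat_lit 0) (nat_lit 41531239707) (nat_lit 76) (nat_lit 1168249106) (nat_lit 76) (nat_lit 607412158) (nat_lit 127) (nat_lit 4) (nat_lit 128) (nat_lit 5) (nat_lit 128) (nat_lit 4) (nat_lit 401) (nat_lit 314) (nat_lit 305)))) (XT.nd (nat_lit 156) (nat_lit 304) (nat_lit 0) (XT.nd (nat_lit 78) (nat_lit 152) (nat_lit 0) (XT.lf (nat_lit 0) (nat_lit 15859390882) (nat_lit 76) (nat_lit 14954787403) (nat_lit 76) (nat_lit 14381052338) (nat_lit 124) (nat_lit 4) (nat_lit 125) (nat_lit 5) (nat_lit 125) (nat_lit 4) (nat_lit 402) (nat_lit 314) (nat_lit 304)) (XT.lf (nat_lit 0) (nat_lit 17399188526) (nat_lit 152) (nat_lit 12980183096) (nat_lit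 0) (nat_lit 16817849454) (nat_lit 122) (nat_lit 5) (nat_lit 124) (nat_lit 4) (nat_lit 122) (nat_lit 4) (nat_lit 403) (nat_lit 314) (nat_lit 303))) (XT.nd (nat_lit 78) (nat_lit 76) (nat_lit 0) (XT.lf (nat_lit 0) (nat_lit 2361088622) (nat_lit 152) (nat_lit 45180873212) (nat_lit 0) (nat_lit 1776634545) (nat_lit 119) (nat_lit 5) (nat_lit 121) (nat_lit 4) (nat_lit 119) (nat_lit 4) (nat_lit 404) (nat_lit 314) (nat_lit 302)) (XT.lf (nat_lit 0) (nat_lit 21926726765) (nat_lit 76) (nat_lit 15111030555) (nat_lit 76) (nat_lit 14498059981) (nat_lit 118) (nat_lit 4) (nat_lit 119) (nat_lit 5) (nat_lit 119) (nat_lit 4) (nat_lit 405) (nat_lit 314) (nat_lit 301))))) (XT.nd (nat_lit 312) (nat_lit 532) (nat_lit 0) (XT.nd (nat_lit 156) (nat_lit 228) (nat_lit 0) (XT.nd (nat_lit 78) (nat_lit 228) (nat_lit 0) (XT.lf (nat_lit 0) (nat_lit 20503485024) (nat_lit 152) (nat_lit 13486159140) (nat_lit 0) (nat_lit 19894556701)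 (nat_lit 116) (nat_lit 5) (nat_lit 118) (nat_lit 4) (nat_lit 116) (nat_lit 4) (nat_lit 406) (nat_lit 314) (nat_lit 300)) (XT.lf (nat_lit 0) (nat_lit 2029202555) (nat_lit 152) (nat_lit 52916939038) (nat_lit 0) (nat_lit 1427095490) (nat_lit 113) (nat_lit 5) (nat_lit 115) (nat_lit 4) (nat_lit 113) (nat_lit 4) (nat_lit 407) (nat_lit 314) (nat_lit 299))) (XT.nd (nat_lit 78) (nat_lit 152) (nat_lit 0) (XT.lf (nat_lit 0) (nat_lit 21041582210) (nat_lit 76) (nat_lit 19277138659) (nat_lit 76) (nat_lit 18654498882) (nat_lit 112) (nat_lit 4) (nat_lit 113) (nat_lit 5) (nat_lit 113) (nat_lit 4) (nat_lit 408) (nat_lit 314) (nat_lit 298)) (XT.lf (nat_lit 0) (nat_lit 20011204403) (nat_lit 152) (nat_lit 22316481080) (nat_lit 0) (nat_lit 19400107691) (nat_lit 110) (nat_lit 5) (nat_lit 112) (nat_lit 4) (nat_lit 110) (nat_lit 4) (nat_lit 409) (nat_lit 314) (nat_lit 297)))) (XT.nd (nat_lit 156) (nat_lit 228) (nat_lit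 0) (XT.nd (nat_lit 78) (nat_lit 228) (nat_lit 0) (XT.lf (nat_lit 0) (nat_lit 58638341563) (nat_lit 76) (nat_lit 3317500125) (nat_lit 76) (nat_lit 2689638183) (nat_lit 109) (nat_lit 4) (nat_lit 110) (nat_lit 5) (nat_lit 110) (nat_lit 4) (nat_lit 410) (nat_lit 314) (nat_lit 296)) (XT.lf (nat_lit 0) (nat_lit 10820806812) (nat_lit 76) (nat_lit 28744636374) (nat_lit 76) (nat_lit 28131888466) (nat_lit 106) (nat_lit 4) (nat_lit 107) (nat_lit 5) (nat_lit 107) (nat_lit 4) (nat_lit 411) (nat_lit 314) (nat_lit 295))) (XT.nd (nat_lit 78) (nat_lit 76) (nat_lit 0) (XT.lf (nat_lit 0) (nat_lit 14689927722) (nat_lit 152) (nat_lit 42145551842) (nat_lit 0) (nat_lit 14093321114) (nat_lit 104) (nat_lit 5) (nat_lit 106) (nat_lit 4) (nat_lit 104) (nat_lit 4) (nat_lit 412) (nat_lit 314) (nat_lit 294)) (XT.lf (nat_lit 0) (nat_lit 47361101191) (nat_lit 76) (nat_lit 13791631394) (nat_lit 76) (nat_lit 13182953330) (nat_lit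 103) (nat_lit 4) (nat_lit 104) (nat_lit 5) (nat_lit 104) (nat_lit 4) (nat_lit 413) (nat_lit 314) (nat_lit 293)))))) (XT.nd (nat_lit 624) (nat_lit 1064) (nat_lit 0) (XT.nd (nat_lit 312) (nat_lit 532) (nat_lit 0) (XT.nd (nat_lit 156) (nat_lit 228) (nat_lit 0) (XT.nd (nat_lit 78) (nat_lit 228) (nat_lit 0) (XT.lf (nat_lit 0) (nat_lit 33562124741) (nat_lit 152) (nat_lit 11389649425) (nat_lit 0) (nat_lit 32971786324) (nat_lit 101) (nat_lit 5) (nat_lit 103) (nat_lit 4) (nat_lit 101) (nat_lit 4) (nat_lit 414) (nat_lit 314) (nat_lit 292)) (XT.lf (nat_lit 0) (nat_lit 2969344965) (nat_lit 152) (nat_lit 76357701279) (nat_lit 0) (nat_lit 2397730756) (nat_lit 98) (nat_lit 5) (nat_lit 100) (nat_lit 4) (nat_lit 98) (nat_lit 4) (nat_lit 415) (nat_lit 314) (nat_lit 291))) (XT.nd (nat_lit 78) (nat_lit 152) (nat_lit 0) (XT.lf (nat_lit 0) (nat_lit 22623252219) (nat_lit 76) (nat_lit 31827433733) (nat_lit 76) (nat_lit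 31247127723) (nat_lit 97) (nat_lit 4) (nat_lit 98) (nat_lit 5) (nat_lit 98) (nat_lit 4) (nat_lit 416) (nat_lit 314) (nat_lit 290)) (XT.lf (nat_lit 0) (nat_lit 20763773814) (nat_lit 152) (nat_lit 48938619845) (nat_lit 0) (nat_lit 20203436696) (nat_lit 95) (nat_lit 5) (nat_lit 97) (nat_lit 4) (nat_lit 95) (nat_lit 4) (nat_lit 417) (nat_lit 314) (nat_lit 289)))) (XT.nd (nat_lit 156) (nat_lit 304) (nat_lit 0) (XT.nd (nat_lit 78) (nat_lit 152) (nat_lit 0) (XT.lf (nat_lit 0) (nat_lit 60081240338) (nat_lit 76) (nat_lit 17414169618) (nat_lit 76) (nat_lit 16846735530) (nat_lit 94) (nat_lit 4) (nat_lit 95) (nat_lit 5) (nat_lit 95) (nat_lit 4) (nat_lit 418) (nat_lit 314) (nat_lit 288)) (XT.lf (nat_lit 0) (nat_lit 40202060281) (nat_lit 152) (nat_lit 19153062172) (nat_lit 0) (nat_lit 39655388513) (nat_lit 92) (nat_lit 5) (nat_lit 94) (nat_lit 4) (nat_lit 92) (nat_lit 4) (nat_lit 419) (nat_lit 314) (nat_lit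 287))) (XT.nd (nat_lit 78) (nat_lit 228) (nat_lit 0) (XT.lf (nat_lit 0) (nat_lit 101112380756) (nat_lit 76) (nat_lit 1699624506) (nat_lit 76) (nat_lit 1147157968) (nat_lit 91) (nat_lit 4) (nat_lit 92) (nat_lit 5) (nat_lit 92) (nat_lit 4) (nat_lit 420) (nat_lit 314) (nat_lit 286)) (XT.lf (nat_lit 0) (nat_lit 13874382991) (nat_lit 76) (nat_lit 47891553907) (nat_lit 76) (nat_lit 47360285274) (nat_lit 88) (nat_lit 4) (nat_lit 89) (nat_lit 5) (nat_lit 89) (nat_lit 4) (nat_lit 421) (nat_lit 314) (nat_lit 285))))) (XT.nd (nat_lit 312) (nat_lit 608) (nat_lit 0) (XT.nd (nat_lit 156) (nat_lit 228) (nat_lit 0) (XT.nd (nat_lit 78) (nat_lit 76) (nat_lit 0) (XT.lf (nat_lit 0) (nat_lit 16328726660) (nat_lit 152) (nat_lit 82454967587) (nat_lit 0) (nat_lit 15818250337) (nat_lit 86) (nat_lit 5) (nat_lit 88) (nat_lit 4) (nat_lit 86) (nat_lit 4) (nat_lit 422) (nat_lit 314) (nat_lit 284)) (XT.lf (nat_lit 0) (nat_lit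 50924952390) (nat_lit 76) (nat_lit 34972211167) (nat_lit 76) (nat_lit 34457562441) (nat_lit 85) (nat_lit 4) (nat_lit 86) (nat_lit 5) (nat_lit 86) (nat_lit 4) (nat_lit 423) (nat_lit 314) (nat_lit 283))) (XT.nd (nat_lit 78) (nat_lit 76) (nat_lit 0) (XT.lf (nat_lit 0) (nat_lit 35658857681) (nat_lit 152) (nat_lit 55602004379) (nat_lit 0) (nat_lit 35165036669) (nat_lit 83) (nat_lit 5) (nat_lit 85) (nat_lit 4) (nat_lit 83) (nat_lit 4) (nat_lit 424) (nat_lit 314) (nat_lit 282)) (XT.lf (nat_lit 0) (nat_lit 91925925663) (nat_lit 76) (nat_lit 20701656380) (nat_lit 76) (nat_lit 20204428545) (nat_lit 82) (nat_lit 4) (nat_lit 83) (nat_lit 5) (nat_lit 83) (nat_lit 4) (nat_lit 425) (nat_lit 314) (nat_lit 281)))) (XT.nd (nat_lit 156) (nat_lit 380) (nat_lit 0) (XT.nd (nat_lit 78) (nat_lit 76) (nat_lit 0) (XT.lf (nat_lit 0) (nat_lit 57101748217) (nat_lit 152) (nat_lit 25835400834) (nat_lit 0) (nat_lit 56625193646)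 (nat_lit 80) (nat_lit 5) (nat_lit 82) (nat_lit 4) (nat_lit 80) (nat_lit 4) (nat_lit 426) (nat_lit 314) (nat_lit 280)) (XT.lf (nat_lit 0) (nat_lit 137506961096) (nat_lit 76) (nat_lit 4832095230) (nat_lit 76) (nat_lit 4352758944) (nat_lit 79) (nat_lit 4) (nat_lit 80) (nat_lit 5) (nat_lit 80) (nat_lit 4) (nat_lit 427) (nat_lit 314) (nat_lit 279))) (XT.nd (nat_lit 78) (nat_lit 152) (nat_lit 0) (XT.lf (nat_lit 0) (nat_lit 7610352850) (nat_lit 76) (nat_lit 73497287356) (nat_lit 76) (nat_lit 73038323595) (nat_lit 76) (nat_lit 4) (nat_lit 77) (nat_lit 5) (nat_lit 77) (nat_lit 4) (nat_lit 428) (nat_lit 314) (nat_lit 278)) (XT.lf (nat_lit 0) (nat_lit 13581815810) (nat_lit 152) (nat_lit 135316068103) (nat_lit 0) (nat_lit 13142544317) (nat_lit 74) (nat_lit 5) (nat_lit 76) (nat_lit 4) (nat_lit 74) (nat_lit 4) (nat_lit 429) (nat_lit 314) (nat_lit 277)))))))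
noncomputable def xc25 : XT := (XT.nd (nat_lit 1248) (nat_lit 228) (nat_lit 0) (XT.nd (nat_lit 624) (nat_lit 988) (nat_lit 0) (XT.nd (nat_lit 312) (nat_lit 456) (nat_lit 0) (XT.nd (nat_lit 156) (nat_lit 228) (nat_lit 0) (XT.nd (nat_lit 78) (nat_lit 152) (nat_lit 0) (XT.lf (nat_lit 0) (nat_lit 46067945545) (nat_lit 76) (nat_lit 62343974090) (nat_lit 76) (nat_lit 61902699681) (nat_lit 73) (nat_lit 4) (nat_lit 74) (nat_lit 5) (nat_lit 74) (nat_lit 4) (nat_lit 430) (nat_lit 314) (nat_lit 276)) (XT.lf (nat_lit 0) (nat_lit 33833243258) (nat_lit 152) (nat_lit 111818323931) (nat_lit 0) (nat_lit 33411215675) (nat_lit 71) (nat_lit 5) (nat_lit 73) (nat_lit 4) (nat_lit 71) (nat_lit 4) (nat_lit 431) (nat_lit 314) (nat_lit 275))) (XT.nd (nat_lit 78) (nat_lit 152) (nat_lit 0) (XT.lf (nat_lit 0) (nat_lit 89370104154) (nat_lit 76) (nat_lit 49657598944) (nat_lit 76) (nat_lit 49233935954) (nat_lit 70) (nat_lit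 4) (nat_lit 71) (nat_lit 5) (nat_lit 71) (nat_lit 4) (nat_lit 432) (nat_lit 314) (nat_lit 274)) (XT.lf (nat_lit 0) (nat_lit 56677274266) (nat_lit 152) (nat_lit 85005365829) (nat_lit 0) (nat_lit 56272343546) (nat_lit 68) (nat_lit 5) (nat_lit 70) (nat_lit 4) (nat_lit 68) (nat_lit 4) (nat_lit 433) (nat_lit 314) (nat_lit 273)))) (XT.nd (nat_lit 156) (nat_lit 228) (nat_lit 0) (XT.nd (nat_lit 78) (nat_lit 152) (nat_lit 0) (XT.lf (nat_lit 0) (nat_lit 138292750502) (nat_lit 76) (nat_lit 35145922603) (nat_lit 76) (nat_lit 34739656551) (nat_lit 67) (nat_lit 4) (nat_lit 68) (nat_lit 5) (nat_lit 68) (nat_lit 4) (nat_lit 434) (nat_lit 314) (nat_lit 272)) (XT.lf (nat_lit 0) (nat_lit 82523316706) (nat_lit 152) (nat_lit 54259672196) (nat_lit 0) (nat_lit 82135219115) (nat_lit 65) (nat_lit 5) (nat_lit 67) (nat_lit 4) (nat_lit 65) (nat_lit 4) (nat_lit 435) (nat_lit 314) (nat_lit 271))) (XT.nd (nat_lit 78) (nat_lit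 152) (nat_lit 0) (XT.lf (nat_lit 0) (nat_lit 193712504006) (nat_lit 76) (nat_lit 18476766436) (nat_lit 76) (nat_lit 18087578529) (nat_lit 64) (nat_lit 4) (nat_lit 65) (nat_lit 5) (nat_lit 65) (nat_lit 4) (nat_lit 436) (nat_lit 314) (nat_lit 270)) (XT.lf (nat_lit 0) (nat_lit 111833917224) (nat_lit 152) (nat_lit 18879330343) (nat_lit 0) (nat_lit 111462300596) (nat_lit 62) (nat_lit 5) (nat_lit 64) (nat_lit 4) (nat_lit 62) (nat_lit 4) (nat_lit 437) (nat_lit 314) (nat_lit 269))))) (XT.nd (nat_lit 312) (nat_lit 456) (nat_lit 0) (XT.nd (nat_lit 156) (nat_lit 228) (nat_lit 0) (XT.nd (nat_lit 78) (nat_lit 76) (nat_lit 0) (XT.lf (nat_lit 0) (nat_lit 1106070679) (nat_lit 152) (nat_lit 252932170243) (nat_lit 0) (nat_lit 751302217) (nat_lit 59) (nat_lit 5) (nat_lit 61) (nat_lit 4) (nat_lit 59) (nat_lit 4) (nat_lit 438) (nat_lit 314) (nat_lit 268)) (XT.lf (nat_lit 0) (nat_lit 22658699788) (nat_lit 76) (nat_lit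 122826776430) (nat_lit 76) (nat_lit 122471222909) (nat_lit 58) (nat_lit 4) (nat_lit 59) (nat_lit 5) (nat_lit 59) (nat_lit 4) (nat_lit 439) (nat_lit 314) (nat_lit 267))) (XT.nd (nat_lit 78) (nat_lit 76) (nat_lit 0) (XT.lf (nat_lit 0) (nat_lit 23621956382) (nat_lit 152) (nat_lit 235007627261) (nat_lit 0) (nat_lit 23282641688) (nat_lit 56) (nat_lit 5) (nat_lit 58) (nat_lit 4) (nat_lit 56) (nat_lit 4) (nat_lit 440) (nat_lit 314) (nat_lit 266)) (XT.lf (nat_lit 0) (nat_lit 71369750089) (nat_lit 76) (nat_lit 112751763532) (nat_lit 76) (nat_lit 112411807827) (nat_lit 55) (nat_lit 4) (nat_lit 56) (nat_lit 5) (nat_lit 56) (nat_lit 4) (nat_lit 441) (nat_lit 314) (nat_lit 265)))) (XT.nd (nat_lit 156) (nat_lit 228) (nat_lit 0) (XT.nd (nat_lit 78) (nat_lit 76) (nat_lit 0) (XT.lf (nat_lit 0) (nat_lit 49646820851) (nat_lit 152) (nat_lit 213021832740) (nat_lit 0) (nat_lit 49322488248) (nat_lit 53) (nat_lit 5)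 (nat_lit 55) (nat_lit 4) (nat_lit 53) (nat_lit 4) (nat_lit 442) (nat_lit 314) (nat_lit 264)) (XT.lf (nat_lit 0) (nat_lit 127693897146) (nat_lit 76) (nat_lit 100427463372) (nat_lit 76) (nat_lit 100102607375) (nat_lit 52) (nat_lit 4) (nat_lit 53) (nat_lit 5) (nat_lit 53) (nat_lit 4) (nat_lit 443) (nat_lit 314) (nat_lit 263))) (XT.nd (nat_lit 78) (nat_lit 76) (nat_lit 0) (XT.lf (nat_lit 0) (nat_lit 79743818226) (nat_lit 152) (nat_lit 186167509608) (nat_lit 0) (nat_lit 79433970015) (nat_lit 50) (nat_lit 5) (nat_lit 52) (nat_lit 4) (nat_lit 50) (nat_lit 4) (nat_lit 444) (nat_lit 314) (nat_lit 262)) (XT.lf (nat_lit 0) (nat_lit 192840118712) (nat_lit 76) (nat_lit 85417549421) (nat_lit 76) (nat_lit 85107273851) (nat_lit 49) (nat_lit 4) (nat_lit 50) (nat_lit 5) (nat_lit 50) (nat_lit 4) (nat_lit 445) (nat_lit 314) (nat_lit 261)))))) (XT.nd (nat_lit 49218) (nat_lit 0) (nat_lit 5700) (XT.nd (nat_lit 48906)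 (nat_lit 0) (nat_lit 7068) (XT.nd (nat_lit 48750) (nat_lit 0) (nat_lit 7828) (XT.nd (nat_lit 78) (nat_lit 76) (nat_lit 0) (XT.lf (nat_lit 0) (nat_lit 114552521545) (nat_lit 152) (nat_lit 153519197713) (nat_lit 0) (nat_lit 114256644143) (nat_lit 47) (nat_lit 5) (nat_lit 49) (nat_lit 4) (nat_lit 47) (nat_lit 4) (nat_lit 446) (nat_lit 314) (nat_lit 260)) (XT.lf (nat_lit 0) (nat_lit 268181266379) (nat_lit 76) (nat_lit 67222030698) (nat_lit 76) (nat_lit 66925804353) (nat_lit 46) (nat_lit 4) (nat_lit 47) (nat_lit 5) (nat_lit 47) (nat_lit 4) (nat_lit 447) (nat_lit 314) (nat_lit 259))) (XT.nd (nat_lit 78) (nat_lit 152) (nat_lit 0) (XT.lf (nat_lit 0) (nat_lit 6147000288) (nat_lit 76) (nat_lit 3887747435) (nat_lit 76) (nat_lit 3887747435) (nat_lit 151) (nat_lit 4) (nat_lit 152) (nat_lit 5) (nat_lit 152) (nat_lit 4) (nat_lit 390) (nat_lit 315) (nat_lit 315)) (XT.lf (nat_lit 0) (nat_lit 14524117233) (nat_lit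 152) (nat_lit 17772462) (nat_lit 0) (nat_lit 14397789706) (nat_lit 149) (nat_lit 5) (nat_lit 151) (nat_lit 4) (nat_lit 149) (nat_lit 4) (nat_lit 391) (nat_lit 315) (nat_lit 314)))) (XT.nd (nat_lit 156) (nat_lit 304) (nat_lit 0) (XT.nd (nat_lit 78) (nat_lit 228) (nat_lit 0) (XT.lf (nat_lit 0) (nat_lit 8349062766) (nat_lit 152) (nat_lit 13623118338) (nat_lit 0) (nat_lit 8117350898) (nat_lit 146) (nat_lit 5) (nat_lit 148) (nat_lit 4) (nat_lit 146) (nat_lit 4) (nat_lit 392) (nat_lit 315) (nat_lit 313)) (XT.lf (nat_lit 0) (nat_lit 1260789444) (nat_lit 152) (nat_lit 29106721701) (nat_lit 0) (nat_lit 941875199) (nat_lit 143) (nat_lit 5) (nat_lit 145) (nat_lit 4) (nat_lit 143) (nat_lit 4) (nat_lit 393) (nat_lit 315) (nat_lit 312))) (XT.nd (nat_lit 78) (nat_lit 228) (nat_lit 0) (XT.lf (nat_lit 0) (nat_lit 18735170193) (nat_lit 76) (nat_lit 7128769496) (nat_lit 76) (nat_lit 6718895737) (nat_lit 142) (nat_lit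 4) (nat_lit 143) (nat_lit 5) (nat_lit 143) (nat_lit 4) (nat_lit 394) (nat_lit 315) (nat_lit 311)) (XT.lf (nat_lit 0) (nat_lit 1864691999) (nat_lit 76) (nat_lit 16268617949) (nat_lit 76) (nat_lit 15798050776) (nat_lit 139) (nat_lit 4) (nat_lit 140) (nat_lit 5) (nat_lit 140) (nat_lit 4) (nat_lit 395) (nat_lit 315) (nat_lit 310))))) (XT.nd (nat_lit 312) (nat_lit 760) (nat_lit 0) (XT.nd (nat_lit 156) (nat_lit 380) (nat_lit 0) (XT.nd (nat_lit 78) (nat_lit 76) (nat_lit 0) (XT.lf (nat_lit 0) (nat_lit 9527520919) (nat_lit 152) (nat_lit 16815260501) (nat_lit 0) (nat_lit 9008628716) (nat_lit 137) (nat_lit 5) (nat_lit 139) (nat_lit 4) (nat_lit 137) (nat_lit 4) (nat_lit 396) (nat_lit 315) (nat_lit 309)) (XT.lf (nat_lit 0) (nat_lit 35755091812) (nat_lit 76) (nat_lit 843871302) (nat_lit 76) (nat_lit 259485588) (nat_lit 136) (nat_lit 4) (nat_lit 137) (nat_lit 5) (nat_lit 137) (nat_lit 4) (nat_lit 397) (nat_lit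 315) (nat_lit 308))) (XT.nd (nat_lit 78) (nat_lit 152) (nat_lit 0) (XT.lf (nat_lit 0) (nat_lit 15298621411) (nat_lit 76) (nat_lit 11872777763) (nat_lit 76) (nat_lit 11258465522) (nat_lit 133) (nat_lit 4) (nat_lit 134) (nat_lit 5) (nat_lit 134) (nat_lit 4) (nat_lit 398) (nat_lit 315) (nat_lit 307)) (XT.lf (nat_lit 0) (nat_lit 16473406901) (nat_lit 152) (nat_lit 7785661578) (nat_lit 0) (nat_lit 15837417802) (nat_lit 131) (nat_lit 5) (nat_lit 133) (nat_lit 4) (nat_lit 131) (nat_lit 4) (nat_lit 399) (nat_lit 315) (nat_lit 306)))) (XT.nd (nat_lit 156) (nat_lit 456) (nat_lit 0) (XT.nd (nat_lit 78) (nat_lit 76) (nat_lit 0) (XT.lf (nat_lit 0) (nat_lit 4512309313) (nat_lit 152) (nat_lit 33484837386) (nat_lit 0) (nat_lit 3861693749) (nat_lit 128) (nat_lit 5) (nat_lit 130) (nat_lit 4) (nat_lit 128) (nat_lit 4) (nat_lit 400) (nat_lit 315) (nat_lit 305)) (XT.lf (nat_lit 0) (nat_lit 25118487819) (nat_lit 76)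 (nat_lit 9641050032) (nat_lit 76) (nat_lit 8948849598) (nat_lit 127) (nat_lit 4) (nat_lit 128) (nat_lit 5) (nat_lit 128) (nat_lit 4) (nat_lit 401) (nat_lit 315) (nat_lit 304))) (XT.nd (nat_lit 78) (nat_lit 304) (nat_lit 0) (XT.lf (nat_lit 0) (nat_lit 21536555052) (nat_lit 152) (nat_lit 3286186321) (nat_lit 0) (nat_lit 20840645583) (nat_lit 125) (nat_lit 5) (nat_lit 127) (nat_lit 4) (nat_lit 125) (nat_lit 4) (nat_lit 402) (nat_lit 315) (nat_lit 303)) (XT.nd (nat_lit 78) (nat_lit 76) (nat_lit 0) (XT.lf (nat_lit 0) (nat_lit 6874264113) (nat_lit 152) (nat_lit 34674119295) (nat_lit 0) (nat_lit 6179155481) (nat_lit 122) (nat_lit 5) (nat_lit 124) (nat_lit 4) (nat_lit 122) (nat_lit 4) (nat_lit 403) (nat_lit 315) (nat_lit 302)) (XT.lf (nat_lit 0) (nat_lit 29891379329) (nat_lit 76) (nat_lit 10366662244) (nat_lit 76) (nat_lit 9641611290) (nat_lit 121) (nat_lit 4) (nat_lit 122) (nat_lit 5) (nat_lit 122)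 (nat_lit 4) (nat_lit 404) (nat_lit 315) (nat_lit 301))))))))
noncomputable def xc26 : XT := (XT.nd (nat_lit 1248) (nat_lit 2052) (nat_lit 0) (XT.nd (nat_lit 624) (nat_lit 1140) (nat_lit 0) (XT.nd (nat_lit 312) (nat_lit 532) (nat_lit 0) (XT.nd (nat_lit 156) (nat_lit 228) (nat_lit 0) (XT.nd (nat_lit 78) (nat_lit 228) (nat_lit 0) (XT.lf (nat_lit 0) (nat_lit 23983280303) (nat_lit 152) (nat_lit 4942787136) (nat_lit 0) (nat_lit 23266351420) (nat_lit 119) (nat_lit 5) (nat_lit 121) (nat_lit 4) (nat_lit 119) (nat_lit 4) (nat_lit 405) (nat_lit 315) (nat_lit 300)) (XT.lf (nat_lit 0) (nat_lit 5940145140) (nat_lit 152) (nat_lit 43441844142) (nat_lit 0) (nat_lit 5234071632) (nat_lit 116) (nat_lit 5) (nat_lit 118) (nat_lit 4) (nat_lit 116) (nat_lit 4) (nat_lit 406) (nat_lit 315) (nat_lit 299))) (XT.nd (nat_lit 78) (nat_lit 152) (nat_lit 0) (XT.lf (nat_lit 0) (nat_lit 27777766939) (nat_lit 76) (nat_lit 15055172047)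 (nat_lit 76) (nat_lit 14327539191) (nat_lit 115) (nat_lit 4) (nat_lit 116) (nat_lit 5) (nat_lit 116) (nat_lit 4) (nat_lit 407) (nat_lit 315) (nat_lit 298)) (XT.lf (nat_lit 0) (nat_lit 22865824730) (nat_lit 152) (nat_lit 14829727734) (nat_lit 0) (nat_lit 22153829288) (nat_lit 113) (nat_lit 5) (nat_lit 115) (nat_lit 4) (nat_lit 113) (nat_lit 4) (nat_lit 408) (nat_lit 315) (nat_lit 297)))) (XT.nd (nat_lit 156) (nat_lit 228) (nat_lit 0) (XT.nd (nat_lit 78) (nat_lit 76) (nat_lit 0) (XT.lf (nat_lit 0) (nat_lit 510656571) (nat_lit 76) (nat_lit 94346113) (nat_lit 152) (nat_lit 62096450284) (nat_lit 110) (nat_lit 5) (nat_lit 111) (nat_lit 5) (nat_lit 112) (nat_lit 4) (nat_lit 409) (nat_lit 315) (nat_lit 296)) (XT.lf (nat_lit 0) (nat_lit 16428704619) (nat_lit 76) (nat_lit 24978956733) (nat_lit 76) (nat_lit 24268577245) (nat_lit 109) (nat_lit 4) (nat_lit 110) (nat_lit 5) (nat_lit 110) (nat_lit 4) (nat_lit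 410) (nat_lit 315) (nat_lit 295))) (XT.nd (nat_lit 78) (nat_lit 76) (nat_lit 0) (XT.lf (nat_lit 0) (nat_lit 16969697396) (nat_lit 152) (nat_lit 35581155275) (nat_lit 0) (nat_lit 16279456471) (nat_lit 107) (nat_lit 5) (nat_lit 109) (nat_lit 4) (nat_lit 107) (nat_lit 4) (nat_lit 411) (nat_lit 315) (nat_lit 294)) (XT.lf (nat_lit 0) (nat_lit 50752007494) (nat_lit 76) (nat_lit 11055102537) (nat_lit 76) (nat_lit 10352186584) (nat_lit 106) (nat_lit 4) (nat_lit 107) (nat_lit 5) (nat_lit 107) (nat_lit 4) (nat_lit 412) (nat_lit 315) (nat_lit 293))))) (XT.nd (nat_lit 312) (nat_lit 532) (nat_lit 0) (XT.nd (nat_lit 156) (nat_lit 228) (nat_lit 0) (XT.nd (nat_lit 78) (nat_lit 228) (nat_lit 0) (XT.lf (nat_lit 0) (nat_lit 34714474498) (nat_lit 152) (nat_lit 6912309148) (nat_lit 0) (nat_lit 34033853459) (nat_lit 104) (nat_lit 5) (nat_lit 106) (nat_lit 4) (nat_lit 104) (nat_lit 4) (nat_lit 413) (nat_lit 315) (nat_lit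 292)) (XT.lf (nat_lit 0) (nat_lit 4748361003) (nat_lit 152) (nat_lit 70528487292) (nat_lit 0) (nat_lit 4090293987) (nat_lit 101) (nat_lit 5) (nat_lit 103) (nat_lit 4) (nat_lit 101) (nat_lit 4) (nat_lit 414) (nat_lit 315) (nat_lit 291))) (XT.nd (nat_lit 78) (nat_lit 152) (nat_lit 0) (XT.lf (nat_lit 0) (nat_lit 24990521174) (nat_lit 76) (nat_lit 29461924995) (nat_lit 76) (nat_lit 28794731588) (nat_lit 100) (nat_lit 4) (nat_lit 101) (nat_lit 5) (nat_lit 101) (nat_lit 4) (nat_lit 415) (nat_lit 315) (nat_lit 290)) (XT.lf (nat_lit 0) (nat_lit 21391871263) (nat_lit 152) (nat_lit 45213237955) (nat_lit 0) (nat_lit 20748401007) (nat_lit 98) (nat_lit 5) (nat_lit 100) (nat_lit 4) (nat_lit 98) (nat_lit 4) (nat_lit 416) (nat_lit 315) (nat_lit 289)))) (XT.nd (nat_lit 156) (nat_lit 304) (nat_lit 0) (XT.nd (nat_lit 78) (nat_lit 152) (nat_lit 0) (XT.lf (nat_lit 0) (nat_lit 60067218389) (nat_lit 76) (nat_lit 16133813940)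 (nat_lit 76) (nat_lit 15482891866) (nat_lit 97) (nat_lit 4) (nat_lit 98) (nat_lit 5) (nat_lit 98) (nat_lit 4) (nat_lit 417) (nat_lit 315) (nat_lit 288)) (XT.lf (nat_lit 0) (nat_lit 39612506950) (nat_lit 152) (nat_lit 17640398375) (nat_lit 0) (nat_lit 38986009896) (nat_lit 95) (nat_lit 5) (nat_lit 97) (nat_lit 4) (nat_lit 95) (nat_lit 4) (nat_lit 418) (nat_lit 315) (nat_lit 287))) (XT.nd (nat_lit 78) (nat_lit 228) (nat_lit 0) (XT.lf (nat_lit 0) (nat_lit 98570723036) (nat_lit 76) (nat_lit 1564678848) (nat_lit 76) (nat_lit 932097286) (nat_lit 94) (nat_lit 4) (nat_lit 95) (nat_lit 5) (nat_lit 95) (nat_lit 4) (nat_lit 419) (nat_lit 315) (nat_lit 286)) (XT.lf (nat_lit 0) (nat_lit 13016385441) (nat_lit 76) (nat_lit 46850186606) (nat_lit 76) (nat_lit 46242362449) (nat_lit 91) (nat_lit 4) (nat_lit 92) (nat_lit 5) (nat_lit 92) (nat_lit 4) (nat_lit 420) (nat_lit 315) (nat_lit 285)))))) (XT.nd (nat_lit 624)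 (nat_lit 988) (nat_lit 0) (XT.nd (nat_lit 312) (nat_lit 608) (nat_lit 0) (XT.nd (nat_lit 156) (nat_lit 228) (nat_lit 0) (XT.nd (nat_lit 78) (nat_lit 76) (nat_lit 0) (XT.lf (nat_lit 0) (nat_lit 15304433044) (nat_lit 152) (nat_lit 81426423509) (nat_lit 0) (nat_lit 14720821388) (nat_lit 89) (nat_lit 5) (nat_lit 91) (nat_lit 4) (nat_lit 89) (nat_lit 4) (nat_lit 421) (nat_lit 315) (nat_lit 284)) (XT.lf (nat_lit 0) (nat_lit 47486953892) (nat_lit 76) (nat_lit 35082132503) (nat_lit 76) (nat_lit 34494139824) (nat_lit 88) (nat_lit 4) (nat_lit 89) (nat_lit 5) (nat_lit 89) (nat_lit 4) (nat_lit 422) (nat_lit 315) (nat_lit 283))) (XT.nd (nat_lit 78) (nat_lit 76) (nat_lit 0) (XT.lf (nat_lit 0) (nat_lit 33308677874) (nat_lit 152) (nat_lit 56932918113) (nat_lit 0) (nat_lit 32744821510) (nat_lit 86) (nat_lit 5) (nat_lit 88) (nat_lit 4) (nat_lit 86) (nat_lit 4) (nat_lit 423) (nat_lit 315) (nat_lit 282)) (XT.lf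 (nat_lit 0) (nat_lit 85721566902) (nat_lit 76) (nat_lit 22039677654) (nat_lit 76) (nat_lit 21472244126) (nat_lit 85) (nat_lit 4) (nat_lit 86) (nat_lit 5) (nat_lit 86) (nat_lit 4) (nat_lit 424) (nat_lit 315) (nat_lit 281)))) (XT.nd (nat_lit 156) (nat_lit 380) (nat_lit 0) (XT.nd (nat_lit 78) (nat_lit 76) (nat_lit 0) (XT.lf (nat_lit 0) (nat_lit 53326025500) (nat_lit 152) (nat_lit 29690764016) (nat_lit 0) (nat_lit 52782458152) (nat_lit 83) (nat_lit 5) (nat_lit 85) (nat_lit 4) (nat_lit 83) (nat_lit 4) (nat_lit 425) (nat_lit 315) (nat_lit 280)) (XT.lf (nat_lit 0) (nat_lit 128320017872) (nat_lit 76) (nat_lit 7488258658) (nat_lit 76) (nat_lit 6941770509) (nat_lit 82) (nat_lit 4) (nat_lit 83) (nat_lit 5) (nat_lit 83) (nat_lit 4) (nat_lit 426) (nat_lit 315) (nat_lit 279))) (XT.nd (nat_lit 78) (nat_lit 152) (nat_lit 0) (XT.lf (nat_lit 0) (nat_lit 820658222) (nat_lit 76) (nat_lit 74864475098) (nat_lit 76)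 (nat_lit 74341434531) (nat_lit 79) (nat_lit 4) (nat_lit 80) (nat_lit 5) (nat_lit 80) (nat_lit 4) (nat_lit 427) (nat_lit 315) (nat_lit 278)) (XT.lf (nat_lit 0) (nat_lit 9499154751) (nat_lit 152) (nat_lit 139230442259) (nat_lit 0) (nat_lit 8998749570) (nat_lit 77) (nat_lit 5) (nat_lit 79) (nat_lit 4) (nat_lit 77) (nat_lit 4) (nat_lit 428) (nat_lit 315) (nat_lit 277))))) (XT.nd (nat_lit 312) (nat_lit 532) (nat_lit 0) (XT.nd (nat_lit 156) (nat_lit 228) (nat_lit 0) (XT.nd (nat_lit 78) (nat_lit 152) (nat_lit 0) (XT.lf (nat_lit 0) (nat_lit 36240914853) (nat_lit 76) (nat_lit 65027805426) (nat_lit 76) (nat_lit 64525297184) (nat_lit 76) (nat_lit 4) (nat_lit 77) (nat_lit 5) (nat_lit 77) (nat_lit 4) (nat_lit 429) (nat_lit 315) (nat_lit 276)) (XT.lf (nat_lit 0) (nat_lit 28178749552) (nat_lit 152) (nat_lit 118451077791) (nat_lit 0) (nat_lit 27698315721) (nat_lit 74) (nat_lit 5) (nat_lit 76) (nat_lit 4) (nat_lit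 74) (nat_lit 4) (nat_lit 430) (nat_lit 315) (nat_lit 275))) (XT.nd (nat_lit 78) (nat_lit 152) (nat_lit 0) (XT.lf (nat_lit 0) (nat_lit 76240271308) (nat_lit 76) (nat_lit 53767755442) (nat_lit 76) (nat_lit 53285604434) (nat_lit 73) (nat_lit 4) (nat_lit 74) (nat_lit 5) (nat_lit 74) (nat_lit 4) (nat_lit 431) (nat_lit 315) (nat_lit 274)) (XT.lf (nat_lit 0) (nat_lit 49309884685) (nat_lit 152) (nat_lit 94590242729) (nat_lit 0) (nat_lit 48849178982) (nat_lit 71) (nat_lit 5) (nat_lit 73) (nat_lit 4) (nat_lit 71) (nat_lit 4) (nat_lit 432) (nat_lit 315) (nat_lit 273)))) (XT.nd (nat_lit 156) (nat_lit 304) (nat_lit 0) (XT.nd (nat_lit 78) (nat_lit 152) (nat_lit 0) (XT.lf (nat_lit 0) (nat_lit 121555789141) (nat_lit 76) (nat_lit 40809070901) (nat_lit 76) (nat_lit 40346963100) (nat_lit 70) (nat_lit 4) (nat_lit 71) (nat_lit 5) (nat_lit 71) (nat_lit 4) (nat_lit 433) (nat_lit 315) (nat_lit 272)) (XT.lf (nat_lit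 0) (nat_lit 73281640672) (nat_lit 152) (nat_lit 67065930851) (nat_lit 0) (nat_lit 72840301585) (nat_lit 68) (nat_lit 5) (nat_lit 70) (nat_lit 4) (nat_lit 68) (nat_lit 4) (nat_lit 434) (nat_lit 315) (nat_lit 271))) (XT.nd (nat_lit 78) (nat_lit 228) (nat_lit 0) (XT.lf (nat_lit 0) (nat_lit 173020870435) (nat_lit 76) (nat_lit 25838465530) (nat_lit 76) (nat_lit 25395981612) (nat_lit 67) (nat_lit 4) (nat_lit 68) (nat_lit 5) (nat_lit 68) (nat_lit 4) (nat_lit 435) (nat_lit 315) (nat_lit 270)) (XT.nd (nat_lit 78) (nat_lit 76) (nat_lit 0) (XT.lf (nat_lit 0) (nat_lit 100533944740) (nat_lit 152) (nat_lit 35215759851) (nat_lit 0) (nat_lit 100111521933) (nat_lit 65) (nat_lit 5) (nat_lit 67) (nat_lit 4) (nat_lit 65) (nat_lit 4) (nat_lit 436) (nat_lit 315) (nat_lit 269)) (XT.lf (nat_lit 0) (nat_lit 231577920486) (nat_lit 76) (nat_lit 8499394420) (nat_lit 76) (nat_lit 8076036842) (nat_lit 64) (nat_lit 4) (nat_lit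 65) (nat_lit 5) (nat_lit 65) (nat_lit 4) (nat_lit 437) (nat_lit 315) (nat_lit 268))))))))
noncomputable def xc27 : XT := (XT.nd (nat_lit 49686) (nat_lit 0) (nat_lit 4788) (XT.nd (nat_lit 624) (nat_lit 228) (nat_lit 0) (XT.nd (nat_lit 312) (nat_lit 456) (nat_lit 0) (XT.nd (nat_lit 156) (nat_lit 228) (nat_lit 0) (XT.nd (nat_lit 78) (nat_lit 152) (nat_lit 0) (XT.lf (nat_lit 0) (nat_lit 1770716133) (nat_lit 76) (nat_lit 129821167616) (nat_lit 76) (nat_lit 129417145611) (nat_lit 61) (nat_lit 4) (nat_lit 62) (nat_lit 5) (nat_lit 62) (nat_lit 4) (nat_lit 438) (nat_lit 315) (nat_lit 267)) (XT.lf (nat_lit 0) (nat_lit 12202700168) (nat_lit 152) (nat_lit 250602408831) (nat_lit 0) (nat_lit 11817190399) (nat_lit 59) (nat_lit 5) (nat_lit 61) (nat_lit 4) (nat_lit 59) (nat_lit 4) (nat_lit 439) (nat_lit 315) (nat_lit 266))) (XT.nd (nat_lit 78) (nat_lit 152) (nat_lit 0) (XT.lf (nat_lit 0) (nat_lit 46055112300)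 (nat_lit 76) (nat_lit 121598910093) (nat_lit 76) (nat_lit 121212727262) (nat_lit 58) (nat_lit 4) (nat_lit 59) (nat_lit 5) (nat_lit 59) (nat_lit 4) (nat_lit 440) (nat_lit 315) (nat_lit 265)) (XT.lf (nat_lit 0) (nat_lit 35916687539) (nat_lit 152) (nat_lit 232479966247) (nat_lit 0) (nat_lit 35548300838) (nat_lit 56) (nat_lit 5) (nat_lit 58) (nat_lit 4) (nat_lit 56) (nat_lit 4) (nat_lit 441) (nat_lit 315) (nat_lit 264)))) (XT.nd (nat_lit 156) (nat_lit 228) (nat_lit 0) (XT.nd (nat_lit 78) (nat_lit 152) (nat_lit 0) (XT.lf (nat_lit 0) (nat_lit 97480700615) (nat_lit 76) (nat_lit 111323292448) (nat_lit 76) (nat_lit 110954356183) (nat_lit 55) (nat_lit 4) (nat_lit 56) (nat_lit 5) (nat_lit 56) (nat_lit 4) (nat_lit 442) (nat_lit 315) (nat_lit 263)) (XT.lf (nat_lit 0) (nat_lit 63453434242) (nat_lit 152) (nat_lit 209903673813) (nat_lit 0) (nat_lit 63101581746) (nat_lit 53) (nat_lit 5) (nat_lit 55) (nat_lit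 4) (nat_lit 53) (nat_lit 4) (nat_lit 443) (nat_lit 315) (nat_lit 262))) (XT.nd (nat_lit 78) (nat_lit 152) (nat_lit 0) (XT.lf (nat_lit 0) (nat_lit 157193189536) (nat_lit 76) (nat_lit 98585312683) (nat_lit 76) (nat_lit 98233011461) (nat_lit 52) (nat_lit 4) (nat_lit 53) (nat_lit 5) (nat_lit 53) (nat_lit 4) (nat_lit 444) (nat_lit 315) (nat_lit 261)) (XT.lf (nat_lit 0) (nat_lit 95419332110) (nat_lit 152) (nat_lit 182005377711) (nat_lit 0) (nat_lit 95083411435) (nat_lit 50) (nat_lit 5) (nat_lit 52) (nat_lit 4) (nat_lit 50) (nat_lit 4) (nat_lit 445) (nat_lit 315) (nat_lit 260))))) (XT.nd (nat_lit 48750) (nat_lit 0) (nat_lit 7448) (XT.nd (nat_lit 48594) (nat_lit 0) (nat_lit 8132) (XT.nd (nat_lit 78) (nat_lit 152) (nat_lit 0) (XT.lf (nat_lit 0) (nat_lit 226494730647) (nat_lit 76) (nat_lit 82915546980) (nat_lit 76) (nat_lit 82579259914) (nat_lit 49) (nat_lit 4) (nat_lit 50) (nat_lit 5) (nat_lit 50) (nat_lit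 4) (nat_lit 446) (nat_lit 315) (nat_lit 259)) (XT.lf (nat_lit 0) (nat_lit 132503405420) (nat_lit 152) (nat_lit 147789084018) (nat_lit 0) (nat_lit 132182808928) (nat_lit 47) (nat_lit 5) (nat_lit 49) (nat_lit 4) (nat_lit 47) (nat_lit 4) (nat_lit 447) (nat_lit 315) (nat_lit 258))) (XT.nd (nat_lit 78) (nat_lit 76) (nat_lit 0) (XT.lf (nat_lit 0) (nat_lit 1923827496) (nat_lit 152) (nat_lit 9051397212) (nat_lit 0) (nat_lit 1923827496) (nat_lit 155) (nat_lit 5) (nat_lit 157) (nat_lit 4) (nat_lit 155) (nat_lit 4) (nat_lit 388) (nat_lit 316) (nat_lit 316)) (XT.lf (nat_lit 0) (nat_lit 23042448203) (nat_lit 76) (nat_lit 1959732256) (nat_lit 76) (nat_lit 1809314069) (nat_lit 154) (nat_lit 4) (nat_lit 155) (nat_lit 5) (nat_lit 155) (nat_lit 4) (nat_lit 389) (nat_lit 316) (nat_lit 315)))) (XT.nd (nat_lit 156) (nat_lit 304) (nat_lit 0) (XT.nd (nat_lit 78) (nat_lit 152) (nat_lit 0) (XT.lf (nat_lit 0) (nat_lit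 11175946883) (nat_lit 76) (nat_lit 8486235587) (nat_lit 76) (nat_lit 8210336266) (nat_lit 151) (nat_lit 4) (nat_lit 152) (nat_lit 5) (nat_lit 152) (nat_lit 4) (nat_lit 390) (nat_lit 316) (nat_lit 314)) (XT.lf (nat_lit 0) (nat_lit 13529581441) (nat_lit 152) (nat_lit 2316796187) (nat_lit 0) (nat_lit 13149850250) (nat_lit 149) (nat_lit 5) (nat_lit 151) (nat_lit 4) (nat_lit 149) (nat_lit 4) (nat_lit 391) (nat_lit 316) (nat_lit 313))) (XT.nd (nat_lit 78) (nat_lit 76) (nat_lit 0) (XT.lf (nat_lit 0) (nat_lit 6678427039) (nat_lit 152) (nat_lit 17287503396) (nat_lit 0) (nat_lit 6213630197) (nat_lit 146) (nat_lit 5) (nat_lit 148) (nat_lit 4) (nat_lit 146) (nat_lit 4) (nat_lit 392) (nat_lit 316) (nat_lit 312)) (XT.lf (nat_lit 0) (nat_lit 28614746901) (nat_lit 76) (nat_lit 1688958067) (nat_lit 76) (nat_lit 1128653735) (nat_lit 145) (nat_lit 4) (nat_lit 146) (nat_lit 5) (nat_lit 146) (nat_lit 4) (nat_lit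 393) (nat_lit 316) (nat_lit 311)))))) (XT.nd (nat_lit 624) (nat_lit 1292) (nat_lit 0) (XT.nd (nat_lit 312) (nat_lit 684) (nat_lit 0) (XT.nd (nat_lit 156) (nat_lit 304) (nat_lit 0) (XT.nd (nat_lit 78) (nat_lit 152) (nat_lit 0) (XT.lf (nat_lit 0) (nat_lit 12266933973) (nat_lit 76) (nat_lit 10546236174) (nat_lit 76) (nat_lit 9928391228) (nat_lit 142) (nat_lit 4) (nat_lit 143) (nat_lit 5) (nat_lit 143) (nat_lit 4) (nat_lit 394) (nat_lit 316) (nat_lit 310)) (XT.lf (nat_lit 0) (nat_lit 14300919433) (nat_lit 152) (nat_lit 6189727612) (nat_lit 0) (nat_lit 13638226034) (nat_lit 140) (nat_lit 5) (nat_lit 142) (nat_lit 4) (nat_lit 140) (nat_lit 4) (nat_lit 395) (nat_lit 316) (nat_lit 309))) (XT.nd (nat_lit 78) (nat_lit 76) (nat_lit 0) (XT.lf (nat_lit 0) (nat_lit 4773484570) (nat_lit 152) (nat_lit 26744385112) (nat_lit 0) (nat_lit 4076854489) (nat_lit 137) (nat_lit 5) (nat_lit 139) (nat_lit 4) (nat_lit 137)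 (nat_lit 4) (nat_lit 396) (nat_lit 316) (nat_lit 308)) (XT.lf (nat_lit 0) (nat_lit 24433244760) (nat_lit 76) (nat_lit 6729938682) (nat_lit 76) (nat_lit 5972666462) (nat_lit 136) (nat_lit 4) (nat_lit 137) (nat_lit 5) (nat_lit 137) (nat_lit 4) (nat_lit 397) (nat_lit 316) (nat_lit 307)))) (XT.nd (nat_lit 156) (nat_lit 304) (nat_lit 0) (XT.nd (nat_lit 78) (nat_lit 152) (nat_lit 0) (XT.lf (nat_lit 0) (nat_lit 1726836654) (nat_lit 76) (nat_lit 18905019068) (nat_lit 76) (nat_lit 18130331117) (nat_lit 133) (nat_lit 4) (nat_lit 134) (nat_lit 5) (nat_lit 134) (nat_lit 4) (nat_lit 398) (nat_lit 316) (nat_lit 306)) (XT.lf (nat_lit 0) (nat_lit 8957937949) (nat_lit 152) (nat_lit 23346429571) (nat_lit 0) (nat_lit 8172982657) (nat_lit 131) (nat_lit 5) (nat_lit 133) (nat_lit 4) (nat_lit 131) (nat_lit 4) (nat_lit 399) (nat_lit 316) (nat_lit 305))) (XT.nd (nat_lit 78) (nat_lit 228) (nat_lit 0) (XT.lf (nat_lit 0)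 (nat_lit 33008216037) (nat_lit 76) (nat_lit 5055493524) (nat_lit 76) (nat_lit 4226874119) (nat_lit 130) (nat_lit 4) (nat_lit 131) (nat_lit 5) (nat_lit 131) (nat_lit 4) (nat_lit 400) (nat_lit 316) (nat_lit 304)) (XT.lf (nat_lit 0) (nat_lit 5210711289) (nat_lit 76) (nat_lit 19906161649) (nat_lit 76) (nat_lit 19078495802) (nat_lit 127) (nat_lit 4) (nat_lit 128) (nat_lit 5) (nat_lit 128) (nat_lit 4) (nat_lit 401) (nat_lit 316) (nat_lit 303))))) (XT.nd (nat_lit 312) (nat_lit 684) (nat_lit 0) (XT.nd (nat_lit 156) (nat_lit 380) (nat_lit 0) (XT.nd (nat_lit 78) (nat_lit 76) (nat_lit 0) (XT.lf (nat_lit 0) (nat_lit 10729451367) (nat_lit 152) (nat_lit 25571664375) (nat_lit 0) (nat_lit 9907243585) (nat_lit 125) (nat_lit 5) (nat_lit 127) (nat_lit 4) (nat_lit 125) (nat_lit 4) (nat_lit 402) (nat_lit 316) (nat_lit 302)) (XT.lf (nat_lit 0) (nat_lit 36576931162) (nat_lit 76) (nat_lit 6306000676) (nat_lit 76) (nat_lit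 5452353456) (nat_lit 124) (nat_lit 4) (nat_lit 125) (nat_lit 5) (nat_lit 125) (nat_lit 4) (nat_lit 403) (nat_lit 316) (nat_lit 301))) (XT.nd (nat_lit 78) (nat_lit 152) (nat_lit 0) (XT.lf (nat_lit 0) (nat_lit 2400319198) (nat_lit 76) (nat_lit 24506018941) (nat_lit 76) (nat_lit 23665297216) (nat_lit 121) (nat_lit 4) (nat_lit 122) (nat_lit 5) (nat_lit 122) (nat_lit 4) (nat_lit 404) (nat_lit 316) (nat_lit 300)) (XT.lf (nat_lit 0) (nat_lit 9236945616) (nat_lit 152) (nat_lit 35285167943) (nat_lit 0) (nat_lit 8411809958) (nat_lit 119) (nat_lit 5) (nat_lit 121) (nat_lit 4) (nat_lit 119) (nat_lit 4) (nat_lit 405) (nat_lit 316) (nat_lit 299)))) (XT.nd (nat_lit 156) (nat_lit 456) (nat_lit 0) (XT.nd (nat_lit 78) (nat_lit 152) (nat_lit 0) (XT.lf (nat_lit 0) (nat_lit 33324893163) (nat_lit 76) (nat_lit 11472948613) (nat_lit 76) (nat_lit 10625175640) (nat_lit 118) (nat_lit 4) (nat_lit 119) (nat_lit 5) (nat_lit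 119) (nat_lit 4) (nat_lit 406) (nat_lit 316) (nat_lit 298)) (XT.lf (nat_lit 0) (nat_lit 25170436725) (nat_lit 152) (nat_lit 8534083531) (nat_lit 0) (nat_lit 24343071534) (nat_lit 116) (nat_lit 5) (nat_lit 118) (nat_lit 4) (nat_lit 116) (nat_lit 4) (nat_lit 407) (nat_lit 316) (nat_lit 297))) (XT.nd (nat_lit 78) (nat_lit 228) (nat_lit 0) (XT.lf (nat_lit 0) (nat_lit 3390295246) (nat_lit 152) (nat_lit 54851936644) (nat_lit 0) (nat_lit 2584724907) (nat_lit 113) (nat_lit 5) (nat_lit 115) (nat_lit 4) (nat_lit 113) (nat_lit 4) (nat_lit 408) (nat_lit 316) (nat_lit 296)) (XT.nd (nat_lit 78) (nat_lit 152) (nat_lit 0) (XT.lf (nat_lit 0) (nat_lit 20937075720) (nat_lit 76) (nat_lit 21809769361) (nat_lit 76) (nat_lit 20987899493) (nat_lit 112) (nat_lit 4) (nat_lit 113) (nat_lit 5) (nat_lit 113) (nat_lit 4) (nat_lit 409) (nat_lit 316) (nat_lit 295)) (XT.lf (nat_lit 0) (nat_lit 18743536568) (nat_lit 152) (nat_lit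 30123096078) (nat_lit 0) (nat_lit 17946429877) (nat_lit 110) (nat_lit 5) (nat_lit 112) (nat_lit 4) (nat_lit 110) (nat_lit 4) (nat_lit 410) (nat_lit 316) (nat_lit 294))))))))
noncomputable def xc28 : XT := (XT.nd (nat_lit 1248) (nat_lit 2052) (nat_lit 0) (XT.nd (nat_lit 624) (nat_lit 1064) (nat_lit 0) (XT.nd (nat_lit 312) (nat_lit 456) (nat_lit 0) (XT.nd (nat_lit 156) (nat_lit 304) (nat_lit 0) (XT.nd (nat_lit 78) (nat_lit 152) (nat_lit 0) (XT.lf (nat_lit 0) (nat_lit 53174601233) (nat_lit 76) (nat_lit 8850456377) (nat_lit 76) (nat_lit 8040040907) (nat_lit 109) (nat_lit 4) (nat_lit 110) (nat_lit 5) (nat_lit 110) (nat_lit 4) (nat_lit 411) (nat_lit 316) (nat_lit 293)) (XT.lf (nat_lit 0) (nat_lit 35425892530) (nat_lit 152) (nat_lit 3413578242) (nat_lit 0) (nat_lit 34642332134) (nat_lit 107) (nat_lit 5) (nat_lit 109) (nat_lit 4) (nat_lit 107) (nat_lit 4) (nat_lit 412) (nat_lit 316) (nat_lit 292))) (XT.nd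 (nat_lit 78) (nat_lit 76) (nat_lit 0) (XT.lf (nat_lit 0) (nat_lit 6065160577) (nat_lit 152) (nat_lit 65722660318) (nat_lit 0) (nat_lit 5308563254) (nat_lit 104) (nat_lit 5) (nat_lit 106) (nat_lit 4) (nat_lit 104) (nat_lit 4) (nat_lit 413) (nat_lit 316) (nat_lit 291)) (XT.lf (nat_lit 0) (nat_lit 26479689701) (nat_lit 76) (nat_lit 27585646607) (nat_lit 76) (nat_lit 26819466573) (nat_lit 103) (nat_lit 4) (nat_lit 104) (nat_lit 5) (nat_lit 104) (nat_lit 4) (nat_lit 414) (nat_lit 316) (nat_lit 290)))) (XT.nd (nat_lit 156) (nat_lit 228) (nat_lit 0) (XT.nd (nat_lit 78) (nat_lit 76) (nat_lit 0) (XT.lf (nat_lit 0) (nat_lit 21623766344) (nat_lit 152) (nat_lit 42382349787) (nat_lit 0) (nat_lit 20885620711) (nat_lit 101) (nat_lit 5) (nat_lit 103) (nat_lit 4) (nat_lit 101) (nat_lit 4) (nat_lit 415) (nat_lit 316) (nat_lit 289)) (XT.lf (nat_lit 0) (nat_lit 59309775951) (nat_lit 76) (nat_lit 15277116763) (nat_lit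 76) (nat_lit 14531146721) (nat_lit 100) (nat_lit 4) (nat_lit 101) (nat_lit 5) (nat_lit 101) (nat_lit 4) (nat_lit 416) (nat_lit 316) (nat_lit 288))) (XT.nd (nat_lit 78) (nat_lit 76) (nat_lit 0) (XT.lf (nat_lit 0) (nat_lit 38693909150) (nat_lit 152) (nat_lit 16891785824) (nat_lit 0) (nat_lit 37976561660) (nat_lit 98) (nat_lit 5) (nat_lit 100) (nat_lit 4) (nat_lit 98) (nat_lit 4) (nat_lit 417) (nat_lit 316) (nat_lit 287)) (XT.lf (nat_lit 0) (nat_lit 95423098254) (nat_lit 76) (nat_lit 1786818017) (nat_lit 76) (nat_lit 1063081793) (nat_lit 97) (nat_lit 4) (nat_lit 98) (nat_lit 5) (nat_lit 98) (nat_lit 4) (nat_lit 418) (nat_lit 316) (nat_lit 286))))) (XT.nd (nat_lit 312) (nat_lit 456) (nat_lit 0) (XT.nd (nat_lit 156) (nat_lit 228) (nat_lit 0) (XT.nd (nat_lit 78) (nat_lit 152) (nat_lit 0) (XT.lf (nat_lit 0) (nat_lit 11506384476) (nat_lit 76) (nat_lit 46190393421) (nat_lit 76) (nat_lit 45495487023) (nat_lit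 94) (nat_lit 4) (nat_lit 95) (nat_lit 5) (nat_lit 95) (nat_lit 4) (nat_lit 419) (nat_lit 316) (nat_lit 285)) (XT.lf (nat_lit 0) (nat_lit 13996748058) (nat_lit 152) (nat_lit 81078412850) (nat_lit 0) (nat_lit 13329964360) (nat_lit 92) (nat_lit 5) (nat_lit 94) (nat_lit 4) (nat_lit 92) (nat_lit 4) (nat_lit 420) (nat_lit 316) (nat_lit 284))) (XT.nd (nat_lit 78) (nat_lit 152) (nat_lit 0) (XT.lf (nat_lit 0) (nat_lit 43537842246) (nat_lit 76) (nat_lit 35505899298) (nat_lit 76) (nat_lit 34834515525) (nat_lit 91) (nat_lit 4) (nat_lit 92) (nat_lit 5) (nat_lit 92) (nat_lit 4) (nat_lit 421) (nat_lit 316) (nat_lit 283)) (XT.lf (nat_lit 0) (nat_lit 30745840978) (nat_lit 152) (nat_lit 58808747177) (nat_lit 0) (nat_lit 30102371357) (nat_lit 89) (nat_lit 5) (nat_lit 91) (nat_lit 4) (nat_lit 89) (nat_lit 4) (nat_lit 422) (nat_lit 316) (nat_lit 282)))) (XT.nd (nat_lit 156) (nat_lit 228) (nat_lit 0) (XT.nd (nat_lit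 78) (nat_lit 152) (nat_lit 0) (XT.lf (nat_lit 0) (nat_lit 79151668315) (nat_lit 76) (nat_lit 23621945802) (nat_lit 76) (nat_lit 22974720160) (nat_lit 88) (nat_lit 4) (nat_lit 89) (nat_lit 5) (nat_lit 89) (nat_lit 4) (nat_lit 423) (nat_lit 316) (nat_lit 281)) (XT.lf (nat_lit 0) (nat_lit 49411003347) (nat_lit 152) (nat_lit 33951160203) (nat_lit 0) (nat_lit 48791285785) (nat_lit 86) (nat_lit 5) (nat_lit 88) (nat_lit 4) (nat_lit 86) (nat_lit 4) (nat_lit 424) (nat_lit 316) (nat_lit 280))) (XT.nd (nat_lit 78) (nat_lit 152) (nat_lit 0) (XT.lf (nat_lit 0) (nat_lit 118918985601) (nat_lit 76) (nat_lit 10316646099) (nat_lit 76) (nat_lit 9693861697) (nat_lit 85) (nat_lit 4) (nat_lit 86) (nat_lit 5) (nat_lit 86) (nat_lit 4) (nat_lit 425) (nat_lit 316) (nat_lit 279)) (XT.lf (nat_lit 0) (nat_lit 70293118518) (nat_lit 152) (nat_lit 6037732344) (nat_lit 0) (nat_lit 69697286070) (nat_lit 83) (nat_lit 5) (nat_lit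 85) (nat_lit 4) (nat_lit 83) (nat_lit 4) (nat_lit 426) (nat_lit 316) (nat_lit 278)))))) (XT.nd (nat_lit 624) (nat_lit 1064) (nat_lit 0) (XT.nd (nat_lit 312) (nat_lit 456) (nat_lit 0) (XT.nd (nat_lit 156) (nat_lit 228) (nat_lit 0) (XT.nd (nat_lit 78) (nat_lit 76) (nat_lit 0) (XT.lf (nat_lit 0) (nat_lit 5326309307) (nat_lit 152) (nat_lit 143463955730) (nat_lit 0) (nat_lit 4756464960) (nat_lit 80) (nat_lit 5) (nat_lit 82) (nat_lit 4) (nat_lit 80) (nat_lit 4) (nat_lit 427) (nat_lit 316) (nat_lit 277)) (XT.lf (nat_lit 0) (nat_lit 26302518831) (nat_lit 76) (nat_lit 67839072326) (nat_lit 76) (nat_lit 67267019763) (nat_lit 79) (nat_lit 4) (nat_lit 80) (nat_lit 5) (nat_lit 80) (nat_lit 4) (nat_lit 428) (nat_lit 316) (nat_lit 276))) (XT.nd (nat_lit 78) (nat_lit 76) (nat_lit 0) (XT.lf (nat_lit 0) (nat_lit 22513689965) (nat_lit 152) (nat_lit 125253263478) (nat_lit 0) (nat_lit 21966930721) (nat_lit 77) (nat_lit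 5) (nat_lit 79) (nat_lit 4) (nat_lit 77) (nat_lit 4) (nat_lit 429) (nat_lit 316) (nat_lit 275)) (XT.lf (nat_lit 0) (nat_lit 63164308217) (nat_lit 76) (nat_lit 57927848003) (nat_lit 76) (nat_lit 57379285723) (nat_lit 76) (nat_lit 4) (nat_lit 77) (nat_lit 5) (nat_lit 77) (nat_lit 4) (nat_lit 430) (nat_lit 316) (nat_lit 274)))) (XT.nd (nat_lit 156) (nat_lit 228) (nat_lit 0) (XT.nd (nat_lit 78) (nat_lit 76) (nat_lit 0) (XT.lf (nat_lit 0) (nat_lit 42016030035) (nat_lit 152) (nat_lit 104187215660) (nat_lit 0) (nat_lit 41491999788) (nat_lit 74) (nat_lit 5) (nat_lit 76) (nat_lit 4) (nat_lit 74) (nat_lit 4) (nat_lit 431) (nat_lit 316) (nat_lit 273)) (XT.lf (nat_lit 0) (nat_lit 105047732142) (nat_lit 76) (nat_lit 46440457963) (nat_lit 76) (nat_lit 45914955513) (nat_lit 73) (nat_lit 4) (nat_lit 74) (nat_lit 5) (nat_lit 74) (nat_lit 4) (nat_lit 432) (nat_lit 316) (nat_lit 272))) (XT.nd (nat_lit 78) (nat_lit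 76) (nat_lit 0) (XT.lf (nat_lit 0) (nat_lit 64202876733) (nat_lit 152) (nat_lit 79717864139) (nat_lit 0) (nat_lit 63701099970) (nat_lit 71) (nat_lit 5) (nat_lit 73) (nat_lit 4) (nat_lit 71) (nat_lit 4) (nat_lit 433) (nat_lit 316) (nat_lit 271)) (XT.lf (nat_lit 0) (nat_lit 152744652696) (nat_lit 76) (nat_lit 33081738995) (nat_lit 76) (nat_lit 32578760159) (nat_lit 70) (nat_lit 4) (nat_lit 71) (nat_lit 5) (nat_lit 71) (nat_lit 4) (nat_lit 434) (nat_lit 316) (nat_lit 270))))) (XT.nd (nat_lit 312) (nat_lit 456) (nat_lit 0) (XT.nd (nat_lit 156) (nat_lit 380) (nat_lit 0) (XT.nd (nat_lit 78) (nat_lit 76) (nat_lit 0) (XT.lf (nat_lit 0) (nat_lit 89492409635) (nat_lit 152) (nat_lit 51220759294) (nat_lit 0) (nat_lit 89012322142) (nat_lit 68) (nat_lit 5) (nat_lit 70) (nat_lit 4) (nat_lit 68) (nat_lit 4) (nat_lit 435) (nat_lit 316) (nat_lit 269)) (XT.lf (nat_lit 0) (nat_lit 207151205959) (nat_lit 76) (nat_lit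 17515341400) (nat_lit 76) (nat_lit 17034272399) (nat_lit 67) (nat_lit 4) (nat_lit 68) (nat_lit 5) (nat_lit 68) (nat_lit 4) (nat_lit 436) (nat_lit 316) (nat_lit 268))) (XT.nd (nat_lit 78) (nat_lit 228) (nat_lit 0) (XT.lf (nat_lit 0) (nat_lit 118357835471) (nat_lit 152) (nat_lit 17984421428) (nat_lit 0) (nat_lit 117898808989) (nat_lit 65) (nat_lit 5) (nat_lit 67) (nat_lit 4) (nat_lit 65) (nat_lit 4) (nat_lit 437) (nat_lit 316) (nat_lit 267)) (XT.lf (nat_lit 0) (nat_lit 1105082126) (nat_lit 152) (nat_lit 265762793823) (nat_lit 0) (nat_lit 667150795) (nat_lit 62) (nat_lit 5) (nat_lit 64) (nat_lit 4) (nat_lit 62) (nat_lit 4) (nat_lit 438) (nat_lit 316) (nat_lit 266)))) (XT.nd (nat_lit 156) (nat_lit 228) (nat_lit 0) (XT.nd (nat_lit 78) (nat_lit 152) (nat_lit 0) (XT.lf (nat_lit 0) (nat_lit 21489334758) (nat_lit 76) (nat_lit 130180756088) (nat_lit 76) (nat_lit 129742118042) (nat_lit 61) (nat_lit 4) (nat_lit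 62) (nat_lit 5) (nat_lit 62) (nat_lit 4) (nat_lit 439) (nat_lit 316) (nat_lit 265)) (XT.lf (nat_lit 0) (nat_lit 22616625230) (nat_lit 152) (nat_lit 251305321161) (nat_lit 0) (nat_lit 22198251506) (nat_lit 59) (nat_lit 5) (nat_lit 61) (nat_lit 4) (nat_lit 59) (nat_lit 4) (nat_lit 440) (nat_lit 316) (nat_lit 264))) (XT.nd (nat_lit 78) (nat_lit 152) (nat_lit 0) (XT.lf (nat_lit 0) (nat_lit 68244079350) (nat_lit 76) (nat_lit 121849792334) (nat_lit 76) (nat_lit 121430841568) (nat_lit 58) (nat_lit 4) (nat_lit 59) (nat_lit 5) (nat_lit 59) (nat_lit 4) (nat_lit 441) (nat_lit 316) (nat_lit 263)) (XT.lf (nat_lit 0) (nat_lit 47710611232) (nat_lit 152) (nat_lit 232792808682) (nat_lit 0) (nat_lit 47311101646) (nat_lit 56) (nat_lit 5) (nat_lit 58) (nat_lit 4) (nat_lit 56) (nat_lit 4) (nat_lit 442) (nat_lit 316) (nat_lit 262)))))))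
noncomputable def xc29 : XT := (XT.nd (nat_lit 49530) (nat_lit 0) (nat_lit 4332) (XT.nd (nat_lit 48906) (nat_lit 0) (nat_lit 6840) (XT.nd (nat_lit 312) (nat_lit 76) (nat_lit 0) (XT.nd (nat_lit 156) (nat_lit 228) (nat_lit 0) (XT.nd (nat_lit 78) (nat_lit 152) (nat_lit 0) (XT.lf (nat_lit 0) (nat_lit 122770043598) (nat_lit 76) (nat_lit 111271155015) (nat_lit 76) (nat_lit 110871174267) (nat_lit 55) (nat_lit 4) (nat_lit 56) (nat_lit 5) (nat_lit 56) (nat_lit 4) (nat_lit 443) (nat_lit 316) (nat_lit 261)) (XT.lf (nat_lit 0) (nat_lit 76961522872) (nat_lit 152) (nat_lit 209412098079) (nat_lit 0) (nat_lit 76580173339) (nat_lit 53) (nat_lit 5) (nat_lit 55) (nat_lit 4) (nat_lit 53) (nat_lit 4) (nat_lit 444) (nat_lit 316) (nat_lit 260))) (XT.nd (nat_lit 78) (nat_lit 152) (nat_lit 0) (XT.lf (nat_lit 0) (nat_lit 186301378426) (nat_lit 76) (nat_lit 98004761362) (nat_lit 76) (nat_lit 97623027118) (nat_lit 52) (nat_lit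 4) (nat_lit 53) (nat_lit 5) (nat_lit 53) (nat_lit 4) (nat_lit 445) (nat_lit 316) (nat_lit 259)) (XT.lf (nat_lit 0) (nat_lit 111022707576) (nat_lit 152) (nat_lit 180228760032) (nat_lit 0) (nat_lit 110658811903) (nat_lit 50) (nat_lit 5) (nat_lit 52) (nat_lit 4) (nat_lit 50) (nat_lit 4) (nat_lit 446) (nat_lit 316) (nat_lit 258)))) (XT.nd (nat_lit 48438) (nat_lit 0) (nat_lit 8056) (XT.nd (nat_lit 48360) (nat_lit 0) (nat_lit 8436) (XT.lf (nat_lit 0) (nat_lit 260241368801) (nat_lit 76) (nat_lit 81545184434) (nat_lit 76) (nat_lit 81180974639) (nat_lit 49) (nat_lit 4) (nat_lit 50) (nat_lit 5) (nat_lit 50) (nat_lit 4) (nat_lit 447) (nat_lit 316) (nat_lit 257)) (XT.lf (nat_lit 0) (nat_lit 1842992711) (nat_lit 76) (nat_lit 5053967182) (nat_lit 76) (nat_lit 5053967182) (nat_lit 160) (nat_lit 4) (nat_lit 161) (nat_lit 5) (nat_lit 161) (nat_lit 4) (nat_lit 386) (nat_lit 317) (nat_lit 317))) (XT.nd (nat_lit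 78) (nat_lit 228) (nat_lit 0) (XT.lf (nat_lit 0) (nat_lit 8972305059) (nat_lit 152) (nat_lit 7062303704) (nat_lit 0) (nat_lit 8801730834) (nat_lit 158) (nat_lit 5) (nat_lit 160) (nat_lit 4) (nat_lit 158) (nat_lit 4) (nat_lit 387) (nat_lit 317) (nat_lit 316)) (XT.lf (nat_lit 0) (nat_lit 3487336825) (nat_lit 152) (nat_lit 19162439081) (nat_lit 0) (nat_lit 3174466995) (nat_lit 155) (nat_lit 5) (nat_lit 157) (nat_lit 4) (nat_lit 155) (nat_lit 4) (nat_lit 388) (nat_lit 317) (nat_lit 315))))) (XT.nd (nat_lit 312) (nat_lit 532) (nat_lit 0) (XT.nd (nat_lit 156) (nat_lit 380) (nat_lit 0) (XT.nd (nat_lit 78) (nat_lit 228) (nat_lit 0) (XT.lf (nat_lit 0) (nat_lit 20934173117) (nat_lit 76) (nat_lit 3190726970) (nat_lit 76) (nat_lit 2738581041) (nat_lit 154) (nat_lit 4) (nat_lit 155) (nat_lit 5) (nat_lit 155) (nat_lit 4) (nat_lit 389) (nat_lit 317) (nat_lit 314)) (XT.lf (nat_lit 0) (nat_lit 7815160298) (nat_lit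 76) (nat_lit 10346770215) (nat_lit 76) (nat_lit 9793336614) (nat_lit 151) (nat_lit 4) (nat_lit 152) (nat_lit 5) (nat_lit 152) (nat_lit 4) (nat_lit 390) (nat_lit 317) (nat_lit 313))) (XT.nd (nat_lit 78) (nat_lit 228) (nat_lit 0) (XT.lf (nat_lit 0) (nat_lit 11408288782) (nat_lit 152) (nat_lit 6928467481) (nat_lit 0) (nat_lit 10772903669) (nat_lit 149) (nat_lit 5) (nat_lit 151) (nat_lit 4) (nat_lit 149) (nat_lit 4) (nat_lit 391) (nat_lit 317) (nat_lit 312)) (XT.lf (nat_lit 0) (nat_lit 3805951237) (nat_lit 152) (nat_lit 23418934709) (nat_lit 0) (nat_lit 3105315068) (nat_lit 146) (nat_lit 5) (nat_lit 148) (nat_lit 4) (nat_lit 146) (nat_lit 4) (nat_lit 392) (nat_lit 317) (nat_lit 311)))) (XT.nd (nat_lit 156) (nat_lit 228) (nat_lit 0) (XT.nd (nat_lit 78) (nat_lit 228) (nat_lit 0) (XT.lf (nat_lit 0) (nat_lit 21280861336) (nat_lit 76) (nat_lit 5560353742) (nat_lit 76) (nat_lit 4771284712) (nat_lit 145)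 (nat_lit 4) (nat_lit 146) (nat_lit 5) (nat_lit 146) (nat_lit 4) (nat_lit 393) (nat_lit 317) (nat_lit 310)) (XT.lf (nat_lit 0) (nat_lit 3157804192) (nat_lit 76) (nat_lit 15318383115) (nat_lit 76) (nat_lit 14488905678) (nat_lit 142) (nat_lit 4) (nat_lit 143) (nat_lit 5) (nat_lit 143) (nat_lit 4) (nat_lit 394) (nat_lit 317) (nat_lit 309))) (XT.nd (nat_lit 78) (nat_lit 76) (nat_lit 0) (XT.lf (nat_lit 0) (nat_lit 9163951389) (nat_lit 152) (nat_lit 16922929656) (nat_lit 0) (nat_lit 8305204692) (nat_lit 140) (nat_lit 5) (nat_lit 142) (nat_lit 4) (nat_lit 140) (nat_lit 4) (nat_lit 395) (nat_lit 317) (nat_lit 308)) (XT.lf (nat_lit 0) (nat_lit 32262934460) (nat_lit 76) (nat_lit 2281840164) (nat_lit 76) (nat_lit 1359419220) (nat_lit 139) (nat_lit 4) (nat_lit 140) (nat_lit 5) (nat_lit 140) (nat_lit 4) (nat_lit 396) (nat_lit 317) (nat_lit 307)))))) (XT.nd (nat_lit 624) (nat_lit 1216) (nat_lit 0) (XT.nd (nat_lit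 312) (nat_lit 608) (nat_lit 0) (XT.nd (nat_lit 156) (nat_lit 304) (nat_lit 0) (XT.nd (nat_lit 78) (nat_lit 152) (nat_lit 0) (XT.lf (nat_lit 0) (nat_lit 10155654445) (nat_lit 76) (nat_lit 14132331400) (nat_lit 76) (nat_lit 13197685135) (nat_lit 136) (nat_lit 4) (nat_lit 137) (nat_lit 5) (nat_lit 137) (nat_lit 4) (nat_lit 397) (nat_lit 317) (nat_lit 306)) (XT.lf (nat_lit 0) (nat_lit 12778648105) (nat_lit 152) (nat_lit 14542977982) (nat_lit 0) (nat_lit 11838993700) (nat_lit 134) (nat_lit 5) (nat_lit 136) (nat_lit 4) (nat_lit 134) (nat_lit 4) (nat_lit 398) (nat_lit 317) (nat_lit 305))) (XT.nd (nat_lit 78) (nat_lit 228) (nat_lit 0) (XT.lf (nat_lit 0) (nat_lit 39676490195) (nat_lit 76) (nat_lit 1123155617) (nat_lit 76) (nat_lit 137653893) (nat_lit 133) (nat_lit 4) (nat_lit 134) (nat_lit 5) (nat_lit 134) (nat_lit 4) (nat_lit 399) (nat_lit 317) (nat_lit 304)) (XT.lf (nat_lit 0) (nat_lit 12558416303)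 (nat_lit 76) (nat_lit 15605820745) (nat_lit 76) (nat_lit 14626817940) (nat_lit 130) (nat_lit 4) (nat_lit 131) (nat_lit 5) (nat_lit 131) (nat_lit 4) (nat_lit 400) (nat_lit 317) (nat_lit 303)))) (XT.nd (nat_lit 156) (nat_lit 380) (nat_lit 0) (XT.nd (nat_lit 78) (nat_lit 76) (nat_lit 0) (XT.lf (nat_lit 0) (nat_lit 14000223737) (nat_lit 152) (nat_lit 17724025564) (nat_lit 0) (nat_lit 13032187789) (nat_lit 128) (nat_lit 5) (nat_lit 130) (nat_lit 4) (nat_lit 128) (nat_lit 4) (nat_lit 401) (nat_lit 317) (nat_lit 302)) (XT.lf (nat_lit 0) (nat_lit 42124540422) (nat_lit 76) (nat_lit 2857360631) (nat_lit 76) (nat_lit 1856313273) (nat_lit 127) (nat_lit 4) (nat_lit 128) (nat_lit 5) (nat_lit 128) (nat_lit 4) (nat_lit 402) (nat_lit 317) (nat_lit 301))) (XT.nd (nat_lit 78) (nat_lit 152) (nat_lit 0) (XT.lf (nat_lit 0) (nat_lit 8731817924) (nat_lit 76) (nat_lit 20633413977) (nat_lit 76) (nat_lit 19650924949) (nat_lit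 124) (nat_lit 4) (nat_lit 125) (nat_lit 5) (nat_lit 125) (nat_lit 4) (nat_lit 403) (nat_lit 317) (nat_lit 300)) (XT.lf (nat_lit 0) (nat_lit 11989729202) (nat_lit 152) (nat_lit 28304131055) (nat_lit 0) (nat_lit 11028354651) (nat_lit 122) (nat_lit 5) (nat_lit 124) (nat_lit 4) (nat_lit 122) (nat_lit 4) (nat_lit 404) (nat_lit 317) (nat_lit 299))))) (XT.nd (nat_lit 312) (nat_lit 684) (nat_lit 0) (XT.nd (nat_lit 156) (nat_lit 304) (nat_lit 0) (XT.nd (nat_lit 78) (nat_lit 152) (nat_lit 0) (XT.lf (nat_lit 0) (nat_lit 37817455891) (nat_lit 76) (nat_lit 8462011459) (nat_lit 76) (nat_lit 7476867726) (nat_lit 121) (nat_lit 4) (nat_lit 122) (nat_lit 5) (nat_lit 122) (nat_lit 4) (nat_lit 405) (nat_lit 317) (nat_lit 298)) (XT.lf (nat_lit 0) (nat_lit 26990349482) (nat_lit 152) (nat_lit 3296408628) (nat_lit 0) (nat_lit 26031156878) (nat_lit 119) (nat_lit 5) (nat_lit 121) (nat_lit 4) (nat_lit 119) (nat_lit 4)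 (nat_lit 406) (nat_lit 317) (nat_lit 297))) (XT.nd (nat_lit 78) (nat_lit 76) (nat_lit 0) (XT.lf (nat_lit 0) (nat_lit 5673202482) (nat_lit 152) (nat_lit 48612356546) (nat_lit 0) (nat_lit 4741202051) (nat_lit 116) (nat_lit 5) (nat_lit 118) (nat_lit 4) (nat_lit 116) (nat_lit 4) (nat_lit 407) (nat_lit 317) (nat_lit 296)) (XT.lf (nat_lit 0) (nat_lit 24473833970) (nat_lit 76) (nat_lit 19171800968) (nat_lit 76) (nat_lit 18222686031) (nat_lit 115) (nat_lit 4) (nat_lit 116) (nat_lit 5) (nat_lit 116) (nat_lit 4) (nat_lit 408) (nat_lit 317) (nat_lit 295)))) (XT.nd (nat_lit 156) (nat_lit 456) (nat_lit 0) (XT.nd (nat_lit 78) (nat_lit 76) (nat_lit 0) (XT.lf (nat_lit 0) (nat_lit 20073433629) (nat_lit 152) (nat_lit 25644661487) (nat_lit 0) (nat_lit 19154422486) (nat_lit 113) (nat_lit 5) (nat_lit 115) (nat_lit 4) (nat_lit 113) (nat_lit 4) (nat_lit 409) (nat_lit 317) (nat_lit 294)) (XT.lf (nat_lit 0) (nat_lit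 54747455415) (nat_lit 76) (nat_lit 7117078513) (nat_lit 76) (nat_lit 6184093150) (nat_lit 112) (nat_lit 4) (nat_lit 113) (nat_lit 5) (nat_lit 113) (nat_lit 4) (nat_lit 410) (nat_lit 317) (nat_lit 293))) (XT.nd (nat_lit 78) (nat_lit 304) (nat_lit 0) (XT.lf (nat_lit 0) (nat_lit 35753757246) (nat_lit 152) (nat_lit 775936576) (nat_lit 0) (nat_lit 34852876814) (nat_lit 110) (nat_lit 5) (nat_lit 112) (nat_lit 4) (nat_lit 110) (nat_lit 4) (nat_lit 411) (nat_lit 317) (nat_lit 292)) (XT.nd (nat_lit 78) (nat_lit 76) (nat_lit 0) (XT.lf (nat_lit 0) (nat_lit 6978449076) (nat_lit 152) (nat_lit 61819846133) (nat_lit 0) (nat_lit 6109600918) (nat_lit 107) (nat_lit 5) (nat_lit 109) (nat_lit 4) (nat_lit 107) (nat_lit 4) (nat_lit 412) (nat_lit 317) (nat_lit 291)) (XT.lf (nat_lit 0) (nat_lit 27202919818) (nat_lit 76) (nat_lit 26141068064) (nat_lit 76) (nat_lit 25262158059) (nat_lit 106) (nat_lit 4) (nat_lit 107)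 (nat_lit 5) (nat_lit 107) (nat_lit 4) (nat_lit 413) (nat_lit 317) (nat_lit 290))))))))
noncomputable def xc30 : XT := (XT.nd (nat_lit 1248) (nat_lit 2052) (nat_lit 0) (XT.nd (nat_lit 624) (nat_lit 988) (nat_lit 0) (XT.nd (nat_lit 312) (nat_lit 608) (nat_lit 0) (XT.nd (nat_lit 156) (nat_lit 228) (nat_lit 0) (XT.nd (nat_lit 78) (nat_lit 76) (nat_lit 0) (XT.lf (nat_lit 0) (nat_lit 21513597206) (nat_lit 152) (nat_lit 40334669308) (nat_lit 0) (nat_lit 20667667178) (nat_lit 104) (nat_lit 5) (nat_lit 106) (nat_lit 4) (nat_lit 104) (nat_lit 4) (nat_lit 414) (nat_lit 317) (nat_lit 289)) (XT.lf (nat_lit 0) (nat_lit 57912039425) (nat_lit 76) (nat_lit 14791033919) (nat_lit 76) (nat_lit 13936888261) (nat_lit 103) (nat_lit 4) (nat_lit 104) (nat_lit 5) (nat_lit 104) (nat_lit 4) (nat_lit 415) (nat_lit 317) (nat_lit 288))) (XT.nd (nat_lit 78) (nat_lit 76) (nat_lit 0) (XT.lf (nat_lit 0) (nat_lit 37495931421) (nat_lit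 152) (nat_lit 16804816637) (nat_lit 0) (nat_lit 36675214542) (nat_lit 101) (nat_lit 5) (nat_lit 103) (nat_lit 4) (nat_lit 101) (nat_lit 4) (nat_lit 416) (nat_lit 317) (nat_lit 287)) (XT.lf (nat_lit 0) (nat_lit 91763759917) (nat_lit 76) (nat_lit 2317391186) (nat_lit 76) (nat_lit 1489966138) (nat_lit 100) (nat_lit 4) (nat_lit 101) (nat_lit 5) (nat_lit 101) (nat_lit 4) (nat_lit 417) (nat_lit 317) (nat_lit 286)))) (XT.nd (nat_lit 156) (nat_lit 228) (nat_lit 0) (XT.nd (nat_lit 78) (nat_lit 152) (nat_lit 0) (XT.lf (nat_lit 0) (nat_lit 9441173303) (nat_lit 76) (nat_lit 45862153971) (nat_lit 76) (nat_lit 45068214621) (nat_lit 97) (nat_lit 4) (nat_lit 98) (nat_lit 5) (nat_lit 98) (nat_lit 4) (nat_lit 418) (nat_lit 317) (nat_lit 285)) (XT.lf (nat_lit 0) (nat_lit 12452128500) (nat_lit 152) (nat_lit 81314650905) (nat_lit 0) (nat_lit 11690779301) (nat_lit 95) (nat_lit 5) (nat_lit 97) (nat_lit 4) (nat_lit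 95) (nat_lit 4) (nat_lit 419) (nat_lit 317) (nat_lit 284))) (XT.nd (nat_lit 78) (nat_lit 152) (nat_lit 0) (XT.lf (nat_lit 0) (nat_lit 39165533487) (nat_lit 76) (nat_lit 36197873774) (nat_lit 76) (nat_lit 35431694497) (nat_lit 94) (nat_lit 4) (nat_lit 95) (nat_lit 5) (nat_lit 95) (nat_lit 4) (nat_lit 420) (nat_lit 317) (nat_lit 283)) (XT.lf (nat_lit 0) (nat_lit 28012391640) (nat_lit 152) (nat_lit 61141910700) (nat_lit 0) (nat_lit 27278437762) (nat_lit 92) (nat_lit 5) (nat_lit 94) (nat_lit 4) (nat_lit 92) (nat_lit 4) (nat_lit 421) (nat_lit 317) (nat_lit 282))))) (XT.nd (nat_lit 312) (nat_lit 532) (nat_lit 0) (XT.nd (nat_lit 156) (nat_lit 228) (nat_lit 0) (XT.nd (nat_lit 78) (nat_lit 152) (nat_lit 0) (XT.lf (nat_lit 0) (nat_lit 72295343194) (nat_lit 76) (nat_lit 25407154646) (nat_lit 76) (nat_lit 24669256946) (nat_lit 91) (nat_lit 4) (nat_lit 92) (nat_lit 5) (nat_lit 92) (nat_lit 4) (nat_lit 422)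 (nat_lit 317) (nat_lit 281)) (XT.lf (nat_lit 0) (nat_lit 45394339952) (nat_lit 152) (nat_lit 38537632296) (nat_lit 0) (nat_lit 44688102440) (nat_lit 89) (nat_lit 5) (nat_lit 91) (nat_lit 4) (nat_lit 89) (nat_lit 4) (nat_lit 423) (nat_lit 317) (nat_lit 280))) (XT.nd (nat_lit 78) (nat_lit 152) (nat_lit 0) (XT.lf (nat_lit 0) (nat_lit 109374197966) (nat_lit 76) (nat_lit 13280256591) (nat_lit 76) (nat_lit 12570798895) (nat_lit 88) (nat_lit 4) (nat_lit 89) (nat_lit 5) (nat_lit 89) (nat_lit 4) (nat_lit 424) (nat_lit 317) (nat_lit 279)) (XT.lf (nat_lit 0) (nat_lit 64884486532) (nat_lit 152) (nat_lit 13059235736) (nat_lit 0) (nat_lit 64205972868) (nat_lit 86) (nat_lit 5) (nat_lit 88) (nat_lit 4) (nat_lit 86) (nat_lit 4) (nat_lit 425) (nat_lit 317) (nat_lit 278)))) (XT.nd (nat_lit 156) (nat_lit 228) (nat_lit 0) (XT.nd (nat_lit 78) (nat_lit 76) (nat_lit 0) (XT.lf (nat_lit 0) (nat_lit 1097668060) (nat_lit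 152) (nat_lit 147943799492) (nat_lit 0) (nat_lit 448960455) (nat_lit 83) (nat_lit 5) (nat_lit 85) (nat_lit 4) (nat_lit 83) (nat_lit 4) (nat_lit 426) (nat_lit 317) (nat_lit 277)) (XT.lf (nat_lit 0) (nat_lit 16316546285) (nat_lit 76) (nat_lit 70743838497) (nat_lit 76) (nat_lit 70092812266) (nat_lit 82) (nat_lit 4) (nat_lit 83) (nat_lit 5) (nat_lit 83) (nat_lit 4) (nat_lit 427) (nat_lit 317) (nat_lit 276))) (XT.nd (nat_lit 78) (nat_lit 76) (nat_lit 0) (XT.lf (nat_lit 0) (nat_lit 16867996400) (nat_lit 152) (nat_lit 132160766106) (nat_lit 0) (nat_lit 16245926773) (nat_lit 80) (nat_lit 5) (nat_lit 82) (nat_lit 4) (nat_lit 80) (nat_lit 4) (nat_lit 428) (nat_lit 317) (nat_lit 275)) (XT.lf (nat_lit 0) (nat_lit 50197022079) (nat_lit 76) (nat_lit 62108309926) (nat_lit 76) (nat_lit 61484347111) (nat_lit 79) (nat_lit 4) (nat_lit 80) (nat_lit 5) (nat_lit 80) (nat_lit 4) (nat_lit 429) (nat_lit 317) (nat_lit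 274)))))) (XT.nd (nat_lit 624) (nat_lit 1140) (nat_lit 0) (XT.nd (nat_lit 312) (nat_lit 456) (nat_lit 0) (XT.nd (nat_lit 156) (nat_lit 228) (nat_lit 0) (XT.nd (nat_lit 78) (nat_lit 76) (nat_lit 0) (XT.lf (nat_lit 0) (nat_lit 34821131899) (nat_lit 152) (nat_lit 113740933540) (nat_lit 0) (nat_lit 34225212121) (nat_lit 77) (nat_lit 5) (nat_lit 79) (nat_lit 4) (nat_lit 77) (nat_lit 4) (nat_lit 430) (nat_lit 317) (nat_lit 273)) (XT.lf (nat_lit 0) (nat_lit 88814263726) (nat_lit 76) (nat_lit 52014937763) (nat_lit 76) (nat_lit 51417472171) (nat_lit 76) (nat_lit 4) (nat_lit 77) (nat_lit 5) (nat_lit 77) (nat_lit 4) (nat_lit 431) (nat_lit 317) (nat_lit 272))) (XT.nd (nat_lit 78) (nat_lit 76) (nat_lit 0) (XT.lf (nat_lit 0) (nat_lit 55307851291) (nat_lit 152) (nat_lit 92169013597) (nat_lit 0) (nat_lit 54737473291) (nat_lit 74) (nat_lit 5) (nat_lit 76) (nat_lit 4) (nat_lit 74) (nat_lit 4) (nat_lit 432) (nat_lit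 317) (nat_lit 271)) (XT.lf (nat_lit 0) (nat_lit 132920205660) (nat_lit 76) (nat_lit 40185943302) (nat_lit 76) (nat_lit 39614303124) (nat_lit 73) (nat_lit 4) (nat_lit 74) (nat_lit 5) (nat_lit 74) (nat_lit 4) (nat_lit 433) (nat_lit 317) (nat_lit 270)))) (XT.nd (nat_lit 156) (nat_lit 228) (nat_lit 0) (XT.nd (nat_lit 78) (nat_lit 76) (nat_lit 0) (XT.lf (nat_lit 0) (nat_lit 78725424837) (nat_lit 152) (nat_lit 66856954786) (nat_lit 0) (nat_lit 78179892589) (nat_lit 71) (nat_lit 5) (nat_lit 73) (nat_lit 4) (nat_lit 71) (nat_lit 4) (nat_lit 434) (nat_lit 317) (nat_lit 269)) (XT.lf (nat_lit 0) (nat_lit 183366488650) (nat_lit 76) (nat_lit 26304360439) (nat_lit 76) (nat_lit 25757797607) (nat_lit 70) (nat_lit 4) (nat_lit 71) (nat_lit 5) (nat_lit 71) (nat_lit 4) (nat_lit 435) (nat_lit 317) (nat_lit 268))) (XT.nd (nat_lit 78) (nat_lit 76) (nat_lit 0) (XT.lf (nat_lit 0) (nat_lit 105523748316) (nat_lit 152)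 (nat_lit 37133881264) (nat_lit 0) (nat_lit 105002303481) (nat_lit 68) (nat_lit 5) (nat_lit 70) (nat_lit 4) (nat_lit 68) (nat_lit 4) (nat_lit 436) (nat_lit 317) (nat_lit 267)) (XT.lf (nat_lit 0) (nat_lit 241117563315) (nat_lit 76) (nat_lit 10008645725) (nat_lit 76) (nat_lit 9486359405) (nat_lit 67) (nat_lit 4) (nat_lit 68) (nat_lit 5) (nat_lit 68) (nat_lit 4) (nat_lit 437) (nat_lit 317) (nat_lit 266))))) (XT.nd (nat_lit 312) (nat_lit 532) (nat_lit 0) (XT.nd (nat_lit 156) (nat_lit 228) (nat_lit 0) (XT.nd (nat_lit 78) (nat_lit 228) (nat_lit 0) (XT.lf (nat_lit 0) (nat_lit 136212243475) (nat_lit 152) (nat_lit 2234732745) (nat_lit 0) (nat_lit 135714085881) (nat_lit 65) (nat_lit 5) (nat_lit 67) (nat_lit 4) (nat_lit 65) (nat_lit 4) (nat_lit 438) (nat_lit 317) (nat_lit 265)) (XT.lf (nat_lit 0) (nat_lit 9753863850) (nat_lit 152) (nat_lit 269477172596) (nat_lit 0) (nat_lit 9278773680) (nat_lit 62) (nat_lit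 5) (nat_lit 64) (nat_lit 4) (nat_lit 62) (nat_lit 4) (nat_lit 439) (nat_lit 317) (nat_lit 264))) (XT.nd (nat_lit 78) (nat_lit 152) (nat_lit 0) (XT.lf (nat_lit 0) (nat_lit 39992570475) (nat_lit 76) (nat_lit 131999447595) (nat_lit 76) (nat_lit 131523751532) (nat_lit 61) (nat_lit 4) (nat_lit 62) (nat_lit 5) (nat_lit 62) (nat_lit 4) (nat_lit 440) (nat_lit 317) (nat_lit 263)) (XT.lf (nat_lit 0) (nat_lit 32517269591) (nat_lit 152) (nat_lit 254824286998) (nat_lit 0) (nat_lit 32063691423) (nat_lit 59) (nat_lit 5) (nat_lit 61) (nat_lit 4) (nat_lit 59) (nat_lit 4) (nat_lit 441) (nat_lit 317) (nat_lit 262)))) (XT.nd (nat_lit 156) (nat_lit 304) (nat_lit 0) (XT.nd (nat_lit 78) (nat_lit 152) (nat_lit 0) (XT.lf (nat_lit 0) (nat_lit 89568281681) (nat_lit 76) (nat_lit 123472749516) (nat_lit 76) (nat_lit 123018676627) (nat_lit 58) (nat_lit 4) (nat_lit 59) (nat_lit 5) (nat_lit 59) (nat_lit 4) (nat_lit 442) (nat_lit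 317) (nat_lit 261)) (XT.lf (nat_lit 0) (nat_lit 59175427114) (nat_lit 152) (nat_lit 235739317341) (nat_lit 0) (nat_lit 58742540482) (nat_lit 56) (nat_lit 5) (nat_lit 58) (nat_lit 4) (nat_lit 56) (nat_lit 4) (nat_lit 443) (nat_lit 317) (nat_lit 260))) (XT.nd (nat_lit 78) (nat_lit 228) (nat_lit 0) (XT.lf (nat_lit 0) (nat_lit 147587263456) (nat_lit 76) (nat_lit 112492805554) (nat_lit 76) (nat_lit 112059514976) (nat_lit 55) (nat_lit 4) (nat_lit 56) (nat_lit 5) (nat_lit 56) (nat_lit 4) (nat_lit 444) (nat_lit 317) (nat_lit 259)) (XT.nd (nat_lit 78) (nat_lit 76) (nat_lit 0) (XT.lf (nat_lit 0) (nat_lit 90347366076) (nat_lit 152) (nat_lit 211346933520) (nat_lit 0) (nat_lit 89934352169) (nat_lit 53) (nat_lit 5) (nat_lit 55) (nat_lit 4) (nat_lit 53) (nat_lit 4) (nat_lit 445) (nat_lit 317) (nat_lit 258)) (XT.lf (nat_lit 0) (nat_lit 215379643130) (nat_lit 76) (nat_lit 98585731831) (nat_lit 76) (nat_lit 98172388098)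 (nat_lit 52) (nat_lit 4) (nat_lit 53) (nat_lit 5) (nat_lit 53) (nat_lit 4) (nat_lit 446) (nat_lit 317) (nat_lit 257))))))))
noncomputable def xc31 : XT := (XT.nd (nat_lit 49374) (nat_lit 0) (nat_lit 4104) (XT.nd (nat_lit 48750) (nat_lit 0) (nat_lit 6384) (XT.nd (nat_lit 48438) (nat_lit 0) (nat_lit 7676) (XT.nd (nat_lit 48282) (nat_lit 0) (nat_lit 8360) (XT.nd (nat_lit 48204) (nat_lit 0) (nat_lit 8664) (XT.lf (nat_lit 0) (nat_lit 126737367887) (nat_lit 152) (nat_lit 180640675465) (nat_lit 0) (nat_lit 126343416335) (nat_lit 50) (nat_lit 5) (nat_lit 52) (nat_lit 4) (nat_lit 50) (nat_lit 4) (nat_lit 447) (nat_lit 317) (nat_lit 256)) (XT.lf (nat_lit 0) (nat_lit 104542061) (nat_lit 152) (nat_lit 10868548549) (nat_lit 0) (nat_lit 104542061) (nat_lit 164) (nat_lit 5) (nat_lit 166) (nat_lit 4) (nat_lit 164) (nat_lit 4) (nat_lit 384) (nat_lit 318) (nat_lit 318))) (XT.nd (nat_lit 78) (nat_lit 228) (nat_lit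 0) (XT.lf (nat_lit 0) (nat_lit 13305851226) (nat_lit 76) (nat_lit 4956082198) (nat_lit 76) (nat_lit 4752979469) (nat_lit 163) (nat_lit 4) (nat_lit 164) (nat_lit 5) (nat_lit 164) (nat_lit 4) (nat_lit 385) (nat_lit 318) (nat_lit 317)) (XT.lf (nat_lit 0) (nat_lit 2714572297) (nat_lit 76) (nat_lit 10791929216) (nat_lit 76) (nat_lit 10419395109) (nat_lit 160) (nat_lit 4) (nat_lit 161) (nat_lit 5) (nat_lit 161) (nat_lit 4) (nat_lit 386) (nat_lit 318) (nat_lit 316)))) (XT.nd (nat_lit 156) (nat_lit 304) (nat_lit 0) (XT.nd (nat_lit 78) (nat_lit 228) (nat_lit 0) (XT.lf (nat_lit 0) (nat_lit 8169083277) (nat_lit 152) (nat_lit 9060278623) (nat_lit 0) (nat_lit 7656349794) (nat_lit 158) (nat_lit 5) (nat_lit 160) (nat_lit 4) (nat_lit 158) (nat_lit 4) (nat_lit 387) (nat_lit 318) (nat_lit 315)) (XT.lf (nat_lit 0) (nat_lit 2091377272) (nat_lit 152) (nat_lit 22347652427) (nat_lit 0) (nat_lit 1463783569) (nat_lit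 155) (nat_lit 5) (nat_lit 157) (nat_lit 4) (nat_lit 155) (nat_lit 4) (nat_lit 388) (nat_lit 318) (nat_lit 314))) (XT.nd (nat_lit 78) (nat_lit 228) (nat_lit 0) (XT.lf (nat_lit 0) (nat_lit 16705129464) (nat_lit 76) (nat_lit 5509592995) (nat_lit 76) (nat_lit 4753039941) (nat_lit 154) (nat_lit 4) (nat_lit 155) (nat_lit 5) (nat_lit 155) (nat_lit 4) (nat_lit 389) (nat_lit 318) (nat_lit 313)) (XT.lf (nat_lit 0) (nat_lit 2191725049) (nat_lit 76) (nat_lit 13368124143) (nat_lit 76) (nat_lit 12533876657) (nat_lit 151) (nat_lit 4) (nat_lit 152) (nat_lit 5) (nat_lit 152) (nat_lit 4) (nat_lit 390) (nat_lit 318) (nat_lit 312))))) (XT.nd (nat_lit 312) (nat_lit 684) (nat_lit 0) (XT.nd (nat_lit 156) (nat_lit 380) (nat_lit 0) (XT.nd (nat_lit 78) (nat_lit 76) (nat_lit 0) (XT.lf (nat_lit 0) (nat_lit 8147668634) (nat_lit 152) (nat_lit 13880114766) (nat_lit 0) (nat_lit 7252864354) (nat_lit 149) (nat_lit 5) (nat_lit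 151) (nat_lit 4) (nat_lit 149) (nat_lit 4) (nat_lit 391) (nat_lit 318) (nat_lit 311)) (XT.lf (nat_lit 0) (nat_lit 29052942713) (nat_lit 76) (nat_lit 1237341101) (nat_lit 76) (nat_lit 249682316) (nat_lit 148) (nat_lit 4) (nat_lit 149) (nat_lit 5) (nat_lit 149) (nat_lit 4) (nat_lit 392) (nat_lit 318) (nat_lit 310))) (XT.nd (nat_lit 78) (nat_lit 152) (nat_lit 0) (XT.lf (nat_lit 0) (nat_lit 11434875478) (nat_lit 76) (nat_lit 10720989709) (nat_lit 76) (nat_lit 9698480016) (nat_lit 145) (nat_lit 4) (nat_lit 146) (nat_lit 5) (nat_lit 146) (nat_lit 4) (nat_lit 393) (nat_lit 318) (nat_lit 309)) (XT.lf (nat_lit 0) (nat_lit 12962281931) (nat_lit 152) (nat_lit 8369466807) (nat_lit 0) (nat_lit 11916256581) (nat_lit 143) (nat_lit 5) (nat_lit 145) (nat_lit 4) (nat_lit 143) (nat_lit 4) (nat_lit 394) (nat_lit 318) (nat_lit 308)))) (XT.nd (nat_lit 156) (nat_lit 380) (nat_lit 0) (XT.nd (nat_lit 78) (nat_lit 76)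 (nat_lit 0) (XT.lf (nat_lit 0) (nat_lit 2662851457) (nat_lit 152) (nat_lit 30458200081) (nat_lit 0) (nat_lit 1602962592) (nat_lit 140) (nat_lit 5) (nat_lit 142) (nat_lit 4) (nat_lit 140) (nat_lit 4) (nat_lit 395) (nat_lit 318) (nat_lit 307)) (XT.lf (nat_lit 0) (nat_lit 17386399036) (nat_lit 76) (nat_lit 10000699261) (nat_lit 76) (nat_lit 8881852760) (nat_lit 139) (nat_lit 4) (nat_lit 140) (nat_lit 5) (nat_lit 140) (nat_lit 4) (nat_lit 396) (nat_lit 318) (nat_lit 306))) (XT.nd (nat_lit 78) (nat_lit 228) (nat_lit 0) (XT.lf (nat_lit 0) (nat_lit 16044451785) (nat_lit 152) (nat_lit 6933049160) (nat_lit 0) (nat_lit 14926892830) (nat_lit 137) (nat_lit 5) (nat_lit 139) (nat_lit 4) (nat_lit 137) (nat_lit 4) (nat_lit 397) (nat_lit 318) (nat_lit 305)) (XT.lf (nat_lit 0) (nat_lit 3407426488) (nat_lit 152) (nat_lit 33930751446) (nat_lit 0) (nat_lit 2297237307) (nat_lit 134) (nat_lit 5) (nat_lit 136) (nat_lit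 4) (nat_lit 134) (nat_lit 4) (nat_lit 398) (nat_lit 318) (nat_lit 304)))))) (XT.nd (nat_lit 624) (nat_lit 1140) (nat_lit 0) (XT.nd (nat_lit 312) (nat_lit 608) (nat_lit 0) (XT.nd (nat_lit 156) (nat_lit 304) (nat_lit 0) (XT.nd (nat_lit 78) (nat_lit 152) (nat_lit 0) (XT.lf (nat_lit 0) (nat_lit 18784912993) (nat_lit 76) (nat_lit 11908291770) (nat_lit 76) (nat_lit 10755651367) (nat_lit 133) (nat_lit 4) (nat_lit 134) (nat_lit 5) (nat_lit 134) (nat_lit 4) (nat_lit 399) (nat_lit 318) (nat_lit 303)) (XT.lf (nat_lit 0) (nat_lit 16753342159) (nat_lit 152) (nat_lit 10996040616) (nat_lit 0) (nat_lit 15618154455) (nat_lit 131) (nat_lit 5) (nat_lit 133) (nat_lit 4) (nat_lit 131) (nat_lit 4) (nat_lit 400) (nat_lit 318) (nat_lit 302))) (XT.nd (nat_lit 78) (nat_lit 76) (nat_lit 0) (XT.lf (nat_lit 0) (nat_lit 1196087331) (nat_lit 152) (nat_lit 44124266564) (nat_lit 0) (nat_lit 81944774) (nat_lit 128) (nat_lit 5)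 (nat_lit 130) (nat_lit 4) (nat_lit 128) (nat_lit 4) (nat_lit 401) (nat_lit 318) (nat_lit 301)) (XT.lf (nat_lit 0) (nat_lit 14018625960) (nat_lit 76) (nat_lit 17325910029) (nat_lit 76) (nat_lit 16181201350) (nat_lit 127) (nat_lit 4) (nat_lit 128) (nat_lit 5) (nat_lit 128) (nat_lit 4) (nat_lit 402) (nat_lit 318) (nat_lit 300)))) (XT.nd (nat_lit 156) (nat_lit 380) (nat_lit 0) (XT.nd (nat_lit 78) (nat_lit 76) (nat_lit 0) (XT.lf (nat_lit 0) (nat_lit 14262061247) (nat_lit 152) (nat_lit 22369731369) (nat_lit 0) (nat_lit 13144908254) (nat_lit 125) (nat_lit 5) (nat_lit 127) (nat_lit 4) (nat_lit 125) (nat_lit 4) (nat_lit 403) (nat_lit 318) (nat_lit 299)) (XT.lf (nat_lit 0) (nat_lit 41376840841) (nat_lit 76) (nat_lit 5960780328) (nat_lit 76) (nat_lit 4818669695) (nat_lit 124) (nat_lit 4) (nat_lit 125) (nat_lit 5) (nat_lit 125) (nat_lit 4) (nat_lit 404) (nat_lit 318) (nat_lit 298))) (XT.nd (nat_lit 78) (nat_lit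 152) (nat_lit 0) (XT.lf (nat_lit 0) (nat_lit 1036650733) (nat_lit 76) (nat_lit 27364237620) (nat_lit 76) (nat_lit 26254504706) (nat_lit 121) (nat_lit 4) (nat_lit 122) (nat_lit 5) (nat_lit 122) (nat_lit 4) (nat_lit 405) (nat_lit 318) (nat_lit 297)) (XT.lf (nat_lit 0) (nat_lit 7512671031) (nat_lit 152) (nat_lit 43347637980) (nat_lit 0) (nat_lit 6436374693) (nat_lit 119) (nat_lit 5) (nat_lit 121) (nat_lit 4) (nat_lit 119) (nat_lit 4) (nat_lit 406) (nat_lit 318) (nat_lit 296))))) (XT.nd (nat_lit 312) (nat_lit 608) (nat_lit 0) (XT.nd (nat_lit 156) (nat_lit 304) (nat_lit 0) (XT.nd (nat_lit 78) (nat_lit 152) (nat_lit 0) (XT.lf (nat_lit 0) (nat_lit 27154298531) (nat_lit 76) (nat_lit 17006380571) (nat_lit 76) (nat_lit 15912114002) (nat_lit 118) (nat_lit 4) (nat_lit 119) (nat_lit 5) (nat_lit 119) (nat_lit 4) (nat_lit 407) (nat_lit 318) (nat_lit 295)) (XT.lf (nat_lit 0) (nat_lit 21015445847) (nat_lit 152)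 (nat_lit 22031596316) (nat_lit 0) (nat_lit 19957440446) (nat_lit 116) (nat_lit 5) (nat_lit 118) (nat_lit 4) (nat_lit 116) (nat_lit 4) (nat_lit 408) (nat_lit 318) (nat_lit 294))) (XT.nd (nat_lit 78) (nat_lit 228) (nat_lit 0) (XT.lf (nat_lit 0) (nat_lit 55577311292) (nat_lit 76) (nat_lit 5800562150) (nat_lit 76) (nat_lit 4727883819) (nat_lit 115) (nat_lit 4) (nat_lit 116) (nat_lit 5) (nat_lit 116) (nat_lit 4) (nat_lit 409) (nat_lit 318) (nat_lit 293)) (XT.lf (nat_lit 0) (nat_lit 1143015631) (nat_lit 76) (nat_lit 34624710008) (nat_lit 76) (nat_lit 33590172506) (nat_lit 112) (nat_lit 4) (nat_lit 113) (nat_lit 5) (nat_lit 113) (nat_lit 4) (nat_lit 410) (nat_lit 318) (nat_lit 292)))) (XT.nd (nat_lit 156) (nat_lit 380) (nat_lit 0) (XT.nd (nat_lit 78) (nat_lit 76) (nat_lit 0) (XT.lf (nat_lit 0) (nat_lit 7541234484) (nat_lit 152) (nat_lit 58711631422) (nat_lit 0) (nat_lit 6544550538) (nat_lit 110) (nat_lit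 5) (nat_lit 112) (nat_lit 4) (nat_lit 110) (nat_lit 4) (nat_lit 411) (nat_lit 318) (nat_lit 291)) (XT.lf (nat_lit 0) (nat_lit 27261026677) (nat_lit 76) (nat_lit 25076609781) (nat_lit 76) (nat_lit 24069360897) (nat_lit 109) (nat_lit 4) (nat_lit 110) (nat_lit 5) (nat_lit 110) (nat_lit 4) (nat_lit 412) (nat_lit 318) (nat_lit 290))) (XT.nd (nat_lit 78) (nat_lit 228) (nat_lit 0) (XT.lf (nat_lit 0) (nat_lit 21110160313) (nat_lit 152) (nat_lit 38970136600) (nat_lit 0) (nat_lit 20141559138) (nat_lit 107) (nat_lit 5) (nat_lit 109) (nat_lit 4) (nat_lit 107) (nat_lit 4) (nat_lit 413) (nat_lit 318) (nat_lit 289)) (XT.nd (nat_lit 78) (nat_lit 152) (nat_lit 0) (XT.lf (nat_lit 0) (nat_lit 55966500882) (nat_lit 76) (nat_lit 14628104694) (nat_lit 76) (nat_lit 13650877107) (nat_lit 106) (nat_lit 4) (nat_lit 107) (nat_lit 5) (nat_lit 107) (nat_lit 4) (nat_lit 414) (nat_lit 318) (nat_lit 288)) (XT.lf (nat_lit 0)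 (nat_lit 36063237608) (nat_lit 152) (nat_lit 17287605545) (nat_lit 0) (nat_lit 35124937603) (nat_lit 104) (nat_lit 5) (nat_lit 106) (nat_lit 4) (nat_lit 104) (nat_lit 4) (nat_lit 415) (nat_lit 318) (nat_lit 287))))))))
noncomputable def xc32 : XT := (XT.nd (nat_lit 1248) (nat_lit 1900) (nat_lit 0) (XT.nd (nat_lit 624) (nat_lit 1064) (nat_lit 0) (XT.nd (nat_lit 312) (nat_lit 456) (nat_lit 0) (XT.nd (nat_lit 156) (nat_lit 228) (nat_lit 0) (XT.nd (nat_lit 78) (nat_lit 228) (nat_lit 0) (XT.lf (nat_lit 0) (nat_lit 87677010935) (nat_lit 76) (nat_lit 3112978827) (nat_lit 76) (nat_lit 2167635244) (nat_lit 103) (nat_lit 4) (nat_lit 104) (nat_lit 5) (nat_lit 104) (nat_lit 4) (nat_lit 416) (nat_lit 318) (nat_lit 286)) (XT.lf (nat_lit 0) (nat_lit 6907371866) (nat_lit 76) (nat_lit 45820789238) (nat_lit 76) (nat_lit 44914250747) (nat_lit 100) (nat_lit 4) (nat_lit 101) (nat_lit 5) (nat_lit 101) (nat_lit 4)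 (nat_lit 417) (nat_lit 318) (nat_lit 285))) (XT.nd (nat_lit 78) (nat_lit 76) (nat_lit 0) (XT.lf (nat_lit 0) (nat_lit 10712246393) (nat_lit 152) (nat_lit 82048921985) (nat_lit 0) (nat_lit 9843399093) (nat_lit 98) (nat_lit 5) (nat_lit 100) (nat_lit 4) (nat_lit 98) (nat_lit 4) (nat_lit 418) (nat_lit 318) (nat_lit 284)) (XT.lf (nat_lit 0) (nat_lit 34448440947) (nat_lit 76) (nat_lit 37117415028) (nat_lit 76) (nat_lit 36243496146) (nat_lit 97) (nat_lit 4) (nat_lit 98) (nat_lit 5) (nat_lit 98) (nat_lit 4) (nat_lit 419) (nat_lit 318) (nat_lit 283)))) (XT.nd (nat_lit 156) (nat_lit 228) (nat_lit 0) (XT.nd (nat_lit 78) (nat_lit 76) (nat_lit 0) (XT.lf (nat_lit 0) (nat_lit 25145911792) (nat_lit 152) (nat_lit 63854235160) (nat_lit 0) (nat_lit 24309135799) (nat_lit 95) (nat_lit 5) (nat_lit 97) (nat_lit 4) (nat_lit 95) (nat_lit 4) (nat_lit 420) (nat_lit 318) (nat_lit 282)) (XT.lf (nat_lit 0) (nat_lit 65222848742)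 (nat_lit 76) (nat_lit 27358663277) (nat_lit 76) (nat_lit 26517746270) (nat_lit 94) (nat_lit 4) (nat_lit 95) (nat_lit 5) (nat_lit 95) (nat_lit 4) (nat_lit 421) (nat_lit 318) (nat_lit 281))) (XT.nd (nat_lit 78) (nat_lit 76) (nat_lit 0) (XT.lf (nat_lit 0) (nat_lit 41309541868) (nat_lit 152) (nat_lit 43379992657) (nat_lit 0) (nat_lit 40505016841) (nat_lit 92) (nat_lit 5) (nat_lit 94) (nat_lit 4) (nat_lit 92) (nat_lit 4) (nat_lit 422) (nat_lit 318) (nat_lit 280)) (XT.lf (nat_lit 0) (nat_lit 99747758002) (nat_lit 76) (nat_lit 16346434327) (nat_lit 76) (nat_lit 15538528107) (nat_lit 91) (nat_lit 4) (nat_lit 92) (nat_lit 5) (nat_lit 92) (nat_lit 4) (nat_lit 423) (nat_lit 318) (nat_lit 279))))) (XT.nd (nat_lit 312) (nat_lit 456) (nat_lit 0) (XT.nd (nat_lit 156) (nat_lit 380) (nat_lit 0) (XT.nd (nat_lit 78) (nat_lit 76) (nat_lit 0) (XT.lf (nat_lit 0) (nat_lit 59475845736) (nat_lit 152) (nat_lit 20207907408)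 (nat_lit 0) (nat_lit 58703429590) (nat_lit 89) (nat_lit 5) (nat_lit 91) (nat_lit 4) (nat_lit 89) (nat_lit 4) (nat_lit 424) (nat_lit 318) (nat_lit 278)) (XT.lf (nat_lit 0) (nat_lit 138606297887) (nat_lit 76) (nat_lit 3856184599) (nat_lit 76) (nat_lit 3081007665) (nat_lit 88) (nat_lit 4) (nat_lit 89) (nat_lit 5) (nat_lit 89) (nat_lit 4) (nat_lit 425) (nat_lit 318) (nat_lit 277))) (XT.nd (nat_lit 78) (nat_lit 152) (nat_lit 0) (XT.lf (nat_lit 0) (nat_lit 6338982106) (nat_lit 76) (nat_lit 73712292737) (nat_lit 76) (nat_lit 72971594433) (nat_lit 85) (nat_lit 4) (nat_lit 86) (nat_lit 5) (nat_lit 86) (nat_lit 4) (nat_lit 426) (nat_lit 318) (nat_lit 276)) (XT.lf (nat_lit 0) (nat_lit 11267953513) (nat_lit 152) (nat_lit 139117205454) (nat_lit 0) (nat_lit 10560379681) (nat_lit 83) (nat_lit 5) (nat_lit 85) (nat_lit 4) (nat_lit 83) (nat_lit 4) (nat_lit 427) (nat_lit 318) (nat_lit 275)))) (XT.nd (nat_lit 156)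 (nat_lit 228) (nat_lit 0) (XT.nd (nat_lit 78) (nat_lit 152) (nat_lit 0) (XT.lf (nat_lit 0) (nat_lit 37386018387) (nat_lit 76) (nat_lit 66283393154) (nat_lit 76) (nat_lit 65573831473) (nat_lit 82) (nat_lit 4) (nat_lit 83) (nat_lit 5) (nat_lit 83) (nat_lit 4) (nat_lit 428) (nat_lit 318) (nat_lit 274)) (XT.lf (nat_lit 0) (nat_lit 27747256369) (nat_lit 152) (nat_lit 123203186651) (nat_lit 0) (nat_lit 27069730388) (nat_lit 80) (nat_lit 5) (nat_lit 82) (nat_lit 4) (nat_lit 80) (nat_lit 4) (nat_lit 429) (nat_lit 318) (nat_lit 273))) (XT.nd (nat_lit 78) (nat_lit 152) (nat_lit 0) (XT.lf (nat_lit 0) (nat_lit 72894455435) (nat_lit 76) (nat_lit 57510884026) (nat_lit 76) (nat_lit 56831734940) (nat_lit 79) (nat_lit 4) (nat_lit 80) (nat_lit 5) (nat_lit 80) (nat_lit 4) (nat_lit 430) (nat_lit 318) (nat_lit 272)) (XT.lf (nat_lit 0) (nat_lit 46614321369) (nat_lit 152) (nat_lit 104379482044) (nat_lit 0) (nat_lit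 45966081407) (nat_lit 77) (nat_lit 5) (nat_lit 79) (nat_lit 4) (nat_lit 77) (nat_lit 4) (nat_lit 431) (nat_lit 318) (nat_lit 271)))))) (XT.nd (nat_lit 624) (nat_lit 912) (nat_lit 0) (XT.nd (nat_lit 312) (nat_lit 532) (nat_lit 0) (XT.nd (nat_lit 156) (nat_lit 228) (nat_lit 0) (XT.nd (nat_lit 78) (nat_lit 152) (nat_lit 0) (XT.lf (nat_lit 0) (nat_lit 113577850341) (nat_lit 76) (nat_lit 47133661865) (nat_lit 76) (nat_lit 46484096618) (nat_lit 76) (nat_lit 4) (nat_lit 77) (nat_lit 5) (nat_lit 77) (nat_lit 4) (nat_lit 432) (nat_lit 318) (nat_lit 270)) (XT.lf (nat_lit 0) (nat_lit 68246315861) (nat_lit 152) (nat_lit 82092963941) (nat_lit 0) (nat_lit 67626513609) (nat_lit 74) (nat_lit 5) (nat_lit 76) (nat_lit 4) (nat_lit 74) (nat_lit 4) (nat_lit 433) (nat_lit 318) (nat_lit 269))) (XT.nd (nat_lit 78) (nat_lit 152) (nat_lit 0) (XT.lf (nat_lit 0) (nat_lit 160245055777) (nat_lit 76) (nat_lit 34853363949)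 (nat_lit 76) (nat_lit 34232479584) (nat_lit 73) (nat_lit 4) (nat_lit 74) (nat_lit 5) (nat_lit 74) (nat_lit 4) (nat_lit 434) (nat_lit 318) (nat_lit 268)) (XT.lf (nat_lit 0) (nat_lit 93070713595) (nat_lit 152) (nat_lit 55711736748) (nat_lit 0) (nat_lit 92478440908) (nat_lit 71) (nat_lit 5) (nat_lit 73) (nat_lit 4) (nat_lit 71) (nat_lit 4) (nat_lit 435) (nat_lit 318) (nat_lit 267)))) (XT.nd (nat_lit 156) (nat_lit 304) (nat_lit 0) (XT.nd (nat_lit 78) (nat_lit 152) (nat_lit 0) (XT.lf (nat_lit 0) (nat_lit 213812782827) (nat_lit 76) (nat_lit 20329218810) (nat_lit 76) (nat_lit 19736062563) (nat_lit 70) (nat_lit 4) (nat_lit 71) (nat_lit 5) (nat_lit 71) (nat_lit 4) (nat_lit 436) (nat_lit 318) (nat_lit 266)) (XT.lf (nat_lit 0) (nat_lit 121571911822) (nat_lit 152) (nat_lit 24514280746) (nat_lit 0) (nat_lit 121006221957) (nat_lit 68) (nat_lit 5) (nat_lit 70) (nat_lit 4) (nat_lit 68) (nat_lit 4) (nat_lit 437)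 (nat_lit 318) (nat_lit 265))) (XT.nd (nat_lit 78) (nat_lit 228) (nat_lit 0) (XT.lf (nat_lit 0) (nat_lit 275319743482) (nat_lit 76) (nat_lit 3172229198) (nat_lit 76) (nat_lit 2605817895) (nat_lit 67) (nat_lit 4) (nat_lit 68) (nat_lit 5) (nat_lit 68) (nat_lit 4) (nat_lit 438) (nat_lit 318) (nat_lit 264)) (XT.lf (nat_lit 0) (nat_lit 12730255231) (nat_lit 76) (nat_lit 141767178415) (nat_lit 76) (nat_lit 141227102890) (nat_lit 64) (nat_lit 4) (nat_lit 65) (nat_lit 5) (nat_lit 65) (nat_lit 4) (nat_lit 439) (nat_lit 318) (nat_lit 263))))) (XT.nd (nat_lit 312) (nat_lit 456) (nat_lit 0) (XT.nd (nat_lit 156) (nat_lit 228) (nat_lit 0) (XT.nd (nat_lit 78) (nat_lit 76) (nat_lit 0) (XT.lf (nat_lit 0) (nat_lit 17873314894) (nat_lit 152) (nat_lit 275991926708) (nat_lit 0) (nat_lit 17358396238) (nat_lit 62) (nat_lit 5) (nat_lit 64) (nat_lit 4) (nat_lit 62) (nat_lit 4) (nat_lit 440) (nat_lit 318) (nat_lit 262))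 (XT.lf (nat_lit 0) (nat_lit 57581627121) (nat_lit 76) (nat_lit 135189916966) (nat_lit 76) (nat_lit 134674478854) (nat_lit 61) (nat_lit 4) (nat_lit 62) (nat_lit 5) (nat_lit 62) (nat_lit 4) (nat_lit 441) (nat_lit 318) (nat_lit 261))) (XT.nd (nat_lit 78) (nat_lit 76) (nat_lit 0) (XT.lf (nat_lit 0) (nat_lit 42055649052) (nat_lit 152) (nat_lit 260990871370) (nat_lit 0) (nat_lit 41564297536) (nat_lit 59) (nat_lit 5) (nat_lit 61) (nat_lit 4) (nat_lit 59) (nat_lit 4) (nat_lit 442) (nat_lit 318) (nat_lit 260)) (XT.lf (nat_lit 0) (nat_lit 110335146807) (nat_lit 76) (nat_lit 126384669096) (nat_lit 76) (nat_lit 125892893437) (nat_lit 58) (nat_lit 4) (nat_lit 59) (nat_lit 5) (nat_lit 59) (nat_lit 4) (nat_lit 443) (nat_lit 318) (nat_lit 259)))) (XT.nd (nat_lit 156) (nat_lit 228) (nat_lit 0) (XT.nd (nat_lit 78) (nat_lit 76) (nat_lit 0) (XT.lf (nat_lit 0) (nat_lit 70466360274) (nat_lit 152) (nat_lit 241158034027)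 (nat_lit 0) (nat_lit 69997628480) (nat_lit 56) (nat_lit 5) (nat_lit 58) (nat_lit 4) (nat_lit 56) (nat_lit 4) (nat_lit 444) (nat_lit 318) (nat_lit 258)) (XT.lf (nat_lit 0) (nat_lit 172250568581) (nat_lit 76) (nat_lit 114907831967) (nat_lit 76) (nat_lit 114438753855) (nat_lit 55) (nat_lit 4) (nat_lit 56) (nat_lit 5) (nat_lit 56) (nat_lit 4) (nat_lit 445) (nat_lit 318) (nat_lit 257))) (XT.nd (nat_lit 78) (nat_lit 76) (nat_lit 0) (XT.lf (nat_lit 0) (nat_lit 103772790285) (nat_lit 152) (nat_lit 215550528045) (nat_lit 0) (nat_lit 103325743830) (nat_lit 53) (nat_lit 5) (nat_lit 55) (nat_lit 4) (nat_lit 53) (nat_lit 4) (nat_lit 446) (nat_lit 318) (nat_lit 256)) (XT.lf (nat_lit 0) (nat_lit 244762067418) (nat_lit 76) (nat_lit 100248815996) (nat_lit 76) (nat_lit 99801486767) (nat_lit 52) (nat_lit 4) (nat_lit 53) (nat_lit 5) (nat_lit 53) (nat_lit 4) (nat_lit 447) (nat_lit 318) (nat_lit 255)))))))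
noncomputable def xc33 : XT := (XT.nd (nat_lit 1248) (nat_lit 2280) (nat_lit 0) (XT.nd (nat_lit 624) (nat_lit 1292) (nat_lit 0) (XT.nd (nat_lit 312) (nat_lit 684) (nat_lit 0) (XT.nd (nat_lit 156) (nat_lit 304) (nat_lit 0) (XT.nd (nat_lit 78) (nat_lit 228) (nat_lit 0) (XT.lf (nat_lit 0) (nat_lit 4535222787) (nat_lit 152) (nat_lit 1195317448) (nat_lit 0) (nat_lit 4535222787) (nat_lit 170) (nat_lit 5) (nat_lit 172) (nat_lit 4) (nat_lit 170) (nat_lit 4) (nat_lit 382) (nat_lit 319) (nat_lit 319)) (XT.lf (nat_lit 0) (nat_lit 4837831927) (nat_lit 152) (nat_lit 11884946979) (nat_lit 0) (nat_lit 4607513432) (nat_lit 167) (nat_lit 5) (nat_lit 169) (nat_lit 4) (nat_lit 167) (nat_lit 4) (nat_lit 383) (nat_lit 319) (nat_lit 318))) (XT.nd (nat_lit 78) (nat_lit 228) (nat_lit 0) (XT.lf (nat_lit 0) (nat_lit 21705695164) (nat_lit 76) (nat_lit 457618482) (nat_lit 76) (nat_lit 14042122) (nat_lit 166) (nat_lit 4)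 (nat_lit 167) (nat_lit 5) (nat_lit 167) (nat_lit 4) (nat_lit 384) (nat_lit 319) (nat_lit 317)) (XT.lf (nat_lit 0) (nat_lit 11474605729) (nat_lit 76) (nat_lit 6098123344) (nat_lit 76) (nat_lit 5487611585) (nat_lit 163) (nat_lit 4) (nat_lit 164) (nat_lit 5) (nat_lit 164) (nat_lit 4) (nat_lit 385) (nat_lit 319) (nat_lit 316)))) (XT.nd (nat_lit 156) (nat_lit 304) (nat_lit 0) (XT.nd (nat_lit 78) (nat_lit 228) (nat_lit 0) (XT.lf (nat_lit 0) (nat_lit 12273216605) (nat_lit 152) (nat_lit 198848763) (nat_lit 0) (nat_lit 11525940783) (nat_lit 161) (nat_lit 5) (nat_lit 163) (nat_lit 4) (nat_lit 161) (nat_lit 4) (nat_lit 386) (nat_lit 319) (nat_lit 315)) (XT.lf (nat_lit 0) (nat_lit 6387305657) (nat_lit 152) (nat_lit 13068068313) (nat_lit 0) (nat_lit 5529374494) (nat_lit 158) (nat_lit 5) (nat_lit 160) (nat_lit 4) (nat_lit 158) (nat_lit 4) (nat_lit 387) (nat_lit 319) (nat_lit 314))) (XT.nd (nat_lit 78) (nat_lit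 228) (nat_lit 0) (XT.lf (nat_lit 0) (nat_lit 24415165939) (nat_lit 76) (nat_lit 1304933353) (nat_lit 76) (nat_lit 311594870) (nat_lit 157) (nat_lit 4) (nat_lit 158) (nat_lit 5) (nat_lit 158) (nat_lit 4) (nat_lit 388) (nat_lit 319) (nat_lit 313)) (XT.lf (nat_lit 0) (nat_lit 10330256244) (nat_lit 76) (nat_lit 8930071757) (nat_lit 76) (nat_lit 7864628301) (nat_lit 154) (nat_lit 4) (nat_lit 155) (nat_lit 5) (nat_lit 155) (nat_lit 4) (nat_lit 389) (nat_lit 319) (nat_lit 312))))) (XT.nd (nat_lit 312) (nat_lit 684) (nat_lit 0) (XT.nd (nat_lit 156) (nat_lit 228) (nat_lit 0) (XT.nd (nat_lit 78) (nat_lit 228) (nat_lit 0) (XT.lf (nat_lit 0) (nat_lit 11929943951) (nat_lit 152) (nat_lit 5544361300) (nat_lit 0) (nat_lit 10809938889) (nat_lit 152) (nat_lit 5) (nat_lit 154) (nat_lit 4) (nat_lit 152) (nat_lit 4) (nat_lit 390) (nat_lit 319) (nat_lit 311)) (XT.lf (nat_lit 0) (nat_lit 3728398804) (nat_lit 152) (nat_lit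 23212932990) (nat_lit 0) (nat_lit 2568872812) (nat_lit 149) (nat_lit 5) (nat_lit 151) (nat_lit 4) (nat_lit 149) (nat_lit 4) (nat_lit 391) (nat_lit 319) (nat_lit 310))) (XT.nd (nat_lit 78) (nat_lit 152) (nat_lit 0) (XT.lf (nat_lit 0) (nat_lit 18572248419) (nat_lit 76) (nat_lit 6735470841) (nat_lit 76) (nat_lit 5489968457) (nat_lit 148) (nat_lit 4) (nat_lit 149) (nat_lit 5) (nat_lit 149) (nat_lit 4) (nat_lit 392) (nat_lit 319) (nat_lit 309)) (XT.lf (nat_lit 0) (nat_lit 16235215120) (nat_lit 152) (nat_lit 950141291) (nat_lit 0) (nat_lit 14973205448) (nat_lit 146) (nat_lit 5) (nat_lit 148) (nat_lit 4) (nat_lit 146) (nat_lit 4) (nat_lit 393) (nat_lit 319) (nat_lit 308)))) (XT.nd (nat_lit 156) (nat_lit 380) (nat_lit 0) (XT.nd (nat_lit 78) (nat_lit 76) (nat_lit 0) (XT.lf (nat_lit 0) (nat_lit 6195456487) (nat_lit 152) (nat_lit 22471999980) (nat_lit 0) (nat_lit 4926684556) (nat_lit 143) (nat_lit 5) (nat_lit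 145) (nat_lit 4) (nat_lit 143) (nat_lit 4) (nat_lit 394) (nat_lit 319) (nat_lit 307)) (XT.lf (nat_lit 0) (nat_lit 23548505563) (nat_lit 76) (nat_lit 6445149062) (nat_lit 76) (nat_lit 5114471613) (nat_lit 142) (nat_lit 4) (nat_lit 143) (nat_lit 5) (nat_lit 143) (nat_lit 4) (nat_lit 395) (nat_lit 319) (nat_lit 306))) (XT.nd (nat_lit 78) (nat_lit 228) (nat_lit 0) (XT.lf (nat_lit 0) (nat_lit 18819009557) (nat_lit 152) (nat_lit 388661905) (nat_lit 0) (nat_lit 17497107299) (nat_lit 140) (nat_lit 5) (nat_lit 142) (nat_lit 4) (nat_lit 140) (nat_lit 4) (nat_lit 396) (nat_lit 319) (nat_lit 305)) (XT.lf (nat_lit 0) (nat_lit 6478873550) (nat_lit 152) (nat_lit 26739089583) (nat_lit 0) (nat_lit 5171779333) (nat_lit 137) (nat_lit 5) (nat_lit 139) (nat_lit 4) (nat_lit 137) (nat_lit 4) (nat_lit 397) (nat_lit 319) (nat_lit 304)))))) (XT.nd (nat_lit 624) (nat_lit 1140) (nat_lit 0) (XT.nd (nat_lit 312) (nat_lit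 608) (nat_lit 0) (XT.nd (nat_lit 156) (nat_lit 304) (nat_lit 0) (XT.nd (nat_lit 78) (nat_lit 152) (nat_lit 0) (XT.lf (nat_lit 0) (nat_lit 24013751743) (nat_lit 76) (nat_lit 8751402118) (nat_lit 76) (nat_lit 7399734118) (nat_lit 136) (nat_lit 4) (nat_lit 137) (nat_lit 5) (nat_lit 137) (nat_lit 4) (nat_lit 398) (nat_lit 319) (nat_lit 303)) (XT.lf (nat_lit 0) (nat_lit 19049446231) (nat_lit 152) (nat_lit 5265494261) (nat_lit 0) (nat_lit 17722836687) (nat_lit 134) (nat_lit 5) (nat_lit 136) (nat_lit 4) (nat_lit 134) (nat_lit 4) (nat_lit 399) (nat_lit 319) (nat_lit 302))) (XT.nd (nat_lit 78) (nat_lit 76) (nat_lit 0) (XT.lf (nat_lit 0) (nat_lit 3837432146) (nat_lit 152) (nat_lit 37642980578) (nat_lit 0) (nat_lit 2539332505) (nat_lit 131) (nat_lit 5) (nat_lit 133) (nat_lit 4) (nat_lit 131) (nat_lit 4) (nat_lit 400) (nat_lit 319) (nat_lit 301)) (XT.lf (nat_lit 0) (nat_lit 18378499969) (nat_lit 76) (nat_lit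 14524092579) (nat_lit 76) (nat_lit 13193898510) (nat_lit 130) (nat_lit 4) (nat_lit 131) (nat_lit 5) (nat_lit 131) (nat_lit 4) (nat_lit 401) (nat_lit 319) (nat_lit 300)))) (XT.nd (nat_lit 156) (nat_lit 380) (nat_lit 0) (XT.nd (nat_lit 78) (nat_lit 76) (nat_lit 0) (XT.lf (nat_lit 0) (nat_lit 16111611647) (nat_lit 152) (nat_lit 17365420861) (nat_lit 0) (nat_lit 14816458189) (nat_lit 128) (nat_lit 5) (nat_lit 130) (nat_lit 4) (nat_lit 128) (nat_lit 4) (nat_lit 402) (nat_lit 319) (nat_lit 299)) (XT.lf (nat_lit 0) (nat_lit 44112589292) (nat_lit 76) (nat_lit 3913922679) (nat_lit 76) (nat_lit 2592563699) (nat_lit 127) (nat_lit 4) (nat_lit 128) (nat_lit 5) (nat_lit 128) (nat_lit 4) (nat_lit 403) (nat_lit 319) (nat_lit 298))) (XT.nd (nat_lit 78) (nat_lit 152) (nat_lit 0) (XT.lf (nat_lit 0) (nat_lit 4621945972) (nat_lit 76) (nat_lit 24857312695) (nat_lit 76) (nat_lit 23575766646) (nat_lit 124) (nat_lit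 4) (nat_lit 125) (nat_lit 5) (nat_lit 125) (nat_lit 4) (nat_lit 404) (nat_lit 319) (nat_lit 297)) (XT.lf (nat_lit 0) (nat_lit 8963447041) (nat_lit 152) (nat_lit 38946808689) (nat_lit 0) (nat_lit 7722548752) (nat_lit 122) (nat_lit 5) (nat_lit 124) (nat_lit 4) (nat_lit 122) (nat_lit 4) (nat_lit 405) (nat_lit 319) (nat_lit 296))))) (XT.nd (nat_lit 312) (nat_lit 608) (nat_lit 0) (XT.nd (nat_lit 156) (nat_lit 304) (nat_lit 0) (XT.nd (nat_lit 78) (nat_lit 152) (nat_lit 0) (XT.lf (nat_lit 0) (nat_lit 29082411722) (nat_lit 76) (nat_lit 15260832780) (nat_lit 76) (nat_lit 14001065749) (nat_lit 121) (nat_lit 4) (nat_lit 122) (nat_lit 5) (nat_lit 122) (nat_lit 4) (nat_lit 406) (nat_lit 319) (nat_lit 295)) (XT.lf (nat_lit 0) (nat_lit 21620302271) (nat_lit 152) (nat_lit 19180900208) (nat_lit 0) (nat_lit 20403885044) (nat_lit 119) (nat_lit 5) (nat_lit 121) (nat_lit 4) (nat_lit 119) (nat_lit 4) (nat_lit 407)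 (nat_lit 319) (nat_lit 294))) (XT.nd (nat_lit 78) (nat_lit 228) (nat_lit 0) (XT.lf (nat_lit 0) (nat_lit 55760227409) (nat_lit 76) (nat_lit 4852135731) (nat_lit 76) (nat_lit 3620311927) (nat_lit 118) (nat_lit 4) (nat_lit 119) (nat_lit 5) (nat_lit 119) (nat_lit 4) (nat_lit 408) (nat_lit 319) (nat_lit 293)) (XT.lf (nat_lit 0) (nat_lit 2405774230) (nat_lit 76) (nat_lit 33092860451) (nat_lit 76) (nat_lit 31906108878) (nat_lit 115) (nat_lit 4) (nat_lit 116) (nat_lit 5) (nat_lit 116) (nat_lit 4) (nat_lit 409) (nat_lit 319) (nat_lit 292)))) (XT.nd (nat_lit 156) (nat_lit 380) (nat_lit 0) (XT.nd (nat_lit 78) (nat_lit 76) (nat_lit 0) (XT.lf (nat_lit 0) (nat_lit 7801406757) (nat_lit 152) (nat_lit 56300405913) (nat_lit 0) (nat_lit 6659186523) (nat_lit 113) (nat_lit 5) (nat_lit 115) (nat_lit 4) (nat_lit 113) (nat_lit 4) (nat_lit 410) (nat_lit 319) (nat_lit 291)) (XT.lf (nat_lit 0) (nat_lit 26744584306) (nat_lit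 76) (nat_lit 24346091258) (nat_lit 76) (nat_lit 23192777839) (nat_lit 112) (nat_lit 4) (nat_lit 113) (nat_lit 5) (nat_lit 113) (nat_lit 4) (nat_lit 411) (nat_lit 319) (nat_lit 290))) (XT.nd (nat_lit 78) (nat_lit 228) (nat_lit 0) (XT.lf (nat_lit 0) (nat_lit 20457456953) (nat_lit 152) (nat_lit 38198825752) (nat_lit 0) (nat_lit 19349280869) (nat_lit 110) (nat_lit 5) (nat_lit 112) (nat_lit 4) (nat_lit 110) (nat_lit 4) (nat_lit 412) (nat_lit 319) (nat_lit 289)) (XT.nd (nat_lit 78) (nat_lit 152) (nat_lit 0) (XT.lf (nat_lit 0) (nat_lit 53556060583) (nat_lit 76) (nat_lit 14745931569) (nat_lit 76) (nat_lit 13628697754) (nat_lit 109) (nat_lit 4) (nat_lit 110) (nat_lit 5) (nat_lit 110) (nat_lit 4) (nat_lit 413) (nat_lit 319) (nat_lit 288)) (XT.lf (nat_lit 0) (nat_lit 34436006155) (nat_lit 152) (nat_lit 18257760198) (nat_lit 0) (nat_lit 33363986532) (nat_lit 107) (nat_lit 5) (nat_lit 109) (nat_lit 4) (nat_lit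 107) (nat_lit 4) (nat_lit 414) (nat_lit 319) (nat_lit 287))))))))
noncomputable def xc34 : XT := (XT.nd (nat_lit 1248) (nat_lit 1900) (nat_lit 0) (XT.nd (nat_lit 624) (nat_lit 1064) (nat_lit 0) (XT.nd (nat_lit 312) (nat_lit 456) (nat_lit 0) (XT.nd (nat_lit 156) (nat_lit 228) (nat_lit 0) (XT.nd (nat_lit 78) (nat_lit 228) (nat_lit 0) (XT.lf (nat_lit 0) (nat_lit 83238186074) (nat_lit 76) (nat_lit 4134902440) (nat_lit 76) (nat_lit 3055487059) (nat_lit 106) (nat_lit 4) (nat_lit 107) (nat_lit 5) (nat_lit 107) (nat_lit 4) (nat_lit 415) (nat_lit 319) (nat_lit 286)) (XT.lf (nat_lit 0) (nat_lit 3982429302) (nat_lit 76) (nat_lit 46026460371) (nat_lit 76) (nat_lit 44991923891) (nat_lit 103) (nat_lit 4) (nat_lit 104) (nat_lit 5) (nat_lit 104) (nat_lit 4) (nat_lit 416) (nat_lit 319) (nat_lit 285))) (XT.nd (nat_lit 78) (nat_lit 76) (nat_lit 0) (XT.lf (nat_lit 0) (nat_lit 8814483622) (nat_lit 152) (nat_lit 83204089210)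 (nat_lit 0) (nat_lit 7823459609) (nat_lit 101) (nat_lit 5) (nat_lit 103) (nat_lit 4) (nat_lit 101) (nat_lit 4) (nat_lit 417) (nat_lit 319) (nat_lit 284)) (XT.lf (nat_lit 0) (nat_lit 29456419448) (nat_lit 76) (nat_lit 38228406952) (nat_lit 76) (nat_lit 37232057778) (nat_lit 100) (nat_lit 4) (nat_lit 101) (nat_lit 5) (nat_lit 101) (nat_lit 4) (nat_lit 418) (nat_lit 319) (nat_lit 283)))) (XT.nd (nat_lit 156) (nat_lit 228) (nat_lit 0) (XT.nd (nat_lit 78) (nat_lit 76) (nat_lit 0) (XT.lf (nat_lit 0) (nat_lit 22179986515) (nat_lit 152) (nat_lit 66876021705) (nat_lit 0) (nat_lit 21226386629) (nat_lit 98) (nat_lit 5) (nat_lit 100) (nat_lit 4) (nat_lit 98) (nat_lit 4) (nat_lit 419) (nat_lit 319) (nat_lit 282)) (XT.lf (nat_lit 0) (nat_lit 57996474813) (nat_lit 76) (nat_lit 29444051663) (nat_lit 76) (nat_lit 28486103713) (nat_lit 97) (nat_lit 4) (nat_lit 98) (nat_lit 5) (nat_lit 98) (nat_lit 4) (nat_lit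 420) (nat_lit 319) (nat_lit 281))) (XT.nd (nat_lit 78) (nat_lit 76) (nat_lit 0) (XT.lf (nat_lit 0) (nat_lit 37186402476) (nat_lit 152) (nat_lit 48415945186) (nat_lit 0) (nat_lit 36270236823) (nat_lit 95) (nat_lit 5) (nat_lit 97) (nat_lit 4) (nat_lit 95) (nat_lit 4) (nat_lit 421) (nat_lit 319) (nat_lit 280)) (XT.lf (nat_lit 0) (nat_lit 90094373981) (nat_lit 76) (nat_lit 19486450647) (nat_lit 76) (nat_lit 18566734742) (nat_lit 94) (nat_lit 4) (nat_lit 95) (nat_lit 5) (nat_lit 95) (nat_lit 4) (nat_lit 422) (nat_lit 319) (nat_lit 279))))) (XT.nd (nat_lit 312) (nat_lit 456) (nat_lit 0) (XT.nd (nat_lit 156) (nat_lit 380) (nat_lit 0) (XT.nd (nat_lit 78) (nat_lit 76) (nat_lit 0) (XT.lf (nat_lit 0) (nat_lit 54093179444) (nat_lit 152) (nat_lit 27428863520) (nat_lit 0) (nat_lit 53214128801) (nat_lit 92) (nat_lit 5) (nat_lit 94) (nat_lit 4) (nat_lit 92) (nat_lit 4) (nat_lit 423) (nat_lit 319) (nat_lit 278))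 (XT.lf (nat_lit 0) (nat_lit 126305071229) (nat_lit 76) (nat_lit 8143438603) (nat_lit 76) (nat_lit 7261489133) (nat_lit 91) (nat_lit 4) (nat_lit 92) (nat_lit 5) (nat_lit 92) (nat_lit 4) (nat_lit 424) (nat_lit 319) (nat_lit 277))) (XT.nd (nat_lit 78) (nat_lit 228) (nat_lit 0) (XT.lf (nat_lit 0) (nat_lit 73193068562) (nat_lit 152) (nat_lit 3466570632) (nat_lit 0) (nat_lit 72350560401) (nat_lit 89) (nat_lit 5) (nat_lit 91) (nat_lit 4) (nat_lit 89) (nat_lit 4) (nat_lit 425) (nat_lit 319) (nat_lit 276)) (XT.lf (nat_lit 0) (nat_lit 5736593421) (nat_lit 152) (nat_lit 146073143973) (nat_lit 0) (nat_lit 4931950476) (nat_lit 86) (nat_lit 5) (nat_lit 88) (nat_lit 4) (nat_lit 86) (nat_lit 4) (nat_lit 426) (nat_lit 319) (nat_lit 275)))) (XT.nd (nat_lit 156) (nat_lit 228) (nat_lit 0) (XT.nd (nat_lit 78) (nat_lit 152) (nat_lit 0) (XT.lf (nat_lit 0) (nat_lit 24772453382) (nat_lit 76) (nat_lit 70430791120) (nat_lit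 76) (nat_lit 69624060934) (nat_lit 85) (nat_lit 4) (nat_lit 86) (nat_lit 5) (nat_lit 86) (nat_lit 4) (nat_lit 427) (nat_lit 319) (nat_lit 274)) (XT.lf (nat_lit 0) (nat_lit 20813484451) (nat_lit 152) (nat_lit 132532163168) (nat_lit 0) (nat_lit 20043329388) (nat_lit 83) (nat_lit 5) (nat_lit 85) (nat_lit 4) (nat_lit 83) (nat_lit 4) (nat_lit 428) (nat_lit 319) (nat_lit 273))) (XT.nd (nat_lit 78) (nat_lit 152) (nat_lit 0) (XT.lf (nat_lit 0) (nat_lit 57321471530) (nat_lit 76) (nat_lit 62909836533) (nat_lit 76) (nat_lit 62137977211) (nat_lit 82) (nat_lit 4) (nat_lit 83) (nat_lit 5) (nat_lit 83) (nat_lit 4) (nat_lit 429) (nat_lit 319) (nat_lit 272)) (XT.lf (nat_lit 0) (nat_lit 38137321736) (nat_lit 152) (nat_lit 116315236557) (nat_lit 0) (nat_lit 37400714746) (nat_lit 80) (nat_lit 5) (nat_lit 82) (nat_lit 4) (nat_lit 80) (nat_lit 4) (nat_lit 430) (nat_lit 319) (nat_lit 271)))))) (XT.nd (nat_lit 624)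 (nat_lit 988) (nat_lit 0) (XT.nd (nat_lit 312) (nat_lit 456) (nat_lit 0) (XT.nd (nat_lit 156) (nat_lit 228) (nat_lit 0) (XT.nd (nat_lit 78) (nat_lit 152) (nat_lit 0) (XT.lf (nat_lit 0) (nat_lit 94742534151) (nat_lit 76) (nat_lit 53910373837) (nat_lit 76) (nat_lit 53172375296) (nat_lit 79) (nat_lit 4) (nat_lit 80) (nat_lit 5) (nat_lit 80) (nat_lit 4) (nat_lit 431) (nat_lit 319) (nat_lit 270)) (XT.lf (nat_lit 0) (nat_lit 58065945574) (nat_lit 152) (nat_lit 96902743402) (nat_lit 0) (nat_lit 57361862704) (nat_lit 77) (nat_lit 5) (nat_lit 79) (nat_lit 4) (nat_lit 77) (nat_lit 4) (nat_lit 432) (nat_lit 319) (nat_lit 269))) (XT.nd (nat_lit 78) (nat_lit 152) (nat_lit 0) (XT.lf (nat_lit 0) (nat_lit 137803349216) (nat_lit 76) (nat_lit 43151893464) (nat_lit 76) (nat_lit 42446674375) (nat_lit 76) (nat_lit 4) (nat_lit 77) (nat_lit 5) (nat_lit 77) (nat_lit 4) (nat_lit 433) (nat_lit 319) (nat_lit 268)) (XT.lf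 (nat_lit 0) (nat_lit 81005263641) (nat_lit 152) (nat_lit 73700206659) (nat_lit 0) (nat_lit 80332624457) (nat_lit 74) (nat_lit 5) (nat_lit 76) (nat_lit 4) (nat_lit 74) (nat_lit 4) (nat_lit 434) (nat_lit 319) (nat_lit 267)))) (XT.nd (nat_lit 156) (nat_lit 228) (nat_lit 0) (XT.nd (nat_lit 78) (nat_lit 152) (nat_lit 0) (XT.lf (nat_lit 0) (nat_lit 187374702818) (nat_lit 76) (nat_lit 30313568236) (nat_lit 76) (nat_lit 29640001314) (nat_lit 73) (nat_lit 4) (nat_lit 74) (nat_lit 5) (nat_lit 74) (nat_lit 4) (nat_lit 435) (nat_lit 319) (nat_lit 266)) (XT.lf (nat_lit 0) (nat_lit 107415594594) (nat_lit 152) (nat_lit 46027922584) (nat_lit 0) (nat_lit 106773284177) (nat_lit 71) (nat_lit 5) (nat_lit 73) (nat_lit 4) (nat_lit 71) (nat_lit 4) (nat_lit 436) (nat_lit 319) (nat_lit 265))) (XT.nd (nat_lit 78) (nat_lit 152) (nat_lit 0) (XT.lf (nat_lit 0) (nat_lit 244444018660) (nat_lit 76) (nat_lit 15028695493) (nat_lit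 76) (nat_lit 14385627565) (nat_lit 70) (nat_lit 4) (nat_lit 71) (nat_lit 5) (nat_lit 71) (nat_lit 4) (nat_lit 437) (nat_lit 319) (nat_lit 264)) (XT.lf (nat_lit 0) (nat_lit 137818809864) (nat_lit 152) (nat_lit 13109244348) (nat_lit 0) (nat_lit 137205696220) (nat_lit 68) (nat_lit 5) (nat_lit 70) (nat_lit 4) (nat_lit 68) (nat_lit 4) (nat_lit 438) (nat_lit 319) (nat_lit 263))))) (XT.nd (nat_lit 312) (nat_lit 456) (nat_lit 0) (XT.nd (nat_lit 156) (nat_lit 228) (nat_lit 0) (XT.nd (nat_lit 78) (nat_lit 76) (nat_lit 0) (XT.lf (nat_lit 0) (nat_lit 3776905341) (nat_lit 152) (nat_lit 296293451199) (nat_lit 0) (nat_lit 3192398521) (nat_lit 65) (nat_lit 5) (nat_lit 67) (nat_lit 4) (nat_lit 65) (nat_lit 4) (nat_lit 439) (nat_lit 319) (nat_lit 262)) (XT.lf (nat_lit 0) (nat_lit 26800431635) (nat_lit 76) (nat_lit 146424370686) (nat_lit 76) (nat_lit 145839318437) (nat_lit 64) (nat_lit 4) (nat_lit 65) (nat_lit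 5) (nat_lit 65) (nat_lit 4) (nat_lit 440) (nat_lit 319) (nat_lit 261))) (XT.nd (nat_lit 78) (nat_lit 76) (nat_lit 0) (XT.lf (nat_lit 0) (nat_lit 25595311375) (nat_lit 152) (nat_lit 285173973149) (nat_lit 0) (nat_lit 25037637778) (nat_lit 62) (nat_lit 5) (nat_lit 64) (nat_lit 4) (nat_lit 62) (nat_lit 4) (nat_lit 441) (nat_lit 319) (nat_lit 260)) (XT.lf (nat_lit 0) (nat_lit 74524963710) (nat_lit 76) (nat_lit 139686963516) (nat_lit 76) (nat_lit 139128844569) (nat_lit 61) (nat_lit 4) (nat_lit 62) (nat_lit 5) (nat_lit 62) (nat_lit 4) (nat_lit 442) (nat_lit 319) (nat_lit 259)))) (XT.nd (nat_lit 156) (nat_lit 228) (nat_lit 0) (XT.nd (nat_lit 78) (nat_lit 76) (nat_lit 0) (XT.lf (nat_lit 0) (nat_lit 51367458566) (nat_lit 152) (nat_lit 269679332963) (nat_lit 0) (nat_lit 50835523987) (nat_lit 59) (nat_lit 5) (nat_lit 61) (nat_lit 4) (nat_lit 59) (nat_lit 4) (nat_lit 443) (nat_lit 319) (nat_lit 258)) (XT.lf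 (nat_lit 0) (nat_lit 130822969003) (nat_lit 76) (nat_lit 130523305808) (nat_lit 76) (nat_lit 129991007594) (nat_lit 58) (nat_lit 4) (nat_lit 59) (nat_lit 5) (nat_lit 59) (nat_lit 4) (nat_lit 444) (nat_lit 319) (nat_lit 257))) (XT.nd (nat_lit 78) (nat_lit 76) (nat_lit 0) (XT.lf (nat_lit 0) (nat_lit 81725153142) (nat_lit 152) (nat_lit 248927675463) (nat_lit 0) (nat_lit 81217881797) (nat_lit 56) (nat_lit 5) (nat_lit 58) (nat_lit 4) (nat_lit 56) (nat_lit 4) (nat_lit 445) (nat_lit 319) (nat_lit 256)) (XT.lf (nat_lit 0) (nat_lit 197052839761) (nat_lit 76) (nat_lit 118455398485) (nat_lit 76) (nat_lit 117947830228) (nat_lit 55) (nat_lit 4) (nat_lit 56) (nat_lit 5) (nat_lit 56) (nat_lit 4) (nat_lit 446) (nat_lit 319) (nat_lit 255)))))))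
noncomputable def xc35 : XT := (XT.nd (nat_lit 49062) (nat_lit 0) (nat_lit 4560) (XT.nd (nat_lit 48438) (nat_lit 0) (nat_lit 6992) (XT.nd (nat_lit 48126) (nat_lit 0) (nat_lit 8208) (XT.nd (nat_lit 47970) (nat_lit 0) (nat_lit 8892) (XT.nd (nat_lit 47892) (nat_lit 0) (nat_lit 9272) (XT.lf (nat_lit 0) (nat_lit 117388086521) (nat_lit 152) (nat_lit 221902800607) (nat_lit 0) (nat_lit 116904426353) (nat_lit 53) (nat_lit 5) (nat_lit 55) (nat_lit 4) (nat_lit 53) (nat_lit 4) (nat_lit 447) (nat_lit 319) (nat_lit 254)) (XT.lf (nat_lit 0) (nat_lit 7234195966) (nat_lit 76) (nat_lit 1142357393) (nat_lit 76) (nat_lit 1142357393) (nat_lit 175) (nat_lit 4) (nat_lit 176) (nat_lit 5) (nat_lit 176) (nat_lit 4) (nat_lit 380) (nat_lit 320) (nat_lit 320))) (XT.nd (nat_lit 78) (nat_lit 152) (nat_lit 0) (XT.lf (nat_lit 0) (nat_lit 6155176565) (nat_lit 76) (nat_lit 6946265109) (nat_lit 76) (nat_lit 6672024877) (nat_lit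 172) (nat_lit 4) (nat_lit 173) (nat_lit 5) (nat_lit 173) (nat_lit 4) (nat_lit 381) (nat_lit 320) (nat_lit 319)) (XT.lf (nat_lit 0) (nat_lit 8924048669) (nat_lit 152) (nat_lit 3206823204) (nat_lit 0) (nat_lit 8421033076) (nat_lit 170) (nat_lit 5) (nat_lit 172) (nat_lit 4) (nat_lit 170) (nat_lit 4) (nat_lit 382) (nat_lit 320) (nat_lit 318)))) (XT.nd (nat_lit 156) (nat_lit 380) (nat_lit 0) (XT.nd (nat_lit 78) (nat_lit 76) (nat_lit 0) (XT.lf (nat_lit 0) (nat_lit 4222985714) (nat_lit 152) (nat_lit 13619820755) (nat_lit 0) (nat_lit 3530665379) (nat_lit 167) (nat_lit 5) (nat_lit 169) (nat_lit 4) (nat_lit 167) (nat_lit 4) (nat_lit 383) (nat_lit 320) (nat_lit 317)) (XT.lf (nat_lit 0) (nat_lit 19115632533) (nat_lit 76) (nat_lit 2007963810) (nat_lit 76) (nat_lit 1118182489) (nat_lit 166) (nat_lit 4) (nat_lit 167) (nat_lit 5) (nat_lit 167) (nat_lit 4) (nat_lit 384) (nat_lit 320) (nat_lit 316))) (XT.nd (nat_lit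 78) (nat_lit 152) (nat_lit 0) (XT.lf (nat_lit 0) (nat_lit 7801262910) (nat_lit 76) (nat_lit 8185870558) (nat_lit 76) (nat_lit 7164331922) (nat_lit 163) (nat_lit 4) (nat_lit 164) (nat_lit 5) (nat_lit 164) (nat_lit 4) (nat_lit 385) (nat_lit 320) (nat_lit 315)) (XT.lf (nat_lit 0) (nat_lit 10156605541) (nat_lit 152) (nat_lit 4928352368) (nat_lit 0) (nat_lit 9030159702) (nat_lit 161) (nat_lit 5) (nat_lit 163) (nat_lit 4) (nat_lit 161) (nat_lit 4) (nat_lit 386) (nat_lit 320) (nat_lit 314))))) (XT.nd (nat_lit 312) (nat_lit 532) (nat_lit 0) (XT.nd (nat_lit 156) (nat_lit 380) (nat_lit 0) (XT.nd (nat_lit 78) (nat_lit 76) (nat_lit 0) (XT.lf (nat_lit 0) (nat_lit 3616413516) (nat_lit 152) (nat_lit 19109422639) (nat_lit 0) (nat_lit 2408200636) (nat_lit 158) (nat_lit 5) (nat_lit 160) (nat_lit 4) (nat_lit 158) (nat_lit 4) (nat_lit 387) (nat_lit 320) (nat_lit 313)) (XT.lf (nat_lit 0) (nat_lit 17386317198) (nat_lit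 76) (nat_lit 5076292593) (nat_lit 76) (nat_lit 3742702566) (nat_lit 157) (nat_lit 4) (nat_lit 158) (nat_lit 5) (nat_lit 158) (nat_lit 4) (nat_lit 388) (nat_lit 320) (nat_lit 312))) (XT.nd (nat_lit 78) (nat_lit 152) (nat_lit 0) (XT.lf (nat_lit 0) (nat_lit 1771776430) (nat_lit 76) (nat_lit 13472432762) (nat_lit 76) (nat_lit 12091785164) (nat_lit 154) (nat_lit 4) (nat_lit 155) (nat_lit 5) (nat_lit 155) (nat_lit 4) (nat_lit 389) (nat_lit 320) (nat_lit 311)) (XT.lf (nat_lit 0) (nat_lit 7231547373) (nat_lit 152) (nat_lit 15478213797) (nat_lit 0) (nat_lit 5819147669) (nat_lit 152) (nat_lit 5) (nat_lit 154) (nat_lit 4) (nat_lit 152) (nat_lit 4) (nat_lit 390) (nat_lit 320) (nat_lit 310)))) (XT.nd (nat_lit 156) (nat_lit 228) (nat_lit 0) (XT.nd (nat_lit 78) (nat_lit 228) (nat_lit 0) (XT.lf (nat_lit 0) (nat_lit 24692583305) (nat_lit 76) (nat_lit 3300811263) (nat_lit 76) (nat_lit 1798136347) (nat_lit 151)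 (nat_lit 4) (nat_lit 152) (nat_lit 5) (nat_lit 152) (nat_lit 4) (nat_lit 391) (nat_lit 320) (nat_lit 309)) (XT.lf (nat_lit 0) (nat_lit 5636686381) (nat_lit 76) (nat_lit 13494907585) (nat_lit 76) (nat_lit 11984180846) (nat_lit 148) (nat_lit 4) (nat_lit 149) (nat_lit 5) (nat_lit 149) (nat_lit 4) (nat_lit 392) (nat_lit 320) (nat_lit 308))) (XT.nd (nat_lit 78) (nat_lit 76) (nat_lit 0) (XT.lf (nat_lit 0) (nat_lit 9248574972) (nat_lit 152) (nat_lit 15528571033) (nat_lit 0) (nat_lit 7739586746) (nat_lit 146) (nat_lit 5) (nat_lit 148) (nat_lit 4) (nat_lit 146) (nat_lit 4) (nat_lit 393) (nat_lit 320) (nat_lit 307)) (XT.lf (nat_lit 0) (nat_lit 28759120943) (nat_lit 76) (nat_lit 3407249002) (nat_lit 76) (nat_lit 1833259983) (nat_lit 145) (nat_lit 4) (nat_lit 146) (nat_lit 5) (nat_lit 146) (nat_lit 4) (nat_lit 394) (nat_lit 320) (nat_lit 306)))))) (XT.nd (nat_lit 624) (nat_lit 1292) (nat_lit 0) (XT.nd (nat_lit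 312) (nat_lit 532) (nat_lit 0) (XT.nd (nat_lit 156) (nat_lit 228) (nat_lit 0) (XT.nd (nat_lit 78) (nat_lit 152) (nat_lit 0) (XT.lf (nat_lit 0) (nat_lit 5378143147) (nat_lit 76) (nat_lit 15866114017) (nat_lit 76) (nat_lit 14309756933) (nat_lit 142) (nat_lit 4) (nat_lit 143) (nat_lit 5) (nat_lit 143) (nat_lit 4) (nat_lit 395) (nat_lit 320) (nat_lit 305)) (XT.lf (nat_lit 0) (nat_lit 9101979560) (nat_lit 152) (nat_lit 20527479782) (nat_lit 0) (nat_lit 7569188049) (nat_lit 140) (nat_lit 5) (nat_lit 142) (nat_lit 4) (nat_lit 140) (nat_lit 4) (nat_lit 396) (nat_lit 320) (nat_lit 304))) (XT.nd (nat_lit 78) (nat_lit 152) (nat_lit 0) (XT.lf (nat_lit 0) (nat_lit 28356657442) (nat_lit 76) (nat_lit 6079264023) (nat_lit 76) (nat_lit 4499670040) (nat_lit 139) (nat_lit 4) (nat_lit 140) (nat_lit 5) (nat_lit 140) (nat_lit 4) (nat_lit 397) (nat_lit 320) (nat_lit 303)) (XT.lf (nat_lit 0) (nat_lit 20943687110) (nat_lit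 152) (nat_lit 421869701) (nat_lit 0) (nat_lit 19398039867) (nat_lit 137) (nat_lit 5) (nat_lit 139) (nat_lit 4) (nat_lit 137) (nat_lit 4) (nat_lit 398) (nat_lit 320) (nat_lit 302)))) (XT.nd (nat_lit 156) (nat_lit 228) (nat_lit 0) (XT.nd (nat_lit 78) (nat_lit 76) (nat_lit 0) (XT.lf (nat_lit 0) (nat_lit 6061502354) (nat_lit 152) (nat_lit 32079881512) (nat_lit 0) (nat_lit 4553062280) (nat_lit 134) (nat_lit 5) (nat_lit 136) (nat_lit 4) (nat_lit 134) (nat_lit 4) (nat_lit 399) (nat_lit 320) (nat_lit 301)) (XT.lf (nat_lit 0) (nat_lit 21917823232) (nat_lit 76) (nat_lit 12174582575) (nat_lit 76) (nat_lit 10632443353) (nat_lit 133) (nat_lit 4) (nat_lit 134) (nat_lit 5) (nat_lit 134) (nat_lit 4) (nat_lit 400) (nat_lit 320) (nat_lit 300))) (XT.nd (nat_lit 78) (nat_lit 76) (nat_lit 0) (XT.lf (nat_lit 0) (nat_lit 17590762946) (nat_lit 152) (nat_lit 13185903227) (nat_lit 0) (nat_lit 16092341863) (nat_lit 131)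 (nat_lit 5) (nat_lit 133) (nat_lit 4) (nat_lit 131) (nat_lit 4) (nat_lit 401) (nat_lit 320) (nat_lit 299)) (XT.lf (nat_lit 0) (nat_lit 46123547542) (nat_lit 76) (nat_lit 2271786489) (nat_lit 76) (nat_lit 745849608) (nat_lit 130) (nat_lit 4) (nat_lit 131) (nat_lit 5) (nat_lit 131) (nat_lit 4) (nat_lit 402) (nat_lit 320) (nat_lit 298))))) (XT.nd (nat_lit 312) (nat_lit 684) (nat_lit 0) (XT.nd (nat_lit 156) (nat_lit 228) (nat_lit 0) (XT.nd (nat_lit 78) (nat_lit 152) (nat_lit 0) (XT.lf (nat_lit 0) (nat_lit 7451596018) (nat_lit 76) (nat_lit 22770906710) (nat_lit 76) (nat_lit 21293369117) (nat_lit 127) (nat_lit 4) (nat_lit 128) (nat_lit 5) (nat_lit 128) (nat_lit 4) (nat_lit 403) (nat_lit 320) (nat_lit 297)) (XT.lf (nat_lit 0) (nat_lit 10075187397) (nat_lit 152) (nat_lit 35309711526) (nat_lit 0) (nat_lit 8646611584) (nat_lit 125) (nat_lit 5) (nat_lit 127) (nat_lit 4) (nat_lit 125) (nat_lit 4) (nat_lit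 404) (nat_lit 320) (nat_lit 296))) (XT.nd (nat_lit 78) (nat_lit 152) (nat_lit 0) (XT.lf (nat_lit 0) (nat_lit 30351845463) (nat_lit 76) (nat_lit 13887930518) (nat_lit 76) (nat_lit 12439542526) (nat_lit 124) (nat_lit 4) (nat_lit 125) (nat_lit 5) (nat_lit 125) (nat_lit 4) (nat_lit 405) (nat_lit 320) (nat_lit 295)) (XT.lf (nat_lit 0) (nat_lit 21933955170) (nat_lit 152) (nat_lit 16999735076) (nat_lit 0) (nat_lit 20537066976) (nat_lit 122) (nat_lit 5) (nat_lit 124) (nat_lit 4) (nat_lit 122) (nat_lit 4) (nat_lit 406) (nat_lit 320) (nat_lit 294)))) (XT.nd (nat_lit 156) (nat_lit 380) (nat_lit 0) (XT.nd (nat_lit 78) (nat_lit 228) (nat_lit 0) (XT.lf (nat_lit 0) (nat_lit 55382623426) (nat_lit 76) (nat_lit 4228146719) (nat_lit 76) (nat_lit 2815081621) (nat_lit 121) (nat_lit 4) (nat_lit 122) (nat_lit 5) (nat_lit 122) (nat_lit 4) (nat_lit 407) (nat_lit 320) (nat_lit 293)) (XT.lf (nat_lit 0) (nat_lit 3075225678)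 (nat_lit 76) (nat_lit 31902461229) (nat_lit 76) (nat_lit 30542419596) (nat_lit 118) (nat_lit 4) (nat_lit 119) (nat_lit 5) (nat_lit 119) (nat_lit 4) (nat_lit 408) (nat_lit 320) (nat_lit 292))) (XT.nd (nat_lit 78) (nat_lit 228) (nat_lit 0) (XT.lf (nat_lit 0) (nat_lit 7802267402) (nat_lit 152) (nat_lit 54498310846) (nat_lit 0) (nat_lit 6494409984) (nat_lit 116) (nat_lit 5) (nat_lit 118) (nat_lit 4) (nat_lit 116) (nat_lit 4) (nat_lit 409) (nat_lit 320) (nat_lit 291)) (XT.nd (nat_lit 78) (nat_lit 152) (nat_lit 0) (XT.lf (nat_lit 0) (nat_lit 25734929797) (nat_lit 76) (nat_lit 23908233313) (nat_lit 76) (nat_lit 22588728050) (nat_lit 115) (nat_lit 4) (nat_lit 116) (nat_lit 5) (nat_lit 116) (nat_lit 4) (nat_lit 410) (nat_lit 320) (nat_lit 290)) (XT.lf (nat_lit 0) (nat_lit 19595192717) (nat_lit 152) (nat_lit 37939953171) (nat_lit 0) (nat_lit 18328249570) (nat_lit 113) (nat_lit 5) (nat_lit 115) (nat_lit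 4) (nat_lit 113) (nat_lit 4) (nat_lit 411) (nat_lit 320) (nat_lit 289))))))))
noncomputable def xc36 : XT := (XT.nd (nat_lit 1248) (nat_lit 1900) (nat_lit 0) (XT.nd (nat_lit 624) (nat_lit 1064) (nat_lit 0) (XT.nd (nat_lit 312) (nat_lit 456) (nat_lit 0) (XT.nd (nat_lit 156) (nat_lit 304) (nat_lit 0) (XT.nd (nat_lit 78) (nat_lit 152) (nat_lit 0) (XT.lf (nat_lit 0) (nat_lit 50754973601) (nat_lit 76) (nat_lit 15106711044) (nat_lit 76) (nat_lit 13830257278) (nat_lit 112) (nat_lit 4) (nat_lit 113) (nat_lit 5) (nat_lit 113) (nat_lit 4) (nat_lit 412) (nat_lit 320) (nat_lit 288)) (XT.lf (nat_lit 0) (nat_lit 32650400998) (nat_lit 152) (nat_lit 19641446332) (nat_lit 0) (nat_lit 31426343956) (nat_lit 110) (nat_lit 5) (nat_lit 112) (nat_lit 4) (nat_lit 110) (nat_lit 4) (nat_lit 413) (nat_lit 320) (nat_lit 287))) (XT.nd (nat_lit 78) (nat_lit 228) (nat_lit 0) (XT.lf (nat_lit 0) (nat_lit 78514543861) (nat_lit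 76) (nat_lit 5348782540) (nat_lit 76) (nat_lit 4116959953) (nat_lit 109) (nat_lit 4) (nat_lit 110) (nat_lit 5) (nat_lit 110) (nat_lit 4) (nat_lit 414) (nat_lit 320) (nat_lit 286)) (XT.lf (nat_lit 0) (nat_lit 735533890) (nat_lit 76) (nat_lit 46443716662) (nat_lit 76) (nat_lit 45263704370) (nat_lit 106) (nat_lit 4) (nat_lit 107) (nat_lit 5) (nat_lit 107) (nat_lit 4) (nat_lit 415) (nat_lit 320) (nat_lit 285)))) (XT.nd (nat_lit 156) (nat_lit 228) (nat_lit 0) (XT.nd (nat_lit 78) (nat_lit 76) (nat_lit 0) (XT.lf (nat_lit 0) (nat_lit 6792383631) (nat_lit 152) (nat_lit 84711195806) (nat_lit 0) (nat_lit 5662523667) (nat_lit 104) (nat_lit 5) (nat_lit 106) (nat_lit 4) (nat_lit 104) (nat_lit 4) (nat_lit 416) (nat_lit 320) (nat_lit 284)) (XT.lf (nat_lit 0) (nat_lit 24251622161) (nat_lit 76) (nat_lit 39498832588) (nat_lit 76) (nat_lit 38363381205) (nat_lit 103) (nat_lit 4) (nat_lit 104) (nat_lit 5) (nat_lit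 104) (nat_lit 4) (nat_lit 417) (nat_lit 320) (nat_lit 283))) (XT.nd (nat_lit 78) (nat_lit 76) (nat_lit 0) (XT.lf (nat_lit 0) (nat_lit 19144629402) (nat_lit 152) (nat_lit 70145199854) (nat_lit 0) (nat_lit 18058316426) (nat_lit 101) (nat_lit 5) (nat_lit 103) (nat_lit 4) (nat_lit 101) (nat_lit 4) (nat_lit 418) (nat_lit 320) (nat_lit 282)) (XT.lf (nat_lit 0) (nat_lit 50671350213) (nat_lit 76) (nat_lit 31634720126) (nat_lit 76) (nat_lit 30543841683) (nat_lit 100) (nat_lit 4) (nat_lit 101) (nat_lit 5) (nat_lit 101) (nat_lit 4) (nat_lit 419) (nat_lit 320) (nat_lit 281))))) (XT.nd (nat_lit 312) (nat_lit 608) (nat_lit 0) (XT.nd (nat_lit 156) (nat_lit 228) (nat_lit 0) (XT.nd (nat_lit 78) (nat_lit 76) (nat_lit 0) (XT.lf (nat_lit 0) (nat_lit 33051402248) (nat_lit 152) (nat_lit 53590288936) (nat_lit 0) (nat_lit 32008444412) (nat_lit 98) (nat_lit 5) (nat_lit 100) (nat_lit 4) (nat_lit 98) (nat_lit 4) (nat_lit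 420) (nat_lit 320) (nat_lit 280)) (XT.lf (nat_lit 0) (nat_lit 80462117515) (nat_lit 76) (nat_lit 22675127436) (nat_lit 76) (nat_lit 21628441835) (nat_lit 97) (nat_lit 4) (nat_lit 98) (nat_lit 5) (nat_lit 98) (nat_lit 4) (nat_lit 421) (nat_lit 320) (nat_lit 279))) (XT.nd (nat_lit 78) (nat_lit 76) (nat_lit 0) (XT.lf (nat_lit 0) (nat_lit 48759409445) (nat_lit 152) (nat_lit 34673798315) (nat_lit 0) (nat_lit 47759278745) (nat_lit 95) (nat_lit 5) (nat_lit 97) (nat_lit 4) (nat_lit 95) (nat_lit 4) (nat_lit 422) (nat_lit 320) (nat_lit 278)) (XT.lf (nat_lit 0) (nat_lit 114151801590) (nat_lit 76) (nat_lit 12419761682) (nat_lit 76) (nat_lit 11416587214) (nat_lit 94) (nat_lit 4) (nat_lit 95) (nat_lit 5) (nat_lit 95) (nat_lit 4) (nat_lit 423) (nat_lit 320) (nat_lit 277)))) (XT.nd (nat_lit 156) (nat_lit 304) (nat_lit 0) (XT.nd (nat_lit 78) (nat_lit 152) (nat_lit 0) (XT.lf (nat_lit 0) (nat_lit 66547240646) (nat_lit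 152) (nat_lit 12972342227) (nat_lit 0) (nat_lit 65589152291) (nat_lit 92) (nat_lit 5) (nat_lit 94) (nat_lit 4) (nat_lit 92) (nat_lit 4) (nat_lit 424) (nat_lit 320) (nat_lit 276)) (XT.lf (nat_lit 0) (nat_lit 309333279) (nat_lit 152) (nat_lit 326440410) (nat_lit 76) (nat_lit 152022110517) (nat_lit 90) (nat_lit 5) (nat_lit 92) (nat_lit 5) (nat_lit 91) (nat_lit 4) (nat_lit 425) (nat_lit 320) (nat_lit 275))) (XT.nd (nat_lit 78) (nat_lit 152) (nat_lit 0) (XT.lf (nat_lit 0) (nat_lit 12391715813) (nat_lit 76) (nat_lit 74531299168) (nat_lit 76) (nat_lit 73614275535) (nat_lit 88) (nat_lit 4) (nat_lit 89) (nat_lit 5) (nat_lit 89) (nat_lit 4) (nat_lit 426) (nat_lit 320) (nat_lit 274)) (XT.lf (nat_lit 0) (nat_lit 14036249660) (nat_lit 152) (nat_lit 141691775612) (nat_lit 0) (nat_lit 13160961188) (nat_lit 86) (nat_lit 5) (nat_lit 88) (nat_lit 4) (nat_lit 86) (nat_lit 4) (nat_lit 427) (nat_lit 320) (nat_lit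 273)))))) (XT.nd (nat_lit 624) (nat_lit 988) (nat_lit 0) (XT.nd (nat_lit 312) (nat_lit 456) (nat_lit 0) (XT.nd (nat_lit 156) (nat_lit 228) (nat_lit 0) (XT.nd (nat_lit 78) (nat_lit 152) (nat_lit 0) (XT.lf (nat_lit 0) (nat_lit 42123207736) (nat_lit 76) (nat_lit 68196182876) (nat_lit 76) (nat_lit 67319104932) (nat_lit 85) (nat_lit 4) (nat_lit 86) (nat_lit 5) (nat_lit 86) (nat_lit 4) (nat_lit 428) (nat_lit 320) (nat_lit 272)) (XT.lf (nat_lit 0) (nat_lit 29889481123) (nat_lit 152) (nat_lit 127947477371) (nat_lit 0) (nat_lit 29052590778) (nat_lit 83) (nat_lit 5) (nat_lit 85) (nat_lit 4) (nat_lit 83) (nat_lit 4) (nat_lit 429) (nat_lit 320) (nat_lit 271))) (XT.nd (nat_lit 78) (nat_lit 152) (nat_lit 0) (XT.lf (nat_lit 0) (nat_lit 76434428340) (nat_lit 76) (nat_lit 60504156316) (nat_lit 76) (nat_lit 59665804843) (nat_lit 82) (nat_lit 4) (nat_lit 83) (nat_lit 5) (nat_lit 83) (nat_lit 4) (nat_lit 430) (nat_lit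 320) (nat_lit 270)) (XT.lf (nat_lit 0) (nat_lit 48193009856) (nat_lit 152) (nat_lit 111264998497) (nat_lit 0) (nat_lit 47393291410) (nat_lit 80) (nat_lit 5) (nat_lit 82) (nat_lit 4) (nat_lit 80) (nat_lit 4) (nat_lit 431) (nat_lit 320) (nat_lit 269)))) (XT.nd (nat_lit 156) (nat_lit 228) (nat_lit 0) (XT.nd (nat_lit 78) (nat_lit 152) (nat_lit 0) (XT.lf (nat_lit 0) (nat_lit 116053523201) (nat_lit 76) (nat_lit 51191841509) (nat_lit 76) (nat_lit 50390930033) (nat_lit 79) (nat_lit 4) (nat_lit 80) (nat_lit 5) (nat_lit 80) (nat_lit 4) (nat_lit 432) (nat_lit 320) (nat_lit 268)) (XT.lf (nat_lit 0) (nat_lit 69332001823) (nat_lit 152) (nat_lit 91085778028) (nat_lit 0) (nat_lit 68568176934) (nat_lit 77) (nat_lit 5) (nat_lit 79) (nat_lit 4) (nat_lit 77) (nat_lit 4) (nat_lit 433) (nat_lit 320) (nat_lit 267))) (XT.nd (nat_lit 78) (nat_lit 152) (nat_lit 0) (XT.lf (nat_lit 0) (nat_lit 161807101763) (nat_lit 76)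 (nat_lit 39957558872) (nat_lit 76) (nat_lit 39192759858) (nat_lit 76) (nat_lit 4) (nat_lit 77) (nat_lit 5) (nat_lit 77) (nat_lit 4) (nat_lit 434) (nat_lit 320) (nat_lit 266)) (XT.lf (nat_lit 0) (nat_lit 93743608697) (nat_lit 152) (nat_lit 66770267777) (nat_lit 0) (nat_lit 93014369667) (nat_lit 74) (nat_lit 5) (nat_lit 76) (nat_lit 4) (nat_lit 74) (nat_lit 4) (nat_lit 435) (nat_lit 320) (nat_lit 265))))) (XT.nd (nat_lit 312) (nat_lit 532) (nat_lit 0) (XT.nd (nat_lit 156) (nat_lit 228) (nat_lit 0) (XT.nd (nat_lit 78) (nat_lit 152) (nat_lit 0) (XT.lf (nat_lit 0) (nat_lit 214633234067) (nat_lit 76) (nat_lit 26456019239) (nat_lit 76) (nat_lit 25725984823) (nat_lit 73) (nat_lit 4) (nat_lit 74) (nat_lit 5) (nat_lit 74) (nat_lit 4) (nat_lit 436) (nat_lit 320) (nat_lit 264)) (XT.lf (nat_lit 0) (nat_lit 121923814652) (nat_lit 152) (nat_lit 37586739807) (nat_lit 0) (nat_lit 121227842381) (nat_lit 71) (nat_lit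 5) (nat_lit 73) (nat_lit 4) (nat_lit 71) (nat_lit 4) (nat_lit 437) (nat_lit 320) (nat_lit 263))) (XT.nd (nat_lit 78) (nat_lit 152) (nat_lit 0) (XT.lf (nat_lit 0) (nat_lit 275596087826) (nat_lit 76) (nat_lit 10292324446) (nat_lit 76) (nat_lit 9595702733) (nat_lit 70) (nat_lit 4) (nat_lit 71) (nat_lit 5) (nat_lit 71) (nat_lit 4) (nat_lit 438) (nat_lit 320) (nat_lit 262)) (XT.lf (nat_lit 0) (nat_lit 154435145497) (nat_lit 152) (nat_lit 2698639882) (nat_lit 0) (nat_lit 153771123546) (nat_lit 68) (nat_lit 5) (nat_lit 70) (nat_lit 4) (nat_lit 68) (nat_lit 4) (nat_lit 439) (nat_lit 320) (nat_lit 261)))) (XT.nd (nat_lit 156) (nat_lit 228) (nat_lit 0) (XT.nd (nat_lit 78) (nat_lit 76) (nat_lit 0) (XT.lf (nat_lit 0) (nat_lit 9786279524) (nat_lit 152) (nat_lit 308298762217) (nat_lit 0) (nat_lit 9153372638) (nat_lit 65) (nat_lit 5) (nat_lit 67) (nat_lit 4) (nat_lit 65) (nat_lit 4) (nat_lit 440) (nat_lit 320)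 (nat_lit 260)) (XT.lf (nat_lit 0) (nat_lit 40134243246) (nat_lit 76) (nat_lit 152407711629) (nat_lit 76) (nat_lit 151774337125) (nat_lit 64) (nat_lit 4) (nat_lit 65) (nat_lit 5) (nat_lit 65) (nat_lit 4) (nat_lit 441) (nat_lit 320) (nat_lit 259))) (XT.nd (nat_lit 78) (nat_lit 76) (nat_lit 0) (XT.lf (nat_lit 0) (nat_lit 33037424701) (nat_lit 152) (nat_lit 296930528437) (nat_lit 0) (nat_lit 32433798527) (nat_lit 62) (nat_lit 5) (nat_lit 64) (nat_lit 4) (nat_lit 62) (nat_lit 4) (nat_lit 442) (nat_lit 320) (nat_lit 258)) (XT.lf (nat_lit 0) (nat_lit 91063783869) (nat_lit 76) (nat_lit 145445128067) (nat_lit 76) (nat_lit 144841120076) (nat_lit 61) (nat_lit 4) (nat_lit 62) (nat_lit 5) (nat_lit 62) (nat_lit 4) (nat_lit 443) (nat_lit 320) (nat_lit 257)))))))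
noncomputable def xc37 : XT := (XT.nd (nat_lit 48906) (nat_lit 0) (nat_lit 5244) (XT.nd (nat_lit 48282) (nat_lit 0) (nat_lit 7600) (XT.nd (nat_lit 47970) (nat_lit 0) (nat_lit 8892) (XT.nd (nat_lit 156) (nat_lit 228) (nat_lit 0) (XT.nd (nat_lit 78) (nat_lit 76) (nat_lit 0) (XT.lf (nat_lit 0) (nat_lit 60575755792) (nat_lit 152) (nat_lit 280802026551) (nat_lit 0) (nat_lit 60000173388) (nat_lit 59) (nat_lit 5) (nat_lit 61) (nat_lit 4) (nat_lit 59) (nat_lit 4) (nat_lit 444) (nat_lit 320) (nat_lit 256)) (XT.lf (nat_lit 0) (nat_lit 151286243468) (nat_lit 76) (nat_lit 135845025540) (nat_lit 76) (nat_lit 135269131378) (nat_lit 58) (nat_lit 4) (nat_lit 59) (nat_lit 5) (nat_lit 59) (nat_lit 4) (nat_lit 445) (nat_lit 320) (nat_lit 255))) (XT.nd (nat_lit 78) (nat_lit 76) (nat_lit 0) (XT.lf (nat_lit 0) (nat_lit 93082681894) (nat_lit 152) (nat_lit 258962773171) (nat_lit 0) (nat_lit 92533936345) (nat_lit 56)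 (nat_lit 5) (nat_lit 58) (nat_lit 4) (nat_lit 56) (nat_lit 4) (nat_lit 446) (nat_lit 320) (nat_lit 254)) (XT.lf (nat_lit 0) (nat_lit 222266848914) (nat_lit 76) (nat_lit 123092101249) (nat_lit 76) (nat_lit 122543101145) (nat_lit 55) (nat_lit 4) (nat_lit 56) (nat_lit 5) (nat_lit 56) (nat_lit 4) (nat_lit 447) (nat_lit 320) (nat_lit 253)))) (XT.nd (nat_lit 156) (nat_lit 304) (nat_lit 0) (XT.nd (nat_lit 78) (nat_lit 228) (nat_lit 0) (XT.lf (nat_lit 0) (nat_lit 2819507348) (nat_lit 152) (nat_lit 3188740348) (nat_lit 0) (nat_lit 2819507348) (nat_lit 179) (nat_lit 5) (nat_lit 181) (nat_lit 4) (nat_lit 179) (nat_lit 4) (nat_lit 378) (nat_lit 321) (nat_lit 321)) (XT.lf (nat_lit 0) (nat_lit 1885702223) (nat_lit 152) (nat_lit 14878465194) (nat_lit 0) (nat_lit 1574713801) (nat_lit 176) (nat_lit 5) (nat_lit 178) (nat_lit 4) (nat_lit 176) (nat_lit 4) (nat_lit 379) (nat_lit 321) (nat_lit 320))) (XT.nd (nat_lit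 78) (nat_lit 228) (nat_lit 0) (XT.lf (nat_lit 0) (nat_lit 13721195214) (nat_lit 76) (nat_lit 2967176562) (nat_lit 76) (nat_lit 2368235896) (nat_lit 175) (nat_lit 4) (nat_lit 176) (nat_lit 5) (nat_lit 176) (nat_lit 4) (nat_lit 380) (nat_lit 321) (nat_lit 319)) (XT.lf (nat_lit 0) (nat_lit 4566373000) (nat_lit 76) (nat_lit 8035610624) (nat_lit 76) (nat_lit 7211264801) (nat_lit 172) (nat_lit 4) (nat_lit 173) (nat_lit 5) (nat_lit 173) (nat_lit 4) (nat_lit 381) (nat_lit 321) (nat_lit 318))))) (XT.nd (nat_lit 312) (nat_lit 608) (nat_lit 0) (XT.nd (nat_lit 156) (nat_lit 304) (nat_lit 0) (XT.nd (nat_lit 78) (nat_lit 228) (nat_lit 0) (XT.lf (nat_lit 0) (nat_lit 7980974821) (nat_lit 152) (nat_lit 5660224801) (nat_lit 0) (nat_lit 6971962803) (nat_lit 170) (nat_lit 5) (nat_lit 172) (nat_lit 4) (nat_lit 170) (nat_lit 4) (nat_lit 382) (nat_lit 321) (nat_lit 317)) (XT.lf (nat_lit 0) (nat_lit 2759331260) (nat_lit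 152) (nat_lit 17099849039) (nat_lit 0) (nat_lit 1600906446) (nat_lit 167) (nat_lit 5) (nat_lit 169) (nat_lit 4) (nat_lit 167) (nat_lit 4) (nat_lit 383) (nat_lit 321) (nat_lit 316))) (XT.nd (nat_lit 78) (nat_lit 228) (nat_lit 0) (XT.lf (nat_lit 0) (nat_lit 14781810932) (nat_lit 76) (nat_lit 4454511418) (nat_lit 76) (nat_lit 3113252357) (nat_lit 166) (nat_lit 4) (nat_lit 167) (nat_lit 5) (nat_lit 167) (nat_lit 4) (nat_lit 384) (nat_lit 321) (nat_lit 315)) (XT.lf (nat_lit 0) (nat_lit 2264054811) (nat_lit 76) (nat_lit 11231695676) (nat_lit 76) (nat_lit 9793076600) (nat_lit 163) (nat_lit 4) (nat_lit 164) (nat_lit 5) (nat_lit 164) (nat_lit 4) (nat_lit 385) (nat_lit 321) (nat_lit 314)))) (XT.nd (nat_lit 156) (nat_lit 380) (nat_lit 0) (XT.nd (nat_lit 78) (nat_lit 76) (nat_lit 0) (XT.lf (nat_lit 0) (nat_lit 7101743359) (nat_lit 152) (nat_lit 11588848470) (nat_lit 0) (nat_lit 5589452268) (nat_lit 161)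 (nat_lit 5) (nat_lit 163) (nat_lit 4) (nat_lit 161) (nat_lit 4) (nat_lit 386) (nat_lit 321) (nat_lit 313)) (XT.lf (nat_lit 0) (nat_lit 23476225678) (nat_lit 76) (nat_lit 1749601878) (nat_lit 76) (nat_lit 105664784) (nat_lit 160) (nat_lit 4) (nat_lit 161) (nat_lit 5) (nat_lit 161) (nat_lit 4) (nat_lit 387) (nat_lit 321) (nat_lit 312))) (XT.nd (nat_lit 78) (nat_lit 152) (nat_lit 0) (XT.lf (nat_lit 0) (nat_lit 8278031751) (nat_lit 76) (nat_lit 9917003440) (nat_lit 76) (nat_lit 8235259113) (nat_lit 157) (nat_lit 4) (nat_lit 158) (nat_lit 5) (nat_lit 158) (nat_lit 4) (nat_lit 388) (nat_lit 321) (nat_lit 311)) (XT.lf (nat_lit 0) (nat_lit 10283410321) (nat_lit 152) (nat_lit 8732297696) (nat_lit 0) (nat_lit 8579376966) (nat_lit 155) (nat_lit 5) (nat_lit 157) (nat_lit 4) (nat_lit 155) (nat_lit 4) (nat_lit 389) (nat_lit 321) (nat_lit 310)))))) (XT.nd (nat_lit 624) (nat_lit 1140) (nat_lit 0) (XT.nd (nat_lit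 312) (nat_lit 532) (nat_lit 0) (XT.nd (nat_lit 156) (nat_lit 380) (nat_lit 0) (XT.nd (nat_lit 78) (nat_lit 76) (nat_lit 0) (XT.lf (nat_lit 0) (nat_lit 1086772572) (nat_lit 76) (nat_lit 320834695) (nat_lit 152) (nat_lit 27423023037) (nat_lit 152) (nat_lit 5) (nat_lit 153) (nat_lit 5) (nat_lit 154) (nat_lit 4) (nat_lit 390) (nat_lit 321) (nat_lit 309)) (XT.lf (nat_lit 0) (nat_lit 11321993062) (nat_lit 76) (nat_lit 10297748620) (nat_lit 76) (nat_lit 8500996339) (nat_lit 151) (nat_lit 4) (nat_lit 152) (nat_lit 5) (nat_lit 152) (nat_lit 4) (nat_lit 391) (nat_lit 321) (nat_lit 308))) (XT.nd (nat_lit 78) (nat_lit 228) (nat_lit 0) (XT.lf (nat_lit 0) (nat_lit 11878788739) (nat_lit 152) (nat_lit 9515764438) (nat_lit 0) (nat_lit 10093885191) (nat_lit 149) (nat_lit 5) (nat_lit 151) (nat_lit 4) (nat_lit 149) (nat_lit 4) (nat_lit 392) (nat_lit 321) (nat_lit 307)) (XT.lf (nat_lit 0) (nat_lit 173754676) (nat_lit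 76) (nat_lit 814981448) (nat_lit 152) (nat_lit 31950534565) (nat_lit 146) (nat_lit 5) (nat_lit 147) (nat_lit 5) (nat_lit 148) (nat_lit 4) (nat_lit 393) (nat_lit 321) (nat_lit 306)))) (XT.nd (nat_lit 156) (nat_lit 304) (nat_lit 0) (XT.nd (nat_lit 78) (nat_lit 152) (nat_lit 0) (XT.lf (nat_lit 0) (nat_lit 10284995963) (nat_lit 76) (nat_lit 12996752933) (nat_lit 76) (nat_lit 11171658080) (nat_lit 145) (nat_lit 4) (nat_lit 146) (nat_lit 5) (nat_lit 146) (nat_lit 4) (nat_lit 394) (nat_lit 321) (nat_lit 305)) (XT.lf (nat_lit 0) (nat_lit 11330617779) (nat_lit 152) (nat_lit 15188811511) (nat_lit 0) (nat_lit 9539358201) (nat_lit 143) (nat_lit 5) (nat_lit 145) (nat_lit 4) (nat_lit 143) (nat_lit 4) (nat_lit 395) (nat_lit 321) (nat_lit 304))) (XT.nd (nat_lit 78) (nat_lit 228) (nat_lit 0) (XT.lf (nat_lit 0) (nat_lit 31914679746) (nat_lit 76) (nat_lit 3841713927) (nat_lit 76) (nat_lit 2001311755) (nat_lit 142)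 (nat_lit 4) (nat_lit 143) (nat_lit 5) (nat_lit 143) (nat_lit 4) (nat_lit 396) (nat_lit 321) (nat_lit 303)) (XT.lf (nat_lit 0) (nat_lit 3754969276) (nat_lit 76) (nat_lit 18789964846) (nat_lit 76) (nat_lit 16993865250) (nat_lit 139) (nat_lit 4) (nat_lit 140) (nat_lit 5) (nat_lit 140) (nat_lit 4) (nat_lit 397) (nat_lit 321) (nat_lit 302))))) (XT.nd (nat_lit 312) (nat_lit 608) (nat_lit 0) (XT.nd (nat_lit 156) (nat_lit 304) (nat_lit 0) (XT.nd (nat_lit 78) (nat_lit 76) (nat_lit 0) (XT.lf (nat_lit 0) (nat_lit 7919517975) (nat_lit 152) (nat_lit 27332801253) (nat_lit 0) (nat_lit 6170732097) (nat_lit 137) (nat_lit 5) (nat_lit 139) (nat_lit 4) (nat_lit 137) (nat_lit 4) (nat_lit 398) (nat_lit 321) (nat_lit 301)) (XT.lf (nat_lit 0) (nat_lit 24732713005) (nat_lit 76) (nat_lit 10229495046) (nat_lit 76) (nat_lit 8445325063) (nat_lit 136) (nat_lit 4) (nat_lit 137) (nat_lit 5) (nat_lit 137) (nat_lit 4) (nat_lit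 399) (nat_lit 321) (nat_lit 300))) (XT.nd (nat_lit 78) (nat_lit 152) (nat_lit 0) (XT.lf (nat_lit 0) (nat_lit 18747168128) (nat_lit 152) (nat_lit 9736040726) (nat_lit 0) (nat_lit 17016755705) (nat_lit 134) (nat_lit 5) (nat_lit 136) (nat_lit 4) (nat_lit 134) (nat_lit 4) (nat_lit 400) (nat_lit 321) (nat_lit 299)) (XT.lf (nat_lit 0) (nat_lit 744788518) (nat_lit 152) (nat_lit 232487548) (nat_lit 76) (nat_lit 46741510229) (nat_lit 132) (nat_lit 5) (nat_lit 134) (nat_lit 5) (nat_lit 133) (nat_lit 4) (nat_lit 401) (nat_lit 321) (nat_lit 298)))) (XT.nd (nat_lit 156) (nat_lit 304) (nat_lit 0) (XT.nd (nat_lit 78) (nat_lit 152) (nat_lit 0) (XT.lf (nat_lit 0) (nat_lit 9616848658) (nat_lit 76) (nat_lit 21059387321) (nat_lit 76) (nat_lit 19358382100) (nat_lit 130) (nat_lit 4) (nat_lit 131) (nat_lit 5) (nat_lit 131) (nat_lit 4) (nat_lit 402) (nat_lit 321) (nat_lit 297)) (XT.lf (nat_lit 0) (nat_lit 10892995224)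 (nat_lit 152) (nat_lit 32345952125) (nat_lit 0) (nat_lit 9250523240) (nat_lit 128) (nat_lit 5) (nat_lit 130) (nat_lit 4) (nat_lit 128) (nat_lit 4) (nat_lit 403) (nat_lit 321) (nat_lit 296))) (XT.nd (nat_lit 78) (nat_lit 228) (nat_lit 0) (XT.lf (nat_lit 0) (nat_lit 31047007072) (nat_lit 76) (nat_lit 12845401993) (nat_lit 76) (nat_lit 11182127222) (nat_lit 127) (nat_lit 4) (nat_lit 128) (nat_lit 5) (nat_lit 128) (nat_lit 4) (nat_lit 404) (nat_lit 321) (nat_lit 295)) (XT.nd (nat_lit 78) (nat_lit 76) (nat_lit 0) (XT.lf (nat_lit 0) (nat_lit 21998085448) (nat_lit 152) (nat_lit 15404432121) (nat_lit 0) (nat_lit 20395669626) (nat_lit 125) (nat_lit 5) (nat_lit 127) (nat_lit 4) (nat_lit 125) (nat_lit 4) (nat_lit 405) (nat_lit 321) (nat_lit 294)) (XT.lf (nat_lit 0) (nat_lit 54522228879) (nat_lit 76) (nat_lit 3889596654) (nat_lit 76) (nat_lit 2270195081) (nat_lit 124) (nat_lit 4) (nat_lit 125) (nat_lit 5)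 (nat_lit 125) (nat_lit 4) (nat_lit 406) (nat_lit 321) (nat_lit 293))))))))
noncomputable def xc38 : XT := (XT.nd (nat_lit 1248) (nat_lit 2052) (nat_lit 0) (XT.nd (nat_lit 624) (nat_lit 988) (nat_lit 0) (XT.nd (nat_lit 312) (nat_lit 456) (nat_lit 0) (XT.nd (nat_lit 156) (nat_lit 228) (nat_lit 0) (XT.nd (nat_lit 78) (nat_lit 152) (nat_lit 0) (XT.lf (nat_lit 0) (nat_lit 3231026215) (nat_lit 76) (nat_lit 31013433991) (nat_lit 76) (nat_lit 29456168163) (nat_lit 121) (nat_lit 4) (nat_lit 122) (nat_lit 5) (nat_lit 122) (nat_lit 4) (nat_lit 407) (nat_lit 321) (nat_lit 292)) (XT.lf (nat_lit 0) (nat_lit 7583014483) (nat_lit 152) (nat_lit 53226283560) (nat_lit 0) (nat_lit 6086695515) (nat_lit 119) (nat_lit 5) (nat_lit 121) (nat_lit 4) (nat_lit 119) (nat_lit 4) (nat_lit 408) (nat_lit 321) (nat_lit 291))) (XT.nd (nat_lit 78) (nat_lit 152) (nat_lit 0) (XT.lf (nat_lit 0) (nat_lit 24305075747) (nat_lit 76) (nat_lit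 23726209652) (nat_lit 76) (nat_lit 22217660447) (nat_lit 118) (nat_lit 4) (nat_lit 119) (nat_lit 5) (nat_lit 119) (nat_lit 4) (nat_lit 409) (nat_lit 321) (nat_lit 290)) (XT.lf (nat_lit 0) (nat_lit 18559234930) (nat_lit 152) (nat_lit 38120976693) (nat_lit 0) (nat_lit 17111736360) (nat_lit 116) (nat_lit 5) (nat_lit 118) (nat_lit 4) (nat_lit 116) (nat_lit 4) (nat_lit 410) (nat_lit 321) (nat_lit 289)))) (XT.nd (nat_lit 156) (nat_lit 228) (nat_lit 0) (XT.nd (nat_lit 78) (nat_lit 152) (nat_lit 0) (XT.lf (nat_lit 0) (nat_lit 47629709803) (nat_lit 76) (nat_lit 15676811067) (nat_lit 76) (nat_lit 14219326348) (nat_lit 115) (nat_lit 4) (nat_lit 116) (nat_lit 5) (nat_lit 116) (nat_lit 4) (nat_lit 411) (nat_lit 321) (nat_lit 288)) (XT.lf (nat_lit 0) (nat_lit 30739002767) (nat_lit 152) (nat_lit 21372538644) (nat_lit 0) (nat_lit 29342115953) (nat_lit 113) (nat_lit 5) (nat_lit 115) (nat_lit 4) (nat_lit 113)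 (nat_lit 4) (nat_lit 412) (nat_lit 321) (nat_lit 287))) (XT.nd (nat_lit 78) (nat_lit 152) (nat_lit 0) (XT.lf (nat_lit 0) (nat_lit 73566076695) (nat_lit 76) (nat_lit 6724140661) (nat_lit 76) (nat_lit 5319100025) (nat_lit 112) (nat_lit 4) (nat_lit 113) (nat_lit 5) (nat_lit 113) (nat_lit 4) (nat_lit 413) (nat_lit 321) (nat_lit 286)) (XT.lf (nat_lit 0) (nat_lit 44312799580) (nat_lit 152) (nat_lit 2682853362) (nat_lit 0) (nat_lit 42967475321) (nat_lit 110) (nat_lit 5) (nat_lit 112) (nat_lit 4) (nat_lit 110) (nat_lit 4) (nat_lit 414) (nat_lit 321) (nat_lit 285))))) (XT.nd (nat_lit 312) (nat_lit 456) (nat_lit 0) (XT.nd (nat_lit 156) (nat_lit 228) (nat_lit 0) (XT.nd (nat_lit 78) (nat_lit 76) (nat_lit 0) (XT.lf (nat_lit 0) (nat_lit 4676064713) (nat_lit 152) (nat_lit 86508649102) (nat_lit 0) (nat_lit 3388462844) (nat_lit 107) (nat_lit 5) (nat_lit 109) (nat_lit 4) (nat_lit 107) (nat_lit 4) (nat_lit 415)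 (nat_lit 321) (nat_lit 284)) (XT.lf (nat_lit 0) (nat_lit 18889278548) (nat_lit 76) (nat_lit 40900390843) (nat_lit 76) (nat_lit 39606917984) (nat_lit 106) (nat_lit 4) (nat_lit 107) (nat_lit 5) (nat_lit 107) (nat_lit 4) (nat_lit 416) (nat_lit 321) (nat_lit 283))) (XT.nd (nat_lit 78) (nat_lit 76) (nat_lit 0) (XT.lf (nat_lit 0) (nat_lit 16066671681) (nat_lit 152) (nat_lit 73606559277) (nat_lit 0) (nat_lit 14829615526) (nat_lit 104) (nat_lit 5) (nat_lit 106) (nat_lit 4) (nat_lit 104) (nat_lit 4) (nat_lit 417) (nat_lit 321) (nat_lit 282)) (XT.lf (nat_lit 0) (nat_lit 43296174529) (nat_lit 76) (nat_lit 33905528794) (nat_lit 76) (nat_lit 32663678898) (nat_lit 103) (nat_lit 4) (nat_lit 104) (nat_lit 5) (nat_lit 104) (nat_lit 4) (nat_lit 418) (nat_lit 321) (nat_lit 281)))) (XT.nd (nat_lit 156) (nat_lit 228) (nat_lit 0) (XT.nd (nat_lit 78) (nat_lit 76) (nat_lit 0) (XT.lf (nat_lit 0) (nat_lit 28928074831)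 (nat_lit 152) (nat_lit 58854195393) (nat_lit 0) (nat_lit 27741133359) (nat_lit 101) (nat_lit 5) (nat_lit 103) (nat_lit 4) (nat_lit 101) (nat_lit 4) (nat_lit 419) (nat_lit 321) (nat_lit 280)) (XT.lf (nat_lit 0) (nat_lit 70893111393) (nat_lit 76) (nat_lit 25890498265) (nat_lit 76) (nat_lit 24699642641) (nat_lit 100) (nat_lit 4) (nat_lit 101) (nat_lit 5) (nat_lit 101) (nat_lit 4) (nat_lit 420) (nat_lit 321) (nat_lit 279))) (XT.nd (nat_lit 78) (nat_lit 76) (nat_lit 0) (XT.lf (nat_lit 0) (nat_lit 43494740090) (nat_lit 152) (nat_lit 41900304827) (nat_lit 0) (nat_lit 42357140243) (nat_lit 98) (nat_lit 5) (nat_lit 100) (nat_lit 4) (nat_lit 98) (nat_lit 4) (nat_lit 421) (nat_lit 321) (nat_lit 278)) (XT.lf (nat_lit 0) (nat_lit 102181944184) (nat_lit 76) (nat_lit 16666393838) (nat_lit 76) (nat_lit 15525598034) (nat_lit 97) (nat_lit 4) (nat_lit 98) (nat_lit 5) (nat_lit 98) (nat_lit 4) (nat_lit 422) (nat_lit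 321) (nat_lit 277)))))) (XT.nd (nat_lit 624) (nat_lit 988) (nat_lit 0) (XT.nd (nat_lit 312) (nat_lit 456) (nat_lit 0) (XT.nd (nat_lit 156) (nat_lit 380) (nat_lit 0) (XT.nd (nat_lit 78) (nat_lit 76) (nat_lit 0) (XT.lf (nat_lit 0) (nat_lit 60031642628) (nat_lit 152) (nat_lit 22345316648) (nat_lit 0) (nat_lit 58942352129) (nat_lit 95) (nat_lit 5) (nat_lit 97) (nat_lit 4) (nat_lit 95) (nat_lit 4) (nat_lit 423) (nat_lit 321) (nat_lit 276)) (XT.lf (nat_lit 0) (nat_lit 137729999980) (nat_lit 76) (nat_lit 6018276587) (nat_lit 76) (nat_lit 4926376547) (nat_lit 94) (nat_lit 4) (nat_lit 95) (nat_lit 5) (nat_lit 95) (nat_lit 4) (nat_lit 424) (nat_lit 321) (nat_lit 275))) (XT.nd (nat_lit 78) (nat_lit 152) (nat_lit 0) (XT.lf (nat_lit 0) (nat_lit 274044810) (nat_lit 76) (nat_lit 78568509221) (nat_lit 76) (nat_lit 77526303238) (nat_lit 91) (nat_lit 4) (nat_lit 92) (nat_lit 5) (nat_lit 92) (nat_lit 4) (nat_lit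 425) (nat_lit 321) (nat_lit 274)) (XT.lf (nat_lit 0) (nat_lit 7429646259) (nat_lit 152) (nat_lit 150651050497) (nat_lit 0) (nat_lit 6435039871) (nat_lit 89) (nat_lit 5) (nat_lit 91) (nat_lit 4) (nat_lit 89) (nat_lit 4) (nat_lit 426) (nat_lit 321) (nat_lit 273)))) (XT.nd (nat_lit 156) (nat_lit 228) (nat_lit 0) (XT.nd (nat_lit 78) (nat_lit 152) (nat_lit 0) (XT.lf (nat_lit 0) (nat_lit 27322869791) (nat_lit 76) (nat_lit 73356872497) (nat_lit 76) (nat_lit 72360387163) (nat_lit 88) (nat_lit 4) (nat_lit 89) (nat_lit 5) (nat_lit 89) (nat_lit 4) (nat_lit 427) (nat_lit 321) (nat_lit 272)) (XT.lf (nat_lit 0) (nat_lit 21881310783) (nat_lit 152) (nat_lit 139252066325) (nat_lit 0) (nat_lit 20930620212) (nat_lit 86) (nat_lit 5) (nat_lit 88) (nat_lit 4) (nat_lit 86) (nat_lit 4) (nat_lit 428) (nat_lit 321) (nat_lit 271))) (XT.nd (nat_lit 78) (nat_lit 152) (nat_lit 0) (XT.lf (nat_lit 0) (nat_lit 58669468746) (nat_lit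 76) (nat_lit 66905417000) (nat_lit 76) (nat_lit 65953192246) (nat_lit 85) (nat_lit 4) (nat_lit 86) (nat_lit 5) (nat_lit 86) (nat_lit 4) (nat_lit 429) (nat_lit 321) (nat_lit 270)) (XT.lf (nat_lit 0) (nat_lit 38634307236) (nat_lit 152) (nat_lit 125162648975) (nat_lit 0) (nat_lit 37726073622) (nat_lit 83) (nat_lit 5) (nat_lit 85) (nat_lit 4) (nat_lit 83) (nat_lit 4) (nat_lit 430) (nat_lit 321) (nat_lit 269))))) (XT.nd (nat_lit 312) (nat_lit 532) (nat_lit 0) (XT.nd (nat_lit 156) (nat_lit 228) (nat_lit 0) (XT.nd (nat_lit 78) (nat_lit 152) (nat_lit 0) (XT.lf (nat_lit 0) (nat_lit 95003948630) (nat_lit 76) (nat_lit 58967202178) (nat_lit 76) (nat_lit 58057715882) (nat_lit 82) (nat_lit 4) (nat_lit 83) (nat_lit 5) (nat_lit 83) (nat_lit 4) (nat_lit 431) (nat_lit 321) (nat_lit 268)) (XT.lf (nat_lit 0) (nat_lit 58053853921) (nat_lit 152) (nat_lit 107858707821) (nat_lit 0) (nat_lit 57186571839) (nat_lit 80)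 (nat_lit 5) (nat_lit 82) (nat_lit 4) (nat_lit 80) (nat_lit 4) (nat_lit 432) (nat_lit 321) (nat_lit 267))) (XT.nd (nat_lit 78) (nat_lit 152) (nat_lit 0) (XT.lf (nat_lit 0) (nat_lit 137110427072) (nat_lit 76) (nat_lit 49258929027) (nat_lit 76) (nat_lit 48390624114) (nat_lit 79) (nat_lit 4) (nat_lit 80) (nat_lit 5) (nat_lit 80) (nat_lit 4) (nat_lit 433) (nat_lit 321) (nat_lit 266)) (XT.lf (nat_lit 0) (nat_lit 80554814201) (nat_lit 152) (nat_lit 86739251341) (nat_lit 0) (nat_lit 79726955174) (nat_lit 77) (nat_lit 5) (nat_lit 79) (nat_lit 4) (nat_lit 77) (nat_lit 4) (nat_lit 434) (nat_lit 321) (nat_lit 265)))) (XT.nd (nat_lit 156) (nat_lit 304) (nat_lit 0) (XT.nd (nat_lit 78) (nat_lit 152) (nat_lit 0) (XT.lf (nat_lit 0) (nat_lit 185879485927) (nat_lit 76) (nat_lit 37455873056) (nat_lit 76) (nat_lit 36627178874) (nat_lit 76) (nat_lit 4) (nat_lit 77) (nat_lit 5) (nat_lit 77) (nat_lit 4) (nat_lit 435)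 (nat_lit 321) (nat_lit 264)) (XT.lf (nat_lit 0) (nat_lit 106608258542) (nat_lit 152) (nat_lit 61115699714) (nat_lit 0) (nat_lit 105818289519) (nat_lit 74) (nat_lit 5) (nat_lit 76) (nat_lit 4) (nat_lit 74) (nat_lit 4) (nat_lit 436) (nat_lit 321) (nat_lit 263))) (XT.nd (nat_lit 78) (nat_lit 228) (nat_lit 0) (XT.lf (nat_lit 0) (nat_lit 242322201283) (nat_lit 76) (nat_lit 23186154365) (nat_lit 76) (nat_lit 22395503427) (nat_lit 73) (nat_lit 4) (nat_lit 74) (nat_lit 5) (nat_lit 74) (nat_lit 4) (nat_lit 437) (nat_lit 321) (nat_lit 262)) (XT.nd (nat_lit 78) (nat_lit 76) (nat_lit 0) (XT.lf (nat_lit 0) (nat_lit 136748855360) (nat_lit 152) (nat_lit 30199803319) (nat_lit 0) (nat_lit 135995253131) (nat_lit 71) (nat_lit 5) (nat_lit 73) (nat_lit 4) (nat_lit 71) (nat_lit 4) (nat_lit 438) (nat_lit 321) (nat_lit 261)) (XT.lf (nat_lit 0) (nat_lit 307585945355) (nat_lit 76) (nat_lit 6024260911) (nat_lit 76) (nat_lit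 5270101890) (nat_lit 70) (nat_lit 4) (nat_lit 71) (nat_lit 5) (nat_lit 71) (nat_lit 4) (nat_lit 439) (nat_lit 321) (nat_lit 260))))))))
noncomputable def xc39 : XT := (XT.nd (nat_lit 48750) (nat_lit 0) (nat_lit 5928) (XT.nd (nat_lit 48126) (nat_lit 0) (nat_lit 8512) (XT.nd (nat_lit 312) (nat_lit 456) (nat_lit 0) (XT.nd (nat_lit 156) (nat_lit 228) (nat_lit 0) (XT.nd (nat_lit 78) (nat_lit 152) (nat_lit 0) (XT.lf (nat_lit 0) (nat_lit 7138485523) (nat_lit 76) (nat_lit 164556159699) (nat_lit 76) (nat_lit 163837422013) (nat_lit 67) (nat_lit 4) (nat_lit 68) (nat_lit 5) (nat_lit 68) (nat_lit 4) (nat_lit 440) (nat_lit 321) (nat_lit 259)) (XT.lf (nat_lit 0) (nat_lit 15462204653) (nat_lit 152) (nat_lit 322933372146) (nat_lit 0) (nat_lit 14777259592) (nat_lit 65) (nat_lit 5) (nat_lit 67) (nat_lit 4) (nat_lit 65) (nat_lit 4) (nat_lit 441) (nat_lit 321) (nat_lit 258))) (XT.nd (nat_lit 78) (nat_lit 152) (nat_lit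 0) (XT.lf (nat_lit 0) (nat_lit 52938412987) (nat_lit 76) (nat_lit 159687255247) (nat_lit 76) (nat_lit 159001909279) (nat_lit 64) (nat_lit 4) (nat_lit 65) (nat_lit 5) (nat_lit 65) (nat_lit 4) (nat_lit 442) (nat_lit 321) (nat_lit 257)) (XT.lf (nat_lit 0) (nat_lit 40305323013) (nat_lit 152) (nat_lit 311205064535) (nat_lit 0) (nat_lit 39652259034) (nat_lit 62) (nat_lit 5) (nat_lit 64) (nat_lit 4) (nat_lit 62) (nat_lit 4) (nat_lit 443) (nat_lit 321) (nat_lit 256)))) (XT.nd (nat_lit 156) (nat_lit 228) (nat_lit 0) (XT.nd (nat_lit 78) (nat_lit 152) (nat_lit 0) (XT.lf (nat_lit 0) (nat_lit 107416807586) (nat_lit 76) (nat_lit 152436711794) (nat_lit 76) (nat_lit 151783320469) (nat_lit 61) (nat_lit 4) (nat_lit 62) (nat_lit 5) (nat_lit 62) (nat_lit 4) (nat_lit 444) (nat_lit 321) (nat_lit 255)) (XT.lf (nat_lit 0) (nat_lit 69793301629) (nat_lit 152) (nat_lit 294305580780) (nat_lit 0) (nat_lit 69170735511) (nat_lit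 59) (nat_lit 5) (nat_lit 61) (nat_lit 4) (nat_lit 59) (nat_lit 4) (nat_lit 445) (nat_lit 321) (nat_lit 254))) (XT.nd (nat_lit 78) (nat_lit 152) (nat_lit 0) (XT.lf (nat_lit 0) (nat_lit 171960333742) (nat_lit 76) (nat_lit 142322928739) (nat_lit 76) (nat_lit 141700095339) (nat_lit 58) (nat_lit 4) (nat_lit 59) (nat_lit 5) (nat_lit 59) (nat_lit 4) (nat_lit 446) (nat_lit 321) (nat_lit 253)) (XT.lf (nat_lit 0) (nat_lit 104661255036) (nat_lit 152) (nat_lit 271210045085) (nat_lit 0) (nat_lit 104067844672) (nat_lit 56) (nat_lit 5) (nat_lit 58) (nat_lit 4) (nat_lit 56) (nat_lit 4) (nat_lit 447) (nat_lit 321) (nat_lit 252))))) (XT.nd (nat_lit 312) (nat_lit 608) (nat_lit 0) (XT.nd (nat_lit 156) (nat_lit 380) (nat_lit 0) (XT.nd (nat_lit 78) (nat_lit 228) (nat_lit 0) (XT.lf (nat_lit 0) (nat_lit 4329003657) (nat_lit 76) (nat_lit 1931213668) (nat_lit 76) (nat_lit 1931213668) (nat_lit 184) (nat_lit 4) (nat_lit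 185) (nat_lit 5) (nat_lit 185) (nat_lit 4) (nat_lit 376) (nat_lit 322) (nat_lit 322)) (XT.lf (nat_lit 0) (nat_lit 1169019835) (nat_lit 76) (nat_lit 8106184899) (nat_lit 76) (nat_lit 7735890984) (nat_lit 181) (nat_lit 4) (nat_lit 182) (nat_lit 5) (nat_lit 182) (nat_lit 4) (nat_lit 377) (nat_lit 322) (nat_lit 321))) (XT.nd (nat_lit 78) (nat_lit 228) (nat_lit 0) (XT.lf (nat_lit 0) (nat_lit 5633881562) (nat_lit 152) (nat_lit 7084835380) (nat_lit 0) (nat_lit 4954682846) (nat_lit 179) (nat_lit 5) (nat_lit 181) (nat_lit 4) (nat_lit 179) (nat_lit 4) (nat_lit 378) (nat_lit 322) (nat_lit 320)) (XT.lf (nat_lit 0) (nat_lit 1464330058) (nat_lit 152) (nat_lit 16382891248) (nat_lit 0) (nat_lit 529521895) (nat_lit 176) (nat_lit 5) (nat_lit 178) (nat_lit 4) (nat_lit 176) (nat_lit 4) (nat_lit 379) (nat_lit 322) (nat_lit 319)))) (XT.nd (nat_lit 156) (nat_lit 304) (nat_lit 0) (XT.nd (nat_lit 78) (nat_lit 228) (nat_lit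 0) (XT.lf (nat_lit 0) (nat_lit 11475177228) (nat_lit 76) (nat_lit 4419665442) (nat_lit 76) (nat_lit 3218234832) (nat_lit 175) (nat_lit 4) (nat_lit 176) (nat_lit 5) (nat_lit 176) (nat_lit 4) (nat_lit 380) (nat_lit 322) (nat_lit 318)) (XT.lf (nat_lit 0) (nat_lit 1379350738) (nat_lit 76) (nat_lit 9946516803) (nat_lit 76) (nat_lit 8567180378) (nat_lit 172) (nat_lit 4) (nat_lit 173) (nat_lit 5) (nat_lit 173) (nat_lit 4) (nat_lit 381) (nat_lit 322) (nat_lit 317))) (XT.nd (nat_lit 78) (nat_lit 152) (nat_lit 0) (XT.lf (nat_lit 0) (nat_lit 6235635445) (nat_lit 152) (nat_lit 9765378363) (nat_lit 0) (nat_lit 4714647671) (nat_lit 170) (nat_lit 5) (nat_lit 172) (nat_lit 4) (nat_lit 170) (nat_lit 4) (nat_lit 382) (nat_lit 322) (nat_lit 316)) (XT.lf (nat_lit 0) (nat_lit 469543422) (nat_lit 152) (nat_lit 750399716) (nat_lit 76) (nat_lit 20369139747) (nat_lit 168) (nat_lit 5) (nat_lit 170) (nat_lit 5) (nat_lit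 169) (nat_lit 4) (nat_lit 383) (nat_lit 322) (nat_lit 315)))))) (XT.nd (nat_lit 624) (nat_lit 1368) (nat_lit 0) (XT.nd (nat_lit 312) (nat_lit 608) (nat_lit 0) (XT.nd (nat_lit 156) (nat_lit 304) (nat_lit 0) (XT.nd (nat_lit 78) (nat_lit 152) (nat_lit 0) (XT.lf (nat_lit 0) (nat_lit 8678548456) (nat_lit 76) (nat_lit 7811759364) (nat_lit 76) (nat_lit 6011074362) (nat_lit 166) (nat_lit 4) (nat_lit 167) (nat_lit 5) (nat_lit 167) (nat_lit 4) (nat_lit 384) (nat_lit 322) (nat_lit 314)) (XT.lf (nat_lit 0) (nat_lit 10164531939) (nat_lit 152) (nat_lit 5004364753) (nat_lit 0) (nat_lit 8300307274) (nat_lit 164) (nat_lit 5) (nat_lit 166) (nat_lit 4) (nat_lit 164) (nat_lit 4) (nat_lit 385) (nat_lit 322) (nat_lit 313))) (XT.nd (nat_lit 78) (nat_lit 76) (nat_lit 0) (XT.lf (nat_lit 0) (nat_lit 3090527173) (nat_lit 152) (nat_lit 20219806677) (nat_lit 0) (nat_lit 1183429106) (nat_lit 161) (nat_lit 5) (nat_lit 163)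 (nat_lit 4) (nat_lit 161) (nat_lit 4) (nat_lit 386) (nat_lit 322) (nat_lit 312)) (XT.lf (nat_lit 0) (nat_lit 13898761564) (nat_lit 76) (nat_lit 6849382751) (nat_lit 76) (nat_lit 4820390236) (nat_lit 160) (nat_lit 4) (nat_lit 161) (nat_lit 5) (nat_lit 161) (nat_lit 4) (nat_lit 387) (nat_lit 322) (nat_lit 311)))) (XT.nd (nat_lit 156) (nat_lit 228) (nat_lit 0) (XT.nd (nat_lit 78) (nat_lit 228) (nat_lit 0) (XT.lf (nat_lit 0) (nat_lit 12938357285) (nat_lit 152) (nat_lit 2868809625) (nat_lit 0) (nat_lit 10898492765) (nat_lit 158) (nat_lit 5) (nat_lit 160) (nat_lit 4) (nat_lit 158) (nat_lit 4) (nat_lit 388) (nat_lit 322) (nat_lit 310)) (XT.lf (nat_lit 0) (nat_lit 4270400921) (nat_lit 152) (nat_lit 21404385436) (nat_lit 0) (nat_lit 2232883834) (nat_lit 155) (nat_lit 5) (nat_lit 157) (nat_lit 4) (nat_lit 155) (nat_lit 4) (nat_lit 389) (nat_lit 322) (nat_lit 309))) (XT.nd (nat_lit 78) (nat_lit 152) (nat_lit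 0) (XT.lf (nat_lit 0) (nat_lit 16177198693) (nat_lit 76) (nat_lit 7559620471) (nat_lit 76) (nat_lit 5434335817) (nat_lit 154) (nat_lit 4) (nat_lit 155) (nat_lit 5) (nat_lit 155) (nat_lit 4) (nat_lit 390) (nat_lit 322) (nat_lit 308)) (XT.lf (nat_lit 0) (nat_lit 14137863840) (nat_lit 152) (nat_lit 4331947716) (nat_lit 0) (nat_lit 12036386773) (nat_lit 152) (nat_lit 5) (nat_lit 154) (nat_lit 4) (nat_lit 152) (nat_lit 4) (nat_lit 391) (nat_lit 322) (nat_lit 307))))) (XT.nd (nat_lit 312) (nat_lit 760) (nat_lit 0) (XT.nd (nat_lit 156) (nat_lit 304) (nat_lit 0) (XT.nd (nat_lit 78) (nat_lit 76) (nat_lit 0) (XT.lf (nat_lit 0) (nat_lit 3480894070) (nat_lit 152) (nat_lit 27027027685) (nat_lit 0) (nat_lit 1411236506) (nat_lit 149) (nat_lit 5) (nat_lit 151) (nat_lit 4) (nat_lit 149) (nat_lit 4) (nat_lit 392) (nat_lit 322) (nat_lit 306)) (XT.lf (nat_lit 0) (nat_lit 14417129957) (nat_lit 76) (nat_lit 10557967978)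 (nat_lit 76) (nat_lit 8425115199) (nat_lit 148) (nat_lit 4) (nat_lit 149) (nat_lit 5) (nat_lit 149) (nat_lit 4) (nat_lit 393) (nat_lit 322) (nat_lit 305))) (XT.nd (nat_lit 78) (nat_lit 152) (nat_lit 0) (XT.lf (nat_lit 0) (nat_lit 13214009898) (nat_lit 152) (nat_lit 10626099870) (nat_lit 0) (nat_lit 11126993834) (nat_lit 146) (nat_lit 5) (nat_lit 148) (nat_lit 4) (nat_lit 146) (nat_lit 4) (nat_lit 394) (nat_lit 322) (nat_lit 304)) (XT.lf (nat_lit 0) (nat_lit 140172493) (nat_lit 152) (nat_lit 1851262177) (nat_lit 76) (nat_lit 34636693824) (nat_lit 144) (nat_lit 5) (nat_lit 146) (nat_lit 5) (nat_lit 145) (nat_lit 4) (nat_lit 395) (nat_lit 322) (nat_lit 303)))) (XT.nd (nat_lit 156) (nat_lit 456) (nat_lit 0) (XT.nd (nat_lit 78) (nat_lit 152) (nat_lit 0) (XT.lf (nat_lit 0) (nat_lit 7226182255) (nat_lit 76) (nat_lit 16609820403) (nat_lit 76) (nat_lit 14527541059) (nat_lit 142) (nat_lit 4) (nat_lit 143)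 (nat_lit 5) (nat_lit 143) (nat_lit 4) (nat_lit 396) (nat_lit 322) (nat_lit 302)) (XT.lf (nat_lit 0) (nat_lit 9458210016) (nat_lit 152) (nat_lit 23309315487) (nat_lit 0) (nat_lit 7434961255) (nat_lit 140) (nat_lit 5) (nat_lit 142) (nat_lit 4) (nat_lit 140) (nat_lit 4) (nat_lit 397) (nat_lit 322) (nat_lit 301))) (XT.nd (nat_lit 78) (nat_lit 380) (nat_lit 0) (XT.lf (nat_lit 0) (nat_lit 26910028275) (nat_lit 76) (nat_lit 8645952268) (nat_lit 76) (nat_lit 6585550195) (nat_lit 139) (nat_lit 4) (nat_lit 140) (nat_lit 5) (nat_lit 140) (nat_lit 4) (nat_lit 398) (nat_lit 322) (nat_lit 300)) (XT.nd (nat_lit 78) (nat_lit 228) (nat_lit 0) (XT.lf (nat_lit 0) (nat_lit 19624263681) (nat_lit 152) (nat_lit 6929859605) (nat_lit 0) (nat_lit 17629212932) (nat_lit 137) (nat_lit 5) (nat_lit 139) (nat_lit 4) (nat_lit 137) (nat_lit 4) (nat_lit 399) (nat_lit 322) (nat_lit 299)) (XT.lf (nat_lit 0) (nat_lit 1964838849)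 (nat_lit 152) (nat_lit 44346825041) (nat_lit 0) (nat_lit 35898928) (nat_lit 134) (nat_lit 5) (nat_lit 136) (nat_lit 4) (nat_lit 134) (nat_lit 4) (nat_lit 400) (nat_lit 322) (nat_lit 298))))))))
noncomputable def xc40 : XT := (XT.nd (nat_lit 1248) (nat_lit 1900) (nat_lit 0) (XT.nd (nat_lit 624) (nat_lit 1064) (nat_lit 0) (XT.nd (nat_lit 312) (nat_lit 532) (nat_lit 0) (XT.nd (nat_lit 156) (nat_lit 228) (nat_lit 0) (XT.nd (nat_lit 78) (nat_lit 152) (nat_lit 0) (XT.lf (nat_lit 0) (nat_lit 11200056078) (nat_lit 76) (nat_lit 19681922591) (nat_lit 76) (nat_lit 17726231200) (nat_lit 133) (nat_lit 4) (nat_lit 134) (nat_lit 5) (nat_lit 134) (nat_lit 4) (nat_lit 401) (nat_lit 322) (nat_lit 297)) (XT.lf (nat_lit 0) (nat_lit 11457911988) (nat_lit 152) (nat_lit 29973941793) (nat_lit 0) (nat_lit 9571758397) (nat_lit 131) (nat_lit 5) (nat_lit 133) (nat_lit 4) (nat_lit 131) (nat_lit 4) (nat_lit 402) (nat_lit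 322) (nat_lit 296))) (XT.nd (nat_lit 78) (nat_lit 152) (nat_lit 0) (XT.lf (nat_lit 0) (nat_lit 31243954177) (nat_lit 76) (nat_lit 12095487269) (nat_lit 76) (nat_lit 10187490750) (nat_lit 130) (nat_lit 4) (nat_lit 131) (nat_lit 5) (nat_lit 131) (nat_lit 4) (nat_lit 403) (nat_lit 322) (nat_lit 295)) (XT.lf (nat_lit 0) (nat_lit 21850567110) (nat_lit 152) (nat_lit 14319588785) (nat_lit 0) (nat_lit 20014165728) (nat_lit 128) (nat_lit 5) (nat_lit 130) (nat_lit 4) (nat_lit 128) (nat_lit 4) (nat_lit 404) (nat_lit 322) (nat_lit 294)))) (XT.nd (nat_lit 156) (nat_lit 228) (nat_lit 0) (XT.nd (nat_lit 78) (nat_lit 228) (nat_lit 0) (XT.lf (nat_lit 0) (nat_lit 53248946112) (nat_lit 76) (nat_lit 3801723065) (nat_lit 76) (nat_lit 1947486644) (nat_lit 127) (nat_lit 4) (nat_lit 128) (nat_lit 5) (nat_lit 128) (nat_lit 4) (nat_lit 405) (nat_lit 322) (nat_lit 293)) (XT.lf (nat_lit 0) (nat_lit 2944825802) (nat_lit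 76) (nat_lit 30390018872) (nat_lit 76) (nat_lit 28608351877) (nat_lit 124) (nat_lit 4) (nat_lit 125) (nat_lit 5) (nat_lit 125) (nat_lit 4) (nat_lit 406) (nat_lit 322) (nat_lit 292))) (XT.nd (nat_lit 78) (nat_lit 76) (nat_lit 0) (XT.lf (nat_lit 0) (nat_lit 7179187927) (nat_lit 152) (nat_lit 52413188921) (nat_lit 0) (nat_lit 5468493129) (nat_lit 122) (nat_lit 5) (nat_lit 124) (nat_lit 4) (nat_lit 122) (nat_lit 4) (nat_lit 407) (nat_lit 322) (nat_lit 291)) (XT.lf (nat_lit 0) (nat_lit 22520539824) (nat_lit 76) (nat_lit 23767243523) (nat_lit 76) (nat_lit 22043706976) (nat_lit 121) (nat_lit 4) (nat_lit 122) (nat_lit 5) (nat_lit 122) (nat_lit 4) (nat_lit 408) (nat_lit 322) (nat_lit 290))))) (XT.nd (nat_lit 312) (nat_lit 608) (nat_lit 0) (XT.nd (nat_lit 156) (nat_lit 228) (nat_lit 0) (XT.nd (nat_lit 78) (nat_lit 76) (nat_lit 0) (XT.lf (nat_lit 0) (nat_lit 17382032600) (nat_lit 152) (nat_lit 38676776667)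 (nat_lit 0) (nat_lit 15729244928) (nat_lit 119) (nat_lit 5) (nat_lit 121) (nat_lit 4) (nat_lit 119) (nat_lit 4) (nat_lit 409) (nat_lit 322) (nat_lit 289)) (XT.lf (nat_lit 0) (nat_lit 44239735592) (nat_lit 76) (nat_lit 16426391065) (nat_lit 76) (nat_lit 14763117936) (nat_lit 118) (nat_lit 4) (nat_lit 119) (nat_lit 5) (nat_lit 119) (nat_lit 4) (nat_lit 410) (nat_lit 322) (nat_lit 288))) (XT.nd (nat_lit 78) (nat_lit 76) (nat_lit 0) (XT.lf (nat_lit 0) (nat_lit 28731204637) (nat_lit 152) (nat_lit 23391849085) (nat_lit 0) (nat_lit 27137888555) (nat_lit 116) (nat_lit 5) (nat_lit 118) (nat_lit 4) (nat_lit 116) (nat_lit 4) (nat_lit 411) (nat_lit 322) (nat_lit 287)) (XT.lf (nat_lit 0) (nat_lit 68446247100) (nat_lit 76) (nat_lit 8234041592) (nat_lit 76) (nat_lit 6632163997) (nat_lit 115) (nat_lit 4) (nat_lit 116) (nat_lit 5) (nat_lit 116) (nat_lit 4) (nat_lit 412) (nat_lit 322) (nat_lit 286)))) (XT.nd (nat_lit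 156) (nat_lit 228) (nat_lit 0) (XT.nd (nat_lit 78) (nat_lit 228) (nat_lit 0) (XT.lf (nat_lit 0) (nat_lit 41408166397) (nat_lit 152) (nat_lit 6276262533) (nat_lit 0) (nat_lit 39875018852) (nat_lit 113) (nat_lit 5) (nat_lit 115) (nat_lit 4) (nat_lit 113) (nat_lit 4) (nat_lit 413) (nat_lit 322) (nat_lit 285)) (XT.lf (nat_lit 0) (nat_lit 2492599045) (nat_lit 152) (nat_lit 88541479235) (nat_lit 0) (nat_lit 1025800823) (nat_lit 110) (nat_lit 5) (nat_lit 112) (nat_lit 4) (nat_lit 110) (nat_lit 4) (nat_lit 414) (nat_lit 322) (nat_lit 284))) (XT.nd (nat_lit 78) (nat_lit 152) (nat_lit 0) (XT.lf (nat_lit 0) (nat_lit 13418401046) (nat_lit 76) (nat_lit 42408151886) (nat_lit 76) (nat_lit 40935189123) (nat_lit 109) (nat_lit 4) (nat_lit 110) (nat_lit 5) (nat_lit 110) (nat_lit 4) (nat_lit 415) (nat_lit 322) (nat_lit 283)) (XT.lf (nat_lit 0) (nat_lit 12970119024) (nat_lit 152) (nat_lit 77211052067) (nat_lit 0)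 (nat_lit 11561861243) (nat_lit 107) (nat_lit 5) (nat_lit 109) (nat_lit 4) (nat_lit 107) (nat_lit 4) (nat_lit 416) (nat_lit 322) (nat_lit 282)))))) (XT.nd (nat_lit 624) (nat_lit 988) (nat_lit 0) (XT.nd (nat_lit 312) (nat_lit 456) (nat_lit 0) (XT.nd (nat_lit 156) (nat_lit 228) (nat_lit 0) (XT.nd (nat_lit 78) (nat_lit 152) (nat_lit 0) (XT.lf (nat_lit 0) (nat_lit 35913882721) (nat_lit 76) (nat_lit 36234473593) (nat_lit 76) (nat_lit 34821182383) (nat_lit 106) (nat_lit 4) (nat_lit 107) (nat_lit 5) (nat_lit 107) (nat_lit 4) (nat_lit 417) (nat_lit 322) (nat_lit 281)) (XT.lf (nat_lit 0) (nat_lit 24837342657) (nat_lit 152) (nat_lit 64164552303) (nat_lit 0) (nat_lit 23486912380) (nat_lit 104) (nat_lit 5) (nat_lit 106) (nat_lit 4) (nat_lit 104) (nat_lit 4) (nat_lit 418) (nat_lit 322) (nat_lit 280))) (XT.nd (nat_lit 78) (nat_lit 152) (nat_lit 0) (XT.lf (nat_lit 0) (nat_lit 61424153981) (nat_lit 76) (nat_lit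 29113504017) (nat_lit 76) (nat_lit 27758963879) (nat_lit 103) (nat_lit 4) (nat_lit 104) (nat_lit 5) (nat_lit 104) (nat_lit 4) (nat_lit 419) (nat_lit 322) (nat_lit 279)) (XT.lf (nat_lit 0) (nat_lit 38316973661) (nat_lit 152) (nat_lit 49071258349) (nat_lit 0) (nat_lit 37023311219) (nat_lit 101) (nat_lit 5) (nat_lit 103) (nat_lit 4) (nat_lit 101) (nat_lit 4) (nat_lit 420) (nat_lit 322) (nat_lit 278)))) (XT.nd (nat_lit 156) (nat_lit 228) (nat_lit 0) (XT.nd (nat_lit 78) (nat_lit 152) (nat_lit 0) (XT.lf (nat_lit 0) (nat_lit 90426059929) (nat_lit 76) (nat_lit 20867259841) (nat_lit 76) (nat_lit 19570241644) (nat_lit 100) (nat_lit 4) (nat_lit 101) (nat_lit 5) (nat_lit 101) (nat_lit 4) (nat_lit 421) (nat_lit 322) (nat_lit 277)) (XT.lf (nat_lit 0) (nat_lit 53660898226) (nat_lit 152) (nat_lit 31554449221) (nat_lit 0) (nat_lit 52422683580) (nat_lit 98) (nat_lit 5) (nat_lit 100) (nat_lit 4) (nat_lit 98) (nat_lit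 4) (nat_lit 422) (nat_lit 322) (nat_lit 276))) (XT.nd (nat_lit 78) (nat_lit 152) (nat_lit 0) (XT.lf (nat_lit 0) (nat_lit 123459086540) (nat_lit 76) (nat_lit 11292963410) (nat_lit 76) (nat_lit 10052008746) (nat_lit 97) (nat_lit 4) (nat_lit 98) (nat_lit 5) (nat_lit 98) (nat_lit 4) (nat_lit 423) (nat_lit 322) (nat_lit 275)) (XT.lf (nat_lit 0) (nat_lit 71154030372) (nat_lit 152) (nat_lit 11185080583) (nat_lit 0) (nat_lit 69969752546) (nat_lit 95) (nat_lit 5) (nat_lit 97) (nat_lit 4) (nat_lit 95) (nat_lit 4) (nat_lit 424) (nat_lit 322) (nat_lit 274))))) (XT.nd (nat_lit 312) (nat_lit 456) (nat_lit 0) (XT.nd (nat_lit 156) (nat_lit 228) (nat_lit 0) (XT.nd (nat_lit 78) (nat_lit 76) (nat_lit 0) (XT.lf (nat_lit 0) (nat_lit 879303160) (nat_lit 76) (nat_lit 128413057) (nat_lit 152) (nat_lit 159257166826) (nat_lit 92) (nat_lit 5) (nat_lit 93) (nat_lit 5) (nat_lit 94) (nat_lit 4) (nat_lit 425) (nat_lit 322)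 (nat_lit 273)) (XT.lf (nat_lit 0) (nat_lit 12939497692) (nat_lit 76) (nat_lit 78381160222) (nat_lit 76) (nat_lit 77249172960) (nat_lit 91) (nat_lit 4) (nat_lit 92) (nat_lit 5) (nat_lit 92) (nat_lit 4) (nat_lit 426) (nat_lit 322) (nat_lit 272))) (XT.nd (nat_lit 78) (nat_lit 76) (nat_lit 0) (XT.lf (nat_lit 0) (nat_lit 14121468426) (nat_lit 152) (nat_lit 150209009052) (nat_lit 0) (nat_lit 13041645555) (nat_lit 89) (nat_lit 5) (nat_lit 91) (nat_lit 4) (nat_lit 89) (nat_lit 4) (nat_lit 427) (nat_lit 322) (nat_lit 271)) (XT.lf (nat_lit 0) (nat_lit 41459845391) (nat_lit 76) (nat_lit 73106654632) (nat_lit 76) (nat_lit 72025220867) (nat_lit 88) (nat_lit 4) (nat_lit 89) (nat_lit 5) (nat_lit 89) (nat_lit 4) (nat_lit 428) (nat_lit 322) (nat_lit 270)))) (XT.nd (nat_lit 156) (nat_lit 228) (nat_lit 0) (XT.nd (nat_lit 78) (nat_lit 76) (nat_lit 0) (XT.lf (nat_lit 0) (nat_lit 29394985355) (nat_lit 152) (nat_lit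 138582345370) (nat_lit 0) (nat_lit 28363627896) (nat_lit 86) (nat_lit 5) (nat_lit 88) (nat_lit 4) (nat_lit 86) (nat_lit 4) (nat_lit 429) (nat_lit 322) (nat_lit 269)) (XT.lf (nat_lit 0) (nat_lit 74659669243) (nat_lit 76) (nat_lit 66473847870) (nat_lit 76) (nat_lit 65441175094) (nat_lit 85) (nat_lit 4) (nat_lit 86) (nat_lit 5) (nat_lit 86) (nat_lit 4) (nat_lit 430) (nat_lit 322) (nat_lit 268))) (XT.nd (nat_lit 78) (nat_lit 76) (nat_lit 0) (XT.lf (nat_lit 0) (nat_lit 47172297720) (nat_lit 152) (nat_lit 124012572256) (nat_lit 0) (nat_lit 46187639948) (nat_lit 83) (nat_lit 5) (nat_lit 85) (nat_lit 4) (nat_lit 83) (nat_lit 4) (nat_lit 431) (nat_lit 322) (nat_lit 267)) (XT.lf (nat_lit 0) (nat_lit 113282218928) (nat_lit 76) (nat_lit 58217082946) (nat_lit 76) (nat_lit 57231351202) (nat_lit 82) (nat_lit 4) (nat_lit 83) (nat_lit 5) (nat_lit 83) (nat_lit 4) (nat_lit 432) (nat_lit 322) (nat_lit 266)))))))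
noncomputable def xc41 : XT := (XT.nd (nat_lit 48594) (nat_lit 0) (nat_lit 7144) (XT.nd (nat_lit 624) (nat_lit 912) (nat_lit 0) (XT.nd (nat_lit 312) (nat_lit 456) (nat_lit 0) (XT.nd (nat_lit 156) (nat_lit 228) (nat_lit 0) (XT.nd (nat_lit 78) (nat_lit 76) (nat_lit 0) (XT.lf (nat_lit 0) (nat_lit 67846827595) (nat_lit 152) (nat_lit 105935715012) (nat_lit 0) (nat_lit 66907088392) (nat_lit 80) (nat_lit 5) (nat_lit 82) (nat_lit 4) (nat_lit 80) (nat_lit 4) (nat_lit 433) (nat_lit 322) (nat_lit 265)) (XT.lf (nat_lit 0) (nat_lit 158172387108) (nat_lit 76) (nat_lit 48031382200) (nat_lit 76) (nat_lit 47090766085) (nat_lit 79) (nat_lit 4) (nat_lit 80) (nat_lit 5) (nat_lit 80) (nat_lit 4) (nat_lit 434) (nat_lit 322) (nat_lit 264))) (XT.nd (nat_lit 78) (nat_lit 76) (nat_lit 0) (XT.lf (nat_lit 0) (nat_lit 91865670729) (nat_lit 152) (nat_lit 83704635509) (nat_lit 0) (nat_lit 90969072566) (nat_lit 77) (nat_lit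 5) (nat_lit 79) (nat_lit 4) (nat_lit 77) (nat_lit 4) (nat_lit 435) (nat_lit 322) (nat_lit 263)) (XT.lf (nat_lit 0) (nat_lit 210290153462) (nat_lit 76) (nat_lit 35566977224) (nat_lit 76) (nat_lit 34669663050) (nat_lit 76) (nat_lit 4) (nat_lit 77) (nat_lit 5) (nat_lit 77) (nat_lit 4) (nat_lit 436) (nat_lit 322) (nat_lit 262)))) (XT.nd (nat_lit 156) (nat_lit 228) (nat_lit 0) (XT.nd (nat_lit 78) (nat_lit 76) (nat_lit 0) (XT.lf (nat_lit 0) (nat_lit 119736680155) (nat_lit 152) (nat_lit 56577495570) (nat_lit 0) (nat_lit 118881463825) (nat_lit 74) (nat_lit 5) (nat_lit 76) (nat_lit 4) (nat_lit 74) (nat_lit 4) (nat_lit 437) (nat_lit 322) (nat_lit 261)) (XT.lf (nat_lit 0) (nat_lit 270725731578) (nat_lit 76) (nat_lit 20423122835) (nat_lit 76) (nat_lit 19567321872) (nat_lit 73) (nat_lit 4) (nat_lit 74) (nat_lit 5) (nat_lit 74) (nat_lit 4) (nat_lit 438) (nat_lit 322) (nat_lit 260))) (XT.nd (nat_lit 78) (nat_lit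 76) (nat_lit 0) (XT.lf (nat_lit 0) (nat_lit 152036445147) (nat_lit 152) (nat_lit 23704714477) (nat_lit 0) (nat_lit 151220881063) (nat_lit 71) (nat_lit 5) (nat_lit 73) (nat_lit 4) (nat_lit 71) (nat_lit 4) (nat_lit 439) (nat_lit 322) (nat_lit 259)) (XT.lf (nat_lit 0) (nat_lit 340716629713) (nat_lit 76) (nat_lit 2141104484) (nat_lit 76) (nat_lit 1325063040) (nat_lit 70) (nat_lit 4) (nat_lit 71) (nat_lit 5) (nat_lit 71) (nat_lit 4) (nat_lit 440) (nat_lit 322) (nat_lit 258))))) (XT.nd (nat_lit 312) (nat_lit 304) (nat_lit 0) (XT.nd (nat_lit 156) (nat_lit 228) (nat_lit 0) (XT.nd (nat_lit 78) (nat_lit 152) (nat_lit 0) (XT.lf (nat_lit 0) (nat_lit 16411025403) (nat_lit 76) (nat_lit 173264473201) (nat_lit 76) (nat_lit 172486869921) (nat_lit 67) (nat_lit 4) (nat_lit 68) (nat_lit 5) (nat_lit 68) (nat_lit 4) (nat_lit 441) (nat_lit 322) (nat_lit 257)) (XT.lf (nat_lit 0) (nat_lit 20894159392) (nat_lit 152) (nat_lit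 340169541362) (nat_lit 0) (nat_lit 20153213629) (nat_lit 65) (nat_lit 5) (nat_lit 67) (nat_lit 4) (nat_lit 65) (nat_lit 4) (nat_lit 442) (nat_lit 322) (nat_lit 256))) (XT.nd (nat_lit 78) (nat_lit 152) (nat_lit 0) (XT.lf (nat_lit 0) (nat_lit 65398306226) (nat_lit 76) (nat_lit 168250067189) (nat_lit 76) (nat_lit 167508777713) (nat_lit 64) (nat_lit 4) (nat_lit 65) (nat_lit 5) (nat_lit 65) (nat_lit 4) (nat_lit 443) (nat_lit 322) (nat_lit 255)) (XT.lf (nat_lit 0) (nat_lit 47494858881) (nat_lit 152) (nat_lit 327973978120) (nat_lit 0) (nat_lit 46788565806) (nat_lit 62) (nat_lit 5) (nat_lit 64) (nat_lit 4) (nat_lit 62) (nat_lit 4) (nat_lit 444) (nat_lit 322) (nat_lit 254)))) (XT.nd (nat_lit 156) (nat_lit 76) (nat_lit 0) (XT.nd (nat_lit 78) (nat_lit 152) (nat_lit 0) (XT.lf (nat_lit 0) (nat_lit 123784432891) (nat_lit 76) (nat_lit 160650144522) (nat_lit 76) (nat_lit 159943570800) (nat_lit 61) (nat_lit 4)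 (nat_lit 62) (nat_lit 5) (nat_lit 62) (nat_lit 4) (nat_lit 445) (nat_lit 322) (nat_lit 253)) (XT.lf (nat_lit 0) (nat_lit 79124609873) (nat_lit 152) (nat_lit 310167750240) (nat_lit 0) (nat_lit 78451435036) (nat_lit 59) (nat_lit 5) (nat_lit 61) (nat_lit 4) (nat_lit 59) (nat_lit 4) (nat_lit 446) (nat_lit 322) (nat_lit 252))) (XT.nd (nat_lit 47424) (nat_lit 0) (nat_lit 9880) (XT.lf (nat_lit 0) (nat_lit 193065575047) (nat_lit 76) (nat_lit 149945303809) (nat_lit 76) (nat_lit 149271899821) (nat_lit 58) (nat_lit 4) (nat_lit 59) (nat_lit 5) (nat_lit 59) (nat_lit 4) (nat_lit 447) (nat_lit 322) (nat_lit 251)) (XT.lf (nat_lit 0) (nat_lit 1629017393) (nat_lit 152) (nat_lit 4346941062) (nat_lit 0) (nat_lit 1629017393) (nat_lit 188) (nat_lit 5) (nat_lit 190) (nat_lit 4) (nat_lit 188) (nat_lit 4) (nat_lit 374) (nat_lit 323) (nat_lit 323)))))) (XT.nd (nat_lit 624) (nat_lit 1368) (nat_lit 0) (XT.nd (nat_lit 312)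 (nat_lit 684) (nat_lit 0) (XT.nd (nat_lit 156) (nat_lit 380) (nat_lit 0) (XT.nd (nat_lit 78) (nat_lit 228) (nat_lit 0) (XT.lf (nat_lit 0) (nat_lit 15255552482) (nat_lit 76) (nat_lit 488512920) (nat_lit 76) (nat_lit 47603956) (nat_lit 187) (nat_lit 4) (nat_lit 188) (nat_lit 5) (nat_lit 188) (nat_lit 4) (nat_lit 375) (nat_lit 323) (nat_lit 322)) (XT.lf (nat_lit 0) (nat_lit 8011402229) (nat_lit 76) (nat_lit 4598355587) (nat_lit 76) (nat_lit 3789633677) (nat_lit 184) (nat_lit 4) (nat_lit 185) (nat_lit 5) (nat_lit 185) (nat_lit 4) (nat_lit 376) (nat_lit 323) (nat_lit 321))) (XT.nd (nat_lit 78) (nat_lit 228) (nat_lit 0) (XT.lf (nat_lit 0) (nat_lit 8979301663) (nat_lit 152) (nat_lit 200359496) (nat_lit 0) (nat_lit 7866225584) (nat_lit 182) (nat_lit 5) (nat_lit 184) (nat_lit 4) (nat_lit 182) (nat_lit 4) (nat_lit 377) (nat_lit 323) (nat_lit 320)) (XT.lf (nat_lit 0) (nat_lit 4939253026) (nat_lit 152) (nat_lit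 9211091162) (nat_lit 0) (nat_lit 3576830714) (nat_lit 179) (nat_lit 5) (nat_lit 181) (nat_lit 4) (nat_lit 179) (nat_lit 4) (nat_lit 378) (nat_lit 323) (nat_lit 319)))) (XT.nd (nat_lit 156) (nat_lit 380) (nat_lit 0) (XT.nd (nat_lit 78) (nat_lit 152) (nat_lit 0) (XT.lf (nat_lit 0) (nat_lit 343491970) (nat_lit 152) (nat_lit 938217341) (nat_lit 76) (nat_lit 17169212639) (nat_lit 177) (nat_lit 5) (nat_lit 179) (nat_lit 5) (nat_lit 178) (nat_lit 4) (nat_lit 379) (nat_lit 323) (nat_lit 318)) (XT.lf (nat_lit 0) (nat_lit 7717028237) (nat_lit 76) (nat_lit 6650788768) (nat_lit 76) (nat_lit 4839748625) (nat_lit 175) (nat_lit 4) (nat_lit 176) (nat_lit 5) (nat_lit 176) (nat_lit 4) (nat_lit 380) (nat_lit 323) (nat_lit 317))) (XT.nd (nat_lit 78) (nat_lit 228) (nat_lit 0) (XT.lf (nat_lit 0) (nat_lit 9319001614) (nat_lit 152) (nat_lit 3315162048) (nat_lit 0) (nat_lit 7376500740) (nat_lit 173) (nat_lit 5) (nat_lit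 175) (nat_lit 4) (nat_lit 173) (nat_lit 4) (nat_lit 381) (nat_lit 323) (nat_lit 316)) (XT.lf (nat_lit 0) (nat_lit 3677687790) (nat_lit 152) (nat_lit 15546610726) (nat_lit 0) (nat_lit 1635710999) (nat_lit 170) (nat_lit 5) (nat_lit 172) (nat_lit 4) (nat_lit 170) (nat_lit 4) (nat_lit 382) (nat_lit 323) (nat_lit 315))))) (XT.nd (nat_lit 312) (nat_lit 836) (nat_lit 0) (XT.nd (nat_lit 156) (nat_lit 228) (nat_lit 0) (XT.nd (nat_lit 78) (nat_lit 228) (nat_lit 0) (XT.lf (nat_lit 0) (nat_lit 14254490173) (nat_lit 76) (nat_lit 4859588458) (nat_lit 76) (nat_lit 2639856149) (nat_lit 169) (nat_lit 4) (nat_lit 170) (nat_lit 5) (nat_lit 170) (nat_lit 4) (nat_lit 383) (nat_lit 323) (nat_lit 314)) (XT.lf (nat_lit 0) (nat_lit 769677624) (nat_lit 76) (nat_lit 12099602451) (nat_lit 76) (nat_lit 9828820783) (nat_lit 166) (nat_lit 4) (nat_lit 167) (nat_lit 5) (nat_lit 167) (nat_lit 4) (nat_lit 384) (nat_lit 323) (nat_lit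 313))) (XT.nd (nat_lit 78) (nat_lit 76) (nat_lit 0) (XT.lf (nat_lit 0) (nat_lit 5958191886) (nat_lit 152) (nat_lit 14078935936) (nat_lit 0) (nat_lit 3657314373) (nat_lit 164) (nat_lit 5) (nat_lit 166) (nat_lit 4) (nat_lit 164) (nat_lit 4) (nat_lit 385) (nat_lit 323) (nat_lit 312)) (XT.lf (nat_lit 0) (nat_lit 18731706453) (nat_lit 76) (nat_lit 4222536544) (nat_lit 76) (nat_lit 1793669860) (nat_lit 163) (nat_lit 4) (nat_lit 164) (nat_lit 5) (nat_lit 164) (nat_lit 4) (nat_lit 386) (nat_lit 323) (nat_lit 311)))) (XT.nd (nat_lit 156) (nat_lit 456) (nat_lit 0) (XT.nd (nat_lit 78) (nat_lit 152) (nat_lit 0) (XT.lf (nat_lit 0) (nat_lit 2281817823) (nat_lit 76) (nat_lit 13000153825) (nat_lit 76) (nat_lit 10574082229) (nat_lit 160) (nat_lit 4) (nat_lit 161) (nat_lit 5) (nat_lit 161) (nat_lit 4) (nat_lit 387) (nat_lit 323) (nat_lit 310)) (XT.lf (nat_lit 0) (nat_lit 6778471961) (nat_lit 152) (nat_lit 15880316810)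 (nat_lit 0) (nat_lit 4368399163) (nat_lit 158) (nat_lit 5) (nat_lit 160) (nat_lit 4) (nat_lit 158) (nat_lit 4) (nat_lit 388) (nat_lit 323) (nat_lit 309))) (XT.nd (nat_lit 78) (nat_lit 380) (nat_lit 0) (XT.lf (nat_lit 0) (nat_lit 20295563926) (nat_lit 76) (nat_lit 5235448958) (nat_lit 76) (nat_lit 2733220214) (nat_lit 157) (nat_lit 4) (nat_lit 158) (nat_lit 5) (nat_lit 158) (nat_lit 4) (nat_lit 389) (nat_lit 323) (nat_lit 308)) (XT.nd (nat_lit 78) (nat_lit 152) (nat_lit 0) (XT.lf (nat_lit 0) (nat_lit 118834603) (nat_lit 76) (nat_lit 15956317260) (nat_lit 76) (nat_lit 13491976000) (nat_lit 154) (nat_lit 4) (nat_lit 155) (nat_lit 5) (nat_lit 155) (nat_lit 4) (nat_lit 390) (nat_lit 323) (nat_lit 307)) (XT.lf (nat_lit 0) (nat_lit 5649255202) (nat_lit 152) (nat_lit 22063049138) (nat_lit 0) (nat_lit 3230600151) (nat_lit 152) (nat_lit 5) (nat_lit 154) (nat_lit 4) (nat_lit 152) (nat_lit 4) (nat_lit 391)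 (nat_lit 323) (nat_lit 306))))))))
noncomputable def xc42 : XT := (XT.nd (nat_lit 1248) (nat_lit 2052) (nat_lit 0) (XT.nd (nat_lit 624) (nat_lit 988) (nat_lit 0) (XT.nd (nat_lit 312) (nat_lit 608) (nat_lit 0) (XT.nd (nat_lit 156) (nat_lit 304) (nat_lit 0) (XT.nd (nat_lit 78) (nat_lit 152) (nat_lit 0) (XT.lf (nat_lit 0) (nat_lit 17863409254) (nat_lit 76) (nat_lit 8506619099) (nat_lit 76) (nat_lit 6021609072) (nat_lit 151) (nat_lit 4) (nat_lit 152) (nat_lit 5) (nat_lit 152) (nat_lit 4) (nat_lit 392) (nat_lit 323) (nat_lit 305)) (XT.lf (nat_lit 0) (nat_lit 14797249200) (nat_lit 152) (nat_lit 6751488645) (nat_lit 0) (nat_lit 12372058896) (nat_lit 149) (nat_lit 5) (nat_lit 151) (nat_lit 4) (nat_lit 149) (nat_lit 4) (nat_lit 393) (nat_lit 323) (nat_lit 304))) (XT.nd (nat_lit 78) (nat_lit 76) (nat_lit 0) (XT.lf (nat_lit 0) (nat_lit 1505844635) (nat_lit 76) (nat_lit 438162511) (nat_lit 152) (nat_lit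 33597731042) (nat_lit 146) (nat_lit 5) (nat_lit 147) (nat_lit 5) (nat_lit 148) (nat_lit 4) (nat_lit 394) (nat_lit 323) (nat_lit 303)) (XT.lf (nat_lit 0) (nat_lit 10062361769) (nat_lit 76) (nat_lit 14791039447) (nat_lit 76) (nat_lit 12381957147) (nat_lit 145) (nat_lit 4) (nat_lit 146) (nat_lit 5) (nat_lit 146) (nat_lit 4) (nat_lit 395) (nat_lit 323) (nat_lit 302)))) (XT.nd (nat_lit 156) (nat_lit 380) (nat_lit 0) (XT.nd (nat_lit 78) (nat_lit 76) (nat_lit 0) (XT.lf (nat_lit 0) (nat_lit 10720321826) (nat_lit 152) (nat_lit 19925784294) (nat_lit 0) (nat_lit 8383825876) (nat_lit 143) (nat_lit 5) (nat_lit 145) (nat_lit 4) (nat_lit 143) (nat_lit 4) (nat_lit 396) (nat_lit 323) (nat_lit 301)) (XT.lf (nat_lit 0) (nat_lit 28528287679) (nat_lit 76) (nat_lit 7385646938) (nat_lit 76) (nat_lit 5010140011) (nat_lit 142) (nat_lit 4) (nat_lit 143) (nat_lit 5) (nat_lit 143) (nat_lit 4) (nat_lit 397) (nat_lit 323)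 (nat_lit 300))) (XT.nd (nat_lit 78) (nat_lit 228) (nat_lit 0) (XT.lf (nat_lit 0) (nat_lit 20261743090) (nat_lit 152) (nat_lit 4689644466) (nat_lit 0) (nat_lit 17964954327) (nat_lit 140) (nat_lit 5) (nat_lit 142) (nat_lit 4) (nat_lit 140) (nat_lit 4) (nat_lit 398) (nat_lit 323) (nat_lit 299)) (XT.lf (nat_lit 0) (nat_lit 2950884314) (nat_lit 152) (nat_lit 41342608952) (nat_lit 0) (nat_lit 733130277) (nat_lit 137) (nat_lit 5) (nat_lit 139) (nat_lit 4) (nat_lit 137) (nat_lit 4) (nat_lit 399) (nat_lit 323) (nat_lit 298))))) (XT.nd (nat_lit 312) (nat_lit 532) (nat_lit 0) (XT.nd (nat_lit 156) (nat_lit 228) (nat_lit 0) (XT.nd (nat_lit 78) (nat_lit 152) (nat_lit 0) (XT.lf (nat_lit 0) (nat_lit 12275557787) (nat_lit 76) (nat_lit 18602058907) (nat_lit 76) (nat_lit 16356215826) (nat_lit 136) (nat_lit 4) (nat_lit 137) (nat_lit 5) (nat_lit 137) (nat_lit 4) (nat_lit 400) (nat_lit 323) (nat_lit 297)) (XT.lf (nat_lit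 0) (nat_lit 11807371167) (nat_lit 152) (nat_lit 28120026301) (nat_lit 0) (nat_lit 9643703115) (nat_lit 134) (nat_lit 5) (nat_lit 136) (nat_lit 4) (nat_lit 134) (nat_lit 4) (nat_lit 401) (nat_lit 323) (nat_lit 296))) (XT.nd (nat_lit 78) (nat_lit 152) (nat_lit 0) (XT.lf (nat_lit 0) (nat_lit 31011227691) (nat_lit 76) (nat_lit 11604540272) (nat_lit 76) (nat_lit 9417937145) (nat_lit 133) (nat_lit 4) (nat_lit 134) (nat_lit 5) (nat_lit 134) (nat_lit 4) (nat_lit 402) (nat_lit 323) (nat_lit 295)) (XT.lf (nat_lit 0) (nat_lit 21525895446) (nat_lit 152) (nat_lit 13677246838) (nat_lit 0) (nat_lit 19423191345) (nat_lit 131) (nat_lit 5) (nat_lit 133) (nat_lit 4) (nat_lit 131) (nat_lit 4) (nat_lit 403) (nat_lit 323) (nat_lit 294)))) (XT.nd (nat_lit 156) (nat_lit 228) (nat_lit 0) (XT.nd (nat_lit 78) (nat_lit 228) (nat_lit 0) (XT.lf (nat_lit 0) (nat_lit 51625635828) (nat_lit 76) (nat_lit 3933624332) (nat_lit 76)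 (nat_lit 1812193441) (nat_lit 130) (nat_lit 4) (nat_lit 131) (nat_lit 5) (nat_lit 131) (nat_lit 4) (nat_lit 404) (nat_lit 323) (nat_lit 293)) (XT.lf (nat_lit 0) (nat_lit 2281068876) (nat_lit 76) (nat_lit 30000390221) (nat_lit 76) (nat_lit 27963465924) (nat_lit 127) (nat_lit 4) (nat_lit 128) (nat_lit 5) (nat_lit 128) (nat_lit 4) (nat_lit 405) (nat_lit 323) (nat_lit 292))) (XT.nd (nat_lit 78) (nat_lit 76) (nat_lit 0) (XT.lf (nat_lit 0) (nat_lit 6623079607) (nat_lit 152) (nat_lit 51995029081) (nat_lit 0) (nat_lit 4668589162) (nat_lit 125) (nat_lit 5) (nat_lit 127) (nat_lit 4) (nat_lit 125) (nat_lit 4) (nat_lit 406) (nat_lit 323) (nat_lit 291)) (XT.lf (nat_lit 0) (nat_lit 20440099620) (nat_lit 76) (nat_lit 24002245643) (nat_lit 76) (nat_lit 22034271362) (nat_lit 124) (nat_lit 4) (nat_lit 125) (nat_lit 5) (nat_lit 125) (nat_lit 4) (nat_lit 407) (nat_lit 323) (nat_lit 290)))))) (XT.nd (nat_lit 624)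 (nat_lit 988) (nat_lit 0) (XT.nd (nat_lit 312) (nat_lit 608) (nat_lit 0) (XT.nd (nat_lit 156) (nat_lit 228) (nat_lit 0) (XT.nd (nat_lit 78) (nat_lit 76) (nat_lit 0) (XT.lf (nat_lit 0) (nat_lit 16093003136) (nat_lit 152) (nat_lit 39548911024) (nat_lit 0) (nat_lit 14206851407) (nat_lit 122) (nat_lit 5) (nat_lit 124) (nat_lit 4) (nat_lit 122) (nat_lit 4) (nat_lit 408) (nat_lit 323) (nat_lit 289)) (XT.lf (nat_lit 0) (nat_lit 40638225114) (nat_lit 76) (nat_lit 17329060945) (nat_lit 76) (nat_lit 15431899487) (nat_lit 121) (nat_lit 4) (nat_lit 122) (nat_lit 5) (nat_lit 122) (nat_lit 4) (nat_lit 409) (nat_lit 323) (nat_lit 288))) (XT.nd (nat_lit 78) (nat_lit 76) (nat_lit 0) (XT.lf (nat_lit 0) (nat_lit 26653576825) (nat_lit 152) (nat_lit 25646424992) (nat_lit 0) (nat_lit 24837047632) (nat_lit 119) (nat_lit 5) (nat_lit 121) (nat_lit 4) (nat_lit 119) (nat_lit 4) (nat_lit 410) (nat_lit 323) (nat_lit 287))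 (XT.lf (nat_lit 0) (nat_lit 63202657397) (nat_lit 76) (nat_lit 9854772446) (nat_lit 76) (nat_lit 8029253664) (nat_lit 118) (nat_lit 4) (nat_lit 119) (nat_lit 5) (nat_lit 119) (nat_lit 4) (nat_lit 411) (nat_lit 323) (nat_lit 286)))) (XT.nd (nat_lit 156) (nat_lit 304) (nat_lit 0) (XT.nd (nat_lit 78) (nat_lit 152) (nat_lit 0) (XT.lf (nat_lit 0) (nat_lit 38477601310) (nat_lit 152) (nat_lit 10020736668) (nat_lit 0) (nat_lit 36731084666) (nat_lit 116) (nat_lit 5) (nat_lit 118) (nat_lit 4) (nat_lit 116) (nat_lit 4) (nat_lit 412) (nat_lit 323) (nat_lit 285)) (XT.lf (nat_lit 0) (nat_lit 307138746) (nat_lit 152) (nat_lit 1124222331) (nat_lit 76) (nat_lit 88189648170) (nat_lit 114) (nat_lit 5) (nat_lit 116) (nat_lit 5) (nat_lit 115) (nat_lit 4) (nat_lit 413) (nat_lit 323) (nat_lit 284))) (XT.nd (nat_lit 78) (nat_lit 152) (nat_lit 0) (XT.lf (nat_lit 0) (nat_lit 7882427487) (nat_lit 76) (nat_lit 44000247936)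 (nat_lit 76) (nat_lit 42323435396) (nat_lit 112) (nat_lit 4) (nat_lit 113) (nat_lit 5) (nat_lit 113) (nat_lit 4) (nat_lit 414) (nat_lit 323) (nat_lit 283)) (XT.lf (nat_lit 0) (nat_lit 9876479692) (nat_lit 152) (nat_lit 80915158644) (nat_lit 0) (nat_lit 8273807460) (nat_lit 110) (nat_lit 5) (nat_lit 112) (nat_lit 4) (nat_lit 110) (nat_lit 4) (nat_lit 415) (nat_lit 323) (nat_lit 282))))) (XT.nd (nat_lit 312) (nat_lit 532) (nat_lit 0) (XT.nd (nat_lit 156) (nat_lit 228) (nat_lit 0) (XT.nd (nat_lit 78) (nat_lit 152) (nat_lit 0) (XT.lf (nat_lit 0) (nat_lit 28562249078) (nat_lit 76) (nat_lit 38602395648) (nat_lit 76) (nat_lit 36994438316) (nat_lit 109) (nat_lit 4) (nat_lit 110) (nat_lit 5) (nat_lit 110) (nat_lit 4) (nat_lit 416) (nat_lit 323) (nat_lit 281)) (XT.lf (nat_lit 0) (nat_lit 20797825541) (nat_lit 152) (nat_lit 69483367506) (nat_lit 0) (nat_lit 19261777025) (nat_lit 107) (nat_lit 5) (nat_lit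 109) (nat_lit 4) (nat_lit 107) (nat_lit 4) (nat_lit 417) (nat_lit 323) (nat_lit 280))) (XT.nd (nat_lit 78) (nat_lit 152) (nat_lit 0) (XT.lf (nat_lit 0) (nat_lit 52087286453) (nat_lit 76) (nat_lit 32327720062) (nat_lit 76) (nat_lit 30787356192) (nat_lit 106) (nat_lit 4) (nat_lit 107) (nat_lit 5) (nat_lit 107) (nat_lit 4) (nat_lit 418) (nat_lit 323) (nat_lit 279)) (XT.lf (nat_lit 0) (nat_lit 33241800271) (nat_lit 152) (nat_lit 56154256512) (nat_lit 0) (nat_lit 31770981635) (nat_lit 104) (nat_lit 5) (nat_lit 106) (nat_lit 4) (nat_lit 104) (nat_lit 4) (nat_lit 419) (nat_lit 323) (nat_lit 278)))) (XT.nd (nat_lit 156) (nat_lit 304) (nat_lit 0) (XT.nd (nat_lit 78) (nat_lit 152) (nat_lit 0) (XT.lf (nat_lit 0) (nat_lit 78910347522) (nat_lit 76) (nat_lit 25008713386) (nat_lit 76) (nat_lit 23534371207) (nat_lit 103) (nat_lit 4) (nat_lit 104) (nat_lit 5) (nat_lit 104) (nat_lit 4) (nat_lit 420) (nat_lit 323)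 (nat_lit 277)) (XT.lf (nat_lit 0) (nat_lit 47447706077) (nat_lit 152) (nat_lit 40573028396) (nat_lit 0) (nat_lit 46040463488) (nat_lit 101) (nat_lit 5) (nat_lit 103) (nat_lit 4) (nat_lit 101) (nat_lit 4) (nat_lit 421) (nat_lit 323) (nat_lit 276))) (XT.nd (nat_lit 78) (nat_lit 228) (nat_lit 0) (XT.lf (nat_lit 0) (nat_lit 109544146460) (nat_lit 76) (nat_lit 16454268986) (nat_lit 76) (nat_lit 15044149378) (nat_lit 100) (nat_lit 4) (nat_lit 101) (nat_lit 5) (nat_lit 101) (nat_lit 4) (nat_lit 422) (nat_lit 323) (nat_lit 275)) (XT.nd (nat_lit 78) (nat_lit 76) (nat_lit 0) (XT.lf (nat_lit 0) (nat_lit 63686433774) (nat_lit 152) (nat_lit 22335080885) (nat_lit 0) (nat_lit 62340925665) (nat_lit 98) (nat_lit 5) (nat_lit 100) (nat_lit 4) (nat_lit 98) (nat_lit 4) (nat_lit 423) (nat_lit 323) (nat_lit 274)) (XT.lf (nat_lit 0) (nat_lit 144569169791) (nat_lit 76) (nat_lit 6446450264) (nat_lit 76) (nat_lit 5098593031)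 (nat_lit 97) (nat_lit 4) (nat_lit 98) (nat_lit 5) (nat_lit 98) (nat_lit 4) (nat_lit 424) (nat_lit 323) (nat_lit 273))))))))
noncomputable def xc43 : XT := (XT.nd (nat_lit 1248) (nat_lit 912) (nat_lit 0) (XT.nd (nat_lit 624) (nat_lit 912) (nat_lit 0) (XT.nd (nat_lit 312) (nat_lit 456) (nat_lit 0) (XT.nd (nat_lit 156) (nat_lit 228) (nat_lit 0) (XT.nd (nat_lit 78) (nat_lit 228) (nat_lit 0) (XT.lf (nat_lit 0) (nat_lit 82264610975) (nat_lit 152) (nat_lit 979182814) (nat_lit 0) (nat_lit 80978865882) (nat_lit 95) (nat_lit 5) (nat_lit 97) (nat_lit 4) (nat_lit 95) (nat_lit 4) (nat_lit 425) (nat_lit 323) (nat_lit 272)) (XT.lf (nat_lit 0) (nat_lit 6617000305) (nat_lit 152) (nat_lit 160801985626) (nat_lit 0) (nat_lit 5390654416) (nat_lit 92) (nat_lit 5) (nat_lit 94) (nat_lit 4) (nat_lit 92) (nat_lit 4) (nat_lit 426) (nat_lit 323) (nat_lit 271))) (XT.nd (nat_lit 78) (nat_lit 152) (nat_lit 0) (XT.lf (nat_lit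 0) (nat_lit 24814446000) (nat_lit 76) (nat_lit 79102244828) (nat_lit 76) (nat_lit 77874207501) (nat_lit 91) (nat_lit 4) (nat_lit 92) (nat_lit 5) (nat_lit 92) (nat_lit 4) (nat_lit 427) (nat_lit 323) (nat_lit 270)) (XT.lf (nat_lit 0) (nat_lit 20478766890) (nat_lit 152) (nat_lit 151514030973) (nat_lit 0) (nat_lit 19307715963) (nat_lit 89) (nat_lit 5) (nat_lit 91) (nat_lit 4) (nat_lit 89) (nat_lit 4) (nat_lit 428) (nat_lit 323) (nat_lit 269)))) (XT.nd (nat_lit 156) (nat_lit 228) (nat_lit 0) (XT.nd (nat_lit 78) (nat_lit 152) (nat_lit 0) (XT.lf (nat_lit 0) (nat_lit 55022814450) (nat_lit 76) (nat_lit 73709329951) (nat_lit 76) (nat_lit 72536897942) (nat_lit 88) (nat_lit 4) (nat_lit 89) (nat_lit 5) (nat_lit 89) (nat_lit 4) (nat_lit 429) (nat_lit 323) (nat_lit 268)) (XT.lf (nat_lit 0) (nat_lit 36687573304) (nat_lit 152) (nat_lit 139543859043) (nat_lit 0) (nat_lit 35569753507) (nat_lit 86) (nat_lit 5) (nat_lit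 88) (nat_lit 4) (nat_lit 86) (nat_lit 4) (nat_lit 430) (nat_lit 323) (nat_lit 267))) (XT.nd (nat_lit 78) (nat_lit 152) (nat_lit 0) (XT.lf (nat_lit 0) (nat_lit 90317493363) (nat_lit 76) (nat_lit 66832905827) (nat_lit 76) (nat_lit 65713958358) (nat_lit 85) (nat_lit 4) (nat_lit 86) (nat_lit 5) (nat_lit 86) (nat_lit 4) (nat_lit 431) (nat_lit 323) (nat_lit 266)) (XT.lf (nat_lit 0) (nat_lit 55616216915) (nat_lit 152) (nat_lit 124363028794) (nat_lit 0) (nat_lit 54549558240) (nat_lit 83) (nat_lit 5) (nat_lit 85) (nat_lit 4) (nat_lit 83) (nat_lit 4) (nat_lit 432) (nat_lit 323) (nat_lit 265))))) (XT.nd (nat_lit 312) (nat_lit 456) (nat_lit 0) (XT.nd (nat_lit 156) (nat_lit 228) (nat_lit 0) (XT.nd (nat_lit 78) (nat_lit 152) (nat_lit 0) (XT.lf (nat_lit 0) (nat_lit 131499421278) (nat_lit 76) (nat_lit 58186953519) (nat_lit 76) (nat_lit 57119374086) (nat_lit 82) (nat_lit 4) (nat_lit 83) (nat_lit 5) (nat_lit 83)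 (nat_lit 4) (nat_lit 433) (nat_lit 323) (nat_lit 264)) (XT.lf (nat_lit 0) (nat_lit 77688724488) (nat_lit 152) (nat_lit 105364199242) (nat_lit 0) (nat_lit 76671170215) (nat_lit 80) (nat_lit 5) (nat_lit 82) (nat_lit 4) (nat_lit 80) (nat_lit 4) (nat_lit 434) (nat_lit 323) (nat_lit 263))) (XT.nd (nat_lit 78) (nat_lit 152) (nat_lit 0) (XT.lf (nat_lit 0) (nat_lit 179479406703) (nat_lit 76) (nat_lit 47442941861) (nat_lit 76) (nat_lit 46424635776) (nat_lit 79) (nat_lit 4) (nat_lit 80) (nat_lit 5) (nat_lit 80) (nat_lit 4) (nat_lit 435) (nat_lit 323) (nat_lit 262)) (XT.lf (nat_lit 0) (nat_lit 103387139230) (nat_lit 152) (nat_lit 81850118197) (nat_lit 0) (nat_lit 102416660939) (nat_lit 77) (nat_lit 5) (nat_lit 79) (nat_lit 4) (nat_lit 77) (nat_lit 4) (nat_lit 436) (nat_lit 323) (nat_lit 261)))) (XT.nd (nat_lit 156) (nat_lit 228) (nat_lit 0) (XT.nd (nat_lit 78) (nat_lit 152) (nat_lit 0) (XT.lf (nat_lit 0)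 (nat_lit 235292642712) (nat_lit 76) (nat_lit 34223921756) (nat_lit 76) (nat_lit 33252829601) (nat_lit 76) (nat_lit 4) (nat_lit 77) (nat_lit 5) (nat_lit 77) (nat_lit 4) (nat_lit 437) (nat_lit 323) (nat_lit 260)) (XT.lf (nat_lit 0) (nat_lit 133259168177) (nat_lit 152) (nat_lit 53021167677) (nat_lit 0) (nat_lit 132333777179) (nat_lit 74) (nat_lit 5) (nat_lit 76) (nat_lit 4) (nat_lit 74) (nat_lit 4) (nat_lit 438) (nat_lit 323) (nat_lit 259))) (XT.nd (nat_lit 78) (nat_lit 152) (nat_lit 0) (XT.lf (nat_lit 0) (nat_lit 300115060846) (nat_lit 76) (nat_lit 18097847251) (nat_lit 76) (nat_lit 17171955025) (nat_lit 73) (nat_lit 4) (nat_lit 74) (nat_lit 5) (nat_lit 74) (nat_lit 4) (nat_lit 439) (nat_lit 323) (nat_lit 258)) (XT.lf (nat_lit 0) (nat_lit 167926796766) (nat_lit 152) (nat_lit 17961282729) (nat_lit 0) (nat_lit 167044552646) (nat_lit 71) (nat_lit 5) (nat_lit 73) (nat_lit 4) (nat_lit 71) (nat_lit 4)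 (nat_lit 440) (nat_lit 323) (nat_lit 257)))))) (XT.nd (nat_lit 47814) (nat_lit 0) (nat_lit 8664) (XT.nd (nat_lit 312) (nat_lit 380) (nat_lit 0) (XT.nd (nat_lit 156) (nat_lit 228) (nat_lit 0) (XT.nd (nat_lit 78) (nat_lit 76) (nat_lit 0) (XT.lf (nat_lit 0) (nat_lit 2322289417) (nat_lit 152) (nat_lit 367729203877) (nat_lit 0) (nat_lit 1481667151) (nat_lit 68) (nat_lit 5) (nat_lit 70) (nat_lit 4) (nat_lit 68) (nat_lit 4) (nat_lit 441) (nat_lit 323) (nat_lit 256)) (XT.lf (nat_lit 0) (nat_lit 25184007777) (nat_lit 76) (nat_lit 183305175576) (nat_lit 76) (nat_lit 182464192411) (nat_lit 67) (nat_lit 4) (nat_lit 68) (nat_lit 5) (nat_lit 68) (nat_lit 4) (nat_lit 442) (nat_lit 323) (nat_lit 255))) (XT.nd (nat_lit 78) (nat_lit 76) (nat_lit 0) (XT.lf (nat_lit 0) (nat_lit 26162209948) (nat_lit 152) (nat_lit 360011276349) (nat_lit 0) (nat_lit 25360955348) (nat_lit 65) (nat_lit 5) (nat_lit 67) (nat_lit 4) (nat_lit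 65) (nat_lit 4) (nat_lit 443) (nat_lit 323) (nat_lit 254)) (XT.lf (nat_lit 0) (nat_lit 77681628371) (nat_lit 76) (nat_lit 178098817010) (nat_lit 76) (nat_lit 177297267732) (nat_lit 64) (nat_lit 4) (nat_lit 65) (nat_lit 5) (nat_lit 65) (nat_lit 4) (nat_lit 444) (nat_lit 323) (nat_lit 253)))) (XT.nd (nat_lit 156) (nat_lit 152) (nat_lit 0) (XT.nd (nat_lit 78) (nat_lit 76) (nat_lit 0) (XT.lf (nat_lit 0) (nat_lit 54693890344) (nat_lit 152) (nat_lit 347243882328) (nat_lit 0) (nat_lit 53930250222) (nat_lit 62) (nat_lit 5) (nat_lit 64) (nat_lit 4) (nat_lit 62) (nat_lit 4) (nat_lit 445) (nat_lit 323) (nat_lit 252)) (XT.lf (nat_lit 0) (nat_lit 140352380165) (nat_lit 76) (nat_lit 170088657956) (nat_lit 76) (nat_lit 169324777224) (nat_lit 61) (nat_lit 4) (nat_lit 62) (nat_lit 5) (nat_lit 62) (nat_lit 4) (nat_lit 446) (nat_lit 323) (nat_lit 251))) (XT.nd (nat_lit 47268) (nat_lit 0) (nat_lit 10184) (XT.lf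 (nat_lit 0) (nat_lit 88667750913) (nat_lit 152) (nat_lit 328394855957) (nat_lit 0) (nat_lit 87940033277) (nat_lit 59) (nat_lit 5) (nat_lit 61) (nat_lit 4) (nat_lit 59) (nat_lit 4) (nat_lit 447) (nat_lit 323) (nat_lit 250)) (XT.lf (nat_lit 0) (nat_lit 2409263748) (nat_lit 152) (nat_lit 2327871530) (nat_lit 152) (nat_lit 2327871530) (nat_lit 193) (nat_lit 4) (nat_lit 195) (nat_lit 5) (nat_lit 195) (nat_lit 4) (nat_lit 372) (nat_lit 324) (nat_lit 324))))) (XT.nd (nat_lit 312) (nat_lit 836) (nat_lit 0) (XT.nd (nat_lit 156) (nat_lit 304) (nat_lit 0) (XT.nd (nat_lit 78) (nat_lit 228) (nat_lit 0) (XT.lf (nat_lit 0) (nat_lit 6628945941) (nat_lit 152) (nat_lit 1904628575) (nat_lit 0) (nat_lit 6128955175) (nat_lit 191) (nat_lit 5) (nat_lit 193) (nat_lit 4) (nat_lit 191) (nat_lit 4) (nat_lit 373) (nat_lit 324) (nat_lit 323)) (XT.lf (nat_lit 0) (nat_lit 3418687669) (nat_lit 152) (nat_lit 9305443446) (nat_lit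 0) (nat_lit 2501597023) (nat_lit 188) (nat_lit 5) (nat_lit 190) (nat_lit 4) (nat_lit 188) (nat_lit 4) (nat_lit 374) (nat_lit 324) (nat_lit 322))) (XT.nd (nat_lit 78) (nat_lit 228) (nat_lit 0) (XT.lf (nat_lit 0) (nat_lit 14038786568) (nat_lit 76) (nat_lit 1554778294) (nat_lit 76) (nat_lit 229438607) (nat_lit 187) (nat_lit 4) (nat_lit 188) (nat_lit 5) (nat_lit 188) (nat_lit 4) (nat_lit 375) (nat_lit 324) (nat_lit 321)) (XT.lf (nat_lit 0) (nat_lit 6067755242) (nat_lit 76) (nat_lit 6001779485) (nat_lit 76) (nat_lit 4379543239) (nat_lit 184) (nat_lit 4) (nat_lit 185) (nat_lit 5) (nat_lit 185) (nat_lit 4) (nat_lit 376) (nat_lit 324) (nat_lit 320)))) (XT.nd (nat_lit 156) (nat_lit 456) (nat_lit 0) (XT.nd (nat_lit 78) (nat_lit 228) (nat_lit 0) (XT.lf (nat_lit 0) (nat_lit 8052059615) (nat_lit 152) (nat_lit 2872179406) (nat_lit 0) (nat_lit 6189605366) (nat_lit 182) (nat_lit 5) (nat_lit 184) (nat_lit 4)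 (nat_lit 182) (nat_lit 4) (nat_lit 377) (nat_lit 324) (nat_lit 319)) (XT.lf (nat_lit 0) (nat_lit 3551012771) (nat_lit 152) (nat_lit 12768848077) (nat_lit 0) (nat_lit 1497293249) (nat_lit 179) (nat_lit 5) (nat_lit 181) (nat_lit 4) (nat_lit 179) (nat_lit 4) (nat_lit 378) (nat_lit 324) (nat_lit 318))) (XT.nd (nat_lit 78) (nat_lit 380) (nat_lit 0) (XT.lf (nat_lit 0) (nat_lit 13263042014) (nat_lit 76) (nat_lit 3804297675) (nat_lit 76) (nat_lit 1491361884) (nat_lit 178) (nat_lit 4) (nat_lit 179) (nat_lit 5) (nat_lit 179) (nat_lit 4) (nat_lit 379) (nat_lit 324) (nat_lit 317)) (XT.nd (nat_lit 78) (nat_lit 152) (nat_lit 0) (XT.lf (nat_lit 0) (nat_lit 2424477728) (nat_lit 76) (nat_lit 9673768011) (nat_lit 76) (nat_lit 7242386246) (nat_lit 175) (nat_lit 4) (nat_lit 176) (nat_lit 5) (nat_lit 176) (nat_lit 4) (nat_lit 380) (nat_lit 324) (nat_lit 316)) (XT.lf (nat_lit 0) (nat_lit 6562933630) (nat_lit 152)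 (nat_lit 9558432019) (nat_lit 0) (nat_lit 4045757192) (nat_lit 173) (nat_lit 5) (nat_lit 175) (nat_lit 4) (nat_lit 173) (nat_lit 4) (nat_lit 381) (nat_lit 324) (nat_lit 315))))))))
noncomputable def xc44 : XT := (XT.nd (nat_lit 1248) (nat_lit 2128) (nat_lit 0) (XT.nd (nat_lit 624) (nat_lit 1064) (nat_lit 0) (XT.nd (nat_lit 312) (nat_lit 608) (nat_lit 0) (XT.nd (nat_lit 156) (nat_lit 304) (nat_lit 0) (XT.nd (nat_lit 78) (nat_lit 152) (nat_lit 0) (XT.lf (nat_lit 0) (nat_lit 360488348) (nat_lit 152) (nat_lit 1964818618) (nat_lit 76) (nat_lit 18718329227) (nat_lit 171) (nat_lit 5) (nat_lit 173) (nat_lit 5) (nat_lit 172) (nat_lit 4) (nat_lit 382) (nat_lit 324) (nat_lit 314)) (XT.lf (nat_lit 0) (nat_lit 5941363848) (nat_lit 76) (nat_lit 9379818649) (nat_lit 76) (nat_lit 6640163795) (nat_lit 169) (nat_lit 4) (nat_lit 170) (nat_lit 5) (nat_lit 170) (nat_lit 4) (nat_lit 383) (nat_lit 324) (nat_lit 313)))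 (XT.nd (nat_lit 78) (nat_lit 152) (nat_lit 0) (XT.lf (nat_lit 0) (nat_lit 8492166324) (nat_lit 152) (nat_lit 8703879387) (nat_lit 0) (nat_lit 5737831505) (nat_lit 167) (nat_lit 5) (nat_lit 169) (nat_lit 4) (nat_lit 167) (nat_lit 4) (nat_lit 384) (nat_lit 324) (nat_lit 312)) (XT.lf (nat_lit 0) (nat_lit 865631255) (nat_lit 152) (nat_lit 1114179374) (nat_lit 76) (nat_lit 21985374522) (nat_lit 165) (nat_lit 5) (nat_lit 167) (nat_lit 5) (nat_lit 166) (nat_lit 4) (nat_lit 385) (nat_lit 324) (nat_lit 311)))) (XT.nd (nat_lit 156) (nat_lit 304) (nat_lit 0) (XT.nd (nat_lit 78) (nat_lit 152) (nat_lit 0) (XT.lf (nat_lit 0) (nat_lit 6805999222) (nat_lit 76) (nat_lit 10553714356) (nat_lit 76) (nat_lit 7684040675) (nat_lit 163) (nat_lit 4) (nat_lit 164) (nat_lit 5) (nat_lit 164) (nat_lit 4) (nat_lit 386) (nat_lit 324) (nat_lit 310)) (XT.lf (nat_lit 0) (nat_lit 8973581693) (nat_lit 152) (nat_lit 11077184932)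 (nat_lit 0) (nat_lit 6136054297) (nat_lit 161) (nat_lit 5) (nat_lit 163) (nat_lit 4) (nat_lit 161) (nat_lit 4) (nat_lit 387) (nat_lit 324) (nat_lit 309))) (XT.nd (nat_lit 78) (nat_lit 228) (nat_lit 0) (XT.lf (nat_lit 0) (nat_lit 23761732770) (nat_lit 76) (nat_lit 3284993359) (nat_lit 76) (nat_lit 350702220) (nat_lit 160) (nat_lit 4) (nat_lit 161) (nat_lit 5) (nat_lit 161) (nat_lit 4) (nat_lit 388) (nat_lit 324) (nat_lit 308)) (XT.lf (nat_lit 0) (nat_lit 4038031101) (nat_lit 76) (nat_lit 13753834326) (nat_lit 76) (nat_lit 10873941756) (nat_lit 157) (nat_lit 4) (nat_lit 158) (nat_lit 5) (nat_lit 158) (nat_lit 4) (nat_lit 389) (nat_lit 324) (nat_lit 307))))) (XT.nd (nat_lit 312) (nat_lit 456) (nat_lit 0) (XT.nd (nat_lit 156) (nat_lit 380) (nat_lit 0) (XT.nd (nat_lit 78) (nat_lit 76) (nat_lit 0) (XT.lf (nat_lit 0) (nat_lit 7525517870) (nat_lit 152) (nat_lit 17775495871) (nat_lit 0) (nat_lit 4707516500)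 (nat_lit 155) (nat_lit 5) (nat_lit 157) (nat_lit 4) (nat_lit 155) (nat_lit 4) (nat_lit 390) (nat_lit 324) (nat_lit 306)) (XT.lf (nat_lit 0) (nat_lit 20704399820) (nat_lit 76) (nat_lit 6804200282) (nat_lit 76) (nat_lit 3916526186) (nat_lit 154) (nat_lit 4) (nat_lit 155) (nat_lit 5) (nat_lit 155) (nat_lit 4) (nat_lit 391) (nat_lit 324) (nat_lit 305))) (XT.nd (nat_lit 78) (nat_lit 228) (nat_lit 0) (XT.lf (nat_lit 0) (nat_lit 16121785920) (nat_lit 152) (nat_lit 3485341094) (nat_lit 0) (nat_lit 13310180322) (nat_lit 152) (nat_lit 5) (nat_lit 154) (nat_lit 4) (nat_lit 152) (nat_lit 4) (nat_lit 392) (nat_lit 324) (nat_lit 304)) (XT.lf (nat_lit 0) (nat_lit 3524413996) (nat_lit 152) (nat_lit 30180136304) (nat_lit 0) (nat_lit 792514668) (nat_lit 149) (nat_lit 5) (nat_lit 151) (nat_lit 4) (nat_lit 149) (nat_lit 4) (nat_lit 393) (nat_lit 324) (nat_lit 303)))) (XT.nd (nat_lit 156) (nat_lit 228) (nat_lit 0)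 (XT.nd (nat_lit 78) (nat_lit 152) (nat_lit 0) (XT.lf (nat_lit 0) (nat_lit 12340063689) (nat_lit 76) (nat_lit 13296834533) (nat_lit 76) (nat_lit 10514768805) (nat_lit 148) (nat_lit 4) (nat_lit 149) (nat_lit 5) (nat_lit 149) (nat_lit 4) (nat_lit 394) (nat_lit 324) (nat_lit 302)) (XT.lf (nat_lit 0) (nat_lit 11745073628) (nat_lit 152) (nat_lit 17106477547) (nat_lit 0) (nat_lit 9051248773) (nat_lit 146) (nat_lit 5) (nat_lit 148) (nat_lit 4) (nat_lit 146) (nat_lit 4) (nat_lit 395) (nat_lit 324) (nat_lit 301))) (XT.nd (nat_lit 78) (nat_lit 152) (nat_lit 0) (XT.lf (nat_lit 0) (nat_lit 29658506599) (nat_lit 76) (nat_lit 6414451292) (nat_lit 76) (nat_lit 3679664912) (nat_lit 145) (nat_lit 4) (nat_lit 146) (nat_lit 5) (nat_lit 146) (nat_lit 4) (nat_lit 396) (nat_lit 324) (nat_lit 300)) (XT.lf (nat_lit 0) (nat_lit 20695995588) (nat_lit 152) (nat_lit 2945112711) (nat_lit 0) (nat_lit 18055315856) (nat_lit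 143) (nat_lit 5) (nat_lit 145) (nat_lit 4) (nat_lit 143) (nat_lit 4) (nat_lit 397) (nat_lit 324) (nat_lit 299)))))) (XT.nd (nat_lit 624) (nat_lit 988) (nat_lit 0) (XT.nd (nat_lit 312) (nat_lit 608) (nat_lit 0) (XT.nd (nat_lit 156) (nat_lit 228) (nat_lit 0) (XT.nd (nat_lit 78) (nat_lit 76) (nat_lit 0) (XT.lf (nat_lit 0) (nat_lit 3720894343) (nat_lit 152) (nat_lit 38859288904) (nat_lit 0) (nat_lit 1174108289) (nat_lit 140) (nat_lit 5) (nat_lit 142) (nat_lit 4) (nat_lit 140) (nat_lit 4) (nat_lit 398) (nat_lit 324) (nat_lit 298)) (XT.lf (nat_lit 0) (nat_lit 12910485406) (nat_lit 76) (nat_lit 17787343042) (nat_lit 76) (nat_lit 15211063492) (nat_lit 139) (nat_lit 4) (nat_lit 140) (nat_lit 5) (nat_lit 140) (nat_lit 4) (nat_lit 399) (nat_lit 324) (nat_lit 297))) (XT.nd (nat_lit 78) (nat_lit 76) (nat_lit 0) (XT.lf (nat_lit 0) (nat_lit 11975618077) (nat_lit 152) (nat_lit 26717692066) (nat_lit 0) (nat_lit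 9496010132) (nat_lit 137) (nat_lit 5) (nat_lit 139) (nat_lit 4) (nat_lit 137) (nat_lit 4) (nat_lit 400) (nat_lit 324) (nat_lit 296)) (XT.lf (nat_lit 0) (nat_lit 30410610995) (nat_lit 76) (nat_lit 11342672513) (nat_lit 76) (nat_lit 8838982740) (nat_lit 136) (nat_lit 4) (nat_lit 137) (nat_lit 5) (nat_lit 137) (nat_lit 4) (nat_lit 401) (nat_lit 324) (nat_lit 295)))) (XT.nd (nat_lit 156) (nat_lit 380) (nat_lit 0) (XT.nd (nat_lit 78) (nat_lit 76) (nat_lit 0) (XT.lf (nat_lit 0) (nat_lit 21055583298) (nat_lit 152) (nat_lit 13416143543) (nat_lit 0) (nat_lit 18649880667) (nat_lit 134) (nat_lit 5) (nat_lit 136) (nat_lit 4) (nat_lit 134) (nat_lit 4) (nat_lit 402) (nat_lit 324) (nat_lit 294)) (XT.lf (nat_lit 0) (nat_lit 49708832977) (nat_lit 76) (nat_lit 4257923962) (nat_lit 76) (nat_lit 1832558202) (nat_lit 133) (nat_lit 4) (nat_lit 134) (nat_lit 5) (nat_lit 134) (nat_lit 4) (nat_lit 403) (nat_lit 324)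 (nat_lit 293))) (XT.nd (nat_lit 78) (nat_lit 152) (nat_lit 0) (XT.lf (nat_lit 0) (nat_lit 1297723820) (nat_lit 76) (nat_lit 29816312407) (nat_lit 76) (nat_lit 27489100634) (nat_lit 130) (nat_lit 4) (nat_lit 131) (nat_lit 5) (nat_lit 131) (nat_lit 4) (nat_lit 404) (nat_lit 324) (nat_lit 292)) (XT.lf (nat_lit 0) (nat_lit 5944112368) (nat_lit 152) (nat_lit 51914223850) (nat_lit 0) (nat_lit 3712429533) (nat_lit 128) (nat_lit 5) (nat_lit 130) (nat_lit 4) (nat_lit 128) (nat_lit 4) (nat_lit 405) (nat_lit 324) (nat_lit 291))))) (XT.nd (nat_lit 312) (nat_lit 532) (nat_lit 0) (XT.nd (nat_lit 156) (nat_lit 228) (nat_lit 0) (XT.nd (nat_lit 78) (nat_lit 152) (nat_lit 0) (XT.lf (nat_lit 0) (nat_lit 18116480193) (nat_lit 76) (nat_lit 24405489988) (nat_lit 76) (nat_lit 22159649125) (nat_lit 127) (nat_lit 4) (nat_lit 128) (nat_lit 5) (nat_lit 128) (nat_lit 4) (nat_lit 406) (nat_lit 324) (nat_lit 290)) (XT.lf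 (nat_lit 0) (nat_lit 14718889789) (nat_lit 152) (nat_lit 40684937003) (nat_lit 0) (nat_lit 12567508695) (nat_lit 125) (nat_lit 5) (nat_lit 127) (nat_lit 4) (nat_lit 125) (nat_lit 4) (nat_lit 407) (nat_lit 324) (nat_lit 289))) (XT.nd (nat_lit 78) (nat_lit 152) (nat_lit 0) (XT.lf (nat_lit 0) (nat_lit 36872707927) (nat_lit 76) (nat_lit 18361575895) (nat_lit 76) (nat_lit 16198634585) (nat_lit 124) (nat_lit 4) (nat_lit 125) (nat_lit 5) (nat_lit 125) (nat_lit 4) (nat_lit 408) (nat_lit 324) (nat_lit 288)) (XT.lf (nat_lit 0) (nat_lit 24530203481) (nat_lit 152) (nat_lit 28088910145) (nat_lit 0) (nat_lit 22460065182) (nat_lit 122) (nat_lit 5) (nat_lit 124) (nat_lit 4) (nat_lit 122) (nat_lit 4) (nat_lit 409) (nat_lit 324) (nat_lit 287)))) (XT.nd (nat_lit 156) (nat_lit 304) (nat_lit 0) (XT.nd (nat_lit 78) (nat_lit 152) (nat_lit 0) (XT.lf (nat_lit 0) (nat_lit 57877659414) (nat_lit 76) (nat_lit 11565555522)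 (nat_lit 76) (nat_lit 9485978155) (nat_lit 121) (nat_lit 4) (nat_lit 122) (nat_lit 5) (nat_lit 122) (nat_lit 4) (nat_lit 410) (nat_lit 324) (nat_lit 286)) (XT.lf (nat_lit 0) (nat_lit 35542534453) (nat_lit 152) (nat_lit 13873984492) (nat_lit 0) (nat_lit 33553660885) (nat_lit 119) (nat_lit 5) (nat_lit 121) (nat_lit 4) (nat_lit 119) (nat_lit 4) (nat_lit 411) (nat_lit 324) (nat_lit 285))) (XT.nd (nat_lit 78) (nat_lit 228) (nat_lit 0) (XT.lf (nat_lit 0) (nat_lit 81482243580) (nat_lit 76) (nat_lit 3882411869) (nat_lit 76) (nat_lit 1885831178) (nat_lit 118) (nat_lit 4) (nat_lit 119) (nat_lit 5) (nat_lit 119) (nat_lit 4) (nat_lit 412) (nat_lit 324) (nat_lit 284)) (XT.lf (nat_lit 0) (nat_lit 2319805634) (nat_lit 76) (nat_lit 45657596506) (nat_lit 76) (nat_lit 43749294679) (nat_lit 115) (nat_lit 4) (nat_lit 116) (nat_lit 5) (nat_lit 116) (nat_lit 4) (nat_lit 413) (nat_lit 324) (nat_lit 283)))))))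
noncomputable def xc45 : XT := (XT.nd (nat_lit 1248) (nat_lit 2052) (nat_lit 0) (XT.nd (nat_lit 624) (nat_lit 1064) (nat_lit 0) (XT.nd (nat_lit 312) (nat_lit 456) (nat_lit 0) (XT.nd (nat_lit 156) (nat_lit 228) (nat_lit 0) (XT.nd (nat_lit 78) (nat_lit 76) (nat_lit 0) (XT.lf (nat_lit 0) (nat_lit 6805067378) (nat_lit 152) (nat_lit 84680310968) (nat_lit 0) (nat_lit 4981643764) (nat_lit 113) (nat_lit 5) (nat_lit 115) (nat_lit 4) (nat_lit 113) (nat_lit 4) (nat_lit 414) (nat_lit 324) (nat_lit 282)) (XT.lf (nat_lit 0) (nat_lit 21274436581) (nat_lit 76) (nat_lit 40992721325) (nat_lit 76) (nat_lit 39163748356) (nat_lit 112) (nat_lit 4) (nat_lit 113) (nat_lit 5) (nat_lit 113) (nat_lit 4) (nat_lit 415) (nat_lit 324) (nat_lit 281))) (XT.nd (nat_lit 78) (nat_lit 76) (nat_lit 0) (XT.lf (nat_lit 0) (nat_lit 16826125436) (nat_lit 152) (nat_lit 74777226847) (nat_lit 0) (nat_lit 15079352807) (nat_lit 110) (nat_lit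 5) (nat_lit 112) (nat_lit 4) (nat_lit 110) (nat_lit 4) (nat_lit 416) (nat_lit 324) (nat_lit 280)) (XT.lf (nat_lit 0) (nat_lit 42910308521) (nat_lit 76) (nat_lit 35519112343) (nat_lit 76) (nat_lit 33767808593) (nat_lit 109) (nat_lit 4) (nat_lit 110) (nat_lit 5) (nat_lit 110) (nat_lit 4) (nat_lit 417) (nat_lit 324) (nat_lit 279)))) (XT.nd (nat_lit 156) (nat_lit 228) (nat_lit 0) (XT.nd (nat_lit 78) (nat_lit 76) (nat_lit 0) (XT.lf (nat_lit 0) (nat_lit 28283065332) (nat_lit 152) (nat_lit 63121110357) (nat_lit 0) (nat_lit 26611161301) (nat_lit 107) (nat_lit 5) (nat_lit 109) (nat_lit 4) (nat_lit 107) (nat_lit 4) (nat_lit 418) (nat_lit 324) (nat_lit 278)) (XT.lf (nat_lit 0) (nat_lit 67657126978) (nat_lit 76) (nat_lit 29079308536) (nat_lit 76) (nat_lit 27403704786) (nat_lit 106) (nat_lit 4) (nat_lit 107) (nat_lit 5) (nat_lit 107) (nat_lit 4) (nat_lit 419) (nat_lit 324) (nat_lit 277))) (XT.nd (nat_lit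 78) (nat_lit 76) (nat_lit 0) (XT.lf (nat_lit 0) (nat_lit 41403090624) (nat_lit 152) (nat_lit 49378198562) (nat_lit 0) (nat_lit 39804014989) (nat_lit 104) (nat_lit 5) (nat_lit 106) (nat_lit 4) (nat_lit 104) (nat_lit 4) (nat_lit 420) (nat_lit 324) (nat_lit 276)) (XT.lf (nat_lit 0) (nat_lit 96001862929) (nat_lit 76) (nat_lit 21493403123) (nat_lit 76) (nat_lit 19891306618) (nat_lit 103) (nat_lit 4) (nat_lit 104) (nat_lit 5) (nat_lit 104) (nat_lit 4) (nat_lit 421) (nat_lit 324) (nat_lit 275))))) (XT.nd (nat_lit 312) (nat_lit 608) (nat_lit 0) (XT.nd (nat_lit 156) (nat_lit 228) (nat_lit 0) (XT.nd (nat_lit 78) (nat_lit 76) (nat_lit 0) (XT.lf (nat_lit 0) (nat_lit 56443603601) (nat_lit 152) (nat_lit 33167352645) (nat_lit 0) (nat_lit 54915133499) (nat_lit 101) (nat_lit 5) (nat_lit 103) (nat_lit 4) (nat_lit 101) (nat_lit 4) (nat_lit 422) (nat_lit 324) (nat_lit 274)) (XT.lf (nat_lit 0) (nat_lit 128496294206)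 (nat_lit 76) (nat_lit 12555957175) (nat_lit 76) (nat_lit 11025020493) (nat_lit 100) (nat_lit 4) (nat_lit 101) (nat_lit 5) (nat_lit 101) (nat_lit 4) (nat_lit 423) (nat_lit 324) (nat_lit 273))) (XT.nd (nat_lit 78) (nat_lit 76) (nat_lit 0) (XT.lf (nat_lit 0) (nat_lit 73696183602) (nat_lit 152) (nat_lit 14053536641) (nat_lit 0) (nat_lit 72235973551) (nat_lit 98) (nat_lit 5) (nat_lit 100) (nat_lit 4) (nat_lit 98) (nat_lit 4) (nat_lit 424) (nat_lit 324) (nat_lit 272)) (XT.lf (nat_lit 0) (nat_lit 165765495837) (nat_lit 76) (nat_lit 2032510748) (nat_lit 76) (nat_lit 570286703) (nat_lit 97) (nat_lit 4) (nat_lit 98) (nat_lit 5) (nat_lit 98) (nat_lit 4) (nat_lit 425) (nat_lit 324) (nat_lit 271)))) (XT.nd (nat_lit 156) (nat_lit 228) (nat_lit 0) (XT.nd (nat_lit 78) (nat_lit 152) (nat_lit 0) (XT.lf (nat_lit 0) (nat_lit 8739258051) (nat_lit 76) (nat_lit 84888249182) (nat_lit 76) (nat_lit 83493878843) (nat_lit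 94) (nat_lit 4) (nat_lit 95) (nat_lit 5) (nat_lit 95) (nat_lit 4) (nat_lit 426) (nat_lit 324) (nat_lit 270)) (XT.lf (nat_lit 0) (nat_lit 11888157371) (nat_lit 152) (nat_lit 163950544879) (nat_lit 0) (nat_lit 10558619473) (nat_lit 92) (nat_lit 5) (nat_lit 94) (nat_lit 4) (nat_lit 92) (nat_lit 4) (nat_lit 427) (nat_lit 324) (nat_lit 269))) (XT.nd (nat_lit 78) (nat_lit 152) (nat_lit 0) (XT.lf (nat_lit 0) (nat_lit 36092973158) (nat_lit 76) (nat_lit 80672701326) (nat_lit 76) (nat_lit 79341713293) (nat_lit 91) (nat_lit 4) (nat_lit 92) (nat_lit 5) (nat_lit 92) (nat_lit 4) (nat_lit 428) (nat_lit 324) (nat_lit 268)) (XT.lf (nat_lit 0) (nat_lit 26598876360) (nat_lit 152) (nat_lit 154451598236) (nat_lit 0) (nat_lit 25329989931) (nat_lit 89) (nat_lit 5) (nat_lit 91) (nat_lit 4) (nat_lit 89) (nat_lit 4) (nat_lit 429) (nat_lit 324) (nat_lit 267)))))) (XT.nd (nat_lit 624) (nat_lit 1140) (nat_lit 0) (XT.nd (nat_lit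 312) (nat_lit 456) (nat_lit 0) (XT.nd (nat_lit 156) (nat_lit 228) (nat_lit 0) (XT.nd (nat_lit 78) (nat_lit 152) (nat_lit 0) (XT.lf (nat_lit 0) (nat_lit 68209088703) (nat_lit 76) (nat_lit 75108599450) (nat_lit 76) (nat_lit 73838528966) (nat_lit 88) (nat_lit 4) (nat_lit 89) (nat_lit 5) (nat_lit 89) (nat_lit 4) (nat_lit 430) (nat_lit 324) (nat_lit 266)) (XT.lf (nat_lit 0) (nat_lit 43858680952) (nat_lit 152) (nat_lit 142026748806) (nat_lit 0) (nat_lit 42648045875) (nat_lit 86) (nat_lit 5) (nat_lit 88) (nat_lit 4) (nat_lit 86) (nat_lit 4) (nat_lit 431) (nat_lit 324) (nat_lit 265))) (XT.nd (nat_lit 78) (nat_lit 152) (nat_lit 0) (XT.lf (nat_lit 0) (nat_lit 105846262671) (nat_lit 76) (nat_lit 67928123794) (nat_lit 76) (nat_lit 66716521920) (nat_lit 85) (nat_lit 4) (nat_lit 86) (nat_lit 5) (nat_lit 86) (nat_lit 4) (nat_lit 432) (nat_lit 324) (nat_lit 264)) (XT.lf (nat_lit 0) (nat_lit 64069402624) (nat_lit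 152) (nat_lit 126106867700) (nat_lit 0) (nat_lit 62914643524) (nat_lit 83) (nat_lit 5) (nat_lit 85) (nat_lit 4) (nat_lit 83) (nat_lit 4) (nat_lit 433) (nat_lit 324) (nat_lit 263)))) (XT.nd (nat_lit 156) (nat_lit 228) (nat_lit 0) (XT.nd (nat_lit 78) (nat_lit 152) (nat_lit 0) (XT.lf (nat_lit 0) (nat_lit 149867990238) (nat_lit 76) (nat_lit 58823137456) (nat_lit 76) (nat_lit 57667588954) (nat_lit 82) (nat_lit 4) (nat_lit 83) (nat_lit 5) (nat_lit 83) (nat_lit 4) (nat_lit 434) (nat_lit 324) (nat_lit 262)) (XT.lf (nat_lit 0) (nat_lit 87688245189) (nat_lit 152) (nat_lit 106037528449) (nat_lit 0) (nat_lit 86587026685) (nat_lit 80) (nat_lit 5) (nat_lit 82) (nat_lit 4) (nat_lit 80) (nat_lit 4) (nat_lit 435) (nat_lit 324) (nat_lit 261))) (XT.nd (nat_lit 78) (nat_lit 152) (nat_lit 0) (XT.lf (nat_lit 0) (nat_lit 201256508062) (nat_lit 76) (nat_lit 47439550978) (nat_lit 76) (nat_lit 46337687917) (nat_lit 79)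 (nat_lit 4) (nat_lit 80) (nat_lit 5) (nat_lit 80) (nat_lit 4) (nat_lit 436) (nat_lit 324) (nat_lit 260)) (XT.lf (nat_lit 0) (nat_lit 115235112120) (nat_lit 152) (nat_lit 81067119293) (nat_lit 0) (nat_lit 114185150336) (nat_lit 77) (nat_lit 5) (nat_lit 79) (nat_lit 4) (nat_lit 77) (nat_lit 4) (nat_lit 437) (nat_lit 324) (nat_lit 259))))) (XT.nd (nat_lit 312) (nat_lit 684) (nat_lit 0) (XT.nd (nat_lit 156) (nat_lit 228) (nat_lit 0) (XT.nd (nat_lit 78) (nat_lit 152) (nat_lit 0) (XT.lf (nat_lit 0) (nat_lit 261128465801) (nat_lit 76) (nat_lit 33370945882) (nat_lit 76) (nat_lit 32320457809) (nat_lit 76) (nat_lit 4) (nat_lit 77) (nat_lit 5) (nat_lit 77) (nat_lit 4) (nat_lit 438) (nat_lit 324) (nat_lit 258)) (XT.lf (nat_lit 0) (nat_lit 147300863231) (nat_lit 152) (nat_lit 50333396466) (nat_lit 0) (nat_lit 146299934299) (nat_lit 74) (nat_lit 5) (nat_lit 76) (nat_lit 4) (nat_lit 74) (nat_lit 4) (nat_lit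 439) (nat_lit 324) (nat_lit 257))) (XT.nd (nat_lit 78) (nat_lit 152) (nat_lit 0) (XT.lf (nat_lit 0) (nat_lit 330752584251) (nat_lit 76) (nat_lit 16151363122) (nat_lit 76) (nat_lit 15150004468) (nat_lit 73) (nat_lit 4) (nat_lit 74) (nat_lit 5) (nat_lit 74) (nat_lit 4) (nat_lit 440) (nat_lit 324) (nat_lit 256)) (XT.lf (nat_lit 0) (nat_lit 184556616096) (nat_lit 152) (nat_lit 12848280593) (nat_lit 0) (nat_lit 183602562244) (nat_lit 71) (nat_lit 5) (nat_lit 73) (nat_lit 4) (nat_lit 71) (nat_lit 4) (nat_lit 441) (nat_lit 324) (nat_lit 255)))) (XT.nd (nat_lit 156) (nat_lit 380) (nat_lit 0) (XT.nd (nat_lit 78) (nat_lit 76) (nat_lit 0) (XT.lf (nat_lit 0) (nat_lit 5770268670) (nat_lit 152) (nat_lit 390461123019) (nat_lit 0) (nat_lit 4861311788) (nat_lit 68) (nat_lit 5) (nat_lit 70) (nat_lit 4) (nat_lit 68) (nat_lit 4) (nat_lit 442) (nat_lit 324) (nat_lit 254)) (XT.lf (nat_lit 0) (nat_lit 33594562026)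 (nat_lit 76) (nat_lit 194694164826) (nat_lit 76) (nat_lit 193784898532) (nat_lit 67) (nat_lit 4) (nat_lit 68) (nat_lit 5) (nat_lit 68) (nat_lit 4) (nat_lit 443) (nat_lit 324) (nat_lit 253))) (XT.nd (nat_lit 78) (nat_lit 228) (nat_lit 0) (XT.lf (nat_lit 0) (nat_lit 31338621075) (nat_lit 152) (nat_lit 382492023859) (nat_lit 0) (nat_lit 30472380325) (nat_lit 65) (nat_lit 5) (nat_lit 67) (nat_lit 4) (nat_lit 65) (nat_lit 4) (nat_lit 444) (nat_lit 324) (nat_lit 252)) (XT.nd (nat_lit 78) (nat_lit 152) (nat_lit 0) (XT.lf (nat_lit 0) (nat_lit 89941647022) (nat_lit 76) (nat_lit 189250652795) (nat_lit 76) (nat_lit 188384159406) (nat_lit 64) (nat_lit 4) (nat_lit 65) (nat_lit 5) (nat_lit 65) (nat_lit 4) (nat_lit 445) (nat_lit 324) (nat_lit 251)) (XT.lf (nat_lit 0) (nat_lit 61983875812) (nat_lit 152) (nat_lit 369049443976) (nat_lit 0) (nat_lit 61158421226) (nat_lit 62) (nat_lit 5) (nat_lit 64) (nat_lit 4)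 (nat_lit 62) (nat_lit 4) (nat_lit 446) (nat_lit 324) (nat_lit 250))))))))
noncomputable def xc46 : XT := (XT.nd (nat_lit 48282) (nat_lit 0) (nat_lit 5776) (XT.nd (nat_lit 47658) (nat_lit 0) (nat_lit 8056) (XT.nd (nat_lit 47346) (nat_lit 0) (nat_lit 9348) (XT.nd (nat_lit 47190) (nat_lit 0) (nat_lit 10032) (XT.nd (nat_lit 47112) (nat_lit 0) (nat_lit 10488) (XT.lf (nat_lit 0) (nat_lit 157294898976) (nat_lit 76) (nat_lit 180769226134) (nat_lit 76) (nat_lit 179943565265) (nat_lit 61) (nat_lit 4) (nat_lit 62) (nat_lit 5) (nat_lit 62) (nat_lit 4) (nat_lit 447) (nat_lit 324) (nat_lit 249)) (XT.lf (nat_lit 0) (nat_lit 897685299) (nat_lit 152) (nat_lit 4774349444) (nat_lit 0) (nat_lit 897685299) (nat_lit 199) (nat_lit 5) (nat_lit 201) (nat_lit 4) (nat_lit 199) (nat_lit 4) (nat_lit 370) (nat_lit 325) (nat_lit 325))) (XT.nd (nat_lit 78) (nat_lit 304) (nat_lit 0) (XT.lf (nat_lit 0) (nat_lit 10840789896) (nat_lit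 152) (nat_lit 1691661761) (nat_lit 152) (nat_lit 1096322757) (nat_lit 197) (nat_lit 4) (nat_lit 199) (nat_lit 5) (nat_lit 199) (nat_lit 4) (nat_lit 371) (nat_lit 325) (nat_lit 324)) (XT.lf (nat_lit 0) (nat_lit 4260787348) (nat_lit 152) (nat_lit 5487916945) (nat_lit 152) (nat_lit 4395937112) (nat_lit 193) (nat_lit 4) (nat_lit 195) (nat_lit 5) (nat_lit 195) (nat_lit 4) (nat_lit 372) (nat_lit 325) (nat_lit 323)))) (XT.nd (nat_lit 156) (nat_lit 304) (nat_lit 0) (XT.nd (nat_lit 78) (nat_lit 228) (nat_lit 0) (XT.lf (nat_lit 0) (nat_lit 6570213477) (nat_lit 152) (nat_lit 3054974069) (nat_lit 0) (nat_lit 5067278271) (nat_lit 191) (nat_lit 5) (nat_lit 193) (nat_lit 4) (nat_lit 191) (nat_lit 4) (nat_lit 373) (nat_lit 325) (nat_lit 322)) (XT.lf (nat_lit 0) (nat_lit 2984507686) (nat_lit 152) (nat_lit 11143751480) (nat_lit 0) (nat_lit 1144891782) (nat_lit 188) (nat_lit 5) (nat_lit 190) (nat_lit 4) (nat_lit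 188) (nat_lit 4) (nat_lit 374) (nat_lit 325) (nat_lit 321))) (XT.nd (nat_lit 78) (nat_lit 228) (nat_lit 0) (XT.lf (nat_lit 0) (nat_lit 11598044276) (nat_lit 76) (nat_lit 3252718687) (nat_lit 76) (nat_lit 1035094412) (nat_lit 187) (nat_lit 4) (nat_lit 188) (nat_lit 5) (nat_lit 188) (nat_lit 4) (nat_lit 375) (nat_lit 325) (nat_lit 320)) (XT.lf (nat_lit 0) (nat_lit 2815548445) (nat_lit 76) (nat_lit 8081015617) (nat_lit 76) (nat_lit 5635651782) (nat_lit 184) (nat_lit 4) (nat_lit 185) (nat_lit 5) (nat_lit 185) (nat_lit 4) (nat_lit 376) (nat_lit 325) (nat_lit 319))))) (XT.nd (nat_lit 312) (nat_lit 684) (nat_lit 0) (XT.nd (nat_lit 156) (nat_lit 228) (nat_lit 0) (XT.nd (nat_lit 78) (nat_lit 228) (nat_lit 0) (XT.lf (nat_lit 0) (nat_lit 6469732148) (nat_lit 152) (nat_lit 6899688835) (nat_lit 0) (nat_lit 3846862961) (nat_lit 182) (nat_lit 5) (nat_lit 184) (nat_lit 4) (nat_lit 182) (nat_lit 4) (nat_lit 377)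 (nat_lit 325) (nat_lit 318)) (XT.lf (nat_lit 0) (nat_lit 142728788) (nat_lit 76) (nat_lit 1339112702) (nat_lit 152) (nat_lit 16460983727) (nat_lit 179) (nat_lit 5) (nat_lit 180) (nat_lit 5) (nat_lit 181) (nat_lit 4) (nat_lit 378) (nat_lit 325) (nat_lit 317))) (XT.nd (nat_lit 78) (nat_lit 152) (nat_lit 0) (XT.lf (nat_lit 0) (nat_lit 7549918523) (nat_lit 76) (nat_lit 7075155439) (nat_lit 76) (nat_lit 4077953454) (nat_lit 178) (nat_lit 4) (nat_lit 179) (nat_lit 5) (nat_lit 179) (nat_lit 4) (nat_lit 379) (nat_lit 325) (nat_lit 316)) (XT.lf (nat_lit 0) (nat_lit 9141904194) (nat_lit 152) (nat_lit 4291927067) (nat_lit 0) (nat_lit 6075772618) (nat_lit 176) (nat_lit 5) (nat_lit 178) (nat_lit 4) (nat_lit 176) (nat_lit 4) (nat_lit 380) (nat_lit 325) (nat_lit 315)))) (XT.nd (nat_lit 156) (nat_lit 380) (nat_lit 0) (XT.nd (nat_lit 78) (nat_lit 76) (nat_lit 0) (XT.lf (nat_lit 0) (nat_lit 2931350082) (nat_lit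 76) (nat_lit 89848511) (nat_lit 152) (nat_lit 17343158443) (nat_lit 173) (nat_lit 5) (nat_lit 174) (nat_lit 5) (nat_lit 175) (nat_lit 4) (nat_lit 381) (nat_lit 325) (nat_lit 314)) (XT.lf (nat_lit 0) (nat_lit 10431565820) (nat_lit 76) (nat_lit 7054308996) (nat_lit 76) (nat_lit 3774722527) (nat_lit 172) (nat_lit 4) (nat_lit 173) (nat_lit 5) (nat_lit 173) (nat_lit 4) (nat_lit 382) (nat_lit 325) (nat_lit 313))) (XT.nd (nat_lit 78) (nat_lit 228) (nat_lit 0) (XT.lf (nat_lit 0) (nat_lit 10738033710) (nat_lit 152) (nat_lit 4009436745) (nat_lit 0) (nat_lit 7462221319) (nat_lit 170) (nat_lit 5) (nat_lit 172) (nat_lit 4) (nat_lit 170) (nat_lit 4) (nat_lit 383) (nat_lit 325) (nat_lit 312)) (XT.lf (nat_lit 0) (nat_lit 3212748587) (nat_lit 76) (nat_lit 21236309) (nat_lit 152) (nat_lit 19981075717) (nat_lit 167) (nat_lit 5) (nat_lit 168) (nat_lit 5) (nat_lit 169) (nat_lit 4) (nat_lit 384) (nat_lit 325) (nat_lit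 311)))))) (XT.nd (nat_lit 624) (nat_lit 1140) (nat_lit 0) (XT.nd (nat_lit 312) (nat_lit 608) (nat_lit 0) (XT.nd (nat_lit 156) (nat_lit 304) (nat_lit 0) (XT.nd (nat_lit 78) (nat_lit 152) (nat_lit 0) (XT.lf (nat_lit 0) (nat_lit 10691232563) (nat_lit 76) (nat_lit 8478055637) (nat_lit 76) (nat_lit 5099411766) (nat_lit 166) (nat_lit 4) (nat_lit 167) (nat_lit 5) (nat_lit 167) (nat_lit 4) (nat_lit 385) (nat_lit 325) (nat_lit 310)) (XT.lf (nat_lit 0) (nat_lit 10898999503) (nat_lit 152) (nat_lit 6913681221) (nat_lit 0) (nat_lit 7571513352) (nat_lit 164) (nat_lit 5) (nat_lit 166) (nat_lit 4) (nat_lit 164) (nat_lit 4) (nat_lit 386) (nat_lit 325) (nat_lit 309))) (XT.nd (nat_lit 78) (nat_lit 76) (nat_lit 0) (XT.lf (nat_lit 0) (nat_lit 58633631) (nat_lit 76) (nat_lit 1642694033) (nat_lit 152) (nat_lit 24865681311) (nat_lit 161) (nat_lit 5) (nat_lit 162) (nat_lit 5) (nat_lit 163) (nat_lit 4) (nat_lit 387) (nat_lit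 325) (nat_lit 308)) (XT.lf (nat_lit 0) (nat_lit 7360864165) (nat_lit 76) (nat_lit 11898939935) (nat_lit 76) (nat_lit 8543545703) (nat_lit 160) (nat_lit 4) (nat_lit 161) (nat_lit 5) (nat_lit 161) (nat_lit 4) (nat_lit 388) (nat_lit 325) (nat_lit 307)))) (XT.nd (nat_lit 156) (nat_lit 380) (nat_lit 0) (XT.nd (nat_lit 78) (nat_lit 76) (nat_lit 0) (XT.lf (nat_lit 0) (nat_lit 9150706080) (nat_lit 152) (nat_lit 14086861465) (nat_lit 0) (nat_lit 5876083655) (nat_lit 158) (nat_lit 5) (nat_lit 160) (nat_lit 4) (nat_lit 158) (nat_lit 4) (nat_lit 389) (nat_lit 325) (nat_lit 306)) (XT.lf (nat_lit 0) (nat_lit 23013212005) (nat_lit 76) (nat_lit 5416457888) (nat_lit 76) (nat_lit 2068679103) (nat_lit 157) (nat_lit 4) (nat_lit 158) (nat_lit 5) (nat_lit 158) (nat_lit 4) (nat_lit 390) (nat_lit 325) (nat_lit 305))) (XT.nd (nat_lit 78) (nat_lit 228) (nat_lit 0) (XT.lf (nat_lit 0) (nat_lit 17225879811) (nat_lit 152)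 (nat_lit 755409543) (nat_lit 0) (nat_lit 13973007281) (nat_lit 155) (nat_lit 5) (nat_lit 157) (nat_lit 4) (nat_lit 155) (nat_lit 4) (nat_lit 391) (nat_lit 325) (nat_lit 304)) (XT.lf (nat_lit 0) (nat_lit 4879316803) (nat_lit 152) (nat_lit 26889978134) (nat_lit 0) (nat_lit 1724454267) (nat_lit 152) (nat_lit 5) (nat_lit 154) (nat_lit 4) (nat_lit 152) (nat_lit 4) (nat_lit 392) (nat_lit 325) (nat_lit 303))))) (XT.nd (nat_lit 312) (nat_lit 684) (nat_lit 0) (XT.nd (nat_lit 156) (nat_lit 228) (nat_lit 0) (XT.nd (nat_lit 78) (nat_lit 152) (nat_lit 0) (XT.lf (nat_lit 0) (nat_lit 14128668216) (nat_lit 76) (nat_lit 12094489752) (nat_lit 76) (nat_lit 8886952497) (nat_lit 151) (nat_lit 4) (nat_lit 152) (nat_lit 5) (nat_lit 152) (nat_lit 4) (nat_lit 393) (nat_lit 325) (nat_lit 302)) (XT.lf (nat_lit 0) (nat_lit 12568594994) (nat_lit 152) (nat_lit 14782776538) (nat_lit 0) (nat_lit 9467347239) (nat_lit 149) (nat_lit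 5) (nat_lit 151) (nat_lit 4) (nat_lit 149) (nat_lit 4) (nat_lit 394) (nat_lit 325) (nat_lit 301))) (XT.nd (nat_lit 78) (nat_lit 152) (nat_lit 0) (XT.lf (nat_lit 0) (nat_lit 30364961608) (nat_lit 76) (nat_lit 5702068567) (nat_lit 76) (nat_lit 2557811210) (nat_lit 148) (nat_lit 4) (nat_lit 149) (nat_lit 5) (nat_lit 149) (nat_lit 4) (nat_lit 395) (nat_lit 325) (nat_lit 300)) (XT.lf (nat_lit 0) (nat_lit 20960514677) (nat_lit 152) (nat_lit 1632660986) (nat_lit 0) (nat_lit 17928056523) (nat_lit 146) (nat_lit 5) (nat_lit 148) (nat_lit 4) (nat_lit 146) (nat_lit 4) (nat_lit 396) (nat_lit 325) (nat_lit 299)))) (XT.nd (nat_lit 156) (nat_lit 380) (nat_lit 0) (XT.nd (nat_lit 78) (nat_lit 76) (nat_lit 0) (XT.lf (nat_lit 0) (nat_lit 4308918117) (nat_lit 152) (nat_lit 36831811587) (nat_lit 0) (nat_lit 1387417108) (nat_lit 143) (nat_lit 5) (nat_lit 145) (nat_lit 4) (nat_lit 143) (nat_lit 4) (nat_lit 397) (nat_lit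 325) (nat_lit 298)) (XT.lf (nat_lit 0) (nat_lit 13165497217) (nat_lit 76) (nat_lit 17208984855) (nat_lit 76) (nat_lit 14256515674) (nat_lit 142) (nat_lit 4) (nat_lit 143) (nat_lit 5) (nat_lit 143) (nat_lit 4) (nat_lit 398) (nat_lit 325) (nat_lit 297))) (XT.nd (nat_lit 78) (nat_lit 228) (nat_lit 0) (XT.lf (nat_lit 0) (nat_lit 11994100198) (nat_lit 152) (nat_lit 25706841952) (nat_lit 0) (nat_lit 9154915995) (nat_lit 140) (nat_lit 5) (nat_lit 142) (nat_lit 4) (nat_lit 140) (nat_lit 4) (nat_lit 399) (nat_lit 325) (nat_lit 296)) (XT.nd (nat_lit 78) (nat_lit 152) (nat_lit 0) (XT.lf (nat_lit 0) (nat_lit 29497822799) (nat_lit 76) (nat_lit 11283435226) (nat_lit 76) (nat_lit 8418965104) (nat_lit 139) (nat_lit 4) (nat_lit 140) (nat_lit 5) (nat_lit 140) (nat_lit 4) (nat_lit 400) (nat_lit 325) (nat_lit 295)) (XT.lf (nat_lit 0) (nat_lit 20468529507) (nat_lit 152) (nat_lit 13481028555) (nat_lit 0) (nat_lit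 17718164736) (nat_lit 137) (nat_lit 5) (nat_lit 139) (nat_lit 4) (nat_lit 137) (nat_lit 4) (nat_lit 401) (nat_lit 325) (nat_lit 294))))))))
noncomputable def xc47 : XT := (XT.nd (nat_lit 1248) (nat_lit 2052) (nat_lit 0) (XT.nd (nat_lit 624) (nat_lit 1064) (nat_lit 0) (XT.nd (nat_lit 312) (nat_lit 456) (nat_lit 0) (XT.nd (nat_lit 156) (nat_lit 228) (nat_lit 0) (XT.nd (nat_lit 78) (nat_lit 228) (nat_lit 0) (XT.lf (nat_lit 0) (nat_lit 47549400018) (nat_lit 76) (nat_lit 4750471168) (nat_lit 76) (nat_lit 1979460111) (nat_lit 136) (nat_lit 4) (nat_lit 137) (nat_lit 5) (nat_lit 137) (nat_lit 4) (nat_lit 402) (nat_lit 325) (nat_lit 293)) (XT.lf (nat_lit 0) (nat_lit 46948324) (nat_lit 76) (nat_lit 29812832497) (nat_lit 76) (nat_lit 27155567745) (nat_lit 133) (nat_lit 4) (nat_lit 134) (nat_lit 5) (nat_lit 134) (nat_lit 4) (nat_lit 403) (nat_lit 325) (nat_lit 292))) (XT.nd (nat_lit 78) (nat_lit 76) (nat_lit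 0) (XT.lf (nat_lit 0) (nat_lit 5169191924) (nat_lit 152) (nat_lit 52118954596) (nat_lit 0) (nat_lit 2622408385) (nat_lit 131) (nat_lit 5) (nat_lit 133) (nat_lit 4) (nat_lit 131) (nat_lit 4) (nat_lit 404) (nat_lit 325) (nat_lit 291)) (XT.lf (nat_lit 0) (nat_lit 15596981094) (nat_lit 76) (nat_lit 24954324432) (nat_lit 76) (nat_lit 22392674964) (nat_lit 130) (nat_lit 4) (nat_lit 131) (nat_lit 5) (nat_lit 131) (nat_lit 4) (nat_lit 405) (nat_lit 325) (nat_lit 290)))) (XT.nd (nat_lit 156) (nat_lit 228) (nat_lit 0) (XT.nd (nat_lit 78) (nat_lit 76) (nat_lit 0) (XT.lf (nat_lit 0) (nat_lit 13284093503) (nat_lit 152) (nat_lit 42037792845) (nat_lit 0) (nat_lit 10831318057) (nat_lit 128) (nat_lit 5) (nat_lit 130) (nat_lit 4) (nat_lit 128) (nat_lit 4) (nat_lit 406) (nat_lit 325) (nat_lit 289)) (XT.lf (nat_lit 0) (nat_lit 32985659555) (nat_lit 76) (nat_lit 19503564088) (nat_lit 76) (nat_lit 17038650415) (nat_lit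 127) (nat_lit 4) (nat_lit 128) (nat_lit 5) (nat_lit 128) (nat_lit 4) (nat_lit 407) (nat_lit 325) (nat_lit 288))) (XT.nd (nat_lit 78) (nat_lit 76) (nat_lit 0) (XT.lf (nat_lit 0) (nat_lit 22382995462) (nat_lit 152) (nat_lit 30676962413) (nat_lit 0) (nat_lit 20024754727) (nat_lit 125) (nat_lit 5) (nat_lit 127) (nat_lit 4) (nat_lit 125) (nat_lit 4) (nat_lit 408) (nat_lit 325) (nat_lit 287)) (XT.lf (nat_lit 0) (nat_lit 52508910310) (nat_lit 76) (nat_lit 13348292263) (nat_lit 76) (nat_lit 10980140506) (nat_lit 124) (nat_lit 4) (nat_lit 125) (nat_lit 5) (nat_lit 125) (nat_lit 4) (nat_lit 409) (nat_lit 325) (nat_lit 286))))) (XT.nd (nat_lit 312) (nat_lit 456) (nat_lit 0) (XT.nd (nat_lit 156) (nat_lit 380) (nat_lit 0) (XT.nd (nat_lit 78) (nat_lit 76) (nat_lit 0) (XT.lf (nat_lit 0) (nat_lit 32622386644) (nat_lit 152) (nat_lit 17798373985) (nat_lit 0) (nat_lit 30358264139) (nat_lit 122) (nat_lit 5) (nat_lit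 124) (nat_lit 4) (nat_lit 122) (nat_lit 4) (nat_lit 410) (nat_lit 325) (nat_lit 285)) (XT.lf (nat_lit 0) (nat_lit 74500650193) (nat_lit 76) (nat_lit 6360972891) (nat_lit 76) (nat_lit 4088757906) (nat_lit 121) (nat_lit 4) (nat_lit 122) (nat_lit 5) (nat_lit 122) (nat_lit 4) (nat_lit 411) (nat_lit 325) (nat_lit 284))) (XT.nd (nat_lit 78) (nat_lit 228) (nat_lit 0) (XT.lf (nat_lit 0) (nat_lit 44178693968) (nat_lit 152) (nat_lit 3131918942) (nat_lit 0) (nat_lit 42007543471) (nat_lit 119) (nat_lit 5) (nat_lit 121) (nat_lit 4) (nat_lit 119) (nat_lit 4) (nat_lit 412) (nat_lit 325) (nat_lit 283)) (XT.lf (nat_lit 0) (nat_lit 3773281933) (nat_lit 152) (nat_lit 88472367337) (nat_lit 0) (nat_lit 1699226587) (nat_lit 116) (nat_lit 5) (nat_lit 118) (nat_lit 4) (nat_lit 116) (nat_lit 4) (nat_lit 413) (nat_lit 325) (nat_lit 282)))) (XT.nd (nat_lit 156) (nat_lit 228) (nat_lit 0) (XT.nd (nat_lit 78) (nat_lit 152)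 (nat_lit 0) (XT.lf (nat_lit 0) (nat_lit 14079497176) (nat_lit 76) (nat_lit 43391230446) (nat_lit 76) (nat_lit 41311348277) (nat_lit 115) (nat_lit 4) (nat_lit 116) (nat_lit 5) (nat_lit 116) (nat_lit 4) (nat_lit 414) (nat_lit 325) (nat_lit 281)) (XT.lf (nat_lit 0) (nat_lit 12937090359) (nat_lit 152) (nat_lit 80016800733) (nat_lit 0) (nat_lit 10951111907) (nat_lit 113) (nat_lit 5) (nat_lit 115) (nat_lit 4) (nat_lit 113) (nat_lit 4) (nat_lit 415) (nat_lit 325) (nat_lit 280))) (XT.nd (nat_lit 78) (nat_lit 152) (nat_lit 0) (XT.lf (nat_lit 0) (nat_lit 33917247899) (nat_lit 76) (nat_lit 38675820061) (nat_lit 76) (nat_lit 36685083932) (nat_lit 112) (nat_lit 4) (nat_lit 113) (nat_lit 5) (nat_lit 113) (nat_lit 4) (nat_lit 416) (nat_lit 325) (nat_lit 279)) (XT.lf (nat_lit 0) (nat_lit 23453017398) (nat_lit 152) (nat_lit 69947381258) (nat_lit 0) (nat_lit 21552882745) (nat_lit 110) (nat_lit 5) (nat_lit 112)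 (nat_lit 4) (nat_lit 110) (nat_lit 4) (nat_lit 417) (nat_lit 325) (nat_lit 278)))))) (XT.nd (nat_lit 624) (nat_lit 1140) (nat_lit 0) (XT.nd (nat_lit 312) (nat_lit 456) (nat_lit 0) (XT.nd (nat_lit 156) (nat_lit 228) (nat_lit 0) (XT.nd (nat_lit 78) (nat_lit 152) (nat_lit 0) (XT.lf (nat_lit 0) (nat_lit 56685279565) (nat_lit 76) (nat_lit 33069596272) (nat_lit 76) (nat_lit 31165576913) (nat_lit 109) (nat_lit 4) (nat_lit 110) (nat_lit 5) (nat_lit 110) (nat_lit 4) (nat_lit 418) (nat_lit 325) (nat_lit 277)) (XT.lf (nat_lit 0) (nat_lit 35536634553) (nat_lit 152) (nat_lit 57950526081) (nat_lit 0) (nat_lit 33719857116) (nat_lit 107) (nat_lit 5) (nat_lit 109) (nat_lit 4) (nat_lit 107) (nat_lit 4) (nat_lit 419) (nat_lit 325) (nat_lit 276))) (XT.nd (nat_lit 78) (nat_lit 152) (nat_lit 0) (XT.lf (nat_lit 0) (nat_lit 82845809626) (nat_lit 76) (nat_lit 26403399164) (nat_lit 76) (nat_lit 24583449813) (nat_lit 106)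 (nat_lit 4) (nat_lit 107) (nat_lit 5) (nat_lit 107) (nat_lit 4) (nat_lit 420) (nat_lit 325) (nat_lit 275)) (XT.lf (nat_lit 0) (nat_lit 49432370051) (nat_lit 152) (nat_lit 43667618996) (nat_lit 0) (nat_lit 47696287853) (nat_lit 104) (nat_lit 5) (nat_lit 106) (nat_lit 4) (nat_lit 104) (nat_lit 4) (nat_lit 421) (nat_lit 325) (nat_lit 274)))) (XT.nd (nat_lit 156) (nat_lit 228) (nat_lit 0) (XT.nd (nat_lit 78) (nat_lit 152) (nat_lit 0) (XT.lf (nat_lit 0) (nat_lit 112922999279) (nat_lit 76) (nat_lit 18483788154) (nat_lit 76) (nat_lit 16745116047) (nat_lit 103) (nat_lit 4) (nat_lit 104) (nat_lit 5) (nat_lit 104) (nat_lit 4) (nat_lit 422) (nat_lit 325) (nat_lit 273)) (XT.lf (nat_lit 0) (nat_lit 65417323232) (nat_lit 152) (nat_lit 26688780962) (nat_lit 0) (nat_lit 63759161164) (nat_lit 101) (nat_lit 5) (nat_lit 103) (nat_lit 4) (nat_lit 101) (nat_lit 4) (nat_lit 423) (nat_lit 325) (nat_lit 272))) (XT.nd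 (nat_lit 78) (nat_lit 152) (nat_lit 0) (XT.lf (nat_lit 0) (nat_lit 147511093789) (nat_lit 76) (nat_lit 9089709016) (nat_lit 76) (nat_lit 7429432253) (nat_lit 100) (nat_lit 4) (nat_lit 101) (nat_lit 5) (nat_lit 101) (nat_lit 4) (nat_lit 424) (nat_lit 325) (nat_lit 271)) (XT.lf (nat_lit 0) (nat_lit 83805557238) (nat_lit 152) (nat_lit 6545831649) (nat_lit 0) (nat_lit 82222476464) (nat_lit 98) (nat_lit 5) (nat_lit 100) (nat_lit 4) (nat_lit 98) (nat_lit 4) (nat_lit 425) (nat_lit 325) (nat_lit 270))))) (XT.nd (nat_lit 312) (nat_lit 608) (nat_lit 0) (XT.nd (nat_lit 156) (nat_lit 228) (nat_lit 0) (XT.nd (nat_lit 78) (nat_lit 76) (nat_lit 0) (XT.lf (nat_lit 0) (nat_lit 3624637184) (nat_lit 152) (nat_lit 175887261923) (nat_lit 0) (nat_lit 2115296754) (nat_lit 95) (nat_lit 5) (nat_lit 97) (nat_lit 4) (nat_lit 95) (nat_lit 4) (nat_lit 426) (nat_lit 325) (nat_lit 269)) (XT.lf (nat_lit 0) (nat_lit 17867532606)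 (nat_lit 76) (nat_lit 87364359116) (nat_lit 76) (nat_lit 85853496045) (nat_lit 94) (nat_lit 4) (nat_lit 95) (nat_lit 5) (nat_lit 95) (nat_lit 4) (nat_lit 427) (nat_lit 325) (nat_lit 268))) (XT.nd (nat_lit 78) (nat_lit 76) (nat_lit 0) (XT.lf (nat_lit 0) (nat_lit 16904536642) (nat_lit 152) (nat_lit 168737027773) (nat_lit 0) (nat_lit 15464276713) (nat_lit 92) (nat_lit 5) (nat_lit 94) (nat_lit 4) (nat_lit 92) (nat_lit 4) (nat_lit 428) (nat_lit 325) (nat_lit 267)) (XT.lf (nat_lit 0) (nat_lit 46947979151) (nat_lit 76) (nat_lit 83047536731) (nat_lit 76) (nat_lit 81606033545) (nat_lit 91) (nat_lit 4) (nat_lit 92) (nat_lit 5) (nat_lit 92) (nat_lit 4) (nat_lit 429) (nat_lit 325) (nat_lit 266)))) (XT.nd (nat_lit 156) (nat_lit 380) (nat_lit 0) (XT.nd (nat_lit 78) (nat_lit 76) (nat_lit 0) (XT.lf (nat_lit 0) (nat_lit 32569214555) (nat_lit 152) (nat_lit 158934307700) (nat_lit 0) (nat_lit 31195258030) (nat_lit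 89) (nat_lit 5) (nat_lit 91) (nat_lit 4) (nat_lit 89) (nat_lit 4) (nat_lit 430) (nat_lit 325) (nat_lit 265)) (XT.lf (nat_lit 0) (nat_lit 81197065025) (nat_lit 76) (nat_lit 77261425870) (nat_lit 76) (nat_lit 75886454210) (nat_lit 88) (nat_lit 4) (nat_lit 89) (nat_lit 5) (nat_lit 89) (nat_lit 4) (nat_lit 431) (nat_lit 325) (nat_lit 264))) (XT.nd (nat_lit 78) (nat_lit 228) (nat_lit 0) (XT.lf (nat_lit 0) (nat_lit 50999149934) (nat_lit 152) (nat_lit 145946657092) (nat_lit 0) (nat_lit 49688757933) (nat_lit 86) (nat_lit 5) (nat_lit 88) (nat_lit 4) (nat_lit 86) (nat_lit 4) (nat_lit 432) (nat_lit 325) (nat_lit 263)) (XT.nd (nat_lit 78) (nat_lit 152) (nat_lit 0) (XT.lf (nat_lit 0) (nat_lit 121432764987) (nat_lit 76) (nat_lit 69717471006) (nat_lit 76) (nat_lit 68406250133) (nat_lit 85) (nat_lit 4) (nat_lit 86) (nat_lit 5) (nat_lit 86) (nat_lit 4) (nat_lit 433) (nat_lit 325) (nat_lit 262)) (XT.lf (nat_lit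 0) (nat_lit 72627643753) (nat_lit 152) (nat_lit 129160777715) (nat_lit 0) (nat_lit 71378131042) (nat_lit 83) (nat_lit 5) (nat_lit 85) (nat_lit 4) (nat_lit 83) (nat_lit 4) (nat_lit 434) (nat_lit 325) (nat_lit 261))))))))
noncomputable def xc48 : XT := (XT.nd (nat_lit 48126) (nat_lit 0) (nat_lit 7752) (XT.nd (nat_lit 624) (nat_lit 684) (nat_lit 0) (XT.nd (nat_lit 312) (nat_lit 456) (nat_lit 0) (XT.nd (nat_lit 156) (nat_lit 228) (nat_lit 0) (XT.nd (nat_lit 78) (nat_lit 152) (nat_lit 0) (XT.lf (nat_lit 0) (nat_lit 168586352002) (nat_lit 76) (nat_lit 60083538912) (nat_lit 76) (nat_lit 58833349416) (nat_lit 82) (nat_lit 4) (nat_lit 83) (nat_lit 5) (nat_lit 83) (nat_lit 4) (nat_lit 435) (nat_lit 325) (nat_lit 260)) (XT.lf (nat_lit 0) (nat_lit 97947837333) (nat_lit 152) (nat_lit 107871176532) (nat_lit 0) (nat_lit 96756583858) (nat_lit 80) (nat_lit 5) (nat_lit 82) (nat_lit 4) (nat_lit 80) (nat_lit 4)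 (nat_lit 436) (nat_lit 325) (nat_lit 259))) (XT.nd (nat_lit 78) (nat_lit 152) (nat_lit 0) (XT.lf (nat_lit 0) (nat_lit 223717410071) (nat_lit 76) (nat_lit 47977833857) (nat_lit 76) (nat_lit 46786027778) (nat_lit 79) (nat_lit 4) (nat_lit 80) (nat_lit 5) (nat_lit 80) (nat_lit 4) (nat_lit 437) (nat_lit 325) (nat_lit 258)) (XT.lf (nat_lit 0) (nat_lit 127520623551) (nat_lit 152) (nat_lit 81267330777) (nat_lit 0) (nat_lit 126385082838) (nat_lit 77) (nat_lit 5) (nat_lit 79) (nat_lit 4) (nat_lit 77) (nat_lit 4) (nat_lit 438) (nat_lit 325) (nat_lit 257)))) (XT.nd (nat_lit 156) (nat_lit 228) (nat_lit 0) (XT.nd (nat_lit 78) (nat_lit 152) (nat_lit 0) (XT.lf (nat_lit 0) (nat_lit 288030755814) (nat_lit 76) (nat_lit 32962012487) (nat_lit 76) (nat_lit 31826020566) (nat_lit 76) (nat_lit 4) (nat_lit 77) (nat_lit 5) (nat_lit 77) (nat_lit 4) (nat_lit 439) (nat_lit 325) (nat_lit 256)) (XT.lf (nat_lit 0) (nat_lit 161983561918)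 (nat_lit 152) (nat_lit 48419169156) (nat_lit 0) (nat_lit 160901266959) (nat_lit 74) (nat_lit 5) (nat_lit 76) (nat_lit 4) (nat_lit 74) (nat_lit 4) (nat_lit 440) (nat_lit 325) (nat_lit 255))) (XT.nd (nat_lit 78) (nat_lit 152) (nat_lit 0) (XT.lf (nat_lit 0) (nat_lit 362895505786) (nat_lit 76) (nat_lit 14533396804) (nat_lit 76) (nat_lit 13450733427) (nat_lit 73) (nat_lit 4) (nat_lit 74) (nat_lit 5) (nat_lit 74) (nat_lit 4) (nat_lit 441) (nat_lit 325) (nat_lit 254)) (XT.lf (nat_lit 0) (nat_lit 202060922123) (nat_lit 152) (nat_lit 8260655425) (nat_lit 0) (nat_lit 201029489263) (nat_lit 71) (nat_lit 5) (nat_lit 73) (nat_lit 4) (nat_lit 71) (nat_lit 4) (nat_lit 442) (nat_lit 325) (nat_lit 253))))) (XT.nd (nat_lit 312) (nat_lit 152) (nat_lit 0) (XT.nd (nat_lit 156) (nat_lit 228) (nat_lit 0) (XT.nd (nat_lit 78) (nat_lit 76) (nat_lit 0) (XT.lf (nat_lit 0) (nat_lit 9028697518) (nat_lit 152) (nat_lit 415965487853)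 (nat_lit 0) (nat_lit 8046094015) (nat_lit 68) (nat_lit 5) (nat_lit 70) (nat_lit 4) (nat_lit 68) (nat_lit 4) (nat_lit 443) (nat_lit 325) (nat_lit 252)) (XT.lf (nat_lit 0) (nat_lit 41765523444) (nat_lit 76) (nat_lit 207461549182) (nat_lit 76) (nat_lit 206478680408) (nat_lit 67) (nat_lit 4) (nat_lit 68) (nat_lit 5) (nat_lit 68) (nat_lit 4) (nat_lit 444) (nat_lit 325) (nat_lit 251))) (XT.nd (nat_lit 78) (nat_lit 76) (nat_lit 0) (XT.lf (nat_lit 0) (nat_lit 36489258714) (nat_lit 152) (nat_lit 407672871881) (nat_lit 0) (nat_lit 35552959289) (nat_lit 65) (nat_lit 5) (nat_lit 67) (nat_lit 4) (nat_lit 65) (nat_lit 4) (nat_lit 445) (nat_lit 325) (nat_lit 250)) (XT.lf (nat_lit 0) (nat_lit 102320010660) (nat_lit 76) (nat_lit 201736324380) (nat_lit 76) (nat_lit 200799808358) (nat_lit 64) (nat_lit 4) (nat_lit 65) (nat_lit 5) (nat_lit 65) (nat_lit 4) (nat_lit 446) (nat_lit 325) (nat_lit 249)))) (XT.nd (nat_lit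 47034) (nat_lit 0) (nat_lit 10412) (XT.nd (nat_lit 46956) (nat_lit 0) (nat_lit 10868) (XT.lf (nat_lit 0) (nat_lit 69441277783) (nat_lit 152) (nat_lit 393451701159) (nat_lit 0) (nat_lit 68549166758) (nat_lit 62) (nat_lit 5) (nat_lit 64) (nat_lit 4) (nat_lit 62) (nat_lit 4) (nat_lit 447) (nat_lit 325) (nat_lit 248)) (XT.lf (nat_lit 0) (nat_lit 1366964834) (nat_lit 152) (nat_lit 2373776296) (nat_lit 152) (nat_lit 2373776296) (nat_lit 205) (nat_lit 4) (nat_lit 207) (nat_lit 5) (nat_lit 207) (nat_lit 4) (nat_lit 368) (nat_lit 326) (nat_lit 326))) (XT.nd (nat_lit 78) (nat_lit 304) (nat_lit 0) (XT.lf (nat_lit 0) (nat_lit 4996007089) (nat_lit 152) (nat_lit 3360041515) (nat_lit 0) (nat_lit 4320892658) (nat_lit 203) (nat_lit 5) (nat_lit 205) (nat_lit 4) (nat_lit 203) (nat_lit 4) (nat_lit 369) (nat_lit 326) (nat_lit 325)) (XT.lf (nat_lit 0) (nat_lit 2158155396) (nat_lit 152) (nat_lit 10075443490) (nat_lit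 0) (nat_lit 919850266) (nat_lit 199) (nat_lit 5) (nat_lit 201) (nat_lit 4) (nat_lit 199) (nat_lit 4) (nat_lit 370) (nat_lit 326) (nat_lit 324)))))) (XT.nd (nat_lit 624) (nat_lit 1292) (nat_lit 0) (XT.nd (nat_lit 312) (nat_lit 532) (nat_lit 0) (XT.nd (nat_lit 156) (nat_lit 380) (nat_lit 0) (XT.nd (nat_lit 78) (nat_lit 304) (nat_lit 0) (XT.lf (nat_lit 0) (nat_lit 9792775819) (nat_lit 152) (nat_lit 2826671046) (nat_lit 152) (nat_lit 1037126096) (nat_lit 197) (nat_lit 4) (nat_lit 199) (nat_lit 5) (nat_lit 199) (nat_lit 4) (nat_lit 371) (nat_lit 326) (nat_lit 323)) (XT.lf (nat_lit 0) (nat_lit 2584261777) (nat_lit 152) (nat_lit 6897390168) (nat_lit 152) (nat_lit 4706959512) (nat_lit 193) (nat_lit 4) (nat_lit 195) (nat_lit 5) (nat_lit 195) (nat_lit 4) (nat_lit 372) (nat_lit 326) (nat_lit 322))) (XT.nd (nat_lit 78) (nat_lit 228) (nat_lit 0) (XT.lf (nat_lit 0) (nat_lit 5952409738) (nat_lit 152) (nat_lit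 5362481918) (nat_lit 0) (nat_lit 3437623810) (nat_lit 191) (nat_lit 5) (nat_lit 193) (nat_lit 4) (nat_lit 191) (nat_lit 4) (nat_lit 373) (nat_lit 326) (nat_lit 321)) (XT.lf (nat_lit 0) (nat_lit 1118912110) (nat_lit 76) (nat_lit 847237562) (nat_lit 152) (nat_lit 13385690092) (nat_lit 188) (nat_lit 5) (nat_lit 189) (nat_lit 5) (nat_lit 190) (nat_lit 4) (nat_lit 374) (nat_lit 326) (nat_lit 320)))) (XT.nd (nat_lit 156) (nat_lit 304) (nat_lit 0) (XT.nd (nat_lit 78) (nat_lit 152) (nat_lit 0) (XT.lf (nat_lit 0) (nat_lit 7918861947) (nat_lit 76) (nat_lit 5592395968) (nat_lit 76) (nat_lit 2469345627) (nat_lit 187) (nat_lit 4) (nat_lit 188) (nat_lit 5) (nat_lit 188) (nat_lit 4) (nat_lit 375) (nat_lit 326) (nat_lit 319)) (XT.lf (nat_lit 0) (nat_lit 9111443523) (nat_lit 152) (nat_lit 1708015783) (nat_lit 0) (nat_lit 5828461055) (nat_lit 185) (nat_lit 5) (nat_lit 187) (nat_lit 4) (nat_lit 185) (nat_lit 4)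 (nat_lit 376) (nat_lit 326) (nat_lit 318))) (XT.nd (nat_lit 78) (nat_lit 76) (nat_lit 0) (XT.lf (nat_lit 0) (nat_lit 4222942505) (nat_lit 152) (nat_lit 12306754507) (nat_lit 0) (nat_lit 824115454) (nat_lit 182) (nat_lit 5) (nat_lit 184) (nat_lit 4) (nat_lit 182) (nat_lit 4) (nat_lit 377) (nat_lit 326) (nat_lit 317)) (XT.lf (nat_lit 0) (nat_lit 12034055522) (nat_lit 76) (nat_lit 4857578910) (nat_lit 76) (nat_lit 1206736042) (nat_lit 181) (nat_lit 4) (nat_lit 182) (nat_lit 5) (nat_lit 182) (nat_lit 4) (nat_lit 378) (nat_lit 326) (nat_lit 316))))) (XT.nd (nat_lit 312) (nat_lit 608) (nat_lit 0) (XT.nd (nat_lit 156) (nat_lit 304) (nat_lit 0) (XT.nd (nat_lit 78) (nat_lit 152) (nat_lit 0) (XT.lf (nat_lit 0) (nat_lit 345295793) (nat_lit 76) (nat_lit 11119482669) (nat_lit 76) (nat_lit 7420253291) (nat_lit 178) (nat_lit 4) (nat_lit 179) (nat_lit 5) (nat_lit 179) (nat_lit 4) (nat_lit 379) (nat_lit 326)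 (nat_lit 315)) (XT.lf (nat_lit 0) (nat_lit 5474571858) (nat_lit 152) (nat_lit 12485725037) (nat_lit 0) (nat_lit 1755520802) (nat_lit 176) (nat_lit 5) (nat_lit 178) (nat_lit 4) (nat_lit 176) (nat_lit 4) (nat_lit 380) (nat_lit 326) (nat_lit 314))) (XT.nd (nat_lit 78) (nat_lit 228) (nat_lit 0) (XT.lf (nat_lit 0) (nat_lit 14318981709) (nat_lit 76) (nat_lit 5087616602) (nat_lit 76) (nat_lit 1187106789) (nat_lit 175) (nat_lit 4) (nat_lit 176) (nat_lit 5) (nat_lit 176) (nat_lit 4) (nat_lit 381) (nat_lit 326) (nat_lit 313)) (XT.lf (nat_lit 0) (nat_lit 84724727) (nat_lit 76) (nat_lit 12654866904) (nat_lit 76) (nat_lit 8780079111) (nat_lit 172) (nat_lit 4) (nat_lit 173) (nat_lit 5) (nat_lit 173) (nat_lit 4) (nat_lit 382) (nat_lit 326) (nat_lit 312)))) (XT.nd (nat_lit 156) (nat_lit 380) (nat_lit 0) (XT.nd (nat_lit 78) (nat_lit 76) (nat_lit 0) (XT.lf (nat_lit 0) (nat_lit 5393754046) (nat_lit 152) (nat_lit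 15541502899) (nat_lit 0) (nat_lit 1562371897) (nat_lit 170) (nat_lit 5) (nat_lit 172) (nat_lit 4) (nat_lit 170) (nat_lit 4) (nat_lit 383) (nat_lit 326) (nat_lit 311)) (XT.lf (nat_lit 0) (nat_lit 14012499143) (nat_lit 76) (nat_lit 6739138828) (nat_lit 76) (nat_lit 2777101067) (nat_lit 169) (nat_lit 4) (nat_lit 170) (nat_lit 5) (nat_lit 170) (nat_lit 4) (nat_lit 384) (nat_lit 326) (nat_lit 310))) (XT.nd (nat_lit 78) (nat_lit 228) (nat_lit 0) (XT.lf (nat_lit 0) (nat_lit 12594964556) (nat_lit 152) (nat_lit 3315809192) (nat_lit 0) (nat_lit 8706378671) (nat_lit 167) (nat_lit 5) (nat_lit 169) (nat_lit 4) (nat_lit 167) (nat_lit 4) (nat_lit 385) (nat_lit 326) (nat_lit 309)) (XT.lf (nat_lit 0) (nat_lit 3312391509) (nat_lit 76) (nat_lit 252320403) (nat_lit 152) (nat_lit 22204992993) (nat_lit 164) (nat_lit 5) (nat_lit 165) (nat_lit 5) (nat_lit 166) (nat_lit 4) (nat_lit 386) (nat_lit 326) (nat_lit 308)))))))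
noncomputable def xc49 : XT := (XT.nd (nat_lit 1248) (nat_lit 2128) (nat_lit 0) (XT.nd (nat_lit 624) (nat_lit 1064) (nat_lit 0) (XT.nd (nat_lit 312) (nat_lit 456) (nat_lit 0) (XT.nd (nat_lit 156) (nat_lit 304) (nat_lit 0) (XT.nd (nat_lit 78) (nat_lit 152) (nat_lit 0) (XT.lf (nat_lit 0) (nat_lit 10158681437) (nat_lit 76) (nat_lit 10359001457) (nat_lit 76) (nat_lit 6459908537) (nat_lit 163) (nat_lit 4) (nat_lit 164) (nat_lit 5) (nat_lit 164) (nat_lit 4) (nat_lit 387) (nat_lit 326) (nat_lit 307)) (XT.lf (nat_lit 0) (nat_lit 10562894457) (nat_lit 152) (nat_lit 10926688893) (nat_lit 0) (nat_lit 6766513315) (nat_lit 161) (nat_lit 5) (nat_lit 163) (nat_lit 4) (nat_lit 161) (nat_lit 4) (nat_lit 388) (nat_lit 326) (nat_lit 306))) (XT.nd (nat_lit 78) (nat_lit 228) (nat_lit 0) (XT.lf (nat_lit 0) (nat_lit 24856271873) (nat_lit 76) (nat_lit 4313052226) (nat_lit 76) (nat_lit 439856904) (nat_lit 160) (nat_lit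 4) (nat_lit 161) (nat_lit 5) (nat_lit 161) (nat_lit 4) (nat_lit 389) (nat_lit 326) (nat_lit 305)) (XT.lf (nat_lit 0) (nat_lit 1553650872) (nat_lit 76) (nat_lit 16615630649) (nat_lit 76) (nat_lit 12859135828) (nat_lit 157) (nat_lit 4) (nat_lit 158) (nat_lit 5) (nat_lit 158) (nat_lit 4) (nat_lit 390) (nat_lit 326) (nat_lit 304)))) (XT.nd (nat_lit 156) (nat_lit 228) (nat_lit 0) (XT.nd (nat_lit 78) (nat_lit 76) (nat_lit 0) (XT.lf (nat_lit 0) (nat_lit 6037849803) (nat_lit 152) (nat_lit 24091582855) (nat_lit 0) (nat_lit 2400502556) (nat_lit 155) (nat_lit 5) (nat_lit 157) (nat_lit 4) (nat_lit 155) (nat_lit 4) (nat_lit 391) (nat_lit 326) (nat_lit 303)) (XT.lf (nat_lit 0) (nat_lit 15491120851) (nat_lit 76) (nat_lit 11155032529) (nat_lit 76) (nat_lit 7462376827) (nat_lit 154) (nat_lit 4) (nat_lit 155) (nat_lit 5) (nat_lit 155) (nat_lit 4) (nat_lit 392) (nat_lit 326) (nat_lit 302))) (XT.nd (nat_lit 78)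 (nat_lit 76) (nat_lit 0) (XT.lf (nat_lit 0) (nat_lit 13224329802) (nat_lit 152) (nat_lit 12892443996) (nat_lit 0) (nat_lit 9658741960) (nat_lit 152) (nat_lit 5) (nat_lit 154) (nat_lit 4) (nat_lit 152) (nat_lit 4) (nat_lit 393) (nat_lit 326) (nat_lit 301)) (XT.lf (nat_lit 0) (nat_lit 30705889832) (nat_lit 76) (nat_lit 5221723626) (nat_lit 76) (nat_lit 1610975702) (nat_lit 151) (nat_lit 4) (nat_lit 152) (nat_lit 5) (nat_lit 152) (nat_lit 4) (nat_lit 394) (nat_lit 326) (nat_lit 300))))) (XT.nd (nat_lit 312) (nat_lit 456) (nat_lit 0) (XT.nd (nat_lit 156) (nat_lit 228) (nat_lit 0) (XT.nd (nat_lit 78) (nat_lit 228) (nat_lit 0) (XT.lf (nat_lit 0) (nat_lit 21086280706) (nat_lit 152) (nat_lit 694676207) (nat_lit 0) (nat_lit 17607649454) (nat_lit 149) (nat_lit 5) (nat_lit 151) (nat_lit 4) (nat_lit 149) (nat_lit 4) (nat_lit 395) (nat_lit 326) (nat_lit 299)) (XT.lf (nat_lit 0) (nat_lit 4746401646) (nat_lit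 152) (nat_lit 35201260797) (nat_lit 0) (nat_lit 1398301595) (nat_lit 146) (nat_lit 5) (nat_lit 148) (nat_lit 4) (nat_lit 146) (nat_lit 4) (nat_lit 396) (nat_lit 326) (nat_lit 298))) (XT.nd (nat_lit 78) (nat_lit 152) (nat_lit 0) (XT.lf (nat_lit 0) (nat_lit 13095449727) (nat_lit 76) (nat_lit 16841557546) (nat_lit 76) (nat_lit 13460940916) (nat_lit 145) (nat_lit 4) (nat_lit 146) (nat_lit 5) (nat_lit 146) (nat_lit 4) (nat_lit 397) (nat_lit 326) (nat_lit 297)) (XT.lf (nat_lit 0) (nat_lit 11891832057) (nat_lit 152) (nat_lit 25033133537) (nat_lit 0) (nat_lit 8643522938) (nat_lit 143) (nat_lit 5) (nat_lit 145) (nat_lit 4) (nat_lit 143) (nat_lit 4) (nat_lit 398) (nat_lit 326) (nat_lit 296)))) (XT.nd (nat_lit 156) (nat_lit 228) (nat_lit 0) (XT.nd (nat_lit 78) (nat_lit 152) (nat_lit 0) (XT.lf (nat_lit 0) (nat_lit 28323150549) (nat_lit 76) (nat_lit 11403537002) (nat_lit 76) (nat_lit 8128677669) (nat_lit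 142) (nat_lit 4) (nat_lit 143) (nat_lit 5) (nat_lit 143) (nat_lit 4) (nat_lit 399) (nat_lit 326) (nat_lit 295)) (XT.lf (nat_lit 0) (nat_lit 19791363388) (nat_lit 152) (nat_lit 13822039801) (nat_lit 0) (nat_lit 16649036849) (nat_lit 140) (nat_lit 5) (nat_lit 142) (nat_lit 4) (nat_lit 140) (nat_lit 4) (nat_lit 400) (nat_lit 326) (nat_lit 294))) (XT.nd (nat_lit 78) (nat_lit 152) (nat_lit 0) (XT.lf (nat_lit 0) (nat_lit 45193124070) (nat_lit 76) (nat_lit 5390075014) (nat_lit 76) (nat_lit 2226069875) (nat_lit 139) (nat_lit 4) (nat_lit 140) (nat_lit 5) (nat_lit 140) (nat_lit 4) (nat_lit 401) (nat_lit 326) (nat_lit 293)) (XT.lf (nat_lit 0) (nat_lit 28565941553) (nat_lit 152) (nat_lit 1378716192) (nat_lit 0) (nat_lit 25533486393) (nat_lit 137) (nat_lit 5) (nat_lit 139) (nat_lit 4) (nat_lit 137) (nat_lit 4) (nat_lit 402) (nat_lit 326) (nat_lit 292)))))) (XT.nd (nat_lit 624) (nat_lit 1140) (nat_lit 0) (XT.nd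 (nat_lit 312) (nat_lit 456) (nat_lit 0) (XT.nd (nat_lit 156) (nat_lit 228) (nat_lit 0) (XT.nd (nat_lit 78) (nat_lit 76) (nat_lit 0) (XT.lf (nat_lit 0) (nat_lit 4323035276) (nat_lit 152) (nat_lit 52562565176) (nat_lit 0) (nat_lit 1418124779) (nat_lit 134) (nat_lit 5) (nat_lit 136) (nat_lit 4) (nat_lit 134) (nat_lit 4) (nat_lit 403) (nat_lit 326) (nat_lit 291)) (XT.lf (nat_lit 0) (nat_lit 12924049105) (nat_lit 76) (nat_lit 25628913550) (nat_lit 76) (nat_lit 22708393827) (nat_lit 133) (nat_lit 4) (nat_lit 134) (nat_lit 5) (nat_lit 134) (nat_lit 4) (nat_lit 404) (nat_lit 326) (nat_lit 290))) (XT.nd (nat_lit 78) (nat_lit 76) (nat_lit 0) (XT.lf (nat_lit 0) (nat_lit 11810982657) (nat_lit 152) (nat_lit 43565233319) (nat_lit 0) (nat_lit 9015770552) (nat_lit 131) (nat_lit 5) (nat_lit 133) (nat_lit 4) (nat_lit 131) (nat_lit 4) (nat_lit 405) (nat_lit 326) (nat_lit 289)) (XT.lf (nat_lit 0) (nat_lit 29015040823)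 (nat_lit 76) (nat_lit 20737284784) (nat_lit 76) (nat_lit 17929327541) (nat_lit 130) (nat_lit 4) (nat_lit 131) (nat_lit 5) (nat_lit 131) (nat_lit 4) (nat_lit 406) (nat_lit 326) (nat_lit 288)))) (XT.nd (nat_lit 156) (nat_lit 228) (nat_lit 0) (XT.nd (nat_lit 78) (nat_lit 76) (nat_lit 0) (XT.lf (nat_lit 0) (nat_lit 20231982287) (nat_lit 152) (nat_lit 33372722210) (nat_lit 0) (nat_lit 17546498194) (nat_lit 128) (nat_lit 5) (nat_lit 130) (nat_lit 4) (nat_lit 128) (nat_lit 4) (nat_lit 407) (nat_lit 326) (nat_lit 287)) (XT.lf (nat_lit 0) (nat_lit 47129880071) (nat_lit 76) (nat_lit 15187335928) (nat_lit 76) (nat_lit 12491445261) (nat_lit 127) (nat_lit 4) (nat_lit 128) (nat_lit 5) (nat_lit 128) (nat_lit 4) (nat_lit 408) (nat_lit 326) (nat_lit 286))) (XT.nd (nat_lit 78) (nat_lit 76) (nat_lit 0) (XT.lf (nat_lit 0) (nat_lit 29734844367) (nat_lit 152) (nat_lit 21760432205) (nat_lit 0) (nat_lit 27158152575)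 (nat_lit 125) (nat_lit 5) (nat_lit 127) (nat_lit 4) (nat_lit 125) (nat_lit 4) (nat_lit 409) (nat_lit 326) (nat_lit 285)) (XT.lf (nat_lit 0) (nat_lit 67586154126) (nat_lit 76) (nat_lit 8858705623) (nat_lit 76) (nat_lit 6273516727) (nat_lit 124) (nat_lit 4) (nat_lit 125) (nat_lit 5) (nat_lit 125) (nat_lit 4) (nat_lit 410) (nat_lit 326) (nat_lit 284))))) (XT.nd (nat_lit 312) (nat_lit 532) (nat_lit 0) (XT.nd (nat_lit 156) (nat_lit 304) (nat_lit 0) (XT.nd (nat_lit 78) (nat_lit 152) (nat_lit 0) (XT.lf (nat_lit 0) (nat_lit 40487464685) (nat_lit 152) (nat_lit 8473230725) (nat_lit 0) (nat_lit 38017886984) (nat_lit 122) (nat_lit 5) (nat_lit 124) (nat_lit 4) (nat_lit 122) (nat_lit 4) (nat_lit 411) (nat_lit 326) (nat_lit 283)) (XT.lf (nat_lit 0) (nat_lit 834414185) (nat_lit 152) (nat_lit 765966617) (nat_lit 76) (nat_lit 89894030980) (nat_lit 120) (nat_lit 5) (nat_lit 122) (nat_lit 5) (nat_lit 121) (nat_lit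 4) (nat_lit 412) (nat_lit 326) (nat_lit 282))) (XT.nd (nat_lit 78) (nat_lit 152) (nat_lit 0) (XT.lf (nat_lit 0) (nat_lit 7002828019) (nat_lit 76) (nat_lit 45785850482) (nat_lit 76) (nat_lit 43421145939) (nat_lit 118) (nat_lit 4) (nat_lit 119) (nat_lit 5) (nat_lit 119) (nat_lit 4) (nat_lit 413) (nat_lit 326) (nat_lit 281)) (XT.lf (nat_lit 0) (nat_lit 9144060287) (nat_lit 152) (nat_lit 85176394332) (nat_lit 0) (nat_lit 6886565516) (nat_lit 116) (nat_lit 5) (nat_lit 118) (nat_lit 4) (nat_lit 116) (nat_lit 4) (nat_lit 414) (nat_lit 326) (nat_lit 280)))) (XT.nd (nat_lit 156) (nat_lit 304) (nat_lit 0) (XT.nd (nat_lit 78) (nat_lit 152) (nat_lit 0) (XT.lf (nat_lit 0) (nat_lit 25128788269) (nat_lit 76) (nat_lit 41787962884) (nat_lit 76) (nat_lit 39525472552) (nat_lit 115) (nat_lit 4) (nat_lit 116) (nat_lit 5) (nat_lit 116) (nat_lit 4) (nat_lit 415) (nat_lit 326) (nat_lit 279)) (XT.lf (nat_lit 0) (nat_lit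 18762539062) (nat_lit 152) (nat_lit 76611958995) (nat_lit 0) (nat_lit 16603381109) (nat_lit 113) (nat_lit 5) (nat_lit 115) (nat_lit 4) (nat_lit 113) (nat_lit 4) (nat_lit 416) (nat_lit 326) (nat_lit 278))) (XT.nd (nat_lit 78) (nat_lit 228) (nat_lit 0) (XT.lf (nat_lit 0) (nat_lit 46010648643) (nat_lit 76) (nat_lit 36971944162) (nat_lit 76) (nat_lit 34808707268) (nat_lit 112) (nat_lit 4) (nat_lit 113) (nat_lit 5) (nat_lit 113) (nat_lit 4) (nat_lit 417) (nat_lit 326) (nat_lit 277)) (XT.nd (nat_lit 78) (nat_lit 76) (nat_lit 0) (XT.lf (nat_lit 0) (nat_lit 29856695285) (nat_lit 152) (nat_lit 66273604082) (nat_lit 0) (nat_lit 27792872722) (nat_lit 110) (nat_lit 5) (nat_lit 112) (nat_lit 4) (nat_lit 110) (nat_lit 4) (nat_lit 418) (nat_lit 326) (nat_lit 276)) (XT.lf (nat_lit 0) (nat_lit 70086825491) (nat_lit 76) (nat_lit 31178945644) (nat_lit 76) (nat_lit 29111792572) (nat_lit 109) (nat_lit 4) (nat_lit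 110) (nat_lit 5) (nat_lit 110) (nat_lit 4) (nat_lit 419) (nat_lit 326) (nat_lit 275))))))))
noncomputable def xc50 : XT := (XT.nd (nat_lit 1248) (nat_lit 1444) (nat_lit 0) (XT.nd (nat_lit 624) (nat_lit 912) (nat_lit 0) (XT.nd (nat_lit 312) (nat_lit 608) (nat_lit 0) (XT.nd (nat_lit 156) (nat_lit 228) (nat_lit 0) (XT.nd (nat_lit 78) (nat_lit 76) (nat_lit 0) (XT.lf (nat_lit 0) (nat_lit 42658478207) (nat_lit 152) (nat_lit 53824331281) (nat_lit 0) (nat_lit 40686824037) (nat_lit 107) (nat_lit 5) (nat_lit 109) (nat_lit 4) (nat_lit 107) (nat_lit 4) (nat_lit 420) (nat_lit 326) (nat_lit 274)) (XT.lf (nat_lit 0) (nat_lit 97854915146) (nat_lit 76) (nat_lit 24227044506) (nat_lit 76) (nat_lit 22252670932) (nat_lit 106) (nat_lit 4) (nat_lit 107) (nat_lit 5) (nat_lit 107) (nat_lit 4) (nat_lit 421) (nat_lit 326) (nat_lit 273))) (XT.nd (nat_lit 78) (nat_lit 76) (nat_lit 0) (XT.lf (nat_lit 0) (nat_lit 57431054457)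 (nat_lit 152) (nat_lit 38878419247) (nat_lit 0) (nat_lit 55548300608) (nat_lit 104) (nat_lit 5) (nat_lit 106) (nat_lit 4) (nat_lit 104) (nat_lit 4) (nat_lit 422) (nat_lit 326) (nat_lit 272)) (XT.lf (nat_lit 0) (nat_lit 129879496385) (nat_lit 76) (nat_lit 15908061148) (nat_lit 76) (nat_lit 14023086870) (nat_lit 103) (nat_lit 4) (nat_lit 104) (nat_lit 5) (nat_lit 104) (nat_lit 4) (nat_lit 423) (nat_lit 326) (nat_lit 271)))) (XT.nd (nat_lit 156) (nat_lit 380) (nat_lit 0) (XT.nd (nat_lit 78) (nat_lit 76) (nat_lit 0) (XT.lf (nat_lit 0) (nat_lit 74472923890) (nat_lit 152) (nat_lit 20994699715) (nat_lit 0) (nat_lit 72675752241) (nat_lit 101) (nat_lit 5) (nat_lit 103) (nat_lit 4) (nat_lit 101) (nat_lit 4) (nat_lit 424) (nat_lit 326) (nat_lit 270)) (XT.lf (nat_lit 0) (nat_lit 166800918233) (nat_lit 76) (nat_lit 5983959868) (nat_lit 76) (nat_lit 4184975209) (nat_lit 100) (nat_lit 4) (nat_lit 101) (nat_lit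 5) (nat_lit 101) (nat_lit 4) (nat_lit 425) (nat_lit 326) (nat_lit 269))) (XT.nd (nat_lit 78) (nat_lit 152) (nat_lit 0) (XT.lf (nat_lit 0) (nat_lit 341985845) (nat_lit 76) (nat_lit 93785905868) (nat_lit 76) (nat_lit 92070988371) (nat_lit 97) (nat_lit 4) (nat_lit 98) (nat_lit 5) (nat_lit 98) (nat_lit 4) (nat_lit 426) (nat_lit 326) (nat_lit 268)) (XT.lf (nat_lit 0) (nat_lit 7602183629) (nat_lit 152) (nat_lit 182403290113) (nat_lit 0) (nat_lit 5967519015) (nat_lit 95) (nat_lit 5) (nat_lit 97) (nat_lit 4) (nat_lit 95) (nat_lit 4) (nat_lit 427) (nat_lit 326) (nat_lit 267))))) (XT.nd (nat_lit 312) (nat_lit 456) (nat_lit 0) (XT.nd (nat_lit 156) (nat_lit 228) (nat_lit 0) (XT.nd (nat_lit 78) (nat_lit 152) (nat_lit 0) (XT.lf (nat_lit 0) (nat_lit 26523558939) (nat_lit 76) (nat_lit 90654133702) (nat_lit 76) (nat_lit 89018163669) (nat_lit 94) (nat_lit 4) (nat_lit 95) (nat_lit 5) (nat_lit 95) (nat_lit 4) (nat_lit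 428) (nat_lit 326) (nat_lit 266)) (XT.lf (nat_lit 0) (nat_lit 21742261954) (nat_lit 152) (nat_lit 175094734253) (nat_lit 0) (nat_lit 20183044091) (nat_lit 92) (nat_lit 5) (nat_lit 94) (nat_lit 4) (nat_lit 92) (nat_lit 4) (nat_lit 429) (nat_lit 326) (nat_lit 265))) (XT.nd (nat_lit 78) (nat_lit 152) (nat_lit 0) (XT.lf (nat_lit 0) (nat_lit 57534722952) (nat_lit 76) (nat_lit 86194271168) (nat_lit 76) (nat_lit 84633987412) (nat_lit 91) (nat_lit 4) (nat_lit 92) (nat_lit 5) (nat_lit 92) (nat_lit 4) (nat_lit 430) (nat_lit 326) (nat_lit 264)) (XT.lf (nat_lit 0) (nat_lit 38469014481) (nat_lit 152) (nat_lit 164898865078) (nat_lit 0) (nat_lit 36982090011) (nat_lit 89) (nat_lit 5) (nat_lit 91) (nat_lit 4) (nat_lit 89) (nat_lit 4) (nat_lit 431) (nat_lit 326) (nat_lit 263)))) (XT.nd (nat_lit 156) (nat_lit 228) (nat_lit 0) (XT.nd (nat_lit 78) (nat_lit 152) (nat_lit 0) (XT.lf (nat_lit 0) (nat_lit 94149662554)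 (nat_lit 76) (nat_lit 80136560159) (nat_lit 76) (nat_lit 78648765373) (nat_lit 88) (nat_lit 4) (nat_lit 89) (nat_lit 5) (nat_lit 89) (nat_lit 4) (nat_lit 432) (nat_lit 326) (nat_lit 262)) (XT.lf (nat_lit 0) (nat_lit 58192743200) (nat_lit 152) (nat_lit 151241875582) (nat_lit 0) (nat_lit 56775028311) (nat_lit 86) (nat_lit 5) (nat_lit 88) (nat_lit 4) (nat_lit 86) (nat_lit 4) (nat_lit 433) (nat_lit 326) (nat_lit 261))) (XT.nd (nat_lit 78) (nat_lit 152) (nat_lit 0) (XT.lf (nat_lit 0) (nat_lit 137250610897) (nat_lit 76) (nat_lit 72169952112) (nat_lit 76) (nat_lit 70751526599) (nat_lit 85) (nat_lit 4) (nat_lit 86) (nat_lit 5) (nat_lit 86) (nat_lit 4) (nat_lit 434) (nat_lit 326) (nat_lit 260)) (XT.lf (nat_lit 0) (nat_lit 81380832722) (nat_lit 152) (nat_lit 133462570487) (nat_lit 0) (nat_lit 80029324628) (nat_lit 83) (nat_lit 5) (nat_lit 85) (nat_lit 4) (nat_lit 83) (nat_lit 4) (nat_lit 435) (nat_lit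 326) (nat_lit 259)))))) (XT.nd (nat_lit 624) (nat_lit 532) (nat_lit 0) (XT.nd (nat_lit 312) (nat_lit 456) (nat_lit 0) (XT.nd (nat_lit 156) (nat_lit 228) (nat_lit 0) (XT.nd (nat_lit 78) (nat_lit 152) (nat_lit 0) (XT.lf (nat_lit 0) (nat_lit 187842226679) (nat_lit 76) (nat_lit 61936304381) (nat_lit 76) (nat_lit 60584216053) (nat_lit 82) (nat_lit 4) (nat_lit 83) (nat_lit 5) (nat_lit 83) (nat_lit 4) (nat_lit 436) (nat_lit 326) (nat_lit 258)) (XT.lf (nat_lit 0) (nat_lit 108565328011) (nat_lit 152) (nat_lit 110800121174) (nat_lit 0) (nat_lit 107277113171) (nat_lit 80) (nat_lit 5) (nat_lit 82) (nat_lit 4) (nat_lit 80) (nat_lit 4) (nat_lit 437) (nat_lit 326) (nat_lit 257))) (XT.nd (nat_lit 78) (nat_lit 152) (nat_lit 0) (XT.lf (nat_lit 0) (nat_lit 247067804731) (nat_lit 76) (nat_lit 49023809880) (nat_lit 76) (nat_lit 47735121272) (nat_lit 79) (nat_lit 4) (nat_lit 80) (nat_lit 5) (nat_lit 80) (nat_lit 4)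 (nat_lit 438) (nat_lit 326) (nat_lit 256)) (XT.lf (nat_lit 0) (nat_lit 140351476506) (nat_lit 152) (nat_lit 82380207243) (nat_lit 0) (nat_lit 139123736237) (nat_lit 77) (nat_lit 5) (nat_lit 79) (nat_lit 4) (nat_lit 77) (nat_lit 4) (nat_lit 439) (nat_lit 326) (nat_lit 255)))) (XT.nd (nat_lit 156) (nat_lit 228) (nat_lit 0) (XT.nd (nat_lit 78) (nat_lit 152) (nat_lit 0) (XT.lf (nat_lit 0) (nat_lit 316227548198) (nat_lit 76) (nat_lit 32959562422) (nat_lit 76) (nat_lit 31731435314) (nat_lit 76) (nat_lit 4) (nat_lit 77) (nat_lit 5) (nat_lit 77) (nat_lit 4) (nat_lit 440) (nat_lit 326) (nat_lit 254)) (XT.lf (nat_lit 0) (nat_lit 177427354579) (nat_lit 152) (nat_lit 47199339326) (nat_lit 0) (nat_lit 176257368587) (nat_lit 74) (nat_lit 5) (nat_lit 76) (nat_lit 4) (nat_lit 74) (nat_lit 4) (nat_lit 441) (nat_lit 326) (nat_lit 253))) (XT.nd (nat_lit 78) (nat_lit 152) (nat_lit 0) (XT.lf (nat_lit 0) (nat_lit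 396799158247) (nat_lit 76) (nat_lit 13201147965) (nat_lit 76) (nat_lit 12030846115) (nat_lit 73) (nat_lit 4) (nat_lit 74) (nat_lit 5) (nat_lit 74) (nat_lit 4) (nat_lit 442) (nat_lit 326) (nat_lit 252)) (XT.lf (nat_lit 0) (nat_lit 220574712851) (nat_lit 152) (nat_lit 4107132332) (nat_lit 0) (nat_lit 219459861126) (nat_lit 71) (nat_lit 5) (nat_lit 73) (nat_lit 4) (nat_lit 71) (nat_lit 4) (nat_lit 443) (nat_lit 326) (nat_lit 251))))) (XT.nd (nat_lit 47034) (nat_lit 0) (nat_lit 10564) (XT.nd (nat_lit 156) (nat_lit 228) (nat_lit 0) (XT.nd (nat_lit 78) (nat_lit 76) (nat_lit 0) (XT.lf (nat_lit 0) (nat_lit 12148804838) (nat_lit 152) (nat_lit 444328010655) (nat_lit 0) (nat_lit 11086795669) (nat_lit 68) (nat_lit 5) (nat_lit 70) (nat_lit 4) (nat_lit 68) (nat_lit 4) (nat_lit 444) (nat_lit 326) (nat_lit 250)) (XT.lf (nat_lit 0) (nat_lit 49807893968) (nat_lit 76) (nat_lit 221650938112) (nat_lit 76) (nat_lit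 220588701515) (nat_lit 67) (nat_lit 4) (nat_lit 68) (nat_lit 5) (nat_lit 68) (nat_lit 4) (nat_lit 445) (nat_lit 326) (nat_lit 249))) (XT.nd (nat_lit 78) (nat_lit 76) (nat_lit 0) (XT.lf (nat_lit 0) (nat_lit 41674815694) (nat_lit 152) (nat_lit 435641199328) (nat_lit 0) (nat_lit 40662961238) (nat_lit 65) (nat_lit 5) (nat_lit 67) (nat_lit 4) (nat_lit 65) (nat_lit 4) (nat_lit 446) (nat_lit 326) (nat_lit 248)) (XT.lf (nat_lit 0) (nat_lit 114949225948) (nat_lit 76) (nat_lit 215599526766) (nat_lit 76) (nat_lit 214587486613) (nat_lit 64) (nat_lit 4) (nat_lit 65) (nat_lit 5) (nat_lit 65) (nat_lit 4) (nat_lit 447) (nat_lit 326) (nat_lit 247)))) (XT.nd (nat_lit 156) (nat_lit 456) (nat_lit 0) (XT.nd (nat_lit 78) (nat_lit 152) (nat_lit 0) (XT.lf (nat_lit 0) (nat_lit 584227431) (nat_lit 152) (nat_lit 4530963212) (nat_lit 0) (nat_lit 584227431) (nat_lit 211) (nat_lit 5) (nat_lit 213) (nat_lit 4) (nat_lit 211)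 (nat_lit 4) (nat_lit 366) (nat_lit 327) (nat_lit 327)) (XT.lf (nat_lit 0) (nat_lit 8292133883) (nat_lit 152) (nat_lit 2159780197) (nat_lit 152) (nat_lit 1355921444) (nat_lit 209) (nat_lit 4) (nat_lit 211) (nat_lit 5) (nat_lit 211) (nat_lit 4) (nat_lit 367) (nat_lit 327) (nat_lit 326))) (XT.nd (nat_lit 78) (nat_lit 152) (nat_lit 0) (XT.lf (nat_lit 0) (nat_lit 2255307040) (nat_lit 152) (nat_lit 5730617309) (nat_lit 152) (nat_lit 4256167390) (nat_lit 205) (nat_lit 4) (nat_lit 207) (nat_lit 5) (nat_lit 207) (nat_lit 4) (nat_lit 368) (nat_lit 327) (nat_lit 325)) (XT.lf (nat_lit 0) (nat_lit 5191890909) (nat_lit 152) (nat_lit 4349165404) (nat_lit 0) (nat_lit 3162546937) (nat_lit 203) (nat_lit 5) (nat_lit 205) (nat_lit 4) (nat_lit 203) (nat_lit 4) (nat_lit 369) (nat_lit 327) (nat_lit 324)))))))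
noncomputable def xc51 : XT := (XT.nd (nat_lit 1248) (nat_lit 2280) (nat_lit 0) (XT.nd (nat_lit 624) (nat_lit 1216) (nat_lit 0) (XT.nd (nat_lit 312) (nat_lit 608) (nat_lit 0) (XT.nd (nat_lit 156) (nat_lit 456) (nat_lit 0) (XT.nd (nat_lit 78) (nat_lit 152) (nat_lit 0) (XT.lf (nat_lit 0) (nat_lit 1528740085) (nat_lit 76) (nat_lit 489253020) (nat_lit 152) (nat_lit 11177184330) (nat_lit 199) (nat_lit 5) (nat_lit 200) (nat_lit 5) (nat_lit 201) (nat_lit 4) (nat_lit 370) (nat_lit 327) (nat_lit 323)) (XT.lf (nat_lit 0) (nat_lit 7690537209) (nat_lit 152) (nat_lit 4508076590) (nat_lit 152) (nat_lit 1513720985) (nat_lit 197) (nat_lit 4) (nat_lit 199) (nat_lit 5) (nat_lit 199) (nat_lit 4) (nat_lit 371) (nat_lit 327) (nat_lit 322))) (XT.nd (nat_lit 78) (nat_lit 304) (nat_lit 0) (XT.lf (nat_lit 0) (nat_lit 8674981164) (nat_lit 152) (nat_lit 213911307) (nat_lit 0) (nat_lit 5373119354) (nat_lit 195) (nat_lit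 5) (nat_lit 197) (nat_lit 4) (nat_lit 195) (nat_lit 4) (nat_lit 372) (nat_lit 327) (nat_lit 321)) (XT.lf (nat_lit 0) (nat_lit 4771873665) (nat_lit 152) (nat_lit 8840826243) (nat_lit 0) (nat_lit 1230334579) (nat_lit 191) (nat_lit 5) (nat_lit 193) (nat_lit 4) (nat_lit 191) (nat_lit 4) (nat_lit 373) (nat_lit 327) (nat_lit 320)))) (XT.nd (nat_lit 156) (nat_lit 304) (nat_lit 0) (XT.nd (nat_lit 78) (nat_lit 152) (nat_lit 0) (XT.lf (nat_lit 0) (nat_lit 421839231) (nat_lit 152) (nat_lit 3044276801) (nat_lit 76) (nat_lit 11992931844) (nat_lit 189) (nat_lit 5) (nat_lit 191) (nat_lit 5) (nat_lit 190) (nat_lit 4) (nat_lit 374) (nat_lit 327) (nat_lit 319)) (XT.lf (nat_lit 0) (nat_lit 2979437021) (nat_lit 76) (nat_lit 8587674891) (nat_lit 76) (nat_lit 4540691520) (nat_lit 187) (nat_lit 4) (nat_lit 188) (nat_lit 5) (nat_lit 188) (nat_lit 4) (nat_lit 375) (nat_lit 327) (nat_lit 318))) (XT.nd (nat_lit 78) (nat_lit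 152) (nat_lit 0) (XT.lf (nat_lit 0) (nat_lit 6740996256) (nat_lit 152) (nat_lit 7453070396) (nat_lit 0) (nat_lit 2600940444) (nat_lit 185) (nat_lit 5) (nat_lit 187) (nat_lit 4) (nat_lit 185) (nat_lit 4) (nat_lit 376) (nat_lit 327) (nat_lit 317)) (XT.lf (nat_lit 0) (nat_lit 1370812765) (nat_lit 152) (nat_lit 1594506249) (nat_lit 76) (nat_lit 14558304100) (nat_lit 183) (nat_lit 5) (nat_lit 185) (nat_lit 5) (nat_lit 184) (nat_lit 4) (nat_lit 377) (nat_lit 327) (nat_lit 316))))) (XT.nd (nat_lit 312) (nat_lit 608) (nat_lit 0) (XT.nd (nat_lit 156) (nat_lit 304) (nat_lit 0) (XT.nd (nat_lit 78) (nat_lit 152) (nat_lit 0) (XT.lf (nat_lit 0) (nat_lit 4539702608) (nat_lit 76) (nat_lit 9088654981) (nat_lit 76) (nat_lit 4660380889) (nat_lit 181) (nat_lit 4) (nat_lit 182) (nat_lit 5) (nat_lit 182) (nat_lit 4) (nat_lit 378) (nat_lit 327) (nat_lit 315)) (XT.lf (nat_lit 0) (nat_lit 7698771882) (nat_lit 152) (nat_lit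 8124875172) (nat_lit 0) (nat_lit 3275593754) (nat_lit 179) (nat_lit 5) (nat_lit 181) (nat_lit 4) (nat_lit 179) (nat_lit 4) (nat_lit 379) (nat_lit 327) (nat_lit 314))) (XT.nd (nat_lit 78) (nat_lit 152) (nat_lit 0) (XT.lf (nat_lit 0) (nat_lit 1127934311) (nat_lit 152) (nat_lit 2301444486) (nat_lit 76) (nat_lit 16528445755) (nat_lit 177) (nat_lit 5) (nat_lit 179) (nat_lit 5) (nat_lit 178) (nat_lit 4) (nat_lit 380) (nat_lit 327) (nat_lit 313)) (XT.lf (nat_lit 0) (nat_lit 3761709702) (nat_lit 76) (nat_lit 10829727576) (nat_lit 76) (nat_lit 6267700851) (nat_lit 175) (nat_lit 4) (nat_lit 176) (nat_lit 5) (nat_lit 176) (nat_lit 4) (nat_lit 381) (nat_lit 327) (nat_lit 312)))) (XT.nd (nat_lit 156) (nat_lit 380) (nat_lit 0) (XT.nd (nat_lit 78) (nat_lit 76) (nat_lit 0) (XT.lf (nat_lit 0) (nat_lit 7336976676) (nat_lit 152) (nat_lit 11632298937) (nat_lit 0) (nat_lit 2844025855) (nat_lit 173) (nat_lit 5) (nat_lit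 175) (nat_lit 4) (nat_lit 173) (nat_lit 4) (nat_lit 382) (nat_lit 327) (nat_lit 311)) (XT.lf (nat_lit 0) (nat_lit 16838188396) (nat_lit 76) (nat_lit 5306938413) (nat_lit 76) (nat_lit 676799200) (nat_lit 172) (nat_lit 4) (nat_lit 173) (nat_lit 5) (nat_lit 173) (nat_lit 4) (nat_lit 383) (nat_lit 327) (nat_lit 310))) (XT.nd (nat_lit 78) (nat_lit 228) (nat_lit 0) (XT.lf (nat_lit 0) (nat_lit 14099131390) (nat_lit 152) (nat_lit 216116329) (nat_lit 0) (nat_lit 9568497578) (nat_lit 170) (nat_lit 5) (nat_lit 172) (nat_lit 4) (nat_lit 170) (nat_lit 4) (nat_lit 384) (nat_lit 327) (nat_lit 309)) (XT.lf (nat_lit 0) (nat_lit 5242958632) (nat_lit 152) (nat_lit 18941721996) (nat_lit 0) (nat_lit 821387260) (nat_lit 167) (nat_lit 5) (nat_lit 169) (nat_lit 4) (nat_lit 167) (nat_lit 4) (nat_lit 385) (nat_lit 327) (nat_lit 308)))))) (XT.nd (nat_lit 624) (nat_lit 1292) (nat_lit 0) (XT.nd (nat_lit 312) (nat_lit 456)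 (nat_lit 0) (XT.nd (nat_lit 156) (nat_lit 304) (nat_lit 0) (XT.nd (nat_lit 78) (nat_lit 152) (nat_lit 0) (XT.lf (nat_lit 0) (nat_lit 12496471548) (nat_lit 76) (nat_lit 9105223707) (nat_lit 76) (nat_lit 4584872681) (nat_lit 166) (nat_lit 4) (nat_lit 167) (nat_lit 5) (nat_lit 167) (nat_lit 4) (nat_lit 386) (nat_lit 327) (nat_lit 307)) (XT.lf (nat_lit 0) (nat_lit 11797632379) (nat_lit 152) (nat_lit 8230832859) (nat_lit 0) (nat_lit 7405428884) (nat_lit 164) (nat_lit 5) (nat_lit 166) (nat_lit 4) (nat_lit 164) (nat_lit 4) (nat_lit 387) (nat_lit 327) (nat_lit 306))) (XT.nd (nat_lit 78) (nat_lit 152) (nat_lit 0) (XT.lf (nat_lit 0) (nat_lit 973413623) (nat_lit 152) (nat_lit 2477360455) (nat_lit 76) (nat_lit 25304130119) (nat_lit 162) (nat_lit 5) (nat_lit 164) (nat_lit 5) (nat_lit 163) (nat_lit 4) (nat_lit 388) (nat_lit 327) (nat_lit 305)) (XT.lf (nat_lit 0) (nat_lit 3463189843) (nat_lit 76) (nat_lit 15503229625)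 (nat_lit 76) (nat_lit 11172240258) (nat_lit 160) (nat_lit 4) (nat_lit 161) (nat_lit 5) (nat_lit 161) (nat_lit 4) (nat_lit 389) (nat_lit 327) (nat_lit 304)))) (XT.nd (nat_lit 156) (nat_lit 228) (nat_lit 0) (XT.nd (nat_lit 78) (nat_lit 76) (nat_lit 0) (XT.lf (nat_lit 0) (nat_lit 7033525853) (nat_lit 152) (nat_lit 21724037841) (nat_lit 0) (nat_lit 2846054286) (nat_lit 158) (nat_lit 5) (nat_lit 160) (nat_lit 4) (nat_lit 158) (nat_lit 4) (nat_lit 390) (nat_lit 327) (nat_lit 303)) (XT.lf (nat_lit 0) (nat_lit 16484611780) (nat_lit 76) (nat_lit 10452943909) (nat_lit 76) (nat_lit 6207398465) (nat_lit 157) (nat_lit 4) (nat_lit 158) (nat_lit 5) (nat_lit 158) (nat_lit 4) (nat_lit 391) (nat_lit 327) (nat_lit 302))) (XT.nd (nat_lit 78) (nat_lit 76) (nat_lit 0) (XT.lf (nat_lit 0) (nat_lit 13743417948) (nat_lit 152) (nat_lit 11378955274) (nat_lit 0) (nat_lit 9648829802) (nat_lit 155) (nat_lit 5) (nat_lit 157)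 (nat_lit 4) (nat_lit 155) (nat_lit 4) (nat_lit 392) (nat_lit 327) (nat_lit 301)) (XT.lf (nat_lit 0) (nat_lit 30734130160) (nat_lit 76) (nat_lit 4949889985) (nat_lit 76) (nat_lit 807883753) (nat_lit 154) (nat_lit 4) (nat_lit 155) (nat_lit 5) (nat_lit 155) (nat_lit 4) (nat_lit 393) (nat_lit 327) (nat_lit 300))))) (XT.nd (nat_lit 312) (nat_lit 684) (nat_lit 0) (XT.nd (nat_lit 156) (nat_lit 228) (nat_lit 0) (XT.nd (nat_lit 78) (nat_lit 228) (nat_lit 0) (XT.lf (nat_lit 0) (nat_lit 21102121570) (nat_lit 152) (nat_lit 78904340) (nat_lit 0) (nat_lit 17115538840) (nat_lit 152) (nat_lit 5) (nat_lit 154) (nat_lit 4) (nat_lit 152) (nat_lit 4) (nat_lit 394) (nat_lit 327) (nat_lit 299)) (XT.lf (nat_lit 0) (nat_lit 5062551240) (nat_lit 152) (nat_lit 33914215330) (nat_lit 0) (nat_lit 1228931981) (nat_lit 149) (nat_lit 5) (nat_lit 151) (nat_lit 4) (nat_lit 149) (nat_lit 4) (nat_lit 395) (nat_lit 327) (nat_lit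 298))) (XT.nd (nat_lit 78) (nat_lit 152) (nat_lit 0) (XT.lf (nat_lit 0) (nat_lit 12750012908) (nat_lit 76) (nat_lit 16662732756) (nat_lit 76) (nat_lit 12794971089) (nat_lit 148) (nat_lit 4) (nat_lit 149) (nat_lit 5) (nat_lit 149) (nat_lit 4) (nat_lit 396) (nat_lit 327) (nat_lit 297)) (XT.lf (nat_lit 0) (nat_lit 11695738548) (nat_lit 152) (nat_lit 24647373309) (nat_lit 0) (nat_lit 7982048064) (nat_lit 146) (nat_lit 5) (nat_lit 148) (nat_lit 4) (nat_lit 146) (nat_lit 4) (nat_lit 397) (nat_lit 327) (nat_lit 296)))) (XT.nd (nat_lit 156) (nat_lit 456) (nat_lit 0) (XT.nd (nat_lit 78) (nat_lit 152) (nat_lit 0) (XT.lf (nat_lit 0) (nat_lit 26932030656) (nat_lit 76) (nat_lit 11682594370) (nat_lit 76) (nat_lit 7941026160) (nat_lit 145) (nat_lit 4) (nat_lit 146) (nat_lit 5) (nat_lit 146) (nat_lit 4) (nat_lit 398) (nat_lit 327) (nat_lit 295)) (XT.lf (nat_lit 0) (nat_lit 19048768891) (nat_lit 152) (nat_lit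 14394132148) (nat_lit 0) (nat_lit 15460787063) (nat_lit 143) (nat_lit 5) (nat_lit 145) (nat_lit 4) (nat_lit 143) (nat_lit 4) (nat_lit 399) (nat_lit 327) (nat_lit 294))) (XT.nd (nat_lit 78) (nat_lit 380) (nat_lit 0) (XT.lf (nat_lit 0) (nat_lit 42681263872) (nat_lit 76) (nat_lit 6158269687) (nat_lit 76) (nat_lit 2547525329) (nat_lit 142) (nat_lit 4) (nat_lit 143) (nat_lit 5) (nat_lit 143) (nat_lit 4) (nat_lit 400) (nat_lit 327) (nat_lit 293)) (XT.nd (nat_lit 78) (nat_lit 228) (nat_lit 0) (XT.lf (nat_lit 0) (nat_lit 27236928267) (nat_lit 152) (nat_lit 2975342846) (nat_lit 0) (nat_lit 23778051338) (nat_lit 140) (nat_lit 5) (nat_lit 142) (nat_lit 4) (nat_lit 140) (nat_lit 4) (nat_lit 401) (nat_lit 327) (nat_lit 292)) (XT.lf (nat_lit 0) (nat_lit 3428479166) (nat_lit 152) (nat_lit 53203013958) (nat_lit 0) (nat_lit 116609800) (nat_lit 137) (nat_lit 5) (nat_lit 139) (nat_lit 4) (nat_lit 137) (nat_lit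 4) (nat_lit 402) (nat_lit 327) (nat_lit 291))))))))
noncomputable def xc52 : XT := (XT.nd (nat_lit 1248) (nat_lit 1976) (nat_lit 0) (XT.nd (nat_lit 624) (nat_lit 988) (nat_lit 0) (XT.nd (nat_lit 312) (nat_lit 456) (nat_lit 0) (XT.nd (nat_lit 156) (nat_lit 228) (nat_lit 0) (XT.nd (nat_lit 78) (nat_lit 152) (nat_lit 0) (XT.lf (nat_lit 0) (nat_lit 10135802422) (nat_lit 76) (nat_lit 26412011230) (nat_lit 76) (nat_lit 23083752177) (nat_lit 136) (nat_lit 4) (nat_lit 137) (nat_lit 5) (nat_lit 137) (nat_lit 4) (nat_lit 403) (nat_lit 327) (nat_lit 290)) (XT.lf (nat_lit 0) (nat_lit 10320184004) (nat_lit 152) (nat_lit 45229313462) (nat_lit 0) (nat_lit 7135960490) (nat_lit 134) (nat_lit 5) (nat_lit 136) (nat_lit 4) (nat_lit 134) (nat_lit 4) (nat_lit 404) (nat_lit 327) (nat_lit 289))) (XT.nd (nat_lit 78) (nat_lit 152) (nat_lit 0) (XT.lf (nat_lit 0) (nat_lit 24994791377) (nat_lit 76) (nat_lit 22047414609)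 (nat_lit 76) (nat_lit 18849808700) (nat_lit 133) (nat_lit 4) (nat_lit 134) (nat_lit 5) (nat_lit 134) (nat_lit 4) (nat_lit 405) (nat_lit 327) (nat_lit 288)) (XT.lf (nat_lit 0) (nat_lit 18095586389) (nat_lit 152) (nat_lit 36142326432) (nat_lit 0) (nat_lit 15038446373) (nat_lit 131) (nat_lit 5) (nat_lit 133) (nat_lit 4) (nat_lit 131) (nat_lit 4) (nat_lit 406) (nat_lit 327) (nat_lit 287)))) (XT.nd (nat_lit 156) (nat_lit 228) (nat_lit 0) (XT.nd (nat_lit 78) (nat_lit 152) (nat_lit 0) (XT.lf (nat_lit 0) (nat_lit 41770315798) (nat_lit 76) (nat_lit 17069290884) (nat_lit 76) (nat_lit 14001223966) (nat_lit 130) (nat_lit 4) (nat_lit 131) (nat_lit 5) (nat_lit 131) (nat_lit 4) (nat_lit 407) (nat_lit 327) (nat_lit 286)) (XT.lf (nat_lit 0) (nat_lit 26896118120) (nat_lit 152) (nat_lit 25730388014) (nat_lit 0) (nat_lit 23964513911) (nat_lit 128) (nat_lit 5) (nat_lit 130) (nat_lit 4) (nat_lit 128) (nat_lit 4) (nat_lit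 408) (nat_lit 327) (nat_lit 285))) (XT.nd (nat_lit 78) (nat_lit 152) (nat_lit 0) (XT.lf (nat_lit 0) (nat_lit 60764268892) (nat_lit 76) (nat_lit 11364159832) (nat_lit 76) (nat_lit 8423633664) (nat_lit 127) (nat_lit 4) (nat_lit 128) (nat_lit 5) (nat_lit 128) (nat_lit 4) (nat_lit 409) (nat_lit 327) (nat_lit 284)) (XT.lf (nat_lit 0) (nat_lit 36881472510) (nat_lit 152) (nat_lit 13752735231) (nat_lit 0) (nat_lit 34073103708) (nat_lit 125) (nat_lit 5) (nat_lit 127) (nat_lit 4) (nat_lit 125) (nat_lit 4) (nat_lit 410) (nat_lit 327) (nat_lit 283))))) (XT.nd (nat_lit 312) (nat_lit 456) (nat_lit 0) (XT.nd (nat_lit 156) (nat_lit 228) (nat_lit 0) (XT.nd (nat_lit 78) (nat_lit 228) (nat_lit 0) (XT.lf (nat_lit 0) (nat_lit 82317918706) (nat_lit 76) (nat_lit 4802784429) (nat_lit 76) (nat_lit 1987130730) (nat_lit 124) (nat_lit 4) (nat_lit 125) (nat_lit 5) (nat_lit 125) (nat_lit 4) (nat_lit 411) (nat_lit 327) (nat_lit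 282)) (XT.lf (nat_lit 0) (nat_lit 66588337) (nat_lit 76) (nat_lit 48166474804) (nat_lit 76) (nat_lit 45478475781) (nat_lit 121) (nat_lit 4) (nat_lit 122) (nat_lit 5) (nat_lit 122) (nat_lit 4) (nat_lit 412) (nat_lit 327) (nat_lit 281))) (XT.nd (nat_lit 78) (nat_lit 76) (nat_lit 0) (XT.lf (nat_lit 0) (nat_lit 5459097679) (nat_lit 152) (nat_lit 90233536884) (nat_lit 0) (nat_lit 2893433643) (nat_lit 119) (nat_lit 5) (nat_lit 121) (nat_lit 4) (nat_lit 119) (nat_lit 4) (nat_lit 413) (nat_lit 327) (nat_lit 280)) (XT.lf (nat_lit 0) (nat_lit 16562660135) (nat_lit 76) (nat_lit 44847470862) (nat_lit 76) (nat_lit 42276561487) (nat_lit 118) (nat_lit 4) (nat_lit 119) (nat_lit 5) (nat_lit 119) (nat_lit 4) (nat_lit 414) (nat_lit 327) (nat_lit 279)))) (XT.nd (nat_lit 156) (nat_lit 228) (nat_lit 0) (XT.nd (nat_lit 78) (nat_lit 76) (nat_lit 0) (XT.lf (nat_lit 0) (nat_lit 14221363401) (nat_lit 152) (nat_lit 83096676669)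 (nat_lit 0) (nat_lit 11768252763) (nat_lit 116) (nat_lit 5) (nat_lit 118) (nat_lit 4) (nat_lit 116) (nat_lit 4) (nat_lit 415) (nat_lit 327) (nat_lit 278)) (XT.lf (nat_lit 0) (nat_lit 35646405562) (nat_lit 76) (nat_lit 40780377488) (nat_lit 76) (nat_lit 38322983961) (nat_lit 115) (nat_lit 4) (nat_lit 116) (nat_lit 5) (nat_lit 116) (nat_lit 4) (nat_lit 416) (nat_lit 327) (nat_lit 277))) (XT.nd (nat_lit 78) (nat_lit 76) (nat_lit 0) (XT.lf (nat_lit 0) (nat_lit 24370607922) (nat_lit 152) (nat_lit 74333691952) (nat_lit 0) (nat_lit 22026456337) (nat_lit 113) (nat_lit 5) (nat_lit 115) (nat_lit 4) (nat_lit 113) (nat_lit 4) (nat_lit 417) (nat_lit 327) (nat_lit 276)) (XT.lf (nat_lit 0) (nat_lit 57733356597) (nat_lit 76) (nat_lit 35816238187) (nat_lit 76) (nat_lit 33468589567) (nat_lit 112) (nat_lit 4) (nat_lit 113) (nat_lit 5) (nat_lit 113) (nat_lit 4) (nat_lit 418) (nat_lit 327) (nat_lit 275)))))) (XT.nd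 (nat_lit 624) (nat_lit 1064) (nat_lit 0) (XT.nd (nat_lit 312) (nat_lit 456) (nat_lit 0) (XT.nd (nat_lit 156) (nat_lit 228) (nat_lit 0) (XT.nd (nat_lit 78) (nat_lit 76) (nat_lit 0) (XT.lf (nat_lit 0) (nat_lit 36126777972) (nat_lit 152) (nat_lit 63628332192) (nat_lit 0) (nat_lit 33887838339) (nat_lit 110) (nat_lit 5) (nat_lit 112) (nat_lit 4) (nat_lit 110) (nat_lit 4) (nat_lit 419) (nat_lit 327) (nat_lit 274)) (XT.lf (nat_lit 0) (nat_lit 83295557849) (nat_lit 76) (nat_lit 29784185225) (nat_lit 76) (nat_lit 27542390218) (nat_lit 109) (nat_lit 4) (nat_lit 110) (nat_lit 5) (nat_lit 110) (nat_lit 4) (nat_lit 420) (nat_lit 327) (nat_lit 273))) (XT.nd (nat_lit 78) (nat_lit 76) (nat_lit 0) (XT.lf (nat_lit 0) (nat_lit 49739634592) (nat_lit 152) (nat_lit 50618071948) (nat_lit 0) (nat_lit 47602073760) (nat_lit 107) (nat_lit 5) (nat_lit 109) (nat_lit 4) (nat_lit 107) (nat_lit 4) (nat_lit 421) (nat_lit 327)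 (nat_lit 272)) (XT.lf (nat_lit 0) (nat_lit 112869042882) (nat_lit 76) (nat_lit 22488402004) (nat_lit 76) (nat_lit 20348509721) (nat_lit 106) (nat_lit 4) (nat_lit 107) (nat_lit 5) (nat_lit 107) (nat_lit 4) (nat_lit 422) (nat_lit 327) (nat_lit 271)))) (XT.nd (nat_lit 156) (nat_lit 228) (nat_lit 0) (XT.nd (nat_lit 78) (nat_lit 76) (nat_lit 0) (XT.lf (nat_lit 0) (nat_lit 65492698280) (nat_lit 152) (nat_lit 34887690327) (nat_lit 0) (nat_lit 63452649676) (nat_lit 104) (nat_lit 5) (nat_lit 106) (nat_lit 4) (nat_lit 104) (nat_lit 4) (nat_lit 423) (nat_lit 327) (nat_lit 270)) (XT.lf (nat_lit 0) (nat_lit 147062257642) (nat_lit 76) (nat_lit 13704685757) (nat_lit 76) (nat_lit 11662733493) (nat_lit 103) (nat_lit 4) (nat_lit 104) (nat_lit 5) (nat_lit 104) (nat_lit 4) (nat_lit 424) (nat_lit 327) (nat_lit 269))) (XT.nd (nat_lit 78) (nat_lit 76) (nat_lit 0) (XT.lf (nat_lit 0) (nat_lit 83707690929) (nat_lit 152)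 (nat_lit 15962012555) (nat_lit 0) (nat_lit 81761295774) (nat_lit 101) (nat_lit 5) (nat_lit 103) (nat_lit 4) (nat_lit 101) (nat_lit 4) (nat_lit 425) (nat_lit 327) (nat_lit 268)) (XT.lf (nat_lit 0) (nat_lit 186565548053) (nat_lit 76) (nat_lit 3176560515) (nat_lit 76) (nat_lit 1228610996) (nat_lit 100) (nat_lit 4) (nat_lit 101) (nat_lit 5) (nat_lit 101) (nat_lit 4) (nat_lit 426) (nat_lit 327) (nat_lit 267))))) (XT.nd (nat_lit 312) (nat_lit 456) (nat_lit 0) (XT.nd (nat_lit 156) (nat_lit 228) (nat_lit 0) (XT.nd (nat_lit 78) (nat_lit 152) (nat_lit 0) (XT.lf (nat_lit 0) (nat_lit 6923900236) (nat_lit 76) (nat_lit 97933737612) (nat_lit 76) (nat_lit 96077176903) (nat_lit 97) (nat_lit 4) (nat_lit 98) (nat_lit 5) (nat_lit 98) (nat_lit 4) (nat_lit 427) (nat_lit 327) (nat_lit 266)) (XT.lf (nat_lit 0) (nat_lit 11371859922) (nat_lit 152) (nat_lit 190518399032) (nat_lit 0) (nat_lit 9602498143) (nat_lit 95) (nat_lit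 5) (nat_lit 97) (nat_lit 4) (nat_lit 95) (nat_lit 4) (nat_lit 428) (nat_lit 327) (nat_lit 265))) (XT.nd (nat_lit 78) (nat_lit 152) (nat_lit 0) (XT.lf (nat_lit 0) (nat_lit 34841108712) (nat_lit 76) (nat_lit 94734847335) (nat_lit 76) (nat_lit 92964366368) (nat_lit 94) (nat_lit 4) (nat_lit 95) (nat_lit 5) (nat_lit 95) (nat_lit 4) (nat_lit 429) (nat_lit 327) (nat_lit 264)) (XT.lf (nat_lit 0) (nat_lit 26469779383) (nat_lit 152) (nat_lit 182979837220) (nat_lit 0) (nat_lit 24782620096) (nat_lit 92) (nat_lit 5) (nat_lit 94) (nat_lit 4) (nat_lit 92) (nat_lit 4) (nat_lit 430) (nat_lit 327) (nat_lit 263)))) (XT.nd (nat_lit 156) (nat_lit 228) (nat_lit 0) (XT.nd (nat_lit 78) (nat_lit 152) (nat_lit 0) (XT.lf (nat_lit 0) (nat_lit 67993901225) (nat_lit 76) (nat_lit 90091640278) (nat_lit 76) (nat_lit 88403567159) (nat_lit 91) (nat_lit 4) (nat_lit 92) (nat_lit 5) (nat_lit 92) (nat_lit 4) (nat_lit 431) (nat_lit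 327) (nat_lit 262)) (XT.lf (nat_lit 0) (nat_lit 44370834989) (nat_lit 152) (nat_lit 172303576720) (nat_lit 0) (nat_lit 42762340458) (nat_lit 89) (nat_lit 5) (nat_lit 91) (nat_lit 4) (nat_lit 89) (nat_lit 4) (nat_lit 432) (nat_lit 327) (nat_lit 261))) (XT.nd (nat_lit 78) (nat_lit 152) (nat_lit 0) (XT.lf (nat_lit 0) (nat_lit 107217328569) (nat_lit 76) (nat_lit 83713311634) (nat_lit 76) (nat_lit 82104070947) (nat_lit 88) (nat_lit 4) (nat_lit 89) (nat_lit 5) (nat_lit 89) (nat_lit 4) (nat_lit 433) (nat_lit 327) (nat_lit 260)) (XT.lf (nat_lit 0) (nat_lit 65517625336) (nat_lit 152) (nat_lit 157870963217) (nat_lit 0) (nat_lit 63984357173) (nat_lit 86) (nat_lit 5) (nat_lit 88) (nat_lit 4) (nat_lit 86) (nat_lit 4) (nat_lit 434) (nat_lit 327) (nat_lit 259)))))))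
noncomputable def xc53 : XT := (XT.nd (nat_lit 47814) (nat_lit 0) (nat_lit 8132) (XT.nd (nat_lit 624) (nat_lit 684) (nat_lit 0) (XT.nd (nat_lit 312) (nat_lit 456) (nat_lit 0) (XT.nd (nat_lit 156) (nat_lit 228) (nat_lit 0) (XT.nd (nat_lit 78) (nat_lit 152) (nat_lit 0) (XT.lf (nat_lit 0) (nat_lit 153463191242) (nat_lit 76) (nat_lit 75264435993) (nat_lit 76) (nat_lit 73730558584) (nat_lit 85) (nat_lit 4) (nat_lit 86) (nat_lit 5) (nat_lit 86) (nat_lit 4) (nat_lit 435) (nat_lit 327) (nat_lit 258)) (XT.lf (nat_lit 0) (nat_lit 90414428171) (nat_lit 152) (nat_lit 138968906162) (nat_lit 0) (nat_lit 88953055289) (nat_lit 83) (nat_lit 5) (nat_lit 85) (nat_lit 4) (nat_lit 83) (nat_lit 4) (nat_lit 436) (nat_lit 327) (nat_lit 257))) (XT.nd (nat_lit 78) (nat_lit 152) (nat_lit 0) (XT.lf (nat_lit 0) (nat_lit 207815563762) (nat_lit 76) (nat_lit 64358700462) (nat_lit 76) (nat_lit 62896830124) (nat_lit 82) (nat_lit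 4) (nat_lit 83) (nat_lit 5) (nat_lit 83) (nat_lit 4) (nat_lit 437) (nat_lit 327) (nat_lit 256)) (XT.lf (nat_lit 0) (nat_lit 119635382519) (nat_lit 152) (nat_lit 114776657034) (nat_lit 0) (nat_lit 118242686379) (nat_lit 80) (nat_lit 5) (nat_lit 82) (nat_lit 4) (nat_lit 80) (nat_lit 4) (nat_lit 438) (nat_lit 327) (nat_lit 255)))) (XT.nd (nat_lit 156) (nat_lit 228) (nat_lit 0) (XT.nd (nat_lit 78) (nat_lit 152) (nat_lit 0) (XT.lf (nat_lit 0) (nat_lit 271508299287) (nat_lit 76) (nat_lit 50551809762) (nat_lit 76) (nat_lit 49158707442) (nat_lit 79) (nat_lit 4) (nat_lit 80) (nat_lit 5) (nat_lit 80) (nat_lit 4) (nat_lit 439) (nat_lit 327) (nat_lit 254)) (XT.lf (nat_lit 0) (nat_lit 153833712485) (nat_lit 152) (nat_lit 84350845019) (nat_lit 0) (nat_lit 152506590187) (nat_lit 77) (nat_lit 5) (nat_lit 79) (nat_lit 4) (nat_lit 77) (nat_lit 4) (nat_lit 440) (nat_lit 327) (nat_lit 253))) (XT.nd (nat_lit 78)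 (nat_lit 152) (nat_lit 0) (XT.lf (nat_lit 0) (nat_lit 345944760900) (nat_lit 76) (nat_lit 33333457847) (nat_lit 76) (nat_lit 32006003898) (nat_lit 76) (nat_lit 4) (nat_lit 77) (nat_lit 5) (nat_lit 77) (nat_lit 4) (nat_lit 441) (nat_lit 327) (nat_lit 252)) (XT.lf (nat_lit 0) (nat_lit 193752122255) (nat_lit 152) (nat_lit 46608548335) (nat_lit 0) (nat_lit 192487587936) (nat_lit 74) (nat_lit 5) (nat_lit 76) (nat_lit 4) (nat_lit 74) (nat_lit 4) (nat_lit 442) (nat_lit 327) (nat_lit 251))))) (XT.nd (nat_lit 312) (nat_lit 152) (nat_lit 0) (XT.nd (nat_lit 156) (nat_lit 304) (nat_lit 0) (XT.nd (nat_lit 78) (nat_lit 152) (nat_lit 0) (XT.lf (nat_lit 0) (nat_lit 432720055926) (nat_lit 76) (nat_lit 12118247533) (nat_lit 76) (nat_lit 10853442417) (nat_lit 73) (nat_lit 4) (nat_lit 74) (nat_lit 5) (nat_lit 74) (nat_lit 4) (nat_lit 443) (nat_lit 327) (nat_lit 250)) (XT.lf (nat_lit 0) (nat_lit 240234507573) (nat_lit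 152) (nat_lit 308151883) (nat_lit 0) (nat_lit 239029692473) (nat_lit 71) (nat_lit 5) (nat_lit 73) (nat_lit 4) (nat_lit 71) (nat_lit 4) (nat_lit 444) (nat_lit 327) (nat_lit 249))) (XT.nd (nat_lit 78) (nat_lit 76) (nat_lit 0) (XT.lf (nat_lit 0) (nat_lit 15176446124) (nat_lit 152) (nat_lit 475660674495) (nat_lit 0) (nat_lit 14028792591) (nat_lit 68) (nat_lit 5) (nat_lit 70) (nat_lit 4) (nat_lit 68) (nat_lit 4) (nat_lit 445) (nat_lit 327) (nat_lit 248)) (XT.lf (nat_lit 0) (nat_lit 57822985575) (nat_lit 76) (nat_lit 237318939939) (nat_lit 76) (nat_lit 236171091424) (nat_lit 67) (nat_lit 4) (nat_lit 68) (nat_lit 5) (nat_lit 68) (nat_lit 4) (nat_lit 446) (nat_lit 327) (nat_lit 247)))) (XT.nd (nat_lit 46722) (nat_lit 0) (nat_lit 11096) (XT.nd (nat_lit 46644) (nat_lit 0) (nat_lit 11628) (XT.lf (nat_lit 0) (nat_lit 46951887611) (nat_lit 152) (nat_lit 466509725809) (nat_lit 0) (nat_lit 45858526607) (nat_lit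 65) (nat_lit 5) (nat_lit 67) (nat_lit 4) (nat_lit 65) (nat_lit 4) (nat_lit 447) (nat_lit 327) (nat_lit 246)) (XT.lf (nat_lit 0) (nat_lit 1143862081) (nat_lit 152) (nat_lit 2087969597) (nat_lit 152) (nat_lit 2087969597) (nat_lit 218) (nat_lit 4) (nat_lit 220) (nat_lit 5) (nat_lit 220) (nat_lit 4) (nat_lit 364) (nat_lit 328) (nat_lit 328))) (XT.nd (nat_lit 78) (nat_lit 304) (nat_lit 0) (XT.lf (nat_lit 0) (nat_lit 4286208586) (nat_lit 228) (nat_lit 3351631300) (nat_lit 0) (nat_lit 3374632759) (nat_lit 215) (nat_lit 5) (nat_lit 218) (nat_lit 4) (nat_lit 215) (nat_lit 4) (nat_lit 365) (nat_lit 328) (nat_lit 327)) (XT.lf (nat_lit 0) (nat_lit 1785263155) (nat_lit 152) (nat_lit 9512904002) (nat_lit 0) (nat_lit 113236948) (nat_lit 211) (nat_lit 5) (nat_lit 213) (nat_lit 4) (nat_lit 211) (nat_lit 4) (nat_lit 366) (nat_lit 328) (nat_lit 326)))))) (XT.nd (nat_lit 624) (nat_lit 1368) (nat_lit 0) (XT.nd (nat_lit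 312) (nat_lit 760) (nat_lit 0) (XT.nd (nat_lit 156) (nat_lit 380) (nat_lit 0) (XT.nd (nat_lit 78) (nat_lit 304) (nat_lit 0) (XT.lf (nat_lit 0) (nat_lit 7394866307) (nat_lit 152) (nat_lit 3427107243) (nat_lit 152) (nat_lit 1010767374) (nat_lit 209) (nat_lit 4) (nat_lit 211) (nat_lit 5) (nat_lit 211) (nat_lit 4) (nat_lit 367) (nat_lit 328) (nat_lit 325)) (XT.lf (nat_lit 0) (nat_lit 816602870) (nat_lit 152) (nat_lit 7211187106) (nat_lit 152) (nat_lit 4253549789) (nat_lit 205) (nat_lit 4) (nat_lit 207) (nat_lit 5) (nat_lit 207) (nat_lit 4) (nat_lit 368) (nat_lit 328) (nat_lit 324))) (XT.nd (nat_lit 78) (nat_lit 228) (nat_lit 0) (XT.lf (nat_lit 0) (nat_lit 4909704911) (nat_lit 152) (nat_lit 6333274657) (nat_lit 0) (nat_lit 1514105655) (nat_lit 203) (nat_lit 5) (nat_lit 205) (nat_lit 4) (nat_lit 203) (nat_lit 4) (nat_lit 369) (nat_lit 328) (nat_lit 323)) (XT.lf (nat_lit 0) (nat_lit 1406595669) (nat_lit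 228) (nat_lit 1048005736) (nat_lit 76) (nat_lit 10808643688) (nat_lit 200) (nat_lit 5) (nat_lit 203) (nat_lit 5) (nat_lit 201) (nat_lit 4) (nat_lit 370) (nat_lit 328) (nat_lit 322)))) (XT.nd (nat_lit 156) (nat_lit 380) (nat_lit 0) (XT.nd (nat_lit 78) (nat_lit 152) (nat_lit 0) (XT.lf (nat_lit 0) (nat_lit 4521616358) (nat_lit 152) (nat_lit 6745842279) (nat_lit 152) (nat_lit 2528931690) (nat_lit 197) (nat_lit 4) (nat_lit 199) (nat_lit 5) (nat_lit 199) (nat_lit 4) (nat_lit 371) (nat_lit 328) (nat_lit 321)) (XT.lf (nat_lit 0) (nat_lit 7378670649) (nat_lit 152) (nat_lit 4038057782) (nat_lit 0) (nat_lit 2945811096) (nat_lit 195) (nat_lit 5) (nat_lit 197) (nat_lit 4) (nat_lit 195) (nat_lit 4) (nat_lit 372) (nat_lit 328) (nat_lit 320))) (XT.nd (nat_lit 78) (nat_lit 76) (nat_lit 0) (XT.lf (nat_lit 0) (nat_lit 1427390593) (nat_lit 76) (nat_lit 1619503890) (nat_lit 152) (nat_lit 11916400559) (nat_lit 191)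 (nat_lit 5) (nat_lit 192) (nat_lit 5) (nat_lit 193) (nat_lit 4) (nat_lit 373) (nat_lit 328) (nat_lit 319)) (XT.lf (nat_lit 0) (nat_lit 7177767657) (nat_lit 76) (nat_lit 6673691141) (nat_lit 76) (nat_lit 1744126686) (nat_lit 190) (nat_lit 4) (nat_lit 191) (nat_lit 5) (nat_lit 191) (nat_lit 4) (nat_lit 374) (nat_lit 328) (nat_lit 318))))) (XT.nd (nat_lit 312) (nat_lit 760) (nat_lit 0) (XT.nd (nat_lit 156) (nat_lit 228) (nat_lit 0) (XT.nd (nat_lit 78) (nat_lit 228) (nat_lit 0) (XT.lf (nat_lit 0) (nat_lit 9057537907) (nat_lit 152) (nat_lit 3145496839) (nat_lit 0) (nat_lit 4062639383) (nat_lit 188) (nat_lit 5) (nat_lit 190) (nat_lit 4) (nat_lit 188) (nat_lit 4) (nat_lit 375) (nat_lit 328) (nat_lit 317)) (XT.lf (nat_lit 0) (nat_lit 2410848233) (nat_lit 76) (nat_lit 1337246495) (nat_lit 152) (nat_lit 13227406963) (nat_lit 185) (nat_lit 5) (nat_lit 186) (nat_lit 5) (nat_lit 187) (nat_lit 4) (nat_lit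 376) (nat_lit 328) (nat_lit 316))) (XT.nd (nat_lit 78) (nat_lit 152) (nat_lit 0) (XT.lf (nat_lit 0) (nat_lit 8219705735) (nat_lit 76) (nat_lit 7384687140) (nat_lit 76) (nat_lit 2118008942) (nat_lit 184) (nat_lit 4) (nat_lit 185) (nat_lit 5) (nat_lit 185) (nat_lit 4) (nat_lit 377) (nat_lit 328) (nat_lit 315)) (XT.lf (nat_lit 0) (nat_lit 9732526308) (nat_lit 152) (nat_lit 4279804864) (nat_lit 0) (nat_lit 4500579367) (nat_lit 182) (nat_lit 5) (nat_lit 184) (nat_lit 4) (nat_lit 182) (nat_lit 4) (nat_lit 378) (nat_lit 328) (nat_lit 314)))) (XT.nd (nat_lit 156) (nat_lit 456) (nat_lit 0) (XT.nd (nat_lit 78) (nat_lit 76) (nat_lit 0) (XT.lf (nat_lit 0) (nat_lit 1199427821) (nat_lit 76) (nat_lit 2035417565) (nat_lit 152) (nat_lit 16115573171) (nat_lit 179) (nat_lit 5) (nat_lit 180) (nat_lit 5) (nat_lit 181) (nat_lit 4) (nat_lit 379) (nat_lit 328) (nat_lit 313)) (XT.lf (nat_lit 0) (nat_lit 6955889552) (nat_lit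 76) (nat_lit 9311700618) (nat_lit 76) (nat_lit 3961944075) (nat_lit 178) (nat_lit 4) (nat_lit 179) (nat_lit 5) (nat_lit 179) (nat_lit 4) (nat_lit 380) (nat_lit 328) (nat_lit 312))) (XT.nd (nat_lit 78) (nat_lit 304) (nat_lit 0) (XT.lf (nat_lit 0) (nat_lit 9101234395) (nat_lit 152) (nat_lit 8208406327) (nat_lit 0) (nat_lit 3850656526) (nat_lit 176) (nat_lit 5) (nat_lit 178) (nat_lit 4) (nat_lit 176) (nat_lit 4) (nat_lit 381) (nat_lit 328) (nat_lit 311)) (XT.nd (nat_lit 78) (nat_lit 152) (nat_lit 0) (XT.lf (nat_lit 0) (nat_lit 1199796572) (nat_lit 152) (nat_lit 2935042706) (nat_lit 76) (nat_lit 18010701171) (nat_lit 174) (nat_lit 5) (nat_lit 176) (nat_lit 5) (nat_lit 175) (nat_lit 4) (nat_lit 382) (nat_lit 328) (nat_lit 310)) (XT.lf (nat_lit 0) (nat_lit 2527921959) (nat_lit 76) (nat_lit 12958541123) (nat_lit 76) (nat_lit 7693776090) (nat_lit 172) (nat_lit 4) (nat_lit 173) (nat_lit 5) (nat_lit 173)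 (nat_lit 4) (nat_lit 383) (nat_lit 328) (nat_lit 309))))))))
noncomputable def xc54 : XT := (XT.nd (nat_lit 1248) (nat_lit 2204) (nat_lit 0) (XT.nd (nat_lit 624) (nat_lit 988) (nat_lit 0) (XT.nd (nat_lit 312) (nat_lit 532) (nat_lit 0) (XT.nd (nat_lit 156) (nat_lit 304) (nat_lit 0) (XT.nd (nat_lit 78) (nat_lit 76) (nat_lit 0) (XT.lf (nat_lit 0) (nat_lit 6758022591) (nat_lit 152) (nat_lit 15885005027) (nat_lit 0) (nat_lit 1631944526) (nat_lit 170) (nat_lit 5) (nat_lit 172) (nat_lit 4) (nat_lit 170) (nat_lit 4) (nat_lit 384) (nat_lit 328) (nat_lit 308)) (XT.lf (nat_lit 0) (nat_lit 14433553766) (nat_lit 76) (nat_lit 8112372324) (nat_lit 76) (nat_lit 2882575622) (nat_lit 169) (nat_lit 4) (nat_lit 170) (nat_lit 5) (nat_lit 170) (nat_lit 4) (nat_lit 385) (nat_lit 328) (nat_lit 307))) (XT.nd (nat_lit 78) (nat_lit 152) (nat_lit 0) (XT.lf (nat_lit 0) (nat_lit 12888347724) (nat_lit 152) (nat_lit 5940781658)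 (nat_lit 0) (nat_lit 7816126317) (nat_lit 167) (nat_lit 5) (nat_lit 169) (nat_lit 4) (nat_lit 167) (nat_lit 4) (nat_lit 386) (nat_lit 328) (nat_lit 306)) (XT.lf (nat_lit 0) (nat_lit 2227546080) (nat_lit 152) (nat_lit 590439574) (nat_lit 76) (nat_lit 25116336961) (nat_lit 165) (nat_lit 5) (nat_lit 167) (nat_lit 5) (nat_lit 166) (nat_lit 4) (nat_lit 387) (nat_lit 328) (nat_lit 305)))) (XT.nd (nat_lit 156) (nat_lit 228) (nat_lit 0) (XT.nd (nat_lit 78) (nat_lit 152) (nat_lit 0) (XT.lf (nat_lit 0) (nat_lit 5004421811) (nat_lit 76) (nat_lit 14632710874) (nat_lit 76) (nat_lit 9646688480) (nat_lit 163) (nat_lit 4) (nat_lit 164) (nat_lit 5) (nat_lit 164) (nat_lit 4) (nat_lit 388) (nat_lit 328) (nat_lit 304)) (XT.lf (nat_lit 0) (nat_lit 7897779038) (nat_lit 152) (nat_lit 19731862375) (nat_lit 0) (nat_lit 3083330504) (nat_lit 161) (nat_lit 5) (nat_lit 163) (nat_lit 4) (nat_lit 161) (nat_lit 4) (nat_lit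 389) (nat_lit 328) (nat_lit 303))) (XT.nd (nat_lit 78) (nat_lit 152) (nat_lit 0) (XT.lf (nat_lit 0) (nat_lit 17161200435) (nat_lit 76) (nat_lit 9965904783) (nat_lit 76) (nat_lit 5090478677) (nat_lit 160) (nat_lit 4) (nat_lit 161) (nat_lit 5) (nat_lit 161) (nat_lit 4) (nat_lit 390) (nat_lit 328) (nat_lit 302)) (XT.lf (nat_lit 0) (nat_lit 14155057968) (nat_lit 152) (nat_lit 10190884047) (nat_lit 0) (nat_lit 9458022900) (nat_lit 158) (nat_lit 5) (nat_lit 160) (nat_lit 4) (nat_lit 158) (nat_lit 4) (nat_lit 391) (nat_lit 328) (nat_lit 301))))) (XT.nd (nat_lit 312) (nat_lit 456) (nat_lit 0) (XT.nd (nat_lit 156) (nat_lit 228) (nat_lit 0) (XT.nd (nat_lit 78) (nat_lit 228) (nat_lit 0) (XT.lf (nat_lit 0) (nat_lit 30497712717) (nat_lit 76) (nat_lit 4866050828) (nat_lit 76) (nat_lit 119226771) (nat_lit 157) (nat_lit 4) (nat_lit 158) (nat_lit 5) (nat_lit 158) (nat_lit 4) (nat_lit 392) (nat_lit 328) (nat_lit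 300)) (XT.lf (nat_lit 0) (nat_lit 270796556) (nat_lit 76) (nat_lit 20768486782) (nat_lit 76) (nat_lit 16203796330) (nat_lit 154) (nat_lit 4) (nat_lit 155) (nat_lit 5) (nat_lit 155) (nat_lit 4) (nat_lit 393) (nat_lit 328) (nat_lit 299))) (XT.nd (nat_lit 78) (nat_lit 76) (nat_lit 0) (XT.lf (nat_lit 0) (nat_lit 5284678009) (nat_lit 152) (nat_lit 32922159715) (nat_lit 0) (nat_lit 898636278) (nat_lit 152) (nat_lit 5) (nat_lit 154) (nat_lit 4) (nat_lit 152) (nat_lit 4) (nat_lit 394) (nat_lit 328) (nat_lit 298)) (XT.lf (nat_lit 0) (nat_lit 12174235261) (nat_lit 76) (nat_lit 16653048161) (nat_lit 76) (nat_lit 12231156901) (nat_lit 151) (nat_lit 4) (nat_lit 152) (nat_lit 5) (nat_lit 152) (nat_lit 4) (nat_lit 395) (nat_lit 328) (nat_lit 297)))) (XT.nd (nat_lit 156) (nat_lit 228) (nat_lit 0) (XT.nd (nat_lit 78) (nat_lit 76) (nat_lit 0) (XT.lf (nat_lit 0) (nat_lit 11430980402) (nat_lit 152) (nat_lit 24504960729)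 (nat_lit 0) (nat_lit 7188042051) (nat_lit 149) (nat_lit 5) (nat_lit 151) (nat_lit 4) (nat_lit 149) (nat_lit 4) (nat_lit 396) (nat_lit 328) (nat_lit 296)) (XT.lf (nat_lit 0) (nat_lit 25365581392) (nat_lit 76) (nat_lit 12102913102) (nat_lit 76) (nat_lit 7830703139) (nat_lit 148) (nat_lit 4) (nat_lit 149) (nat_lit 5) (nat_lit 149) (nat_lit 4) (nat_lit 397) (nat_lit 328) (nat_lit 295))) (XT.nd (nat_lit 78) (nat_lit 76) (nat_lit 0) (XT.lf (nat_lit 0) (nat_lit 18263791983) (nat_lit 152) (nat_lit 15156553134) (nat_lit 0) (nat_lit 14169207881) (nat_lit 146) (nat_lit 5) (nat_lit 148) (nat_lit 4) (nat_lit 146) (nat_lit 4) (nat_lit 398) (nat_lit 328) (nat_lit 294)) (XT.lf (nat_lit 0) (nat_lit 40051052085) (nat_lit 76) (nat_lit 7039108830) (nat_lit 76) (nat_lit 2920624071) (nat_lit 145) (nat_lit 4) (nat_lit 146) (nat_lit 5) (nat_lit 146) (nat_lit 4) (nat_lit 399) (nat_lit 328) (nat_lit 293)))))) (XT.nd (nat_lit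 624) (nat_lit 1140) (nat_lit 0) (XT.nd (nat_lit 312) (nat_lit 456) (nat_lit 0) (XT.nd (nat_lit 156) (nat_lit 228) (nat_lit 0) (XT.nd (nat_lit 78) (nat_lit 228) (nat_lit 0) (XT.lf (nat_lit 0) (nat_lit 25892963843) (nat_lit 152) (nat_lit 4707483646) (nat_lit 0) (nat_lit 21949520989) (nat_lit 143) (nat_lit 5) (nat_lit 145) (nat_lit 4) (nat_lit 143) (nat_lit 4) (nat_lit 400) (nat_lit 328) (nat_lit 292)) (XT.lf (nat_lit 0) (nat_lit 1217832700) (nat_lit 76) (nat_lit 1309382301) (nat_lit 152) (nat_lit 52713432259) (nat_lit 140) (nat_lit 5) (nat_lit 141) (nat_lit 5) (nat_lit 142) (nat_lit 4) (nat_lit 401) (nat_lit 328) (nat_lit 291))) (XT.nd (nat_lit 78) (nat_lit 152) (nat_lit 0) (XT.lf (nat_lit 0) (nat_lit 7266511551) (nat_lit 76) (nat_lit 27288761065) (nat_lit 76) (nat_lit 23497306127) (nat_lit 139) (nat_lit 4) (nat_lit 140) (nat_lit 5) (nat_lit 140) (nat_lit 4) (nat_lit 402) (nat_lit 328) (nat_lit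 290)) (XT.lf (nat_lit 0) (nat_lit 8830857958) (nat_lit 152) (nat_lit 46995915321) (nat_lit 0) (nat_lit 5204772857) (nat_lit 137) (nat_lit 5) (nat_lit 139) (nat_lit 4) (nat_lit 137) (nat_lit 4) (nat_lit 403) (nat_lit 328) (nat_lit 289)))) (XT.nd (nat_lit 156) (nat_lit 228) (nat_lit 0) (XT.nd (nat_lit 78) (nat_lit 152) (nat_lit 0) (XT.lf (nat_lit 0) (nat_lit 20955282375) (nat_lit 76) (nat_lit 23420860076) (nat_lit 76) (nat_lit 19780723460) (nat_lit 136) (nat_lit 4) (nat_lit 137) (nat_lit 5) (nat_lit 137) (nat_lit 4) (nat_lit 404) (nat_lit 328) (nat_lit 288)) (XT.lf (nat_lit 0) (nat_lit 15990882662) (nat_lit 152) (nat_lit 38955462956) (nat_lit 0) (nat_lit 12511694777) (nat_lit 134) (nat_lit 5) (nat_lit 136) (nat_lit 4) (nat_lit 134) (nat_lit 4) (nat_lit 405) (nat_lit 328) (nat_lit 287))) (XT.nd (nat_lit 78) (nat_lit 152) (nat_lit 0) (XT.lf (nat_lit 0) (nat_lit 36456667505) (nat_lit 76) (nat_lit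 18982836700) (nat_lit 76) (nat_lit 15492175568) (nat_lit 133) (nat_lit 4) (nat_lit 134) (nat_lit 5) (nat_lit 134) (nat_lit 4) (nat_lit 406) (nat_lit 328) (nat_lit 286)) (XT.lf (nat_lit 0) (nat_lit 24121186935) (nat_lit 152) (nat_lit 29681753054) (nat_lit 0) (nat_lit 20786630260) (nat_lit 131) (nat_lit 5) (nat_lit 133) (nat_lit 4) (nat_lit 131) (nat_lit 4) (nat_lit 407) (nat_lit 328) (nat_lit 285))))) (XT.nd (nat_lit 312) (nat_lit 684) (nat_lit 0) (XT.nd (nat_lit 156) (nat_lit 228) (nat_lit 0) (XT.nd (nat_lit 78) (nat_lit 152) (nat_lit 0) (XT.lf (nat_lit 0) (nat_lit 54057475792) (nat_lit 76) (nat_lit 13867810250) (nat_lit 76) (nat_lit 10523885518) (nat_lit 130) (nat_lit 4) (nat_lit 131) (nat_lit 5) (nat_lit 131) (nat_lit 4) (nat_lit 408) (nat_lit 328) (nat_lit 284)) (XT.lf (nat_lit 0) (nat_lit 33373576817) (nat_lit 152) (nat_lit 18947810847) (nat_lit 0) (nat_lit 30180625522) (nat_lit 128) (nat_lit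 5) (nat_lit 130) (nat_lit 4) (nat_lit 128) (nat_lit 4) (nat_lit 409) (nat_lit 328) (nat_lit 283))) (XT.nd (nat_lit 78) (nat_lit 152) (nat_lit 0) (XT.lf (nat_lit 0) (nat_lit 74082199168) (nat_lit 76) (nat_lit 7953879922) (nat_lit 76) (nat_lit 4753279486) (nat_lit 127) (nat_lit 4) (nat_lit 128) (nat_lit 5) (nat_lit 128) (nat_lit 4) (nat_lit 410) (nat_lit 328) (nat_lit 282)) (XT.lf (nat_lit 0) (nat_lit 43919645140) (nat_lit 152) (nat_lit 6495159510) (nat_lit 0) (nat_lit 40864708973) (nat_lit 125) (nat_lit 5) (nat_lit 127) (nat_lit 4) (nat_lit 125) (nat_lit 4) (nat_lit 411) (nat_lit 328) (nat_lit 281)))) (XT.nd (nat_lit 156) (nat_lit 380) (nat_lit 0) (XT.nd (nat_lit 78) (nat_lit 76) (nat_lit 0) (XT.lf (nat_lit 0) (nat_lit 853687585) (nat_lit 76) (nat_lit 1056004793) (nat_lit 152) (nat_lit 94129088281) (nat_lit 122) (nat_lit 5) (nat_lit 123) (nat_lit 5) (nat_lit 124) (nat_lit 4) (nat_lit 412) (nat_lit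 328) (nat_lit 280)) (XT.lf (nat_lit 0) (nat_lit 8233998615) (nat_lit 76) (nat_lit 47847935481) (nat_lit 76) (nat_lit 44927016644) (nat_lit 121) (nat_lit 4) (nat_lit 122) (nat_lit 5) (nat_lit 122) (nat_lit 4) (nat_lit 413) (nat_lit 328) (nat_lit 279))) (XT.nd (nat_lit 78) (nat_lit 228) (nat_lit 0) (XT.lf (nat_lit 0) (nat_lit 9838278407) (nat_lit 152) (nat_lit 89385958462) (nat_lit 0) (nat_lit 7051594148) (nat_lit 119) (nat_lit 5) (nat_lit 121) (nat_lit 4) (nat_lit 119) (nat_lit 4) (nat_lit 414) (nat_lit 328) (nat_lit 278)) (XT.nd (nat_lit 78) (nat_lit 152) (nat_lit 0) (XT.lf (nat_lit 0) (nat_lit 25603384429) (nat_lit 76) (nat_lit 44490440292) (nat_lit 76) (nat_lit 41699259000) (nat_lit 118) (nat_lit 4) (nat_lit 119) (nat_lit 5) (nat_lit 119) (nat_lit 4) (nat_lit 415) (nat_lit 328) (nat_lit 277)) (XT.lf (nat_lit 0) (nat_lit 19084876906) (nat_lit 152) (nat_lit 82119385759) (nat_lit 0) (nat_lit 16422643372)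 (nat_lit 116) (nat_lit 5) (nat_lit 118) (nat_lit 4) (nat_lit 116) (nat_lit 4) (nat_lit 416) (nat_lit 328) (nat_lit 276))))))))
noncomputable def xc55 : XT := (XT.nd (nat_lit 1248) (nat_lit 1824) (nat_lit 0) (XT.nd (nat_lit 624) (nat_lit 988) (nat_lit 0) (XT.nd (nat_lit 312) (nat_lit 456) (nat_lit 0) (XT.nd (nat_lit 156) (nat_lit 228) (nat_lit 0) (XT.nd (nat_lit 78) (nat_lit 152) (nat_lit 0) (XT.lf (nat_lit 0) (nat_lit 45791768754) (nat_lit 76) (nat_lit 40312850188) (nat_lit 76) (nat_lit 37646944768) (nat_lit 115) (nat_lit 4) (nat_lit 116) (nat_lit 5) (nat_lit 116) (nat_lit 4) (nat_lit 417) (nat_lit 328) (nat_lit 275)) (XT.lf (nat_lit 0) (nat_lit 29841403448) (nat_lit 152) (nat_lit 73072548006) (nat_lit 0) (nat_lit 27299207910) (nat_lit 113) (nat_lit 5) (nat_lit 115) (nat_lit 4) (nat_lit 113) (nat_lit 4) (nat_lit 418) (nat_lit 328) (nat_lit 274))) (XT.nd (nat_lit 78) (nat_lit 152) (nat_lit 0)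 (XT.lf (nat_lit 0) (nat_lit 69246620515) (nat_lit 76) (nat_lit 35154907004) (nat_lit 76) (nat_lit 32609713322) (nat_lit 112) (nat_lit 4) (nat_lit 113) (nat_lit 5) (nat_lit 113) (nat_lit 4) (nat_lit 419) (nat_lit 328) (nat_lit 273)) (XT.lf (nat_lit 0) (nat_lit 42344721190) (nat_lit 152) (nat_lit 61905189803) (nat_lit 0) (nat_lit 39918083341) (nat_lit 110) (nat_lit 5) (nat_lit 112) (nat_lit 4) (nat_lit 110) (nat_lit 4) (nat_lit 420) (nat_lit 328) (nat_lit 272)))) (XT.nd (nat_lit 156) (nat_lit 228) (nat_lit 0) (XT.nd (nat_lit 78) (nat_lit 152) (nat_lit 0) (XT.lf (nat_lit 0) (nat_lit 96476508991) (nat_lit 76) (nat_lit 28832664153) (nat_lit 76) (nat_lit 26403578280) (nat_lit 109) (nat_lit 4) (nat_lit 110) (nat_lit 5) (nat_lit 110) (nat_lit 4) (nat_lit 421) (nat_lit 328) (nat_lit 271)) (XT.lf (nat_lit 0) (nat_lit 56863934071) (nat_lit 152) (nat_lit 48227012015) (nat_lit 0) (nat_lit 54548360203) (nat_lit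 107) (nat_lit 5) (nat_lit 109) (nat_lit 4) (nat_lit 107) (nat_lit 4) (nat_lit 422) (nat_lit 328) (nat_lit 270))) (XT.nd (nat_lit 78) (nat_lit 152) (nat_lit 0) (XT.lf (nat_lit 0) (nat_lit 128059175473) (nat_lit 76) (nat_lit 21135205592) (nat_lit 76) (nat_lit 18817632881) (nat_lit 106) (nat_lit 4) (nat_lit 107) (nat_lit 5) (nat_lit 107) (nat_lit 4) (nat_lit 423) (nat_lit 328) (nat_lit 269)) (XT.lf (nat_lit 0) (nat_lit 73704644550) (nat_lit 152) (nat_lit 31590740482) (nat_lit 0) (nat_lit 71495669795) (nat_lit 104) (nat_lit 5) (nat_lit 106) (nat_lit 4) (nat_lit 104) (nat_lit 4) (nat_lit 424) (nat_lit 328) (nat_lit 268))))) (XT.nd (nat_lit 312) (nat_lit 456) (nat_lit 0) (XT.nd (nat_lit 156) (nat_lit 304) (nat_lit 0) (XT.nd (nat_lit 78) (nat_lit 152) (nat_lit 0) (XT.lf (nat_lit 0) (nat_lit 164650627782) (nat_lit 76) (nat_lit 11820933489) (nat_lit 76) (nat_lit 9610326652) (nat_lit 103) (nat_lit 4) (nat_lit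 104) (nat_lit 5) (nat_lit 104) (nat_lit 4) (nat_lit 425) (nat_lit 328) (nat_lit 267)) (XT.lf (nat_lit 0) (nat_lit 93213748186) (nat_lit 152) (nat_lit 11484289799) (nat_lit 0) (nat_lit 91106969115) (nat_lit 101) (nat_lit 5) (nat_lit 103) (nat_lit 4) (nat_lit 101) (nat_lit 4) (nat_lit 426) (nat_lit 328) (nat_lit 266))) (XT.nd (nat_lit 78) (nat_lit 76) (nat_lit 0) (XT.lf (nat_lit 0) (nat_lit 886404217) (nat_lit 76) (nat_lit 574335248) (nat_lit 152) (nat_lit 204651414983) (nat_lit 98) (nat_lit 5) (nat_lit 99) (nat_lit 5) (nat_lit 100) (nat_lit 4) (nat_lit 427) (nat_lit 328) (nat_lit 265)) (XT.lf (nat_lit 0) (nat_lit 13097287156) (nat_lit 76) (nat_lit 102892029963) (nat_lit 76) (nat_lit 100883129400) (nat_lit 97) (nat_lit 4) (nat_lit 98) (nat_lit 5) (nat_lit 98) (nat_lit 4) (nat_lit 428) (nat_lit 328) (nat_lit 264)))) (XT.nd (nat_lit 156) (nat_lit 228) (nat_lit 0) (XT.nd (nat_lit 78) (nat_lit 76)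 (nat_lit 0) (XT.lf (nat_lit 0) (nat_lit 14992086771) (nat_lit 152) (nat_lit 200206755136) (nat_lit 0) (nat_lit 13077811855) (nat_lit 95) (nat_lit 5) (nat_lit 97) (nat_lit 4) (nat_lit 95) (nat_lit 4) (nat_lit 429) (nat_lit 328) (nat_lit 263)) (XT.lf (nat_lit 0) (nat_lit 42940181581) (nat_lit 76) (nat_lit 99594484690) (nat_lit 76) (nat_lit 97679250251) (nat_lit 94) (nat_lit 4) (nat_lit 95) (nat_lit 5) (nat_lit 95) (nat_lit 4) (nat_lit 430) (nat_lit 328) (nat_lit 262))) (XT.nd (nat_lit 78) (nat_lit 76) (nat_lit 0) (XT.lf (nat_lit 0) (nat_lit 31149207131) (nat_lit 152) (nat_lit 192369188042) (nat_lit 0) (nat_lit 29324328192) (nat_lit 92) (nat_lit 5) (nat_lit 94) (nat_lit 4) (nat_lit 92) (nat_lit 4) (nat_lit 431) (nat_lit 328) (nat_lit 261)) (XT.lf (nat_lit 0) (nat_lit 78454332765) (nat_lit 76) (nat_lit 94728521754) (nat_lit 76) (nat_lit 92902859352) (nat_lit 91) (nat_lit 4) (nat_lit 92) (nat_lit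 5) (nat_lit 92) (nat_lit 4) (nat_lit 432) (nat_lit 328) (nat_lit 260)))))) (XT.nd (nat_lit 624) (nat_lit 912) (nat_lit 0) (XT.nd (nat_lit 312) (nat_lit 456) (nat_lit 0) (XT.nd (nat_lit 156) (nat_lit 228) (nat_lit 0) (XT.nd (nat_lit 78) (nat_lit 76) (nat_lit 0) (XT.lf (nat_lit 0) (nat_lit 50341883262) (nat_lit 152) (nat_lit 181126273726) (nat_lit 0) (nat_lit 48602466280) (nat_lit 89) (nat_lit 5) (nat_lit 91) (nat_lit 4) (nat_lit 89) (nat_lit 4) (nat_lit 433) (nat_lit 328) (nat_lit 259)) (XT.lf (nat_lit 0) (nat_lit 120540679369) (nat_lit 76) (nat_lit 87980529739) (nat_lit 76) (nat_lit 86240473049) (nat_lit 88) (nat_lit 4) (nat_lit 89) (nat_lit 5) (nat_lit 89) (nat_lit 4) (nat_lit 434) (nat_lit 328) (nat_lit 258))) (XT.nd (nat_lit 78) (nat_lit 76) (nat_lit 0) (XT.lf (nat_lit 0) (nat_lit 73047669348) (nat_lit 152) (nat_lit 165810771952) (nat_lit 0) (nat_lit 71389908385) (nat_lit 86) (nat_lit 5) (nat_lit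 88) (nat_lit 4) (nat_lit 86) (nat_lit 4) (nat_lit 435) (nat_lit 328) (nat_lit 257)) (XT.lf (nat_lit 0) (nat_lit 170226298902) (nat_lit 76) (nat_lit 78988683903) (nat_lit 76) (nat_lit 77330400609) (nat_lit 85) (nat_lit 4) (nat_lit 86) (nat_lit 5) (nat_lit 86) (nat_lit 4) (nat_lit 436) (nat_lit 328) (nat_lit 256)))) (XT.nd (nat_lit 156) (nat_lit 228) (nat_lit 0) (XT.nd (nat_lit 78) (nat_lit 76) (nat_lit 0) (XT.lf (nat_lit 0) (nat_lit 99810758720) (nat_lit 152) (nat_lit 145653402569) (nat_lit 0) (nat_lit 98230980689) (nat_lit 83) (nat_lit 5) (nat_lit 85) (nat_lit 4) (nat_lit 83) (nat_lit 4) (nat_lit 437) (nat_lit 328) (nat_lit 255)) (XT.lf (nat_lit 0) (nat_lit 228681171473) (nat_lit 76) (nat_lit 67336178848) (nat_lit 76) (nat_lit 65755974328) (nat_lit 82) (nat_lit 4) (nat_lit 83) (nat_lit 5) (nat_lit 83) (nat_lit 4) (nat_lit 438) (nat_lit 328) (nat_lit 254))) (XT.nd (nat_lit 78) (nat_lit 76) (nat_lit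 0) (XT.lf (nat_lit 0) (nat_lit 131250818973) (nat_lit 152) (nat_lit 119768568545) (nat_lit 0) (nat_lit 129745486195) (nat_lit 80) (nat_lit 5) (nat_lit 82) (nat_lit 4) (nat_lit 80) (nat_lit 4) (nat_lit 439) (nat_lit 328) (nat_lit 253)) (XT.lf (nat_lit 0) (nat_lit 297237082381) (nat_lit 76) (nat_lit 52543566933) (nat_lit 76) (nat_lit 51037885920) (nat_lit 79) (nat_lit 4) (nat_lit 80) (nat_lit 5) (nat_lit 80) (nat_lit 4) (nat_lit 440) (nat_lit 328) (nat_lit 252))))) (XT.nd (nat_lit 312) (nat_lit 456) (nat_lit 0) (XT.nd (nat_lit 156) (nat_lit 228) (nat_lit 0) (XT.nd (nat_lit 78) (nat_lit 76) (nat_lit 0) (XT.lf (nat_lit 0) (nat_lit 168072952230) (nat_lit 152) (nat_lit 87138196911) (nat_lit 0) (nat_lit 166638663228) (nat_lit 77) (nat_lit 5) (nat_lit 79) (nat_lit 4) (nat_lit 77) (nat_lit 4) (nat_lit 441) (nat_lit 328) (nat_lit 251)) (XT.lf (nat_lit 0) (nat_lit 377408929603) (nat_lit 76) (nat_lit 34060088549)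 (nat_lit 76) (nat_lit 32625515209) (nat_lit 76) (nat_lit 4) (nat_lit 77) (nat_lit 5) (nat_lit 77) (nat_lit 4) (nat_lit 442) (nat_lit 328) (nat_lit 250))) (XT.nd (nat_lit 78) (nat_lit 76) (nat_lit 0) (XT.lf (nat_lit 0) (nat_lit 211078920387) (nat_lit 152) (nat_lit 46593458078) (nat_lit 0) (nat_lit 209712409325) (nat_lit 74) (nat_lit 5) (nat_lit 76) (nat_lit 4) (nat_lit 74) (nat_lit 4) (nat_lit 443) (nat_lit 328) (nat_lit 249)) (XT.lf (nat_lit 0) (nat_lit 470918734662) (nat_lit 76) (nat_lit 11253866227) (nat_lit 76) (nat_lit 9887123000) (nat_lit 73) (nat_lit 4) (nat_lit 74) (nat_lit 5) (nat_lit 74) (nat_lit 4) (nat_lit 444) (nat_lit 328) (nat_lit 248)))) (XT.nd (nat_lit 156) (nat_lit 76) (nat_lit 0) (XT.nd (nat_lit 78) (nat_lit 152) (nat_lit 0) (XT.lf (nat_lit 0) (nat_lit 3311907421) (nat_lit 76) (nat_lit 257919592999) (nat_lit 76) (nat_lit 256617728051) (nat_lit 70) (nat_lit 4) (nat_lit 71) (nat_lit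 5) (nat_lit 71) (nat_lit 4) (nat_lit 445) (nat_lit 328) (nat_lit 247)) (XT.lf (nat_lit 0) (nat_lit 18153024861) (nat_lit 152) (nat_lit 510101065310) (nat_lit 0) (nat_lit 16912972943) (nat_lit 68) (nat_lit 5) (nat_lit 70) (nat_lit 4) (nat_lit 68) (nat_lit 4) (nat_lit 446) (nat_lit 328) (nat_lit 246))) (XT.nd (nat_lit 46488) (nat_lit 0) (nat_lit 11856) (XT.lf (nat_lit 0) (nat_lit 65904294320) (nat_lit 76) (nat_lit 254534845034) (nat_lit 76) (nat_lit 253294625950) (nat_lit 67) (nat_lit 4) (nat_lit 68) (nat_lit 5) (nat_lit 68) (nat_lit 4) (nat_lit 447) (nat_lit 328) (nat_lit 245)) (XT.nd (nat_lit 78) (nat_lit 152) (nat_lit 0) (XT.lf (nat_lit 0) (nat_lit 672299388) (nat_lit 228) (nat_lit 3631692502) (nat_lit 0) (nat_lit 672299388) (nat_lit 225) (nat_lit 5) (nat_lit 228) (nat_lit 4) (nat_lit 225) (nat_lit 4) (nat_lit 362) (nat_lit 329) (nat_lit 329)) (XT.lf (nat_lit 0) (nat_lit 7500668140) (nat_lit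 152) (nat_lit 1937803399) (nat_lit 152) (nat_lit 852390062) (nat_lit 223) (nat_lit 4) (nat_lit 225) (nat_lit 5) (nat_lit 225) (nat_lit 4) (nat_lit 363) (nat_lit 329) (nat_lit 328))))))))
noncomputable def xc56 : XT := (XT.nd (nat_lit 1248) (nat_lit 2204) (nat_lit 0) (XT.nd (nat_lit 624) (nat_lit 1216) (nat_lit 0) (XT.nd (nat_lit 312) (nat_lit 912) (nat_lit 0) (XT.nd (nat_lit 156) (nat_lit 456) (nat_lit 0) (XT.nd (nat_lit 78) (nat_lit 228) (nat_lit 0) (XT.lf (nat_lit 0) (nat_lit 1880355252) (nat_lit 152) (nat_lit 5380966176) (nat_lit 152) (nat_lit 3390084571) (nat_lit 218) (nat_lit 4) (nat_lit 220) (nat_lit 5) (nat_lit 220) (nat_lit 4) (nat_lit 364) (nat_lit 329) (nat_lit 327)) (XT.lf (nat_lit 0) (nat_lit 4790220753) (nat_lit 228) (nat_lit 4196185037) (nat_lit 0) (nat_lit 2050091342) (nat_lit 215) (nat_lit 5) (nat_lit 218) (nat_lit 4) (nat_lit 215) (nat_lit 4) (nat_lit 365) (nat_lit 329) (nat_lit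 326))) (XT.nd (nat_lit 78) (nat_lit 152) (nat_lit 0) (XT.lf (nat_lit 0) (nat_lit 557189776) (nat_lit 76) (nat_lit 1432492433) (nat_lit 152) (nat_lit 9458381985) (nat_lit 211) (nat_lit 5) (nat_lit 212) (nat_lit 5) (nat_lit 213) (nat_lit 4) (nat_lit 366) (nat_lit 329) (nat_lit 325)) (XT.lf (nat_lit 0) (nat_lit 5595014013) (nat_lit 152) (nat_lit 5165412666) (nat_lit 152) (nat_lit 1122272632) (nat_lit 209) (nat_lit 4) (nat_lit 211) (nat_lit 5) (nat_lit 211) (nat_lit 4) (nat_lit 367) (nat_lit 329) (nat_lit 324)))) (XT.nd (nat_lit 156) (nat_lit 456) (nat_lit 0) (XT.nd (nat_lit 78) (nat_lit 304) (nat_lit 0) (XT.lf (nat_lit 0) (nat_lit 7632162656) (nat_lit 152) (nat_lit 1539795888) (nat_lit 0) (nat_lit 3173811199) (nat_lit 207) (nat_lit 5) (nat_lit 209) (nat_lit 4) (nat_lit 207) (nat_lit 4) (nat_lit 368) (nat_lit 329) (nat_lit 323)) (XT.lf (nat_lit 0) (nat_lit 3502836675) (nat_lit 76) (nat_lit 655169233)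 (nat_lit 152) (nat_lit 8679186753) (nat_lit 203) (nat_lit 5) (nat_lit 204) (nat_lit 5) (nat_lit 205) (nat_lit 4) (nat_lit 369) (nat_lit 329) (nat_lit 322))) (XT.nd (nat_lit 78) (nat_lit 228) (nat_lit 0) (XT.lf (nat_lit 0) (nat_lit 328949370) (nat_lit 228) (nat_lit 4603859659) (nat_lit 76) (nat_lit 8424815985) (nat_lit 200) (nat_lit 5) (nat_lit 203) (nat_lit 5) (nat_lit 201) (nat_lit 4) (nat_lit 370) (nat_lit 329) (nat_lit 321)) (XT.lf (nat_lit 0) (nat_lit 267234474) (nat_lit 152) (nat_lit 9553228948) (nat_lit 152) (nat_lit 4088774273) (nat_lit 197) (nat_lit 4) (nat_lit 199) (nat_lit 5) (nat_lit 199) (nat_lit 4) (nat_lit 371) (nat_lit 329) (nat_lit 320))))) (XT.nd (nat_lit 312) (nat_lit 532) (nat_lit 0) (XT.nd (nat_lit 156) (nat_lit 304) (nat_lit 0) (XT.nd (nat_lit 78) (nat_lit 228) (nat_lit 0) (XT.lf (nat_lit 0) (nat_lit 5498486422) (nat_lit 76) (nat_lit 46937391) (nat_lit 152) (nat_lit 8947347205)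 (nat_lit 195) (nat_lit 5) (nat_lit 196) (nat_lit 5) (nat_lit 197) (nat_lit 4) (nat_lit 372) (nat_lit 329) (nat_lit 319)) (XT.lf (nat_lit 0) (nat_lit 839619085) (nat_lit 228) (nat_lit 4226206547) (nat_lit 76) (nat_lit 10044565703) (nat_lit 192) (nat_lit 5) (nat_lit 195) (nat_lit 5) (nat_lit 193) (nat_lit 4) (nat_lit 373) (nat_lit 329) (nat_lit 318))) (XT.nd (nat_lit 78) (nat_lit 152) (nat_lit 0) (XT.lf (nat_lit 0) (nat_lit 705296175) (nat_lit 76) (nat_lit 10518840919) (nat_lit 76) (nat_lit 4539546999) (nat_lit 190) (nat_lit 4) (nat_lit 191) (nat_lit 5) (nat_lit 191) (nat_lit 4) (nat_lit 374) (nat_lit 329) (nat_lit 317)) (XT.lf (nat_lit 0) (nat_lit 5983856467) (nat_lit 152) (nat_lit 10459041699) (nat_lit 0) (nat_lit 11443390) (nat_lit 188) (nat_lit 5) (nat_lit 190) (nat_lit 4) (nat_lit 188) (nat_lit 4) (nat_lit 375) (nat_lit 329) (nat_lit 316)))) (XT.nd (nat_lit 156) (nat_lit 304) (nat_lit 0) (XT.nd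 (nat_lit 78) (nat_lit 76) (nat_lit 0) (XT.lf (nat_lit 0) (nat_lit 239651096) (nat_lit 152) (nat_lit 5738394473) (nat_lit 76) (nat_lit 11206195785) (nat_lit 186) (nat_lit 5) (nat_lit 188) (nat_lit 5) (nat_lit 187) (nat_lit 4) (nat_lit 376) (nat_lit 329) (nat_lit 315)) (XT.lf (nat_lit 0) (nat_lit 11614083034) (nat_lit 152) (nat_lit 886962644) (nat_lit 0) (nat_lit 5454189113) (nat_lit 185) (nat_lit 5) (nat_lit 187) (nat_lit 4) (nat_lit 185) (nat_lit 4) (nat_lit 377) (nat_lit 329) (nat_lit 314))) (XT.nd (nat_lit 78) (nat_lit 76) (nat_lit 0) (XT.lf (nat_lit 0) (nat_lit 4331247347) (nat_lit 76) (nat_lit 888851414) (nat_lit 152) (nat_lit 13550164089) (nat_lit 182) (nat_lit 5) (nat_lit 183) (nat_lit 5) (nat_lit 184) (nat_lit 4) (nat_lit 378) (nat_lit 329) (nat_lit 313)) (XT.lf (nat_lit 0) (nat_lit 9728666622) (nat_lit 76) (nat_lit 8076225813) (nat_lit 76) (nat_lit 1824362745) (nat_lit 181) (nat_lit 4)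 (nat_lit 182) (nat_lit 5) (nat_lit 182) (nat_lit 4) (nat_lit 379) (nat_lit 329) (nat_lit 312)))))) (XT.nd (nat_lit 624) (nat_lit 1064) (nat_lit 0) (XT.nd (nat_lit 312) (nat_lit 532) (nat_lit 0) (XT.nd (nat_lit 156) (nat_lit 304) (nat_lit 0) (XT.nd (nat_lit 78) (nat_lit 152) (nat_lit 0) (XT.lf (nat_lit 0) (nat_lit 10722567351) (nat_lit 152) (nat_lit 5209376143) (nat_lit 0) (nat_lit 4605061830) (nat_lit 179) (nat_lit 5) (nat_lit 181) (nat_lit 4) (nat_lit 179) (nat_lit 4) (nat_lit 380) (nat_lit 329) (nat_lit 311)) (XT.lf (nat_lit 0) (nat_lit 2911500525) (nat_lit 152) (nat_lit 300179647) (nat_lit 76) (nat_lit 18286884663) (nat_lit 177) (nat_lit 5) (nat_lit 179) (nat_lit 5) (nat_lit 178) (nat_lit 4) (nat_lit 381) (nat_lit 329) (nat_lit 310))) (XT.nd (nat_lit 78) (nat_lit 152) (nat_lit 0) (XT.lf (nat_lit 0) (nat_lit 4886403847) (nat_lit 76) (nat_lit 11862187706) (nat_lit 76) (nat_lit 5758566555) (nat_lit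 175) (nat_lit 4) (nat_lit 176) (nat_lit 5) (nat_lit 176) (nat_lit 4) (nat_lit 382) (nat_lit 329) (nat_lit 309)) (XT.lf (nat_lit 0) (nat_lit 8139891262) (nat_lit 152) (nat_lit 13225785073) (nat_lit 0) (nat_lit 2209301803) (nat_lit 173) (nat_lit 5) (nat_lit 175) (nat_lit 4) (nat_lit 173) (nat_lit 4) (nat_lit 383) (nat_lit 329) (nat_lit 308)))) (XT.nd (nat_lit 156) (nat_lit 304) (nat_lit 0) (XT.nd (nat_lit 78) (nat_lit 152) (nat_lit 0) (XT.lf (nat_lit 0) (nat_lit 16024214748) (nat_lit 76) (nat_lit 7358534564) (nat_lit 76) (nat_lit 1319040535) (nat_lit 172) (nat_lit 4) (nat_lit 173) (nat_lit 5) (nat_lit 173) (nat_lit 4) (nat_lit 384) (nat_lit 329) (nat_lit 307)) (XT.lf (nat_lit 0) (nat_lit 13866734735) (nat_lit 152) (nat_lit 4003031778) (nat_lit 0) (nat_lit 8018799885) (nat_lit 170) (nat_lit 5) (nat_lit 172) (nat_lit 4) (nat_lit 170) (nat_lit 4) (nat_lit 385) (nat_lit 329) (nat_lit 306))) (XT.nd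 (nat_lit 78) (nat_lit 76) (nat_lit 0) (XT.lf (nat_lit 0) (nat_lit 998160298) (nat_lit 76) (nat_lit 2384774902) (nat_lit 152) (nat_lit 23762453143) (nat_lit 167) (nat_lit 5) (nat_lit 168) (nat_lit 5) (nat_lit 169) (nat_lit 4) (nat_lit 386) (nat_lit 329) (nat_lit 305)) (XT.lf (nat_lit 0) (nat_lit 6228681245) (nat_lit 76) (nat_lit 13983070973) (nat_lit 76) (nat_lit 8250507103) (nat_lit 166) (nat_lit 4) (nat_lit 167) (nat_lit 5) (nat_lit 167) (nat_lit 4) (nat_lit 387) (nat_lit 329) (nat_lit 304))))) (XT.nd (nat_lit 312) (nat_lit 532) (nat_lit 0) (XT.nd (nat_lit 156) (nat_lit 304) (nat_lit 0) (XT.nd (nat_lit 78) (nat_lit 76) (nat_lit 0) (XT.lf (nat_lit 0) (nat_lit 8660332166) (nat_lit 152) (nat_lit 18064408176) (nat_lit 0) (nat_lit 3131598962) (nat_lit 164) (nat_lit 5) (nat_lit 166) (nat_lit 4) (nat_lit 164) (nat_lit 4) (nat_lit 388) (nat_lit 329) (nat_lit 303)) (XT.lf (nat_lit 0) (nat_lit 17568391542)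 (nat_lit 76) (nat_lit 9674575883) (nat_lit 76) (nat_lit 4081816228) (nat_lit 163) (nat_lit 4) (nat_lit 164) (nat_lit 5) (nat_lit 164) (nat_lit 4) (nat_lit 389) (nat_lit 329) (nat_lit 302))) (XT.nd (nat_lit 78) (nat_lit 152) (nat_lit 0) (XT.lf (nat_lit 0) (nat_lit 14486854570) (nat_lit 152) (nat_lit 9281336350) (nat_lit 0) (nat_lit 9103956089) (nat_lit 161) (nat_lit 5) (nat_lit 163) (nat_lit 4) (nat_lit 161) (nat_lit 4) (nat_lit 390) (nat_lit 329) (nat_lit 301)) (XT.lf (nat_lit 0) (nat_lit 467236017) (nat_lit 152) (nat_lit 4477343084) (nat_lit 76) (nat_lit 29565253658) (nat_lit 159) (nat_lit 5) (nat_lit 161) (nat_lit 5) (nat_lit 160) (nat_lit 4) (nat_lit 391) (nat_lit 329) (nat_lit 300)))) (XT.nd (nat_lit 156) (nat_lit 228) (nat_lit 0) (XT.nd (nat_lit 78) (nat_lit 152) (nat_lit 0) (XT.lf (nat_lit 0) (nat_lit 383943152) (nat_lit 76) (nat_lit 20532670643) (nat_lit 76) (nat_lit 15310210754) (nat_lit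 157) (nat_lit 4) (nat_lit 158) (nat_lit 5) (nat_lit 158) (nat_lit 4) (nat_lit 392) (nat_lit 329) (nat_lit 299)) (XT.lf (nat_lit 0) (nat_lit 5438527172) (nat_lit 152) (nat_lit 32180941864) (nat_lit 0) (nat_lit 424102484) (nat_lit 155) (nat_lit 5) (nat_lit 157) (nat_lit 4) (nat_lit 155) (nat_lit 4) (nat_lit 393) (nat_lit 329) (nat_lit 298))) (XT.nd (nat_lit 78) (nat_lit 152) (nat_lit 0) (XT.lf (nat_lit 0) (nat_lit 11409064426) (nat_lit 76) (nat_lit 16795705555) (nat_lit 76) (nat_lit 11743638861) (nat_lit 154) (nat_lit 4) (nat_lit 155) (nat_lit 5) (nat_lit 155) (nat_lit 4) (nat_lit 394) (nat_lit 329) (nat_lit 297)) (XT.lf (nat_lit 0) (nat_lit 11121265394) (nat_lit 152) (nat_lit 24565376575) (nat_lit 0) (nat_lit 6276579297) (nat_lit 152) (nat_lit 5) (nat_lit 154) (nat_lit 4) (nat_lit 152) (nat_lit 4) (nat_lit 395) (nat_lit 329) (nat_lit 296)))))))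
noncomputable def xc57 : XT := (XT.nd (nat_lit 1248) (nat_lit 2204) (nat_lit 0) (XT.nd (nat_lit 624) (nat_lit 912) (nat_lit 0) (XT.nd (nat_lit 312) (nat_lit 532) (nat_lit 0) (XT.nd (nat_lit 156) (nat_lit 228) (nat_lit 0) (XT.nd (nat_lit 78) (nat_lit 152) (nat_lit 0) (XT.lf (nat_lit 0) (nat_lit 23661093832) (nat_lit 76) (nat_lit 12649298351) (nat_lit 76) (nat_lit 7773877061) (nat_lit 151) (nat_lit 4) (nat_lit 152) (nat_lit 5) (nat_lit 152) (nat_lit 4) (nat_lit 396) (nat_lit 329) (nat_lit 295)) (XT.lf (nat_lit 0) (nat_lit 17458134642) (nat_lit 152) (nat_lit 16072360479) (nat_lit 0) (nat_lit 12787772926) (nat_lit 149) (nat_lit 5) (nat_lit 151) (nat_lit 4) (nat_lit 149) (nat_lit 4) (nat_lit 397) (nat_lit 329) (nat_lit 294))) (XT.nd (nat_lit 78) (nat_lit 152) (nat_lit 0) (XT.lf (nat_lit 0) (nat_lit 37336158023) (nat_lit 76) (nat_lit 8018987136) (nat_lit 76) (nat_lit 3323529730) (nat_lit 148) (nat_lit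 4) (nat_lit 149) (nat_lit 5) (nat_lit 149) (nat_lit 4) (nat_lit 398) (nat_lit 329) (nat_lit 293)) (XT.lf (nat_lit 0) (nat_lit 24553765670) (nat_lit 152) (nat_lit 6541736815) (nat_lit 0) (nat_lit 20059771236) (nat_lit 146) (nat_lit 5) (nat_lit 148) (nat_lit 4) (nat_lit 146) (nat_lit 4) (nat_lit 399) (nat_lit 329) (nat_lit 292)))) (XT.nd (nat_lit 156) (nat_lit 228) (nat_lit 0) (XT.nd (nat_lit 78) (nat_lit 152) (nat_lit 0) (XT.lf (nat_lit 0) (nat_lit 1640326988) (nat_lit 152) (nat_lit 1151815068) (nat_lit 76) (nat_lit 50987285857) (nat_lit 144) (nat_lit 5) (nat_lit 146) (nat_lit 5) (nat_lit 145) (nat_lit 4) (nat_lit 400) (nat_lit 329) (nat_lit 291)) (XT.lf (nat_lit 0) (nat_lit 4347041808) (nat_lit 76) (nat_lit 28246522749) (nat_lit 76) (nat_lit 23928943219) (nat_lit 142) (nat_lit 4) (nat_lit 143) (nat_lit 5) (nat_lit 143) (nat_lit 4) (nat_lit 401) (nat_lit 329) (nat_lit 290))) (XT.nd (nat_lit 78)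 (nat_lit 76) (nat_lit 0) (XT.lf (nat_lit 0) (nat_lit 7360961290) (nat_lit 152) (nat_lit 48834312930) (nat_lit 0) (nat_lit 3233046367) (nat_lit 140) (nat_lit 5) (nat_lit 142) (nat_lit 4) (nat_lit 140) (nat_lit 4) (nat_lit 402) (nat_lit 329) (nat_lit 289)) (XT.lf (nat_lit 0) (nat_lit 16923732989) (nat_lit 76) (nat_lit 24846594702) (nat_lit 76) (nat_lit 20703925688) (nat_lit 139) (nat_lit 4) (nat_lit 140) (nat_lit 5) (nat_lit 140) (nat_lit 4) (nat_lit 403) (nat_lit 329) (nat_lit 288))))) (XT.nd (nat_lit 312) (nat_lit 456) (nat_lit 0) (XT.nd (nat_lit 156) (nat_lit 228) (nat_lit 0) (XT.nd (nat_lit 78) (nat_lit 76) (nat_lit 0) (XT.lf (nat_lit 0) (nat_lit 13933846192) (nat_lit 152) (nat_lit 41784961186) (nat_lit 0) (nat_lit 9975436469) (nat_lit 137) (nat_lit 5) (nat_lit 139) (nat_lit 4) (nat_lit 137) (nat_lit 4) (nat_lit 404) (nat_lit 329) (nat_lit 287)) (XT.lf (nat_lit 0) (nat_lit 31212479792) (nat_lit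 76) (nat_lit 20918575477) (nat_lit 76) (nat_lit 16948118844) (nat_lit 136) (nat_lit 4) (nat_lit 137) (nat_lit 5) (nat_lit 137) (nat_lit 4) (nat_lit 405) (nat_lit 329) (nat_lit 286))) (XT.nd (nat_lit 78) (nat_lit 76) (nat_lit 0) (XT.lf (nat_lit 0) (nat_lit 21424031822) (nat_lit 152) (nat_lit 33590936701) (nat_lit 0) (nat_lit 17632021176) (nat_lit 134) (nat_lit 5) (nat_lit 136) (nat_lit 4) (nat_lit 134) (nat_lit 4) (nat_lit 406) (nat_lit 329) (nat_lit 285)) (XT.lf (nat_lit 0) (nat_lit 47485591867) (nat_lit 76) (nat_lit 16361913672) (nat_lit 76) (nat_lit 12560066566) (nat_lit 133) (nat_lit 4) (nat_lit 134) (nat_lit 5) (nat_lit 134) (nat_lit 4) (nat_lit 407) (nat_lit 329) (nat_lit 284)))) (XT.nd (nat_lit 156) (nat_lit 228) (nat_lit 0) (XT.nd (nat_lit 78) (nat_lit 76) (nat_lit 0) (XT.lf (nat_lit 0) (nat_lit 29975739258) (nat_lit 152) (nat_lit 24038495379) (nat_lit 0) (nat_lit 26346258363) (nat_lit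 131) (nat_lit 5) (nat_lit 133) (nat_lit 4) (nat_lit 131) (nat_lit 4) (nat_lit 408) (nat_lit 329) (nat_lit 283)) (XT.lf (nat_lit 0) (nat_lit 66051428048) (nat_lit 76) (nat_lit 11061748183) (nat_lit 76) (nat_lit 7424235688) (nat_lit 130) (nat_lit 4) (nat_lit 131) (nat_lit 5) (nat_lit 131) (nat_lit 4) (nat_lit 409) (nat_lit 329) (nat_lit 282))) (XT.nd (nat_lit 78) (nat_lit 76) (nat_lit 0) (XT.lf (nat_lit 0) (nat_lit 39752112865) (nat_lit 152) (nat_lit 12883896168) (nat_lit 0) (nat_lit 36280732713) (nat_lit 128) (nat_lit 5) (nat_lit 130) (nat_lit 4) (nat_lit 128) (nat_lit 4) (nat_lit 410) (nat_lit 329) (nat_lit 281)) (XT.lf (nat_lit 0) (nat_lit 87259108405) (nat_lit 76) (nat_lit 4886990130) (nat_lit 76) (nat_lit 1409052071) (nat_lit 127) (nat_lit 4) (nat_lit 128) (nat_lit 5) (nat_lit 128) (nat_lit 4) (nat_lit 411) (nat_lit 329) (nat_lit 280)))))) (XT.nd (nat_lit 624) (nat_lit 1140) (nat_lit 0) (XT.nd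 (nat_lit 312) (nat_lit 456) (nat_lit 0) (XT.nd (nat_lit 156) (nat_lit 228) (nat_lit 0) (XT.nd (nat_lit 78) (nat_lit 152) (nat_lit 0) (XT.lf (nat_lit 0) (nat_lit 155671912) (nat_lit 76) (nat_lit 50784480483) (nat_lit 76) (nat_lit 47466375536) (nat_lit 124) (nat_lit 4) (nat_lit 125) (nat_lit 5) (nat_lit 125) (nat_lit 4) (nat_lit 412) (nat_lit 329) (nat_lit 279)) (XT.lf (nat_lit 0) (nat_lit 5621321702) (nat_lit 152) (nat_lit 95466496596) (nat_lit 0) (nat_lit 2456122117) (nat_lit 122) (nat_lit 5) (nat_lit 124) (nat_lit 4) (nat_lit 122) (nat_lit 4) (nat_lit 413) (nat_lit 329) (nat_lit 278))) (XT.nd (nat_lit 78) (nat_lit 152) (nat_lit 0) (XT.lf (nat_lit 0) (nat_lit 15890389295) (nat_lit 76) (nat_lit 48099075098) (nat_lit 76) (nat_lit 44929153628) (nat_lit 121) (nat_lit 4) (nat_lit 122) (nat_lit 5) (nat_lit 122) (nat_lit 4) (nat_lit 414) (nat_lit 329) (nat_lit 277)) (XT.lf (nat_lit 0) (nat_lit 14005358610)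 (nat_lit 152) (nat_lit 89621316129) (nat_lit 0) (nat_lit 10982221863) (nat_lit 119) (nat_lit 5) (nat_lit 121) (nat_lit 4) (nat_lit 119) (nat_lit 4) (nat_lit 415) (nat_lit 329) (nat_lit 276)))) (XT.nd (nat_lit 156) (nat_lit 228) (nat_lit 0) (XT.nd (nat_lit 78) (nat_lit 152) (nat_lit 0) (XT.lf (nat_lit 0) (nat_lit 34266634165) (nat_lit 76) (nat_lit 44667621126) (nat_lit 76) (nat_lit 41640628898) (nat_lit 118) (nat_lit 4) (nat_lit 119) (nat_lit 5) (nat_lit 119) (nat_lit 4) (nat_lit 416) (nat_lit 329) (nat_lit 275)) (XT.lf (nat_lit 0) (nat_lit 23805943836) (nat_lit 152) (nat_lit 82151706645) (nat_lit 0) (nat_lit 20919694200) (nat_lit 116) (nat_lit 5) (nat_lit 118) (nat_lit 4) (nat_lit 116) (nat_lit 4) (nat_lit 417) (nat_lit 329) (nat_lit 274))) (XT.nd (nat_lit 78) (nat_lit 152) (nat_lit 0) (XT.lf (nat_lit 0) (nat_lit 55708240181) (nat_lit 76) (nat_lit 40340040842) (nat_lit 76) (nat_lit 37450643155)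 (nat_lit 115) (nat_lit 4) (nat_lit 116) (nat_lit 5) (nat_lit 116) (nat_lit 4) (nat_lit 418) (nat_lit 329) (nat_lit 273)) (XT.lf (nat_lit 0) (nat_lit 35247531647) (nat_lit 152) (nat_lit 72738791402) (nat_lit 0) (nat_lit 32492948268) (nat_lit 113) (nat_lit 5) (nat_lit 115) (nat_lit 4) (nat_lit 113) (nat_lit 4) (nat_lit 419) (nat_lit 329) (nat_lit 272))))) (XT.nd (nat_lit 312) (nat_lit 684) (nat_lit 0) (XT.nd (nat_lit 156) (nat_lit 228) (nat_lit 0) (XT.nd (nat_lit 78) (nat_lit 152) (nat_lit 0) (XT.lf (nat_lit 0) (nat_lit 80697354435) (nat_lit 76) (nat_lit 34943782558) (nat_lit 76) (nat_lit 32186628753) (nat_lit 112) (nat_lit 4) (nat_lit 113) (nat_lit 5) (nat_lit 113) (nat_lit 4) (nat_lit 420) (nat_lit 329) (nat_lit 271)) (XT.lf (nat_lit 0) (nat_lit 48585351852) (nat_lit 152) (nat_lit 61016204983) (nat_lit 0) (nat_lit 45957224397) (nat_lit 110) (nat_lit 5) (nat_lit 112) (nat_lit 4) (nat_lit 110)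 (nat_lit 4) (nat_lit 421) (nat_lit 329) (nat_lit 270))) (XT.nd (nat_lit 78) (nat_lit 152) (nat_lit 0) (XT.lf (nat_lit 0) (nat_lit 109782169588) (nat_lit 76) (nat_lit 28280690273) (nat_lit 76) (nat_lit 25650464033) (nat_lit 109) (nat_lit 4) (nat_lit 110) (nat_lit 5) (nat_lit 110) (nat_lit 4) (nat_lit 422) (nat_lit 329) (nat_lit 269)) (XT.lf (nat_lit 0) (nat_lit 64109489736) (nat_lit 152) (nat_lit 46563477427) (nat_lit 0) (nat_lit 61602661583) (nat_lit 107) (nat_lit 5) (nat_lit 109) (nat_lit 4) (nat_lit 107) (nat_lit 4) (nat_lit 423) (nat_lit 329) (nat_lit 268)))) (XT.nd (nat_lit 156) (nat_lit 456) (nat_lit 0) (XT.nd (nat_lit 78) (nat_lit 152) (nat_lit 0) (XT.lf (nat_lit 0) (nat_lit 143585638901) (nat_lit 76) (nat_lit 20123459821) (nat_lit 76) (nat_lit 17614917982) (nat_lit 106) (nat_lit 4) (nat_lit 107) (nat_lit 5) (nat_lit 107) (nat_lit 4) (nat_lit 424) (nat_lit 329) (nat_lit 267)) (XT.lf (nat_lit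 0) (nat_lit 82149481826) (nat_lit 152) (nat_lit 28898550928) (nat_lit 0) (nat_lit 79758883173) (nat_lit 104) (nat_lit 5) (nat_lit 106) (nat_lit 4) (nat_lit 104) (nat_lit 4) (nat_lit 425) (nat_lit 329) (nat_lit 266))) (XT.nd (nat_lit 78) (nat_lit 380) (nat_lit 0) (XT.lf (nat_lit 0) (nat_lit 182815295913) (nat_lit 76) (nat_lit 10211629491) (nat_lit 76) (nat_lit 7819631591) (nat_lit 103) (nat_lit 4) (nat_lit 104) (nat_lit 5) (nat_lit 104) (nat_lit 4) (nat_lit 426) (nat_lit 329) (nat_lit 265)) (XT.nd (nat_lit 78) (nat_lit 228) (nat_lit 0) (XT.lf (nat_lit 0) (nat_lit 103079491715) (nat_lit 152) (nat_lit 7469319197) (nat_lit 0) (nat_lit 100800164572) (nat_lit 101) (nat_lit 5) (nat_lit 103) (nat_lit 4) (nat_lit 101) (nat_lit 4) (nat_lit 427) (nat_lit 329) (nat_lit 264)) (XT.lf (nat_lit 0) (nat_lit 4026555476) (nat_lit 152) (nat_lit 216597443862) (nat_lit 0) (nat_lit 1854679622) (nat_lit 98) (nat_lit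 5) (nat_lit 100) (nat_lit 4) (nat_lit 98) (nat_lit 4) (nat_lit 428) (nat_lit 329) (nat_lit 263))))))))
noncomputable def xc58 : XT := (XT.nd (nat_lit 1248) (nat_lit 456) (nat_lit 0) (XT.nd (nat_lit 624) (nat_lit 912) (nat_lit 0) (XT.nd (nat_lit 312) (nat_lit 456) (nat_lit 0) (XT.nd (nat_lit 156) (nat_lit 228) (nat_lit 0) (XT.nd (nat_lit 78) (nat_lit 152) (nat_lit 0) (XT.lf (nat_lit 0) (nat_lit 18962864110) (nat_lit 76) (nat_lit 108657337269) (nat_lit 76) (nat_lit 106484453917) (nat_lit 97) (nat_lit 4) (nat_lit 98) (nat_lit 5) (nat_lit 98) (nat_lit 4) (nat_lit 429) (nat_lit 329) (nat_lit 262)) (XT.lf (nat_lit 0) (nat_lit 18515251771) (nat_lit 152) (nat_lit 211462393783) (nat_lit 0) (nat_lit 16444950607) (nat_lit 95) (nat_lit 5) (nat_lit 97) (nat_lit 4) (nat_lit 95) (nat_lit 4) (nat_lit 430) (nat_lit 329) (nat_lit 261))) (XT.nd (nat_lit 78) (nat_lit 152) (nat_lit 0) (XT.lf (nat_lit 0) (nat_lit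 50929394883) (nat_lit 76) (nat_lit 105230810242) (nat_lit 76) (nat_lit 103159686441) (nat_lit 94) (nat_lit 4) (nat_lit 95) (nat_lit 5) (nat_lit 95) (nat_lit 4) (nat_lit 431) (nat_lit 329) (nat_lit 260)) (XT.lf (nat_lit 0) (nat_lit 35837513213) (nat_lit 152) (nat_lit 203258520619) (nat_lit 0) (nat_lit 33864288927) (nat_lit 92) (nat_lit 5) (nat_lit 94) (nat_lit 4) (nat_lit 92) (nat_lit 4) (nat_lit 432) (nat_lit 329) (nat_lit 259)))) (XT.nd (nat_lit 156) (nat_lit 228) (nat_lit 0) (XT.nd (nat_lit 78) (nat_lit 152) (nat_lit 0) (XT.lf (nat_lit 0) (nat_lit 89035308538) (nat_lit 76) (nat_lit 100103057141) (nat_lit 76) (nat_lit 98129161162) (nat_lit 91) (nat_lit 4) (nat_lit 92) (nat_lit 5) (nat_lit 92) (nat_lit 4) (nat_lit 433) (nat_lit 329) (nat_lit 258)) (XT.lf (nat_lit 0) (nat_lit 56445178258) (nat_lit 152) (nat_lit 191362612651) (nat_lit 0) (nat_lit 54564685003) (nat_lit 89) (nat_lit 5) (nat_lit 91)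 (nat_lit 4) (nat_lit 89) (nat_lit 4) (nat_lit 434) (nat_lit 329) (nat_lit 257))) (XT.nd (nat_lit 78) (nat_lit 152) (nat_lit 0) (XT.lf (nat_lit 0) (nat_lit 134252833337) (nat_lit 76) (nat_lit 92935770107) (nat_lit 76) (nat_lit 91054728406) (nat_lit 88) (nat_lit 4) (nat_lit 89) (nat_lit 5) (nat_lit 89) (nat_lit 4) (nat_lit 435) (nat_lit 329) (nat_lit 256)) (XT.lf (nat_lit 0) (nat_lit 80853617657) (nat_lit 152) (nat_lit 175054827533) (nat_lit 0) (nat_lit 79061665731) (nat_lit 86) (nat_lit 5) (nat_lit 88) (nat_lit 4) (nat_lit 86) (nat_lit 4) (nat_lit 436) (nat_lit 329) (nat_lit 255))))) (XT.nd (nat_lit 312) (nat_lit 456) (nat_lit 0) (XT.nd (nat_lit 156) (nat_lit 228) (nat_lit 0) (XT.nd (nat_lit 78) (nat_lit 152) (nat_lit 0) (XT.lf (nat_lit 0) (nat_lit 187690469653) (nat_lit 76) (nat_lit 83338551104) (nat_lit 76) (nat_lit 81546151364) (nat_lit 85) (nat_lit 4) (nat_lit 86) (nat_lit 5) (nat_lit 86)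 (nat_lit 4) (nat_lit 437) (nat_lit 329) (nat_lit 254)) (XT.lf (nat_lit 0) (nat_lit 109650194431) (nat_lit 152) (nat_lit 153505077992) (nat_lit 0) (nat_lit 107942752162) (nat_lit 83) (nat_lit 5) (nat_lit 85) (nat_lit 4) (nat_lit 83) (nat_lit 4) (nat_lit 438) (nat_lit 329) (nat_lit 253))) (XT.nd (nat_lit 78) (nat_lit 152) (nat_lit 0) (XT.lf (nat_lit 0) (nat_lit 250611092668) (nat_lit 76) (nat_lit 70861603976) (nat_lit 76) (nat_lit 69153796062) (nat_lit 82) (nat_lit 4) (nat_lit 83) (nat_lit 5) (nat_lit 83) (nat_lit 4) (nat_lit 439) (nat_lit 329) (nat_lit 252)) (XT.lf (nat_lit 0) (nat_lit 143503804461) (nat_lit 152) (nat_lit 125757614856) (nat_lit 0) (nat_lit 141876998295) (nat_lit 80) (nat_lit 5) (nat_lit 82) (nat_lit 4) (nat_lit 80) (nat_lit 4) (nat_lit 440) (nat_lit 329) (nat_lit 251)))) (XT.nd (nat_lit 156) (nat_lit 228) (nat_lit 0) (XT.nd (nat_lit 78) (nat_lit 152) (nat_lit 0) (XT.lf (nat_lit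 0) (nat_lit 324452365116) (nat_lit 76) (nat_lit 54987460715) (nat_lit 76) (nat_lit 53360355993) (nat_lit 79) (nat_lit 4) (nat_lit 80) (nat_lit 5) (nat_lit 80) (nat_lit 4) (nat_lit 441) (nat_lit 329) (nat_lit 250)) (XT.lf (nat_lit 0) (nat_lit 183175632326) (nat_lit 152) (nat_lit 90713577330) (nat_lit 0) (nat_lit 181625745506) (nat_lit 77) (nat_lit 5) (nat_lit 79) (nat_lit 4) (nat_lit 77) (nat_lit 4) (nat_lit 442) (nat_lit 329) (nat_lit 249))) (XT.nd (nat_lit 78) (nat_lit 152) (nat_lit 0) (XT.lf (nat_lit 0) (nat_lit 410849747393) (nat_lit 76) (nat_lit 35121618947) (nat_lit 76) (nat_lit 33571488353) (nat_lit 76) (nat_lit 4) (nat_lit 77) (nat_lit 5) (nat_lit 77) (nat_lit 4) (nat_lit 443) (nat_lit 329) (nat_lit 248)) (XT.lf (nat_lit 0) (nat_lit 229531273414) (nat_lit 152) (nat_lit 47111251834) (nat_lit 0) (nat_lit 228054743595) (nat_lit 74) (nat_lit 5) (nat_lit 76) (nat_lit 4) (nat_lit 74) (nat_lit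 4) (nat_lit 444) (nat_lit 329) (nat_lit 247)))))) (XT.nd (nat_lit 46878) (nat_lit 0) (nat_lit 9500) (XT.nd (nat_lit 46566) (nat_lit 0) (nat_lit 11400) (XT.nd (nat_lit 156) (nat_lit 152) (nat_lit 0) (XT.nd (nat_lit 78) (nat_lit 228) (nat_lit 0) (XT.lf (nat_lit 0) (nat_lit 511662427418) (nat_lit 76) (nat_lit 10581952352) (nat_lit 76) (nat_lit 9105223489) (nat_lit 73) (nat_lit 4) (nat_lit 74) (nat_lit 5) (nat_lit 74) (nat_lit 4) (nat_lit 445) (nat_lit 329) (nat_lit 246)) (XT.lf (nat_lit 0) (nat_lit 6711046795) (nat_lit 76) (nat_lit 276948123221) (nat_lit 76) (nat_lit 275541539255) (nat_lit 70) (nat_lit 4) (nat_lit 71) (nat_lit 5) (nat_lit 71) (nat_lit 4) (nat_lit 446) (nat_lit 329) (nat_lit 245))) (XT.nd (nat_lit 46332) (nat_lit 0) (nat_lit 12616) (XT.lf (nat_lit 0) (nat_lit 21116294840) (nat_lit 152) (nat_lit 547812045644) (nat_lit 0) (nat_lit 19776536280) (nat_lit 68) (nat_lit 5) (nat_lit 70)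 (nat_lit 4) (nat_lit 68) (nat_lit 4) (nat_lit 447) (nat_lit 329) (nat_lit 244)) (XT.lf (nat_lit 0) (nat_lit 1733250749) (nat_lit 228) (nat_lit 1466077027) (nat_lit 228) (nat_lit 1466077027) (nat_lit 234) (nat_lit 4) (nat_lit 237) (nat_lit 5) (nat_lit 237) (nat_lit 4) (nat_lit 360) (nat_lit 330) (nat_lit 330)))) (XT.nd (nat_lit 156) (nat_lit 532) (nat_lit 0) (XT.nd (nat_lit 78) (nat_lit 456) (nat_lit 0) (XT.lf (nat_lit 0) (nat_lit 4482599333) (nat_lit 228) (nat_lit 1901541601) (nat_lit 0) (nat_lit 3251740609) (nat_lit 231) (nat_lit 5) (nat_lit 234) (nat_lit 4) (nat_lit 231) (nat_lit 4) (nat_lit 361) (nat_lit 330) (nat_lit 329)) (XT.lf (nat_lit 0) (nat_lit 2287947844) (nat_lit 228) (nat_lit 7645791479) (nat_lit 0) (nat_lit 30288104) (nat_lit 225) (nat_lit 5) (nat_lit 228) (nat_lit 4) (nat_lit 225) (nat_lit 4) (nat_lit 362) (nat_lit 330) (nat_lit 328))) (XT.nd (nat_lit 78) (nat_lit 380) (nat_lit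 0) (XT.lf (nat_lit 0) (nat_lit 6739830026) (nat_lit 152) (nat_lit 3418169785) (nat_lit 152) (nat_lit 155497696) (nat_lit 223) (nat_lit 4) (nat_lit 225) (nat_lit 5) (nat_lit 225) (nat_lit 4) (nat_lit 363) (nat_lit 330) (nat_lit 327)) (XT.lf (nat_lit 0) (nat_lit 655834484) (nat_lit 152) (nat_lit 7012306413) (nat_lit 152) (nat_lit 3018745385) (nat_lit 218) (nat_lit 4) (nat_lit 220) (nat_lit 5) (nat_lit 220) (nat_lit 4) (nat_lit 364) (nat_lit 330) (nat_lit 326))))) (XT.nd (nat_lit 312) (nat_lit 1064) (nat_lit 0) (XT.nd (nat_lit 156) (nat_lit 380) (nat_lit 0) (XT.nd (nat_lit 78) (nat_lit 228) (nat_lit 0) (XT.lf (nat_lit 0) (nat_lit 4889655999) (nat_lit 228) (nat_lit 5890297272) (nat_lit 0) (nat_lit 304735200) (nat_lit 215) (nat_lit 5) (nat_lit 218) (nat_lit 4) (nat_lit 215) (nat_lit 4) (nat_lit 365) (nat_lit 330) (nat_lit 325)) (XT.lf (nat_lit 0) (nat_lit 1795811659) (nat_lit 228) (nat_lit 1627145177)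 (nat_lit 76) (nat_lit 8085432412) (nat_lit 212) (nat_lit 5) (nat_lit 215) (nat_lit 5) (nat_lit 213) (nat_lit 4) (nat_lit 366) (nat_lit 330) (nat_lit 324))) (XT.nd (nat_lit 78) (nat_lit 152) (nat_lit 0) (XT.lf (nat_lit 0) (nat_lit 2881911209) (nat_lit 152) (nat_lit 7384997535) (nat_lit 152) (nat_lit 1691097988) (nat_lit 209) (nat_lit 4) (nat_lit 211) (nat_lit 5) (nat_lit 211) (nat_lit 4) (nat_lit 367) (nat_lit 330) (nat_lit 323)) (XT.lf (nat_lit 0) (nat_lit 6799810194) (nat_lit 152) (nat_lit 4821472934) (nat_lit 0) (nat_lit 814324738) (nat_lit 207) (nat_lit 5) (nat_lit 209) (nat_lit 4) (nat_lit 207) (nat_lit 4) (nat_lit 368) (nat_lit 330) (nat_lit 322)))) (XT.nd (nat_lit 156) (nat_lit 608) (nat_lit 0) (XT.nd (nat_lit 78) (nat_lit 228) (nat_lit 0) (XT.lf (nat_lit 0) (nat_lit 2961753488) (nat_lit 228) (nat_lit 434931529) (nat_lit 76) (nat_lit 9546244553) (nat_lit 204) (nat_lit 5) (nat_lit 207) (nat_lit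 5) (nat_lit 205) (nat_lit 4) (nat_lit 369) (nat_lit 330) (nat_lit 321)) (XT.lf (nat_lit 0) (nat_lit 4250159186) (nat_lit 152) (nat_lit 7942534823) (nat_lit 152) (nat_lit 1286371684) (nat_lit 201) (nat_lit 4) (nat_lit 203) (nat_lit 5) (nat_lit 203) (nat_lit 4) (nat_lit 370) (nat_lit 330) (nat_lit 320))) (XT.nd (nat_lit 78) (nat_lit 456) (nat_lit 0) (XT.lf (nat_lit 0) (nat_lit 7928644617) (nat_lit 152) (nat_lit 4934657529) (nat_lit 0) (nat_lit 1184263905) (nat_lit 199) (nat_lit 5) (nat_lit 201) (nat_lit 4) (nat_lit 199) (nat_lit 4) (nat_lit 371) (nat_lit 330) (nat_lit 319)) (XT.nd (nat_lit 78) (nat_lit 228) (nat_lit 0) (XT.lf (nat_lit 0) (nat_lit 3228613402) (nat_lit 228) (nat_lit 500887796) (nat_lit 76) (nat_lit 10920765023) (nat_lit 196) (nat_lit 5) (nat_lit 199) (nat_lit 5) (nat_lit 197) (nat_lit 4) (nat_lit 372) (nat_lit 330) (nat_lit 318)) (XT.lf (nat_lit 0) (nat_lit 4228496411) (nat_lit 152)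 (nat_lit 9084427612) (nat_lit 152) (nat_lit 1973075362) (nat_lit 193) (nat_lit 4) (nat_lit 195) (nat_lit 5) (nat_lit 195) (nat_lit 4) (nat_lit 373) (nat_lit 330) (nat_lit 317))))))))
noncomputable def xc59 : XT := (XT.nd (nat_lit 1248) (nat_lit 2128) (nat_lit 0) (XT.nd (nat_lit 624) (nat_lit 1064) (nat_lit 0) (XT.nd (nat_lit 312) (nat_lit 532) (nat_lit 0) (XT.nd (nat_lit 156) (nat_lit 304) (nat_lit 0) (XT.nd (nat_lit 78) (nat_lit 152) (nat_lit 0) (XT.lf (nat_lit 0) (nat_lit 8107458967) (nat_lit 152) (nat_lit 6808727428) (nat_lit 0) (nat_lit 1043002730) (nat_lit 191) (nat_lit 5) (nat_lit 193) (nat_lit 4) (nat_lit 191) (nat_lit 4) (nat_lit 374) (nat_lit 330) (nat_lit 316)) (XT.lf (nat_lit 0) (nat_lit 2396274637) (nat_lit 152) (nat_lit 2422222684) (nat_lit 76) (nat_lit 11853005351) (nat_lit 189) (nat_lit 5) (nat_lit 191) (nat_lit 5) (nat_lit 190) (nat_lit 4) (nat_lit 375) (nat_lit 330) (nat_lit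 315))) (XT.nd (nat_lit 78) (nat_lit 152) (nat_lit 0) (XT.lf (nat_lit 0) (nat_lit 2182011472) (nat_lit 76) (nat_lit 11232309358) (nat_lit 76) (nat_lit 4008780258) (nat_lit 187) (nat_lit 4) (nat_lit 188) (nat_lit 5) (nat_lit 188) (nat_lit 4) (nat_lit 376) (nat_lit 330) (nat_lit 314)) (XT.lf (nat_lit 0) (nat_lit 7076252370) (nat_lit 76) (nat_lit 6843105) (nat_lit 152) (nat_lit 11134671574) (nat_lit 185) (nat_lit 5) (nat_lit 186) (nat_lit 5) (nat_lit 187) (nat_lit 4) (nat_lit 377) (nat_lit 330) (nat_lit 313)))) (XT.nd (nat_lit 156) (nat_lit 304) (nat_lit 0) (XT.nd (nat_lit 78) (nat_lit 76) (nat_lit 0) (XT.lf (nat_lit 0) (nat_lit 176075878) (nat_lit 152) (nat_lit 6923158273) (nat_lit 76) (nat_lit 11957499253) (nat_lit 183) (nat_lit 5) (nat_lit 185) (nat_lit 5) (nat_lit 184) (nat_lit 4) (nat_lit 378) (nat_lit 330) (nat_lit 312)) (XT.lf (nat_lit 0) (nat_lit 12235563701) (nat_lit 152) (nat_lit 2579632616)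 (nat_lit 0) (nat_lit 5126794709) (nat_lit 182) (nat_lit 5) (nat_lit 184) (nat_lit 4) (nat_lit 182) (nat_lit 4) (nat_lit 379) (nat_lit 330) (nat_lit 311))) (XT.nd (nat_lit 78) (nat_lit 76) (nat_lit 0) (XT.lf (nat_lit 0) (nat_lit 2050630166) (nat_lit 76) (nat_lit 2494839038) (nat_lit 152) (nat_lit 16333028560) (nat_lit 179) (nat_lit 5) (nat_lit 180) (nat_lit 5) (nat_lit 181) (nat_lit 4) (nat_lit 380) (nat_lit 330) (nat_lit 310)) (XT.lf (nat_lit 0) (nat_lit 6905748754) (nat_lit 76) (nat_lit 11009512715) (nat_lit 76) (nat_lit 3947959845) (nat_lit 178) (nat_lit 4) (nat_lit 179) (nat_lit 5) (nat_lit 179) (nat_lit 4) (nat_lit 381) (nat_lit 330) (nat_lit 309))))) (XT.nd (nat_lit 312) (nat_lit 456) (nat_lit 0) (XT.nd (nat_lit 156) (nat_lit 304) (nat_lit 0) (XT.nd (nat_lit 78) (nat_lit 152) (nat_lit 0) (XT.lf (nat_lit 0) (nat_lit 9421032551) (nat_lit 152) (nat_lit 10911340550) (nat_lit 0) (nat_lit 2572246322)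 (nat_lit 176) (nat_lit 5) (nat_lit 178) (nat_lit 4) (nat_lit 176) (nat_lit 4) (nat_lit 382) (nat_lit 330) (nat_lit 308)) (XT.lf (nat_lit 0) (nat_lit 133796534) (nat_lit 152) (nat_lit 6688853131) (nat_lit 76) (nat_lit 17182236414) (nat_lit 174) (nat_lit 5) (nat_lit 176) (nat_lit 5) (nat_lit 175) (nat_lit 4) (nat_lit 383) (nat_lit 330) (nat_lit 307))) (XT.nd (nat_lit 78) (nat_lit 228) (nat_lit 0) (XT.lf (nat_lit 0) (nat_lit 14763130401) (nat_lit 152) (nat_lit 2368508879) (nat_lit 0) (nat_lit 8030734717) (nat_lit 173) (nat_lit 5) (nat_lit 175) (nat_lit 4) (nat_lit 173) (nat_lit 4) (nat_lit 384) (nat_lit 330) (nat_lit 306)) (XT.lf (nat_lit 0) (nat_lit 2313844170) (nat_lit 76) (nat_lit 2144501180) (nat_lit 152) (nat_lit 21928834046) (nat_lit 170) (nat_lit 5) (nat_lit 171) (nat_lit 5) (nat_lit 172) (nat_lit 4) (nat_lit 385) (nat_lit 330) (nat_lit 305)))) (XT.nd (nat_lit 156) (nat_lit 228) (nat_lit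 0) (XT.nd (nat_lit 78) (nat_lit 152) (nat_lit 0) (XT.lf (nat_lit 0) (nat_lit 7183010313) (nat_lit 76) (nat_lit 13536271797) (nat_lit 76) (nat_lit 6953209171) (nat_lit 169) (nat_lit 4) (nat_lit 170) (nat_lit 5) (nat_lit 170) (nat_lit 4) (nat_lit 386) (nat_lit 330) (nat_lit 304)) (XT.lf (nat_lit 0) (nat_lit 9349552344) (nat_lit 152) (nat_lit 16675305055) (nat_lit 0) (nat_lit 3007362895) (nat_lit 167) (nat_lit 5) (nat_lit 169) (nat_lit 4) (nat_lit 167) (nat_lit 4) (nat_lit 387) (nat_lit 330) (nat_lit 303))) (XT.nd (nat_lit 78) (nat_lit 152) (nat_lit 0) (XT.lf (nat_lit 0) (nat_lit 17749668504) (nat_lit 76) (nat_lit 9562409746) (nat_lit 76) (nat_lit 3152992525) (nat_lit 166) (nat_lit 4) (nat_lit 167) (nat_lit 5) (nat_lit 167) (nat_lit 4) (nat_lit 388) (nat_lit 330) (nat_lit 302)) (XT.lf (nat_lit 0) (nat_lit 14765155027) (nat_lit 152) (nat_lit 8607427209) (nat_lit 0) (nat_lit 8601664399) (nat_lit 164)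 (nat_lit 5) (nat_lit 166) (nat_lit 4) (nat_lit 164) (nat_lit 4) (nat_lit 389) (nat_lit 330) (nat_lit 301)))))) (XT.nd (nat_lit 624) (nat_lit 1140) (nat_lit 0) (XT.nd (nat_lit 312) (nat_lit 456) (nat_lit 0) (XT.nd (nat_lit 156) (nat_lit 228) (nat_lit 0) (XT.nd (nat_lit 78) (nat_lit 152) (nat_lit 0) (XT.lf (nat_lit 0) (nat_lit 991475276) (nat_lit 152) (nat_lit 4185858673) (nat_lit 76) (nat_lit 28393936655) (nat_lit 162) (nat_lit 5) (nat_lit 164) (nat_lit 5) (nat_lit 163) (nat_lit 4) (nat_lit 390) (nat_lit 330) (nat_lit 300)) (XT.lf (nat_lit 0) (nat_lit 298710319) (nat_lit 76) (nat_lit 20459140760) (nat_lit 76) (nat_lit 14488465284) (nat_lit 160) (nat_lit 4) (nat_lit 161) (nat_lit 5) (nat_lit 161) (nat_lit 4) (nat_lit 391) (nat_lit 330) (nat_lit 299))) (XT.nd (nat_lit 78) (nat_lit 76) (nat_lit 0) (XT.lf (nat_lit 0) (nat_lit 5365092204) (nat_lit 76) (nat_lit 186414145) (nat_lit 152) (nat_lit 31466768458)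 (nat_lit 158) (nat_lit 5) (nat_lit 159) (nat_lit 5) (nat_lit 160) (nat_lit 4) (nat_lit 392) (nat_lit 330) (nat_lit 298)) (XT.lf (nat_lit 0) (nat_lit 10491828620) (nat_lit 76) (nat_lit 17076397729) (nat_lit 76) (nat_lit 11307829992) (nat_lit 157) (nat_lit 4) (nat_lit 158) (nat_lit 5) (nat_lit 158) (nat_lit 4) (nat_lit 393) (nat_lit 330) (nat_lit 297)))) (XT.nd (nat_lit 156) (nat_lit 228) (nat_lit 0) (XT.nd (nat_lit 78) (nat_lit 76) (nat_lit 0) (XT.lf (nat_lit 0) (nat_lit 10789148820) (nat_lit 152) (nat_lit 24791710372) (nat_lit 0) (nat_lit 5260421076) (nat_lit 155) (nat_lit 5) (nat_lit 157) (nat_lit 4) (nat_lit 155) (nat_lit 4) (nat_lit 394) (nat_lit 330) (nat_lit 296)) (XT.lf (nat_lit 0) (nat_lit 21852485864) (nat_lit 76) (nat_lit 13308892033) (nat_lit 76) (nat_lit 7747892337) (nat_lit 154) (nat_lit 4) (nat_lit 155) (nat_lit 5) (nat_lit 155) (nat_lit 4) (nat_lit 395) (nat_lit 330) (nat_lit 295)))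 (XT.nd (nat_lit 78) (nat_lit 76) (nat_lit 0) (XT.lf (nat_lit 0) (nat_lit 16652438800) (nat_lit 152) (nat_lit 17107976457) (nat_lit 0) (nat_lit 11327790102) (nat_lit 152) (nat_lit 5) (nat_lit 154) (nat_lit 4) (nat_lit 152) (nat_lit 4) (nat_lit 396) (nat_lit 330) (nat_lit 294)) (XT.lf (nat_lit 0) (nat_lit 34567115556) (nat_lit 76) (nat_lit 9086487708) (nat_lit 76) (nat_lit 3735488535) (nat_lit 151) (nat_lit 4) (nat_lit 152) (nat_lit 5) (nat_lit 152) (nat_lit 4) (nat_lit 397) (nat_lit 330) (nat_lit 293))))) (XT.nd (nat_lit 312) (nat_lit 532) (nat_lit 0) (XT.nd (nat_lit 156) (nat_lit 304) (nat_lit 0) (XT.nd (nat_lit 78) (nat_lit 152) (nat_lit 0) (XT.lf (nat_lit 0) (nat_lit 23238080860) (nat_lit 152) (nat_lit 8447829436) (nat_lit 0) (nat_lit 18118654422) (nat_lit 149) (nat_lit 5) (nat_lit 151) (nat_lit 4) (nat_lit 149) (nat_lit 4) (nat_lit 398) (nat_lit 330) (nat_lit 292)) (XT.lf (nat_lit 0) (nat_lit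 785863685) (nat_lit 152) (nat_lit 3529921390) (nat_lit 76) (nat_lit 48046966235) (nat_lit 147) (nat_lit 5) (nat_lit 149) (nat_lit 5) (nat_lit 148) (nat_lit 4) (nat_lit 399) (nat_lit 330) (nat_lit 291))) (XT.nd (nat_lit 78) (nat_lit 152) (nat_lit 0) (XT.lf (nat_lit 0) (nat_lit 1405261968) (nat_lit 76) (nat_lit 29274723023) (nat_lit 76) (nat_lit 24359614724) (nat_lit 145) (nat_lit 4) (nat_lit 146) (nat_lit 5) (nat_lit 146) (nat_lit 4) (nat_lit 400) (nat_lit 330) (nat_lit 290)) (XT.lf (nat_lit 0) (nat_lit 5927500205) (nat_lit 152) (nat_lit 50716771045) (nat_lit 0) (nat_lit 1229713543) (nat_lit 143) (nat_lit 5) (nat_lit 145) (nat_lit 4) (nat_lit 143) (nat_lit 4) (nat_lit 401) (nat_lit 330) (nat_lit 289)))) (XT.nd (nat_lit 156) (nat_lit 304) (nat_lit 0) (XT.nd (nat_lit 78) (nat_lit 152) (nat_lit 0) (XT.lf (nat_lit 0) (nat_lit 12924594993) (nat_lit 76) (nat_lit 26315519316) (nat_lit 76) (nat_lit 21602240859)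 (nat_lit 142) (nat_lit 4) (nat_lit 143) (nat_lit 5) (nat_lit 143) (nat_lit 4) (nat_lit 402) (nat_lit 330) (nat_lit 288)) (XT.lf (nat_lit 0) (nat_lit 11939590993) (nat_lit 152) (nat_lit 44606414430) (nat_lit 0) (nat_lit 7437093171) (nat_lit 140) (nat_lit 5) (nat_lit 142) (nat_lit 4) (nat_lit 140) (nat_lit 4) (nat_lit 403) (nat_lit 330) (nat_lit 287))) (XT.nd (nat_lit 78) (nat_lit 228) (nat_lit 0) (XT.lf (nat_lit 0) (nat_lit 26058753468) (nat_lit 76) (nat_lit 22868901112) (nat_lit 76) (nat_lit 18353754036) (nat_lit 139) (nat_lit 4) (nat_lit 140) (nat_lit 5) (nat_lit 140) (nat_lit 4) (nat_lit 404) (nat_lit 330) (nat_lit 286)) (XT.nd (nat_lit 78) (nat_lit 76) (nat_lit 0) (XT.lf (nat_lit 0) (nat_lit 18817860812) (nat_lit 152) (nat_lit 37436891002) (nat_lit 0) (nat_lit 14506566194) (nat_lit 137) (nat_lit 5) (nat_lit 139) (nat_lit 4) (nat_lit 137) (nat_lit 4) (nat_lit 405) (nat_lit 330) (nat_lit 285))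 (XT.lf (nat_lit 0) (nat_lit 41066109544) (nat_lit 76) (nat_lit 18840386784) (nat_lit 76) (nat_lit 14518763883) (nat_lit 136) (nat_lit 4) (nat_lit 137) (nat_lit 5) (nat_lit 137) (nat_lit 4) (nat_lit 406) (nat_lit 330) (nat_lit 284))))))))
noncomputable def xc60 : XT := (XT.nd (nat_lit 1248) (nat_lit 1900) (nat_lit 0) (XT.nd (nat_lit 624) (nat_lit 912) (nat_lit 0) (XT.nd (nat_lit 312) (nat_lit 608) (nat_lit 0) (XT.nd (nat_lit 156) (nat_lit 228) (nat_lit 0) (XT.nd (nat_lit 78) (nat_lit 76) (nat_lit 0) (XT.lf (nat_lit 0) (nat_lit 26699235702) (nat_lit 152) (nat_lit 29007152573) (nat_lit 0) (nat_lit 22574296533) (nat_lit 134) (nat_lit 5) (nat_lit 136) (nat_lit 4) (nat_lit 134) (nat_lit 4) (nat_lit 407) (nat_lit 330) (nat_lit 283)) (XT.lf (nat_lit 0) (nat_lit 58239506914) (nat_lit 76) (nat_lit 14121869883) (nat_lit 76) (nat_lit 9988497536) (nat_lit 133) (nat_lit 4) (nat_lit 134) (nat_lit 5) (nat_lit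 134) (nat_lit 4) (nat_lit 408) (nat_lit 330) (nat_lit 282))) (XT.nd (nat_lit 78) (nat_lit 76) (nat_lit 0) (XT.lf (nat_lit 0) (nat_lit 35738730985) (nat_lit 152) (nat_lit 19087605600) (nat_lit 0) (nat_lit 31794749226) (nat_lit 131) (nat_lit 5) (nat_lit 133) (nat_lit 4) (nat_lit 131) (nat_lit 4) (nat_lit 409) (nat_lit 330) (nat_lit 281)) (XT.lf (nat_lit 0) (nat_lit 77910777368) (nat_lit 76) (nat_lit 8589789129) (nat_lit 76) (nat_lit 4638921568) (nat_lit 130) (nat_lit 4) (nat_lit 131) (nat_lit 5) (nat_lit 131) (nat_lit 4) (nat_lit 410) (nat_lit 330) (nat_lit 280)))) (XT.nd (nat_lit 156) (nat_lit 304) (nat_lit 0) (XT.nd (nat_lit 78) (nat_lit 152) (nat_lit 0) (XT.lf (nat_lit 0) (nat_lit 46111851428) (nat_lit 152) (nat_lit 7416202900) (nat_lit 0) (nat_lit 42343048282) (nat_lit 128) (nat_lit 5) (nat_lit 130) (nat_lit 4) (nat_lit 128) (nat_lit 4) (nat_lit 411) (nat_lit 330) (nat_lit 279)) (XT.lf (nat_lit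 0) (nat_lit 1617879043) (nat_lit 152) (nat_lit 457773454) (nat_lit 76) (nat_lit 98810550671) (nat_lit 126) (nat_lit 5) (nat_lit 128) (nat_lit 5) (nat_lit 127) (nat_lit 4) (nat_lit 412) (nat_lit 330) (nat_lit 278))) (XT.nd (nat_lit 78) (nat_lit 152) (nat_lit 0) (XT.lf (nat_lit 0) (nat_lit 6514477033) (nat_lit 76) (nat_lit 51604520213) (nat_lit 76) (nat_lit 48004871288) (nat_lit 124) (nat_lit 4) (nat_lit 125) (nat_lit 5) (nat_lit 125) (nat_lit 4) (nat_lit 413) (nat_lit 330) (nat_lit 277)) (XT.lf (nat_lit 0) (nat_lit 9137436991) (nat_lit 152) (nat_lit 96831870376) (nat_lit 0) (nat_lit 5704827805) (nat_lit 122) (nat_lit 5) (nat_lit 124) (nat_lit 4) (nat_lit 122) (nat_lit 4) (nat_lit 414) (nat_lit 330) (nat_lit 276))))) (XT.nd (nat_lit 312) (nat_lit 456) (nat_lit 0) (XT.nd (nat_lit 156) (nat_lit 228) (nat_lit 0) (XT.nd (nat_lit 78) (nat_lit 152) (nat_lit 0) (XT.lf (nat_lit 0) (nat_lit 23160995259)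 (nat_lit 76) (nat_lit 48880561444) (nat_lit 76) (nat_lit 45443904002) (nat_lit 121) (nat_lit 4) (nat_lit 122) (nat_lit 5) (nat_lit 122) (nat_lit 4) (nat_lit 415) (nat_lit 330) (nat_lit 275)) (XT.lf (nat_lit 0) (nat_lit 18023607884) (nat_lit 152) (nat_lit 90862078510) (nat_lit 0) (nat_lit 14747030908) (nat_lit 119) (nat_lit 5) (nat_lit 121) (nat_lit 4) (nat_lit 119) (nat_lit 4) (nat_lit 416) (nat_lit 330) (nat_lit 274))) (XT.nd (nat_lit 78) (nat_lit 152) (nat_lit 0) (XT.lf (nat_lit 0) (nat_lit 42679243174) (nat_lit 76) (nat_lit 45341464296) (nat_lit 76) (nat_lit 42061581866) (nat_lit 118) (nat_lit 4) (nat_lit 119) (nat_lit 5) (nat_lit 119) (nat_lit 4) (nat_lit 417) (nat_lit 330) (nat_lit 273)) (XT.lf (nat_lit 0) (nat_lit 28448996827) (nat_lit 152) (nat_lit 83119222141) (nat_lit 0) (nat_lit 25322384413) (nat_lit 116) (nat_lit 5) (nat_lit 118) (nat_lit 4) (nat_lit 116) (nat_lit 4) (nat_lit 418)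 (nat_lit 330) (nat_lit 272)))) (XT.nd (nat_lit 156) (nat_lit 228) (nat_lit 0) (XT.nd (nat_lit 78) (nat_lit 152) (nat_lit 0) (XT.lf (nat_lit 0) (nat_lit 65525950431) (nat_lit 76) (nat_lit 40825613998) (nat_lit 76) (nat_lit 37696302638) (nat_lit 115) (nat_lit 4) (nat_lit 116) (nat_lit 5) (nat_lit 116) (nat_lit 4) (nat_lit 419) (nat_lit 330) (nat_lit 271)) (XT.lf (nat_lit 0) (nat_lit 40655482261) (nat_lit 152) (nat_lit 73259917653) (nat_lit 0) (nat_lit 37672805705) (nat_lit 113) (nat_lit 5) (nat_lit 115) (nat_lit 4) (nat_lit 113) (nat_lit 4) (nat_lit 420) (nat_lit 330) (nat_lit 270))) (XT.nd (nat_lit 78) (nat_lit 152) (nat_lit 0) (XT.lf (nat_lit 0) (nat_lit 92220876224) (nat_lit 76) (nat_lit 35147106658) (nat_lit 76) (nat_lit 32162226376) (nat_lit 112) (nat_lit 4) (nat_lit 113) (nat_lit 5) (nat_lit 113) (nat_lit 4) (nat_lit 421) (nat_lit 330) (nat_lit 269)) (XT.lf (nat_lit 0) (nat_lit 54918213065)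 (nat_lit 152) (nat_lit 60889442394) (nat_lit 0) (nat_lit 52073526620) (nat_lit 110) (nat_lit 5) (nat_lit 112) (nat_lit 4) (nat_lit 110) (nat_lit 4) (nat_lit 422) (nat_lit 330) (nat_lit 268)))))) (XT.nd (nat_lit 624) (nat_lit 912) (nat_lit 0) (XT.nd (nat_lit 312) (nat_lit 532) (nat_lit 0) (XT.nd (nat_lit 156) (nat_lit 228) (nat_lit 0) (XT.nd (nat_lit 78) (nat_lit 152) (nat_lit 0) (XT.lf (nat_lit 0) (nat_lit 123355158003) (nat_lit 76) (nat_lit 28092367879) (nat_lit 76) (nat_lit 25245882063) (nat_lit 109) (nat_lit 4) (nat_lit 110) (nat_lit 5) (nat_lit 110) (nat_lit 4) (nat_lit 423) (nat_lit 330) (nat_lit 267)) (XT.lf (nat_lit 0) (nat_lit 71550012409) (nat_lit 152) (nat_lit 45554591673) (nat_lit 0) (nat_lit 68837486790) (nat_lit 107) (nat_lit 5) (nat_lit 109) (nat_lit 4) (nat_lit 107) (nat_lit 4) (nat_lit 424) (nat_lit 330) (nat_lit 266))) (XT.nd (nat_lit 78) (nat_lit 152) (nat_lit 0) (XT.lf (nat_lit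 0) (nat_lit 159600721657) (nat_lit 76) (nat_lit 19416325102) (nat_lit 76) (nat_lit 16702330273) (nat_lit 106) (nat_lit 4) (nat_lit 107) (nat_lit 5) (nat_lit 107) (nat_lit 4) (nat_lit 425) (nat_lit 330) (nat_lit 265)) (XT.lf (nat_lit 0) (nat_lit 90906338960) (nat_lit 152) (nat_lit 26735598931) (nat_lit 0) (nat_lit 88320286381) (nat_lit 104) (nat_lit 5) (nat_lit 106) (nat_lit 4) (nat_lit 104) (nat_lit 4) (nat_lit 426) (nat_lit 330) (nat_lit 264)))) (XT.nd (nat_lit 156) (nat_lit 304) (nat_lit 0) (XT.nd (nat_lit 78) (nat_lit 152) (nat_lit 0) (XT.lf (nat_lit 0) (nat_lit 201720884734) (nat_lit 76) (nat_lit 8838077446) (nat_lit 76) (nat_lit 6250825238) (nat_lit 103) (nat_lit 4) (nat_lit 104) (nat_lit 5) (nat_lit 104) (nat_lit 4) (nat_lit 427) (nat_lit 330) (nat_lit 263)) (XT.lf (nat_lit 0) (nat_lit 113390874778) (nat_lit 152) (nat_lit 3837000376) (nat_lit 0) (nat_lit 110925767182) (nat_lit 101) (nat_lit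 5) (nat_lit 103) (nat_lit 4) (nat_lit 101) (nat_lit 4) (nat_lit 428) (nat_lit 330) (nat_lit 262))) (XT.nd (nat_lit 78) (nat_lit 76) (nat_lit 0) (XT.lf (nat_lit 0) (nat_lit 6456568456) (nat_lit 152) (nat_lit 229607096328) (nat_lit 0) (nat_lit 4107914067) (nat_lit 98) (nat_lit 5) (nat_lit 100) (nat_lit 4) (nat_lit 98) (nat_lit 4) (nat_lit 429) (nat_lit 330) (nat_lit 261)) (XT.lf (nat_lit 0) (nat_lit 24610375048) (nat_lit 76) (nat_lit 115235679489) (nat_lit 76) (nat_lit 112886161331) (nat_lit 97) (nat_lit 4) (nat_lit 98) (nat_lit 5) (nat_lit 98) (nat_lit 4) (nat_lit 430) (nat_lit 330) (nat_lit 260))))) (XT.nd (nat_lit 312) (nat_lit 456) (nat_lit 0) (XT.nd (nat_lit 156) (nat_lit 228) (nat_lit 0) (XT.nd (nat_lit 78) (nat_lit 76) (nat_lit 0) (XT.lf (nat_lit 0) (nat_lit 21988754198) (nat_lit 152) (nat_lit 224297679383) (nat_lit 0) (nat_lit 19750356158) (nat_lit 95) (nat_lit 5) (nat_lit 97) (nat_lit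 4) (nat_lit 95) (nat_lit 4) (nat_lit 431) (nat_lit 330) (nat_lit 259)) (XT.lf (nat_lit 0) (nat_lit 58908066411) (nat_lit 76) (nat_lit 111650618319) (nat_lit 76) (nat_lit 109411515001) (nat_lit 94) (nat_lit 4) (nat_lit 95) (nat_lit 5) (nat_lit 95) (nat_lit 4) (nat_lit 432) (nat_lit 330) (nat_lit 258))) (XT.nd (nat_lit 78) (nat_lit 76) (nat_lit 0) (XT.lf (nat_lit 0) (nat_lit 40587547116) (nat_lit 152) (nat_lit 215661003995) (nat_lit 0) (nat_lit 38454445827) (nat_lit 92) (nat_lit 5) (nat_lit 94) (nat_lit 4) (nat_lit 92) (nat_lit 4) (nat_lit 433) (nat_lit 330) (nat_lit 257)) (XT.lf (nat_lit 0) (nat_lit 99848658899) (nat_lit 76) (nat_lit 106221944414) (nat_lit 76) (nat_lit 104088267256) (nat_lit 91) (nat_lit 4) (nat_lit 92) (nat_lit 5) (nat_lit 92) (nat_lit 4) (nat_lit 434) (nat_lit 330) (nat_lit 256)))) (XT.nd (nat_lit 156) (nat_lit 228) (nat_lit 0) (XT.nd (nat_lit 78) (nat_lit 76) (nat_lit 0) (XT.lf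 (nat_lit 0) (nat_lit 62740580186) (nat_lit 152) (nat_lit 203024705533) (nat_lit 0) (nat_lit 60707998882) (nat_lit 89) (nat_lit 5) (nat_lit 91) (nat_lit 4) (nat_lit 89) (nat_lit 4) (nat_lit 435) (nat_lit 330) (nat_lit 255)) (XT.lf (nat_lit 0) (nat_lit 148481485603) (nat_lit 76) (nat_lit 98584621761) (nat_lit 76) (nat_lit 96551570252) (nat_lit 88) (nat_lit 4) (nat_lit 89) (nat_lit 5) (nat_lit 89) (nat_lit 4) (nat_lit 436) (nat_lit 330) (nat_lit 254))) (XT.nd (nat_lit 78) (nat_lit 76) (nat_lit 0) (XT.lf (nat_lit 0) (nat_lit 89004121371) (nat_lit 152) (nat_lit 185612020513) (nat_lit 0) (nat_lit 87067467196) (nat_lit 86) (nat_lit 5) (nat_lit 88) (nat_lit 4) (nat_lit 86) (nat_lit 4) (nat_lit 437) (nat_lit 330) (nat_lit 253)) (XT.lf (nat_lit 0) (nat_lit 206003089632) (nat_lit 76) (nat_lit 88317340001) (nat_lit 76) (nat_lit 86380301898) (nat_lit 85) (nat_lit 4) (nat_lit 86) (nat_lit 5) (nat_lit 86) (nat_lit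 4) (nat_lit 438) (nat_lit 330) (nat_lit 252)))))))
noncomputable def xc61 : XT := (XT.nd (nat_lit 47346) (nat_lit 0) (nat_lit 8284) (XT.nd (nat_lit 624) (nat_lit 228) (nat_lit 0) (XT.nd (nat_lit 312) (nat_lit 456) (nat_lit 0) (XT.nd (nat_lit 156) (nat_lit 228) (nat_lit 0) (XT.nd (nat_lit 78) (nat_lit 76) (nat_lit 0) (XT.lf (nat_lit 0) (nat_lit 120012209139) (nat_lit 152) (nat_lit 162527085070) (nat_lit 0) (nat_lit 118167072385) (nat_lit 83) (nat_lit 5) (nat_lit 85) (nat_lit 4) (nat_lit 83) (nat_lit 4) (nat_lit 439) (nat_lit 330) (nat_lit 251)) (XT.lf (nat_lit 0) (nat_lit 273776773186) (nat_lit 76) (nat_lit 74934622503) (nat_lit 76) (nat_lit 73089172267) (nat_lit 82) (nat_lit 4) (nat_lit 83) (nat_lit 5) (nat_lit 83) (nat_lit 4) (nat_lit 440) (nat_lit 330) (nat_lit 250))) (XT.nd (nat_lit 78) (nat_lit 76) (nat_lit 0) (XT.lf (nat_lit 0) (nat_lit 156486955158) (nat_lit 152) (nat_lit 132738286482)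 (nat_lit 0) (nat_lit 154729107064) (nat_lit 80) (nat_lit 5) (nat_lit 82) (nat_lit 4) (nat_lit 80) (nat_lit 4) (nat_lit 441) (nat_lit 330) (nat_lit 249)) (XT.lf (nat_lit 0) (nat_lit 353354641555) (nat_lit 76) (nat_lit 57877891409) (nat_lit 76) (nat_lit 56119787353) (nat_lit 79) (nat_lit 4) (nat_lit 80) (nat_lit 5) (nat_lit 80) (nat_lit 4) (nat_lit 442) (nat_lit 330) (nat_lit 248)))) (XT.nd (nat_lit 156) (nat_lit 228) (nat_lit 0) (XT.nd (nat_lit 78) (nat_lit 76) (nat_lit 0) (XT.lf (nat_lit 0) (nat_lit 199250159522) (nat_lit 152) (nat_lit 95059419232) (nat_lit 0) (nat_lit 197575548991) (nat_lit 77) (nat_lit 5) (nat_lit 79) (nat_lit 4) (nat_lit 77) (nat_lit 4) (nat_lit 443) (nat_lit 330) (nat_lit 247)) (XT.lf (nat_lit 0) (nat_lit 446502452341) (nat_lit 76) (nat_lit 36505356791) (nat_lit 76) (nat_lit 34830537263) (nat_lit 76) (nat_lit 4) (nat_lit 77) (nat_lit 5) (nat_lit 77) (nat_lit 4) (nat_lit 444)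 (nat_lit 330) (nat_lit 246))) (XT.nd (nat_lit 78) (nat_lit 76) (nat_lit 0) (XT.lf (nat_lit 0) (nat_lit 249236401656) (nat_lit 152) (nat_lit 48128366239) (nat_lit 0) (nat_lit 247641151138) (nat_lit 74) (nat_lit 5) (nat_lit 76) (nat_lit 4) (nat_lit 74) (nat_lit 4) (nat_lit 445) (nat_lit 330) (nat_lit 245)) (XT.lf (nat_lit 0) (nat_lit 555227618100) (nat_lit 76) (nat_lit 10080580580) (nat_lit 76) (nat_lit 8485159414) (nat_lit 73) (nat_lit 4) (nat_lit 74) (nat_lit 5) (nat_lit 74) (nat_lit 4) (nat_lit 446) (nat_lit 330) (nat_lit 244))))) (XT.nd (nat_lit 46410) (nat_lit 0) (nat_lit 11400) (XT.nd (nat_lit 46254) (nat_lit 0) (nat_lit 12464) (XT.nd (nat_lit 46176) (nat_lit 0) (nat_lit 13224) (XT.lf (nat_lit 0) (nat_lit 9934990535) (nat_lit 76) (nat_lit 297727912364) (nat_lit 76) (nat_lit 296208313150) (nat_lit 70) (nat_lit 4) (nat_lit 71) (nat_lit 5) (nat_lit 71) (nat_lit 4) (nat_lit 447) (nat_lit 330)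 (nat_lit 243)) (XT.lf (nat_lit 0) (nat_lit 1172155646) (nat_lit 304) (nat_lit 2042885544) (nat_lit 0) (nat_lit 1172155646) (nat_lit 244) (nat_lit 5) (nat_lit 248) (nat_lit 4) (nat_lit 244) (nat_lit 4) (nat_lit 358) (nat_lit 331) (nat_lit 331))) (XT.nd (nat_lit 78) (nat_lit 456) (nat_lit 0) (XT.lf (nat_lit 0) (nat_lit 426991225) (nat_lit 304) (nat_lit 590251470) (nat_lit 76) (nat_lit 8031690095) (nat_lit 240) (nat_lit 5) (nat_lit 244) (nat_lit 5) (nat_lit 241) (nat_lit 4) (nat_lit 359) (nat_lit 331) (nat_lit 330)) (XT.lf (nat_lit 0) (nat_lit 3124379215) (nat_lit 228) (nat_lit 4452746025) (nat_lit 228) (nat_lit 1764550572) (nat_lit 234) (nat_lit 4) (nat_lit 237) (nat_lit 5) (nat_lit 237) (nat_lit 4) (nat_lit 360) (nat_lit 331) (nat_lit 329)))) (XT.nd (nat_lit 156) (nat_lit 380) (nat_lit 0) (XT.nd (nat_lit 78) (nat_lit 456) (nat_lit 0) (XT.lf (nat_lit 0) (nat_lit 5371617831) (nat_lit 228) (nat_lit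 2614531477) (nat_lit 0) (nat_lit 1671747682) (nat_lit 231) (nat_lit 5) (nat_lit 234) (nat_lit 4) (nat_lit 231) (nat_lit 4) (nat_lit 361) (nat_lit 331) (nat_lit 328)) (XT.lf (nat_lit 0) (nat_lit 1174992976) (nat_lit 152) (nat_lit 1717751458) (nat_lit 228) (nat_lit 7104344469) (nat_lit 225) (nat_lit 5) (nat_lit 227) (nat_lit 5) (nat_lit 228) (nat_lit 4) (nat_lit 362) (nat_lit 331) (nat_lit 327))) (XT.nd (nat_lit 78) (nat_lit 152) (nat_lit 0) (XT.lf (nat_lit 0) (nat_lit 151978340) (nat_lit 228) (nat_lit 5147709595) (nat_lit 76) (nat_lit 5059092961) (nat_lit 222) (nat_lit 5) (nat_lit 225) (nat_lit 5) (nat_lit 223) (nat_lit 4) (nat_lit 363) (nat_lit 331) (nat_lit 326)) (XT.lf (nat_lit 0) (nat_lit 7708282657) (nat_lit 228) (nat_lit 1348506834) (nat_lit 0) (nat_lit 1688376661) (nat_lit 220) (nat_lit 5) (nat_lit 223) (nat_lit 4) (nat_lit 220) (nat_lit 4) (nat_lit 364) (nat_lit 331) (nat_lit 325))))))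 (XT.nd (nat_lit 624) (nat_lit 1292) (nat_lit 0) (XT.nd (nat_lit 312) (nat_lit 836) (nat_lit 0) (XT.nd (nat_lit 156) (nat_lit 380) (nat_lit 0) (XT.nd (nat_lit 78) (nat_lit 228) (nat_lit 0) (XT.lf (nat_lit 0) (nat_lit 2681625578) (nat_lit 152) (nat_lit 1933667967) (nat_lit 228) (nat_lit 6540529199) (nat_lit 215) (nat_lit 5) (nat_lit 217) (nat_lit 5) (nat_lit 218) (nat_lit 4) (nat_lit 365) (nat_lit 331) (nat_lit 324)) (XT.lf (nat_lit 0) (nat_lit 1197154823) (nat_lit 228) (nat_lit 4672750145) (nat_lit 76) (nat_lit 5723099171) (nat_lit 212) (nat_lit 5) (nat_lit 215) (nat_lit 5) (nat_lit 213) (nat_lit 4) (nat_lit 366) (nat_lit 331) (nat_lit 323))) (XT.nd (nat_lit 78) (nat_lit 304) (nat_lit 0) (XT.lf (nat_lit 0) (nat_lit 9350369044) (nat_lit 152) (nat_lit 736178367) (nat_lit 0) (nat_lit 1971968355) (nat_lit 211) (nat_lit 5) (nat_lit 213) (nat_lit 4) (nat_lit 211) (nat_lit 4) (nat_lit 367) (nat_lit 331)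 (nat_lit 322)) (XT.lf (nat_lit 0) (nat_lit 3443547992) (nat_lit 76) (nat_lit 2102325881) (nat_lit 152) (nat_lit 7004508951) (nat_lit 207) (nat_lit 5) (nat_lit 208) (nat_lit 5) (nat_lit 209) (nat_lit 4) (nat_lit 368) (nat_lit 331) (nat_lit 321)))) (XT.nd (nat_lit 156) (nat_lit 532) (nat_lit 0) (XT.nd (nat_lit 78) (nat_lit 76) (nat_lit 0) (XT.lf (nat_lit 0) (nat_lit 1353135030) (nat_lit 228) (nat_lit 5256607302) (nat_lit 76) (nat_lit 6463216390) (nat_lit 204) (nat_lit 5) (nat_lit 207) (nat_lit 5) (nat_lit 205) (nat_lit 4) (nat_lit 369) (nat_lit 331) (nat_lit 320)) (XT.lf (nat_lit 0) (nat_lit 10214032065) (nat_lit 152) (nat_lit 1273097228) (nat_lit 0) (nat_lit 2140467727) (nat_lit 203) (nat_lit 5) (nat_lit 205) (nat_lit 4) (nat_lit 203) (nat_lit 4) (nat_lit 370) (nat_lit 331) (nat_lit 319))) (XT.nd (nat_lit 78) (nat_lit 228) (nat_lit 0) (XT.lf (nat_lit 0) (nat_lit 2938160221) (nat_lit 76) (nat_lit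 2625570190) (nat_lit 152) (nat_lit 8649317759) (nat_lit 199) (nat_lit 5) (nat_lit 200) (nat_lit 5) (nat_lit 201) (nat_lit 4) (nat_lit 371) (nat_lit 331) (nat_lit 318)) (XT.lf (nat_lit 0) (nat_lit 463073154) (nat_lit 228) (nat_lit 7462348075) (nat_lit 76) (nat_lit 6908109060) (nat_lit 196) (nat_lit 5) (nat_lit 199) (nat_lit 5) (nat_lit 197) (nat_lit 4) (nat_lit 372) (nat_lit 331) (nat_lit 317))))) (XT.nd (nat_lit 312) (nat_lit 684) (nat_lit 0) (XT.nd (nat_lit 156) (nat_lit 228) (nat_lit 0) (XT.nd (nat_lit 78) (nat_lit 304) (nat_lit 0) (XT.lf (nat_lit 0) (nat_lit 10136110200) (nat_lit 152) (nat_lit 3535026906) (nat_lit 0) (nat_lit 1818690026) (nat_lit 195) (nat_lit 5) (nat_lit 197) (nat_lit 4) (nat_lit 195) (nat_lit 4) (nat_lit 373) (nat_lit 331) (nat_lit 316)) (XT.lf (nat_lit 0) (nat_lit 552355694) (nat_lit 76) (nat_lit 3912723229) (nat_lit 152) (nat_lit 11719074019) (nat_lit 191) (nat_lit 5)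 (nat_lit 192) (nat_lit 5) (nat_lit 193) (nat_lit 4) (nat_lit 374) (nat_lit 331) (nat_lit 315))) (XT.nd (nat_lit 78) (nat_lit 152) (nat_lit 0) (XT.lf (nat_lit 0) (nat_lit 4929494500) (nat_lit 76) (nat_lit 10214321794) (nat_lit 76) (nat_lit 1772719930) (nat_lit 190) (nat_lit 4) (nat_lit 191) (nat_lit 5) (nat_lit 191) (nat_lit 4) (nat_lit 375) (nat_lit 331) (nat_lit 314)) (XT.lf (nat_lit 0) (nat_lit 8869109847) (nat_lit 152) (nat_lit 8213131607) (nat_lit 0) (nat_lit 608924770) (nat_lit 188) (nat_lit 5) (nat_lit 190) (nat_lit 4) (nat_lit 188) (nat_lit 4) (nat_lit 376) (nat_lit 331) (nat_lit 313)))) (XT.nd (nat_lit 156) (nat_lit 456) (nat_lit 0) (XT.nd (nat_lit 78) (nat_lit 76) (nat_lit 0) (XT.lf (nat_lit 0) (nat_lit 2025562027) (nat_lit 152) (nat_lit 4312009082) (nat_lit 76) (nat_lit 12171934124) (nat_lit 186) (nat_lit 5) (nat_lit 188) (nat_lit 5) (nat_lit 187) (nat_lit 4) (nat_lit 377) (nat_lit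 331) (nat_lit 312)) (XT.lf (nat_lit 0) (nat_lit 13673773836) (nat_lit 152) (nat_lit 267876857) (nat_lit 0) (nat_lit 5432336183) (nat_lit 185) (nat_lit 5) (nat_lit 187) (nat_lit 4) (nat_lit 185) (nat_lit 4) (nat_lit 378) (nat_lit 331) (nat_lit 311))) (XT.nd (nat_lit 78) (nat_lit 228) (nat_lit 0) (XT.lf (nat_lit 0) (nat_lit 4101169043) (nat_lit 76) (nat_lit 2000957807) (nat_lit 152) (nat_lit 14183546981) (nat_lit 182) (nat_lit 5) (nat_lit 183) (nat_lit 5) (nat_lit 184) (nat_lit 4) (nat_lit 379) (nat_lit 331) (nat_lit 310)) (XT.nd (nat_lit 78) (nat_lit 152) (nat_lit 0) (XT.lf (nat_lit 0) (nat_lit 8635372745) (nat_lit 76) (nat_lit 10383306892) (nat_lit 76) (nat_lit 2228457130) (nat_lit 181) (nat_lit 4) (nat_lit 182) (nat_lit 5) (nat_lit 182) (nat_lit 4) (nat_lit 380) (nat_lit 331) (nat_lit 309)) (XT.lf (nat_lit 0) (nat_lit 10632845344) (nat_lit 152) (nat_lit 8893096221) (nat_lit 0) (nat_lit 2736649091)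 (nat_lit 179) (nat_lit 5) (nat_lit 181) (nat_lit 4) (nat_lit 179) (nat_lit 4) (nat_lit 381) (nat_lit 331) (nat_lit 308))))))))
noncomputable def xc62 : XT := (XT.nd (nat_lit 1248) (nat_lit 2128) (nat_lit 0) (XT.nd (nat_lit 624) (nat_lit 988) (nat_lit 0) (XT.nd (nat_lit 312) (nat_lit 532) (nat_lit 0) (XT.nd (nat_lit 156) (nat_lit 304) (nat_lit 0) (XT.nd (nat_lit 78) (nat_lit 76) (nat_lit 0) (XT.lf (nat_lit 0) (nat_lit 1471926409) (nat_lit 152) (nat_lit 4998814400) (nat_lit 76) (nat_lit 16864903954) (nat_lit 177) (nat_lit 5) (nat_lit 179) (nat_lit 5) (nat_lit 178) (nat_lit 4) (nat_lit 382) (nat_lit 331) (nat_lit 307)) (XT.lf (nat_lit 0) (nat_lit 15606883737) (nat_lit 152) (nat_lit 992029222) (nat_lit 0) (nat_lit 7866467589) (nat_lit 176) (nat_lit 5) (nat_lit 178) (nat_lit 4) (nat_lit 176) (nat_lit 4) (nat_lit 383) (nat_lit 331) (nat_lit 306))) (XT.nd (nat_lit 78) (nat_lit 76) (nat_lit 0) (XT.lf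 (nat_lit 0) (nat_lit 3381933815) (nat_lit 76) (nat_lit 2091425445) (nat_lit 152) (nat_lit 20185474755) (nat_lit 173) (nat_lit 5) (nat_lit 174) (nat_lit 5) (nat_lit 175) (nat_lit 4) (nat_lit 384) (nat_lit 331) (nat_lit 305)) (XT.lf (nat_lit 0) (nat_lit 7910684396) (nat_lit 76) (nat_lit 13277072838) (nat_lit 76) (nat_lit 5725427862) (nat_lit 172) (nat_lit 4) (nat_lit 173) (nat_lit 5) (nat_lit 173) (nat_lit 4) (nat_lit 385) (nat_lit 331) (nat_lit 304)))) (XT.nd (nat_lit 156) (nat_lit 304) (nat_lit 0) (XT.nd (nat_lit 78) (nat_lit 76) (nat_lit 0) (XT.lf (nat_lit 0) (nat_lit 9992798767) (nat_lit 152) (nat_lit 15521946054) (nat_lit 0) (nat_lit 2724519638) (nat_lit 170) (nat_lit 5) (nat_lit 172) (nat_lit 4) (nat_lit 170) (nat_lit 4) (nat_lit 386) (nat_lit 331) (nat_lit 303)) (XT.lf (nat_lit 0) (nat_lit 17744989622) (nat_lit 76) (nat_lit 9615493173) (nat_lit 76) (nat_lit 2276624882) (nat_lit 169) (nat_lit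 4) (nat_lit 170) (nat_lit 5) (nat_lit 170) (nat_lit 4) (nat_lit 387) (nat_lit 331) (nat_lit 302))) (XT.nd (nat_lit 78) (nat_lit 152) (nat_lit 0) (XT.lf (nat_lit 0) (nat_lit 15015378318) (nat_lit 152) (nat_lit 8129794503) (nat_lit 0) (nat_lit 7963732007) (nat_lit 167) (nat_lit 5) (nat_lit 169) (nat_lit 4) (nat_lit 167) (nat_lit 4) (nat_lit 388) (nat_lit 331) (nat_lit 301)) (XT.lf (nat_lit 0) (nat_lit 1481943854) (nat_lit 152) (nat_lit 4071298389) (nat_lit 76) (nat_lit 27112783100) (nat_lit 165) (nat_lit 5) (nat_lit 167) (nat_lit 5) (nat_lit 166) (nat_lit 4) (nat_lit 389) (nat_lit 331) (nat_lit 300))))) (XT.nd (nat_lit 312) (nat_lit 456) (nat_lit 0) (XT.nd (nat_lit 156) (nat_lit 228) (nat_lit 0) (XT.nd (nat_lit 78) (nat_lit 152) (nat_lit 0) (XT.lf (nat_lit 0) (nat_lit 52480702) (nat_lit 76) (nat_lit 20534620610) (nat_lit 76) (nat_lit 13713048359) (nat_lit 163) (nat_lit 4) (nat_lit 164) (nat_lit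 5) (nat_lit 164) (nat_lit 4) (nat_lit 390) (nat_lit 331) (nat_lit 299)) (XT.lf (nat_lit 0) (nat_lit 4720036283) (nat_lit 76) (nat_lit 932973417) (nat_lit 152) (nat_lit 30374851732) (nat_lit 161) (nat_lit 5) (nat_lit 162) (nat_lit 5) (nat_lit 163) (nat_lit 4) (nat_lit 391) (nat_lit 331) (nat_lit 298))) (XT.nd (nat_lit 78) (nat_lit 152) (nat_lit 0) (XT.lf (nat_lit 0) (nat_lit 9456683881) (nat_lit 76) (nat_lit 17483162771) (nat_lit 76) (nat_lit 10900106646) (nat_lit 160) (nat_lit 4) (nat_lit 161) (nat_lit 5) (nat_lit 161) (nat_lit 4) (nat_lit 392) (nat_lit 331) (nat_lit 297)) (XT.lf (nat_lit 0) (nat_lit 10456326708) (nat_lit 152) (nat_lit 25150222039) (nat_lit 0) (nat_lit 4150153053) (nat_lit 158) (nat_lit 5) (nat_lit 160) (nat_lit 4) (nat_lit 158) (nat_lit 4) (nat_lit 393) (nat_lit 331) (nat_lit 296)))) (XT.nd (nat_lit 156) (nat_lit 228) (nat_lit 0) (XT.nd (nat_lit 78) (nat_lit 152) (nat_lit 0)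 (XT.lf (nat_lit 0) (nat_lit 19970723962) (nat_lit 76) (nat_lit 14071036154) (nat_lit 76) (nat_lit 7730976949) (nat_lit 157) (nat_lit 4) (nat_lit 158) (nat_lit 5) (nat_lit 158) (nat_lit 4) (nat_lit 394) (nat_lit 331) (nat_lit 295)) (XT.lf (nat_lit 0) (nat_lit 15866563539) (nat_lit 152) (nat_lit 18232774533) (nat_lit 0) (nat_lit 9798530477) (nat_lit 155) (nat_lit 5) (nat_lit 157) (nat_lit 4) (nat_lit 155) (nat_lit 4) (nat_lit 395) (nat_lit 331) (nat_lit 294))) (XT.nd (nat_lit 78) (nat_lit 152) (nat_lit 0) (XT.lf (nat_lit 0) (nat_lit 31771720642) (nat_lit 76) (nat_lit 10232253973) (nat_lit 76) (nat_lit 4136552914) (nat_lit 154) (nat_lit 4) (nat_lit 155) (nat_lit 5) (nat_lit 155) (nat_lit 4) (nat_lit 396) (nat_lit 331) (nat_lit 293)) (XT.lf (nat_lit 0) (nat_lit 21963948183) (nat_lit 152) (nat_lit 10398227875) (nat_lit 0) (nat_lit 16134120016) (nat_lit 152) (nat_lit 5) (nat_lit 154) (nat_lit 4) (nat_lit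 152) (nat_lit 4) (nat_lit 397) (nat_lit 331) (nat_lit 292)))))) (XT.nd (nat_lit 624) (nat_lit 1140) (nat_lit 0) (XT.nd (nat_lit 312) (nat_lit 456) (nat_lit 0) (XT.nd (nat_lit 156) (nat_lit 304) (nat_lit 0) (XT.nd (nat_lit 78) (nat_lit 152) (nat_lit 0) (XT.lf (nat_lit 0) (nat_lit 45059794657) (nat_lit 76) (nat_lit 5891292088) (nat_lit 76) (nat_lit 38872637) (nat_lit 151) (nat_lit 4) (nat_lit 152) (nat_lit 5) (nat_lit 152) (nat_lit 4) (nat_lit 398) (nat_lit 331) (nat_lit 291)) (XT.lf (nat_lit 0) (nat_lit 28855096675) (nat_lit 152) (nat_lit 1484492656) (nat_lit 0) (nat_lit 23261442097) (nat_lit 149) (nat_lit 5) (nat_lit 151) (nat_lit 4) (nat_lit 149) (nat_lit 4) (nat_lit 399) (nat_lit 331) (nat_lit 290))) (XT.nd (nat_lit 78) (nat_lit 76) (nat_lit 0) (XT.lf (nat_lit 0) (nat_lit 3735179832) (nat_lit 76) (nat_lit 824469187) (nat_lit 152) (nat_lit 51806576583) (nat_lit 146) (nat_lit 5) (nat_lit 147)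 (nat_lit 5) (nat_lit 148) (nat_lit 4) (nat_lit 400) (nat_lit 331) (nat_lit 289)) (XT.lf (nat_lit 0) (nat_lit 8979909469) (nat_lit 76) (nat_lit 27820344437) (nat_lit 76) (nat_lit 22459220281) (nat_lit 145) (nat_lit 4) (nat_lit 146) (nat_lit 5) (nat_lit 146) (nat_lit 4) (nat_lit 401) (nat_lit 331) (nat_lit 288)))) (XT.nd (nat_lit 156) (nat_lit 228) (nat_lit 0) (XT.nd (nat_lit 78) (nat_lit 76) (nat_lit 0) (XT.lf (nat_lit 0) (nat_lit 10022602540) (nat_lit 152) (nat_lit 47397830165) (nat_lit 0) (nat_lit 4902425756) (nat_lit 143) (nat_lit 5) (nat_lit 145) (nat_lit 4) (nat_lit 143) (nat_lit 4) (nat_lit 402) (nat_lit 331) (nat_lit 287)) (XT.lf (nat_lit 0) (nat_lit 21014280906) (nat_lit 76) (nat_lit 24827889418) (nat_lit 76) (nat_lit 19694430915) (nat_lit 142) (nat_lit 4) (nat_lit 143) (nat_lit 5) (nat_lit 143) (nat_lit 4) (nat_lit 403) (nat_lit 331) (nat_lit 286))) (XT.nd (nat_lit 78) (nat_lit 76) (nat_lit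 0) (XT.lf (nat_lit 0) (nat_lit 16315328231) (nat_lit 152) (nat_lit 41200781893) (nat_lit 0) (nat_lit 11414607860) (nat_lit 140) (nat_lit 5) (nat_lit 142) (nat_lit 4) (nat_lit 140) (nat_lit 4) (nat_lit 404) (nat_lit 331) (nat_lit 285)) (XT.lf (nat_lit 0) (nat_lit 34814511564) (nat_lit 76) (nat_lit 21298703697) (nat_lit 76) (nat_lit 16387138629) (nat_lit 139) (nat_lit 4) (nat_lit 140) (nat_lit 5) (nat_lit 140) (nat_lit 4) (nat_lit 405) (nat_lit 331) (nat_lit 284))))) (XT.nd (nat_lit 312) (nat_lit 684) (nat_lit 0) (XT.nd (nat_lit 156) (nat_lit 228) (nat_lit 0) (XT.nd (nat_lit 78) (nat_lit 76) (nat_lit 0) (XT.lf (nat_lit 0) (nat_lit 23554862830) (nat_lit 152) (nat_lit 33838163374) (nat_lit 0) (nat_lit 18867618587) (nat_lit 137) (nat_lit 5) (nat_lit 139) (nat_lit 4) (nat_lit 137) (nat_lit 4) (nat_lit 406) (nat_lit 331) (nat_lit 283)) (XT.lf (nat_lit 0) (nat_lit 50658523965) (nat_lit 76) (nat_lit 17131161339)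 (nat_lit 76) (nat_lit 12435062259) (nat_lit 136) (nat_lit 4) (nat_lit 137) (nat_lit 5) (nat_lit 137) (nat_lit 4) (nat_lit 407) (nat_lit 331) (nat_lit 282))) (XT.nd (nat_lit 78) (nat_lit 76) (nat_lit 0) (XT.lf (nat_lit 0) (nat_lit 31888399295) (nat_lit 152) (nat_lit 25093963580) (nat_lit 0) (nat_lit 27408115482) (nat_lit 134) (nat_lit 5) (nat_lit 136) (nat_lit 4) (nat_lit 134) (nat_lit 4) (nat_lit 408) (nat_lit 331) (nat_lit 281)) (XT.lf (nat_lit 0) (nat_lit 68861517002) (nat_lit 76) (nat_lit 12208926673) (nat_lit 76) (nat_lit 7721412768) (nat_lit 133) (nat_lit 4) (nat_lit 134) (nat_lit 5) (nat_lit 134) (nat_lit 4) (nat_lit 409) (nat_lit 331) (nat_lit 280)))) (XT.nd (nat_lit 156) (nat_lit 456) (nat_lit 0) (XT.nd (nat_lit 78) (nat_lit 76) (nat_lit 0) (XT.lf (nat_lit 0) (nat_lit 41482716798) (nat_lit 152) (nat_lit 14721293224) (nat_lit 0) (nat_lit 37202518288) (nat_lit 131) (nat_lit 5) (nat_lit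 133) (nat_lit 4) (nat_lit 131) (nat_lit 4) (nat_lit 410) (nat_lit 331) (nat_lit 279)) (XT.lf (nat_lit 0) (nat_lit 89780843840) (nat_lit 76) (nat_lit 6398972509) (nat_lit 76) (nat_lit 2112870534) (nat_lit 130) (nat_lit 4) (nat_lit 131) (nat_lit 5) (nat_lit 131) (nat_lit 4) (nat_lit 411) (nat_lit 331) (nat_lit 278))) (XT.nd (nat_lit 78) (nat_lit 304) (nat_lit 0) (XT.lf (nat_lit 0) (nat_lit 52526767934) (nat_lit 152) (nat_lit 2438164289) (nat_lit 0) (nat_lit 48439560176) (nat_lit 128) (nat_lit 5) (nat_lit 130) (nat_lit 4) (nat_lit 128) (nat_lit 4) (nat_lit 412) (nat_lit 331) (nat_lit 277)) (XT.nd (nat_lit 78) (nat_lit 76) (nat_lit 0) (XT.lf (nat_lit 0) (nat_lit 4486194424) (nat_lit 152) (nat_lit 103744935858) (nat_lit 0) (nat_lit 589024886) (nat_lit 125) (nat_lit 5) (nat_lit 127) (nat_lit 4) (nat_lit 125) (nat_lit 4) (nat_lit 413) (nat_lit 331) (nat_lit 276)) (XT.lf (nat_lit 0) (nat_lit 12476608590)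 (nat_lit 76) (nat_lit 52952773197) (nat_lit 76) (nat_lit 49051352991) (nat_lit 124) (nat_lit 4) (nat_lit 125) (nat_lit 5) (nat_lit 125) (nat_lit 4) (nat_lit 414) (nat_lit 331) (nat_lit 275))))))))
noncomputable def xc63 : XT := (XT.nd (nat_lit 1248) (nat_lit 1900) (nat_lit 0) (XT.nd (nat_lit 624) (nat_lit 1064) (nat_lit 0) (XT.nd (nat_lit 312) (nat_lit 456) (nat_lit 0) (XT.nd (nat_lit 156) (nat_lit 228) (nat_lit 0) (XT.nd (nat_lit 78) (nat_lit 76) (nat_lit 0) (XT.lf (nat_lit 0) (nat_lit 12497383899) (nat_lit 152) (nat_lit 99201237265) (nat_lit 0) (nat_lit 8777997223) (nat_lit 122) (nat_lit 5) (nat_lit 124) (nat_lit 4) (nat_lit 122) (nat_lit 4) (nat_lit 415) (nat_lit 331) (nat_lit 274)) (XT.lf (nat_lit 0) (nat_lit 30157371812) (nat_lit 76) (nat_lit 50162028597) (nat_lit 76) (nat_lit 46439171195) (nat_lit 121) (nat_lit 4) (nat_lit 122) (nat_lit 5) (nat_lit 122) (nat_lit 4) (nat_lit 416) (nat_lit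 331) (nat_lit 273))) (XT.nd (nat_lit 78) (nat_lit 76) (nat_lit 0) (XT.lf (nat_lit 0) (nat_lit 21949910597) (nat_lit 152) (nat_lit 93047931871) (nat_lit 0) (nat_lit 18401271514) (nat_lit 119) (nat_lit 5) (nat_lit 121) (nat_lit 4) (nat_lit 119) (nat_lit 4) (nat_lit 417) (nat_lit 331) (nat_lit 272)) (XT.lf (nat_lit 0) (nat_lit 50955789655) (nat_lit 76) (nat_lit 46482870500) (nat_lit 76) (nat_lit 42931397524) (nat_lit 118) (nat_lit 4) (nat_lit 119) (nat_lit 5) (nat_lit 119) (nat_lit 4) (nat_lit 418) (nat_lit 331) (nat_lit 271)))) (XT.nd (nat_lit 156) (nat_lit 228) (nat_lit 0) (XT.nd (nat_lit 78) (nat_lit 76) (nat_lit 0) (XT.lf (nat_lit 0) (nat_lit 33072805363) (nat_lit 152) (nat_lit 84963700726) (nat_lit 0) (nat_lit 29687951124) (nat_lit 116) (nat_lit 5) (nat_lit 118) (nat_lit 4) (nat_lit 116) (nat_lit 4) (nat_lit 419) (nat_lit 331) (nat_lit 270)) (XT.lf (nat_lit 0) (nat_lit 75364263635) (nat_lit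 76) (nat_lit 41741157193) (nat_lit 76) (nat_lit 38353989042) (nat_lit 115) (nat_lit 4) (nat_lit 116) (nat_lit 5) (nat_lit 116) (nat_lit 4) (nat_lit 420) (nat_lit 331) (nat_lit 269))) (XT.nd (nat_lit 78) (nat_lit 76) (nat_lit 0) (XT.lf (nat_lit 0) (nat_lit 46126840666) (nat_lit 152) (nat_lit 74578549661) (nat_lit 0) (nat_lit 42898925750) (nat_lit 113) (nat_lit 5) (nat_lit 115) (nat_lit 4) (nat_lit 113) (nat_lit 4) (nat_lit 421) (nat_lit 331) (nat_lit 268)) (XT.lf (nat_lit 0) (nat_lit 103943310927) (nat_lit 76) (nat_lit 35736499930) (nat_lit 76) (nat_lit 32506695676) (nat_lit 112) (nat_lit 4) (nat_lit 113) (nat_lit 5) (nat_lit 113) (nat_lit 4) (nat_lit 422) (nat_lit 331) (nat_lit 267))))) (XT.nd (nat_lit 312) (nat_lit 608) (nat_lit 0) (XT.nd (nat_lit 156) (nat_lit 228) (nat_lit 0) (XT.nd (nat_lit 78) (nat_lit 76) (nat_lit 0) (XT.lf (nat_lit 0) (nat_lit 61408749213) (nat_lit 152) (nat_lit 61466994400)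 (nat_lit 0) (nat_lit 58331079077) (nat_lit 110) (nat_lit 5) (nat_lit 112) (nat_lit 4) (nat_lit 110) (nat_lit 4) (nat_lit 423) (nat_lit 331) (nat_lit 266)) (XT.lf (nat_lit 0) (nat_lit 137330579258) (nat_lit 76) (nat_lit 28238610519) (nat_lit 76) (nat_lit 25159397713) (nat_lit 109) (nat_lit 4) (nat_lit 110) (nat_lit 5) (nat_lit 110) (nat_lit 4) (nat_lit 424) (nat_lit 331) (nat_lit 265))) (XT.nd (nat_lit 78) (nat_lit 76) (nat_lit 0) (XT.lf (nat_lit 0) (nat_lit 79255977988) (nat_lit 152) (nat_lit 45140347940) (nat_lit 0) (nat_lit 76322033984) (nat_lit 107) (nat_lit 5) (nat_lit 109) (nat_lit 4) (nat_lit 107) (nat_lit 4) (nat_lit 425) (nat_lit 331) (nat_lit 264)) (XT.lf (nat_lit 0) (nat_lit 176251008166) (nat_lit 76) (nat_lit 18983167201) (nat_lit 76) (nat_lit 16047963586) (nat_lit 106) (nat_lit 4) (nat_lit 107) (nat_lit 5) (nat_lit 107) (nat_lit 4) (nat_lit 426) (nat_lit 331) (nat_lit 263)))) (XT.nd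 (nat_lit 156) (nat_lit 380) (nat_lit 0) (XT.nd (nat_lit 78) (nat_lit 76) (nat_lit 0) (XT.lf (nat_lit 0) (nat_lit 100052044454) (nat_lit 152) (nat_lit 25037996168) (nat_lit 0) (nat_lit 97255501672) (nat_lit 104) (nat_lit 5) (nat_lit 106) (nat_lit 4) (nat_lit 104) (nat_lit 4) (nat_lit 427) (nat_lit 331) (nat_lit 262)) (XT.lf (nat_lit 0) (nat_lit 221528278719) (nat_lit 76) (nat_lit 7667138041) (nat_lit 76) (nat_lit 4869566771) (nat_lit 103) (nat_lit 4) (nat_lit 104) (nat_lit 5) (nat_lit 104) (nat_lit 4) (nat_lit 428) (nat_lit 331) (nat_lit 261))) (XT.nd (nat_lit 78) (nat_lit 228) (nat_lit 0) (XT.lf (nat_lit 0) (nat_lit 124232569766) (nat_lit 152) (nat_lit 517533488) (nat_lit 0) (nat_lit 121567309219) (nat_lit 101) (nat_lit 5) (nat_lit 103) (nat_lit 4) (nat_lit 101) (nat_lit 4) (nat_lit 429) (nat_lit 331) (nat_lit 260)) (XT.lf (nat_lit 0) (nat_lit 8780268608) (nat_lit 152) (nat_lit 244273552372)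 (nat_lit 0) (nat_lit 6241125445) (nat_lit 98) (nat_lit 5) (nat_lit 100) (nat_lit 4) (nat_lit 98) (nat_lit 4) (nat_lit 430) (nat_lit 331) (nat_lit 259)))))) (XT.nd (nat_lit 624) (nat_lit 988) (nat_lit 0) (XT.nd (nat_lit 312) (nat_lit 456) (nat_lit 0) (XT.nd (nat_lit 156) (nat_lit 228) (nat_lit 0) (XT.nd (nat_lit 78) (nat_lit 152) (nat_lit 0) (XT.lf (nat_lit 0) (nat_lit 30120427453) (nat_lit 76) (nat_lit 122641909737) (nat_lit 76) (nat_lit 120102026032) (nat_lit 97) (nat_lit 4) (nat_lit 98) (nat_lit 5) (nat_lit 98) (nat_lit 4) (nat_lit 431) (nat_lit 331) (nat_lit 258)) (XT.lf (nat_lit 0) (nat_lit 25455915479) (nat_lit 152) (nat_lit 238742088811) (nat_lit 0) (nat_lit 23036325582) (nat_lit 95) (nat_lit 5) (nat_lit 97) (nat_lit 4) (nat_lit 95) (nat_lit 4) (nat_lit 432) (nat_lit 331) (nat_lit 257))) (XT.nd (nat_lit 78) (nat_lit 152) (nat_lit 0) (XT.lf (nat_lit 0) (nat_lit 66968036774) (nat_lit 76)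 (nat_lit 118869141772) (nat_lit 76) (nat_lit 116448947212) (nat_lit 94) (nat_lit 4) (nat_lit 95) (nat_lit 5) (nat_lit 95) (nat_lit 4) (nat_lit 433) (nat_lit 331) (nat_lit 256)) (XT.lf (nat_lit 0) (nat_lit 45448948044) (nat_lit 152) (nat_lit 229606101158) (nat_lit 0) (nat_lit 43143467633) (nat_lit 92) (nat_lit 5) (nat_lit 94) (nat_lit 4) (nat_lit 92) (nat_lit 4) (nat_lit 434) (nat_lit 331) (nat_lit 255)))) (XT.nd (nat_lit 156) (nat_lit 228) (nat_lit 0) (XT.nd (nat_lit 78) (nat_lit 152) (nat_lit 0) (XT.lf (nat_lit 0) (nat_lit 111000582542) (nat_lit 76) (nat_lit 113099880610) (nat_lit 76) (nat_lit 110793906484) (nat_lit 91) (nat_lit 4) (nat_lit 92) (nat_lit 5) (nat_lit 92) (nat_lit 4) (nat_lit 435) (nat_lit 331) (nat_lit 254)) (XT.lf (nat_lit 0) (nat_lit 69285707661) (nat_lit 152) (nat_lit 216140039204) (nat_lit 0) (nat_lit 67089106452) (nat_lit 89) (nat_lit 5) (nat_lit 91) (nat_lit 4) (nat_lit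 89) (nat_lit 4) (nat_lit 436) (nat_lit 331) (nat_lit 253))) (XT.nd (nat_lit 78) (nat_lit 152) (nat_lit 0) (XT.lf (nat_lit 0) (nat_lit 163350767138) (nat_lit 76) (nat_lit 104940175834) (nat_lit 76) (nat_lit 102743171501) (nat_lit 88) (nat_lit 4) (nat_lit 89) (nat_lit 5) (nat_lit 89) (nat_lit 4) (nat_lit 437) (nat_lit 331) (nat_lit 252)) (XT.lf (nat_lit 0) (nat_lit 97566678705) (nat_lit 152) (nat_lit 197505569583) (nat_lit 0) (nat_lit 95473938137) (nat_lit 86) (nat_lit 5) (nat_lit 88) (nat_lit 4) (nat_lit 86) (nat_lit 4) (nat_lit 438) (nat_lit 331) (nat_lit 251))))) (XT.nd (nat_lit 312) (nat_lit 532) (nat_lit 0) (XT.nd (nat_lit 156) (nat_lit 228) (nat_lit 0) (XT.nd (nat_lit 78) (nat_lit 152) (nat_lit 0) (XT.lf (nat_lit 0) (nat_lit 225310310744) (nat_lit 76) (nat_lit 93935286193) (nat_lit 76) (nat_lit 91842216469) (nat_lit 85) (nat_lit 4) (nat_lit 86) (nat_lit 5) (nat_lit 86) (nat_lit 4) (nat_lit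 439) (nat_lit 331) (nat_lit 250)) (XT.lf (nat_lit 0) (nat_lit 130976353870) (nat_lit 152) (nat_lit 172735699782) (nat_lit 0) (nat_lit 128982663871) (nat_lit 83) (nat_lit 5) (nat_lit 85) (nat_lit 4) (nat_lit 83) (nat_lit 4) (nat_lit 440) (nat_lit 331) (nat_lit 249))) (XT.nd (nat_lit 78) (nat_lit 152) (nat_lit 0) (XT.lf (nat_lit 0) (nat_lit 298351062765) (nat_lit 76) (nat_lit 79561156886) (nat_lit 76) (nat_lit 77567198126) (nat_lit 82) (nat_lit 4) (nat_lit 83) (nat_lit 5) (nat_lit 83) (nat_lit 4) (nat_lit 441) (nat_lit 331) (nat_lit 248)) (XT.lf (nat_lit 0) (nat_lit 170294360078) (nat_lit 152) (nat_lit 140716799364) (nat_lit 0) (nat_lit 168395114733) (nat_lit 80) (nat_lit 5) (nat_lit 82) (nat_lit 4) (nat_lit 80) (nat_lit 4) (nat_lit 442) (nat_lit 331) (nat_lit 247)))) (XT.nd (nat_lit 156) (nat_lit 304) (nat_lit 0) (XT.nd (nat_lit 78) (nat_lit 152) (nat_lit 0) (XT.lf (nat_lit 0) (nat_lit 384148807829)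 (nat_lit 76) (nat_lit 61214770387) (nat_lit 76) (nat_lit 59315305596) (nat_lit 79) (nat_lit 4) (nat_lit 80) (nat_lit 5) (nat_lit 80) (nat_lit 4) (nat_lit 443) (nat_lit 331) (nat_lit 246)) (XT.lf (nat_lit 0) (nat_lit 216408002025) (nat_lit 152) (nat_lit 100168250030) (nat_lit 0) (nat_lit 214598794423) (nat_lit 77) (nat_lit 5) (nat_lit 79) (nat_lit 4) (nat_lit 77) (nat_lit 4) (nat_lit 444) (nat_lit 331) (nat_lit 245))) (XT.nd (nat_lit 78) (nat_lit 228) (nat_lit 0) (XT.lf (nat_lit 0) (nat_lit 484610101508) (nat_lit 76) (nat_lit 38203227317) (nat_lit 76) (nat_lit 36393840534) (nat_lit 76) (nat_lit 4) (nat_lit 77) (nat_lit 5) (nat_lit 77) (nat_lit 4) (nat_lit 445) (nat_lit 331) (nat_lit 244)) (XT.nd (nat_lit 78) (nat_lit 76) (nat_lit 0) (XT.lf (nat_lit 0) (nat_lit 270326399496) (nat_lit 152) (nat_lit 49619422795) (nat_lit 0) (nat_lit 268603015980) (nat_lit 74) (nat_lit 5) (nat_lit 76) (nat_lit 4)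 (nat_lit 74) (nat_lit 4) (nat_lit 446) (nat_lit 331) (nat_lit 243)) (XT.lf (nat_lit 0) (nat_lit 601902511779) (nat_lit 76) (nat_lit 9731396059) (nat_lit 76) (nat_lit 8007866240) (nat_lit 73) (nat_lit 4) (nat_lit 74) (nat_lit 5) (nat_lit 74) (nat_lit 4) (nat_lit 447) (nat_lit 331) (nat_lit 242))))))))
noncomputable def xc64 : XT := (XT.nd (nat_lit 1248) (nat_lit 2280) (nat_lit 0) (XT.nd (nat_lit 624) (nat_lit 1672) (nat_lit 0) (XT.nd (nat_lit 312) (nat_lit 1368) (nat_lit 0) (XT.nd (nat_lit 156) (nat_lit 608) (nat_lit 0) (XT.nd (nat_lit 78) (nat_lit 608) (nat_lit 0) (XT.lf (nat_lit 0) (nat_lit 3185032034) (nat_lit 304) (nat_lit 477749783) (nat_lit 304) (nat_lit 477749783) (nat_lit 256) (nat_lit 4) (nat_lit 260) (nat_lit 5) (nat_lit 260) (nat_lit 4) (nat_lit 356) (nat_lit 332) (nat_lit 332)) (XT.lf (nat_lit 0) (nat_lit 1106682583) (nat_lit 304) (nat_lit 4538837446) (nat_lit 304) (nat_lit 2876865777)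 (nat_lit 248) (nat_lit 4) (nat_lit 252) (nat_lit 5) (nat_lit 252) (nat_lit 4) (nat_lit 357) (nat_lit 332) (nat_lit 331))) (XT.nd (nat_lit 78) (nat_lit 304) (nat_lit 0) (XT.lf (nat_lit 0) (nat_lit 3714250720) (nat_lit 304) (nat_lit 4404950413) (nat_lit 0) (nat_lit 665837076) (nat_lit 244) (nat_lit 5) (nat_lit 248) (nat_lit 4) (nat_lit 244) (nat_lit 4) (nat_lit 358) (nat_lit 332) (nat_lit 330)) (XT.lf (nat_lit 0) (nat_lit 1532350341) (nat_lit 304) (nat_lit 1264117185) (nat_lit 76) (nat_lit 6272570172) (nat_lit 240) (nat_lit 5) (nat_lit 244) (nat_lit 5) (nat_lit 241) (nat_lit 4) (nat_lit 359) (nat_lit 332) (nat_lit 329)))) (XT.nd (nat_lit 156) (nat_lit 684) (nat_lit 0) (XT.nd (nat_lit 78) (nat_lit 228) (nat_lit 0) (XT.lf (nat_lit 0) (nat_lit 2095984975) (nat_lit 228) (nat_lit 6335337399) (nat_lit 228) (nat_lit 943016446) (nat_lit 234) (nat_lit 4) (nat_lit 237) (nat_lit 5) (nat_lit 237) (nat_lit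 4) (nat_lit 360) (nat_lit 332) (nat_lit 328)) (XT.lf (nat_lit 0) (nat_lit 5652804579) (nat_lit 152) (nat_lit 275562077) (nat_lit 228) (nat_lit 3773476573) (nat_lit 231) (nat_lit 5) (nat_lit 233) (nat_lit 5) (nat_lit 234) (nat_lit 4) (nat_lit 361) (nat_lit 332) (nat_lit 327))) (XT.nd (nat_lit 78) (nat_lit 380) (nat_lit 0) (XT.lf (nat_lit 0) (nat_lit 3153689990) (nat_lit 304) (nat_lit 702837589) (nat_lit 76) (nat_lit 6195879456) (nat_lit 227) (nat_lit 5) (nat_lit 231) (nat_lit 5) (nat_lit 228) (nat_lit 4) (nat_lit 362) (nat_lit 332) (nat_lit 326)) (XT.lf (nat_lit 0) (nat_lit 84181750) (nat_lit 228) (nat_lit 7515636912) (nat_lit 76) (nat_lit 2827461979) (nat_lit 222) (nat_lit 5) (nat_lit 225) (nat_lit 5) (nat_lit 223) (nat_lit 4) (nat_lit 363) (nat_lit 332) (nat_lit 325))))) (XT.nd (nat_lit 312) (nat_lit 836) (nat_lit 0) (XT.nd (nat_lit 156) (nat_lit 456) (nat_lit 0) (XT.nd (nat_lit 78) (nat_lit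 228) (nat_lit 0) (XT.lf (nat_lit 0) (nat_lit 6673057549) (nat_lit 152) (nat_lit 721614770) (nat_lit 228) (nat_lit 3431284264) (nat_lit 220) (nat_lit 5) (nat_lit 222) (nat_lit 5) (nat_lit 223) (nat_lit 4) (nat_lit 364) (nat_lit 332) (nat_lit 324)) (XT.lf (nat_lit 0) (nat_lit 3958046049) (nat_lit 228) (nat_lit 671467298) (nat_lit 76) (nat_lit 6621181215) (nat_lit 217) (nat_lit 5) (nat_lit 220) (nat_lit 5) (nat_lit 218) (nat_lit 4) (nat_lit 365) (nat_lit 332) (nat_lit 323))) (XT.nd (nat_lit 78) (nat_lit 76) (nat_lit 0) (XT.lf (nat_lit 0) (nat_lit 181464811) (nat_lit 228) (nat_lit 8615506707) (nat_lit 76) (nat_lit 2905873732) (nat_lit 212) (nat_lit 5) (nat_lit 215) (nat_lit 5) (nat_lit 213) (nat_lit 4) (nat_lit 366) (nat_lit 332) (nat_lit 322)) (XT.lf (nat_lit 0) (nat_lit 6982081572) (nat_lit 76) (nat_lit 1088181131) (nat_lit 152) (nat_lit 4111314992) (nat_lit 211) (nat_lit 5) (nat_lit 212) (nat_lit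 5) (nat_lit 213) (nat_lit 4) (nat_lit 367) (nat_lit 332) (nat_lit 321)))) (XT.nd (nat_lit 156) (nat_lit 380) (nat_lit 0) (XT.nd (nat_lit 78) (nat_lit 228) (nat_lit 0) (XT.lf (nat_lit 0) (nat_lit 3878039113) (nat_lit 228) (nat_lit 1663212873) (nat_lit 76) (nat_lit 7148766968) (nat_lit 208) (nat_lit 5) (nat_lit 211) (nat_lit 5) (nat_lit 209) (nat_lit 4) (nat_lit 368) (nat_lit 332) (nat_lit 320)) (XT.lf (nat_lit 0) (nat_lit 2115510953) (nat_lit 152) (nat_lit 10358407091) (nat_lit 152) (nat_lit 756276693) (nat_lit 205) (nat_lit 4) (nat_lit 207) (nat_lit 5) (nat_lit 207) (nat_lit 4) (nat_lit 369) (nat_lit 332) (nat_lit 319))) (XT.nd (nat_lit 78) (nat_lit 228) (nat_lit 0) (XT.lf (nat_lit 0) (nat_lit 6057381034) (nat_lit 76) (nat_lit 1783170359) (nat_lit 152) (nat_lit 5959285748) (nat_lit 203) (nat_lit 5) (nat_lit 204) (nat_lit 5) (nat_lit 205) (nat_lit 4) (nat_lit 370) (nat_lit 332) (nat_lit 318))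 (XT.lf (nat_lit 0) (nat_lit 2763132662) (nat_lit 228) (nat_lit 4239130241) (nat_lit 76) (nat_lit 7401830475) (nat_lit 200) (nat_lit 5) (nat_lit 203) (nat_lit 5) (nat_lit 201) (nat_lit 4) (nat_lit 371) (nat_lit 332) (nat_lit 317)))))) (XT.nd (nat_lit 624) (nat_lit 1064) (nat_lit 0) (XT.nd (nat_lit 312) (nat_lit 532) (nat_lit 0) (XT.nd (nat_lit 156) (nat_lit 304) (nat_lit 0) (XT.nd (nat_lit 78) (nat_lit 304) (nat_lit 0) (XT.lf (nat_lit 0) (nat_lit 12107283548) (nat_lit 152) (nat_lit 584199811) (nat_lit 0) (nat_lit 2353685930) (nat_lit 199) (nat_lit 5) (nat_lit 201) (nat_lit 4) (nat_lit 199) (nat_lit 4) (nat_lit 372) (nat_lit 332) (nat_lit 316)) (XT.lf (nat_lit 0) (nat_lit 3289413799) (nat_lit 76) (nat_lit 3218307731) (nat_lit 152) (nat_lit 9212111056) (nat_lit 195) (nat_lit 5) (nat_lit 196) (nat_lit 5) (nat_lit 197) (nat_lit 4) (nat_lit 373) (nat_lit 332) (nat_lit 315))) (XT.nd (nat_lit 78) (nat_lit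 76) (nat_lit 0) (XT.lf (nat_lit 0) (nat_lit 376730864) (nat_lit 228) (nat_lit 9063104099) (nat_lit 76) (nat_lit 6995007783) (nat_lit 192) (nat_lit 5) (nat_lit 195) (nat_lit 5) (nat_lit 193) (nat_lit 4) (nat_lit 374) (nat_lit 332) (nat_lit 314)) (XT.lf (nat_lit 0) (nat_lit 10599640489) (nat_lit 152) (nat_lit 5589378781) (nat_lit 0) (nat_lit 1000998145) (nat_lit 191) (nat_lit 5) (nat_lit 193) (nat_lit 4) (nat_lit 191) (nat_lit 4) (nat_lit 375) (nat_lit 332) (nat_lit 313)))) (XT.nd (nat_lit 156) (nat_lit 228) (nat_lit 0) (XT.nd (nat_lit 78) (nat_lit 152) (nat_lit 0) (XT.lf (nat_lit 0) (nat_lit 3816343505) (nat_lit 152) (nat_lit 1989575627) (nat_lit 76) (nat_lit 12181954362) (nat_lit 189) (nat_lit 5) (nat_lit 191) (nat_lit 5) (nat_lit 190) (nat_lit 4) (nat_lit 376) (nat_lit 332) (nat_lit 312)) (XT.lf (nat_lit 0) (nat_lit 1832110726) (nat_lit 76) (nat_lit 13266616481) (nat_lit 76) (nat_lit 3731727885)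 (nat_lit 187) (nat_lit 4) (nat_lit 188) (nat_lit 5) (nat_lit 188) (nat_lit 4) (nat_lit 377) (nat_lit 332) (nat_lit 311))) (XT.nd (nat_lit 78) (nat_lit 76) (nat_lit 0) (XT.lf (nat_lit 0) (nat_lit 5888824462) (nat_lit 76) (nat_lit 1720348256) (nat_lit 152) (nat_lit 12110014646) (nat_lit 185) (nat_lit 5) (nat_lit 186) (nat_lit 5) (nat_lit 187) (nat_lit 4) (nat_lit 378) (nat_lit 332) (nat_lit 310)) (XT.lf (nat_lit 0) (nat_lit 10121088163) (nat_lit 76) (nat_lit 9969340450) (nat_lit 76) (nat_lit 567339570) (nat_lit 184) (nat_lit 4) (nat_lit 185) (nat_lit 5) (nat_lit 185) (nat_lit 4) (nat_lit 379) (nat_lit 332) (nat_lit 309))))) (XT.nd (nat_lit 312) (nat_lit 456) (nat_lit 0) (XT.nd (nat_lit 156) (nat_lit 304) (nat_lit 0) (XT.nd (nat_lit 78) (nat_lit 152) (nat_lit 0) (XT.lf (nat_lit 0) (nat_lit 11806046520) (nat_lit 152) (nat_lit 7126090078) (nat_lit 0) (nat_lit 2715603664) (nat_lit 182) (nat_lit 5)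 (nat_lit 184) (nat_lit 4) (nat_lit 182) (nat_lit 4) (nat_lit 380) (nat_lit 332) (nat_lit 308)) (XT.lf (nat_lit 0) (nat_lit 2767257546) (nat_lit 152) (nat_lit 3543635537) (nat_lit 76) (nat_lit 16383045381) (nat_lit 180) (nat_lit 5) (nat_lit 182) (nat_lit 5) (nat_lit 181) (nat_lit 4) (nat_lit 381) (nat_lit 332) (nat_lit 307))) (XT.nd (nat_lit 78) (nat_lit 152) (nat_lit 0) (XT.lf (nat_lit 0) (nat_lit 173765646) (nat_lit 76) (nat_lit 16255669734) (nat_lit 76) (nat_lit 7366864408) (nat_lit 178) (nat_lit 4) (nat_lit 179) (nat_lit 5) (nat_lit 179) (nat_lit 4) (nat_lit 382) (nat_lit 332) (nat_lit 306)) (XT.lf (nat_lit 0) (nat_lit 4243871955) (nat_lit 76) (nat_lit 2212525911) (nat_lit 152) (nat_lit 18502762611) (nat_lit 176) (nat_lit 5) (nat_lit 177) (nat_lit 5) (nat_lit 178) (nat_lit 4) (nat_lit 383) (nat_lit 332) (nat_lit 305)))) (XT.nd (nat_lit 156) (nat_lit 228) (nat_lit 0) (XT.nd (nat_lit 78) (nat_lit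 152) (nat_lit 0) (XT.lf (nat_lit 0) (nat_lit 8451703678) (nat_lit 76) (nat_lit 13192894541) (nat_lit 76) (nat_lit 4538554582) (nat_lit 175) (nat_lit 4) (nat_lit 176) (nat_lit 5) (nat_lit 176) (nat_lit 4) (nat_lit 384) (nat_lit 332) (nat_lit 304)) (XT.lf (nat_lit 0) (nat_lit 10616766866) (nat_lit 152) (nat_lit 14565006702) (nat_lit 0) (nat_lit 2294490224) (nat_lit 173) (nat_lit 5) (nat_lit 175) (nat_lit 4) (nat_lit 173) (nat_lit 4) (nat_lit 385) (nat_lit 332) (nat_lit 303))) (XT.nd (nat_lit 78) (nat_lit 152) (nat_lit 0) (XT.lf (nat_lit 0) (nat_lit 17591252345) (nat_lit 76) (nat_lit 9822419071) (nat_lit 76) (nat_lit 1426023809) (nat_lit 172) (nat_lit 4) (nat_lit 173) (nat_lit 5) (nat_lit 173) (nat_lit 4) (nat_lit 386) (nat_lit 332) (nat_lit 302)) (XT.lf (nat_lit 0) (nat_lit 15262340977) (nat_lit 152) (nat_lit 7812144997) (nat_lit 0) (nat_lit 7200413726) (nat_lit 170) (nat_lit 5) (nat_lit 172) (nat_lit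 4) (nat_lit 170) (nat_lit 4) (nat_lit 387) (nat_lit 332) (nat_lit 301)))))))
noncomputable def xc65 : XT := (XT.nd (nat_lit 1248) (nat_lit 2052) (nat_lit 0) (XT.nd (nat_lit 624) (nat_lit 1064) (nat_lit 0) (XT.nd (nat_lit 312) (nat_lit 456) (nat_lit 0) (XT.nd (nat_lit 156) (nat_lit 304) (nat_lit 0) (XT.nd (nat_lit 78) (nat_lit 76) (nat_lit 0) (XT.lf (nat_lit 0) (nat_lit 1962668201) (nat_lit 152) (nat_lit 4098976267) (nat_lit 76) (nat_lit 25731214849) (nat_lit 168) (nat_lit 5) (nat_lit 170) (nat_lit 5) (nat_lit 169) (nat_lit 4) (nat_lit 388) (nat_lit 332) (nat_lit 300)) (XT.lf (nat_lit 0) (nat_lit 20432882406) (nat_lit 152) (nat_lit 310069219) (nat_lit 0) (nat_lit 12643851899) (nat_lit 167) (nat_lit 5) (nat_lit 169) (nat_lit 4) (nat_lit 167) (nat_lit 4) (nat_lit 389) (nat_lit 332) (nat_lit 299))) (XT.nd (nat_lit 78) (nat_lit 76) (nat_lit 0) (XT.lf (nat_lit 0) (nat_lit 3967438408) (nat_lit 76) (nat_lit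 1791529072) (nat_lit 152) (nat_lit 29312416485) (nat_lit 164) (nat_lit 5) (nat_lit 165) (nat_lit 5) (nat_lit 166) (nat_lit 4) (nat_lit 390) (nat_lit 332) (nat_lit 298)) (XT.lf (nat_lit 0) (nat_lit 8335031813) (nat_lit 76) (nat_lit 18006264723) (nat_lit 76) (nat_lit 10497503752) (nat_lit 163) (nat_lit 4) (nat_lit 164) (nat_lit 5) (nat_lit 164) (nat_lit 4) (nat_lit 391) (nat_lit 332) (nat_lit 297)))) (XT.nd (nat_lit 156) (nat_lit 228) (nat_lit 0) (XT.nd (nat_lit 78) (nat_lit 76) (nat_lit 0) (XT.lf (nat_lit 0) (nat_lit 10143925276) (nat_lit 152) (nat_lit 25609933194) (nat_lit 0) (nat_lit 2954298137) (nat_lit 161) (nat_lit 5) (nat_lit 163) (nat_lit 4) (nat_lit 161) (nat_lit 4) (nat_lit 392) (nat_lit 332) (nat_lit 296)) (XT.lf (nat_lit 0) (nat_lit 18044217166) (nat_lit 76) (nat_lit 14927161085) (nat_lit 76) (nat_lit 7701954118) (nat_lit 160) (nat_lit 4) (nat_lit 161) (nat_lit 5) (nat_lit 161) (nat_lit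 4) (nat_lit 393) (nat_lit 332) (nat_lit 295))) (XT.nd (nat_lit 78) (nat_lit 76) (nat_lit 0) (XT.lf (nat_lit 0) (nat_lit 15119858851) (nat_lit 152) (nat_lit 19418693942) (nat_lit 0) (nat_lit 8207333850) (nat_lit 158) (nat_lit 5) (nat_lit 160) (nat_lit 4) (nat_lit 158) (nat_lit 4) (nat_lit 394) (nat_lit 332) (nat_lit 294)) (XT.lf (nat_lit 0) (nat_lit 28975402672) (nat_lit 76) (nat_lit 11448885205) (nat_lit 76) (nat_lit 4507308806) (nat_lit 157) (nat_lit 4) (nat_lit 158) (nat_lit 5) (nat_lit 158) (nat_lit 4) (nat_lit 395) (nat_lit 332) (nat_lit 293))))) (XT.nd (nat_lit 312) (nat_lit 456) (nat_lit 0) (XT.nd (nat_lit 156) (nat_lit 380) (nat_lit 0) (XT.nd (nat_lit 78) (nat_lit 76) (nat_lit 0) (XT.lf (nat_lit 0) (nat_lit 20748956878) (nat_lit 152) (nat_lit 12367774523) (nat_lit 0) (nat_lit 14112313220) (nat_lit 155) (nat_lit 5) (nat_lit 157) (nat_lit 4) (nat_lit 155) (nat_lit 4) (nat_lit 396) (nat_lit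 332) (nat_lit 292)) (XT.lf (nat_lit 0) (nat_lit 41318804580) (nat_lit 76) (nat_lit 7500294663) (nat_lit 76) (nat_lit 839930156) (nat_lit 154) (nat_lit 4) (nat_lit 155) (nat_lit 5) (nat_lit 155) (nat_lit 4) (nat_lit 397) (nat_lit 332) (nat_lit 291))) (XT.nd (nat_lit 78) (nat_lit 228) (nat_lit 0) (XT.lf (nat_lit 0) (nat_lit 27132684647) (nat_lit 152) (nat_lit 4304171584) (nat_lit 0) (nat_lit 20768562499) (nat_lit 152) (nat_lit 5) (nat_lit 154) (nat_lit 4) (nat_lit 152) (nat_lit 4) (nat_lit 398) (nat_lit 332) (nat_lit 290)) (XT.lf (nat_lit 0) (nat_lit 341568676) (nat_lit 76) (nat_lit 2938948010) (nat_lit 152) (nat_lit 51622614448) (nat_lit 149) (nat_lit 5) (nat_lit 150) (nat_lit 5) (nat_lit 151) (nat_lit 4) (nat_lit 399) (nat_lit 332) (nat_lit 289)))) (XT.nd (nat_lit 156) (nat_lit 228) (nat_lit 0) (XT.nd (nat_lit 78) (nat_lit 152) (nat_lit 0) (XT.lf (nat_lit 0) (nat_lit 5109639412) (nat_lit 76)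 (nat_lit 29355493794) (nat_lit 76) (nat_lit 23258899297) (nat_lit 148) (nat_lit 4) (nat_lit 149) (nat_lit 5) (nat_lit 149) (nat_lit 4) (nat_lit 400) (nat_lit 332) (nat_lit 288)) (XT.lf (nat_lit 0) (nat_lit 8196966891) (nat_lit 152) (nat_lit 50139304513) (nat_lit 0) (nat_lit 2375624950) (nat_lit 146) (nat_lit 5) (nat_lit 148) (nat_lit 4) (nat_lit 146) (nat_lit 4) (nat_lit 401) (nat_lit 332) (nat_lit 287))) (XT.nd (nat_lit 78) (nat_lit 152) (nat_lit 0) (XT.lf (nat_lit 0) (nat_lit 16095958729) (nat_lit 76) (nat_lit 26791208250) (nat_lit 76) (nat_lit 20955920505) (nat_lit 145) (nat_lit 4) (nat_lit 146) (nat_lit 5) (nat_lit 146) (nat_lit 4) (nat_lit 402) (nat_lit 332) (nat_lit 286)) (XT.lf (nat_lit 0) (nat_lit 13928750866) (nat_lit 152) (nat_lit 44865683186) (nat_lit 0) (nat_lit 8359036079) (nat_lit 143) (nat_lit 5) (nat_lit 145) (nat_lit 4) (nat_lit 143) (nat_lit 4) (nat_lit 403) (nat_lit 332) (nat_lit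 285)))))) (XT.nd (nat_lit 624) (nat_lit 1140) (nat_lit 0) (XT.nd (nat_lit 312) (nat_lit 456) (nat_lit 0) (XT.nd (nat_lit 156) (nat_lit 228) (nat_lit 0) (XT.nd (nat_lit 78) (nat_lit 152) (nat_lit 0) (XT.lf (nat_lit 0) (nat_lit 28744564593) (nat_lit 76) (nat_lit 23733812406) (nat_lit 76) (nat_lit 18152710687) (nat_lit 142) (nat_lit 4) (nat_lit 143) (nat_lit 5) (nat_lit 143) (nat_lit 4) (nat_lit 404) (nat_lit 332) (nat_lit 284)) (XT.lf (nat_lit 0) (nat_lit 20553141902) (nat_lit 152) (nat_lit 38517638605) (nat_lit 0) (nat_lit 15227765545) (nat_lit 140) (nat_lit 5) (nat_lit 142) (nat_lit 4) (nat_lit 140) (nat_lit 4) (nat_lit 405) (nat_lit 332) (nat_lit 283))) (XT.nd (nat_lit 78) (nat_lit 152) (nat_lit 0) (XT.lf (nat_lit 0) (nat_lit 43319029329) (nat_lit 76) (nat_lit 20087897057) (nat_lit 76) (nat_lit 14753223120) (nat_lit 139) (nat_lit 4) (nat_lit 140) (nat_lit 5) (nat_lit 140) (nat_lit 4) (nat_lit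 406) (nat_lit 332) (nat_lit 282)) (XT.lf (nat_lit 0) (nat_lit 28209804970) (nat_lit 152) (nat_lit 30892199547) (nat_lit 0) (nat_lit 23120964201) (nat_lit 137) (nat_lit 5) (nat_lit 139) (nat_lit 4) (nat_lit 137) (nat_lit 4) (nat_lit 407) (nat_lit 332) (nat_lit 281)))) (XT.nd (nat_lit 156) (nat_lit 228) (nat_lit 0) (XT.nd (nat_lit 78) (nat_lit 152) (nat_lit 0) (XT.lf (nat_lit 0) (nat_lit 60118549554) (nat_lit 76) (nat_lit 15744061322) (nat_lit 76) (nat_lit 10647628956) (nat_lit 136) (nat_lit 4) (nat_lit 137) (nat_lit 5) (nat_lit 137) (nat_lit 4) (nat_lit 408) (nat_lit 332) (nat_lit 280)) (XT.lf (nat_lit 0) (nat_lit 37057119333) (nat_lit 152) (nat_lit 21757035193) (nat_lit 0) (nat_lit 32196679694) (nat_lit 134) (nat_lit 5) (nat_lit 136) (nat_lit 4) (nat_lit 134) (nat_lit 4) (nat_lit 409) (nat_lit 332) (nat_lit 279))) (XT.nd (nat_lit 78) (nat_lit 152) (nat_lit 0) (XT.lf (nat_lit 0) (nat_lit 79482620748)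 (nat_lit 76) (nat_lit 10577022151) (nat_lit 76) (nat_lit 5710383873) (nat_lit 133) (nat_lit 4) (nat_lit 134) (nat_lit 5) (nat_lit 134) (nat_lit 4) (nat_lit 410) (nat_lit 332) (nat_lit 278)) (XT.lf (nat_lit 0) (nat_lit 47274660045) (nat_lit 152) (nat_lit 10846423959) (nat_lit 0) (nat_lit 42634300276) (nat_lit 131) (nat_lit 5) (nat_lit 133) (nat_lit 4) (nat_lit 131) (nat_lit 4) (nat_lit 411) (nat_lit 332) (nat_lit 277))))) (XT.nd (nat_lit 312) (nat_lit 608) (nat_lit 0) (XT.nd (nat_lit 156) (nat_lit 228) (nat_lit 0) (XT.nd (nat_lit 78) (nat_lit 152) (nat_lit 0) (XT.lf (nat_lit 0) (nat_lit 195487926) (nat_lit 152) (nat_lit 4244670790) (nat_lit 76) (nat_lit 101597506808) (nat_lit 129) (nat_lit 5) (nat_lit 131) (nat_lit 5) (nat_lit 130) (nat_lit 4) (nat_lit 412) (nat_lit 332) (nat_lit 276)) (XT.lf (nat_lit 0) (nat_lit 2214171526) (nat_lit 76) (nat_lit 56886385791) (nat_lit 76) (nat_lit 52457712076)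 (nat_lit 127) (nat_lit 4) (nat_lit 128) (nat_lit 5) (nat_lit 128) (nat_lit 4) (nat_lit 413) (nat_lit 332) (nat_lit 275))) (XT.nd (nat_lit 78) (nat_lit 76) (nat_lit 0) (XT.lf (nat_lit 0) (nat_lit 7230197311) (nat_lit 152) (nat_lit 107167837888) (nat_lit 0) (nat_lit 3008477017) (nat_lit 125) (nat_lit 5) (nat_lit 127) (nat_lit 4) (nat_lit 125) (nat_lit 4) (nat_lit 414) (nat_lit 332) (nat_lit 274)) (XT.lf (nat_lit 0) (nat_lit 18139494988) (nat_lit 76) (nat_lit 54805499997) (nat_lit 76) (nat_lit 50580135441) (nat_lit 124) (nat_lit 4) (nat_lit 125) (nat_lit 5) (nat_lit 125) (nat_lit 4) (nat_lit 415) (nat_lit 332) (nat_lit 273)))) (XT.nd (nat_lit 156) (nat_lit 380) (nat_lit 0) (XT.nd (nat_lit 78) (nat_lit 76) (nat_lit 0) (XT.lf (nat_lit 0) (nat_lit 15751077173) (nat_lit 152) (nat_lit 102527268739) (nat_lit 0) (nat_lit 11723706818) (nat_lit 122) (nat_lit 5) (nat_lit 124) (nat_lit 4) (nat_lit 122) (nat_lit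 4) (nat_lit 416) (nat_lit 332) (nat_lit 272)) (XT.lf (nat_lit 0) (nat_lit 36979681148) (nat_lit 76) (nat_lit 51921066191) (nat_lit 76) (nat_lit 47890720248) (nat_lit 121) (nat_lit 4) (nat_lit 122) (nat_lit 5) (nat_lit 122) (nat_lit 4) (nat_lit 417) (nat_lit 332) (nat_lit 271))) (XT.nd (nat_lit 78) (nat_lit 228) (nat_lit 0) (XT.lf (nat_lit 0) (nat_lit 25835888083) (nat_lit 152) (nat_lit 96133816387) (nat_lit 0) (nat_lit 21994839400) (nat_lit 119) (nat_lit 5) (nat_lit 121) (nat_lit 4) (nat_lit 119) (nat_lit 4) (nat_lit 418) (nat_lit 332) (nat_lit 270)) (XT.nd (nat_lit 78) (nat_lit 152) (nat_lit 0) (XT.lf (nat_lit 0) (nat_lit 59200811664) (nat_lit 76) (nat_lit 48070232188) (nat_lit 76) (nat_lit 44226753898) (nat_lit 118) (nat_lit 4) (nat_lit 119) (nat_lit 5) (nat_lit 119) (nat_lit 4) (nat_lit 419) (nat_lit 332) (nat_lit 269)) (XT.lf (nat_lit 0) (nat_lit 37731565997) (nat_lit 152) (nat_lit 87641233010)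 (nat_lit 0) (nat_lit 34068967973) (nat_lit 116) (nat_lit 5) (nat_lit 118) (nat_lit 4) (nat_lit 116) (nat_lit 4) (nat_lit 420) (nat_lit 332) (nat_lit 268))))))))
noncomputable def xc66 : XT := (XT.nd (nat_lit 1248) (nat_lit 1292) (nat_lit 0) (XT.nd (nat_lit 624) (nat_lit 988) (nat_lit 0) (XT.nd (nat_lit 312) (nat_lit 456) (nat_lit 0) (XT.nd (nat_lit 156) (nat_lit 228) (nat_lit 0) (XT.nd (nat_lit 78) (nat_lit 152) (nat_lit 0) (XT.lf (nat_lit 0) (nat_lit 85333937279) (nat_lit 76) (nat_lit 43065269791) (nat_lit 76) (nat_lit 39400687961) (nat_lit 115) (nat_lit 4) (nat_lit 116) (nat_lit 5) (nat_lit 116) (nat_lit 4) (nat_lit 421) (nat_lit 332) (nat_lit 267)) (XT.lf (nat_lit 0) (nat_lit 51719354023) (nat_lit 152) (nat_lit 76650662335) (nat_lit 0) (nat_lit 48227526701) (nat_lit 113) (nat_lit 5) (nat_lit 115) (nat_lit 4) (nat_lit 113) (nat_lit 4) (nat_lit 422) (nat_lit 332) (nat_lit 266))) (XT.nd (nat_lit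 78) (nat_lit 152) (nat_lit 0) (XT.lf (nat_lit 0) (nat_lit 115983711162) (nat_lit 76) (nat_lit 36690091340) (nat_lit 76) (nat_lit 33196644215) (nat_lit 112) (nat_lit 4) (nat_lit 113) (nat_lit 5) (nat_lit 113) (nat_lit 4) (nat_lit 423) (nat_lit 332) (nat_lit 265)) (XT.lf (nat_lit 0) (nat_lit 68119356473) (nat_lit 152) (nat_lit 62703281091) (nat_lit 0) (nat_lit 64790835574) (nat_lit 110) (nat_lit 5) (nat_lit 112) (nat_lit 4) (nat_lit 110) (nat_lit 4) (nat_lit 424) (nat_lit 332) (nat_lit 264)))) (XT.nd (nat_lit 156) (nat_lit 228) (nat_lit 0) (XT.nd (nat_lit 78) (nat_lit 152) (nat_lit 0) (XT.lf (nat_lit 0) (nat_lit 151838123519) (nat_lit 76) (nat_lit 28696304650) (nat_lit 76) (nat_lit 25366461159) (nat_lit 109) (nat_lit 4) (nat_lit 110) (nat_lit 5) (nat_lit 110) (nat_lit 4) (nat_lit 425) (nat_lit 332) (nat_lit 263)) (XT.lf (nat_lit 0) (nat_lit 87295671408) (nat_lit 152) (nat_lit 45271970951) (nat_lit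 0) (nat_lit 84123225587) (nat_lit 107) (nat_lit 5) (nat_lit 109) (nat_lit 4) (nat_lit 107) (nat_lit 4) (nat_lit 426) (nat_lit 332) (nat_lit 262))) (XT.nd (nat_lit 78) (nat_lit 152) (nat_lit 0) (XT.lf (nat_lit 0) (nat_lit 193679474258) (nat_lit 76) (nat_lit 18798747952) (nat_lit 76) (nat_lit 15625222218) (nat_lit 106) (nat_lit 4) (nat_lit 107) (nat_lit 5) (nat_lit 107) (nat_lit 4) (nat_lit 427) (nat_lit 332) (nat_lit 261)) (XT.lf (nat_lit 0) (nat_lit 109662173698) (nat_lit 152) (nat_lit 23751897764) (nat_lit 0) (nat_lit 106638815933) (nat_lit 104) (nat_lit 5) (nat_lit 106) (nat_lit 4) (nat_lit 104) (nat_lit 4) (nat_lit 428) (nat_lit 332) (nat_lit 260))))) (XT.nd (nat_lit 312) (nat_lit 456) (nat_lit 0) (XT.nd (nat_lit 156) (nat_lit 228) (nat_lit 0) (XT.nd (nat_lit 78) (nat_lit 228) (nat_lit 0) (XT.lf (nat_lit 0) (nat_lit 242396737182) (nat_lit 76) (nat_lit 6670439125) (nat_lit 76) (nat_lit 3646199597)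 (nat_lit 103) (nat_lit 4) (nat_lit 104) (nat_lit 5) (nat_lit 104) (nat_lit 4) (nat_lit 429) (nat_lit 332) (nat_lit 259)) (XT.lf (nat_lit 0) (nat_lit 2634459566) (nat_lit 76) (nat_lit 133095701163) (nat_lit 76) (nat_lit 130214695473) (nat_lit 100) (nat_lit 4) (nat_lit 101) (nat_lit 5) (nat_lit 101) (nat_lit 4) (nat_lit 430) (nat_lit 332) (nat_lit 258))) (XT.nd (nat_lit 78) (nat_lit 76) (nat_lit 0) (XT.lf (nat_lit 0) (nat_lit 11032051102) (nat_lit 152) (nat_lit 260641472516) (nat_lit 0) (nat_lit 8287550471) (nat_lit 98) (nat_lit 5) (nat_lit 100) (nat_lit 4) (nat_lit 98) (nat_lit 4) (nat_lit 431) (nat_lit 332) (nat_lit 257)) (XT.lf (nat_lit 0) (nat_lit 35566089085) (nat_lit 76) (nat_lit 130899229500) (nat_lit 76) (nat_lit 128154093974) (nat_lit 97) (nat_lit 4) (nat_lit 98) (nat_lit 5) (nat_lit 98) (nat_lit 4) (nat_lit 432) (nat_lit 332) (nat_lit 256)))) (XT.nd (nat_lit 156) (nat_lit 228) (nat_lit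 0) (XT.nd (nat_lit 78) (nat_lit 76) (nat_lit 0) (XT.lf (nat_lit 0) (nat_lit 28956775672) (nat_lit 152) (nat_lit 254841280227) (nat_lit 0) (nat_lit 26341801014) (nat_lit 95) (nat_lit 5) (nat_lit 97) (nat_lit 4) (nat_lit 95) (nat_lit 4) (nat_lit 433) (nat_lit 332) (nat_lit 255)) (XT.lf (nat_lit 0) (nat_lit 75195271425) (nat_lit 76) (nat_lit 126909600743) (nat_lit 76) (nat_lit 124294107684) (nat_lit 94) (nat_lit 4) (nat_lit 95) (nat_lit 5) (nat_lit 95) (nat_lit 4) (nat_lit 434) (nat_lit 332) (nat_lit 254))) (XT.nd (nat_lit 78) (nat_lit 76) (nat_lit 0) (XT.lf (nat_lit 0) (nat_lit 50468949243) (nat_lit 152) (nat_lit 245138698342) (nat_lit 0) (nat_lit 47977546329) (nat_lit 92) (nat_lit 5) (nat_lit 94) (nat_lit 4) (nat_lit 92) (nat_lit 4) (nat_lit 435) (nat_lit 332) (nat_lit 253)) (XT.lf (nat_lit 0) (nat_lit 122593275691) (nat_lit 76) (nat_lit 120759137042) (nat_lit 76) (nat_lit 118267310847) (nat_lit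 91) (nat_lit 4) (nat_lit 92) (nat_lit 5) (nat_lit 92) (nat_lit 4) (nat_lit 436) (nat_lit 332) (nat_lit 252)))))) (XT.nd (nat_lit 624) (nat_lit 380) (nat_lit 0) (XT.nd (nat_lit 312) (nat_lit 456) (nat_lit 0) (XT.nd (nat_lit 156) (nat_lit 228) (nat_lit 0) (XT.nd (nat_lit 78) (nat_lit 76) (nat_lit 0) (XT.lf (nat_lit 0) (nat_lit 76136761341) (nat_lit 152) (nat_lit 230750650115) (nat_lit 0) (nat_lit 73763220273) (nat_lit 89) (nat_lit 5) (nat_lit 91) (nat_lit 4) (nat_lit 89) (nat_lit 4) (nat_lit 437) (nat_lit 332) (nat_lit 251)) (XT.lf (nat_lit 0) (nat_lit 178982925464) (nat_lit 76) (nat_lit 112022619267) (nat_lit 76) (nat_lit 109648732585) (nat_lit 88) (nat_lit 4) (nat_lit 89) (nat_lit 5) (nat_lit 89) (nat_lit 4) (nat_lit 438) (nat_lit 332) (nat_lit 250))) (XT.nd (nat_lit 78) (nat_lit 76) (nat_lit 0) (XT.lf (nat_lit 0) (nat_lit 106608490732) (nat_lit 152) (nat_lit 210772225222) (nat_lit 0) (nat_lit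 104347341499) (nat_lit 86) (nat_lit 5) (nat_lit 88) (nat_lit 4) (nat_lit 86) (nat_lit 4) (nat_lit 439) (nat_lit 332) (nat_lit 249)) (XT.lf (nat_lit 0) (nat_lit 245758810109) (nat_lit 76) (nat_lit 100209161723) (nat_lit 76) (nat_lit 97947730291) (nat_lit 85) (nat_lit 4) (nat_lit 86) (nat_lit 5) (nat_lit 86) (nat_lit 4) (nat_lit 440) (nat_lit 332) (nat_lit 248)))) (XT.nd (nat_lit 156) (nat_lit 228) (nat_lit 0) (XT.nd (nat_lit 78) (nat_lit 76) (nat_lit 0) (XT.lf (nat_lit 0) (nat_lit 142623159023) (nat_lit 152) (nat_lit 184159535109) (nat_lit 0) (nat_lit 140469165950) (nat_lit 83) (nat_lit 5) (nat_lit 85) (nat_lit 4) (nat_lit 83) (nat_lit 4) (nat_lit 441) (nat_lit 332) (nat_lit 247)) (XT.lf (nat_lit 0) (nat_lit 324510083763) (nat_lit 76) (nat_lit 84753008098) (nat_lit 76) (nat_lit 82598784606) (nat_lit 82) (nat_lit 4) (nat_lit 83) (nat_lit 5) (nat_lit 83) (nat_lit 4) (nat_lit 442) (nat_lit 332) (nat_lit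 246))) (XT.nd (nat_lit 78) (nat_lit 76) (nat_lit 0) (XT.lf (nat_lit 0) (nat_lit 185022545808) (nat_lit 152) (nat_lit 149710297260) (nat_lit 0) (nat_lit 182970701195) (nat_lit 80) (nat_lit 5) (nat_lit 82) (nat_lit 4) (nat_lit 80) (nat_lit 4) (nat_lit 443) (nat_lit 332) (nat_lit 245)) (XT.lf (nat_lit 0) (nat_lit 417046174518) (nat_lit 76) (nat_lit 65003110853) (nat_lit 76) (nat_lit 62951078101) (nat_lit 79) (nat_lit 4) (nat_lit 80) (nat_lit 5) (nat_lit 80) (nat_lit 4) (nat_lit 444) (nat_lit 332) (nat_lit 244))))) (XT.nd (nat_lit 46098) (nat_lit 0) (nat_lit 12920) (XT.nd (nat_lit 156) (nat_lit 152) (nat_lit 0) (XT.nd (nat_lit 78) (nat_lit 76) (nat_lit 0) (XT.lf (nat_lit 0) (nat_lit 234764734901) (nat_lit 152) (nat_lit 106041858574) (nat_lit 0) (nat_lit 232810252086) (nat_lit 77) (nat_lit 5) (nat_lit 79) (nat_lit 4) (nat_lit 77) (nat_lit 4) (nat_lit 445) (nat_lit 332) (nat_lit 243)) (XT.lf (nat_lit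 0) (nat_lit 525425765750) (nat_lit 76) (nat_lit 40211339054) (nat_lit 76) (nat_lit 38256702620) (nat_lit 76) (nat_lit 4) (nat_lit 77) (nat_lit 5) (nat_lit 77) (nat_lit 4) (nat_lit 446) (nat_lit 332) (nat_lit 242))) (XT.nd (nat_lit 45864) (nat_lit 0) (nat_lit 14516) (XT.lf (nat_lit 0) (nat_lit 292939381917) (nat_lit 152) (nat_lit 51566331950) (nat_lit 0) (nat_lit 291077687942) (nat_lit 74) (nat_lit 5) (nat_lit 76) (nat_lit 4) (nat_lit 74) (nat_lit 4) (nat_lit 447) (nat_lit 332) (nat_lit 241)) (XT.lf (nat_lit 0) (nat_lit 335248344) (nat_lit 304) (nat_lit 1794086947) (nat_lit 304) (nat_lit 1794086947) (nat_lit 265) (nat_lit 4) (nat_lit 269) (nat_lit 5) (nat_lit 269) (nat_lit 4) (nat_lit 354) (nat_lit 333) (nat_lit 333)))) (XT.nd (nat_lit 156) (nat_lit 836) (nat_lit 0) (XT.nd (nat_lit 78) (nat_lit 380) (nat_lit 0) (XT.lf (nat_lit 0) (nat_lit 2590800204) (nat_lit 380) (nat_lit 4761820336) (nat_lit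 0) (nat_lit 706124332) (nat_lit 260) (nat_lit 5) (nat_lit 265) (nat_lit 4) (nat_lit 260) (nat_lit 4) (nat_lit 355) (nat_lit 333) (nat_lit 332)) (XT.lf (nat_lit 0) (nat_lit 690913087) (nat_lit 380) (nat_lit 2213374295) (nat_lit 76) (nat_lit 5386476654) (nat_lit 255) (nat_lit 5) (nat_lit 260) (nat_lit 5) (nat_lit 256) (nat_lit 4) (nat_lit 356) (nat_lit 333) (nat_lit 331))) (XT.nd (nat_lit 78) (nat_lit 304) (nat_lit 0) (XT.lf (nat_lit 0) (nat_lit 496411265) (nat_lit 304) (nat_lit 6521434233) (nat_lit 304) (nat_lit 1525670505) (nat_lit 248) (nat_lit 4) (nat_lit 252) (nat_lit 5) (nat_lit 252) (nat_lit 4) (nat_lit 357) (nat_lit 333) (nat_lit 330)) (XT.lf (nat_lit 0) (nat_lit 3430111944) (nat_lit 228) (nat_lit 1375131227) (nat_lit 304) (nat_lit 4010718245) (nat_lit 244) (nat_lit 5) (nat_lit 247) (nat_lit 5) (nat_lit 248) (nat_lit 4) (nat_lit 358) (nat_lit 333) (nat_lit 329)))))))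
noncomputable def xc67 : XT := (XT.nd (nat_lit 1248) (nat_lit 2356) (nat_lit 0) (XT.nd (nat_lit 624) (nat_lit 1520) (nat_lit 0) (XT.nd (nat_lit 312) (nat_lit 912) (nat_lit 0) (XT.nd (nat_lit 156) (nat_lit 532) (nat_lit 0) (XT.nd (nat_lit 78) (nat_lit 456) (nat_lit 0) (XT.lf (nat_lit 0) (nat_lit 2330943192) (nat_lit 304) (nat_lit 2592960028) (nat_lit 76) (nat_lit 4186607529) (nat_lit 240) (nat_lit 5) (nat_lit 244) (nat_lit 5) (nat_lit 241) (nat_lit 4) (nat_lit 359) (nat_lit 333) (nat_lit 328)) (XT.lf (nat_lit 0) (nat_lit 375224590) (nat_lit 228) (nat_lit 8591084274) (nat_lit 228) (nat_lit 462683326) (nat_lit 234) (nat_lit 4) (nat_lit 237) (nat_lit 5) (nat_lit 237) (nat_lit 4) (nat_lit 360) (nat_lit 333) (nat_lit 327))) (XT.nd (nat_lit 78) (nat_lit 304) (nat_lit 0) (XT.lf (nat_lit 0) (nat_lit 3524383238) (nat_lit 152) (nat_lit 2660365196) (nat_lit 228) (nat_lit 3581802081) (nat_lit 231) (nat_lit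 5) (nat_lit 233) (nat_lit 5) (nat_lit 234) (nat_lit 4) (nat_lit 361) (nat_lit 333) (nat_lit 326)) (XT.lf (nat_lit 0) (nat_lit 3090783678) (nat_lit 304) (nat_lit 3287040939) (nat_lit 76) (nat_lit 3751562377) (nat_lit 227) (nat_lit 5) (nat_lit 231) (nat_lit 5) (nat_lit 228) (nat_lit 4) (nat_lit 362) (nat_lit 333) (nat_lit 325)))) (XT.nd (nat_lit 156) (nat_lit 380) (nat_lit 0) (XT.nd (nat_lit 78) (nat_lit 380) (nat_lit 0) (XT.lf (nat_lit 0) (nat_lit 10155951344) (nat_lit 228) (nat_lit 169912171) (nat_lit 0) (nat_lit 193237776) (nat_lit 225) (nat_lit 5) (nat_lit 228) (nat_lit 4) (nat_lit 225) (nat_lit 4) (nat_lit 363) (nat_lit 333) (nat_lit 324)) (XT.lf (nat_lit 0) (nat_lit 3111404278) (nat_lit 152) (nat_lit 3626562514) (nat_lit 228) (nat_lit 4191143775) (nat_lit 220) (nat_lit 5) (nat_lit 222) (nat_lit 5) (nat_lit 223) (nat_lit 4) (nat_lit 364) (nat_lit 333) (nat_lit 323))) (XT.nd (nat_lit 78) (nat_lit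 152) (nat_lit 0) (XT.lf (nat_lit 0) (nat_lit 2953775222) (nat_lit 228) (nat_lit 4788019998) (nat_lit 76) (nat_lit 3626083081) (nat_lit 217) (nat_lit 5) (nat_lit 220) (nat_lit 5) (nat_lit 218) (nat_lit 4) (nat_lit 365) (nat_lit 333) (nat_lit 322)) (XT.lf (nat_lit 0) (nat_lit 10222220219) (nat_lit 152) (nat_lit 347852556) (nat_lit 228) (nat_lit 1265908199) (nat_lit 215) (nat_lit 5) (nat_lit 217) (nat_lit 5) (nat_lit 218) (nat_lit 4) (nat_lit 366) (nat_lit 333) (nat_lit 321))))) (XT.nd (nat_lit 312) (nat_lit 684) (nat_lit 0) (XT.nd (nat_lit 156) (nat_lit 304) (nat_lit 0) (XT.nd (nat_lit 78) (nat_lit 228) (nat_lit 0) (XT.lf (nat_lit 0) (nat_lit 1679738502) (nat_lit 76) (nat_lit 4716844506) (nat_lit 152) (nat_lit 5932459812) (nat_lit 211) (nat_lit 5) (nat_lit 212) (nat_lit 5) (nat_lit 213) (nat_lit 4) (nat_lit 367) (nat_lit 333) (nat_lit 320)) (XT.lf (nat_lit 0) (nat_lit 1815803779) (nat_lit 228)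 (nat_lit 7635461985) (nat_lit 76) (nat_lit 3402608900) (nat_lit 208) (nat_lit 5) (nat_lit 211) (nat_lit 5) (nat_lit 209) (nat_lit 4) (nat_lit 368) (nat_lit 333) (nat_lit 319))) (XT.nd (nat_lit 78) (nat_lit 228) (nat_lit 0) (XT.lf (nat_lit 0) (nat_lit 8893125727) (nat_lit 76) (nat_lit 1197257361) (nat_lit 152) (nat_lit 3319732340) (nat_lit 207) (nat_lit 5) (nat_lit 208) (nat_lit 5) (nat_lit 209) (nat_lit 4) (nat_lit 369) (nat_lit 333) (nat_lit 318)) (XT.lf (nat_lit 0) (nat_lit 5028430665) (nat_lit 228) (nat_lit 1305325819) (nat_lit 76) (nat_lit 7664538069) (nat_lit 204) (nat_lit 5) (nat_lit 207) (nat_lit 5) (nat_lit 205) (nat_lit 4) (nat_lit 370) (nat_lit 333) (nat_lit 317)))) (XT.nd (nat_lit 156) (nat_lit 304) (nat_lit 0) (XT.nd (nat_lit 78) (nat_lit 152) (nat_lit 0) (XT.lf (nat_lit 0) (nat_lit 2163251642) (nat_lit 152) (nat_lit 11928831541) (nat_lit 152) (nat_lit 530526546) (nat_lit 201) (nat_lit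 4) (nat_lit 203) (nat_lit 5) (nat_lit 203) (nat_lit 4) (nat_lit 371) (nat_lit 333) (nat_lit 316)) (XT.lf (nat_lit 0) (nat_lit 5758895855) (nat_lit 76) (nat_lit 2763011197) (nat_lit 152) (nat_lit 6757627609) (nat_lit 199) (nat_lit 5) (nat_lit 200) (nat_lit 5) (nat_lit 201) (nat_lit 4) (nat_lit 372) (nat_lit 333) (nat_lit 315))) (XT.nd (nat_lit 78) (nat_lit 76) (nat_lit 0) (XT.lf (nat_lit 0) (nat_lit 2433335516) (nat_lit 228) (nat_lit 6440765630) (nat_lit 76) (nat_lit 7101923644) (nat_lit 196) (nat_lit 5) (nat_lit 199) (nat_lit 5) (nat_lit 197) (nat_lit 4) (nat_lit 373) (nat_lit 333) (nat_lit 314)) (XT.lf (nat_lit 0) (nat_lit 12309389116) (nat_lit 152) (nat_lit 3222620976) (nat_lit 0) (nat_lit 1181356608) (nat_lit 195) (nat_lit 5) (nat_lit 197) (nat_lit 4) (nat_lit 195) (nat_lit 4) (nat_lit 374) (nat_lit 333) (nat_lit 313)))))) (XT.nd (nat_lit 624) (nat_lit 1140) (nat_lit 0) (XT.nd (nat_lit 312)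 (nat_lit 532) (nat_lit 0) (XT.nd (nat_lit 156) (nat_lit 304) (nat_lit 0) (XT.nd (nat_lit 78) (nat_lit 76) (nat_lit 0) (XT.lf (nat_lit 0) (nat_lit 92880079) (nat_lit 76) (nat_lit 5490569642) (nat_lit 152) (nat_lit 11907351425) (nat_lit 191) (nat_lit 5) (nat_lit 192) (nat_lit 5) (nat_lit 193) (nat_lit 4) (nat_lit 375) (nat_lit 333) (nat_lit 312)) (XT.lf (nat_lit 0) (nat_lit 3707464364) (nat_lit 76) (nat_lit 12807745704) (nat_lit 76) (nat_lit 1796628824) (nat_lit 190) (nat_lit 4) (nat_lit 191) (nat_lit 5) (nat_lit 191) (nat_lit 4) (nat_lit 376) (nat_lit 333) (nat_lit 311))) (XT.nd (nat_lit 78) (nat_lit 152) (nat_lit 0) (XT.lf (nat_lit 0) (nat_lit 7457696503) (nat_lit 76) (nat_lit 1641161521) (nat_lit 152) (nat_lit 10079184998) (nat_lit 188) (nat_lit 5) (nat_lit 189) (nat_lit 5) (nat_lit 190) (nat_lit 4) (nat_lit 377) (nat_lit 333) (nat_lit 310)) (XT.lf (nat_lit 0) (nat_lit 1033565231) (nat_lit 152)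 (nat_lit 8705181582) (nat_lit 76) (nat_lit 10354548991) (nat_lit 186) (nat_lit 5) (nat_lit 188) (nat_lit 5) (nat_lit 187) (nat_lit 4) (nat_lit 378) (nat_lit 333) (nat_lit 309)))) (XT.nd (nat_lit 156) (nat_lit 304) (nat_lit 0) (XT.nd (nat_lit 78) (nat_lit 152) (nat_lit 0) (XT.lf (nat_lit 0) (nat_lit 12971059729) (nat_lit 152) (nat_lit 5568471553) (nat_lit 0) (nat_lit 2519533412) (nat_lit 185) (nat_lit 5) (nat_lit 187) (nat_lit 4) (nat_lit 185) (nat_lit 4) (nat_lit 379) (nat_lit 333) (nat_lit 308)) (XT.lf (nat_lit 0) (nat_lit 4049163025) (nat_lit 152) (nat_lit 2283116300) (nat_lit 76) (nat_lit 15746474699) (nat_lit 183) (nat_lit 5) (nat_lit 185) (nat_lit 5) (nat_lit 184) (nat_lit 4) (nat_lit 380) (nat_lit 333) (nat_lit 307))) (XT.nd (nat_lit 78) (nat_lit 152) (nat_lit 0) (XT.lf (nat_lit 0) (nat_lit 1189134938) (nat_lit 76) (nat_lit 16080552017) (nat_lit 76) (nat_lit 5883914692) (nat_lit 181) (nat_lit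 4) (nat_lit 182) (nat_lit 5) (nat_lit 182) (nat_lit 4) (nat_lit 381) (nat_lit 333) (nat_lit 306)) (XT.lf (nat_lit 0) (nat_lit 4938173746) (nat_lit 76) (nat_lit 2497385441) (nat_lit 152) (nat_lit 16851548302) (nat_lit 179) (nat_lit 5) (nat_lit 180) (nat_lit 5) (nat_lit 181) (nat_lit 4) (nat_lit 382) (nat_lit 333) (nat_lit 305))))) (XT.nd (nat_lit 312) (nat_lit 684) (nat_lit 0) (XT.nd (nat_lit 156) (nat_lit 228) (nat_lit 0) (XT.nd (nat_lit 78) (nat_lit 152) (nat_lit 0) (XT.lf (nat_lit 0) (nat_lit 8843256028) (nat_lit 76) (nat_lit 13273711829) (nat_lit 76) (nat_lit 3364377031) (nat_lit 178) (nat_lit 4) (nat_lit 179) (nat_lit 5) (nat_lit 179) (nat_lit 4) (nat_lit 383) (nat_lit 333) (nat_lit 304)) (XT.lf (nat_lit 0) (nat_lit 11247833027) (nat_lit 152) (nat_lit 13767993321) (nat_lit 0) (nat_lit 1726320801) (nat_lit 176) (nat_lit 5) (nat_lit 178) (nat_lit 4) (nat_lit 176) (nat_lit 4) (nat_lit 384) (nat_lit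 333) (nat_lit 303))) (XT.nd (nat_lit 78) (nat_lit 152) (nat_lit 0) (XT.lf (nat_lit 0) (nat_lit 17322730475) (nat_lit 76) (nat_lit 10174186882) (nat_lit 76) (nat_lit 574850105) (nat_lit 175) (nat_lit 4) (nat_lit 176) (nat_lit 5) (nat_lit 176) (nat_lit 4) (nat_lit 385) (nat_lit 333) (nat_lit 302)) (XT.lf (nat_lit 0) (nat_lit 15530583626) (nat_lit 152) (nat_lit 7620827728) (nat_lit 0) (nat_lit 6319729771) (nat_lit 173) (nat_lit 5) (nat_lit 175) (nat_lit 4) (nat_lit 173) (nat_lit 4) (nat_lit 386) (nat_lit 333) (nat_lit 301)))) (XT.nd (nat_lit 156) (nat_lit 456) (nat_lit 0) (XT.nd (nat_lit 78) (nat_lit 76) (nat_lit 0) (XT.lf (nat_lit 0) (nat_lit 2457378770) (nat_lit 152) (nat_lit 4236772144) (nat_lit 76) (nat_lit 24256512622) (nat_lit 171) (nat_lit 5) (nat_lit 173) (nat_lit 5) (nat_lit 172) (nat_lit 4) (nat_lit 387) (nat_lit 333) (nat_lit 300)) (XT.lf (nat_lit 0) (nat_lit 20315734212) (nat_lit 152)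 (nat_lit 762599501) (nat_lit 0) (nat_lit 11426937665) (nat_lit 170) (nat_lit 5) (nat_lit 172) (nat_lit 4) (nat_lit 170) (nat_lit 4) (nat_lit 388) (nat_lit 333) (nat_lit 299))) (XT.nd (nat_lit 78) (nat_lit 228) (nat_lit 0) (XT.lf (nat_lit 0) (nat_lit 3137626655) (nat_lit 76) (nat_lit 2754231073) (nat_lit 152) (nat_lit 28255821531) (nat_lit 167) (nat_lit 5) (nat_lit 168) (nat_lit 5) (nat_lit 169) (nat_lit 4) (nat_lit 389) (nat_lit 333) (nat_lit 298)) (XT.nd (nat_lit 78) (nat_lit 152) (nat_lit 0) (XT.lf (nat_lit 0) (nat_lit 7155912248) (nat_lit 76) (nat_lit 18638099819) (nat_lit 76) (nat_lit 10077410785) (nat_lit 166) (nat_lit 4) (nat_lit 167) (nat_lit 5) (nat_lit 167) (nat_lit 4) (nat_lit 390) (nat_lit 333) (nat_lit 297)) (XT.lf (nat_lit 0) (nat_lit 9872790162) (nat_lit 152) (nat_lit 26142243794) (nat_lit 0) (nat_lit 1679405462) (nat_lit 164) (nat_lit 5) (nat_lit 166) (nat_lit 4) (nat_lit 164)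 (nat_lit 4) (nat_lit 391) (nat_lit 333) (nat_lit 296))))))))
noncomputable def xc68 : XT := (XT.nd (nat_lit 1248) (nat_lit 1976) (nat_lit 0) (XT.nd (nat_lit 624) (nat_lit 912) (nat_lit 0) (XT.nd (nat_lit 312) (nat_lit 532) (nat_lit 0) (XT.nd (nat_lit 156) (nat_lit 228) (nat_lit 0) (XT.nd (nat_lit 78) (nat_lit 152) (nat_lit 0) (XT.lf (nat_lit 0) (nat_lit 16099187458) (nat_lit 76) (nat_lit 15870698055) (nat_lit 76) (nat_lit 7639954536) (nat_lit 163) (nat_lit 4) (nat_lit 164) (nat_lit 5) (nat_lit 164) (nat_lit 4) (nat_lit 392) (nat_lit 333) (nat_lit 295)) (XT.lf (nat_lit 0) (nat_lit 14431439328) (nat_lit 152) (nat_lit 20639878115) (nat_lit 0) (nat_lit 6559691692) (nat_lit 161) (nat_lit 5) (nat_lit 163) (nat_lit 4) (nat_lit 161) (nat_lit 4) (nat_lit 393) (nat_lit 333) (nat_lit 294))) (XT.nd (nat_lit 78) (nat_lit 152) (nat_lit 0) (XT.lf (nat_lit 0) (nat_lit 26201573618) (nat_lit 76) (nat_lit 12730854970)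 (nat_lit 76) (nat_lit 4828603367) (nat_lit 160) (nat_lit 4) (nat_lit 161) (nat_lit 5) (nat_lit 161) (nat_lit 4) (nat_lit 394) (nat_lit 333) (nat_lit 293)) (XT.lf (nat_lit 0) (nat_lit 19610505521) (nat_lit 152) (nat_lit 14333346985) (nat_lit 0) (nat_lit 12057652170) (nat_lit 158) (nat_lit 5) (nat_lit 160) (nat_lit 4) (nat_lit 158) (nat_lit 4) (nat_lit 395) (nat_lit 333) (nat_lit 292)))) (XT.nd (nat_lit 156) (nat_lit 304) (nat_lit 0) (XT.nd (nat_lit 78) (nat_lit 152) (nat_lit 0) (XT.lf (nat_lit 0) (nat_lit 37643761355) (nat_lit 76) (nat_lit 9151632576) (nat_lit 76) (nat_lit 1573872335) (nat_lit 157) (nat_lit 4) (nat_lit 158) (nat_lit 5) (nat_lit 158) (nat_lit 4) (nat_lit 396) (nat_lit 333) (nat_lit 291)) (XT.lf (nat_lit 0) (nat_lit 25506497104) (nat_lit 152) (nat_lit 7078371063) (nat_lit 0) (nat_lit 18267618840) (nat_lit 155) (nat_lit 5) (nat_lit 157) (nat_lit 4) (nat_lit 155) (nat_lit 4) (nat_lit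 397) (nat_lit 333) (nat_lit 290))) (XT.nd (nat_lit 78) (nat_lit 152) (nat_lit 0) (XT.lf (nat_lit 0) (nat_lit 2132405337) (nat_lit 152) (nat_lit 2887784126) (nat_lit 76) (nat_lit 48461745613) (nat_lit 153) (nat_lit 5) (nat_lit 155) (nat_lit 5) (nat_lit 154) (nat_lit 4) (nat_lit 398) (nat_lit 333) (nat_lit 289)) (XT.lf (nat_lit 0) (nat_lit 1331981811) (nat_lit 76) (nat_lit 30917028365) (nat_lit 76) (nat_lit 23985556515) (nat_lit 151) (nat_lit 4) (nat_lit 152) (nat_lit 5) (nat_lit 152) (nat_lit 4) (nat_lit 399) (nat_lit 333) (nat_lit 288))))) (XT.nd (nat_lit 312) (nat_lit 456) (nat_lit 0) (XT.nd (nat_lit 156) (nat_lit 228) (nat_lit 0) (XT.nd (nat_lit 78) (nat_lit 76) (nat_lit 0) (XT.lf (nat_lit 0) (nat_lit 6333600715) (nat_lit 76) (nat_lit 145266520) (nat_lit 152) (nat_lit 52669718929) (nat_lit 149) (nat_lit 5) (nat_lit 150) (nat_lit 5) (nat_lit 151) (nat_lit 4) (nat_lit 400) (nat_lit 333) (nat_lit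 287)) (XT.lf (nat_lit 0) (nat_lit 11319081206) (nat_lit 76) (nat_lit 28756047038) (nat_lit 76) (nat_lit 22124187641) (nat_lit 148) (nat_lit 4) (nat_lit 149) (nat_lit 5) (nat_lit 149) (nat_lit 4) (nat_lit 401) (nat_lit 333) (nat_lit 286))) (XT.nd (nat_lit 78) (nat_lit 76) (nat_lit 0) (XT.lf (nat_lit 0) (nat_lit 11670323699) (nat_lit 152) (nat_lit 48416290041) (nat_lit 0) (nat_lit 5341354349) (nat_lit 146) (nat_lit 5) (nat_lit 148) (nat_lit 4) (nat_lit 146) (nat_lit 4) (nat_lit 402) (nat_lit 333) (nat_lit 285)) (XT.lf (nat_lit 0) (nat_lit 22868594706) (nat_lit 76) (nat_lit 26144069603) (nat_lit 76) (nat_lit 19803143975) (nat_lit 145) (nat_lit 4) (nat_lit 146) (nat_lit 5) (nat_lit 146) (nat_lit 4) (nat_lit 403) (nat_lit 333) (nat_lit 284)))) (XT.nd (nat_lit 156) (nat_lit 228) (nat_lit 0) (XT.nd (nat_lit 78) (nat_lit 76) (nat_lit 0) (XT.lf (nat_lit 0) (nat_lit 17704522234) (nat_lit 152) (nat_lit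 43033149954) (nat_lit 0) (nat_lit 11655001989) (nat_lit 143) (nat_lit 5) (nat_lit 145) (nat_lit 4) (nat_lit 143) (nat_lit 4) (nat_lit 404) (nat_lit 333) (nat_lit 283)) (XT.lf (nat_lit 0) (nat_lit 36230293353) (nat_lit 76) (nat_lit 22991649630) (nat_lit 76) (nat_lit 16932366926) (nat_lit 142) (nat_lit 4) (nat_lit 143) (nat_lit 5) (nat_lit 143) (nat_lit 4) (nat_lit 405) (nat_lit 333) (nat_lit 282))) (XT.nd (nat_lit 78) (nat_lit 76) (nat_lit 0) (XT.lf (nat_lit 0) (nat_lit 24711614287) (nat_lit 152) (nat_lit 36472844413) (nat_lit 0) (nat_lit 18932259985) (nat_lit 140) (nat_lit 5) (nat_lit 142) (nat_lit 4) (nat_lit 140) (nat_lit 4) (nat_lit 406) (nat_lit 333) (nat_lit 281)) (XT.lf (nat_lit 0) (nat_lit 51687978322) (nat_lit 76) (nat_lit 19196040845) (nat_lit 76) (nat_lit 13408715366) (nat_lit 139) (nat_lit 4) (nat_lit 140) (nat_lit 5) (nat_lit 140) (nat_lit 4) (nat_lit 407) (nat_lit 333) (nat_lit 280))))))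 (XT.nd (nat_lit 624) (nat_lit 912) (nat_lit 0) (XT.nd (nat_lit 312) (nat_lit 608) (nat_lit 0) (XT.nd (nat_lit 156) (nat_lit 228) (nat_lit 0) (XT.nd (nat_lit 78) (nat_lit 76) (nat_lit 0) (XT.lf (nat_lit 0) (nat_lit 32841892106) (nat_lit 152) (nat_lit 28517024674) (nat_lit 0) (nat_lit 27323124299) (nat_lit 137) (nat_lit 5) (nat_lit 139) (nat_lit 4) (nat_lit 137) (nat_lit 4) (nat_lit 408) (nat_lit 333) (nat_lit 279)) (XT.lf (nat_lit 0) (nat_lit 69563959163) (nat_lit 76) (nat_lit 14639394762) (nat_lit 76) (nat_lit 9114118385) (nat_lit 136) (nat_lit 4) (nat_lit 137) (nat_lit 5) (nat_lit 137) (nat_lit 4) (nat_lit 409) (nat_lit 333) (nat_lit 278))) (XT.nd (nat_lit 78) (nat_lit 76) (nat_lit 0) (XT.lf (nat_lit 0) (nat_lit 42265900209) (nat_lit 152) (nat_lit 18915597431) (nat_lit 0) (nat_lit 36997992751) (nat_lit 134) (nat_lit 5) (nat_lit 136) (nat_lit 4) (nat_lit 134) (nat_lit 4) (nat_lit 410) (nat_lit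 333) (nat_lit 277)) (XT.lf (nat_lit 0) (nat_lit 90224102824) (nat_lit 76) (nat_lit 9186713882) (nat_lit 76) (nat_lit 3913492090) (nat_lit 133) (nat_lit 4) (nat_lit 134) (nat_lit 5) (nat_lit 134) (nat_lit 4) (nat_lit 411) (nat_lit 333) (nat_lit 276)))) (XT.nd (nat_lit 156) (nat_lit 304) (nat_lit 0) (XT.nd (nat_lit 78) (nat_lit 152) (nat_lit 0) (XT.lf (nat_lit 0) (nat_lit 53177111161) (nat_lit 152) (nat_lit 7382371137) (nat_lit 0) (nat_lit 48150308808) (nat_lit 131) (nat_lit 5) (nat_lit 133) (nat_lit 4) (nat_lit 131) (nat_lit 4) (nat_lit 412) (nat_lit 333) (nat_lit 275)) (XT.lf (nat_lit 0) (nat_lit 2272472165) (nat_lit 152) (nat_lit 372573637) (nat_lit 76) (nat_lit 111772565704) (nat_lit 129) (nat_lit 5) (nat_lit 131) (nat_lit 5) (nat_lit 130) (nat_lit 4) (nat_lit 413) (nat_lit 333) (nat_lit 274))) (XT.nd (nat_lit 78) (nat_lit 152) (nat_lit 0) (XT.lf (nat_lit 0) (nat_lit 6621805093) (nat_lit 76)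 (nat_lit 59276514914) (nat_lit 76) (nat_lit 54481125033) (nat_lit 127) (nat_lit 4) (nat_lit 128) (nat_lit 5) (nat_lit 128) (nat_lit 4) (nat_lit 414) (nat_lit 333) (nat_lit 273)) (XT.lf (nat_lit 0) (nat_lit 9853458202) (nat_lit 152) (nat_lit 111560286833) (nat_lit 0) (nat_lit 5283045903) (nat_lit 125) (nat_lit 5) (nat_lit 127) (nat_lit 4) (nat_lit 125) (nat_lit 4) (nat_lit 415) (nat_lit 333) (nat_lit 272))))) (XT.nd (nat_lit 312) (nat_lit 456) (nat_lit 0) (XT.nd (nat_lit 156) (nat_lit 228) (nat_lit 0) (XT.nd (nat_lit 78) (nat_lit 152) (nat_lit 0) (XT.lf (nat_lit 0) (nat_lit 23589932461) (nat_lit 76) (nat_lit 57146477158) (nat_lit 76) (nat_lit 52572940491) (nat_lit 124) (nat_lit 4) (nat_lit 125) (nat_lit 5) (nat_lit 125) (nat_lit 4) (nat_lit 416) (nat_lit 333) (nat_lit 271)) (XT.lf (nat_lit 0) (nat_lit 18943521511) (nat_lit 152) (nat_lit 106777060400) (nat_lit 0) (nat_lit 14585017130) (nat_lit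 122) (nat_lit 5) (nat_lit 124) (nat_lit 4) (nat_lit 122) (nat_lit 4) (nat_lit 417) (nat_lit 333) (nat_lit 270))) (XT.nd (nat_lit 78) (nat_lit 152) (nat_lit 0) (XT.lf (nat_lit 0) (nat_lit 43718679432) (nat_lit 76) (nat_lit 54142374348) (nat_lit 76) (nat_lit 49781318880) (nat_lit 121) (nat_lit 4) (nat_lit 122) (nat_lit 5) (nat_lit 122) (nat_lit 4) (nat_lit 418) (nat_lit 333) (nat_lit 269)) (XT.lf (nat_lit 0) (nat_lit 29728877646) (nat_lit 152) (nat_lit 100088281957) (nat_lit 0) (nat_lit 25573241850) (nat_lit 119) (nat_lit 5) (nat_lit 121) (nat_lit 4) (nat_lit 119) (nat_lit 4) (nat_lit 419) (nat_lit 333) (nat_lit 268)))) (XT.nd (nat_lit 156) (nat_lit 228) (nat_lit 0) (XT.nd (nat_lit 78) (nat_lit 152) (nat_lit 0) (XT.lf (nat_lit 0) (nat_lit 67510743912) (nat_lit 76) (nat_lit 50088632011) (nat_lit 76) (nat_lit 45930913218) (nat_lit 118) (nat_lit 4) (nat_lit 119) (nat_lit 5) (nat_lit 119) (nat_lit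 4) (nat_lit 420) (nat_lit 333) (nat_lit 267)) (XT.lf (nat_lit 0) (nat_lit 42475859629) (nat_lit 152) (nat_lit 91120669704) (nat_lit 0) (nat_lit 38514290588) (nat_lit 116) (nat_lit 5) (nat_lit 118) (nat_lit 4) (nat_lit 116) (nat_lit 4) (nat_lit 421) (nat_lit 333) (nat_lit 266))) (XT.nd (nat_lit 78) (nat_lit 152) (nat_lit 0) (XT.lf (nat_lit 0) (nat_lit 95539023792) (nat_lit 76) (nat_lit 44782799350) (nat_lit 76) (nat_lit 40819529516) (nat_lit 115) (nat_lit 4) (nat_lit 116) (nat_lit 5) (nat_lit 116) (nat_lit 4) (nat_lit 422) (nat_lit 333) (nat_lit 265)) (XT.lf (nat_lit 0) (nat_lit 57487874656) (nat_lit 152) (nat_lit 79444091094) (nat_lit 0) (nat_lit 53711832138) (nat_lit 113) (nat_lit 5) (nat_lit 115) (nat_lit 4) (nat_lit 113) (nat_lit 4) (nat_lit 423) (nat_lit 333) (nat_lit 264)))))))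
noncomputable def xc69 : XT := (XT.nd (nat_lit 1248) (nat_lit 912) (nat_lit 0) (XT.nd (nat_lit 624) (nat_lit 912) (nat_lit 0) (XT.nd (nat_lit 312) (nat_lit 532) (nat_lit 0) (XT.nd (nat_lit 156) (nat_lit 228) (nat_lit 0) (XT.nd (nat_lit 78) (nat_lit 152) (nat_lit 0) (XT.lf (nat_lit 0) (nat_lit 128455939742) (nat_lit 76) (nat_lit 37991786487) (nat_lit 76) (nat_lit 34214355249) (nat_lit 112) (nat_lit 4) (nat_lit 113) (nat_lit 5) (nat_lit 113) (nat_lit 4) (nat_lit 424) (nat_lit 333) (nat_lit 263)) (XT.lf (nat_lit 0) (nat_lit 75110320735) (nat_lit 152) (nat_lit 64563616914) (nat_lit 0) (nat_lit 71511542553) (nat_lit 110) (nat_lit 5) (nat_lit 112) (nat_lit 4) (nat_lit 110) (nat_lit 4) (nat_lit 425) (nat_lit 333) (nat_lit 262))) (XT.nd (nat_lit 78) (nat_lit 152) (nat_lit 0) (XT.lf (nat_lit 0) (nat_lit 167003947337) (nat_lit 76) (nat_lit 29447603405) (nat_lit 76) (nat_lit 25847691315) (nat_lit 109) (nat_lit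 4) (nat_lit 110) (nat_lit 5) (nat_lit 110) (nat_lit 4) (nat_lit 426) (nat_lit 333) (nat_lit 261)) (XT.lf (nat_lit 0) (nat_lit 95736128258) (nat_lit 152) (nat_lit 45910528332) (nat_lit 0) (nat_lit 92306640634) (nat_lit 107) (nat_lit 5) (nat_lit 109) (nat_lit 4) (nat_lit 107) (nat_lit 4) (nat_lit 427) (nat_lit 333) (nat_lit 260)))) (XT.nd (nat_lit 156) (nat_lit 304) (nat_lit 0) (XT.nd (nat_lit 78) (nat_lit 152) (nat_lit 0) (XT.lf (nat_lit 0) (nat_lit 212027386244) (nat_lit 76) (nat_lit 18842537513) (nat_lit 76) (nat_lit 15412124037) (nat_lit 106) (nat_lit 4) (nat_lit 107) (nat_lit 5) (nat_lit 107) (nat_lit 4) (nat_lit 428) (nat_lit 333) (nat_lit 259)) (XT.lf (nat_lit 0) (nat_lit 119812004321) (nat_lit 152) (nat_lit 22832143808) (nat_lit 0) (nat_lit 116544127420) (nat_lit 104) (nat_lit 5) (nat_lit 106) (nat_lit 4) (nat_lit 104) (nat_lit 4) (nat_lit 429) (nat_lit 333) (nat_lit 258))) (XT.nd (nat_lit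 78) (nat_lit 228) (nat_lit 0) (XT.lf (nat_lit 0) (nat_lit 264485832265) (nat_lit 76) (nat_lit 5823698775) (nat_lit 76) (nat_lit 2555065905) (nat_lit 103) (nat_lit 4) (nat_lit 104) (nat_lit 5) (nat_lit 104) (nat_lit 4) (nat_lit 430) (nat_lit 333) (nat_lit 257)) (XT.lf (nat_lit 0) (nat_lit 5598882902) (nat_lit 76) (nat_lit 142333998369) (nat_lit 76) (nat_lit 139220348043) (nat_lit 100) (nat_lit 4) (nat_lit 101) (nat_lit 5) (nat_lit 101) (nat_lit 4) (nat_lit 431) (nat_lit 333) (nat_lit 256))))) (XT.nd (nat_lit 312) (nat_lit 456) (nat_lit 0) (XT.nd (nat_lit 156) (nat_lit 228) (nat_lit 0) (XT.nd (nat_lit 78) (nat_lit 76) (nat_lit 0) (XT.lf (nat_lit 0) (nat_lit 13242942526) (nat_lit 152) (nat_lit 278771627727) (nat_lit 0) (nat_lit 10276973397) (nat_lit 98) (nat_lit 5) (nat_lit 100) (nat_lit 4) (nat_lit 98) (nat_lit 4) (nat_lit 432) (nat_lit 333) (nat_lit 255)) (XT.lf (nat_lit 0) (nat_lit 41014280393)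 (nat_lit 76) (nat_lit 140038835027) (nat_lit 76) (nat_lit 137072321578) (nat_lit 97) (nat_lit 4) (nat_lit 98) (nat_lit 5) (nat_lit 98) (nat_lit 4) (nat_lit 433) (nat_lit 333) (nat_lit 254))) (XT.nd (nat_lit 78) (nat_lit 76) (nat_lit 0) (XT.lf (nat_lit 0) (nat_lit 32528793511) (nat_lit 152) (nat_lit 272656415560) (nat_lit 0) (nat_lit 29703062606) (nat_lit 95) (nat_lit 5) (nat_lit 97) (nat_lit 4) (nat_lit 95) (nat_lit 4) (nat_lit 434) (nat_lit 333) (nat_lit 253)) (XT.lf (nat_lit 0) (nat_lit 83671276978) (nat_lit 76) (nat_lit 135802876029) (nat_lit 76) (nat_lit 132976700680) (nat_lit 94) (nat_lit 4) (nat_lit 95) (nat_lit 5) (nat_lit 95) (nat_lit 4) (nat_lit 435) (nat_lit 333) (nat_lit 252)))) (XT.nd (nat_lit 156) (nat_lit 228) (nat_lit 0) (XT.nd (nat_lit 78) (nat_lit 76) (nat_lit 0) (XT.lf (nat_lit 0) (nat_lit 55693095288) (nat_lit 152) (nat_lit 262318474843) (nat_lit 0) (nat_lit 53001107791) (nat_lit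 92) (nat_lit 5) (nat_lit 94) (nat_lit 4) (nat_lit 92) (nat_lit 4) (nat_lit 436) (nat_lit 333) (nat_lit 251)) (XT.lf (nat_lit 0) (nat_lit 134726394936) (nat_lit 76) (nat_lit 129229252421) (nat_lit 76) (nat_lit 126536902029) (nat_lit 91) (nat_lit 4) (nat_lit 92) (nat_lit 5) (nat_lit 92) (nat_lit 4) (nat_lit 437) (nat_lit 333) (nat_lit 250))) (XT.nd (nat_lit 78) (nat_lit 76) (nat_lit 0) (XT.lf (nat_lit 0) (nat_lit 83349270379) (nat_lit 152) (nat_lit 246912526347) (nat_lit 0) (nat_lit 80784807135) (nat_lit 89) (nat_lit 5) (nat_lit 91) (nat_lit 4) (nat_lit 89) (nat_lit 4) (nat_lit 438) (nat_lit 333) (nat_lit 249)) (XT.lf (nat_lit 0) (nat_lit 195499859359) (nat_lit 76) (nat_lit 119858939582) (nat_lit 76) (nat_lit 117294180029) (nat_lit 88) (nat_lit 4) (nat_lit 89) (nat_lit 5) (nat_lit 89) (nat_lit 4) (nat_lit 439) (nat_lit 333) (nat_lit 248)))))) (XT.nd (nat_lit 46254) (nat_lit 0) (nat_lit 12236) (XT.nd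 (nat_lit 312) (nat_lit 456) (nat_lit 0) (XT.nd (nat_lit 156) (nat_lit 228) (nat_lit 0) (XT.nd (nat_lit 78) (nat_lit 76) (nat_lit 0) (XT.lf (nat_lit 0) (nat_lit 116197250349) (nat_lit 152) (nat_lit 225461686773) (nat_lit 0) (nat_lit 113754360909) (nat_lit 86) (nat_lit 5) (nat_lit 88) (nat_lit 4) (nat_lit 86) (nat_lit 4) (nat_lit 440) (nat_lit 333) (nat_lit 247)) (XT.lf (nat_lit 0) (nat_lit 267497425158) (nat_lit 76) (nat_lit 107161982310) (nat_lit 76) (nat_lit 104718850930) (nat_lit 85) (nat_lit 4) (nat_lit 86) (nat_lit 5) (nat_lit 86) (nat_lit 4) (nat_lit 441) (nat_lit 333) (nat_lit 246))) (XT.nd (nat_lit 78) (nat_lit 76) (nat_lit 0) (XT.lf (nat_lit 0) (nat_lit 155034980919) (nat_lit 152) (nat_lit 196838953733) (nat_lit 0) (nat_lit 152707975778) (nat_lit 83) (nat_lit 5) (nat_lit 85) (nat_lit 4) (nat_lit 83) (nat_lit 4) (nat_lit 442) (nat_lit 333) (nat_lit 245)) (XT.lf (nat_lit 0) (nat_lit 352434998812)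 (nat_lit 76) (nat_lit 90527554869) (nat_lit 76) (nat_lit 88200352181) (nat_lit 82) (nat_lit 4) (nat_lit 83) (nat_lit 5) (nat_lit 83) (nat_lit 4) (nat_lit 443) (nat_lit 333) (nat_lit 244)))) (XT.nd (nat_lit 156) (nat_lit 228) (nat_lit 0) (XT.nd (nat_lit 78) (nat_lit 76) (nat_lit 0) (XT.lf (nat_lit 0) (nat_lit 200771397589) (nat_lit 152) (nat_lit 159746237936) (nat_lit 0) (nat_lit 198554839873) (nat_lit 80) (nat_lit 5) (nat_lit 82) (nat_lit 4) (nat_lit 80) (nat_lit 4) (nat_lit 444) (nat_lit 333) (nat_lit 243)) (XT.lf (nat_lit 0) (nat_lit 452266403169) (nat_lit 76) (nat_lit 69252707145) (nat_lit 76) (nat_lit 67035988129) (nat_lit 79) (nat_lit 4) (nat_lit 80) (nat_lit 5) (nat_lit 80) (nat_lit 4) (nat_lit 445) (nat_lit 333) (nat_lit 242))) (XT.nd (nat_lit 78) (nat_lit 76) (nat_lit 0) (XT.lf (nat_lit 0) (nat_lit 254441054908) (nat_lit 152) (nat_lit 112690629535) (nat_lit 0) (nat_lit 252329751701) (nat_lit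 77) (nat_lit 5) (nat_lit 79) (nat_lit 4) (nat_lit 77) (nat_lit 4) (nat_lit 446) (nat_lit 333) (nat_lit 241)) (XT.lf (nat_lit 0) (nat_lit 569214676223) (nat_lit 76) (nat_lit 42529629539) (nat_lit 76) (nat_lit 40418194628) (nat_lit 76) (nat_lit 4) (nat_lit 77) (nat_lit 5) (nat_lit 77) (nat_lit 4) (nat_lit 447) (nat_lit 333) (nat_lit 240))))) (XT.nd (nat_lit 312) (nat_lit 1748) (nat_lit 0) (XT.nd (nat_lit 156) (nat_lit 988) (nat_lit 0) (XT.nd (nat_lit 78) (nat_lit 456) (nat_lit 0) (XT.lf (nat_lit 0) (nat_lit 953154673) (nat_lit 456) (nat_lit 1829909185) (nat_lit 0) (nat_lit 953154673) (nat_lit 279) (nat_lit 5) (nat_lit 285) (nat_lit 4) (nat_lit 279) (nat_lit 4) (nat_lit 352) (nat_lit 334) (nat_lit 334)) (XT.lf (nat_lit 0) (nat_lit 264130525) (nat_lit 456) (nat_lit 1702615984) (nat_lit 76) (nat_lit 5688610984) (nat_lit 273) (nat_lit 5) (nat_lit 279) (nat_lit 5) (nat_lit 274) (nat_lit 4) (nat_lit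 353) (nat_lit 334) (nat_lit 333))) (XT.nd (nat_lit 78) (nat_lit 380) (nat_lit 0) (XT.lf (nat_lit 0) (nat_lit 402558769) (nat_lit 304) (nat_lit 5785407087) (nat_lit 304) (nat_lit 1669274981) (nat_lit 265) (nat_lit 4) (nat_lit 269) (nat_lit 5) (nat_lit 269) (nat_lit 4) (nat_lit 354) (nat_lit 334) (nat_lit 332)) (XT.lf (nat_lit 0) (nat_lit 2727418144) (nat_lit 304) (nat_lit 1504715521) (nat_lit 380) (nat_lit 3846317030) (nat_lit 260) (nat_lit 5) (nat_lit 264) (nat_lit 5) (nat_lit 265) (nat_lit 4) (nat_lit 355) (nat_lit 334) (nat_lit 331)))) (XT.nd (nat_lit 156) (nat_lit 1140) (nat_lit 0) (XT.nd (nat_lit 78) (nat_lit 228) (nat_lit 0) (XT.lf (nat_lit 0) (nat_lit 2034408901) (nat_lit 380) (nat_lit 3110463608) (nat_lit 76) (nat_lit 3175642924) (nat_lit 255) (nat_lit 5) (nat_lit 260) (nat_lit 5) (nat_lit 256) (nat_lit 4) (nat_lit 356) (nat_lit 334) (nat_lit 330)) (XT.lf (nat_lit 0) (nat_lit 7876828216)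 (nat_lit 228) (nat_lit 247048147) (nat_lit 304) (nat_lit 461264285) (nat_lit 252) (nat_lit 5) (nat_lit 255) (nat_lit 5) (nat_lit 256) (nat_lit 4) (nat_lit 357) (nat_lit 334) (nat_lit 329))) (XT.nd (nat_lit 78) (nat_lit 532) (nat_lit 0) (XT.lf (nat_lit 0) (nat_lit 1838871943) (nat_lit 228) (nat_lit 3779351935) (nat_lit 304) (nat_lit 3249399157) (nat_lit 244) (nat_lit 5) (nat_lit 247) (nat_lit 5) (nat_lit 248) (nat_lit 4) (nat_lit 358) (nat_lit 334) (nat_lit 328)) (XT.nd (nat_lit 78) (nat_lit 228) (nat_lit 0) (XT.lf (nat_lit 0) (nat_lit 2827502180) (nat_lit 304) (nat_lit 4584654624) (nat_lit 76) (nat_lit 1761440906) (nat_lit 240) (nat_lit 5) (nat_lit 244) (nat_lit 5) (nat_lit 241) (nat_lit 4) (nat_lit 359) (nat_lit 334) (nat_lit 327)) (XT.lf (nat_lit 0) (nat_lit 7493101167) (nat_lit 228) (nat_lit 1751475843) (nat_lit 304) (nat_lit 258416681) (nat_lit 237) (nat_lit 5) (nat_lit 240) (nat_lit 5) (nat_lit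 241) (nat_lit 4) (nat_lit 360) (nat_lit 334) (nat_lit 326))))))))
noncomputable def xc70 : XT := (XT.nd (nat_lit 1248) (nat_lit 2128) (nat_lit 0) (XT.nd (nat_lit 624) (nat_lit 1520) (nat_lit 0) (XT.nd (nat_lit 312) (nat_lit 836) (nat_lit 0) (XT.nd (nat_lit 156) (nat_lit 380) (nat_lit 0) (XT.nd (nat_lit 78) (nat_lit 304) (nat_lit 0) (XT.lf (nat_lit 0) (nat_lit 673800480) (nat_lit 152) (nat_lit 5441518312) (nat_lit 228) (nat_lit 3738431690) (nat_lit 231) (nat_lit 5) (nat_lit 233) (nat_lit 5) (nat_lit 234) (nat_lit 4) (nat_lit 361) (nat_lit 334) (nat_lit 325)) (XT.lf (nat_lit 0) (nat_lit 2685307789) (nat_lit 304) (nat_lit 6630537982) (nat_lit 76) (nat_lit 913556432) (nat_lit 227) (nat_lit 5) (nat_lit 231) (nat_lit 5) (nat_lit 228) (nat_lit 4) (nat_lit 362) (nat_lit 334) (nat_lit 324))) (XT.nd (nat_lit 78) (nat_lit 228) (nat_lit 0) (XT.lf (nat_lit 0) (nat_lit 6644305869) (nat_lit 152) (nat_lit 2894901254)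 (nat_lit 228) (nat_lit 1090472793) (nat_lit 225) (nat_lit 5) (nat_lit 227) (nat_lit 5) (nat_lit 228) (nat_lit 4) (nat_lit 363) (nat_lit 334) (nat_lit 323)) (XT.lf (nat_lit 0) (nat_lit 5727039687) (nat_lit 228) (nat_lit 1239819094) (nat_lit 76) (nat_lit 4088742345) (nat_lit 222) (nat_lit 5) (nat_lit 225) (nat_lit 5) (nat_lit 223) (nat_lit 4) (nat_lit 364) (nat_lit 334) (nat_lit 322)))) (XT.nd (nat_lit 156) (nat_lit 304) (nat_lit 0) (XT.nd (nat_lit 78) (nat_lit 152) (nat_lit 0) (XT.lf (nat_lit 0) (nat_lit 1554662139) (nat_lit 228) (nat_lit 9778255673) (nat_lit 76) (nat_lit 177243957) (nat_lit 217) (nat_lit 5) (nat_lit 220) (nat_lit 5) (nat_lit 218) (nat_lit 4) (nat_lit 365) (nat_lit 334) (nat_lit 321)) (XT.lf (nat_lit 0) (nat_lit 4816647513) (nat_lit 152) (nat_lit 4129913997) (nat_lit 228) (nat_lit 3042922841) (nat_lit 215) (nat_lit 5) (nat_lit 217) (nat_lit 5) (nat_lit 218) (nat_lit 4) (nat_lit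 366) (nat_lit 334) (nat_lit 320))) (XT.nd (nat_lit 78) (nat_lit 76) (nat_lit 0) (XT.lf (nat_lit 0) (nat_lit 4359154970) (nat_lit 228) (nat_lit 4436041302) (nat_lit 76) (nat_lit 3704601581) (nat_lit 212) (nat_lit 5) (nat_lit 215) (nat_lit 5) (nat_lit 213) (nat_lit 4) (nat_lit 367) (nat_lit 334) (nat_lit 319)) (XT.lf (nat_lit 0) (nat_lit 11495309894) (nat_lit 76) (nat_lit 857682180) (nat_lit 152) (nat_lit 690140051) (nat_lit 211) (nat_lit 5) (nat_lit 212) (nat_lit 5) (nat_lit 213) (nat_lit 4) (nat_lit 368) (nat_lit 334) (nat_lit 318))))) (XT.nd (nat_lit 312) (nat_lit 684) (nat_lit 0) (XT.nd (nat_lit 156) (nat_lit 304) (nat_lit 0) (XT.nd (nat_lit 78) (nat_lit 228) (nat_lit 0) (XT.lf (nat_lit 0) (nat_lit 1433623047) (nat_lit 76) (nat_lit 5886174418) (nat_lit 152) (nat_lit 6294450704) (nat_lit 207) (nat_lit 5) (nat_lit 208) (nat_lit 5) (nat_lit 209) (nat_lit 4) (nat_lit 369) (nat_lit 334) (nat_lit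 317)) (XT.lf (nat_lit 0) (nat_lit 1817305970) (nat_lit 228) (nat_lit 9554812187) (nat_lit 76) (nat_lit 2849212116) (nat_lit 204) (nat_lit 5) (nat_lit 207) (nat_lit 5) (nat_lit 205) (nat_lit 4) (nat_lit 370) (nat_lit 334) (nat_lit 316))) (XT.nd (nat_lit 78) (nat_lit 228) (nat_lit 0) (XT.lf (nat_lit 0) (nat_lit 8007884856) (nat_lit 76) (nat_lit 2536758227) (nat_lit 152) (nat_lit 4317818136) (nat_lit 203) (nat_lit 5) (nat_lit 204) (nat_lit 5) (nat_lit 205) (nat_lit 4) (nat_lit 371) (nat_lit 334) (nat_lit 315)) (XT.lf (nat_lit 0) (nat_lit 4489639603) (nat_lit 228) (nat_lit 4046387121) (nat_lit 76) (nat_lit 7004625581) (nat_lit 200) (nat_lit 5) (nat_lit 203) (nat_lit 5) (nat_lit 201) (nat_lit 4) (nat_lit 372) (nat_lit 334) (nat_lit 314)))) (XT.nd (nat_lit 156) (nat_lit 304) (nat_lit 0) (XT.nd (nat_lit 78) (nat_lit 304) (nat_lit 0) (XT.lf (nat_lit 0) (nat_lit 14033364633) (nat_lit 152) (nat_lit 1068202476)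 (nat_lit 0) (nat_lit 1158845074) (nat_lit 199) (nat_lit 5) (nat_lit 201) (nat_lit 4) (nat_lit 199) (nat_lit 4) (nat_lit 373) (nat_lit 334) (nat_lit 313)) (XT.lf (nat_lit 0) (nat_lit 2034517740) (nat_lit 76) (nat_lit 5353508898) (nat_lit 152) (nat_lit 9628078921) (nat_lit 195) (nat_lit 5) (nat_lit 196) (nat_lit 5) (nat_lit 197) (nat_lit 4) (nat_lit 374) (nat_lit 334) (nat_lit 312))) (XT.nd (nat_lit 78) (nat_lit 76) (nat_lit 0) (XT.lf (nat_lit 0) (nat_lit 130666424) (nat_lit 228) (nat_lit 12427221245) (nat_lit 76) (nat_lit 5259524771) (nat_lit 192) (nat_lit 5) (nat_lit 195) (nat_lit 5) (nat_lit 193) (nat_lit 4) (nat_lit 375) (nat_lit 334) (nat_lit 311)) (XT.lf (nat_lit 0) (nat_lit 8849172822) (nat_lit 76) (nat_lit 1754387217) (nat_lit 152) (nat_lit 8057833482) (nat_lit 191) (nat_lit 5) (nat_lit 192) (nat_lit 5) (nat_lit 193) (nat_lit 4) (nat_lit 376) (nat_lit 334) (nat_lit 310)))))) (XT.nd (nat_lit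 624) (nat_lit 1064) (nat_lit 0) (XT.nd (nat_lit 312) (nat_lit 532) (nat_lit 0) (XT.nd (nat_lit 156) (nat_lit 304) (nat_lit 0) (XT.nd (nat_lit 78) (nat_lit 76) (nat_lit 0) (XT.lf (nat_lit 0) (nat_lit 2622458828) (nat_lit 152) (nat_lit 7068591788) (nat_lit 76) (nat_lit 9862214392) (nat_lit 189) (nat_lit 5) (nat_lit 191) (nat_lit 5) (nat_lit 190) (nat_lit 4) (nat_lit 377) (nat_lit 334) (nat_lit 309)) (XT.lf (nat_lit 0) (nat_lit 14158410886) (nat_lit 152) (nat_lit 4181025649) (nat_lit 0) (nat_lit 2156267717) (nat_lit 188) (nat_lit 5) (nat_lit 190) (nat_lit 4) (nat_lit 188) (nat_lit 4) (nat_lit 378) (nat_lit 334) (nat_lit 308))) (XT.nd (nat_lit 78) (nat_lit 152) (nat_lit 0) (XT.lf (nat_lit 0) (nat_lit 5347078351) (nat_lit 152) (nat_lit 1179625443) (nat_lit 76) (nat_lit 14962514281) (nat_lit 186) (nat_lit 5) (nat_lit 188) (nat_lit 5) (nat_lit 187) (nat_lit 4) (nat_lit 379) (nat_lit 334) (nat_lit 307))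 (XT.lf (nat_lit 0) (nat_lit 2058903364) (nat_lit 76) (nat_lit 16081919014) (nat_lit 76) (nat_lit 4396363598) (nat_lit 184) (nat_lit 4) (nat_lit 185) (nat_lit 5) (nat_lit 185) (nat_lit 4) (nat_lit 380) (nat_lit 334) (nat_lit 306)))) (XT.nd (nat_lit 156) (nat_lit 304) (nat_lit 0) (XT.nd (nat_lit 78) (nat_lit 76) (nat_lit 0) (XT.lf (nat_lit 0) (nat_lit 5500876123) (nat_lit 76) (nat_lit 2938109763) (nat_lit 152) (nat_lit 15202773969) (nat_lit 182) (nat_lit 5) (nat_lit 183) (nat_lit 5) (nat_lit 184) (nat_lit 4) (nat_lit 381) (nat_lit 334) (nat_lit 305)) (XT.lf (nat_lit 0) (nat_lit 9120156166) (nat_lit 76) (nat_lit 13511977321) (nat_lit 76) (nat_lit 2174712713) (nat_lit 181) (nat_lit 4) (nat_lit 182) (nat_lit 5) (nat_lit 182) (nat_lit 4) (nat_lit 382) (nat_lit 334) (nat_lit 304))) (XT.nd (nat_lit 78) (nat_lit 152) (nat_lit 0) (XT.lf (nat_lit 0) (nat_lit 11912404223) (nat_lit 152) (nat_lit 13096815534)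 (nat_lit 0) (nat_lit 1026756317) (nat_lit 179) (nat_lit 5) (nat_lit 181) (nat_lit 4) (nat_lit 179) (nat_lit 4) (nat_lit 383) (nat_lit 334) (nat_lit 303)) (XT.lf (nat_lit 0) (nat_lit 293527184) (nat_lit 152) (nat_lit 10365632956) (nat_lit 76) (nat_lit 16672990876) (nat_lit 177) (nat_lit 5) (nat_lit 179) (nat_lit 5) (nat_lit 178) (nat_lit 4) (nat_lit 384) (nat_lit 334) (nat_lit 302))))) (XT.nd (nat_lit 312) (nat_lit 532) (nat_lit 0) (XT.nd (nat_lit 156) (nat_lit 304) (nat_lit 0) (XT.nd (nat_lit 78) (nat_lit 152) (nat_lit 0) (XT.lf (nat_lit 0) (nat_lit 15844702330) (nat_lit 152) (nat_lit 7524430168) (nat_lit 0) (nat_lit 5327534290) (nat_lit 176) (nat_lit 5) (nat_lit 178) (nat_lit 4) (nat_lit 176) (nat_lit 4) (nat_lit 385) (nat_lit 334) (nat_lit 301)) (XT.lf (nat_lit 0) (nat_lit 2989828690) (nat_lit 152) (nat_lit 4454741232) (nat_lit 76) (nat_lit 22693883783) (nat_lit 174) (nat_lit 5) (nat_lit 176)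 (nat_lit 5) (nat_lit 175) (nat_lit 4) (nat_lit 386) (nat_lit 334) (nat_lit 300))) (XT.nd (nat_lit 78) (nat_lit 228) (nat_lit 0) (XT.lf (nat_lit 0) (nat_lit 20257662869) (nat_lit 152) (nat_lit 1278008084) (nat_lit 0) (nat_lit 10118929835) (nat_lit 173) (nat_lit 5) (nat_lit 175) (nat_lit 4) (nat_lit 173) (nat_lit 4) (nat_lit 387) (nat_lit 334) (nat_lit 299)) (XT.lf (nat_lit 0) (nat_lit 2258843824) (nat_lit 76) (nat_lit 3815329959) (nat_lit 152) (nat_lit 27181532600) (nat_lit 170) (nat_lit 5) (nat_lit 171) (nat_lit 5) (nat_lit 172) (nat_lit 4) (nat_lit 388) (nat_lit 334) (nat_lit 298)))) (XT.nd (nat_lit 156) (nat_lit 304) (nat_lit 0) (XT.nd (nat_lit 78) (nat_lit 152) (nat_lit 0) (XT.lf (nat_lit 0) (nat_lit 5946375111) (nat_lit 76) (nat_lit 19373127820) (nat_lit 76) (nat_lit 9617264658) (nat_lit 169) (nat_lit 4) (nat_lit 170) (nat_lit 5) (nat_lit 170) (nat_lit 4) (nat_lit 389) (nat_lit 334) (nat_lit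 297)) (XT.lf (nat_lit 0) (nat_lit 9663779077) (nat_lit 152) (nat_lit 26720569960) (nat_lit 0) (nat_lit 330115926) (nat_lit 167) (nat_lit 5) (nat_lit 169) (nat_lit 4) (nat_lit 167) (nat_lit 4) (nat_lit 390) (nat_lit 334) (nat_lit 296))) (XT.nd (nat_lit 78) (nat_lit 228) (nat_lit 0) (XT.lf (nat_lit 0) (nat_lit 14160020583) (nat_lit 76) (nat_lit 16897015430) (nat_lit 76) (nat_lit 7524125519) (nat_lit 166) (nat_lit 4) (nat_lit 167) (nat_lit 5) (nat_lit 167) (nat_lit 4) (nat_lit 391) (nat_lit 334) (nat_lit 295)) (XT.nd (nat_lit 78) (nat_lit 76) (nat_lit 0) (XT.lf (nat_lit 0) (nat_lit 13820461227) (nat_lit 152) (nat_lit 21872333042) (nat_lit 0) (nat_lit 4859307909) (nat_lit 164) (nat_lit 5) (nat_lit 166) (nat_lit 4) (nat_lit 164) (nat_lit 4) (nat_lit 392) (nat_lit 334) (nat_lit 294)) (XT.lf (nat_lit 0) (nat_lit 23471958788) (nat_lit 76) (nat_lit 14074452111) (nat_lit 76) (nat_lit 5081269627) (nat_lit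 163) (nat_lit 4) (nat_lit 164) (nat_lit 5) (nat_lit 164) (nat_lit 4) (nat_lit 393) (nat_lit 334) (nat_lit 293))))))))
noncomputable def xc71 : XT := (XT.nd (nat_lit 1248) (nat_lit 2052) (nat_lit 0) (XT.nd (nat_lit 624) (nat_lit 912) (nat_lit 0) (XT.nd (nat_lit 312) (nat_lit 532) (nat_lit 0) (XT.nd (nat_lit 156) (nat_lit 304) (nat_lit 0) (XT.nd (nat_lit 78) (nat_lit 76) (nat_lit 0) (XT.lf (nat_lit 0) (nat_lit 18566064239) (nat_lit 152) (nat_lit 16273536012) (nat_lit 0) (nat_lit 9972884126) (nat_lit 161) (nat_lit 5) (nat_lit 163) (nat_lit 4) (nat_lit 161) (nat_lit 4) (nat_lit 394) (nat_lit 334) (nat_lit 292)) (XT.lf (nat_lit 0) (nat_lit 34053717236) (nat_lit 76) (nat_lit 10842534100) (nat_lit 76) (nat_lit 2223201751) (nat_lit 160) (nat_lit 4) (nat_lit 161) (nat_lit 5) (nat_lit 161) (nat_lit 4) (nat_lit 395) (nat_lit 334) (nat_lit 291))) (XT.nd (nat_lit 78) (nat_lit 152) (nat_lit 0) (XT.lf (nat_lit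 0) (nat_lit 23992324324) (nat_lit 152) (nat_lit 9788277371) (nat_lit 0) (nat_lit 15760374437) (nat_lit 158) (nat_lit 5) (nat_lit 160) (nat_lit 4) (nat_lit 158) (nat_lit 4) (nat_lit 396) (nat_lit 334) (nat_lit 290)) (XT.lf (nat_lit 0) (nat_lit 1088325160) (nat_lit 152) (nat_lit 6022236951) (nat_lit 76) (nat_lit 44992887192) (nat_lit 156) (nat_lit 5) (nat_lit 158) (nat_lit 5) (nat_lit 157) (nat_lit 4) (nat_lit 397) (nat_lit 334) (nat_lit 289)))) (XT.nd (nat_lit 156) (nat_lit 228) (nat_lit 0) (XT.nd (nat_lit 78) (nat_lit 228) (nat_lit 0) (XT.lf (nat_lit 0) (nat_lit 30202729900) (nat_lit 152) (nat_lit 2261559967) (nat_lit 0) (nat_lit 22323610448) (nat_lit 155) (nat_lit 5) (nat_lit 157) (nat_lit 4) (nat_lit 155) (nat_lit 4) (nat_lit 398) (nat_lit 334) (nat_lit 288)) (XT.lf (nat_lit 0) (nat_lit 2185625480) (nat_lit 76) (nat_lit 2732511331) (nat_lit 152) (nat_lit 52711596119) (nat_lit 152) (nat_lit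 5) (nat_lit 153) (nat_lit 5) (nat_lit 154) (nat_lit 4) (nat_lit 399) (nat_lit 334) (nat_lit 287))) (XT.nd (nat_lit 78) (nat_lit 152) (nat_lit 0) (XT.lf (nat_lit 0) (nat_lit 6697617602) (nat_lit 76) (nat_lit 30721065315) (nat_lit 76) (nat_lit 23185161511) (nat_lit 151) (nat_lit 4) (nat_lit 152) (nat_lit 5) (nat_lit 152) (nat_lit 4) (nat_lit 400) (nat_lit 334) (nat_lit 286)) (XT.lf (nat_lit 0) (nat_lit 9552337948) (nat_lit 152) (nat_lit 51838648758) (nat_lit 0) (nat_lit 2361728285) (nat_lit 149) (nat_lit 5) (nat_lit 151) (nat_lit 4) (nat_lit 149) (nat_lit 4) (nat_lit 401) (nat_lit 334) (nat_lit 285))))) (XT.nd (nat_lit 312) (nat_lit 456) (nat_lit 0) (XT.nd (nat_lit 156) (nat_lit 228) (nat_lit 0) (XT.nd (nat_lit 78) (nat_lit 152) (nat_lit 0) (XT.lf (nat_lit 0) (nat_lit 17197747827) (nat_lit 76) (nat_lit 28529193472) (nat_lit 76) (nat_lit 21326029717) (nat_lit 148) (nat_lit 4) (nat_lit 149) (nat_lit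 5) (nat_lit 149) (nat_lit 4) (nat_lit 402) (nat_lit 334) (nat_lit 284)) (XT.lf (nat_lit 0) (nat_lit 15019586989) (nat_lit 152) (nat_lit 47373476274) (nat_lit 0) (nat_lit 8148360403) (nat_lit 146) (nat_lit 5) (nat_lit 148) (nat_lit 4) (nat_lit 146) (nat_lit 4) (nat_lit 403) (nat_lit 334) (nat_lit 283))) (XT.nd (nat_lit 78) (nat_lit 152) (nat_lit 0) (XT.lf (nat_lit 0) (nat_lit 29400550799) (nat_lit 76) (nat_lit 25843246658) (nat_lit 76) (nat_lit 18961769490) (nat_lit 145) (nat_lit 4) (nat_lit 146) (nat_lit 5) (nat_lit 146) (nat_lit 4) (nat_lit 404) (nat_lit 334) (nat_lit 282)) (XT.lf (nat_lit 0) (nat_lit 21402666676) (nat_lit 152) (nat_lit 41827492719) (nat_lit 0) (nat_lit 14839839583) (nat_lit 143) (nat_lit 5) (nat_lit 145) (nat_lit 4) (nat_lit 143) (nat_lit 4) (nat_lit 405) (nat_lit 334) (nat_lit 281)))) (XT.nd (nat_lit 156) (nat_lit 228) (nat_lit 0) (XT.nd (nat_lit 78) (nat_lit 152) (nat_lit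 0) (XT.lf (nat_lit 0) (nat_lit 43575016198) (nat_lit 76) (nat_lit 22566863143) (nat_lit 76) (nat_lit 15995666315) (nat_lit 142) (nat_lit 4) (nat_lit 143) (nat_lit 5) (nat_lit 143) (nat_lit 4) (nat_lit 406) (nat_lit 334) (nat_lit 280)) (XT.lf (nat_lit 0) (nat_lit 28844082725) (nat_lit 152) (nat_lit 34995777178) (nat_lit 0) (nat_lit 22578419313) (nat_lit 140) (nat_lit 5) (nat_lit 142) (nat_lit 4) (nat_lit 140) (nat_lit 4) (nat_lit 407) (nat_lit 334) (nat_lit 279))) (XT.nd (nat_lit 78) (nat_lit 152) (nat_lit 0) (XT.lf (nat_lit 0) (nat_lit 60026914604) (nat_lit 76) (nat_lit 18589330442) (nat_lit 76) (nat_lit 12316833031) (nat_lit 139) (nat_lit 4) (nat_lit 140) (nat_lit 5) (nat_lit 140) (nat_lit 4) (nat_lit 408) (nat_lit 334) (nat_lit 278)) (XT.lf (nat_lit 0) (nat_lit 37505682723) (nat_lit 152) (nat_lit 26643250470) (nat_lit 0) (nat_lit 31525849211) (nat_lit 137) (nat_lit 5) (nat_lit 139) (nat_lit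 4) (nat_lit 137) (nat_lit 4) (nat_lit 409) (nat_lit 334) (nat_lit 277)))))) (XT.nd (nat_lit 624) (nat_lit 1064) (nat_lit 0) (XT.nd (nat_lit 312) (nat_lit 532) (nat_lit 0) (XT.nd (nat_lit 156) (nat_lit 228) (nat_lit 0) (XT.nd (nat_lit 78) (nat_lit 152) (nat_lit 0) (XT.lf (nat_lit 0) (nat_lit 79103634919) (nat_lit 76) (nat_lit 13783633221) (nat_lit 76) (nat_lit 7798219659) (nat_lit 136) (nat_lit 4) (nat_lit 137) (nat_lit 5) (nat_lit 137) (nat_lit 4) (nat_lit 410) (nat_lit 334) (nat_lit 276)) (XT.lf (nat_lit 0) (nat_lit 47571221720) (nat_lit 152) (nat_lit 16500518257) (nat_lit 0) (nat_lit 41865907172) (nat_lit 134) (nat_lit 5) (nat_lit 136) (nat_lit 4) (nat_lit 134) (nat_lit 4) (nat_lit 411) (nat_lit 334) (nat_lit 275))) (XT.nd (nat_lit 78) (nat_lit 152) (nat_lit 0) (XT.lf (nat_lit 0) (nat_lit 101199637716) (nat_lit 76) (nat_lit 8004238406) (nat_lit 76) (nat_lit 2294367674) (nat_lit 133) (nat_lit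 4) (nat_lit 134) (nat_lit 5) (nat_lit 134) (nat_lit 4) (nat_lit 412) (nat_lit 334) (nat_lit 274)) (XT.lf (nat_lit 0) (nat_lit 59249248429) (nat_lit 152) (nat_lit 4259169043) (nat_lit 0) (nat_lit 53807258504) (nat_lit 131) (nat_lit 5) (nat_lit 133) (nat_lit 4) (nat_lit 131) (nat_lit 4) (nat_lit 413) (nat_lit 334) (nat_lit 273)))) (XT.nd (nat_lit 156) (nat_lit 228) (nat_lit 0) (XT.nd (nat_lit 78) (nat_lit 76) (nat_lit 0) (XT.lf (nat_lit 0) (nat_lit 3314535186) (nat_lit 76) (nat_lit 958755201) (nat_lit 152) (nat_lit 119206779017) (nat_lit 128) (nat_lit 5) (nat_lit 129) (nat_lit 5) (nat_lit 130) (nat_lit 4) (nat_lit 414) (nat_lit 334) (nat_lit 272)) (XT.lf (nat_lit 0) (nat_lit 10778521247) (nat_lit 76) (nat_lit 62166114039) (nat_lit 76) (nat_lit 56976442873) (nat_lit 127) (nat_lit 4) (nat_lit 128) (nat_lit 5) (nat_lit 128) (nat_lit 4) (nat_lit 415) (nat_lit 334) (nat_lit 271))) (XT.nd (nat_lit 78)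 (nat_lit 76) (nat_lit 0) (XT.lf (nat_lit 0) (nat_lit 12394859950) (nat_lit 152) (nat_lit 116900594960) (nat_lit 0) (nat_lit 7449423049) (nat_lit 125) (nat_lit 5) (nat_lit 127) (nat_lit 4) (nat_lit 125) (nat_lit 4) (nat_lit 416) (nat_lit 334) (nat_lit 270)) (XT.lf (nat_lit 0) (nat_lit 28905863232) (nat_lit 76) (nat_lit 59966255311) (nat_lit 76) (nat_lit 55018139768) (nat_lit 124) (nat_lit 4) (nat_lit 125) (nat_lit 5) (nat_lit 125) (nat_lit 4) (nat_lit 417) (nat_lit 334) (nat_lit 269))))) (XT.nd (nat_lit 312) (nat_lit 608) (nat_lit 0) (XT.nd (nat_lit 156) (nat_lit 228) (nat_lit 0) (XT.nd (nat_lit 78) (nat_lit 76) (nat_lit 0) (XT.lf (nat_lit 0) (nat_lit 22115688900) (nat_lit 152) (nat_lit 111930687991) (nat_lit 0) (nat_lit 17400835790) (nat_lit 122) (nat_lit 5) (nat_lit 124) (nat_lit 4) (nat_lit 122) (nat_lit 4) (nat_lit 418) (nat_lit 334) (nat_lit 268)) (XT.lf (nat_lit 0) (nat_lit 50457449329)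 (nat_lit 76) (nat_lit 56817062361) (nat_lit 76) (nat_lit 52100022104) (nat_lit 121) (nat_lit 4) (nat_lit 122) (nat_lit 5) (nat_lit 122) (nat_lit 4) (nat_lit 419) (nat_lit 334) (nat_lit 267))) (XT.nd (nat_lit 78) (nat_lit 76) (nat_lit 0) (XT.lf (nat_lit 0) (nat_lit 33672790153) (nat_lit 152) (nat_lit 104892121141) (nat_lit 0) (nat_lit 29178442161) (nat_lit 119) (nat_lit 5) (nat_lit 121) (nat_lit 4) (nat_lit 119) (nat_lit 4) (nat_lit 420) (nat_lit 334) (nat_lit 266)) (XT.lf (nat_lit 0) (nat_lit 75975618613) (nat_lit 76) (nat_lit 52529177002) (nat_lit 76) (nat_lit 48033043176) (nat_lit 118) (nat_lit 4) (nat_lit 119) (nat_lit 5) (nat_lit 119) (nat_lit 4) (nat_lit 421) (nat_lit 334) (nat_lit 265)))) (XT.nd (nat_lit 156) (nat_lit 380) (nat_lit 0) (XT.nd (nat_lit 78) (nat_lit 76) (nat_lit 0) (XT.lf (nat_lit 0) (nat_lit 47353496601) (nat_lit 152) (nat_lit 95382320926) (nat_lit 0) (nat_lit 43069889577)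 (nat_lit 116) (nat_lit 5) (nat_lit 118) (nat_lit 4) (nat_lit 116) (nat_lit 4) (nat_lit 422) (nat_lit 334) (nat_lit 264)) (XT.lf (nat_lit 0) (nat_lit 106078554757) (nat_lit 76) (nat_lit 46884205857) (nat_lit 76) (nat_lit 42599140676) (nat_lit 115) (nat_lit 4) (nat_lit 116) (nat_lit 5) (nat_lit 116) (nat_lit 4) (nat_lit 423) (nat_lit 334) (nat_lit 263))) (XT.nd (nat_lit 78) (nat_lit 228) (nat_lit 0) (XT.lf (nat_lit 0) (nat_lit 63485200506) (nat_lit 152) (nat_lit 82937286224) (nat_lit 0) (nat_lit 59402900195) (nat_lit 113) (nat_lit 5) (nat_lit 115) (nat_lit 4) (nat_lit 113) (nat_lit 4) (nat_lit 424) (nat_lit 334) (nat_lit 262)) (XT.nd (nat_lit 78) (nat_lit 152) (nat_lit 0) (XT.lf (nat_lit 0) (nat_lit 141470353611) (nat_lit 76) (nat_lit 39630656017) (nat_lit 76) (nat_lit 35547165103) (nat_lit 112) (nat_lit 4) (nat_lit 113) (nat_lit 5) (nat_lit 113) (nat_lit 4) (nat_lit 425) (nat_lit 334) (nat_lit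 261)) (XT.lf (nat_lit 0) (nat_lit 82440661949) (nat_lit 152) (nat_lit 67023007824) (nat_lit 0) (nat_lit 78550573068) (nat_lit 110) (nat_lit 5) (nat_lit 112) (nat_lit 4) (nat_lit 110) (nat_lit 4) (nat_lit 426) (nat_lit 334) (nat_lit 260))))))))
noncomputable def xc72 : XT := (XT.nd (nat_lit 1248) (nat_lit 608) (nat_lit 0) (XT.nd (nat_lit 624) (nat_lit 912) (nat_lit 0) (XT.nd (nat_lit 312) (nat_lit 532) (nat_lit 0) (XT.nd (nat_lit 156) (nat_lit 228) (nat_lit 0) (XT.nd (nat_lit 78) (nat_lit 152) (nat_lit 0) (XT.lf (nat_lit 0) (nat_lit 182952375210) (nat_lit 76) (nat_lit 30479332789) (nat_lit 76) (nat_lit 26588271763) (nat_lit 109) (nat_lit 4) (nat_lit 110) (nat_lit 5) (nat_lit 110) (nat_lit 4) (nat_lit 427) (nat_lit 334) (nat_lit 259)) (XT.lf (nat_lit 0) (nat_lit 104643992403) (nat_lit 152) (nat_lit 47025757177) (nat_lit 0) (nat_lit 100937362728) (nat_lit 107) (nat_lit 5) (nat_lit 109) (nat_lit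 4) (nat_lit 107) (nat_lit 4) (nat_lit 428) (nat_lit 334) (nat_lit 258))) (XT.nd (nat_lit 78) (nat_lit 152) (nat_lit 0) (XT.lf (nat_lit 0) (nat_lit 231436039803) (nat_lit 76) (nat_lit 19098131293) (nat_lit 76) (nat_lit 15390707850) (nat_lit 106) (nat_lit 4) (nat_lit 107) (nat_lit 5) (nat_lit 107) (nat_lit 4) (nat_lit 429) (nat_lit 334) (nat_lit 257)) (XT.lf (nat_lit 0) (nat_lit 130577397389) (nat_lit 152) (nat_lit 22241100620) (nat_lit 0) (nat_lit 127045817948) (nat_lit 104) (nat_lit 5) (nat_lit 106) (nat_lit 4) (nat_lit 104) (nat_lit 4) (nat_lit 430) (nat_lit 334) (nat_lit 256)))) (XT.nd (nat_lit 156) (nat_lit 228) (nat_lit 0) (XT.nd (nat_lit 78) (nat_lit 228) (nat_lit 0) (XT.lf (nat_lit 0) (nat_lit 287957246950) (nat_lit 76) (nat_lit 5106145192) (nat_lit 76) (nat_lit 1573917628) (nat_lit 103) (nat_lit 4) (nat_lit 104) (nat_lit 5) (nat_lit 104) (nat_lit 4) (nat_lit 431) (nat_lit 334) (nat_lit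 255)) (XT.lf (nat_lit 0) (nat_lit 8407618784) (nat_lit 76) (nat_lit 152512420153) (nat_lit 76) (nat_lit 149147822365) (nat_lit 100) (nat_lit 4) (nat_lit 101) (nat_lit 5) (nat_lit 101) (nat_lit 4) (nat_lit 432) (nat_lit 334) (nat_lit 254))) (XT.nd (nat_lit 78) (nat_lit 76) (nat_lit 0) (XT.lf (nat_lit 0) (nat_lit 15441204519) (nat_lit 152) (nat_lit 298740399620) (nat_lit 0) (nat_lit 12236321673) (nat_lit 98) (nat_lit 5) (nat_lit 100) (nat_lit 4) (nat_lit 98) (nat_lit 4) (nat_lit 433) (nat_lit 334) (nat_lit 253)) (XT.lf (nat_lit 0) (nat_lit 46526993623) (nat_lit 76) (nat_lit 150099681170) (nat_lit 76) (nat_lit 146894331657) (nat_lit 97) (nat_lit 4) (nat_lit 98) (nat_lit 5) (nat_lit 98) (nat_lit 4) (nat_lit 434) (nat_lit 334) (nat_lit 252))))) (XT.nd (nat_lit 312) (nat_lit 456) (nat_lit 0) (XT.nd (nat_lit 156) (nat_lit 228) (nat_lit 0) (XT.nd (nat_lit 78) (nat_lit 76) (nat_lit 0) (XT.lf (nat_lit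 0) (nat_lit 36207465120) (nat_lit 152) (nat_lit 292263710110) (nat_lit 0) (nat_lit 33154339775) (nat_lit 95) (nat_lit 5) (nat_lit 97) (nat_lit 4) (nat_lit 95) (nat_lit 4) (nat_lit 435) (nat_lit 334) (nat_lit 251)) (XT.lf (nat_lit 0) (nat_lit 92474361713) (nat_lit 76) (nat_lit 145587294063) (nat_lit 76) (nat_lit 142533787679) (nat_lit 94) (nat_lit 4) (nat_lit 95) (nat_lit 5) (nat_lit 95) (nat_lit 4) (nat_lit 436) (nat_lit 334) (nat_lit 250))) (XT.nd (nat_lit 78) (nat_lit 76) (nat_lit 0) (XT.lf (nat_lit 0) (nat_lit 61165886966) (nat_lit 152) (nat_lit 281219488353) (nat_lit 0) (nat_lit 58257449634) (nat_lit 92) (nat_lit 5) (nat_lit 94) (nat_lit 4) (nat_lit 92) (nat_lit 4) (nat_lit 437) (nat_lit 334) (nat_lit 249)) (XT.lf (nat_lit 0) (nat_lit 147498382723) (nat_lit 76) (nat_lit 138546831655) (nat_lit 76) (nat_lit 135638083199) (nat_lit 91) (nat_lit 4) (nat_lit 92) (nat_lit 5) (nat_lit 92) (nat_lit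 4) (nat_lit 438) (nat_lit 334) (nat_lit 248)))) (XT.nd (nat_lit 156) (nat_lit 228) (nat_lit 0) (XT.nd (nat_lit 78) (nat_lit 76) (nat_lit 0) (XT.lf (nat_lit 0) (nat_lit 90978775907) (nat_lit 152) (nat_lit 264695213146) (nat_lit 0) (nat_lit 88208264922) (nat_lit 89) (nat_lit 5) (nat_lit 91) (nat_lit 4) (nat_lit 89) (nat_lit 4) (nat_lit 439) (nat_lit 334) (nat_lit 247)) (XT.lf (nat_lit 0) (nat_lit 213024535914) (nat_lit 76) (nat_lit 128482729143) (nat_lit 76) (nat_lit 125711964121) (nat_lit 88) (nat_lit 4) (nat_lit 89) (nat_lit 5) (nat_lit 89) (nat_lit 4) (nat_lit 440) (nat_lit 334) (nat_lit 246))) (XT.nd (nat_lit 78) (nat_lit 76) (nat_lit 0) (XT.lf (nat_lit 0) (nat_lit 126401878421) (nat_lit 152) (nat_lit 241636210478) (nat_lit 0) (nat_lit 123762830573) (nat_lit 86) (nat_lit 5) (nat_lit 88) (nat_lit 4) (nat_lit 86) (nat_lit 4) (nat_lit 441) (nat_lit 334) (nat_lit 245)) (XT.lf (nat_lit 0) (nat_lit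 290678692285) (nat_lit 76) (nat_lit 114822807535) (nat_lit 76) (nat_lit 112183552262) (nat_lit 85) (nat_lit 4) (nat_lit 86) (nat_lit 5) (nat_lit 86) (nat_lit 4) (nat_lit 442) (nat_lit 334) (nat_lit 244)))))) (XT.nd (nat_lit 46098) (nat_lit 0) (nat_lit 12160) (XT.nd (nat_lit 312) (nat_lit 152) (nat_lit 0) (XT.nd (nat_lit 156) (nat_lit 228) (nat_lit 0) (XT.nd (nat_lit 78) (nat_lit 76) (nat_lit 0) (XT.lf (nat_lit 0) (nat_lit 168296806462) (nat_lit 152) (nat_lit 210825658352) (nat_lit 0) (nat_lit 165783047097) (nat_lit 83) (nat_lit 5) (nat_lit 85) (nat_lit 4) (nat_lit 83) (nat_lit 4) (nat_lit 443) (nat_lit 334) (nat_lit 243)) (XT.lf (nat_lit 0) (nat_lit 382313705051) (nat_lit 76) (nat_lit 96907538856) (nat_lit 76) (nat_lit 94393610127) (nat_lit 82) (nat_lit 4) (nat_lit 83) (nat_lit 5) (nat_lit 83) (nat_lit 4) (nat_lit 444) (nat_lit 334) (nat_lit 242))) (XT.nd (nat_lit 78) (nat_lit 76) (nat_lit 0)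 (XT.lf (nat_lit 0) (nat_lit 217645050512) (nat_lit 152) (nat_lit 170861942540) (nat_lit 0) (nat_lit 215250683323) (nat_lit 80) (nat_lit 5) (nat_lit 82) (nat_lit 4) (nat_lit 80) (nat_lit 4) (nat_lit 445) (nat_lit 334) (nat_lit 241)) (XT.lf (nat_lit 0) (nat_lit 490039394684) (nat_lit 76) (nat_lit 73977892359) (nat_lit 76) (nat_lit 71583386881) (nat_lit 79) (nat_lit 4) (nat_lit 80) (nat_lit 5) (nat_lit 80) (nat_lit 4) (nat_lit 446) (nat_lit 334) (nat_lit 240)))) (XT.nd (nat_lit 45630) (nat_lit 0) (nat_lit 15352) (XT.nd (nat_lit 45552) (nat_lit 0) (nat_lit 16264) (XT.lf (nat_lit 0) (nat_lit 275563778615) (nat_lit 152) (nat_lit 120133025196) (nat_lit 0) (nat_lit 273283175260) (nat_lit 77) (nat_lit 5) (nat_lit 79) (nat_lit 4) (nat_lit 77) (nat_lit 4) (nat_lit 447) (nat_lit 334) (nat_lit 239)) (XT.lf (nat_lit 0) (nat_lit 84638617) (nat_lit 836) (nat_lit 3409828709) (nat_lit 0) (nat_lit 84638617) (nat_lit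 291) (nat_lit 5) (nat_lit 302) (nat_lit 4) (nat_lit 291) (nat_lit 4) (nat_lit 350) (nat_lit 335) (nat_lit 335))) (XT.nd (nat_lit 78) (nat_lit 456) (nat_lit 0) (XT.lf (nat_lit 0) (nat_lit 1855971393) (nat_lit 456) (nat_lit 3999322880) (nat_lit 456) (nat_lit 1454532121) (nat_lit 285) (nat_lit 4) (nat_lit 291) (nat_lit 5) (nat_lit 291) (nat_lit 4) (nat_lit 351) (nat_lit 335) (nat_lit 334)) (XT.lf (nat_lit 0) (nat_lit 3567708093) (nat_lit 380) (nat_lit 563407317) (nat_lit 456) (nat_lit 3351261862) (nat_lit 279) (nat_lit 5) (nat_lit 284) (nat_lit 5) (nat_lit 285) (nat_lit 4) (nat_lit 352) (nat_lit 335) (nat_lit 333))))) (XT.nd (nat_lit 312) (nat_lit 1368) (nat_lit 0) (XT.nd (nat_lit 156) (nat_lit 1064) (nat_lit 0) (XT.nd (nat_lit 78) (nat_lit 304) (nat_lit 0) (XT.lf (nat_lit 0) (nat_lit 2196023779) (nat_lit 456) (nat_lit 2243700209) (nat_lit 76) (nat_lit 3234448854) (nat_lit 273) (nat_lit 5) (nat_lit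 279) (nat_lit 5) (nat_lit 274) (nat_lit 4) (nat_lit 353) (nat_lit 335) (nat_lit 332)) (XT.lf (nat_lit 0) (nat_lit 7491805587) (nat_lit 304) (nat_lit 391752704) (nat_lit 380) (nat_lit 4312935) (nat_lit 269) (nat_lit 5) (nat_lit 273) (nat_lit 5) (nat_lit 274) (nat_lit 4) (nat_lit 354) (nat_lit 335) (nat_lit 331))) (XT.nd (nat_lit 78) (nat_lit 380) (nat_lit 0) (XT.lf (nat_lit 0) (nat_lit 1592960423) (nat_lit 304) (nat_lit 4039338409) (nat_lit 380) (nat_lit 2486057901) (nat_lit 260) (nat_lit 5) (nat_lit 264) (nat_lit 5) (nat_lit 265) (nat_lit 4) (nat_lit 355) (nat_lit 335) (nat_lit 330)) (XT.lf (nat_lit 0) (nat_lit 3113531285) (nat_lit 380) (nat_lit 4592665130) (nat_lit 76) (nat_lit 665043181) (nat_lit 255) (nat_lit 5) (nat_lit 260) (nat_lit 5) (nat_lit 256) (nat_lit 4) (nat_lit 356) (nat_lit 335) (nat_lit 329)))) (XT.nd (nat_lit 156) (nat_lit 760) (nat_lit 0) (XT.nd (nat_lit 78) (nat_lit 304) (nat_lit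 0) (XT.lf (nat_lit 0) (nat_lit 352690959) (nat_lit 304) (nat_lit 2541666078) (nat_lit 76) (nat_lit 5750879604) (nat_lit 251) (nat_lit 5) (nat_lit 255) (nat_lit 5) (nat_lit 252) (nat_lit 5) (nat_lit 357) (nat_lit 335) (nat_lit 328)) (XT.lf (nat_lit 0) (nat_lit 6153388066) (nat_lit 380) (nat_lit 379245918) (nat_lit 76) (nat_lit 2407926349) (nat_lit 247) (nat_lit 5) (nat_lit 252) (nat_lit 5) (nat_lit 248) (nat_lit 4) (nat_lit 358) (nat_lit 335) (nat_lit 327))) (XT.nd (nat_lit 78) (nat_lit 228) (nat_lit 0) (XT.lf (nat_lit 0) (nat_lit 1990440335) (nat_lit 228) (nat_lit 1050937621) (nat_lit 304) (nat_lit 6216474067) (nat_lit 240) (nat_lit 5) (nat_lit 243) (nat_lit 5) (nat_lit 244) (nat_lit 5) (nat_lit 359) (nat_lit 335) (nat_lit 326)) (XT.lf (nat_lit 0) (nat_lit 4501608102) (nat_lit 228) (nat_lit 4742904799) (nat_lit 304) (nat_lit 353432099) (nat_lit 237) (nat_lit 5) (nat_lit 240) (nat_lit 5) (nat_lit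 241) (nat_lit 4) (nat_lit 360) (nat_lit 335) (nat_lit 325)))))))
noncomputable def xc73 : XT := (XT.nd (nat_lit 1248) (nat_lit 2128) (nat_lit 0) (XT.nd (nat_lit 624) (nat_lit 1444) (nat_lit 0) (XT.nd (nat_lit 312) (nat_lit 836) (nat_lit 0) (XT.nd (nat_lit 156) (nat_lit 608) (nat_lit 0) (XT.nd (nat_lit 78) (nat_lit 228) (nat_lit 0) (XT.lf (nat_lit 0) (nat_lit 5765190668) (nat_lit 304) (nat_lit 2822511074) (nat_lit 76) (nat_lit 1373981912) (nat_lit 233) (nat_lit 5) (nat_lit 237) (nat_lit 5) (nat_lit 234) (nat_lit 4) (nat_lit 361) (nat_lit 335) (nat_lit 324)) (XT.lf (nat_lit 0) (nat_lit 1979384102) (nat_lit 228) (nat_lit 425569067) (nat_lit 76) (nat_lit 7945865946) (nat_lit 230) (nat_lit 5) (nat_lit 233) (nat_lit 5) (nat_lit 231) (nat_lit 5) (nat_lit 362) (nat_lit 335) (nat_lit 323))) (XT.nd (nat_lit 78) (nat_lit 228) (nat_lit 0) (XT.lf (nat_lit 0) (nat_lit 2150105027) (nat_lit 152) (nat_lit 6429359990)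 (nat_lit 228) (nat_lit 2184322732) (nat_lit 225) (nat_lit 5) (nat_lit 227) (nat_lit 5) (nat_lit 228) (nat_lit 4) (nat_lit 363) (nat_lit 335) (nat_lit 322)) (XT.lf (nat_lit 0) (nat_lit 4397736286) (nat_lit 228) (nat_lit 6320633878) (nat_lit 76) (nat_lit 485715874) (nat_lit 222) (nat_lit 5) (nat_lit 225) (nat_lit 5) (nat_lit 223) (nat_lit 4) (nat_lit 364) (nat_lit 335) (nat_lit 321)))) (XT.nd (nat_lit 156) (nat_lit 456) (nat_lit 0) (XT.nd (nat_lit 78) (nat_lit 228) (nat_lit 0) (XT.lf (nat_lit 0) (nat_lit 7743151619) (nat_lit 152) (nat_lit 3801023959) (nat_lit 228) (nat_lit 127925003) (nat_lit 220) (nat_lit 5) (nat_lit 222) (nat_lit 5) (nat_lit 223) (nat_lit 4) (nat_lit 365) (nat_lit 335) (nat_lit 320)) (XT.lf (nat_lit 0) (nat_lit 6939482244) (nat_lit 228) (nat_lit 1455380653) (nat_lit 76) (nat_lit 3773089456) (nat_lit 217) (nat_lit 5) (nat_lit 220) (nat_lit 5) (nat_lit 218) (nat_lit 4) (nat_lit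 366) (nat_lit 335) (nat_lit 319))) (XT.nd (nat_lit 78) (nat_lit 76) (nat_lit 0) (XT.lf (nat_lit 0) (nat_lit 1221436500) (nat_lit 152) (nat_lit 705302007) (nat_lit 228) (nat_lit 10769074492) (nat_lit 212) (nat_lit 5) (nat_lit 214) (nat_lit 5) (nat_lit 215) (nat_lit 5) (nat_lit 367) (nat_lit 335) (nat_lit 318)) (XT.lf (nat_lit 0) (nat_lit 4014732744) (nat_lit 76) (nat_lit 5657254262) (nat_lit 152) (nat_lit 3579589694) (nat_lit 211) (nat_lit 5) (nat_lit 212) (nat_lit 5) (nat_lit 213) (nat_lit 4) (nat_lit 368) (nat_lit 335) (nat_lit 317))))) (XT.nd (nat_lit 312) (nat_lit 684) (nat_lit 0) (XT.nd (nat_lit 156) (nat_lit 456) (nat_lit 0) (XT.nd (nat_lit 78) (nat_lit 76) (nat_lit 0) (XT.lf (nat_lit 0) (nat_lit 4177700069) (nat_lit 228) (nat_lit 6867905206) (nat_lit 76) (nat_lit 2796599499) (nat_lit 208) (nat_lit 5) (nat_lit 211) (nat_lit 5) (nat_lit 209) (nat_lit 4) (nat_lit 369) (nat_lit 335) (nat_lit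 316)) (XT.lf (nat_lit 0) (nat_lit 10081047696) (nat_lit 76) (nat_lit 2532610492) (nat_lit 152) (nat_lit 1854315988) (nat_lit 207) (nat_lit 5) (nat_lit 208) (nat_lit 5) (nat_lit 209) (nat_lit 4) (nat_lit 370) (nat_lit 335) (nat_lit 315))) (XT.nd (nat_lit 78) (nat_lit 228) (nat_lit 0) (XT.lf (nat_lit 0) (nat_lit 6582053818) (nat_lit 228) (nat_lit 1836480111) (nat_lit 76) (nat_lit 6709534597) (nat_lit 204) (nat_lit 5) (nat_lit 207) (nat_lit 5) (nat_lit 205) (nat_lit 4) (nat_lit 371) (nat_lit 335) (nat_lit 314)) (XT.lf (nat_lit 0) (nat_lit 946460054) (nat_lit 152) (nat_lit 14875555218) (nat_lit 152) (nat_lit 7752808) (nat_lit 201) (nat_lit 4) (nat_lit 203) (nat_lit 5) (nat_lit 203) (nat_lit 4) (nat_lit 372) (nat_lit 335) (nat_lit 313)))) (XT.nd (nat_lit 156) (nat_lit 304) (nat_lit 0) (XT.nd (nat_lit 78) (nat_lit 228) (nat_lit 0) (XT.lf (nat_lit 0) (nat_lit 3811543569) (nat_lit 76) (nat_lit 5421424310)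 (nat_lit 152) (nat_lit 7331728755) (nat_lit 199) (nat_lit 5) (nat_lit 200) (nat_lit 5) (nat_lit 201) (nat_lit 4) (nat_lit 373) (nat_lit 335) (nat_lit 312)) (XT.lf (nat_lit 0) (nat_lit 2030876286) (nat_lit 228) (nat_lit 10451837658) (nat_lit 76) (nat_lit 4862453526) (nat_lit 196) (nat_lit 5) (nat_lit 199) (nat_lit 5) (nat_lit 197) (nat_lit 4) (nat_lit 374) (nat_lit 335) (nat_lit 311))) (XT.nd (nat_lit 78) (nat_lit 228) (nat_lit 0) (XT.lf (nat_lit 0) (nat_lit 10102408005) (nat_lit 76) (nat_lit 2053802622) (nat_lit 152) (nat_lit 6012326283) (nat_lit 195) (nat_lit 5) (nat_lit 196) (nat_lit 5) (nat_lit 197) (nat_lit 4) (nat_lit 375) (nat_lit 335) (nat_lit 310)) (XT.lf (nat_lit 0) (nat_lit 4249304998) (nat_lit 228) (nat_lit 5579876625) (nat_lit 76) (nat_lit 9208214549) (nat_lit 192) (nat_lit 5) (nat_lit 195) (nat_lit 5) (nat_lit 193) (nat_lit 4) (nat_lit 376) (nat_lit 335) (nat_lit 309)))))) (XT.nd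 (nat_lit 624) (nat_lit 1140) (nat_lit 0) (XT.nd (nat_lit 312) (nat_lit 456) (nat_lit 0) (XT.nd (nat_lit 156) (nat_lit 304) (nat_lit 0) (XT.nd (nat_lit 78) (nat_lit 152) (nat_lit 0) (XT.lf (nat_lit 0) (nat_lit 15399135504) (nat_lit 152) (nat_lit 2926717758) (nat_lit 0) (nat_lit 1631087208) (nat_lit 191) (nat_lit 5) (nat_lit 193) (nat_lit 4) (nat_lit 191) (nat_lit 4) (nat_lit 377) (nat_lit 335) (nat_lit 308)) (XT.lf (nat_lit 0) (nat_lit 6690892664) (nat_lit 152) (nat_lit 197660872) (nat_lit 76) (nat_lit 14036040817) (nat_lit 189) (nat_lit 5) (nat_lit 191) (nat_lit 5) (nat_lit 190) (nat_lit 4) (nat_lit 378) (nat_lit 335) (nat_lit 307))) (XT.nd (nat_lit 78) (nat_lit 152) (nat_lit 0) (XT.lf (nat_lit 0) (nat_lit 2818596988) (nat_lit 76) (nat_lit 16253904833) (nat_lit 76) (nat_lit 2873787867) (nat_lit 187) (nat_lit 4) (nat_lit 188) (nat_lit 5) (nat_lit 188) (nat_lit 4) (nat_lit 379) (nat_lit 335) (nat_lit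 306)) (XT.lf (nat_lit 0) (nat_lit 5965967366) (nat_lit 76) (nat_lit 3529275723) (nat_lit 152) (nat_lit 13527092507) (nat_lit 185) (nat_lit 5) (nat_lit 186) (nat_lit 5) (nat_lit 187) (nat_lit 4) (nat_lit 380) (nat_lit 335) (nat_lit 305)))) (XT.nd (nat_lit 156) (nat_lit 228) (nat_lit 0) (XT.nd (nat_lit 78) (nat_lit 152) (nat_lit 0) (XT.lf (nat_lit 0) (nat_lit 9315265980) (nat_lit 76) (nat_lit 13902574119) (nat_lit 76) (nat_lit 941033158) (nat_lit 184) (nat_lit 4) (nat_lit 185) (nat_lit 5) (nat_lit 185) (nat_lit 4) (nat_lit 381) (nat_lit 335) (nat_lit 304)) (XT.lf (nat_lit 0) (nat_lit 12637277087) (nat_lit 152) (nat_lit 12519378271) (nat_lit 0) (nat_lit 200286669) (nat_lit 182) (nat_lit 5) (nat_lit 184) (nat_lit 4) (nat_lit 182) (nat_lit 4) (nat_lit 382) (nat_lit 335) (nat_lit 303))) (XT.nd (nat_lit 78) (nat_lit 76) (nat_lit 0) (XT.lf (nat_lit 0) (nat_lit 1195388843) (nat_lit 152) (nat_lit 10072244856)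 (nat_lit 76) (nat_lit 15352148388) (nat_lit 180) (nat_lit 5) (nat_lit 182) (nat_lit 5) (nat_lit 181) (nat_lit 4) (nat_lit 383) (nat_lit 335) (nat_lit 302)) (XT.lf (nat_lit 0) (nat_lit 16229689069) (nat_lit 152) (nat_lit 7493392713) (nat_lit 0) (nat_lit 4227557753) (nat_lit 179) (nat_lit 5) (nat_lit 181) (nat_lit 4) (nat_lit 179) (nat_lit 4) (nat_lit 384) (nat_lit 335) (nat_lit 301))))) (XT.nd (nat_lit 312) (nat_lit 608) (nat_lit 0) (XT.nd (nat_lit 156) (nat_lit 304) (nat_lit 0) (XT.nd (nat_lit 78) (nat_lit 76) (nat_lit 0) (XT.lf (nat_lit 0) (nat_lit 3584120827) (nat_lit 152) (nat_lit 4724741728) (nat_lit 76) (nat_lit 21046504969) (nat_lit 177) (nat_lit 5) (nat_lit 179) (nat_lit 5) (nat_lit 178) (nat_lit 4) (nat_lit 385) (nat_lit 335) (nat_lit 300)) (XT.lf (nat_lit 0) (nat_lit 20281896710) (nat_lit 152) (nat_lit 1829228701) (nat_lit 0) (nat_lit 8722793811) (nat_lit 176) (nat_lit 5) (nat_lit 178)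 (nat_lit 4) (nat_lit 176) (nat_lit 4) (nat_lit 386) (nat_lit 335) (nat_lit 299))) (XT.nd (nat_lit 78) (nat_lit 76) (nat_lit 0) (XT.lf (nat_lit 0) (nat_lit 1357610718) (nat_lit 76) (nat_lit 4971129274) (nat_lit 152) (nat_lit 26065803759) (nat_lit 173) (nat_lit 5) (nat_lit 174) (nat_lit 5) (nat_lit 175) (nat_lit 4) (nat_lit 387) (nat_lit 335) (nat_lit 298)) (XT.lf (nat_lit 0) (nat_lit 4731835586) (nat_lit 76) (nat_lit 20207828290) (nat_lit 76) (nat_lit 9094235577) (nat_lit 172) (nat_lit 4) (nat_lit 173) (nat_lit 5) (nat_lit 173) (nat_lit 4) (nat_lit 388) (nat_lit 335) (nat_lit 297)))) (XT.nd (nat_lit 156) (nat_lit 380) (nat_lit 0) (XT.nd (nat_lit 78) (nat_lit 76) (nat_lit 0) (XT.lf (nat_lit 0) (nat_lit 8428793020) (nat_lit 76) (nat_lit 1126862119) (nat_lit 152) (nat_lit 26210730383) (nat_lit 170) (nat_lit 5) (nat_lit 171) (nat_lit 5) (nat_lit 172) (nat_lit 4) (nat_lit 389) (nat_lit 335) (nat_lit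 296)) (XT.lf (nat_lit 0) (nat_lit 12249601200) (nat_lit 76) (nat_lit 18003378610) (nat_lit 76) (nat_lit 7333333354) (nat_lit 169) (nat_lit 4) (nat_lit 170) (nat_lit 5) (nat_lit 170) (nat_lit 4) (nat_lit 390) (nat_lit 335) (nat_lit 295))) (XT.nd (nat_lit 78) (nat_lit 228) (nat_lit 0) (XT.lf (nat_lit 0) (nat_lit 13306406520) (nat_lit 152) (nat_lit 23093601800) (nat_lit 0) (nat_lit 3108137584) (nat_lit 167) (nat_lit 5) (nat_lit 169) (nat_lit 4) (nat_lit 167) (nat_lit 4) (nat_lit 391) (nat_lit 335) (nat_lit 294)) (XT.nd (nat_lit 78) (nat_lit 152) (nat_lit 0) (XT.lf (nat_lit 0) (nat_lit 20806912897) (nat_lit 76) (nat_lit 15477744106) (nat_lit 76) (nat_lit 5245844545) (nat_lit 166) (nat_lit 4) (nat_lit 167) (nat_lit 5) (nat_lit 167) (nat_lit 4) (nat_lit 392) (nat_lit 335) (nat_lit 293)) (XT.lf (nat_lit 0) (nat_lit 17633443679) (nat_lit 152) (nat_lit 18168338602) (nat_lit 0) (nat_lit 7859120795) (nat_lit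 164) (nat_lit 5) (nat_lit 166) (nat_lit 4) (nat_lit 164) (nat_lit 4) (nat_lit 393) (nat_lit 335) (nat_lit 292))))))))
noncomputable def xc74 : XT := (XT.nd (nat_lit 1248) (nat_lit 1976) (nat_lit 0) (XT.nd (nat_lit 624) (nat_lit 912) (nat_lit 0) (XT.nd (nat_lit 312) (nat_lit 532) (nat_lit 0) (XT.nd (nat_lit 156) (nat_lit 228) (nat_lit 0) (XT.nd (nat_lit 78) (nat_lit 152) (nat_lit 0) (XT.lf (nat_lit 0) (nat_lit 30566481895) (nat_lit 76) (nat_lit 12571891657) (nat_lit 76) (nat_lit 2770108927) (nat_lit 163) (nat_lit 4) (nat_lit 164) (nat_lit 5) (nat_lit 164) (nat_lit 4) (nat_lit 394) (nat_lit 335) (nat_lit 291)) (XT.lf (nat_lit 0) (nat_lit 22606313168) (nat_lit 152) (nat_lit 12416354806) (nat_lit 0) (nat_lit 13247066963) (nat_lit 161) (nat_lit 5) (nat_lit 163) (nat_lit 4) (nat_lit 161) (nat_lit 4) (nat_lit 395) (nat_lit 335) (nat_lit 290))) (XT.nd (nat_lit 78) (nat_lit 76) (nat_lit 0) (XT.lf (nat_lit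 0) (nat_lit 158590273) (nat_lit 152) (nat_lit 9056557470) (nat_lit 76) (nat_lit 41551595988) (nat_lit 159) (nat_lit 5) (nat_lit 161) (nat_lit 5) (nat_lit 160) (nat_lit 4) (nat_lit 396) (nat_lit 335) (nat_lit 289)) (XT.lf (nat_lit 0) (nat_lit 28323385821) (nat_lit 152) (nat_lit 5691592156) (nat_lit 0) (nat_lit 19368692469) (nat_lit 158) (nat_lit 5) (nat_lit 160) (nat_lit 4) (nat_lit 158) (nat_lit 4) (nat_lit 397) (nat_lit 335) (nat_lit 288)))) (XT.nd (nat_lit 156) (nat_lit 228) (nat_lit 0) (XT.nd (nat_lit 78) (nat_lit 152) (nat_lit 0) (XT.lf (nat_lit 0) (nat_lit 3519101427) (nat_lit 152) (nat_lit 1758842733) (nat_lit 76) (nat_lit 50876595576) (nat_lit 156) (nat_lit 5) (nat_lit 158) (nat_lit 5) (nat_lit 157) (nat_lit 4) (nat_lit 398) (nat_lit 335) (nat_lit 287)) (XT.lf (nat_lit 0) (nat_lit 2244476629) (nat_lit 76) (nat_lit 32686360107) (nat_lit 76) (nat_lit 24124501182) (nat_lit 154) (nat_lit 4)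 (nat_lit 155) (nat_lit 5) (nat_lit 155) (nat_lit 4) (nat_lit 399) (nat_lit 335) (nat_lit 286))) (XT.nd (nat_lit 78) (nat_lit 76) (nat_lit 0) (XT.lf (nat_lit 0) (nat_lit 6996581637) (nat_lit 76) (nat_lit 600193348) (nat_lit 152) (nat_lit 54529077218) (nat_lit 152) (nat_lit 5) (nat_lit 153) (nat_lit 5) (nat_lit 154) (nat_lit 4) (nat_lit 400) (nat_lit 335) (nat_lit 285)) (XT.lf (nat_lit 0) (nat_lit 11742238093) (nat_lit 76) (nat_lit 30890234321) (nat_lit 76) (nat_lit 22708664825) (nat_lit 151) (nat_lit 4) (nat_lit 152) (nat_lit 5) (nat_lit 152) (nat_lit 4) (nat_lit 401) (nat_lit 335) (nat_lit 284))))) (XT.nd (nat_lit 312) (nat_lit 456) (nat_lit 0) (XT.nd (nat_lit 156) (nat_lit 228) (nat_lit 0) (XT.nd (nat_lit 78) (nat_lit 76) (nat_lit 0) (XT.lf (nat_lit 0) (nat_lit 12509264003) (nat_lit 152) (nat_lit 51528362341) (nat_lit 0) (nat_lit 4705668895) (nat_lit 149) (nat_lit 5) (nat_lit 151) (nat_lit 4)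 (nat_lit 149) (nat_lit 4) (nat_lit 402) (nat_lit 335) (nat_lit 283)) (XT.lf (nat_lit 0) (nat_lit 22837233740) (nat_lit 76) (nat_lit 28644744546) (nat_lit 76) (nat_lit 20830386326) (nat_lit 148) (nat_lit 4) (nat_lit 149) (nat_lit 5) (nat_lit 149) (nat_lit 4) (nat_lit 403) (nat_lit 335) (nat_lit 282))) (XT.nd (nat_lit 78) (nat_lit 76) (nat_lit 0) (XT.lf (nat_lit 0) (nat_lit 18292173662) (nat_lit 152) (nat_lit 46948576453) (nat_lit 0) (nat_lit 10840436459) (nat_lit 146) (nat_lit 5) (nat_lit 148) (nat_lit 4) (nat_lit 146) (nat_lit 4) (nat_lit 404) (nat_lit 335) (nat_lit 281)) (XT.lf (nat_lit 0) (nat_lit 35784203674) (nat_lit 76) (nat_lit 25859653138) (nat_lit 76) (nat_lit 18399127713) (nat_lit 145) (nat_lit 4) (nat_lit 146) (nat_lit 5) (nat_lit 146) (nat_lit 4) (nat_lit 405) (nat_lit 335) (nat_lit 280)))) (XT.nd (nat_lit 156) (nat_lit 228) (nat_lit 0) (XT.nd (nat_lit 78) (nat_lit 76) (nat_lit 0)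 (XT.lf (nat_lit 0) (nat_lit 25071140867) (nat_lit 152) (nat_lit 41188516184) (nat_lit 0) (nat_lit 17958128803) (nat_lit 143) (nat_lit 5) (nat_lit 145) (nat_lit 4) (nat_lit 143) (nat_lit 4) (nat_lit 406) (nat_lit 335) (nat_lit 279)) (XT.lf (nat_lit 0) (nat_lit 50873002556) (nat_lit 76) (nat_lit 22431095547) (nat_lit 76) (nat_lit 15310907784) (nat_lit 142) (nat_lit 4) (nat_lit 143) (nat_lit 5) (nat_lit 143) (nat_lit 4) (nat_lit 407) (nat_lit 335) (nat_lit 278))) (XT.nd (nat_lit 78) (nat_lit 76) (nat_lit 0) (XT.lf (nat_lit 0) (nat_lit 32999636858) (nat_lit 152) (nat_lit 34027525439) (nat_lit 0) (nat_lit 26212177879) (nat_lit 140) (nat_lit 5) (nat_lit 142) (nat_lit 4) (nat_lit 140) (nat_lit 4) (nat_lit 408) (nat_lit 335) (nat_lit 277)) (XT.lf (nat_lit 0) (nat_lit 68433232738) (nat_lit 76) (nat_lit 18239719616) (nat_lit 76) (nat_lit 11446401584) (nat_lit 139) (nat_lit 4) (nat_lit 140) (nat_lit 5)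 (nat_lit 140) (nat_lit 4) (nat_lit 409) (nat_lit 335) (nat_lit 276)))))) (XT.nd (nat_lit 624) (nat_lit 912) (nat_lit 0) (XT.nd (nat_lit 312) (nat_lit 608) (nat_lit 0) (XT.nd (nat_lit 156) (nat_lit 228) (nat_lit 0) (XT.nd (nat_lit 78) (nat_lit 76) (nat_lit 0) (XT.lf (nat_lit 0) (nat_lit 42252055763) (nat_lit 152) (nat_lit 25212350959) (nat_lit 0) (nat_lit 35777062353) (nat_lit 137) (nat_lit 5) (nat_lit 139) (nat_lit 4) (nat_lit 137) (nat_lit 4) (nat_lit 410) (nat_lit 335) (nat_lit 275)) (XT.lf (nat_lit 0) (nat_lit 88839469456) (nat_lit 76) (nat_lit 13148572575) (nat_lit 76) (nat_lit 6668795171) (nat_lit 136) (nat_lit 4) (nat_lit 137) (nat_lit 5) (nat_lit 137) (nat_lit 4) (nat_lit 411) (nat_lit 335) (nat_lit 274))) (XT.nd (nat_lit 78) (nat_lit 76) (nat_lit 0) (XT.lf (nat_lit 0) (nat_lit 53026481780) (nat_lit 152) (nat_lit 14452652507) (nat_lit 0) (nat_lit 46851046516) (nat_lit 134) (nat_lit 5)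 (nat_lit 136) (nat_lit 4) (nat_lit 134) (nat_lit 4) (nat_lit 412) (nat_lit 335) (nat_lit 273)) (XT.lf (nat_lit 0) (nat_lit 112517150800) (nat_lit 76) (nat_lit 7000705233) (nat_lit 76) (nat_lit 821363775) (nat_lit 133) (nat_lit 4) (nat_lit 134) (nat_lit 5) (nat_lit 134) (nat_lit 4) (nat_lit 413) (nat_lit 335) (nat_lit 272)))) (XT.nd (nat_lit 156) (nat_lit 228) (nat_lit 0) (XT.nd (nat_lit 78) (nat_lit 228) (nat_lit 0) (XT.lf (nat_lit 0) (nat_lit 65547803165) (nat_lit 152) (nat_lit 1415924699) (nat_lit 0) (nat_lit 59659271447) (nat_lit 131) (nat_lit 5) (nat_lit 133) (nat_lit 4) (nat_lit 131) (nat_lit 4) (nat_lit 414) (nat_lit 335) (nat_lit 271)) (XT.lf (nat_lit 0) (nat_lit 6189563629) (nat_lit 152) (nat_lit 126511790222) (nat_lit 0) (nat_lit 578400604) (nat_lit 128) (nat_lit 5) (nat_lit 130) (nat_lit 4) (nat_lit 128) (nat_lit 4) (nat_lit 415) (nat_lit 335) (nat_lit 270))) (XT.nd (nat_lit 78) (nat_lit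 152) (nat_lit 0) (XT.lf (nat_lit 0) (nat_lit 14750346625) (nat_lit 76) (nat_lit 65551164078) (nat_lit 76) (nat_lit 59937188479) (nat_lit 127) (nat_lit 4) (nat_lit 128) (nat_lit 5) (nat_lit 128) (nat_lit 4) (nat_lit 416) (nat_lit 335) (nat_lit 269)) (XT.lf (nat_lit 0) (nat_lit 14889470943) (nat_lit 152) (nat_lit 123179498850) (nat_lit 0) (nat_lit 9540347292) (nat_lit 125) (nat_lit 5) (nat_lit 127) (nat_lit 4) (nat_lit 125) (nat_lit 4) (nat_lit 417) (nat_lit 335) (nat_lit 268))))) (XT.nd (nat_lit 312) (nat_lit 456) (nat_lit 0) (XT.nd (nat_lit 156) (nat_lit 228) (nat_lit 0) (XT.nd (nat_lit 78) (nat_lit 152) (nat_lit 0) (XT.lf (nat_lit 0) (nat_lit 34157920917) (nat_lit 76) (nat_lit 63261549546) (nat_lit 76) (nat_lit 57910129391) (nat_lit 124) (nat_lit 4) (nat_lit 125) (nat_lit 5) (nat_lit 125) (nat_lit 4) (nat_lit 418) (nat_lit 335) (nat_lit 267)) (XT.lf (nat_lit 0) (nat_lit 25305284949) (nat_lit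 152) (nat_lit 117980018510) (nat_lit 0) (nat_lit 20206669190) (nat_lit 122) (nat_lit 5) (nat_lit 124) (nat_lit 4) (nat_lit 122) (nat_lit 4) (nat_lit 419) (nat_lit 335) (nat_lit 266))) (XT.nd (nat_lit 78) (nat_lit 152) (nat_lit 0) (XT.lf (nat_lit 0) (nat_lit 57272916625) (nat_lit 76) (nat_lit 59942072466) (nat_lit 76) (nat_lit 54841581583) (nat_lit 121) (nat_lit 4) (nat_lit 122) (nat_lit 5) (nat_lit 122) (nat_lit 4) (nat_lit 420) (nat_lit 335) (nat_lit 265)) (XT.lf (nat_lit 0) (nat_lit 37708864990) (nat_lit 152) (nat_lit 110537243085) (nat_lit 0) (nat_lit 32849601075) (nat_lit 119) (nat_lit 5) (nat_lit 121) (nat_lit 4) (nat_lit 119) (nat_lit 4) (nat_lit 421) (nat_lit 335) (nat_lit 264)))) (XT.nd (nat_lit 156) (nat_lit 228) (nat_lit 0) (XT.nd (nat_lit 78) (nat_lit 152) (nat_lit 0) (XT.lf (nat_lit 0) (nat_lit 84680567269) (nat_lit 76) (nat_lit 55388450832) (nat_lit 76) (nat_lit 50527655852) (nat_lit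 118) (nat_lit 4) (nat_lit 119) (nat_lit 5) (nat_lit 119) (nat_lit 4) (nat_lit 422) (nat_lit 335) (nat_lit 263)) (XT.lf (nat_lit 0) (nat_lit 52410267587) (nat_lit 152) (nat_lit 100416882633) (nat_lit 0) (nat_lit 47779588890) (nat_lit 116) (nat_lit 5) (nat_lit 118) (nat_lit 4) (nat_lit 116) (nat_lit 4) (nat_lit 423) (nat_lit 335) (nat_lit 262))) (XT.nd (nat_lit 78) (nat_lit 152) (nat_lit 0) (XT.lf (nat_lit 0) (nat_lit 117048043067) (nat_lit 76) (nat_lit 49365037111) (nat_lit 76) (nat_lit 44733108280) (nat_lit 115) (nat_lit 4) (nat_lit 116) (nat_lit 5) (nat_lit 116) (nat_lit 4) (nat_lit 424) (nat_lit 335) (nat_lit 261)) (XT.lf (nat_lit 0) (nat_lit 69762829884) (nat_lit 152) (nat_lit 87118280647) (nat_lit 0) (nat_lit 65350366681) (nat_lit 113) (nat_lit 5) (nat_lit 115) (nat_lit 4) (nat_lit 113) (nat_lit 4) (nat_lit 425) (nat_lit 335) (nat_lit 260)))))))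
noncomputable def xc75 : XT := (XT.nd (nat_lit 1248) (nat_lit 684) (nat_lit 0) (XT.nd (nat_lit 624) (nat_lit 912) (nat_lit 0) (XT.nd (nat_lit 312) (nat_lit 532) (nat_lit 0) (XT.nd (nat_lit 156) (nat_lit 228) (nat_lit 0) (XT.nd (nat_lit 78) (nat_lit 152) (nat_lit 0) (XT.lf (nat_lit 0) (nat_lit 155135323027) (nat_lit 76) (nat_lit 41600428295) (nat_lit 76) (nat_lit 37186944341) (nat_lit 112) (nat_lit 4) (nat_lit 113) (nat_lit 5) (nat_lit 113) (nat_lit 4) (nat_lit 426) (nat_lit 335) (nat_lit 259)) (XT.lf (nat_lit 0) (nat_lit 90168901493) (nat_lit 152) (nat_lit 70065148139) (nat_lit 0) (nat_lit 85964683308) (nat_lit 110) (nat_lit 5) (nat_lit 112) (nat_lit 4) (nat_lit 110) (nat_lit 4) (nat_lit 427) (nat_lit 335) (nat_lit 258))) (XT.nd (nat_lit 78) (nat_lit 152) (nat_lit 0) (XT.lf (nat_lit 0) (nat_lit 199807454190) (nat_lit 76) (nat_lit 31782495179) (nat_lit 76) (nat_lit 27577443538) (nat_lit 109) (nat_lit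 4) (nat_lit 110) (nat_lit 5) (nat_lit 110) (nat_lit 4) (nat_lit 428) (nat_lit 335) (nat_lit 257)) (XT.lf (nat_lit 0) (nat_lit 114086305592) (nat_lit 152) (nat_lit 48595076477) (nat_lit 0) (nat_lit 110080759534) (nat_lit 107) (nat_lit 5) (nat_lit 109) (nat_lit 4) (nat_lit 107) (nat_lit 4) (nat_lit 429) (nat_lit 335) (nat_lit 256)))) (XT.nd (nat_lit 156) (nat_lit 304) (nat_lit 0) (XT.nd (nat_lit 78) (nat_lit 152) (nat_lit 0) (XT.lf (nat_lit 0) (nat_lit 252048370397) (nat_lit 76) (nat_lit 19552757156) (nat_lit 76) (nat_lit 15546530570) (nat_lit 106) (nat_lit 4) (nat_lit 107) (nat_lit 5) (nat_lit 107) (nat_lit 4) (nat_lit 430) (nat_lit 335) (nat_lit 255)) (XT.lf (nat_lit 0) (nat_lit 142035619978) (nat_lit 152) (nat_lit 21947673742) (nat_lit 0) (nat_lit 138219565974) (nat_lit 104) (nat_lit 5) (nat_lit 106) (nat_lit 4) (nat_lit 104) (nat_lit 4) (nat_lit 431) (nat_lit 335) (nat_lit 254))) (XT.nd (nat_lit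 78) (nat_lit 228) (nat_lit 0) (XT.lf (nat_lit 0) (nat_lit 312976463969) (nat_lit 76) (nat_lit 4500019622) (nat_lit 76) (nat_lit 683409957) (nat_lit 103) (nat_lit 4) (nat_lit 104) (nat_lit 5) (nat_lit 104) (nat_lit 4) (nat_lit 432) (nat_lit 335) (nat_lit 253)) (XT.lf (nat_lit 0) (nat_lit 11104255421) (nat_lit 76) (nat_lit 163677492909) (nat_lit 76) (nat_lit 160042136561) (nat_lit 100) (nat_lit 4) (nat_lit 101) (nat_lit 5) (nat_lit 101) (nat_lit 4) (nat_lit 433) (nat_lit 335) (nat_lit 252))))) (XT.nd (nat_lit 312) (nat_lit 456) (nat_lit 0) (XT.nd (nat_lit 156) (nat_lit 228) (nat_lit 0) (XT.nd (nat_lit 78) (nat_lit 76) (nat_lit 0) (XT.lf (nat_lit 0) (nat_lit 17652861127) (nat_lit 152) (nat_lit 320639495852) (nat_lit 0) (nat_lit 14190184887) (nat_lit 98) (nat_lit 5) (nat_lit 100) (nat_lit 4) (nat_lit 98) (nat_lit 4) (nat_lit 434) (nat_lit 335) (nat_lit 251)) (XT.lf (nat_lit 0) (nat_lit 52162365390)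 (nat_lit 76) (nat_lit 161128351257) (nat_lit 76) (nat_lit 157665274926) (nat_lit 97) (nat_lit 4) (nat_lit 98) (nat_lit 5) (nat_lit 98) (nat_lit 4) (nat_lit 435) (nat_lit 335) (nat_lit 250))) (XT.nd (nat_lit 78) (nat_lit 76) (nat_lit 0) (XT.lf (nat_lit 0) (nat_lit 40026874511) (nat_lit 152) (nat_lit 313754187324) (nat_lit 0) (nat_lit 36728353761) (nat_lit 95) (nat_lit 5) (nat_lit 97) (nat_lit 4) (nat_lit 95) (nat_lit 4) (nat_lit 436) (nat_lit 335) (nat_lit 249)) (XT.lf (nat_lit 0) (nat_lit 101680766221) (nat_lit 76) (nat_lit 156308512801) (nat_lit 76) (nat_lit 153009665371) (nat_lit 94) (nat_lit 4) (nat_lit 95) (nat_lit 5) (nat_lit 95) (nat_lit 4) (nat_lit 437) (nat_lit 335) (nat_lit 248)))) (XT.nd (nat_lit 156) (nat_lit 228) (nat_lit 0) (XT.nd (nat_lit 78) (nat_lit 76) (nat_lit 0) (XT.lf (nat_lit 0) (nat_lit 66931366475) (nat_lit 152) (nat_lit 301929955105) (nat_lit 0) (nat_lit 63789318941) (nat_lit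 92) (nat_lit 5) (nat_lit 94) (nat_lit 4) (nat_lit 92) (nat_lit 4) (nat_lit 438) (nat_lit 335) (nat_lit 247)) (XT.lf (nat_lit 0) (nat_lit 161007680802) (nat_lit 76) (nat_lit 148755440190) (nat_lit 76) (nat_lit 145613125917) (nat_lit 91) (nat_lit 4) (nat_lit 92) (nat_lit 5) (nat_lit 92) (nat_lit 4) (nat_lit 439) (nat_lit 335) (nat_lit 246))) (XT.nd (nat_lit 78) (nat_lit 76) (nat_lit 0) (XT.lf (nat_lit 0) (nat_lit 99081464037) (nat_lit 152) (nat_lit 284181602395) (nat_lit 0) (nat_lit 96088548558) (nat_lit 89) (nat_lit 5) (nat_lit 91) (nat_lit 4) (nat_lit 89) (nat_lit 4) (nat_lit 440) (nat_lit 335) (nat_lit 245)) (XT.lf (nat_lit 0) (nat_lit 231682314808) (nat_lit 76) (nat_lit 137934079293) (nat_lit 76) (nat_lit 134940946018) (nat_lit 88) (nat_lit 4) (nat_lit 89) (nat_lit 5) (nat_lit 89) (nat_lit 4) (nat_lit 441) (nat_lit 335) (nat_lit 244)))))) (XT.nd (nat_lit 45942) (nat_lit 0) (nat_lit 12768) (XT.nd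 (nat_lit 312) (nat_lit 228) (nat_lit 0) (XT.nd (nat_lit 156) (nat_lit 228) (nat_lit 0) (XT.nd (nat_lit 78) (nat_lit 76) (nat_lit 0) (XT.lf (nat_lit 0) (nat_lit 137293219405) (nat_lit 152) (nat_lit 259370389863) (nat_lit 0) (nat_lit 134442424226) (nat_lit 86) (nat_lit 5) (nat_lit 88) (nat_lit 4) (nat_lit 86) (nat_lit 4) (nat_lit 442) (nat_lit 335) (nat_lit 243)) (XT.lf (nat_lit 0) (nat_lit 315460313726) (nat_lit 76) (nat_lit 123226624799) (nat_lit 76) (nat_lit 120375651787) (nat_lit 85) (nat_lit 4) (nat_lit 86) (nat_lit 5) (nat_lit 86) (nat_lit 4) (nat_lit 443) (nat_lit 335) (nat_lit 242))) (XT.nd (nat_lit 78) (nat_lit 76) (nat_lit 0) (XT.lf (nat_lit 0) (nat_lit 182497028233) (nat_lit 152) (nat_lit 226182441747) (nat_lit 0) (nat_lit 179781659022) (nat_lit 83) (nat_lit 5) (nat_lit 85) (nat_lit 4) (nat_lit 83) (nat_lit 4) (nat_lit 444) (nat_lit 335) (nat_lit 241)) (XT.lf (nat_lit 0) (nat_lit 414342479725)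 (nat_lit 76) (nat_lit 103920926942) (nat_lit 76) (nat_lit 101205412528) (nat_lit 82) (nat_lit 4) (nat_lit 83) (nat_lit 5) (nat_lit 83) (nat_lit 4) (nat_lit 445) (nat_lit 335) (nat_lit 240)))) (XT.nd (nat_lit 45474) (nat_lit 0) (nat_lit 17632) (XT.nd (nat_lit 78) (nat_lit 76) (nat_lit 0) (XT.lf (nat_lit 0) (nat_lit 235752763191) (nat_lit 152) (nat_lit 183104290921) (nat_lit 0) (nat_lit 233166430942) (nat_lit 80) (nat_lit 5) (nat_lit 82) (nat_lit 4) (nat_lit 80) (nat_lit 4) (nat_lit 446) (nat_lit 335) (nat_lit 239)) (XT.lf (nat_lit 0) (nat_lit 530607154678) (nat_lit 76) (nat_lit 79197365724) (nat_lit 76) (nat_lit 76610914915) (nat_lit 79) (nat_lit 4) (nat_lit 80) (nat_lit 5) (nat_lit 80) (nat_lit 4) (nat_lit 447) (nat_lit 335) (nat_lit 238))) (XT.nd (nat_lit 78) (nat_lit 684) (nat_lit 0) (XT.lf (nat_lit 0) (nat_lit 2479213061) (nat_lit 532) (nat_lit 485215995) (nat_lit 532) (nat_lit 485215995)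 (nat_lit 320) (nat_lit 4) (nat_lit 327) (nat_lit 5) (nat_lit 327) (nat_lit 4) (nat_lit 348) (nat_lit 336) (nat_lit 336)) (XT.lf (nat_lit 0) (nat_lit 4445813111) (nat_lit 684) (nat_lit 1017368416) (nat_lit 0) (nat_lit 1560020390) (nat_lit 311) (nat_lit 5) (nat_lit 320) (nat_lit 4) (nat_lit 311) (nat_lit 4) (nat_lit 349) (nat_lit 336) (nat_lit 335))))) (XT.nd (nat_lit 312) (nat_lit 1976) (nat_lit 0) (XT.nd (nat_lit 156) (nat_lit 836) (nat_lit 0) (XT.nd (nat_lit 78) (nat_lit 532) (nat_lit 0) (XT.lf (nat_lit 0) (nat_lit 73404364) (nat_lit 760) (nat_lit 2673535821) (nat_lit 836) (nat_lit 4419807254) (nat_lit 291) (nat_lit 5) (nat_lit 301) (nat_lit 5) (nat_lit 302) (nat_lit 4) (nat_lit 350) (nat_lit 336) (nat_lit 334)) (XT.lf (nat_lit 0) (nat_lit 829232446) (nat_lit 532) (nat_lit 5949526003) (nat_lit 76) (nat_lit 551217841) (nat_lit 284) (nat_lit 5) (nat_lit 291) (nat_lit 5) (nat_lit 285) (nat_lit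 4) (nat_lit 351) (nat_lit 336) (nat_lit 333))) (XT.nd (nat_lit 78) (nat_lit 456) (nat_lit 0) (XT.lf (nat_lit 0) (nat_lit 2813530497) (nat_lit 380) (nat_lit 3354630928) (nat_lit 456) (nat_lit 1343238500) (nat_lit 279) (nat_lit 5) (nat_lit 284) (nat_lit 5) (nat_lit 285) (nat_lit 4) (nat_lit 352) (nat_lit 336) (nat_lit 332)) (XT.lf (nat_lit 0) (nat_lit 3898999672) (nat_lit 456) (nat_lit 3294038650) (nat_lit 76) (nat_lit 520628539) (nat_lit 273) (nat_lit 5) (nat_lit 279) (nat_lit 5) (nat_lit 274) (nat_lit 4) (nat_lit 353) (nat_lit 336) (nat_lit 331)))) (XT.nd (nat_lit 156) (nat_lit 1292) (nat_lit 0) (XT.nd (nat_lit 78) (nat_lit 304) (nat_lit 0) (XT.lf (nat_lit 0) (nat_lit 1411943904) (nat_lit 380) (nat_lit 1767236901) (nat_lit 76) (nat_lit 4756595289) (nat_lit 268) (nat_lit 5) (nat_lit 273) (nat_lit 5) (nat_lit 269) (nat_lit 5) (nat_lit 354) (nat_lit 336) (nat_lit 330)) (XT.lf (nat_lit 0) (nat_lit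 6789784095) (nat_lit 380) (nat_lit 97973337) (nat_lit 76) (nat_lit 1291432479) (nat_lit 264) (nat_lit 5) (nat_lit 269) (nat_lit 5) (nat_lit 265) (nat_lit 4) (nat_lit 355) (nat_lit 336) (nat_lit 329))) (XT.nd (nat_lit 78) (nat_lit 608) (nat_lit 0) (XT.lf (nat_lit 0) (nat_lit 1737890801) (nat_lit 304) (nat_lit 2231626176) (nat_lit 380) (nat_lit 4471978041) (nat_lit 255) (nat_lit 5) (nat_lit 259) (nat_lit 5) (nat_lit 260) (nat_lit 5) (nat_lit 356) (nat_lit 336) (nat_lit 328)) (XT.nd (nat_lit 78) (nat_lit 304) (nat_lit 0) (XT.lf (nat_lit 0) (nat_lit 884572900) (nat_lit 304) (nat_lit 4995080938) (nat_lit 76) (nat_lit 2846659854) (nat_lit 251) (nat_lit 5) (nat_lit 255) (nat_lit 5) (nat_lit 252) (nat_lit 5) (nat_lit 357) (nat_lit 336) (nat_lit 327)) (XT.lf (nat_lit 0) (nat_lit 5853432932) (nat_lit 304) (nat_lit 602629181) (nat_lit 380) (nat_lit 2577035666) (nat_lit 247) (nat_lit 5) (nat_lit 251) (nat_lit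 5) (nat_lit 252) (nat_lit 5) (nat_lit 358) (nat_lit 336) (nat_lit 326))))))))
noncomputable def xc76 : XT := (XT.nd (nat_lit 1248) (nat_lit 2204) (nat_lit 0) (XT.nd (nat_lit 624) (nat_lit 1368) (nat_lit 0) (XT.nd (nat_lit 312) (nat_lit 988) (nat_lit 0) (XT.nd (nat_lit 156) (nat_lit 532) (nat_lit 0) (XT.nd (nat_lit 78) (nat_lit 456) (nat_lit 0) (XT.lf (nat_lit 0) (nat_lit 3012197297) (nat_lit 304) (nat_lit 1270127042) (nat_lit 76) (nat_lit 5079530667) (nat_lit 243) (nat_lit 5) (nat_lit 247) (nat_lit 5) (nat_lit 244) (nat_lit 5) (nat_lit 359) (nat_lit 336) (nat_lit 325)) (XT.lf (nat_lit 0) (nat_lit 814384765) (nat_lit 228) (nat_lit 8132452925) (nat_lit 304) (nat_lit 768535020) (nat_lit 237) (nat_lit 5) (nat_lit 240) (nat_lit 5) (nat_lit 241) (nat_lit 4) (nat_lit 360) (nat_lit 336) (nat_lit 324))) (XT.nd (nat_lit 78) (nat_lit 228) (nat_lit 0) (XT.lf (nat_lit 0) (nat_lit 3024195197) (nat_lit 228)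 (nat_lit 2117754698) (nat_lit 304) (nat_lit 4948556702) (nat_lit 233) (nat_lit 5) (nat_lit 236) (nat_lit 5) (nat_lit 237) (nat_lit 5) (nat_lit 361) (nat_lit 336) (nat_lit 323)) (XT.lf (nat_lit 0) (nat_lit 1014415937) (nat_lit 228) (nat_lit 5111075865) (nat_lit 76) (nat_lit 4366586107) (nat_lit 230) (nat_lit 5) (nat_lit 233) (nat_lit 5) (nat_lit 231) (nat_lit 5) (nat_lit 362) (nat_lit 336) (nat_lit 322)))) (XT.nd (nat_lit 156) (nat_lit 532) (nat_lit 0) (XT.nd (nat_lit 78) (nat_lit 228) (nat_lit 0) (XT.lf (nat_lit 0) (nat_lit 7317207002) (nat_lit 304) (nat_lit 3055736676) (nat_lit 76) (nat_lit 546967357) (nat_lit 227) (nat_lit 5) (nat_lit 231) (nat_lit 5) (nat_lit 228) (nat_lit 4) (nat_lit 363) (nat_lit 336) (nat_lit 321)) (XT.lf (nat_lit 0) (nat_lit 2766015892) (nat_lit 228) (nat_lit 913232375) (nat_lit 76) (nat_lit 7695005110) (nat_lit 224) (nat_lit 5) (nat_lit 227) (nat_lit 5) (nat_lit 225)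 (nat_lit 5) (nat_lit 364) (nat_lit 336) (nat_lit 320))) (XT.nd (nat_lit 78) (nat_lit 228) (nat_lit 0) (XT.lf (nat_lit 0) (nat_lit 1398405560) (nat_lit 152) (nat_lit 8223057121) (nat_lit 228) (nat_lit 2235354865) (nat_lit 220) (nat_lit 5) (nat_lit 222) (nat_lit 5) (nat_lit 223) (nat_lit 4) (nat_lit 365) (nat_lit 336) (nat_lit 319)) (XT.lf (nat_lit 0) (nat_lit 3861967882) (nat_lit 152) (nat_lit 753184848) (nat_lit 228) (nat_lit 7753379261) (nat_lit 217) (nat_lit 5) (nat_lit 219) (nat_lit 5) (nat_lit 220) (nat_lit 5) (nat_lit 366) (nat_lit 336) (nat_lit 318))))) (XT.nd (nat_lit 312) (nat_lit 608) (nat_lit 0) (XT.nd (nat_lit 156) (nat_lit 380) (nat_lit 0) (XT.nd (nat_lit 78) (nat_lit 228) (nat_lit 0) (XT.lf (nat_lit 0) (nat_lit 6440511591) (nat_lit 152) (nat_lit 5664669208) (nat_lit 228) (nat_lit 805680744) (nat_lit 215) (nat_lit 5) (nat_lit 217) (nat_lit 5) (nat_lit 218) (nat_lit 4) (nat_lit 367)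 (nat_lit 336) (nat_lit 317)) (XT.lf (nat_lit 0) (nat_lit 6607335287) (nat_lit 228) (nat_lit 4346025763) (nat_lit 76) (nat_lit 2531794105) (nat_lit 212) (nat_lit 5) (nat_lit 215) (nat_lit 5) (nat_lit 213) (nat_lit 4) (nat_lit 368) (nat_lit 336) (nat_lit 316))) (XT.nd (nat_lit 78) (nat_lit 228) (nat_lit 0) (XT.lf (nat_lit 0) (nat_lit 650797498) (nat_lit 152) (nat_lit 2084937396) (nat_lit 76) (nat_lit 11359334882) (nat_lit 210) (nat_lit 5) (nat_lit 212) (nat_lit 5) (nat_lit 211) (nat_lit 5) (nat_lit 369) (nat_lit 336) (nat_lit 315)) (XT.lf (nat_lit 0) (nat_lit 238092072) (nat_lit 76) (nat_lit 8513705196) (nat_lit 152) (nat_lit 5985789828) (nat_lit 207) (nat_lit 5) (nat_lit 208) (nat_lit 5) (nat_lit 209) (nat_lit 4) (nat_lit 370) (nat_lit 336) (nat_lit 314)))) (XT.nd (nat_lit 156) (nat_lit 304) (nat_lit 0) (XT.nd (nat_lit 78) (nat_lit 76) (nat_lit 0) (XT.lf (nat_lit 0) (nat_lit 2218250092) (nat_lit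 228) (nat_lit 12594177333) (nat_lit 76) (nat_lit 606707358) (nat_lit 204) (nat_lit 5) (nat_lit 207) (nat_lit 5) (nat_lit 205) (nat_lit 4) (nat_lit 371) (nat_lit 336) (nat_lit 313)) (XT.lf (nat_lit 0) (nat_lit 5464047760) (nat_lit 76) (nat_lit 5690239004) (nat_lit 152) (nat_lit 4981743812) (nat_lit 203) (nat_lit 5) (nat_lit 204) (nat_lit 5) (nat_lit 205) (nat_lit 4) (nat_lit 372) (nat_lit 336) (nat_lit 312))) (XT.nd (nat_lit 78) (nat_lit 76) (nat_lit 0) (XT.lf (nat_lit 0) (nat_lit 3996198874) (nat_lit 228) (nat_lit 8611204476) (nat_lit 76) (nat_lit 4288537516) (nat_lit 200) (nat_lit 5) (nat_lit 203) (nat_lit 5) (nat_lit 201) (nat_lit 4) (nat_lit 373) (nat_lit 336) (nat_lit 311)) (XT.lf (nat_lit 0) (nat_lit 11254787390) (nat_lit 76) (nat_lit 2535955918) (nat_lit 152) (nat_lit 3908172156) (nat_lit 199) (nat_lit 5) (nat_lit 200) (nat_lit 5) (nat_lit 201) (nat_lit 4) (nat_lit 374) (nat_lit 336) (nat_lit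 310)))))) (XT.nd (nat_lit 624) (nat_lit 988) (nat_lit 0) (XT.nd (nat_lit 312) (nat_lit 532) (nat_lit 0) (XT.nd (nat_lit 156) (nat_lit 380) (nat_lit 0) (XT.nd (nat_lit 78) (nat_lit 76) (nat_lit 0) (XT.lf (nat_lit 0) (nat_lit 5946791428) (nat_lit 228) (nat_lit 4202692677) (nat_lit 76) (nat_lit 8395624511) (nat_lit 196) (nat_lit 5) (nat_lit 199) (nat_lit 5) (nat_lit 197) (nat_lit 4) (nat_lit 375) (nat_lit 336) (nat_lit 309)) (XT.lf (nat_lit 0) (nat_lit 16725203314) (nat_lit 152) (nat_lit 1770254050) (nat_lit 0) (nat_lit 946737708) (nat_lit 195) (nat_lit 5) (nat_lit 197) (nat_lit 4) (nat_lit 195) (nat_lit 4) (nat_lit 376) (nat_lit 336) (nat_lit 308))) (XT.nd (nat_lit 78) (nat_lit 76) (nat_lit 0) (XT.lf (nat_lit 0) (nat_lit 719606645) (nat_lit 76) (nat_lit 7402984533) (nat_lit 152) (nat_lit 12261129598) (nat_lit 191) (nat_lit 5) (nat_lit 192) (nat_lit 5) (nat_lit 193) (nat_lit 4) (nat_lit 377) (nat_lit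 336) (nat_lit 307)) (XT.lf (nat_lit 0) (nat_lit 3502071831) (nat_lit 76) (nat_lit 16593199133) (nat_lit 76) (nat_lit 1285014513) (nat_lit 190) (nat_lit 4) (nat_lit 191) (nat_lit 5) (nat_lit 191) (nat_lit 4) (nat_lit 378) (nat_lit 336) (nat_lit 306)))) (XT.nd (nat_lit 156) (nat_lit 228) (nat_lit 0) (XT.nd (nat_lit 78) (nat_lit 152) (nat_lit 0) (XT.lf (nat_lit 0) (nat_lit 6365801726) (nat_lit 76) (nat_lit 4267909761) (nat_lit 152) (nat_lit 11794473043) (nat_lit 188) (nat_lit 5) (nat_lit 189) (nat_lit 5) (nat_lit 190) (nat_lit 4) (nat_lit 379) (nat_lit 336) (nat_lit 305)) (XT.lf (nat_lit 0) (nat_lit 354214188) (nat_lit 152) (nat_lit 14082585405) (nat_lit 76) (nat_lit 9099687758) (nat_lit 186) (nat_lit 5) (nat_lit 188) (nat_lit 5) (nat_lit 187) (nat_lit 4) (nat_lit 380) (nat_lit 336) (nat_lit 304))) (XT.nd (nat_lit 78) (nat_lit 152) (nat_lit 0) (XT.lf (nat_lit 0) (nat_lit 12686460539) (nat_lit 76)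 (nat_lit 775660902) (nat_lit 152) (nat_lit 11241638058) (nat_lit 185) (nat_lit 5) (nat_lit 186) (nat_lit 5) (nat_lit 187) (nat_lit 4) (nat_lit 381) (nat_lit 336) (nat_lit 303)) (XT.lf (nat_lit 0) (nat_lit 2175669507) (nat_lit 152) (nat_lit 9830815267) (nat_lit 76) (nat_lit 13927918878) (nat_lit 183) (nat_lit 5) (nat_lit 185) (nat_lit 5) (nat_lit 184) (nat_lit 4) (nat_lit 382) (nat_lit 336) (nat_lit 302))))) (XT.nd (nat_lit 312) (nat_lit 456) (nat_lit 0) (XT.nd (nat_lit 156) (nat_lit 304) (nat_lit 0) (XT.nd (nat_lit 78) (nat_lit 152) (nat_lit 0) (XT.lf (nat_lit 0) (nat_lit 16711285855) (nat_lit 152) (nat_lit 7499637156) (nat_lit 0) (nat_lit 3021423048) (nat_lit 182) (nat_lit 5) (nat_lit 184) (nat_lit 4) (nat_lit 182) (nat_lit 4) (nat_lit 383) (nat_lit 336) (nat_lit 301)) (XT.lf (nat_lit 0) (nat_lit 4265047586) (nat_lit 152) (nat_lit 5020076268) (nat_lit 76) (nat_lit 19315539417) (nat_lit 180)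 (nat_lit 5) (nat_lit 182) (nat_lit 5) (nat_lit 181) (nat_lit 4) (nat_lit 384) (nat_lit 336) (nat_lit 300))) (XT.nd (nat_lit 78) (nat_lit 228) (nat_lit 0) (XT.lf (nat_lit 0) (nat_lit 20412402764) (nat_lit 152) (nat_lit 2390559549) (nat_lit 0) (nat_lit 7239511457) (nat_lit 179) (nat_lit 5) (nat_lit 181) (nat_lit 4) (nat_lit 179) (nat_lit 4) (nat_lit 385) (nat_lit 336) (nat_lit 299)) (XT.lf (nat_lit 0) (nat_lit 459076026) (nat_lit 76) (nat_lit 6219963422) (nat_lit 152) (nat_lit 24884348031) (nat_lit 176) (nat_lit 5) (nat_lit 177) (nat_lit 5) (nat_lit 178) (nat_lit 4) (nat_lit 386) (nat_lit 336) (nat_lit 298)))) (XT.nd (nat_lit 156) (nat_lit 228) (nat_lit 0) (XT.nd (nat_lit 78) (nat_lit 152) (nat_lit 0) (XT.lf (nat_lit 0) (nat_lit 3536416612) (nat_lit 76) (nat_lit 21140681930) (nat_lit 76) (nat_lit 8484901712) (nat_lit 175) (nat_lit 4) (nat_lit 176) (nat_lit 5) (nat_lit 176) (nat_lit 4) (nat_lit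 387) (nat_lit 336) (nat_lit 297)) (XT.lf (nat_lit 0) (nat_lit 6891295555) (nat_lit 76) (nat_lit 2667786611) (nat_lit 152) (nat_lit 25290822937) (nat_lit 173) (nat_lit 5) (nat_lit 174) (nat_lit 5) (nat_lit 175) (nat_lit 4) (nat_lit 388) (nat_lit 336) (nat_lit 296))) (XT.nd (nat_lit 78) (nat_lit 152) (nat_lit 0) (XT.lf (nat_lit 0) (nat_lit 10389636182) (nat_lit 76) (nat_lit 19188933702) (nat_lit 76) (nat_lit 7045854879) (nat_lit 172) (nat_lit 4) (nat_lit 173) (nat_lit 5) (nat_lit 173) (nat_lit 4) (nat_lit 389) (nat_lit 336) (nat_lit 295)) (XT.lf (nat_lit 0) (nat_lit 12909377695) (nat_lit 152) (nat_lit 24282451568) (nat_lit 0) (nat_lit 1306403593) (nat_lit 170) (nat_lit 5) (nat_lit 172) (nat_lit 4) (nat_lit 170) (nat_lit 4) (nat_lit 390) (nat_lit 336) (nat_lit 294)))))))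
noncomputable def xc77 : XT := (XT.nd (nat_lit 1248) (nat_lit 2052) (nat_lit 0) (XT.nd (nat_lit 624) (nat_lit 988) (nat_lit 0) (XT.nd (nat_lit 312) (nat_lit 456) (nat_lit 0) (XT.nd (nat_lit 156) (nat_lit 228) (nat_lit 0) (XT.nd (nat_lit 78) (nat_lit 152) (nat_lit 0) (XT.lf (nat_lit 0) (nat_lit 18225725057) (nat_lit 76) (nat_lit 16940562963) (nat_lit 76) (nat_lit 5302276706) (nat_lit 169) (nat_lit 4) (nat_lit 170) (nat_lit 5) (nat_lit 170) (nat_lit 4) (nat_lit 391) (nat_lit 336) (nat_lit 293)) (XT.lf (nat_lit 0) (nat_lit 16831074321) (nat_lit 152) (nat_lit 19998862787) (nat_lit 0) (nat_lit 5715852705) (nat_lit 167) (nat_lit 5) (nat_lit 169) (nat_lit 4) (nat_lit 167) (nat_lit 4) (nat_lit 392) (nat_lit 336) (nat_lit 292))) (XT.nd (nat_lit 78) (nat_lit 152) (nat_lit 0) (XT.lf (nat_lit 0) (nat_lit 27198909917) (nat_lit 76) (nat_lit 14340249851) (nat_lit 76) (nat_lit 3196195395) (nat_lit 166) (nat_lit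 4) (nat_lit 167) (nat_lit 5) (nat_lit 167) (nat_lit 4) (nat_lit 393) (nat_lit 336) (nat_lit 291)) (XT.lf (nat_lit 0) (nat_lit 21365231615) (nat_lit 152) (nat_lit 14946067449) (nat_lit 0) (nat_lit 10726420634) (nat_lit 164) (nat_lit 5) (nat_lit 166) (nat_lit 4) (nat_lit 164) (nat_lit 4) (nat_lit 394) (nat_lit 336) (nat_lit 290)))) (XT.nd (nat_lit 156) (nat_lit 228) (nat_lit 0) (XT.nd (nat_lit 78) (nat_lit 152) (nat_lit 0) (XT.lf (nat_lit 0) (nat_lit 37484336801) (nat_lit 76) (nat_lit 11324113650) (nat_lit 76) (nat_lit 661760276) (nat_lit 163) (nat_lit 4) (nat_lit 164) (nat_lit 5) (nat_lit 164) (nat_lit 4) (nat_lit 395) (nat_lit 336) (nat_lit 289)) (XT.lf (nat_lit 0) (nat_lit 26605287864) (nat_lit 152) (nat_lit 8986597271) (nat_lit 0) (nat_lit 16429905115) (nat_lit 161) (nat_lit 5) (nat_lit 163) (nat_lit 4) (nat_lit 161) (nat_lit 4) (nat_lit 396) (nat_lit 336) (nat_lit 288))) (XT.nd (nat_lit 78)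 (nat_lit 76) (nat_lit 0) (XT.lf (nat_lit 0) (nat_lit 2299877734) (nat_lit 152) (nat_lit 5479856067) (nat_lit 76) (nat_lit 46941919418) (nat_lit 159) (nat_lit 5) (nat_lit 161) (nat_lit 5) (nat_lit 160) (nat_lit 4) (nat_lit 397) (nat_lit 336) (nat_lit 287)) (XT.lf (nat_lit 0) (nat_lit 32656879758) (nat_lit 152) (nat_lit 1963322644) (nat_lit 0) (nat_lit 22930780525) (nat_lit 158) (nat_lit 5) (nat_lit 160) (nat_lit 4) (nat_lit 158) (nat_lit 4) (nat_lit 398) (nat_lit 336) (nat_lit 286))))) (XT.nd (nat_lit 312) (nat_lit 456) (nat_lit 0) (XT.nd (nat_lit 156) (nat_lit 228) (nat_lit 0) (XT.nd (nat_lit 78) (nat_lit 76) (nat_lit 0) (XT.lf (nat_lit 0) (nat_lit 2240377078) (nat_lit 76) (nat_lit 3604584812) (nat_lit 152) (nat_lit 54699724407) (nat_lit 155) (nat_lit 5) (nat_lit 156) (nat_lit 5) (nat_lit 157) (nat_lit 4) (nat_lit 399) (nat_lit 336) (nat_lit 285)) (XT.lf (nat_lit 0) (nat_lit 6511587033) (nat_lit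 76) (nat_lit 33229563145) (nat_lit 76) (nat_lit 23937822449) (nat_lit 154) (nat_lit 4) (nat_lit 155) (nat_lit 5) (nat_lit 155) (nat_lit 4) (nat_lit 400) (nat_lit 336) (nat_lit 284))) (XT.nd (nat_lit 78) (nat_lit 76) (nat_lit 0) (XT.lf (nat_lit 0) (nat_lit 10185044486) (nat_lit 152) (nat_lit 55488287254) (nat_lit 0) (nat_lit 1323562265) (nat_lit 152) (nat_lit 5) (nat_lit 154) (nat_lit 4) (nat_lit 152) (nat_lit 4) (nat_lit 401) (nat_lit 336) (nat_lit 283)) (XT.lf (nat_lit 0) (nat_lit 16547195915) (nat_lit 76) (nat_lit 31399419271) (nat_lit 76) (nat_lit 22526635784) (nat_lit 151) (nat_lit 4) (nat_lit 152) (nat_lit 5) (nat_lit 152) (nat_lit 4) (nat_lit 402) (nat_lit 336) (nat_lit 282)))) (XT.nd (nat_lit 156) (nat_lit 228) (nat_lit 0) (XT.nd (nat_lit 78) (nat_lit 76) (nat_lit 0) (XT.lf (nat_lit 0) (nat_lit 15389925408) (nat_lit 152) (nat_lit 51829147861) (nat_lit 0) (nat_lit 6929689576) (nat_lit 149)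 (nat_lit 5) (nat_lit 151) (nat_lit 4) (nat_lit 149) (nat_lit 4) (nat_lit 403) (nat_lit 336) (nat_lit 281)) (XT.lf (nat_lit 0) (nat_lit 28319618893) (nat_lit 76) (nat_lit 29078655725) (nat_lit 76) (nat_lit 20609192260) (nat_lit 148) (nat_lit 4) (nat_lit 149) (nat_lit 5) (nat_lit 149) (nat_lit 4) (nat_lit 404) (nat_lit 336) (nat_lit 280))) (XT.nd (nat_lit 78) (nat_lit 76) (nat_lit 0) (XT.lf (nat_lit 0) (nat_lit 21531113153) (nat_lit 152) (nat_lit 47090969837) (nat_lit 0) (nat_lit 13456820230) (nat_lit 146) (nat_lit 5) (nat_lit 148) (nat_lit 4) (nat_lit 146) (nat_lit 4) (nat_lit 405) (nat_lit 336) (nat_lit 279)) (XT.lf (nat_lit 0) (nat_lit 42103394710) (nat_lit 76) (nat_lit 26169977813) (nat_lit 76) (nat_lit 18088150406) (nat_lit 145) (nat_lit 4) (nat_lit 146) (nat_lit 5) (nat_lit 146) (nat_lit 4) (nat_lit 406) (nat_lit 336) (nat_lit 278)))))) (XT.nd (nat_lit 624) (nat_lit 1064) (nat_lit 0) (XT.nd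 (nat_lit 312) (nat_lit 532) (nat_lit 0) (XT.nd (nat_lit 156) (nat_lit 228) (nat_lit 0) (XT.nd (nat_lit 78) (nat_lit 76) (nat_lit 0) (XT.lf (nat_lit 0) (nat_lit 28754010512) (nat_lit 152) (nat_lit 41066951428) (nat_lit 0) (nat_lit 21050387863) (nat_lit 143) (nat_lit 5) (nat_lit 145) (nat_lit 4) (nat_lit 143) (nat_lit 4) (nat_lit 407) (nat_lit 336) (nat_lit 277)) (XT.lf (nat_lit 0) (nat_lit 58211005537) (nat_lit 76) (nat_lit 22561388535) (nat_lit 76) (nat_lit 14851613881) (nat_lit 142) (nat_lit 4) (nat_lit 143) (nat_lit 5) (nat_lit 143) (nat_lit 4) (nat_lit 408) (nat_lit 336) (nat_lit 276))) (XT.nd (nat_lit 78) (nat_lit 76) (nat_lit 0) (XT.lf (nat_lit 0) (nat_lit 37223993537) (nat_lit 152) (nat_lit 33519348605) (nat_lit 0) (nat_lit 29875925962) (nat_lit 140) (nat_lit 5) (nat_lit 142) (nat_lit 4) (nat_lit 140) (nat_lit 4) (nat_lit 409) (nat_lit 336) (nat_lit 275)) (XT.lf (nat_lit 0) (nat_lit 76997881897)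 (nat_lit 76) (nat_lit 18124173882) (nat_lit 76) (nat_lit 10771083113) (nat_lit 139) (nat_lit 4) (nat_lit 140) (nat_lit 5) (nat_lit 140) (nat_lit 4) (nat_lit 410) (nat_lit 336) (nat_lit 274)))) (XT.nd (nat_lit 156) (nat_lit 304) (nat_lit 0) (XT.nd (nat_lit 78) (nat_lit 76) (nat_lit 0) (XT.lf (nat_lit 0) (nat_lit 47129063864) (nat_lit 152) (nat_lit 24175189903) (nat_lit 0) (nat_lit 40121690651) (nat_lit 137) (nat_lit 5) (nat_lit 139) (nat_lit 4) (nat_lit 137) (nat_lit 4) (nat_lit 411) (nat_lit 336) (nat_lit 273)) (XT.lf (nat_lit 0) (nat_lit 98868046546) (nat_lit 76) (nat_lit 12710616727) (nat_lit 76) (nat_lit 5699142011) (nat_lit 136) (nat_lit 4) (nat_lit 137) (nat_lit 5) (nat_lit 137) (nat_lit 4) (nat_lit 412) (nat_lit 336) (nat_lit 272))) (XT.nd (nat_lit 78) (nat_lit 152) (nat_lit 0) (XT.lf (nat_lit 0) (nat_lit 58682834139) (nat_lit 152) (nat_lit 12721427114) (nat_lit 0) (nat_lit 52001622325)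 (nat_lit 134) (nat_lit 5) (nat_lit 136) (nat_lit 4) (nat_lit 134) (nat_lit 4) (nat_lit 413) (nat_lit 336) (nat_lit 271)) (XT.lf (nat_lit 0) (nat_lit 516090308) (nat_lit 152) (nat_lit 5626575612) (nat_lit 76) (nat_lit 123755645391) (nat_lit 132) (nat_lit 5) (nat_lit 134) (nat_lit 5) (nat_lit 133) (nat_lit 4) (nat_lit 414) (nat_lit 336) (nat_lit 270))))) (XT.nd (nat_lit 312) (nat_lit 532) (nat_lit 0) (XT.nd (nat_lit 156) (nat_lit 228) (nat_lit 0) (XT.nd (nat_lit 78) (nat_lit 152) (nat_lit 0) (XT.lf (nat_lit 0) (nat_lit 1240244730) (nat_lit 76) (nat_lit 70907007411) (nat_lit 76) (nat_lit 64537805879) (nat_lit 130) (nat_lit 4) (nat_lit 131) (nat_lit 5) (nat_lit 131) (nat_lit 4) (nat_lit 415) (nat_lit 336) (nat_lit 269)) (XT.lf (nat_lit 0) (nat_lit 8048391592) (nat_lit 152) (nat_lit 133845678939) (nat_lit 0) (nat_lit 1979881137) (nat_lit 128) (nat_lit 5) (nat_lit 130) (nat_lit 4) (nat_lit 128) (nat_lit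 4) (nat_lit 416) (nat_lit 336) (nat_lit 268))) (XT.nd (nat_lit 78) (nat_lit 152) (nat_lit 0) (XT.lf (nat_lit 0) (nat_lit 18596306864) (nat_lit 76) (nat_lit 69433598181) (nat_lit 76) (nat_lit 63362676398) (nat_lit 127) (nat_lit 4) (nat_lit 128) (nat_lit 5) (nat_lit 128) (nat_lit 4) (nat_lit 417) (nat_lit 336) (nat_lit 267)) (XT.lf (nat_lit 0) (nat_lit 17369227896) (nat_lit 152) (nat_lit 130399133357) (nat_lit 0) (nat_lit 11585271234) (nat_lit 125) (nat_lit 5) (nat_lit 127) (nat_lit 4) (nat_lit 125) (nat_lit 4) (nat_lit 418) (nat_lit 336) (nat_lit 266)))) (XT.nd (nat_lit 156) (nat_lit 304) (nat_lit 0) (XT.nd (nat_lit 78) (nat_lit 152) (nat_lit 0) (XT.lf (nat_lit 0) (nat_lit 39410778035) (nat_lit 76) (nat_lit 67034745295) (nat_lit 76) (nat_lit 61248819751) (nat_lit 124) (nat_lit 4) (nat_lit 125) (nat_lit 5) (nat_lit 125) (nat_lit 4) (nat_lit 419) (nat_lit 336) (nat_lit 265)) (XT.lf (nat_lit 0) (nat_lit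 28547421168) (nat_lit 152) (nat_lit 124927743961) (nat_lit 0) (nat_lit 23035279661) (nat_lit 122) (nat_lit 5) (nat_lit 124) (nat_lit 4) (nat_lit 122) (nat_lit 4) (nat_lit 420) (nat_lit 336) (nat_lit 264))) (XT.nd (nat_lit 78) (nat_lit 228) (nat_lit 0) (XT.lf (nat_lit 0) (nat_lit 64237184240) (nat_lit 76) (nat_lit 63519712884) (nat_lit 76) (nat_lit 58005963759) (nat_lit 121) (nat_lit 4) (nat_lit 122) (nat_lit 5) (nat_lit 122) (nat_lit 4) (nat_lit 421) (nat_lit 336) (nat_lit 263)) (XT.nd (nat_lit 78) (nat_lit 76) (nat_lit 0) (XT.lf (nat_lit 0) (nat_lit 41876338613) (nat_lit 152) (nat_lit 117025757729) (nat_lit 0) (nat_lit 36623731319) (nat_lit 119) (nat_lit 5) (nat_lit 121) (nat_lit 4) (nat_lit 119) (nat_lit 4) (nat_lit 422) (nat_lit 336) (nat_lit 262)) (XT.lf (nat_lit 0) (nat_lit 93707155283) (nat_lit 76) (nat_lit 58668069139) (nat_lit 76) (nat_lit 53414149204) (nat_lit 118) (nat_lit 4) (nat_lit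 119) (nat_lit 5) (nat_lit 119) (nat_lit 4) (nat_lit 423) (nat_lit 336) (nat_lit 261))))))))
noncomputable def xc78 : XT := (XT.nd (nat_lit 1248) (nat_lit 912) (nat_lit 0) (XT.nd (nat_lit 624) (nat_lit 1064) (nat_lit 0) (XT.nd (nat_lit 312) (nat_lit 456) (nat_lit 0) (XT.nd (nat_lit 156) (nat_lit 228) (nat_lit 0) (XT.nd (nat_lit 78) (nat_lit 76) (nat_lit 0) (XT.lf (nat_lit 0) (nat_lit 57690615792) (nat_lit 152) (nat_lit 106224561119) (nat_lit 0) (nat_lit 52685724988) (nat_lit 116) (nat_lit 5) (nat_lit 118) (nat_lit 4) (nat_lit 116) (nat_lit 4) (nat_lit 424) (nat_lit 336) (nat_lit 260)) (XT.lf (nat_lit 0) (nat_lit 128540833639) (nat_lit 76) (nat_lit 52225501042) (nat_lit 76) (nat_lit 47219538449) (nat_lit 115) (nat_lit 4) (nat_lit 116) (nat_lit 5) (nat_lit 116) (nat_lit 4) (nat_lit 425) (nat_lit 336) (nat_lit 259))) (XT.nd (nat_lit 78) (nat_lit 76) (nat_lit 0) (XT.lf (nat_lit 0) (nat_lit 76371645488)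 (nat_lit 152) (nat_lit 91983843515) (nat_lit 0) (nat_lit 71603116926) (nat_lit 113) (nat_lit 5) (nat_lit 115) (nat_lit 4) (nat_lit 113) (nat_lit 4) (nat_lit 426) (nat_lit 336) (nat_lit 258)) (XT.lf (nat_lit 0) (nat_lit 169558615541) (nat_lit 76) (nat_lit 43899072810) (nat_lit 76) (nat_lit 39129669119) (nat_lit 112) (nat_lit 4) (nat_lit 113) (nat_lit 5) (nat_lit 113) (nat_lit 4) (nat_lit 427) (nat_lit 336) (nat_lit 257)))) (XT.nd (nat_lit 156) (nat_lit 228) (nat_lit 0) (XT.nd (nat_lit 78) (nat_lit 76) (nat_lit 0) (XT.lf (nat_lit 0) (nat_lit 98353766996) (nat_lit 152) (nat_lit 73681590862) (nat_lit 0) (nat_lit 93810706048) (nat_lit 110) (nat_lit 5) (nat_lit 112) (nat_lit 4) (nat_lit 110) (nat_lit 4) (nat_lit 428) (nat_lit 336) (nat_lit 256)) (XT.lf (nat_lit 0) (nat_lit 217694390171) (nat_lit 76) (nat_lit 33351857283) (nat_lit 76) (nat_lit 28808081780) (nat_lit 109) (nat_lit 4) (nat_lit 110) (nat_lit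 5) (nat_lit 110) (nat_lit 4) (nat_lit 429) (nat_lit 336) (nat_lit 255))) (XT.nd (nat_lit 78) (nat_lit 76) (nat_lit 0) (XT.lf (nat_lit 0) (nat_lit 124131243129) (nat_lit 152) (nat_lit 50602760378) (nat_lit 0) (nat_lit 119803207769) (nat_lit 107) (nat_lit 5) (nat_lit 109) (nat_lit 4) (nat_lit 107) (nat_lit 4) (nat_lit 430) (nat_lit 336) (nat_lit 254)) (XT.lf (nat_lit 0) (nat_lit 274010463117) (nat_lit 76) (nat_lit 20196860581) (nat_lit 76) (nat_lit 15868241777) (nat_lit 106) (nat_lit 4) (nat_lit 107) (nat_lit 5) (nat_lit 107) (nat_lit 4) (nat_lit 431) (nat_lit 336) (nat_lit 253))))) (XT.nd (nat_lit 312) (nat_lit 456) (nat_lit 0) (XT.nd (nat_lit 156) (nat_lit 304) (nat_lit 0) (XT.nd (nat_lit 78) (nat_lit 152) (nat_lit 0) (XT.lf (nat_lit 0) (nat_lit 154266122867) (nat_lit 152) (nat_lit 21926468670) (nat_lit 0) (nat_lit 150143114268) (nat_lit 104) (nat_lit 5) (nat_lit 106) (nat_lit 4) (nat_lit 104)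 (nat_lit 4) (nat_lit 432) (nat_lit 336) (nat_lit 252)) (XT.lf (nat_lit 0) (nat_lit 129066960) (nat_lit 152) (nat_lit 3858897719) (nat_lit 76) (nat_lit 339583120207) (nat_lit 102) (nat_lit 5) (nat_lit 104) (nat_lit 5) (nat_lit 103) (nat_lit 4) (nat_lit 433) (nat_lit 336) (nat_lit 251))) (XT.nd (nat_lit 78) (nat_lit 152) (nat_lit 0) (XT.lf (nat_lit 0) (nat_lit 13727872890) (nat_lit 76) (nat_lit 175883557178) (nat_lit 76) (nat_lit 171956008521) (nat_lit 100) (nat_lit 4) (nat_lit 101) (nat_lit 5) (nat_lit 101) (nat_lit 4) (nat_lit 434) (nat_lit 336) (nat_lit 250)) (XT.lf (nat_lit 0) (nat_lit 19902161559) (nat_lit 152) (nat_lit 344575861505) (nat_lit 0) (nat_lit 16161268573) (nat_lit 98) (nat_lit 5) (nat_lit 100) (nat_lit 4) (nat_lit 98) (nat_lit 4) (nat_lit 435) (nat_lit 336) (nat_lit 249)))) (XT.nd (nat_lit 156) (nat_lit 228) (nat_lit 0) (XT.nd (nat_lit 78) (nat_lit 152) (nat_lit 0) (XT.lf (nat_lit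 0) (nat_lit 57975625777) (nat_lit 76) (nat_lit 173179023674) (nat_lit 76) (nat_lit 169437787674) (nat_lit 97) (nat_lit 4) (nat_lit 98) (nat_lit 5) (nat_lit 98) (nat_lit 4) (nat_lit 436) (nat_lit 336) (nat_lit 248)) (XT.lf (nat_lit 0) (nat_lit 44020187178) (nat_lit 152) (nat_lit 337233620738) (nat_lit 0) (nat_lit 40456802792) (nat_lit 95) (nat_lit 5) (nat_lit 97) (nat_lit 4) (nat_lit 95) (nat_lit 4) (nat_lit 437) (nat_lit 336) (nat_lit 247))) (XT.nd (nat_lit 78) (nat_lit 152) (nat_lit 0) (XT.lf (nat_lit 0) (nat_lit 111365686684) (nat_lit 76) (nat_lit 168019499734) (nat_lit 76) (nat_lit 164455835272) (nat_lit 94) (nat_lit 4) (nat_lit 95) (nat_lit 5) (nat_lit 95) (nat_lit 4) (nat_lit 438) (nat_lit 336) (nat_lit 246)) (XT.lf (nat_lit 0) (nat_lit 73033654044) (nat_lit 152) (nat_lit 324552207896) (nat_lit 0) (nat_lit 69639440910) (nat_lit 92) (nat_lit 5) (nat_lit 94) (nat_lit 4) (nat_lit 92) (nat_lit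 4) (nat_lit 439) (nat_lit 336) (nat_lit 245)))))) (XT.nd (nat_lit 45786) (nat_lit 0) (nat_lit 14288) (XT.nd (nat_lit 312) (nat_lit 456) (nat_lit 0) (XT.nd (nat_lit 156) (nat_lit 228) (nat_lit 0) (XT.nd (nat_lit 78) (nat_lit 152) (nat_lit 0) (XT.lf (nat_lit 0) (nat_lit 175353853790) (nat_lit 76) (nat_lit 159905585627) (nat_lit 76) (nat_lit 156511143808) (nat_lit 91) (nat_lit 4) (nat_lit 92) (nat_lit 5) (nat_lit 92) (nat_lit 4) (nat_lit 440) (nat_lit 336) (nat_lit 244)) (XT.lf (nat_lit 0) (nat_lit 107714759331) (nat_lit 152) (nat_lit 305467890015) (nat_lit 0) (nat_lit 104481755935) (nat_lit 89) (nat_lit 5) (nat_lit 91) (nat_lit 4) (nat_lit 89) (nat_lit 4) (nat_lit 441) (nat_lit 336) (nat_lit 243))) (XT.nd (nat_lit 78) (nat_lit 152) (nat_lit 0) (XT.lf (nat_lit 0) (nat_lit 251602201794) (nat_lit 76) (nat_lit 148259556511) (nat_lit 76) (nat_lit 145026366391) (nat_lit 88) (nat_lit 4) (nat_lit 89) (nat_lit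 5) (nat_lit 89) (nat_lit 4) (nat_lit 442) (nat_lit 336) (nat_lit 242)) (XT.lf (nat_lit 0) (nat_lit 148944707402) (nat_lit 152) (nat_lit 278751093195) (nat_lit 0) (nat_lit 145865314056) (nat_lit 86) (nat_lit 5) (nat_lit 88) (nat_lit 4) (nat_lit 86) (nat_lit 4) (nat_lit 443) (nat_lit 336) (nat_lit 241)))) (XT.nd (nat_lit 156) (nat_lit 228) (nat_lit 0) (XT.nd (nat_lit 78) (nat_lit 152) (nat_lit 0) (XT.lf (nat_lit 0) (nat_lit 342006574746) (nat_lit 76) (nat_lit 132414309534) (nat_lit 76) (nat_lit 129334763725) (nat_lit 85) (nat_lit 4) (nat_lit 86) (nat_lit 5) (nat_lit 86) (nat_lit 4) (nat_lit 444) (nat_lit 336) (nat_lit 240)) (XT.lf (nat_lit 0) (nat_lit 197728201032) (nat_lit 152) (nat_lit 242983081948) (nat_lit 0) (nat_lit 194795165814) (nat_lit 83) (nat_lit 5) (nat_lit 85) (nat_lit 4) (nat_lit 83) (nat_lit 4) (nat_lit 445) (nat_lit 336) (nat_lit 239))) (XT.nd (nat_lit 78) (nat_lit 152) (nat_lit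 0) (XT.lf (nat_lit 0) (nat_lit 448727599528) (nat_lit 76) (nat_lit 111600843362) (nat_lit 76) (nat_lit 108667683656) (nat_lit 82) (nat_lit 4) (nat_lit 83) (nat_lit 5) (nat_lit 83) (nat_lit 4) (nat_lit 446) (nat_lit 336) (nat_lit 238)) (XT.lf (nat_lit 0) (nat_lit 255209785204) (nat_lit 152) (nat_lit 196529548613) (nat_lit 0) (nat_lit 252416189992) (nat_lit 80) (nat_lit 5) (nat_lit 82) (nat_lit 4) (nat_lit 80) (nat_lit 4) (nat_lit 447) (nat_lit 336) (nat_lit 237))))) (XT.nd (nat_lit 312) (nat_lit 3192) (nat_lit 0) (XT.nd (nat_lit 156) (nat_lit 1292) (nat_lit 0) (XT.nd (nat_lit 78) (nat_lit 532) (nat_lit 0) (XT.lf (nat_lit 0) (nat_lit 1798208122) (nat_lit 380) (nat_lit 775508272) (nat_lit 380) (nat_lit 775508272) (nat_lit 334) (nat_lit 4) (nat_lit 339) (nat_lit 5) (nat_lit 339) (nat_lit 4) (nat_lit 346) (nat_lit 337) (nat_lit 337)) (XT.lf (nat_lit 0) (nat_lit 3676455216) (nat_lit 532) (nat_lit 2713600065)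 (nat_lit 0) (nat_lit 403966271) (nat_lit 327) (nat_lit 5) (nat_lit 334) (nat_lit 4) (nat_lit 327) (nat_lit 4) (nat_lit 347) (nat_lit 337) (nat_lit 336))) (XT.nd (nat_lit 78) (nat_lit 684) (nat_lit 0) (XT.lf (nat_lit 0) (nat_lit 2012965569) (nat_lit 608) (nat_lit 2175991883) (nat_lit 76) (nat_lit 2719306131) (nat_lit 319) (nat_lit 5) (nat_lit 327) (nat_lit 5) (nat_lit 320) (nat_lit 4) (nat_lit 348) (nat_lit 337) (nat_lit 335)) (XT.lf (nat_lit 0) (nat_lit 119570135) (nat_lit 684) (nat_lit 1461758954) (nat_lit 76) (nat_lit 5461573718) (nat_lit 310) (nat_lit 5) (nat_lit 319) (nat_lit 5) (nat_lit 311) (nat_lit 5) (nat_lit 349) (nat_lit 337) (nat_lit 334)))) (XT.nd (nat_lit 156) (nat_lit 1216) (nat_lit 0) (XT.nd (nat_lit 78) (nat_lit 1292) (nat_lit 0) (XT.lf (nat_lit 0) (nat_lit 5134905356) (nat_lit 760) (nat_lit 622025302) (nat_lit 76) (nat_lit 1438830721) (nat_lit 301) (nat_lit 5) (nat_lit 311) (nat_lit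 5) (nat_lit 302) (nat_lit 4) (nat_lit 350) (nat_lit 337) (nat_lit 333)) (XT.lf (nat_lit 0) (nat_lit 379271581) (nat_lit 456) (nat_lit 2513541179) (nat_lit 532) (nat_lit 4475329464) (nat_lit 284) (nat_lit 5) (nat_lit 290) (nat_lit 5) (nat_lit 291) (nat_lit 5) (nat_lit 351) (nat_lit 337) (nat_lit 332))) (XT.nd (nat_lit 78) (nat_lit 760) (nat_lit 0) (XT.lf (nat_lit 0) (nat_lit 423552923) (nat_lit 456) (nat_lit 5990144878) (nat_lit 76) (nat_lit 1147174977) (nat_lit 278) (nat_lit 5) (nat_lit 284) (nat_lit 5) (nat_lit 279) (nat_lit 5) (nat_lit 352) (nat_lit 337) (nat_lit 331)) (XT.nd (nat_lit 78) (nat_lit 380) (nat_lit 0) (XT.lf (nat_lit 0) (nat_lit 2872405496) (nat_lit 380) (nat_lit 2550565895) (nat_lit 456) (nat_lit 2349111120) (nat_lit 273) (nat_lit 5) (nat_lit 278) (nat_lit 5) (nat_lit 279) (nat_lit 5) (nat_lit 353) (nat_lit 337) (nat_lit 330)) (XT.lf (nat_lit 0) (nat_lit 2600650897) (nat_lit 380)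 (nat_lit 3672140729) (nat_lit 76) (nat_lit 1731753154) (nat_lit 268) (nat_lit 5) (nat_lit 273) (nat_lit 5) (nat_lit 269) (nat_lit 5) (nat_lit 354) (nat_lit 337) (nat_lit 329))))))))
noncomputable def xc79 : XT := (XT.nd (nat_lit 1248) (nat_lit 2432) (nat_lit 0) (XT.nd (nat_lit 624) (nat_lit 1748) (nat_lit 0) (XT.nd (nat_lit 312) (nat_lit 1216) (nat_lit 0) (XT.nd (nat_lit 156) (nat_lit 912) (nat_lit 0) (XT.nd (nat_lit 78) (nat_lit 380) (nat_lit 0) (XT.lf (nat_lit 0) (nat_lit 5940227379) (nat_lit 304) (nat_lit 1832000374) (nat_lit 380) (nat_lit 486044012) (nat_lit 264) (nat_lit 5) (nat_lit 268) (nat_lit 5) (nat_lit 269) (nat_lit 5) (nat_lit 355) (nat_lit 337) (nat_lit 328)) (XT.lf (nat_lit 0) (nat_lit 4602578081) (nat_lit 380) (nat_lit 875227321) (nat_lit 76) (nat_lit 3054135642) (nat_lit 259) (nat_lit 5) (nat_lit 264) (nat_lit 5) (nat_lit 260) (nat_lit 5) (nat_lit 356) (nat_lit 337) (nat_lit 327)))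 (XT.nd (nat_lit 78) (nat_lit 304) (nat_lit 0) (XT.lf (nat_lit 0) (nat_lit 746561305) (nat_lit 228) (nat_lit 412170599) (nat_lit 304) (nat_lit 7670158677) (nat_lit 251) (nat_lit 5) (nat_lit 254) (nat_lit 5) (nat_lit 255) (nat_lit 5) (nat_lit 357) (nat_lit 337) (nat_lit 326)) (XT.lf (nat_lit 0) (nat_lit 2472490202) (nat_lit 304) (nat_lit 4061976387) (nat_lit 380) (nat_lit 2610995805) (nat_lit 247) (nat_lit 5) (nat_lit 251) (nat_lit 5) (nat_lit 252) (nat_lit 5) (nat_lit 358) (nat_lit 337) (nat_lit 325)))) (XT.nd (nat_lit 156) (nat_lit 684) (nat_lit 0) (XT.nd (nat_lit 78) (nat_lit 228) (nat_lit 0) (XT.lf (nat_lit 0) (nat_lit 2732678148) (nat_lit 304) (nat_lit 5138582601) (nat_lit 76) (nat_lit 1615317682) (nat_lit 243) (nat_lit 5) (nat_lit 247) (nat_lit 5) (nat_lit 244) (nat_lit 5) (nat_lit 359) (nat_lit 337) (nat_lit 324)) (XT.lf (nat_lit 0) (nat_lit 6343318484) (nat_lit 228) (nat_lit 2095237935)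 (nat_lit 304) (nat_lit 1412977822) (nat_lit 240) (nat_lit 5) (nat_lit 243) (nat_lit 5) (nat_lit 244) (nat_lit 5) (nat_lit 360) (nat_lit 337) (nat_lit 323))) (XT.nd (nat_lit 78) (nat_lit 380) (nat_lit 0) (XT.lf (nat_lit 0) (nat_lit 4256014046) (nat_lit 304) (nat_lit 1798731777) (nat_lit 76) (nat_lit 4185531344) (nat_lit 236) (nat_lit 5) (nat_lit 240) (nat_lit 5) (nat_lit 237) (nat_lit 5) (nat_lit 361) (nat_lit 337) (nat_lit 322)) (XT.lf (nat_lit 0) (nat_lit 67090304) (nat_lit 152) (nat_lit 10294300533) (nat_lit 228) (nat_lit 295952040) (nat_lit 231) (nat_lit 5) (nat_lit 233) (nat_lit 5) (nat_lit 234) (nat_lit 4) (nat_lit 362) (nat_lit 337) (nat_lit 321))))) (XT.nd (nat_lit 312) (nat_lit 836) (nat_lit 0) (XT.nd (nat_lit 156) (nat_lit 380) (nat_lit 0) (XT.nd (nat_lit 78) (nat_lit 228) (nat_lit 0) (XT.lf (nat_lit 0) (nat_lit 2027383421) (nat_lit 228) (nat_lit 3773657162) (nat_lit 304) (nat_lit 5295129991)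 (nat_lit 227) (nat_lit 5) (nat_lit 230) (nat_lit 5) (nat_lit 231) (nat_lit 5) (nat_lit 363) (nat_lit 337) (nat_lit 320)) (XT.lf (nat_lit 0) (nat_lit 855048416) (nat_lit 228) (nat_lit 7409865782) (nat_lit 76) (nat_lit 3300555378) (nat_lit 224) (nat_lit 5) (nat_lit 227) (nat_lit 5) (nat_lit 225) (nat_lit 5) (nat_lit 364) (nat_lit 337) (nat_lit 319))) (XT.nd (nat_lit 78) (nat_lit 228) (nat_lit 0) (XT.lf (nat_lit 0) (nat_lit 6378981646) (nat_lit 152) (nat_lit 1037109845) (nat_lit 228) (nat_lit 4646662440) (nat_lit 222) (nat_lit 5) (nat_lit 224) (nat_lit 5) (nat_lit 225) (nat_lit 5) (nat_lit 365) (nat_lit 337) (nat_lit 318)) (XT.lf (nat_lit 0) (nat_lit 2004376094) (nat_lit 228) (nat_lit 3868995906) (nat_lit 76) (nat_lit 6716811037) (nat_lit 219) (nat_lit 5) (nat_lit 222) (nat_lit 5) (nat_lit 220) (nat_lit 5) (nat_lit 366) (nat_lit 337) (nat_lit 317)))) (XT.nd (nat_lit 156) (nat_lit 304) (nat_lit 0)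 (XT.nd (nat_lit 78) (nat_lit 380) (nat_lit 0) (XT.lf (nat_lit 0) (nat_lit 9147577414) (nat_lit 228) (nat_lit 1946439068) (nat_lit 76) (nat_lit 2055837445) (nat_lit 217) (nat_lit 5) (nat_lit 220) (nat_lit 5) (nat_lit 218) (nat_lit 4) (nat_lit 367) (nat_lit 337) (nat_lit 316)) (XT.lf (nat_lit 0) (nat_lit 75423797) (nat_lit 152) (nat_lit 3123154545) (nat_lit 228) (nat_lit 10543788198) (nat_lit 212) (nat_lit 5) (nat_lit 214) (nat_lit 5) (nat_lit 215) (nat_lit 5) (nat_lit 368) (nat_lit 337) (nat_lit 315))) (XT.nd (nat_lit 78) (nat_lit 228) (nat_lit 0) (XT.lf (nat_lit 0) (nat_lit 2267062356) (nat_lit 76) (nat_lit 8795158910) (nat_lit 152) (nat_lit 3305431343) (nat_lit 211) (nat_lit 5) (nat_lit 212) (nat_lit 5) (nat_lit 213) (nat_lit 4) (nat_lit 369) (nat_lit 337) (nat_lit 314)) (XT.lf (nat_lit 0) (nat_lit 4542192155) (nat_lit 228) (nat_lit 10422646363) (nat_lit 76) (nat_lit 65870299) (nat_lit 208)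 (nat_lit 5) (nat_lit 211) (nat_lit 5) (nat_lit 209) (nat_lit 4) (nat_lit 370) (nat_lit 337) (nat_lit 313)))))) (XT.nd (nat_lit 624) (nat_lit 1140) (nat_lit 0) (XT.nd (nat_lit 312) (nat_lit 684) (nat_lit 0) (XT.nd (nat_lit 156) (nat_lit 304) (nat_lit 0) (XT.nd (nat_lit 78) (nat_lit 228) (nat_lit 0) (XT.lf (nat_lit 0) (nat_lit 7030699430) (nat_lit 76) (nat_lit 6158823643) (nat_lit 152) (nat_lit 2540191891) (nat_lit 207) (nat_lit 5) (nat_lit 208) (nat_lit 5) (nat_lit 209) (nat_lit 4) (nat_lit 371) (nat_lit 337) (nat_lit 312)) (XT.lf (nat_lit 0) (nat_lit 6062709676) (nat_lit 228) (nat_lit 6867857233) (nat_lit 76) (nat_lit 3538748678) (nat_lit 204) (nat_lit 5) (nat_lit 207) (nat_lit 5) (nat_lit 205) (nat_lit 4) (nat_lit 372) (nat_lit 337) (nat_lit 311))) (XT.nd (nat_lit 78) (nat_lit 228) (nat_lit 0) (XT.lf (nat_lit 0) (nat_lit 12342380767) (nat_lit 76) (nat_lit 3200184244) (nat_lit 152) (nat_lit 1709551246)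 (nat_lit 203) (nat_lit 5) (nat_lit 204) (nat_lit 5) (nat_lit 205) (nat_lit 4) (nat_lit 373) (nat_lit 337) (nat_lit 310)) (XT.lf (nat_lit 0) (nat_lit 7748939982) (nat_lit 228) (nat_lit 2902092033) (nat_lit 76) (nat_lit 7424931861) (nat_lit 200) (nat_lit 5) (nat_lit 203) (nat_lit 5) (nat_lit 201) (nat_lit 4) (nat_lit 374) (nat_lit 337) (nat_lit 309)))) (XT.nd (nat_lit 156) (nat_lit 304) (nat_lit 0) (XT.nd (nat_lit 78) (nat_lit 304) (nat_lit 0) (XT.lf (nat_lit 0) (nat_lit 18169965979) (nat_lit 152) (nat_lit 677652361) (nat_lit 0) (nat_lit 103412202) (nat_lit 199) (nat_lit 5) (nat_lit 201) (nat_lit 4) (nat_lit 199) (nat_lit 4) (nat_lit 375) (nat_lit 337) (nat_lit 308)) (XT.lf (nat_lit 0) (nat_lit 1586361255) (nat_lit 76) (nat_lit 8078915174) (nat_lit 152) (nat_lit 10201303791) (nat_lit 195) (nat_lit 5) (nat_lit 196) (nat_lit 5) (nat_lit 197) (nat_lit 4) (nat_lit 376) (nat_lit 337) (nat_lit 307)))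 (XT.nd (nat_lit 78) (nat_lit 76) (nat_lit 0) (XT.lf (nat_lit 0) (nat_lit 389434169) (nat_lit 228) (nat_lit 16703029889) (nat_lit 76) (nat_lit 3745903906) (nat_lit 192) (nat_lit 5) (nat_lit 195) (nat_lit 5) (nat_lit 193) (nat_lit 4) (nat_lit 377) (nat_lit 337) (nat_lit 306)) (XT.lf (nat_lit 0) (nat_lit 6731503877) (nat_lit 76) (nat_lit 5153497160) (nat_lit 152) (nat_lit 9973787273) (nat_lit 191) (nat_lit 5) (nat_lit 192) (nat_lit 5) (nat_lit 193) (nat_lit 4) (nat_lit 378) (nat_lit 337) (nat_lit 305))))) (XT.nd (nat_lit 312) (nat_lit 684) (nat_lit 0) (XT.nd (nat_lit 156) (nat_lit 228) (nat_lit 0) (XT.nd (nat_lit 78) (nat_lit 76) (nat_lit 0) (XT.lf (nat_lit 0) (nat_lit 1719713653) (nat_lit 152) (nat_lit 13383534474) (nat_lit 76) (nat_lit 7835388044) (nat_lit 189) (nat_lit 5) (nat_lit 191) (nat_lit 5) (nat_lit 190) (nat_lit 4) (nat_lit 379) (nat_lit 337) (nat_lit 304)) (XT.lf (nat_lit 0) (nat_lit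 12521785578) (nat_lit 76) (nat_lit 1886997429) (nat_lit 152) (nat_lit 9667437555) (nat_lit 188) (nat_lit 5) (nat_lit 189) (nat_lit 5) (nat_lit 190) (nat_lit 4) (nat_lit 380) (nat_lit 337) (nat_lit 303))) (XT.nd (nat_lit 78) (nat_lit 76) (nat_lit 0) (XT.lf (nat_lit 0) (nat_lit 3261981701) (nat_lit 152) (nat_lit 9613457155) (nat_lit 76) (nat_lit 12399995963) (nat_lit 186) (nat_lit 5) (nat_lit 188) (nat_lit 5) (nat_lit 187) (nat_lit 4) (nat_lit 381) (nat_lit 337) (nat_lit 302)) (XT.lf (nat_lit 0) (nat_lit 17316357347) (nat_lit 152) (nat_lit 7516204870) (nat_lit 0) (nat_lit 1708634733) (nat_lit 185) (nat_lit 5) (nat_lit 187) (nat_lit 4) (nat_lit 185) (nat_lit 4) (nat_lit 382) (nat_lit 337) (nat_lit 301)))) (XT.nd (nat_lit 156) (nat_lit 456) (nat_lit 0) (XT.nd (nat_lit 78) (nat_lit 76) (nat_lit 0) (XT.lf (nat_lit 0) (nat_lit 5058448089) (nat_lit 152) (nat_lit 5315143095) (nat_lit 76) (nat_lit 17500128509)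 (nat_lit 183) (nat_lit 5) (nat_lit 185) (nat_lit 5) (nat_lit 184) (nat_lit 4) (nat_lit 383) (nat_lit 337) (nat_lit 300)) (XT.lf (nat_lit 0) (nat_lit 20674240336) (nat_lit 152) (nat_lit 2937321283) (nat_lit 0) (nat_lit 5668069544) (nat_lit 182) (nat_lit 5) (nat_lit 184) (nat_lit 4) (nat_lit 182) (nat_lit 4) (nat_lit 384) (nat_lit 337) (nat_lit 299))) (XT.nd (nat_lit 78) (nat_lit 304) (nat_lit 0) (XT.lf (nat_lit 0) (nat_lit 7156000738) (nat_lit 152) (nat_lit 399435991) (nat_lit 76) (nat_lit 23205792137) (nat_lit 180) (nat_lit 5) (nat_lit 182) (nat_lit 5) (nat_lit 181) (nat_lit 4) (nat_lit 385) (nat_lit 337) (nat_lit 298)) (XT.nd (nat_lit 78) (nat_lit 152) (nat_lit 0) (XT.lf (nat_lit 0) (nat_lit 2383282699) (nat_lit 76) (nat_lit 22172177434) (nat_lit 76) (nat_lit 7764908280) (nat_lit 178) (nat_lit 4) (nat_lit 179) (nat_lit 5) (nat_lit 179) (nat_lit 4) (nat_lit 386) (nat_lit 337) (nat_lit 297)) (XT.lf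 (nat_lit 0) (nat_lit 5408796018) (nat_lit 76) (nat_lit 4282696651) (nat_lit 152) (nat_lit 24273059305) (nat_lit 176) (nat_lit 5) (nat_lit 177) (nat_lit 5) (nat_lit 178) (nat_lit 4) (nat_lit 387) (nat_lit 337) (nat_lit 296))))))))
noncomputable def xc80 : XT := (XT.nd (nat_lit 1248) (nat_lit 1976) (nat_lit 0) (XT.nd (nat_lit 624) (nat_lit 988) (nat_lit 0) (XT.nd (nat_lit 312) (nat_lit 456) (nat_lit 0) (XT.nd (nat_lit 156) (nat_lit 228) (nat_lit 0) (XT.nd (nat_lit 78) (nat_lit 152) (nat_lit 0) (XT.lf (nat_lit 0) (nat_lit 8600969840) (nat_lit 76) (nat_lit 20454715380) (nat_lit 76) (nat_lit 6639054116) (nat_lit 175) (nat_lit 4) (nat_lit 176) (nat_lit 5) (nat_lit 176) (nat_lit 4) (nat_lit 388) (nat_lit 337) (nat_lit 295)) (XT.lf (nat_lit 0) (nat_lit 12093727439) (nat_lit 76) (nat_lit 565509090) (nat_lit 152) (nat_lit 24861889593) (nat_lit 173) (nat_lit 5) (nat_lit 174) (nat_lit 5) (nat_lit 175) (nat_lit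 4) (nat_lit 389) (nat_lit 337) (nat_lit 294))) (XT.nd (nat_lit 78) (nat_lit 152) (nat_lit 0) (XT.lf (nat_lit 0) (nat_lit 15746916259) (nat_lit 76) (nat_lit 18464514061) (nat_lit 76) (nat_lit 5229619682) (nat_lit 172) (nat_lit 4) (nat_lit 173) (nat_lit 5) (nat_lit 173) (nat_lit 4) (nat_lit 390) (nat_lit 337) (nat_lit 293)) (XT.lf (nat_lit 0) (nat_lit 16178299978) (nat_lit 152) (nat_lit 21747040679) (nat_lit 0) (nat_lit 3540942224) (nat_lit 170) (nat_lit 5) (nat_lit 172) (nat_lit 4) (nat_lit 170) (nat_lit 4) (nat_lit 391) (nat_lit 337) (nat_lit 292)))) (XT.nd (nat_lit 156) (nat_lit 228) (nat_lit 0) (XT.nd (nat_lit 78) (nat_lit 152) (nat_lit 0) (XT.lf (nat_lit 0) (nat_lit 23967181348) (nat_lit 76) (nat_lit 16149815257) (nat_lit 76) (nat_lit 3482183022) (nat_lit 169) (nat_lit 4) (nat_lit 170) (nat_lit 5) (nat_lit 170) (nat_lit 4) (nat_lit 392) (nat_lit 337) (nat_lit 291)) (XT.lf (nat_lit 0) (nat_lit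 20286746892) (nat_lit 152) (nat_lit 17361608609) (nat_lit 0) (nat_lit 8195638166) (nat_lit 167) (nat_lit 5) (nat_lit 169) (nat_lit 4) (nat_lit 167) (nat_lit 4) (nat_lit 393) (nat_lit 337) (nat_lit 290))) (XT.nd (nat_lit 78) (nat_lit 152) (nat_lit 0) (XT.lf (nat_lit 0) (nat_lit 33427843962) (nat_lit 76) (nat_lit 13450678186) (nat_lit 76) (nat_lit 1334849948) (nat_lit 166) (nat_lit 4) (nat_lit 167) (nat_lit 5) (nat_lit 167) (nat_lit 4) (nat_lit 394) (nat_lit 337) (nat_lit 289)) (XT.lf (nat_lit 0) (nat_lit 25064429948) (nat_lit 152) (nat_lit 12133060938) (nat_lit 0) (nat_lit 13503747399) (nat_lit 164) (nat_lit 5) (nat_lit 166) (nat_lit 4) (nat_lit 164) (nat_lit 4) (nat_lit 395) (nat_lit 337) (nat_lit 288))))) (XT.nd (nat_lit 312) (nat_lit 456) (nat_lit 0) (XT.nd (nat_lit 156) (nat_lit 304) (nat_lit 0) (XT.nd (nat_lit 78) (nat_lit 76) (nat_lit 0) (XT.lf (nat_lit 0) (nat_lit 1241802210) (nat_lit 152)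 (nat_lit 9035171824) (nat_lit 76) (nat_lit 43054730055) (nat_lit 162) (nat_lit 5) (nat_lit 164) (nat_lit 5) (nat_lit 163) (nat_lit 4) (nat_lit 396) (nat_lit 337) (nat_lit 287)) (XT.lf (nat_lit 0) (nat_lit 30611685552) (nat_lit 152) (nat_lit 5913458936) (nat_lit 0) (nat_lit 19564490250) (nat_lit 161) (nat_lit 5) (nat_lit 163) (nat_lit 4) (nat_lit 161) (nat_lit 4) (nat_lit 397) (nat_lit 337) (nat_lit 286))) (XT.nd (nat_lit 78) (nat_lit 152) (nat_lit 0) (XT.lf (nat_lit 0) (nat_lit 4308799570) (nat_lit 152) (nat_lit 2230636527) (nat_lit 76) (nat_lit 52468702798) (nat_lit 159) (nat_lit 5) (nat_lit 161) (nat_lit 5) (nat_lit 160) (nat_lit 4) (nat_lit 398) (nat_lit 337) (nat_lit 285)) (XT.lf (nat_lit 0) (nat_lit 1514856426) (nat_lit 76) (nat_lit 35550878391) (nat_lit 76) (nat_lit 24999511511) (nat_lit 157) (nat_lit 4) (nat_lit 158) (nat_lit 5) (nat_lit 158) (nat_lit 4) (nat_lit 399) (nat_lit 337) (nat_lit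 284)))) (XT.nd (nat_lit 156) (nat_lit 228) (nat_lit 0) (XT.nd (nat_lit 78) (nat_lit 76) (nat_lit 0) (XT.lf (nat_lit 0) (nat_lit 6022775057) (nat_lit 76) (nat_lit 2068736335) (nat_lit 152) (nat_lit 57207802182) (nat_lit 155) (nat_lit 5) (nat_lit 156) (nat_lit 5) (nat_lit 157) (nat_lit 4) (nat_lit 400) (nat_lit 337) (nat_lit 283)) (XT.lf (nat_lit 0) (nat_lit 10536931240) (nat_lit 76) (nat_lit 34111774415) (nat_lit 76) (nat_lit 24038171610) (nat_lit 154) (nat_lit 4) (nat_lit 155) (nat_lit 5) (nat_lit 155) (nat_lit 4) (nat_lit 401) (nat_lit 337) (nat_lit 282))) (XT.nd (nat_lit 78) (nat_lit 76) (nat_lit 0) (XT.lf (nat_lit 0) (nat_lit 12706507731) (nat_lit 152) (nat_lit 56462668648) (nat_lit 0) (nat_lit 3102136162) (nat_lit 152) (nat_lit 5) (nat_lit 154) (nat_lit 4) (nat_lit 152) (nat_lit 4) (nat_lit 402) (nat_lit 337) (nat_lit 281)) (XT.lf (nat_lit 0) (nat_lit 21185082335) (nat_lit 76) (nat_lit 32229245073)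 (nat_lit 76) (nat_lit 22615184490) (nat_lit 151) (nat_lit 4) (nat_lit 152) (nat_lit 5) (nat_lit 152) (nat_lit 4) (nat_lit 403) (nat_lit 337) (nat_lit 280)))))) (XT.nd (nat_lit 624) (nat_lit 1064) (nat_lit 0) (XT.nd (nat_lit 312) (nat_lit 456) (nat_lit 0) (XT.nd (nat_lit 156) (nat_lit 228) (nat_lit 0) (XT.nd (nat_lit 78) (nat_lit 76) (nat_lit 0) (XT.lf (nat_lit 0) (nat_lit 18232848079) (nat_lit 152) (nat_lit 52699173561) (nat_lit 0) (nat_lit 9068055800) (nat_lit 149) (nat_lit 5) (nat_lit 151) (nat_lit 4) (nat_lit 149) (nat_lit 4) (nat_lit 404) (nat_lit 337) (nat_lit 279)) (XT.lf (nat_lit 0) (nat_lit 33719110261) (nat_lit 76) (nat_lit 29812296961) (nat_lit 76) (nat_lit 20639593474) (nat_lit 148) (nat_lit 4) (nat_lit 149) (nat_lit 5) (nat_lit 149) (nat_lit 4) (nat_lit 405) (nat_lit 337) (nat_lit 278))) (XT.nd (nat_lit 78) (nat_lit 76) (nat_lit 0) (XT.lf (nat_lit 0) (nat_lit 24775863521) (nat_lit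 152) (nat_lit 47760259828) (nat_lit 0) (nat_lit 16032979064) (nat_lit 146) (nat_lit 5) (nat_lit 148) (nat_lit 4) (nat_lit 146) (nat_lit 4) (nat_lit 406) (nat_lit 337) (nat_lit 277)) (XT.lf (nat_lit 0) (nat_lit 48435019117) (nat_lit 76) (nat_lit 26755990668) (nat_lit 76) (nat_lit 18006646605) (nat_lit 145) (nat_lit 4) (nat_lit 146) (nat_lit 5) (nat_lit 146) (nat_lit 4) (nat_lit 407) (nat_lit 337) (nat_lit 276)))) (XT.nd (nat_lit 156) (nat_lit 228) (nat_lit 0) (XT.nd (nat_lit 78) (nat_lit 76) (nat_lit 0) (XT.lf (nat_lit 0) (nat_lit 32492241482) (nat_lit 152) (nat_lit 41423084249) (nat_lit 0) (nat_lit 24153836550) (nat_lit 143) (nat_lit 5) (nat_lit 145) (nat_lit 4) (nat_lit 143) (nat_lit 4) (nat_lit 408) (nat_lit 337) (nat_lit 275)) (XT.lf (nat_lit 0) (nat_lit 65669808799) (nat_lit 76) (nat_lit 22939520934) (nat_lit 76) (nat_lit 14595841649) (nat_lit 142) (nat_lit 4) (nat_lit 143) (nat_lit 5) (nat_lit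 143) (nat_lit 4) (nat_lit 409) (nat_lit 337) (nat_lit 274))) (XT.nd (nat_lit 78) (nat_lit 76) (nat_lit 0) (XT.lf (nat_lit 0) (nat_lit 41560268413) (nat_lit 152) (nat_lit 33431367285) (nat_lit 0) (nat_lit 33609256085) (nat_lit 140) (nat_lit 5) (nat_lit 142) (nat_lit 4) (nat_lit 140) (nat_lit 4) (nat_lit 410) (nat_lit 337) (nat_lit 273)) (XT.lf (nat_lit 0) (nat_lit 85806881294) (nat_lit 76) (nat_lit 18224036373) (nat_lit 76) (nat_lit 10268717466) (nat_lit 139) (nat_lit 4) (nat_lit 140) (nat_lit 5) (nat_lit 140) (nat_lit 4) (nat_lit 411) (nat_lit 337) (nat_lit 272))))) (XT.nd (nat_lit 312) (nat_lit 532) (nat_lit 0) (XT.nd (nat_lit 156) (nat_lit 304) (nat_lit 0) (XT.nd (nat_lit 78) (nat_lit 76) (nat_lit 0) (XT.lf (nat_lit 0) (nat_lit 52182691135) (nat_lit 152) (nat_lit 23490764481) (nat_lit 0) (nat_lit 44602399249) (nat_lit 137) (nat_lit 5) (nat_lit 139) (nat_lit 4) (nat_lit 137) (nat_lit 4) (nat_lit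 412) (nat_lit 337) (nat_lit 271)) (XT.lf (nat_lit 0) (nat_lit 109282136646) (nat_lit 76) (nat_lit 12450166980) (nat_lit 76) (nat_lit 4866358716) (nat_lit 136) (nat_lit 4) (nat_lit 137) (nat_lit 5) (nat_lit 137) (nat_lit 4) (nat_lit 413) (nat_lit 337) (nat_lit 270))) (XT.nd (nat_lit 78) (nat_lit 152) (nat_lit 0) (XT.lf (nat_lit 0) (nat_lit 64589938421) (nat_lit 152) (nat_lit 11263628943) (nat_lit 0) (nat_lit 57364163023) (nat_lit 134) (nat_lit 5) (nat_lit 136) (nat_lit 4) (nat_lit 134) (nat_lit 4) (nat_lit 414) (nat_lit 337) (nat_lit 269)) (XT.lf (nat_lit 0) (nat_lit 1736022350) (nat_lit 152) (nat_lit 3669800750) (nat_lit 76) (nat_lit 134825420876) (nat_lit 132) (nat_lit 5) (nat_lit 134) (nat_lit 5) (nat_lit 133) (nat_lit 4) (nat_lit 415) (nat_lit 337) (nat_lit 268)))) (XT.nd (nat_lit 156) (nat_lit 228) (nat_lit 0) (XT.nd (nat_lit 78) (nat_lit 152) (nat_lit 0) (XT.lf (nat_lit 0) (nat_lit 3757164600)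 (nat_lit 76) (nat_lit 75345243242) (nat_lit 76) (nat_lit 68458286044) (nat_lit 130) (nat_lit 4) (nat_lit 131) (nat_lit 5) (nat_lit 131) (nat_lit 4) (nat_lit 416) (nat_lit 337) (nat_lit 267)) (XT.lf (nat_lit 0) (nat_lit 9861384039) (nat_lit 152) (nat_lit 142163883236) (nat_lit 0) (nat_lit 3300144472) (nat_lit 128) (nat_lit 5) (nat_lit 130) (nat_lit 4) (nat_lit 128) (nat_lit 4) (nat_lit 417) (nat_lit 337) (nat_lit 266))) (XT.nd (nat_lit 78) (nat_lit 152) (nat_lit 0) (XT.lf (nat_lit 0) (nat_lit 22369618845) (nat_lit 76) (nat_lit 73820882895) (nat_lit 76) (nat_lit 67257576003) (nat_lit 127) (nat_lit 4) (nat_lit 128) (nat_lit 5) (nat_lit 128) (nat_lit 4) (nat_lit 418) (nat_lit 337) (nat_lit 265)) (XT.lf (nat_lit 0) (nat_lit 19863532313) (nat_lit 152) (nat_lit 138572211660) (nat_lit 0) (nat_lit 13610940806) (nat_lit 125) (nat_lit 5) (nat_lit 127) (nat_lit 4) (nat_lit 125) (nat_lit 4) (nat_lit 419)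 (nat_lit 337) (nat_lit 264)))))))
noncomputable def xc81 : XT := (XT.nd (nat_lit 1248) (nat_lit 1368) (nat_lit 0) (XT.nd (nat_lit 624) (nat_lit 988) (nat_lit 0) (XT.nd (nat_lit 312) (nat_lit 456) (nat_lit 0) (XT.nd (nat_lit 156) (nat_lit 228) (nat_lit 0) (XT.nd (nat_lit 78) (nat_lit 152) (nat_lit 0) (XT.lf (nat_lit 0) (nat_lit 44724325673) (nat_lit 76) (nat_lit 71293505530) (nat_lit 76) (nat_lit 65039226024) (nat_lit 124) (nat_lit 4) (nat_lit 125) (nat_lit 5) (nat_lit 125) (nat_lit 4) (nat_lit 420) (nat_lit 337) (nat_lit 263)) (XT.lf (nat_lit 0) (nat_lit 31875207851) (nat_lit 152) (nat_lit 132786610229) (nat_lit 0) (nat_lit 25917262644) (nat_lit 122) (nat_lit 5) (nat_lit 124) (nat_lit 4) (nat_lit 122) (nat_lit 4) (nat_lit 421) (nat_lit 337) (nat_lit 262))) (XT.nd (nat_lit 78) (nat_lit 152) (nat_lit 0) (XT.lf (nat_lit 0) (nat_lit 71418712378) (nat_lit 76) (nat_lit 67557286674) (nat_lit 76) (nat_lit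 61597963194) (nat_lit 121) (nat_lit 4) (nat_lit 122) (nat_lit 5) (nat_lit 122) (nat_lit 4) (nat_lit 422) (nat_lit 337) (nat_lit 261)) (XT.lf (nat_lit 0) (nat_lit 46213040717) (nat_lit 152) (nat_lit 124369244270) (nat_lit 0) (nat_lit 40536279137) (nat_lit 119) (nat_lit 5) (nat_lit 121) (nat_lit 4) (nat_lit 119) (nat_lit 4) (nat_lit 423) (nat_lit 337) (nat_lit 260)))) (XT.nd (nat_lit 156) (nat_lit 228) (nat_lit 0) (XT.nd (nat_lit 78) (nat_lit 152) (nat_lit 0) (XT.lf (nat_lit 0) (nat_lit 103134577013) (nat_lit 76) (nat_lit 62374325234) (nat_lit 76) (nat_lit 56696438276) (nat_lit 118) (nat_lit 4) (nat_lit 119) (nat_lit 5) (nat_lit 119) (nat_lit 4) (nat_lit 424) (nat_lit 337) (nat_lit 259)) (XT.lf (nat_lit 0) (nat_lit 63238243997) (nat_lit 152) (nat_lit 112814370894) (nat_lit 0) (nat_lit 57829740212) (nat_lit 116) (nat_lit 5) (nat_lit 118) (nat_lit 4) (nat_lit 116) (nat_lit 4) (nat_lit 425) (nat_lit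 337) (nat_lit 258))) (XT.nd (nat_lit 78) (nat_lit 152) (nat_lit 0) (XT.lf (nat_lit 0) (nat_lit 140649329348) (nat_lit 76) (nat_lit 55470122882) (nat_lit 76) (nat_lit 50060700211) (nat_lit 115) (nat_lit 4) (nat_lit 116) (nat_lit 5) (nat_lit 116) (nat_lit 4) (nat_lit 426) (nat_lit 337) (nat_lit 257)) (XT.lf (nat_lit 0) (nat_lit 83362540718) (nat_lit 152) (nat_lit 97538796209) (nat_lit 0) (nat_lit 78209899297) (nat_lit 113) (nat_lit 5) (nat_lit 115) (nat_lit 4) (nat_lit 113) (nat_lit 4) (nat_lit 427) (nat_lit 337) (nat_lit 256))))) (XT.nd (nat_lit 312) (nat_lit 532) (nat_lit 0) (XT.nd (nat_lit 156) (nat_lit 228) (nat_lit 0) (XT.nd (nat_lit 78) (nat_lit 152) (nat_lit 0) (XT.lf (nat_lit 0) (nat_lit 184848670587) (nat_lit 76) (nat_lit 46528462842) (nat_lit 76) (nat_lit 41375071139) (nat_lit 112) (nat_lit 4) (nat_lit 113) (nat_lit 5) (nat_lit 113) (nat_lit 4) (nat_lit 428) (nat_lit 337) (nat_lit 255))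 (XT.lf (nat_lit 0) (nat_lit 107054847320) (nat_lit 152) (nat_lit 77871069152) (nat_lit 0) (nat_lit 102146193597) (nat_lit 110) (nat_lit 5) (nat_lit 112) (nat_lit 4) (nat_lit 110) (nat_lit 4) (nat_lit 429) (nat_lit 337) (nat_lit 254))) (XT.nd (nat_lit 78) (nat_lit 152) (nat_lit 0) (XT.lf (nat_lit 0) (nat_lit 236740891012) (nat_lit 76) (nat_lit 35185611566) (nat_lit 76) (nat_lit 30276345227) (nat_lit 109) (nat_lit 4) (nat_lit 110) (nat_lit 5) (nat_lit 110) (nat_lit 4) (nat_lit 430) (nat_lit 337) (nat_lit 253)) (XT.lf (nat_lit 0) (nat_lit 134848807986) (nat_lit 152) (nat_lit 53039250913) (nat_lit 0) (nat_lit 130172776010) (nat_lit 107) (nat_lit 5) (nat_lit 109) (nat_lit 4) (nat_lit 107) (nat_lit 4) (nat_lit 431) (nat_lit 337) (nat_lit 252)))) (XT.nd (nat_lit 156) (nat_lit 304) (nat_lit 0) (XT.nd (nat_lit 78) (nat_lit 152) (nat_lit 0) (XT.lf (nat_lit 0) (nat_lit 297472986628) (nat_lit 76) (nat_lit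 21023757278) (nat_lit 76) (nat_lit 16347225092) (nat_lit 106) (nat_lit 4) (nat_lit 107) (nat_lit 5) (nat_lit 107) (nat_lit 4) (nat_lit 432) (nat_lit 337) (nat_lit 251)) (XT.lf (nat_lit 0) (nat_lit 167351285545) (nat_lit 152) (nat_lit 22157078815) (nat_lit 0) (nat_lit 162897004267) (nat_lit 104) (nat_lit 5) (nat_lit 106) (nat_lit 4) (nat_lit 104) (nat_lit 4) (nat_lit 433) (nat_lit 337) (nat_lit 250))) (XT.nd (nat_lit 78) (nat_lit 152) (nat_lit 0) (XT.lf (nat_lit 0) (nat_lit 862580294) (nat_lit 152) (nat_lit 2686400100) (nat_lit 76) (nat_lit 367471631883) (nat_lit 102) (nat_lit 5) (nat_lit 104) (nat_lit 5) (nat_lit 103) (nat_lit 4) (nat_lit 434) (nat_lit 337) (nat_lit 249)) (XT.lf (nat_lit 0) (nat_lit 16313823088) (nat_lit 76) (nat_lit 189192808998) (nat_lit 76) (nat_lit 184949887210) (nat_lit 100) (nat_lit 4) (nat_lit 101) (nat_lit 5) (nat_lit 101) (nat_lit 4) (nat_lit 435) (nat_lit 337) (nat_lit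 248)))))) (XT.nd (nat_lit 624) (nat_lit 456) (nat_lit 0) (XT.nd (nat_lit 312) (nat_lit 456) (nat_lit 0) (XT.nd (nat_lit 156) (nat_lit 228) (nat_lit 0) (XT.nd (nat_lit 78) (nat_lit 76) (nat_lit 0) (XT.lf (nat_lit 0) (nat_lit 22211988411) (nat_lit 152) (nat_lit 370671770949) (nat_lit 0) (nat_lit 18170792912) (nat_lit 98) (nat_lit 5) (nat_lit 100) (nat_lit 4) (nat_lit 98) (nat_lit 4) (nat_lit 436) (nat_lit 337) (nat_lit 247)) (XT.lf (nat_lit 0) (nat_lit 64019943977) (nat_lit 76) (nat_lit 186313527594) (nat_lit 76) (nat_lit 182272038016) (nat_lit 97) (nat_lit 4) (nat_lit 98) (nat_lit 5) (nat_lit 98) (nat_lit 4) (nat_lit 437) (nat_lit 337) (nat_lit 246))) (XT.nd (nat_lit 78) (nat_lit 76) (nat_lit 0) (XT.lf (nat_lit 0) (nat_lit 48220096654) (nat_lit 152) (nat_lit 362822648555) (nat_lit 0) (nat_lit 44370799631) (nat_lit 95) (nat_lit 5) (nat_lit 97) (nat_lit 4) (nat_lit 95) (nat_lit 4) (nat_lit 438)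 (nat_lit 337) (nat_lit 245)) (XT.lf (nat_lit 0) (nat_lit 121604210451) (nat_lit 76) (nat_lit 180780594957) (nat_lit 76) (nat_lit 176931057814) (nat_lit 94) (nat_lit 4) (nat_lit 95) (nat_lit 5) (nat_lit 95) (nat_lit 4) (nat_lit 439) (nat_lit 337) (nat_lit 244)))) (XT.nd (nat_lit 156) (nat_lit 228) (nat_lit 0) (XT.nd (nat_lit 78) (nat_lit 76) (nat_lit 0) (XT.lf (nat_lit 0) (nat_lit 79517445692) (nat_lit 152) (nat_lit 349202818326) (nat_lit 0) (nat_lit 75851008096) (nat_lit 92) (nat_lit 5) (nat_lit 94) (nat_lit 4) (nat_lit 92) (nat_lit 4) (nat_lit 440) (nat_lit 337) (nat_lit 243)) (XT.lf (nat_lit 0) (nat_lit 190638642309) (nat_lit 76) (nat_lit 172054779924) (nat_lit 76) (nat_lit 168388146267) (nat_lit 91) (nat_lit 4) (nat_lit 92) (nat_lit 5) (nat_lit 92) (nat_lit 4) (nat_lit 441) (nat_lit 337) (nat_lit 242))) (XT.nd (nat_lit 78) (nat_lit 76) (nat_lit 0) (XT.lf (nat_lit 0) (nat_lit 116937888440)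 (nat_lit 152) (nat_lit 328663688353) (nat_lit 0) (nat_lit 113445683492) (nat_lit 89) (nat_lit 5) (nat_lit 91) (nat_lit 4) (nat_lit 89) (nat_lit 4) (nat_lit 442) (nat_lit 337) (nat_lit 241)) (XT.lf (nat_lit 0) (nat_lit 272918050950) (nat_lit 76) (nat_lit 159512254223) (nat_lit 76) (nat_lit 156019889189) (nat_lit 88) (nat_lit 4) (nat_lit 89) (nat_lit 5) (nat_lit 89) (nat_lit 4) (nat_lit 443) (nat_lit 337) (nat_lit 240))))) (XT.nd (nat_lit 45318) (nat_lit 0) (nat_lit 18012) (XT.nd (nat_lit 156) (nat_lit 228) (nat_lit 0) (XT.nd (nat_lit 78) (nat_lit 76) (nat_lit 0) (XT.lf (nat_lit 0) (nat_lit 161433012427) (nat_lit 152) (nat_lit 299877545656) (nat_lit 0) (nat_lit 158106809320) (nat_lit 86) (nat_lit 5) (nat_lit 88) (nat_lit 4) (nat_lit 86) (nat_lit 4) (nat_lit 444) (nat_lit 337) (nat_lit 239)) (XT.lf (nat_lit 0) (nat_lit 370489730973) (nat_lit 76) (nat_lit 142432655557) (nat_lit 76) (nat_lit 139106321738)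 (nat_lit 85) (nat_lit 4) (nat_lit 86) (nat_lit 5) (nat_lit 86) (nat_lit 4) (nat_lit 445) (nat_lit 337) (nat_lit 238))) (XT.nd (nat_lit 78) (nat_lit 76) (nat_lit 0) (XT.lf (nat_lit 0) (nat_lit 214087789882) (nat_lit 152) (nat_lit 261312370533) (nat_lit 0) (nat_lit 210919737645) (nat_lit 83) (nat_lit 5) (nat_lit 85) (nat_lit 4) (nat_lit 83) (nat_lit 4) (nat_lit 446) (nat_lit 337) (nat_lit 237)) (XT.lf (nat_lit 0) (nat_lit 485686954117) (nat_lit 76) (nat_lit 119985565722) (nat_lit 76) (nat_lit 116817406756) (nat_lit 82) (nat_lit 4) (nat_lit 83) (nat_lit 5) (nat_lit 83) (nat_lit 4) (nat_lit 447) (nat_lit 337) (nat_lit 236)))) (XT.nd (nat_lit 156) (nat_lit 1520) (nat_lit 0) (XT.nd (nat_lit 78) (nat_lit 380) (nat_lit 0) (XT.lf (nat_lit 0) (nat_lit 1694184972) (nat_lit 228) (nat_lit 791741109) (nat_lit 228) (nat_lit 791741109) (nat_lit 344) (nat_lit 4) (nat_lit 347) (nat_lit 5) (nat_lit 347) (nat_lit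 4) (nat_lit 344) (nat_lit 338) (nat_lit 338)) (XT.lf (nat_lit 0) (nat_lit 3303257196) (nat_lit 304) (nat_lit 208845136) (nat_lit 380) (nat_lit 3110223319) (nat_lit 339) (nat_lit 5) (nat_lit 343) (nat_lit 5) (nat_lit 344) (nat_lit 4) (nat_lit 345) (nat_lit 338) (nat_lit 337))) (XT.nd (nat_lit 78) (nat_lit 1064) (nat_lit 0) (XT.lf (nat_lit 0) (nat_lit 1867565854) (nat_lit 456) (nat_lit 3318605853) (nat_lit 76) (nat_lit 1521755806) (nat_lit 333) (nat_lit 5) (nat_lit 339) (nat_lit 5) (nat_lit 334) (nat_lit 4) (nat_lit 346) (nat_lit 338) (nat_lit 336)) (XT.nd (nat_lit 78) (nat_lit 532) (nat_lit 0) (XT.lf (nat_lit 0) (nat_lit 11843743) (nat_lit 532) (nat_lit 3149863938) (nat_lit 76) (nat_lit 3651565575) (nat_lit 326) (nat_lit 5) (nat_lit 333) (nat_lit 5) (nat_lit 327) (nat_lit 5) (nat_lit 347) (nat_lit 338) (nat_lit 335)) (XT.lf (nat_lit 0) (nat_lit 4096475302) (nat_lit 532) (nat_lit 701095027) (nat_lit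 608) (nat_lit 2139762448) (nat_lit 319) (nat_lit 5) (nat_lit 326) (nat_lit 5) (nat_lit 327) (nat_lit 5) (nat_lit 348) (nat_lit 338) (nat_lit 334))))))))
noncomputable def xc82 : XT := (XT.nd (nat_lit 1248) (nat_lit 2888) (nat_lit 0) (XT.nd (nat_lit 624) (nat_lit 2432) (nat_lit 0) (XT.nd (nat_lit 312) (nat_lit 1824) (nat_lit 0) (XT.nd (nat_lit 156) (nat_lit 1292) (nat_lit 0) (XT.nd (nat_lit 78) (nat_lit 760) (nat_lit 0) (XT.lf (nat_lit 0) (nat_lit 2574558431) (nat_lit 684) (nat_lit 2392828811) (nat_lit 76) (nat_lit 2113051323) (nat_lit 310) (nat_lit 5) (nat_lit 319) (nat_lit 5) (nat_lit 311) (nat_lit 5) (nat_lit 349) (nat_lit 338) (nat_lit 333)) (XT.lf (nat_lit 0) (nat_lit 124271404) (nat_lit 760) (nat_lit 1784695863) (nat_lit 76) (nat_lit 5335097085) (nat_lit 300) (nat_lit 5) (nat_lit 310) (nat_lit 5) (nat_lit 301) (nat_lit 5) (nat_lit 350) (nat_lit 338) (nat_lit 332))) (XT.nd (nat_lit 78) (nat_lit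 532) (nat_lit 0) (XT.lf (nat_lit 0) (nat_lit 4785892963) (nat_lit 836) (nat_lit 1066761259) (nat_lit 76) (nat_lit 1573486538) (nat_lit 290) (nat_lit 5) (nat_lit 301) (nat_lit 5) (nat_lit 291) (nat_lit 5) (nat_lit 351) (nat_lit 338) (nat_lit 331)) (XT.lf (nat_lit 0) (nat_lit 1975116174) (nat_lit 532) (nat_lit 208281632) (nat_lit 76) (nat_lit 5445280186) (nat_lit 283) (nat_lit 5) (nat_lit 290) (nat_lit 5) (nat_lit 284) (nat_lit 5) (nat_lit 352) (nat_lit 338) (nat_lit 330)))) (XT.nd (nat_lit 156) (nat_lit 684) (nat_lit 0) (XT.nd (nat_lit 78) (nat_lit 380) (nat_lit 0) (XT.lf (nat_lit 0) (nat_lit 807909180) (nat_lit 380) (nat_lit 5942133639) (nat_lit 456) (nat_lit 1101069499) (nat_lit 273) (nat_lit 5) (nat_lit 278) (nat_lit 5) (nat_lit 279) (nat_lit 5) (nat_lit 353) (nat_lit 338) (nat_lit 329)) (XT.lf (nat_lit 0) (nat_lit 1945554254) (nat_lit 304) (nat_lit 1649184409) (nat_lit 380) (nat_lit 4498562087)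 (nat_lit 268) (nat_lit 5) (nat_lit 272) (nat_lit 5) (nat_lit 273) (nat_lit 5) (nat_lit 354) (nat_lit 338) (nat_lit 328))) (XT.nd (nat_lit 78) (nat_lit 304) (nat_lit 0) (XT.lf (nat_lit 0) (nat_lit 193937952) (nat_lit 380) (nat_lit 5131744034) (nat_lit 76) (nat_lit 3031614936) (nat_lit 263) (nat_lit 5) (nat_lit 268) (nat_lit 5) (nat_lit 264) (nat_lit 5) (nat_lit 355) (nat_lit 338) (nat_lit 327)) (XT.lf (nat_lit 0) (nat_lit 4616575648) (nat_lit 304) (nat_lit 418082199) (nat_lit 380) (nat_lit 3607546217) (nat_lit 259) (nat_lit 5) (nat_lit 263) (nat_lit 5) (nat_lit 264) (nat_lit 5) (nat_lit 356) (nat_lit 338) (nat_lit 326))))) (XT.nd (nat_lit 312) (nat_lit 988) (nat_lit 0) (XT.nd (nat_lit 156) (nat_lit 836) (nat_lit 0) (XT.nd (nat_lit 78) (nat_lit 228) (nat_lit 0) (XT.lf (nat_lit 0) (nat_lit 1267571672) (nat_lit 380) (nat_lit 2822332122) (nat_lit 76) (nat_lit 4859132427) (nat_lit 254) (nat_lit 5)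 (nat_lit 259) (nat_lit 5) (nat_lit 255) (nat_lit 5) (nat_lit 357) (nat_lit 338) (nat_lit 325)) (XT.lf (nat_lit 0) (nat_lit 6374596579) (nat_lit 304) (nat_lit 1510815217) (nat_lit 76) (nat_lit 1393631726) (nat_lit 251) (nat_lit 5) (nat_lit 255) (nat_lit 5) (nat_lit 252) (nat_lit 5) (nat_lit 358) (nat_lit 338) (nat_lit 324))) (XT.nd (nat_lit 78) (nat_lit 456) (nat_lit 0) (XT.lf (nat_lit 0) (nat_lit 2207815114) (nat_lit 380) (nat_lit 101767203) (nat_lit 76) (nat_lit 7322846529) (nat_lit 246) (nat_lit 5) (nat_lit 251) (nat_lit 5) (nat_lit 247) (nat_lit 5) (nat_lit 359) (nat_lit 338) (nat_lit 323)) (XT.lf (nat_lit 0) (nat_lit 1452399882) (nat_lit 228) (nat_lit 6231148512) (nat_lit 304) (nat_lit 2325343512) (nat_lit 240) (nat_lit 5) (nat_lit 243) (nat_lit 5) (nat_lit 244) (nat_lit 5) (nat_lit 360) (nat_lit 338) (nat_lit 322)))) (XT.nd (nat_lit 156) (nat_lit 456) (nat_lit 0) (XT.nd (nat_lit 78) (nat_lit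 228) (nat_lit 0) (XT.lf (nat_lit 0) (nat_lit 3110074631) (nat_lit 304) (nat_lit 7273209477) (nat_lit 76) (nat_lit 28201710) (nat_lit 236) (nat_lit 5) (nat_lit 240) (nat_lit 5) (nat_lit 237) (nat_lit 5) (nat_lit 361) (nat_lit 338) (nat_lit 321)) (XT.lf (nat_lit 0) (nat_lit 4902709764) (nat_lit 228) (nat_lit 4108007154) (nat_lit 304) (nat_lit 1828071335) (nat_lit 233) (nat_lit 5) (nat_lit 236) (nat_lit 5) (nat_lit 237) (nat_lit 5) (nat_lit 362) (nat_lit 338) (nat_lit 320))) (XT.nd (nat_lit 78) (nat_lit 228) (nat_lit 0) (XT.lf (nat_lit 0) (nat_lit 4018211370) (nat_lit 228) (nat_lit 4504282094) (nat_lit 76) (nat_lit 2771305884) (nat_lit 230) (nat_lit 5) (nat_lit 233) (nat_lit 5) (nat_lit 231) (nat_lit 5) (nat_lit 363) (nat_lit 338) (nat_lit 319)) (XT.lf (nat_lit 0) (nat_lit 8816683343) (nat_lit 228) (nat_lit 1558954046) (nat_lit 304) (nat_lit 1402701154) (nat_lit 227) (nat_lit 5) (nat_lit 230) (nat_lit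 5) (nat_lit 231) (nat_lit 5) (nat_lit 364) (nat_lit 338) (nat_lit 318)))))) (XT.nd (nat_lit 624) (nat_lit 1292) (nat_lit 0) (XT.nd (nat_lit 312) (nat_lit 684) (nat_lit 0) (XT.nd (nat_lit 156) (nat_lit 380) (nat_lit 0) (XT.nd (nat_lit 78) (nat_lit 304) (nat_lit 0) (XT.lf (nat_lit 0) (nat_lit 4931971315) (nat_lit 228) (nat_lit 1372001932) (nat_lit 76) (nat_lit 5986307944) (nat_lit 224) (nat_lit 5) (nat_lit 227) (nat_lit 5) (nat_lit 225) (nat_lit 5) (nat_lit 365) (nat_lit 338) (nat_lit 317)) (XT.lf (nat_lit 0) (nat_lit 384824379) (nat_lit 152) (nat_lit 11463220531) (nat_lit 228) (nat_lit 987796030) (nat_lit 220) (nat_lit 5) (nat_lit 222) (nat_lit 5) (nat_lit 223) (nat_lit 4) (nat_lit 366) (nat_lit 338) (nat_lit 316))) (XT.nd (nat_lit 78) (nat_lit 152) (nat_lit 0) (XT.lf (nat_lit 0) (nat_lit 2227125814) (nat_lit 152) (nat_lit 3694328841) (nat_lit 228) (nat_lit 7488106602) (nat_lit 217) (nat_lit 5)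 (nat_lit 219) (nat_lit 5) (nat_lit 220) (nat_lit 5) (nat_lit 367) (nat_lit 338) (nat_lit 315)) (XT.lf (nat_lit 0) (nat_lit 4230035571) (nat_lit 152) (nat_lit 9295562675) (nat_lit 228) (nat_lit 493933264) (nat_lit 215) (nat_lit 5) (nat_lit 217) (nat_lit 5) (nat_lit 218) (nat_lit 4) (nat_lit 368) (nat_lit 338) (nat_lit 314)))) (XT.nd (nat_lit 156) (nat_lit 304) (nat_lit 0) (XT.nd (nat_lit 78) (nat_lit 152) (nat_lit 0) (XT.lf (nat_lit 0) (nat_lit 6323245609) (nat_lit 152) (nat_lit 692050610) (nat_lit 228) (nat_lit 7648418063) (nat_lit 212) (nat_lit 5) (nat_lit 214) (nat_lit 5) (nat_lit 215) (nat_lit 5) (nat_lit 369) (nat_lit 338) (nat_lit 313)) (XT.lf (nat_lit 0) (nat_lit 31712749) (nat_lit 152) (nat_lit 6796801948) (nat_lit 76) (nat_lit 8516970872) (nat_lit 210) (nat_lit 5) (nat_lit 212) (nat_lit 5) (nat_lit 211) (nat_lit 5) (nat_lit 370) (nat_lit 338) (nat_lit 312))) (XT.nd (nat_lit 78) (nat_lit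 152) (nat_lit 0) (XT.lf (nat_lit 0) (nat_lit 8268371017) (nat_lit 228) (nat_lit 5185380506) (nat_lit 76) (nat_lit 2611273825) (nat_lit 208) (nat_lit 5) (nat_lit 211) (nat_lit 5) (nat_lit 209) (nat_lit 4) (nat_lit 371) (nat_lit 338) (nat_lit 311)) (XT.lf (nat_lit 0) (nat_lit 601303808) (nat_lit 152) (nat_lit 3437180584) (nat_lit 76) (nat_lit 12788904138) (nat_lit 206) (nat_lit 5) (nat_lit 208) (nat_lit 5) (nat_lit 207) (nat_lit 5) (nat_lit 372) (nat_lit 338) (nat_lit 310))))) (XT.nd (nat_lit 312) (nat_lit 532) (nat_lit 0) (XT.nd (nat_lit 156) (nat_lit 304) (nat_lit 0) (XT.nd (nat_lit 78) (nat_lit 304) (nat_lit 0) (XT.lf (nat_lit 0) (nat_lit 9691587541) (nat_lit 228) (nat_lit 1644091122) (nat_lit 76) (nat_lit 6293989116) (nat_lit 204) (nat_lit 5) (nat_lit 207) (nat_lit 5) (nat_lit 205) (nat_lit 4) (nat_lit 373) (nat_lit 338) (nat_lit 309)) (XT.lf (nat_lit 0) (nat_lit 360886749) (nat_lit 152) (nat_lit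 903861472) (nat_lit 228) (nat_lit 17216380146) (nat_lit 200) (nat_lit 5) (nat_lit 202) (nat_lit 5) (nat_lit 203) (nat_lit 5) (nat_lit 374) (nat_lit 338) (nat_lit 308))) (XT.nd (nat_lit 78) (nat_lit 228) (nat_lit 0) (XT.lf (nat_lit 0) (nat_lit 2428736662) (nat_lit 76) (nat_lit 8921320823) (nat_lit 152) (nat_lit 8022923385) (nat_lit 199) (nat_lit 5) (nat_lit 200) (nat_lit 5) (nat_lit 201) (nat_lit 4) (nat_lit 375) (nat_lit 338) (nat_lit 307)) (XT.lf (nat_lit 0) (nat_lit 2151057038) (nat_lit 228) (nat_lit 15585869587) (nat_lit 76) (nat_lit 2582464473) (nat_lit 196) (nat_lit 5) (nat_lit 199) (nat_lit 5) (nat_lit 197) (nat_lit 4) (nat_lit 376) (nat_lit 338) (nat_lit 306)))) (XT.nd (nat_lit 156) (nat_lit 228) (nat_lit 0) (XT.nd (nat_lit 78) (nat_lit 228) (nat_lit 0) (XT.lf (nat_lit 0) (nat_lit 7093368018) (nat_lit 76) (nat_lit 6188023086) (nat_lit 152) (nat_lit 8032370906) (nat_lit 195) (nat_lit 5)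 (nat_lit 196) (nat_lit 5) (nat_lit 197) (nat_lit 4) (nat_lit 377) (nat_lit 338) (nat_lit 305)) (XT.lf (nat_lit 0) (nat_lit 3216550761) (nat_lit 228) (nat_lit 12702463950) (nat_lit 76) (nat_lit 6446624597) (nat_lit 192) (nat_lit 5) (nat_lit 195) (nat_lit 5) (nat_lit 193) (nat_lit 4) (nat_lit 378) (nat_lit 338) (nat_lit 304))) (XT.nd (nat_lit 78) (nat_lit 152) (nat_lit 0) (XT.lf (nat_lit 0) (nat_lit 12374901331) (nat_lit 76) (nat_lit 3129454801) (nat_lit 152) (nat_lit 7969707493) (nat_lit 191) (nat_lit 5) (nat_lit 192) (nat_lit 5) (nat_lit 193) (nat_lit 4) (nat_lit 379) (nat_lit 338) (nat_lit 303)) (XT.lf (nat_lit 0) (nat_lit 4483414340) (nat_lit 152) (nat_lit 9393115918) (nat_lit 76) (nat_lit 10765890628) (nat_lit 189) (nat_lit 5) (nat_lit 191) (nat_lit 5) (nat_lit 190) (nat_lit 4) (nat_lit 380) (nat_lit 338) (nat_lit 302)))))))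
noncomputable def xc83 : XT := (XT.nd (nat_lit 1248) (nat_lit 2052) (nat_lit 0) (XT.nd (nat_lit 624) (nat_lit 912) (nat_lit 0) (XT.nd (nat_lit 312) (nat_lit 532) (nat_lit 0) (XT.nd (nat_lit 156) (nat_lit 228) (nat_lit 0) (XT.nd (nat_lit 78) (nat_lit 152) (nat_lit 0) (XT.lf (nat_lit 0) (nat_lit 18073287141) (nat_lit 152) (nat_lit 7516900394) (nat_lit 0) (nat_lit 286540597) (nat_lit 188) (nat_lit 5) (nat_lit 190) (nat_lit 4) (nat_lit 188) (nat_lit 4) (nat_lit 381) (nat_lit 338) (nat_lit 301)) (XT.lf (nat_lit 0) (nat_lit 5991587682) (nat_lit 152) (nat_lit 5585092814) (nat_lit 76) (nat_lit 15597356737) (nat_lit 186) (nat_lit 5) (nat_lit 188) (nat_lit 5) (nat_lit 187) (nat_lit 4) (nat_lit 382) (nat_lit 338) (nat_lit 300))) (XT.nd (nat_lit 78) (nat_lit 152) (nat_lit 0) (XT.lf (nat_lit 0) (nat_lit 21093937239) (nat_lit 152) (nat_lit 3445519993) (nat_lit 0) (nat_lit 4005421908) (nat_lit 185) (nat_lit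 5) (nat_lit 187) (nat_lit 4) (nat_lit 185) (nat_lit 4) (nat_lit 383) (nat_lit 338) (nat_lit 299)) (XT.lf (nat_lit 0) (nat_lit 7785419051) (nat_lit 152) (nat_lit 1194626325) (nat_lit 76) (nat_lit 21007457137) (nat_lit 183) (nat_lit 5) (nat_lit 185) (nat_lit 5) (nat_lit 184) (nat_lit 4) (nat_lit 384) (nat_lit 338) (nat_lit 298)))) (XT.nd (nat_lit 156) (nat_lit 228) (nat_lit 0) (XT.nd (nat_lit 78) (nat_lit 152) (nat_lit 0) (XT.lf (nat_lit 0) (nat_lit 1294969024) (nat_lit 76) (nat_lit 23304844626) (nat_lit 76) (nat_lit 6908606302) (nat_lit 181) (nat_lit 4) (nat_lit 182) (nat_lit 5) (nat_lit 182) (nat_lit 4) (nat_lit 385) (nat_lit 338) (nat_lit 297)) (XT.lf (nat_lit 0) (nat_lit 4002480279) (nat_lit 76) (nat_lit 5974489547) (nat_lit 152) (nat_lit 23132732898) (nat_lit 179) (nat_lit 5) (nat_lit 180) (nat_lit 5) (nat_lit 181) (nat_lit 4) (nat_lit 386) (nat_lit 338) (nat_lit 296))) (XT.nd (nat_lit 78)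 (nat_lit 152) (nat_lit 0) (XT.lf (nat_lit 0) (nat_lit 6903894838) (nat_lit 76) (nat_lit 21803679706) (nat_lit 76) (nat_lit 6089039462) (nat_lit 178) (nat_lit 4) (nat_lit 179) (nat_lit 5) (nat_lit 179) (nat_lit 4) (nat_lit 387) (nat_lit 338) (nat_lit 295)) (XT.lf (nat_lit 0) (nat_lit 10053600102) (nat_lit 76) (nat_lit 2537809087) (nat_lit 152) (nat_lit 23984077088) (nat_lit 176) (nat_lit 5) (nat_lit 177) (nat_lit 5) (nat_lit 178) (nat_lit 4) (nat_lit 388) (nat_lit 338) (nat_lit 294))))) (XT.nd (nat_lit 312) (nat_lit 456) (nat_lit 0) (XT.nd (nat_lit 156) (nat_lit 228) (nat_lit 0) (XT.nd (nat_lit 78) (nat_lit 152) (nat_lit 0) (XT.lf (nat_lit 0) (nat_lit 13388532937) (nat_lit 76) (nat_lit 20053008672) (nat_lit 76) (nat_lit 5005706795) (nat_lit 175) (nat_lit 4) (nat_lit 176) (nat_lit 5) (nat_lit 176) (nat_lit 4) (nat_lit 389) (nat_lit 338) (nat_lit 293)) (XT.lf (nat_lit 0) (nat_lit 15695689562) (nat_lit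 152) (nat_lit 23395346337) (nat_lit 0) (nat_lit 1330594607) (nat_lit 173) (nat_lit 5) (nat_lit 175) (nat_lit 4) (nat_lit 173) (nat_lit 4) (nat_lit 390) (nat_lit 338) (nat_lit 292))) (XT.nd (nat_lit 78) (nat_lit 152) (nat_lit 0) (XT.lf (nat_lit 0) (nat_lit 20887078666) (nat_lit 76) (nat_lit 18004488683) (nat_lit 76) (nat_lit 3607605523) (nat_lit 172) (nat_lit 4) (nat_lit 173) (nat_lit 5) (nat_lit 173) (nat_lit 4) (nat_lit 391) (nat_lit 338) (nat_lit 291)) (XT.lf (nat_lit 0) (nat_lit 19389721098) (nat_lit 152) (nat_lit 19647634683) (nat_lit 0) (nat_lit 5650371875) (nat_lit 170) (nat_lit 5) (nat_lit 172) (nat_lit 4) (nat_lit 170) (nat_lit 4) (nat_lit 392) (nat_lit 338) (nat_lit 290)))) (XT.nd (nat_lit 156) (nat_lit 228) (nat_lit 0) (XT.nd (nat_lit 78) (nat_lit 152) (nat_lit 0) (XT.lf (nat_lit 0) (nat_lit 29556879490) (nat_lit 76) (nat_lit 15601957591) (nat_lit 76) (nat_lit 1836652880) (nat_lit 169)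 (nat_lit 4) (nat_lit 170) (nat_lit 5) (nat_lit 170) (nat_lit 4) (nat_lit 393) (nat_lit 338) (nat_lit 289)) (XT.lf (nat_lit 0) (nat_lit 23717974216) (nat_lit 152) (nat_lit 15117852797) (nat_lit 0) (nat_lit 10585271768) (nat_lit 167) (nat_lit 5) (nat_lit 169) (nat_lit 4) (nat_lit 167) (nat_lit 4) (nat_lit 394) (nat_lit 338) (nat_lit 288))) (XT.nd (nat_lit 78) (nat_lit 76) (nat_lit 0) (XT.lf (nat_lit 0) (nat_lit 361432951) (nat_lit 152) (nat_lit 12412957895) (nat_lit 76) (nat_lit 39209329945) (nat_lit 165) (nat_lit 5) (nat_lit 167) (nat_lit 5) (nat_lit 166) (nat_lit 4) (nat_lit 395) (nat_lit 338) (nat_lit 287)) (XT.lf (nat_lit 0) (nat_lit 28775671281) (nat_lit 152) (nat_lit 9666898623) (nat_lit 0) (nat_lit 16229463098) (nat_lit 164) (nat_lit 5) (nat_lit 166) (nat_lit 4) (nat_lit 164) (nat_lit 4) (nat_lit 396) (nat_lit 338) (nat_lit 286)))))) (XT.nd (nat_lit 624) (nat_lit 1064) (nat_lit 0) (XT.nd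 (nat_lit 312) (nat_lit 456) (nat_lit 0) (XT.nd (nat_lit 156) (nat_lit 304) (nat_lit 0) (XT.nd (nat_lit 78) (nat_lit 76) (nat_lit 0) (XT.lf (nat_lit 0) (nat_lit 2998921088) (nat_lit 152) (nat_lit 6415724313) (nat_lit 76) (nat_lit 48100706280) (nat_lit 162) (nat_lit 5) (nat_lit 164) (nat_lit 5) (nat_lit 163) (nat_lit 4) (nat_lit 397) (nat_lit 338) (nat_lit 285)) (XT.lf (nat_lit 0) (nat_lit 34670680974) (nat_lit 152) (nat_lit 3135450160) (nat_lit 0) (nat_lit 22690171354) (nat_lit 161) (nat_lit 5) (nat_lit 163) (nat_lit 4) (nat_lit 161) (nat_lit 4) (nat_lit 398) (nat_lit 338) (nat_lit 284))) (XT.nd (nat_lit 78) (nat_lit 76) (nat_lit 0) (XT.lf (nat_lit 0) (nat_lit 777321197) (nat_lit 76) (nat_lit 5452903220) (nat_lit 152) (nat_lit 57419729545) (nat_lit 158) (nat_lit 5) (nat_lit 159) (nat_lit 5) (nat_lit 160) (nat_lit 4) (nat_lit 399) (nat_lit 338) (nat_lit 283)) (XT.lf (nat_lit 0) (nat_lit 4812789197)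 (nat_lit 76) (nat_lit 36787566968) (nat_lit 76) (nat_lit 25351641741) (nat_lit 157) (nat_lit 4) (nat_lit 158) (nat_lit 5) (nat_lit 158) (nat_lit 4) (nat_lit 400) (nat_lit 338) (nat_lit 282)))) (XT.nd (nat_lit 156) (nat_lit 228) (nat_lit 0) (XT.nd (nat_lit 78) (nat_lit 76) (nat_lit 0) (XT.lf (nat_lit 0) (nat_lit 9593732703) (nat_lit 76) (nat_lit 670264682) (nat_lit 152) (nat_lit 60183003021) (nat_lit 155) (nat_lit 5) (nat_lit 156) (nat_lit 5) (nat_lit 157) (nat_lit 4) (nat_lit 401) (nat_lit 338) (nat_lit 281)) (XT.lf (nat_lit 0) (nat_lit 14384358685) (nat_lit 76) (nat_lit 35317950780) (nat_lit 76) (nat_lit 24405432613) (nat_lit 154) (nat_lit 4) (nat_lit 155) (nat_lit 5) (nat_lit 155) (nat_lit 4) (nat_lit 402) (nat_lit 338) (nat_lit 280))) (XT.nd (nat_lit 78) (nat_lit 76) (nat_lit 0) (XT.lf (nat_lit 0) (nat_lit 15186213951) (nat_lit 152) (nat_lit 58009276116) (nat_lit 0) (nat_lit 4784368196) (nat_lit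 152) (nat_lit 5) (nat_lit 154) (nat_lit 4) (nat_lit 152) (nat_lit 4) (nat_lit 403) (nat_lit 338) (nat_lit 279)) (XT.lf (nat_lit 0) (nat_lit 25721204719) (nat_lit 76) (nat_lit 33365431267) (nat_lit 76) (nat_lit 22955278744) (nat_lit 151) (nat_lit 4) (nat_lit 152) (nat_lit 5) (nat_lit 152) (nat_lit 4) (nat_lit 404) (nat_lit 338) (nat_lit 278))))) (XT.nd (nat_lit 312) (nat_lit 608) (nat_lit 0) (XT.nd (nat_lit 156) (nat_lit 228) (nat_lit 0) (XT.nd (nat_lit 78) (nat_lit 76) (nat_lit 0) (XT.lf (nat_lit 0) (nat_lit 21073273455) (nat_lit 152) (nat_lit 54106203015) (nat_lit 0) (nat_lit 11151517289) (nat_lit 149) (nat_lit 5) (nat_lit 151) (nat_lit 4) (nat_lit 149) (nat_lit 4) (nat_lit 405) (nat_lit 338) (nat_lit 277)) (XT.lf (nat_lit 0) (nat_lit 39103471950) (nat_lit 76) (nat_lit 30831838999) (nat_lit 76) (nat_lit 20903300247) (nat_lit 148) (nat_lit 4) (nat_lit 149) (nat_lit 5) (nat_lit 149) (nat_lit 4)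 (nat_lit 406) (nat_lit 338) (nat_lit 276))) (XT.nd (nat_lit 78) (nat_lit 76) (nat_lit 0) (XT.lf (nat_lit 0) (nat_lit 28063026323) (nat_lit 152) (nat_lit 48925055583) (nat_lit 0) (nat_lit 18601294014) (nat_lit 146) (nat_lit 5) (nat_lit 148) (nat_lit 4) (nat_lit 146) (nat_lit 4) (nat_lit 407) (nat_lit 338) (nat_lit 275)) (XT.lf (nat_lit 0) (nat_lit 54850418067) (nat_lit 76) (nat_lit 27603958458) (nat_lit 76) (nat_lit 18136688079) (nat_lit 145) (nat_lit 4) (nat_lit 146) (nat_lit 5) (nat_lit 146) (nat_lit 4) (nat_lit 408) (nat_lit 338) (nat_lit 274)))) (XT.nd (nat_lit 156) (nat_lit 380) (nat_lit 0) (XT.nd (nat_lit 78) (nat_lit 76) (nat_lit 0) (XT.lf (nat_lit 0) (nat_lit 36324396975) (nat_lit 152) (nat_lit 42225594145) (nat_lit 0) (nat_lit 27303065335) (nat_lit 143) (nat_lit 5) (nat_lit 145) (nat_lit 4) (nat_lit 143) (nat_lit 4) (nat_lit 409) (nat_lit 338) (nat_lit 273)) (XT.lf (nat_lit 0) (nat_lit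 73325590708) (nat_lit 76) (nat_lit 23551449855) (nat_lit 76) (nat_lit 14525596308) (nat_lit 142) (nat_lit 4) (nat_lit 143) (nat_lit 5) (nat_lit 143) (nat_lit 4) (nat_lit 410) (nat_lit 338) (nat_lit 272))) (XT.nd (nat_lit 78) (nat_lit 228) (nat_lit 0) (XT.lf (nat_lit 0) (nat_lit 46049660697) (nat_lit 152) (nat_lit 33731451763) (nat_lit 0) (nat_lit 37449622126) (nat_lit 140) (nat_lit 5) (nat_lit 142) (nat_lit 4) (nat_lit 140) (nat_lit 4) (nat_lit 411) (nat_lit 338) (nat_lit 271)) (XT.nd (nat_lit 78) (nat_lit 152) (nat_lit 0) (XT.lf (nat_lit 0) (nat_lit 94942667089) (nat_lit 76) (nat_lit 18524490644) (nat_lit 76) (nat_lit 9920759877) (nat_lit 139) (nat_lit 4) (nat_lit 140) (nat_lit 5) (nat_lit 140) (nat_lit 4) (nat_lit 412) (nat_lit 338) (nat_lit 270)) (XT.lf (nat_lit 0) (nat_lit 57457531186) (nat_lit 152) (nat_lit 23125134852) (nat_lit 0) (nat_lit 49260245978) (nat_lit 137) (nat_lit 5) (nat_lit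 139) (nat_lit 4) (nat_lit 137) (nat_lit 4) (nat_lit 413) (nat_lit 338) (nat_lit 269))))))))
noncomputable def xc84 : XT := (XT.nd (nat_lit 1248) (nat_lit 1976) (nat_lit 0) (XT.nd (nat_lit 624) (nat_lit 912) (nat_lit 0) (XT.nd (nat_lit 312) (nat_lit 456) (nat_lit 0) (XT.nd (nat_lit 156) (nat_lit 304) (nat_lit 0) (XT.nd (nat_lit 78) (nat_lit 152) (nat_lit 0) (XT.lf (nat_lit 0) (nat_lit 120172038147) (nat_lit 76) (nat_lit 12351102247) (nat_lit 76) (nat_lit 4150802311) (nat_lit 136) (nat_lit 4) (nat_lit 137) (nat_lit 5) (nat_lit 137) (nat_lit 4) (nat_lit 414) (nat_lit 338) (nat_lit 268)) (XT.lf (nat_lit 0) (nat_lit 70796637569) (nat_lit 152) (nat_lit 10042366428) (nat_lit 0) (nat_lit 62984169617) (nat_lit 134) (nat_lit 5) (nat_lit 136) (nat_lit 4) (nat_lit 134) (nat_lit 4) (nat_lit 415) (nat_lit 338) (nat_lit 267))) (XT.nd (nat_lit 78) (nat_lit 152) (nat_lit 0) (XT.lf (nat_lit 0) (nat_lit 2885402094)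 (nat_lit 152) (nat_lit 1899855222) (nat_lit 76) (nat_lit 146613961280) (nat_lit 132) (nat_lit 5) (nat_lit 134) (nat_lit 5) (nat_lit 133) (nat_lit 4) (nat_lit 416) (nat_lit 338) (nat_lit 266)) (XT.lf (nat_lit 0) (nat_lit 6130526084) (nat_lit 76) (nat_lit 80314628166) (nat_lit 76) (nat_lit 72869667458) (nat_lit 130) (nat_lit 4) (nat_lit 131) (nat_lit 5) (nat_lit 131) (nat_lit 4) (nat_lit 417) (nat_lit 338) (nat_lit 265)))) (XT.nd (nat_lit 156) (nat_lit 228) (nat_lit 0) (XT.nd (nat_lit 78) (nat_lit 76) (nat_lit 0) (XT.lf (nat_lit 0) (nat_lit 11652627682) (nat_lit 152) (nat_lit 151488425635) (nat_lit 0) (nat_lit 4560274723) (nat_lit 128) (nat_lit 5) (nat_lit 130) (nat_lit 4) (nat_lit 128) (nat_lit 4) (nat_lit 418) (nat_lit 338) (nat_lit 264)) (XT.lf (nat_lit 0) (nat_lit 26118728332) (nat_lit 76) (nat_lit 78725693496) (nat_lit 76) (nat_lit 71631568138) (nat_lit 127) (nat_lit 4) (nat_lit 128) (nat_lit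 5) (nat_lit 128) (nat_lit 4) (nat_lit 419) (nat_lit 338) (nat_lit 263))) (XT.nd (nat_lit 78) (nat_lit 76) (nat_lit 0) (XT.lf (nat_lit 0) (nat_lit 22399773835) (nat_lit 152) (nat_lit 147721386769) (nat_lit 0) (nat_lit 15641901009) (nat_lit 125) (nat_lit 5) (nat_lit 127) (nat_lit 4) (nat_lit 125) (nat_lit 4) (nat_lit 420) (nat_lit 338) (nat_lit 262)) (XT.lf (nat_lit 0) (nat_lit 50154711195) (nat_lit 76) (nat_lit 76050467292) (nat_lit 76) (nat_lit 69291147279) (nat_lit 124) (nat_lit 4) (nat_lit 125) (nat_lit 5) (nat_lit 125) (nat_lit 4) (nat_lit 421) (nat_lit 338) (nat_lit 261))))) (XT.nd (nat_lit 312) (nat_lit 456) (nat_lit 0) (XT.nd (nat_lit 156) (nat_lit 228) (nat_lit 0) (XT.nd (nat_lit 78) (nat_lit 76) (nat_lit 0) (XT.lf (nat_lit 0) (nat_lit 35320280197) (nat_lit 152) (nat_lit 141578817812) (nat_lit 0) (nat_lit 28881556387) (nat_lit 122) (nat_lit 5) (nat_lit 124) (nat_lit 4) (nat_lit 122) (nat_lit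 4) (nat_lit 422) (nat_lit 338) (nat_lit 260)) (XT.lf (nat_lit 0) (nat_lit 78883369690) (nat_lit 76) (nat_lit 72066805101) (nat_lit 76) (nat_lit 65626899644) (nat_lit 121) (nat_lit 4) (nat_lit 122) (nat_lit 5) (nat_lit 122) (nat_lit 4) (nat_lit 423) (nat_lit 338) (nat_lit 259))) (XT.nd (nat_lit 78) (nat_lit 76) (nat_lit 0) (XT.lf (nat_lit 0) (nat_lit 50755930179) (nat_lit 152) (nat_lit 132588181893) (nat_lit 0) (nat_lit 44621644870) (nat_lit 119) (nat_lit 5) (nat_lit 121) (nat_lit 4) (nat_lit 119) (nat_lit 4) (nat_lit 424) (nat_lit 338) (nat_lit 258)) (XT.lf (nat_lit 0) (nat_lit 113040735242) (nat_lit 76) (nat_lit 66517915425) (nat_lit 76) (nat_lit 60382665285) (nat_lit 118) (nat_lit 4) (nat_lit 119) (nat_lit 5) (nat_lit 119) (nat_lit 4) (nat_lit 425) (nat_lit 338) (nat_lit 257)))) (XT.nd (nat_lit 156) (nat_lit 228) (nat_lit 0) (XT.nd (nat_lit 78) (nat_lit 76) (nat_lit 0) (XT.lf (nat_lit 0) (nat_lit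 69096668180) (nat_lit 152) (nat_lit 120203585112) (nat_lit 0) (nat_lit 63252721988) (nat_lit 116) (nat_lit 5) (nat_lit 118) (nat_lit 4) (nat_lit 116) (nat_lit 4) (nat_lit 426) (nat_lit 338) (nat_lit 256)) (XT.lf (nat_lit 0) (nat_lit 153466115389) (nat_lit 76) (nat_lit 59107477018) (nat_lit 76) (nat_lit 53262743030) (nat_lit 115) (nat_lit 4) (nat_lit 116) (nat_lit 5) (nat_lit 116) (nat_lit 4) (nat_lit 427) (nat_lit 338) (nat_lit 255))) (XT.nd (nat_lit 78) (nat_lit 76) (nat_lit 0) (XT.lf (nat_lit 0) (nat_lit 90786999729) (nat_lit 152) (nat_lit 103795470904) (nat_lit 0) (nat_lit 85219891701) (nat_lit 113) (nat_lit 5) (nat_lit 115) (nat_lit 4) (nat_lit 113) (nat_lit 4) (nat_lit 428) (nat_lit 338) (nat_lit 254)) (XT.lf (nat_lit 0) (nat_lit 201115787315) (nat_lit 76) (nat_lit 49494107674) (nat_lit 76) (nat_lit 43926356400) (nat_lit 112) (nat_lit 4) (nat_lit 113) (nat_lit 5) (nat_lit 113) (nat_lit 4)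 (nat_lit 429) (nat_lit 338) (nat_lit 253)))))) (XT.nd (nat_lit 624) (nat_lit 912) (nat_lit 0) (XT.nd (nat_lit 312) (nat_lit 608) (nat_lit 0) (XT.nd (nat_lit 156) (nat_lit 228) (nat_lit 0) (XT.nd (nat_lit 78) (nat_lit 76) (nat_lit 0) (XT.lf (nat_lit 0) (nat_lit 116333208841) (nat_lit 152) (nat_lit 82638950005) (nat_lit 0) (nat_lit 111030021343) (nat_lit 110) (nat_lit 5) (nat_lit 112) (nat_lit 4) (nat_lit 110) (nat_lit 4) (nat_lit 430) (nat_lit 338) (nat_lit 252)) (XT.lf (nat_lit 0) (nat_lit 257078438723) (nat_lit 76) (nat_lit 37285101867) (nat_lit 76) (nat_lit 31981389150) (nat_lit 109) (nat_lit 4) (nat_lit 110) (nat_lit 5) (nat_lit 110) (nat_lit 4) (nat_lit 431) (nat_lit 338) (nat_lit 251))) (XT.nd (nat_lit 78) (nat_lit 76) (nat_lit 0) (XT.lf (nat_lit 0) (nat_lit 146311494352) (nat_lit 152) (nat_lit 55900592036) (nat_lit 0) (nat_lit 141259876227) (nat_lit 107) (nat_lit 5) (nat_lit 109) (nat_lit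 4) (nat_lit 107) (nat_lit 4) (nat_lit 432) (nat_lit 338) (nat_lit 250)) (XT.lf (nat_lit 0) (nat_lit 322592573210) (nat_lit 76) (nat_lit 22029344289) (nat_lit 76) (nat_lit 16977297315) (nat_lit 106) (nat_lit 4) (nat_lit 107) (nat_lit 5) (nat_lit 107) (nat_lit 4) (nat_lit 433) (nat_lit 338) (nat_lit 249)))) (XT.nd (nat_lit 156) (nat_lit 304) (nat_lit 0) (XT.nd (nat_lit 78) (nat_lit 152) (nat_lit 0) (XT.lf (nat_lit 0) (nat_lit 181377139459) (nat_lit 152) (nat_lit 22623483128) (nat_lit 0) (nat_lit 176565287978) (nat_lit 104) (nat_lit 5) (nat_lit 106) (nat_lit 4) (nat_lit 104) (nat_lit 4) (nat_lit 434) (nat_lit 338) (nat_lit 248)) (XT.lf (nat_lit 0) (nat_lit 1551603845) (nat_lit 152) (nat_lit 1631413757) (nat_lit 76) (nat_lit 397488242801) (nat_lit 102) (nat_lit 5) (nat_lit 104) (nat_lit 5) (nat_lit 103) (nat_lit 4) (nat_lit 435) (nat_lit 338) (nat_lit 247))) (XT.nd (nat_lit 78) (nat_lit 152) (nat_lit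 0) (XT.lf (nat_lit 0) (nat_lit 18894409359) (nat_lit 76) (nat_lit 203675427859) (nat_lit 76) (nat_lit 199092069894) (nat_lit 100) (nat_lit 4) (nat_lit 101) (nat_lit 5) (nat_lit 101) (nat_lit 4) (nat_lit 436) (nat_lit 338) (nat_lit 246)) (XT.lf (nat_lit 0) (nat_lit 24604220056) (nat_lit 152) (nat_lit 399065087833) (nat_lit 0) (nat_lit 20238844936) (nat_lit 98) (nat_lit 5) (nat_lit 100) (nat_lit 4) (nat_lit 98) (nat_lit 4) (nat_lit 437) (nat_lit 338) (nat_lit 245))))) (XT.nd (nat_lit 312) (nat_lit 456) (nat_lit 0) (XT.nd (nat_lit 156) (nat_lit 228) (nat_lit 0) (XT.nd (nat_lit 78) (nat_lit 152) (nat_lit 0) (XT.lf (nat_lit 0) (nat_lit 70347187762) (nat_lit 76) (nat_lit 200601481910) (nat_lit 76) (nat_lit 196235854664) (nat_lit 97) (nat_lit 4) (nat_lit 98) (nat_lit 5) (nat_lit 98) (nat_lit 4) (nat_lit 438) (nat_lit 338) (nat_lit 244)) (XT.lf (nat_lit 0) (nat_lit 52659232595) (nat_lit 152) (nat_lit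 390657049395) (nat_lit 0) (nat_lit 48501270028) (nat_lit 95) (nat_lit 5) (nat_lit 97) (nat_lit 4) (nat_lit 95) (nat_lit 4) (nat_lit 439) (nat_lit 338) (nat_lit 243))) (XT.nd (nat_lit 78) (nat_lit 152) (nat_lit 0) (XT.lf (nat_lit 0) (nat_lit 132472181059) (nat_lit 76) (nat_lit 194659653703) (nat_lit 76) (nat_lit 190501485272) (nat_lit 94) (nat_lit 4) (nat_lit 95) (nat_lit 5) (nat_lit 95) (nat_lit 4) (nat_lit 440) (nat_lit 338) (nat_lit 242)) (XT.lf (nat_lit 0) (nat_lit 86428480685) (nat_lit 152) (nat_lit 376012872494) (nat_lit 0) (nat_lit 82468138737) (nat_lit 92) (nat_lit 5) (nat_lit 94) (nat_lit 4) (nat_lit 92) (nat_lit 4) (nat_lit 441) (nat_lit 338) (nat_lit 241)))) (XT.nd (nat_lit 156) (nat_lit 228) (nat_lit 0) (XT.nd (nat_lit 78) (nat_lit 152) (nat_lit 0) (XT.lf (nat_lit 0) (nat_lit 206966962959) (nat_lit 76) (nat_lit 185267676933) (nat_lit 76) (nat_lit 181307166894) (nat_lit 91) (nat_lit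 4) (nat_lit 92) (nat_lit 5) (nat_lit 92) (nat_lit 4) (nat_lit 442) (nat_lit 338) (nat_lit 240)) (XT.lf (nat_lit 0) (nat_lit 126812422570) (nat_lit 152) (nat_lit 353892283368) (nat_lit 0) (nat_lit 123040360019) (nat_lit 89) (nat_lit 5) (nat_lit 91) (nat_lit 4) (nat_lit 89) (nat_lit 4) (nat_lit 443) (nat_lit 338) (nat_lit 239))) (XT.nd (nat_lit 78) (nat_lit 152) (nat_lit 0) (XT.lf (nat_lit 0) (nat_lit 295769733205) (nat_lit 76) (nat_lit 171751915280) (nat_lit 76) (nat_lit 167979715481) (nat_lit 88) (nat_lit 4) (nat_lit 89) (nat_lit 5) (nat_lit 89) (nat_lit 4) (nat_lit 444) (nat_lit 338) (nat_lit 238)) (XT.lf (nat_lit 0) (nat_lit 174838675740) (nat_lit 152) (nat_lit 322861546467) (nat_lit 0) (nat_lit 171245983473) (nat_lit 86) (nat_lit 5) (nat_lit 88) (nat_lit 4) (nat_lit 86) (nat_lit 4) (nat_lit 445) (nat_lit 338) (nat_lit 237)))))))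
noncomputable def xc85 : XT := (XT.nd (nat_lit 46098) (nat_lit 0) (nat_lit 9500) (XT.nd (nat_lit 45474) (nat_lit 0) (nat_lit 13984) (XT.nd (nat_lit 45162) (nat_lit 0) (nat_lit 18468) (XT.nd (nat_lit 45006) (nat_lit 0) (nat_lit 20064) (XT.nd (nat_lit 78) (nat_lit 152) (nat_lit 0) (XT.lf (nat_lit 0) (nat_lit 401091383943) (nat_lit 76) (nat_lit 153334470729) (nat_lit 76) (nat_lit 149741666397) (nat_lit 85) (nat_lit 4) (nat_lit 86) (nat_lit 5) (nat_lit 86) (nat_lit 4) (nat_lit 446) (nat_lit 338) (nat_lit 236)) (XT.lf (nat_lit 0) (nat_lit 231678918670) (nat_lit 152) (nat_lit 281266264520) (nat_lit 0) (nat_lit 228257101435) (nat_lit 83) (nat_lit 5) (nat_lit 85) (nat_lit 4) (nat_lit 83) (nat_lit 4) (nat_lit 447) (nat_lit 338) (nat_lit 235))) (XT.nd (nat_lit 78) (nat_lit 228) (nat_lit 0) (XT.lf (nat_lit 0) (nat_lit 2166199083) (nat_lit 76) (nat_lit 534350120) (nat_lit 76) (nat_lit 534350120) (nat_lit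 350) (nat_lit 4) (nat_lit 351) (nat_lit 5) (nat_lit 351) (nat_lit 4) (nat_lit 342) (nat_lit 339) (nat_lit 339)) (XT.lf (nat_lit 0) (nat_lit 3670534281) (nat_lit 152) (nat_lit 275429091) (nat_lit 228) (nat_lit 2561912324) (nat_lit 347) (nat_lit 5) (nat_lit 349) (nat_lit 5) (nat_lit 350) (nat_lit 4) (nat_lit 343) (nat_lit 339) (nat_lit 338)))) (XT.nd (nat_lit 156) (nat_lit 912) (nat_lit 0) (XT.nd (nat_lit 78) (nat_lit 380) (nat_lit 0) (XT.lf (nat_lit 0) (nat_lit 2308138178) (nat_lit 304) (nat_lit 3373146115) (nat_lit 76) (nat_lit 883633396) (nat_lit 343) (nat_lit 5) (nat_lit 347) (nat_lit 5) (nat_lit 344) (nat_lit 4) (nat_lit 344) (nat_lit 339) (nat_lit 337)) (XT.lf (nat_lit 0) (nat_lit 474010479) (nat_lit 380) (nat_lit 3742702056) (nat_lit 76) (nat_lit 2424658275) (nat_lit 338) (nat_lit 5) (nat_lit 343) (nat_lit 5) (nat_lit 339) (nat_lit 5) (nat_lit 345) (nat_lit 339) (nat_lit 336))) (XT.nd (nat_lit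 78) (nat_lit 532) (nat_lit 0) (XT.lf (nat_lit 0) (nat_lit 2769129198) (nat_lit 380) (nat_lit 2343445537) (nat_lit 456) (nat_lit 1623953890) (nat_lit 333) (nat_lit 5) (nat_lit 338) (nat_lit 5) (nat_lit 339) (nat_lit 5) (nat_lit 346) (nat_lit 339) (nat_lit 335)) (XT.lf (nat_lit 0) (nat_lit 2819399602) (nat_lit 456) (nat_lit 62518376) (nat_lit 532) (nat_lit 3969614953) (nat_lit 326) (nat_lit 5) (nat_lit 332) (nat_lit 5) (nat_lit 333) (nat_lit 5) (nat_lit 347) (nat_lit 339) (nat_lit 334))))) (XT.nd (nat_lit 312) (nat_lit 1748) (nat_lit 0) (XT.nd (nat_lit 156) (nat_lit 1520) (nat_lit 0) (XT.nd (nat_lit 78) (nat_lit 608) (nat_lit 0) (XT.lf (nat_lit 0) (nat_lit 466375271) (nat_lit 608) (nat_lit 3968228587) (nat_lit 76) (nat_lit 2550624692) (nat_lit 318) (nat_lit 5) (nat_lit 326) (nat_lit 5) (nat_lit 319) (nat_lit 5) (nat_lit 348) (nat_lit 339) (nat_lit 333)) (XT.lf (nat_lit 0) (nat_lit 3364146089) (nat_lit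 608) (nat_lit 1518606199) (nat_lit 684) (nat_lit 2255384570) (nat_lit 310) (nat_lit 5) (nat_lit 318) (nat_lit 5) (nat_lit 319) (nat_lit 5) (nat_lit 349) (nat_lit 339) (nat_lit 332))) (XT.nd (nat_lit 78) (nat_lit 760) (nat_lit 0) (XT.lf (nat_lit 0) (nat_lit 2087810391) (nat_lit 760) (nat_lit 3448801663) (nat_lit 76) (nat_lit 1774140099) (nat_lit 300) (nat_lit 5) (nat_lit 310) (nat_lit 5) (nat_lit 301) (nat_lit 5) (nat_lit 350) (nat_lit 339) (nat_lit 331)) (XT.lf (nat_lit 0) (nat_lit 4506771114) (nat_lit 760) (nat_lit 2031853632) (nat_lit 836) (nat_lit 964744173) (nat_lit 290) (nat_lit 5) (nat_lit 300) (nat_lit 5) (nat_lit 301) (nat_lit 5) (nat_lit 351) (nat_lit 339) (nat_lit 330)))) (XT.nd (nat_lit 156) (nat_lit 836) (nat_lit 0) (XT.nd (nat_lit 78) (nat_lit 380) (nat_lit 0) (XT.lf (nat_lit 0) (nat_lit 3381812474) (nat_lit 532) (nat_lit 2440388122) (nat_lit 76) (nat_lit 1893156628) (nat_lit 283)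 (nat_lit 5) (nat_lit 290) (nat_lit 5) (nat_lit 284) (nat_lit 5) (nat_lit 352) (nat_lit 339) (nat_lit 329)) (XT.lf (nat_lit 0) (nat_lit 6201452953) (nat_lit 380) (nat_lit 1733033689) (nat_lit 456) (nat_lit 14417530) (nat_lit 278) (nat_lit 5) (nat_lit 283) (nat_lit 5) (nat_lit 284) (nat_lit 5) (nat_lit 353) (nat_lit 339) (nat_lit 328))) (XT.nd (nat_lit 78) (nat_lit 380) (nat_lit 0) (XT.lf (nat_lit 0) (nat_lit 4423166436) (nat_lit 456) (nat_lit 981310715) (nat_lit 76) (nat_lit 2796939399) (nat_lit 272) (nat_lit 5) (nat_lit 278) (nat_lit 5) (nat_lit 273) (nat_lit 5) (nat_lit 354) (nat_lit 339) (nat_lit 327)) (XT.lf (nat_lit 0) (nat_lit 643303916) (nat_lit 380) (nat_lit 67281153) (nat_lit 76) (nat_lit 7766659924) (nat_lit 267) (nat_lit 5) (nat_lit 272) (nat_lit 5) (nat_lit 268) (nat_lit 5) (nat_lit 355) (nat_lit 339) (nat_lit 326)))))) (XT.nd (nat_lit 624) (nat_lit 1824) (nat_lit 0) (XT.nd (nat_lit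 312) (nat_lit 1064) (nat_lit 0) (XT.nd (nat_lit 156) (nat_lit 608) (nat_lit 0) (XT.nd (nat_lit 78) (nat_lit 380) (nat_lit 0) (XT.lf (nat_lit 0) (nat_lit 935920583) (nat_lit 304) (nat_lit 4353613951) (nat_lit 380) (nat_lit 3482342065) (nat_lit 259) (nat_lit 5) (nat_lit 263) (nat_lit 5) (nat_lit 264) (nat_lit 5) (nat_lit 356) (nat_lit 339) (nat_lit 325)) (XT.lf (nat_lit 0) (nat_lit 1141852437) (nat_lit 380) (nat_lit 6997527253) (nat_lit 76) (nat_lit 951577130) (nat_lit 254) (nat_lit 5) (nat_lit 259) (nat_lit 5) (nat_lit 255) (nat_lit 5) (nat_lit 357) (nat_lit 339) (nat_lit 324))) (XT.nd (nat_lit 78) (nat_lit 380) (nat_lit 0) (XT.lf (nat_lit 0) (nat_lit 3319192963) (nat_lit 228) (nat_lit 2723480673) (nat_lit 304) (nat_lit 3388600670) (nat_lit 251) (nat_lit 5) (nat_lit 254) (nat_lit 5) (nat_lit 255) (nat_lit 5) (nat_lit 358) (nat_lit 339) (nat_lit 323)) (XT.lf (nat_lit 0) (nat_lit 1508546605) (nat_lit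 380) (nat_lit 5120929982) (nat_lit 76) (nat_lit 3167091530) (nat_lit 246) (nat_lit 5) (nat_lit 251) (nat_lit 5) (nat_lit 247) (nat_lit 5) (nat_lit 359) (nat_lit 339) (nat_lit 322)))) (XT.nd (nat_lit 156) (nat_lit 532) (nat_lit 0) (XT.nd (nat_lit 78) (nat_lit 304) (nat_lit 0) (XT.lf (nat_lit 0) (nat_lit 6140303113) (nat_lit 228) (nat_lit 573060927) (nat_lit 304) (nat_lit 3473212928) (nat_lit 243) (nat_lit 5) (nat_lit 246) (nat_lit 5) (nat_lit 247) (nat_lit 5) (nat_lit 360) (nat_lit 339) (nat_lit 321)) (XT.lf (nat_lit 0) (nat_lit 1770665065) (nat_lit 304) (nat_lit 2902411241) (nat_lit 76) (nat_lit 5928404603) (nat_lit 239) (nat_lit 5) (nat_lit 243) (nat_lit 5) (nat_lit 240) (nat_lit 5) (nat_lit 361) (nat_lit 339) (nat_lit 320))) (XT.nd (nat_lit 78) (nat_lit 304) (nat_lit 0) (XT.lf (nat_lit 0) (nat_lit 7375247925) (nat_lit 304) (nat_lit 1662082204) (nat_lit 76) (nat_lit 2006256188) (nat_lit 236)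 (nat_lit 5) (nat_lit 240) (nat_lit 5) (nat_lit 237) (nat_lit 5) (nat_lit 362) (nat_lit 339) (nat_lit 319)) (XT.lf (nat_lit 0) (nat_lit 1962700970) (nat_lit 304) (nat_lit 328209421) (nat_lit 76) (nat_lit 9222830778) (nat_lit 232) (nat_lit 5) (nat_lit 236) (nat_lit 5) (nat_lit 233) (nat_lit 5) (nat_lit 363) (nat_lit 339) (nat_lit 318))))) (XT.nd (nat_lit 312) (nat_lit 836) (nat_lit 0) (XT.nd (nat_lit 156) (nat_lit 380) (nat_lit 0) (XT.nd (nat_lit 78) (nat_lit 228) (nat_lit 0) (XT.lf (nat_lit 0) (nat_lit 1110741144) (nat_lit 228) (nat_lit 6956496521) (nat_lit 304) (nat_lit 3943687163) (nat_lit 227) (nat_lit 5) (nat_lit 230) (nat_lit 5) (nat_lit 231) (nat_lit 5) (nat_lit 364) (nat_lit 339) (nat_lit 317)) (XT.lf (nat_lit 0) (nat_lit 2166438580) (nat_lit 228) (nat_lit 9837254221) (nat_lit 76) (nat_lit 536451978) (nat_lit 224) (nat_lit 5) (nat_lit 227) (nat_lit 5) (nat_lit 225) (nat_lit 5) (nat_lit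 365) (nat_lit 339) (nat_lit 316))) (XT.nd (nat_lit 78) (nat_lit 228) (nat_lit 0) (XT.lf (nat_lit 0) (nat_lit 4341922878) (nat_lit 152) (nat_lit 4489054698) (nat_lit 228) (nat_lit 4267303683) (nat_lit 222) (nat_lit 5) (nat_lit 224) (nat_lit 5) (nat_lit 225) (nat_lit 5) (nat_lit 366) (nat_lit 339) (nat_lit 315)) (XT.lf (nat_lit 0) (nat_lit 2413581474) (nat_lit 228) (nat_lit 7565294194) (nat_lit 76) (nat_lit 3712352535) (nat_lit 219) (nat_lit 5) (nat_lit 222) (nat_lit 5) (nat_lit 220) (nat_lit 5) (nat_lit 367) (nat_lit 339) (nat_lit 314)))) (XT.nd (nat_lit 156) (nat_lit 456) (nat_lit 0) (XT.nd (nat_lit 78) (nat_lit 228) (nat_lit 0) (XT.lf (nat_lit 0) (nat_lit 8015551357) (nat_lit 152) (nat_lit 1658189531) (nat_lit 228) (nat_lit 4644656777) (nat_lit 217) (nat_lit 5) (nat_lit 219) (nat_lit 5) (nat_lit 220) (nat_lit 5) (nat_lit 368) (nat_lit 339) (nat_lit 313)) (XT.lf (nat_lit 0) (nat_lit 2690458895)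 (nat_lit 228) (nat_lit 4969871705) (nat_lit 76) (nat_lit 7320838203) (nat_lit 214) (nat_lit 5) (nat_lit 217) (nat_lit 5) (nat_lit 215) (nat_lit 5) (nat_lit 369) (nat_lit 339) (nat_lit 312))) (XT.nd (nat_lit 78) (nat_lit 304) (nat_lit 0) (XT.lf (nat_lit 0) (nat_lit 10653575690) (nat_lit 228) (nat_lit 3527953727) (nat_lit 76) (nat_lit 1501429220) (nat_lit 212) (nat_lit 5) (nat_lit 215) (nat_lit 5) (nat_lit 213) (nat_lit 4) (nat_lit 370) (nat_lit 339) (nat_lit 311)) (XT.nd (nat_lit 78) (nat_lit 152) (nat_lit 0) (XT.lf (nat_lit 0) (nat_lit 3024065097) (nat_lit 152) (nat_lit 2011242336) (nat_lit 76) (nat_lit 11388326215) (nat_lit 210) (nat_lit 5) (nat_lit 212) (nat_lit 5) (nat_lit 211) (nat_lit 5) (nat_lit 371) (nat_lit 339) (nat_lit 310)) (XT.lf (nat_lit 0) (nat_lit 11812902675) (nat_lit 228) (nat_lit 395240469) (nat_lit 76) (nat_lit 4997931133) (nat_lit 208) (nat_lit 5) (nat_lit 211) (nat_lit 5)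 (nat_lit 209) (nat_lit 4) (nat_lit 372) (nat_lit 339) (nat_lit 309))))))))
noncomputable def xc86 : XT := (XT.nd (nat_lit 1248) (nat_lit 2052) (nat_lit 0) (XT.nd (nat_lit 624) (nat_lit 988) (nat_lit 0) (XT.nd (nat_lit 312) (nat_lit 608) (nat_lit 0) (XT.nd (nat_lit 156) (nat_lit 304) (nat_lit 0) (XT.nd (nat_lit 78) (nat_lit 76) (nat_lit 0) (XT.lf (nat_lit 0) (nat_lit 1403871517) (nat_lit 152) (nat_lit 2059725957) (nat_lit 228) (nat_lit 14569272670) (nat_lit 204) (nat_lit 5) (nat_lit 206) (nat_lit 5) (nat_lit 207) (nat_lit 5) (nat_lit 373) (nat_lit 339) (nat_lit 308)) (XT.lf (nat_lit 0) (nat_lit 3278911146) (nat_lit 76) (nat_lit 9934550549) (nat_lit 152) (nat_lit 5689252149) (nat_lit 203) (nat_lit 5) (nat_lit 204) (nat_lit 5) (nat_lit 205) (nat_lit 4) (nat_lit 374) (nat_lit 339) (nat_lit 307))) (XT.nd (nat_lit 78) (nat_lit 76) (nat_lit 0) (XT.lf (nat_lit 0) (nat_lit 4075949287) (nat_lit 228) (nat_lit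 14475674529) (nat_lit 76) (nat_lit 1272493761) (nat_lit 200) (nat_lit 5) (nat_lit 203) (nat_lit 5) (nat_lit 201) (nat_lit 4) (nat_lit 375) (nat_lit 339) (nat_lit 306)) (XT.lf (nat_lit 0) (nat_lit 7481256470) (nat_lit 76) (nat_lit 7376046763) (nat_lit 152) (nat_lit 5935554049) (nat_lit 199) (nat_lit 5) (nat_lit 200) (nat_lit 5) (nat_lit 201) (nat_lit 4) (nat_lit 376) (nat_lit 339) (nat_lit 305)))) (XT.nd (nat_lit 156) (nat_lit 304) (nat_lit 0) (XT.nd (nat_lit 78) (nat_lit 76) (nat_lit 0) (XT.lf (nat_lit 0) (nat_lit 4877673226) (nat_lit 228) (nat_lit 12010608477) (nat_lit 76) (nat_lit 4928934102) (nat_lit 196) (nat_lit 5) (nat_lit 199) (nat_lit 5) (nat_lit 197) (nat_lit 4) (nat_lit 377) (nat_lit 339) (nat_lit 304)) (XT.lf (nat_lit 0) (nat_lit 12273404214) (nat_lit 76) (nat_lit 4507820332) (nat_lit 152) (nat_lit 6115772317) (nat_lit 195) (nat_lit 5) (nat_lit 196) (nat_lit 5) (nat_lit 197) (nat_lit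 4) (nat_lit 378) (nat_lit 339) (nat_lit 303))) (XT.nd (nat_lit 78) (nat_lit 76) (nat_lit 0) (XT.lf (nat_lit 0) (nat_lit 5870961463) (nat_lit 228) (nat_lit 9143208109) (nat_lit 76) (nat_lit 9020866549) (nat_lit 192) (nat_lit 5) (nat_lit 195) (nat_lit 5) (nat_lit 193) (nat_lit 4) (nat_lit 379) (nat_lit 339) (nat_lit 302)) (XT.lf (nat_lit 0) (nat_lit 17741502785) (nat_lit 76) (nat_lit 1291057642) (nat_lit 152) (nat_lit 6205035497) (nat_lit 191) (nat_lit 5) (nat_lit 192) (nat_lit 5) (nat_lit 193) (nat_lit 4) (nat_lit 380) (nat_lit 339) (nat_lit 301))))) (XT.nd (nat_lit 312) (nat_lit 456) (nat_lit 0) (XT.nd (nat_lit 156) (nat_lit 304) (nat_lit 0) (XT.nd (nat_lit 78) (nat_lit 76) (nat_lit 0) (XT.lf (nat_lit 0) (nat_lit 7093565191) (nat_lit 152) (nat_lit 5805486562) (nat_lit 76) (nat_lit 13602188918) (nat_lit 189) (nat_lit 5) (nat_lit 191) (nat_lit 5) (nat_lit 190) (nat_lit 4) (nat_lit 381) (nat_lit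 339) (nat_lit 300)) (XT.lf (nat_lit 0) (nat_lit 21699894040) (nat_lit 152) (nat_lit 3891511029) (nat_lit 0) (nat_lit 2246424118) (nat_lit 188) (nat_lit 5) (nat_lit 190) (nat_lit 4) (nat_lit 188) (nat_lit 4) (nat_lit 382) (nat_lit 339) (nat_lit 299))) (XT.nd (nat_lit 78) (nat_lit 152) (nat_lit 0) (XT.lf (nat_lit 0) (nat_lit 8587381984) (nat_lit 152) (nat_lit 1918867905) (nat_lit 76) (nat_lit 18735886958) (nat_lit 186) (nat_lit 5) (nat_lit 188) (nat_lit 5) (nat_lit 187) (nat_lit 4) (nat_lit 383) (nat_lit 339) (nat_lit 298)) (XT.lf (nat_lit 0) (nat_lit 293709863) (nat_lit 76) (nat_lit 24543315048) (nat_lit 76) (nat_lit 5888665927) (nat_lit 184) (nat_lit 4) (nat_lit 185) (nat_lit 5) (nat_lit 185) (nat_lit 4) (nat_lit 384) (nat_lit 339) (nat_lit 297)))) (XT.nd (nat_lit 156) (nat_lit 228) (nat_lit 0) (XT.nd (nat_lit 78) (nat_lit 76) (nat_lit 0) (XT.lf (nat_lit 0) (nat_lit 2693233115) (nat_lit 76) (nat_lit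 7748062130) (nat_lit 152) (nat_lit 21843555336) (nat_lit 182) (nat_lit 5) (nat_lit 183) (nat_lit 5) (nat_lit 184) (nat_lit 4) (nat_lit 385) (nat_lit 339) (nat_lit 296)) (XT.lf (nat_lit 0) (nat_lit 5318462641) (nat_lit 76) (nat_lit 23240762995) (nat_lit 76) (nat_lit 5370296567) (nat_lit 181) (nat_lit 4) (nat_lit 182) (nat_lit 5) (nat_lit 182) (nat_lit 4) (nat_lit 386) (nat_lit 339) (nat_lit 295))) (XT.nd (nat_lit 78) (nat_lit 76) (nat_lit 0) (XT.lf (nat_lit 0) (nat_lit 8136237413) (nat_lit 76) (nat_lit 4572572224) (nat_lit 152) (nat_lit 22952985194) (nat_lit 179) (nat_lit 5) (nat_lit 180) (nat_lit 5) (nat_lit 181) (nat_lit 4) (nat_lit 387) (nat_lit 339) (nat_lit 294)) (XT.lf (nat_lit 0) (nat_lit 11168440241) (nat_lit 76) (nat_lit 21711321201) (nat_lit 76) (nat_lit 4606802639) (nat_lit 178) (nat_lit 4) (nat_lit 179) (nat_lit 5) (nat_lit 179) (nat_lit 4) (nat_lit 388) (nat_lit 339) (nat_lit 293))))))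 (XT.nd (nat_lit 624) (nat_lit 1064) (nat_lit 0) (XT.nd (nat_lit 312) (nat_lit 532) (nat_lit 0) (XT.nd (nat_lit 156) (nat_lit 228) (nat_lit 0) (XT.nd (nat_lit 78) (nat_lit 76) (nat_lit 0) (XT.lf (nat_lit 0) (nat_lit 14469085300) (nat_lit 76) (nat_lit 951136201) (nat_lit 152) (nat_lit 23990228699) (nat_lit 176) (nat_lit 5) (nat_lit 177) (nat_lit 5) (nat_lit 178) (nat_lit 4) (nat_lit 389) (nat_lit 339) (nat_lit 292)) (XT.lf (nat_lit 0) (nat_lit 17974263643) (nat_lit 76) (nat_lit 19909920887) (nat_lit 76) (nat_lit 3550477768) (nat_lit 175) (nat_lit 4) (nat_lit 176) (nat_lit 5) (nat_lit 176) (nat_lit 4) (nat_lit 390) (nat_lit 339) (nat_lit 291))) (XT.nd (nat_lit 78) (nat_lit 76) (nat_lit 0) (XT.lf (nat_lit 0) (nat_lit 18694528562) (nat_lit 152) (nat_lit 21789000172) (nat_lit 0) (nat_lit 3084673020) (nat_lit 173) (nat_lit 5) (nat_lit 175) (nat_lit 4) (nat_lit 173) (nat_lit 4) (nat_lit 391) (nat_lit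 339) (nat_lit 290)) (XT.lf (nat_lit 0) (nat_lit 25884870326) (nat_lit 76) (nat_lit 17784022587) (nat_lit 76) (nat_lit 2146913782) (nat_lit 172) (nat_lit 4) (nat_lit 173) (nat_lit 5) (nat_lit 173) (nat_lit 4) (nat_lit 392) (nat_lit 339) (nat_lit 289)))) (XT.nd (nat_lit 156) (nat_lit 304) (nat_lit 0) (XT.nd (nat_lit 78) (nat_lit 76) (nat_lit 0) (XT.lf (nat_lit 0) (nat_lit 22584552011) (nat_lit 152) (nat_lit 17927976621) (nat_lit 0) (nat_lit 7668034575) (nat_lit 170) (nat_lit 5) (nat_lit 172) (nat_lit 4) (nat_lit 170) (nat_lit 4) (nat_lit 393) (nat_lit 339) (nat_lit 288)) (XT.lf (nat_lit 0) (nat_lit 35069855461) (nat_lit 76) (nat_lit 15272745468) (nat_lit 76) (nat_lit 333975385) (nat_lit 169) (nat_lit 4) (nat_lit 170) (nat_lit 5) (nat_lit 170) (nat_lit 4) (nat_lit 394) (nat_lit 339) (nat_lit 287))) (XT.nd (nat_lit 78) (nat_lit 152) (nat_lit 0) (XT.lf (nat_lit 0) (nat_lit 27165727288) (nat_lit 152)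 (nat_lit 13212839577) (nat_lit 0) (nat_lit 12918704062) (nat_lit 167) (nat_lit 5) (nat_lit 169) (nat_lit 4) (nat_lit 167) (nat_lit 4) (nat_lit 395) (nat_lit 339) (nat_lit 286)) (XT.lf (nat_lit 0) (nat_lit 1896631433) (nat_lit 152) (nat_lit 10377098366) (nat_lit 76) (nat_lit 43793374463) (nat_lit 165) (nat_lit 5) (nat_lit 167) (nat_lit 5) (nat_lit 166) (nat_lit 4) (nat_lit 396) (nat_lit 339) (nat_lit 285))))) (XT.nd (nat_lit 312) (nat_lit 532) (nat_lit 0) (XT.nd (nat_lit 156) (nat_lit 304) (nat_lit 0) (XT.nd (nat_lit 78) (nat_lit 152) (nat_lit 0) (XT.lf (nat_lit 0) (nat_lit 32540419545) (nat_lit 152) (nat_lit 7493742290) (nat_lit 0) (nat_lit 18938499078) (nat_lit 164) (nat_lit 5) (nat_lit 166) (nat_lit 4) (nat_lit 164) (nat_lit 4) (nat_lit 397) (nat_lit 339) (nat_lit 284)) (XT.lf (nat_lit 0) (nat_lit 4660109381) (nat_lit 152) (nat_lit 4063531935) (nat_lit 76) (nat_lit 53321874769) (nat_lit 162)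 (nat_lit 5) (nat_lit 164) (nat_lit 5) (nat_lit 163) (nat_lit 4) (nat_lit 398) (nat_lit 339) (nat_lit 283))) (XT.nd (nat_lit 78) (nat_lit 228) (nat_lit 0) (XT.lf (nat_lit 0) (nat_lit 38824702889) (nat_lit 152) (nat_lit 599004373) (nat_lit 0) (nat_lit 25843281053) (nat_lit 161) (nat_lit 5) (nat_lit 163) (nat_lit 4) (nat_lit 161) (nat_lit 4) (nat_lit 399) (nat_lit 339) (nat_lit 282)) (XT.lf (nat_lit 0) (nat_lit 3639630314) (nat_lit 76) (nat_lit 4474109049) (nat_lit 152) (nat_lit 60558956067) (nat_lit 158) (nat_lit 5) (nat_lit 159) (nat_lit 5) (nat_lit 160) (nat_lit 4) (nat_lit 400) (nat_lit 339) (nat_lit 281)))) (XT.nd (nat_lit 156) (nat_lit 304) (nat_lit 0) (XT.nd (nat_lit 78) (nat_lit 152) (nat_lit 0) (XT.lf (nat_lit 0) (nat_lit 7921358506) (nat_lit 76) (nat_lit 38352501600) (nat_lit 76) (nat_lit 25967023860) (nat_lit 157) (nat_lit 4) (nat_lit 158) (nat_lit 5) (nat_lit 158) (nat_lit 4) (nat_lit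 401) (nat_lit 339) (nat_lit 280)) (XT.lf (nat_lit 0) (nat_lit 12402332988) (nat_lit 152) (nat_lit 63017346632) (nat_lit 0) (nat_lit 597220027) (nat_lit 155) (nat_lit 5) (nat_lit 157) (nat_lit 4) (nat_lit 155) (nat_lit 4) (nat_lit 402) (nat_lit 339) (nat_lit 279))) (XT.nd (nat_lit 78) (nat_lit 228) (nat_lit 0) (XT.lf (nat_lit 0) (nat_lit 18110958671) (nat_lit 76) (nat_lit 36837860789) (nat_lit 76) (nat_lit 25024025722) (nat_lit 154) (nat_lit 4) (nat_lit 155) (nat_lit 5) (nat_lit 155) (nat_lit 4) (nat_lit 403) (nat_lit 339) (nat_lit 278)) (XT.nd (nat_lit 78) (nat_lit 76) (nat_lit 0) (XT.lf (nat_lit 0) (nat_lit 17655556885) (nat_lit 152) (nat_lit 60103373810) (nat_lit 0) (nat_lit 6396593940) (nat_lit 152) (nat_lit 5) (nat_lit 154) (nat_lit 4) (nat_lit 152) (nat_lit 4) (nat_lit 404) (nat_lit 339) (nat_lit 277)) (XT.lf (nat_lit 0) (nat_lit 30214871431) (nat_lit 76) (nat_lit 34798251663) (nat_lit 76)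 (nat_lit 23532167003) (nat_lit 151) (nat_lit 4) (nat_lit 152) (nat_lit 5) (nat_lit 152) (nat_lit 4) (nat_lit 405) (nat_lit 339) (nat_lit 276))))))))
noncomputable def xc87 : XT := (XT.nd (nat_lit 1248) (nat_lit 2052) (nat_lit 0) (XT.nd (nat_lit 624) (nat_lit 1064) (nat_lit 0) (XT.nd (nat_lit 312) (nat_lit 456) (nat_lit 0) (XT.nd (nat_lit 156) (nat_lit 228) (nat_lit 0) (XT.nd (nat_lit 78) (nat_lit 76) (nat_lit 0) (XT.lf (nat_lit 0) (nat_lit 23943803996) (nat_lit 152) (nat_lit 56026516445) (nat_lit 0) (nat_lit 13207919386) (nat_lit 149) (nat_lit 5) (nat_lit 151) (nat_lit 4) (nat_lit 149) (nat_lit 4) (nat_lit 406) (nat_lit 339) (nat_lit 275)) (XT.lf (nat_lit 0) (nat_lit 44535275827) (nat_lit 76) (nat_lit 32127739926) (nat_lit 76) (nat_lit 21386040342) (nat_lit 148) (nat_lit 4) (nat_lit 149) (nat_lit 5) (nat_lit 149) (nat_lit 4) (nat_lit 407) (nat_lit 339) (nat_lit 274))) (XT.nd (nat_lit 78) (nat_lit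 76) (nat_lit 0) (XT.lf (nat_lit 0) (nat_lit 31426975939) (nat_lit 152) (nat_lit 50561946663) (nat_lit 0) (nat_lit 21191658016) (nat_lit 146) (nat_lit 5) (nat_lit 148) (nat_lit 4) (nat_lit 146) (nat_lit 4) (nat_lit 408) (nat_lit 339) (nat_lit 273)) (XT.lf (nat_lit 0) (nat_lit 61416604307) (nat_lit 76) (nat_lit 28704154882) (nat_lit 76) (nat_lit 18464088956) (nat_lit 145) (nat_lit 4) (nat_lit 146) (nat_lit 5) (nat_lit 146) (nat_lit 4) (nat_lit 409) (nat_lit 339) (nat_lit 272)))) (XT.nd (nat_lit 156) (nat_lit 228) (nat_lit 0) (XT.nd (nat_lit 78) (nat_lit 76) (nat_lit 0) (XT.lf (nat_lit 0) (nat_lit 40287255604) (nat_lit 152) (nat_lit 43450575111) (nat_lit 0) (nat_lit 30530624914) (nat_lit 143) (nat_lit 5) (nat_lit 145) (nat_lit 4) (nat_lit 143) (nat_lit 4) (nat_lit 410) (nat_lit 339) (nat_lit 271)) (XT.lf (nat_lit 0) (nat_lit 81251134882) (nat_lit 76) (nat_lit 24386840918) (nat_lit 76) (nat_lit 14626333421)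 (nat_lit 142) (nat_lit 4) (nat_lit 143) (nat_lit 5) (nat_lit 143) (nat_lit 4) (nat_lit 411) (nat_lit 339) (nat_lit 270))) (XT.nd (nat_lit 78) (nat_lit 76) (nat_lit 0) (XT.lf (nat_lit 0) (nat_lit 50732065317) (nat_lit 152) (nat_lit 34394281257) (nat_lit 0) (nat_lit 41432925190) (nat_lit 140) (nat_lit 5) (nat_lit 142) (nat_lit 4) (nat_lit 140) (nat_lit 4) (nat_lit 412) (nat_lit 339) (nat_lit 269)) (XT.lf (nat_lit 0) (nat_lit 104485298642) (nat_lit 76) (nat_lit 19014107099) (nat_lit 76) (nat_lit 9711801509) (nat_lit 139) (nat_lit 4) (nat_lit 140) (nat_lit 5) (nat_lit 140) (nat_lit 4) (nat_lit 413) (nat_lit 339) (nat_lit 268))))) (XT.nd (nat_lit 312) (nat_lit 532) (nat_lit 0) (XT.nd (nat_lit 156) (nat_lit 304) (nat_lit 0) (XT.nd (nat_lit 78) (nat_lit 76) (nat_lit 0) (XT.lf (nat_lit 0) (nat_lit 62997399079) (nat_lit 152) (nat_lit 23050513620) (nat_lit 0) (nat_lit 54135269008) (nat_lit 137) (nat_lit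 5) (nat_lit 139) (nat_lit 4) (nat_lit 137) (nat_lit 4) (nat_lit 414) (nat_lit 339) (nat_lit 267)) (XT.lf (nat_lit 0) (nat_lit 131626791057) (nat_lit 76) (nat_lit 12400337468) (nat_lit 76) (nat_lit 3535622753) (nat_lit 136) (nat_lit 4) (nat_lit 137) (nat_lit 5) (nat_lit 137) (nat_lit 4) (nat_lit 415) (nat_lit 339) (nat_lit 266))) (XT.nd (nat_lit 78) (nat_lit 152) (nat_lit 0) (XT.lf (nat_lit 0) (nat_lit 77351575771) (nat_lit 152) (nat_lit 9026180272) (nat_lit 0) (nat_lit 68906711101) (nat_lit 134) (nat_lit 5) (nat_lit 136) (nat_lit 4) (nat_lit 134) (nat_lit 4) (nat_lit 416) (nat_lit 339) (nat_lit 265)) (XT.lf (nat_lit 0) (nat_lit 3982573388) (nat_lit 152) (nat_lit 282699617) (nat_lit 76) (nat_lit 159202566123) (nat_lit 132) (nat_lit 5) (nat_lit 134) (nat_lit 5) (nat_lit 133) (nat_lit 4) (nat_lit 417) (nat_lit 339) (nat_lit 264)))) (XT.nd (nat_lit 156) (nat_lit 228) (nat_lit 0) (XT.nd (nat_lit 78)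 (nat_lit 152) (nat_lit 0) (XT.lf (nat_lit 0) (nat_lit 8398050060) (nat_lit 76) (nat_lit 85832532871) (nat_lit 76) (nat_lit 77785933696) (nat_lit 130) (nat_lit 4) (nat_lit 131) (nat_lit 5) (nat_lit 131) (nat_lit 4) (nat_lit 418) (nat_lit 339) (nat_lit 263)) (XT.lf (nat_lit 0) (nat_lit 13444176821) (nat_lit 152) (nat_lit 161851182591) (nat_lit 0) (nat_lit 5779107926) (nat_lit 128) (nat_lit 5) (nat_lit 130) (nat_lit 4) (nat_lit 128) (nat_lit 4) (nat_lit 419) (nat_lit 339) (nat_lit 262))) (XT.nd (nat_lit 78) (nat_lit 152) (nat_lit 0) (XT.lf (nat_lit 0) (nat_lit 29888216293) (nat_lit 76) (nat_lit 84165672817) (nat_lit 76) (nat_lit 76499084376) (nat_lit 127) (nat_lit 4) (nat_lit 128) (nat_lit 5) (nat_lit 128) (nat_lit 4) (nat_lit 420) (nat_lit 339) (nat_lit 261)) (XT.lf (nat_lit 0) (nat_lit 25003791868) (nat_lit 152) (nat_lit 157878773788) (nat_lit 0) (nat_lit 17700939080) (nat_lit 125) (nat_lit 5)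 (nat_lit 127) (nat_lit 4) (nat_lit 125) (nat_lit 4) (nat_lit 421) (nat_lit 339) (nat_lit 260)))))) (XT.nd (nat_lit 624) (nat_lit 1140) (nat_lit 0) (XT.nd (nat_lit 312) (nat_lit 456) (nat_lit 0) (XT.nd (nat_lit 156) (nat_lit 228) (nat_lit 0) (XT.nd (nat_lit 78) (nat_lit 152) (nat_lit 0) (XT.lf (nat_lit 0) (nat_lit 55755256359) (nat_lit 76) (nat_lit 81323017467) (nat_lit 76) (nat_lit 74018923949) (nat_lit 124) (nat_lit 4) (nat_lit 125) (nat_lit 5) (nat_lit 125) (nat_lit 4) (nat_lit 422) (nat_lit 339) (nat_lit 259)) (XT.lf (nat_lit 0) (nat_lit 38913268627) (nat_lit 152) (nat_lit 151335574852) (nat_lit 0) (nat_lit 31955894968) (nat_lit 122) (nat_lit 5) (nat_lit 124) (nat_lit 4) (nat_lit 122) (nat_lit 4) (nat_lit 423) (nat_lit 339) (nat_lit 258))) (XT.nd (nat_lit 78) (nat_lit 152) (nat_lit 0) (XT.lf (nat_lit 0) (nat_lit 86695376989) (nat_lit 76) (nat_lit 77064775961) (nat_lit 76) (nat_lit 70106389231)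 (nat_lit 121) (nat_lit 4) (nat_lit 122) (nat_lit 5) (nat_lit 122) (nat_lit 4) (nat_lit 424) (nat_lit 339) (nat_lit 257)) (XT.lf (nat_lit 0) (nat_lit 55541581382) (nat_lit 152) (nat_lit 141711524238) (nat_lit 0) (nat_lit 48913653039) (nat_lit 119) (nat_lit 5) (nat_lit 121) (nat_lit 4) (nat_lit 119) (nat_lit 4) (nat_lit 425) (nat_lit 339) (nat_lit 256)))) (XT.nd (nat_lit 156) (nat_lit 228) (nat_lit 0) (XT.nd (nat_lit 78) (nat_lit 152) (nat_lit 0) (XT.lf (nat_lit 0) (nat_lit 123503225943) (nat_lit 76) (nat_lit 71113734953) (nat_lit 76) (nat_lit 64484979424) (nat_lit 118) (nat_lit 4) (nat_lit 119) (nat_lit 5) (nat_lit 119) (nat_lit 4) (nat_lit 426) (nat_lit 339) (nat_lit 255)) (XT.lf (nat_lit 0) (nat_lit 75309727991) (nat_lit 152) (nat_lit 128417320948) (nat_lit 0) (nat_lit 68995898045) (nat_lit 116) (nat_lit 5) (nat_lit 118) (nat_lit 4) (nat_lit 116) (nat_lit 4) (nat_lit 427) (nat_lit 339) (nat_lit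 254))) (XT.nd (nat_lit 78) (nat_lit 152) (nat_lit 0) (XT.lf (nat_lit 0) (nat_lit 167085002437) (nat_lit 76) (nat_lit 63149984906) (nat_lit 76) (nat_lit 56835479552) (nat_lit 115) (nat_lit 4) (nat_lit 116) (nat_lit 5) (nat_lit 116) (nat_lit 4) (nat_lit 428) (nat_lit 339) (nat_lit 253)) (XT.lf (nat_lit 0) (nat_lit 98697641252) (nat_lit 152) (nat_lit 110773294960) (nat_lit 0) (nat_lit 92683231031) (nat_lit 113) (nat_lit 5) (nat_lit 115) (nat_lit 4) (nat_lit 113) (nat_lit 4) (nat_lit 429) (nat_lit 339) (nat_lit 252))))) (XT.nd (nat_lit 312) (nat_lit 684) (nat_lit 0) (XT.nd (nat_lit 156) (nat_lit 228) (nat_lit 0) (XT.nd (nat_lit 78) (nat_lit 152) (nat_lit 0) (XT.lf (nat_lit 0) (nat_lit 218473245673) (nat_lit 76) (nat_lit 52804946134) (nat_lit 76) (nat_lit 46789984433) (nat_lit 112) (nat_lit 4) (nat_lit 113) (nat_lit 5) (nat_lit 113) (nat_lit 4) (nat_lit 430) (nat_lit 339) (nat_lit 251)) (XT.lf (nat_lit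 0) (nat_lit 126251982948) (nat_lit 152) (nat_lit 87996804106) (nat_lit 0) (nat_lit 120522961680) (nat_lit 110) (nat_lit 5) (nat_lit 112) (nat_lit 4) (nat_lit 110) (nat_lit 4) (nat_lit 431) (nat_lit 339) (nat_lit 250))) (XT.nd (nat_lit 78) (nat_lit 152) (nat_lit 0) (XT.lf (nat_lit 0) (nat_lit 278843510485) (nat_lit 76) (nat_lit 39654605298) (nat_lit 76) (nat_lit 33925133739) (nat_lit 109) (nat_lit 4) (nat_lit 110) (nat_lit 5) (nat_lit 110) (nat_lit 4) (nat_lit 432) (nat_lit 339) (nat_lit 249)) (XT.lf (nat_lit 0) (nat_lit 158594930470) (nat_lit 152) (nat_lit 59187969517) (nat_lit 0) (nat_lit 153137893809) (nat_lit 107) (nat_lit 5) (nat_lit 109) (nat_lit 4) (nat_lit 107) (nat_lit 4) (nat_lit 433) (nat_lit 339) (nat_lit 248)))) (XT.nd (nat_lit 156) (nat_lit 456) (nat_lit 0) (XT.nd (nat_lit 78) (nat_lit 152) (nat_lit 0) (XT.lf (nat_lit 0) (nat_lit 349533164640) (nat_lit 76) (nat_lit 23211861952) (nat_lit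 76) (nat_lit 17754457623) (nat_lit 106) (nat_lit 4) (nat_lit 107) (nat_lit 5) (nat_lit 107) (nat_lit 4) (nat_lit 434) (nat_lit 339) (nat_lit 247)) (XT.lf (nat_lit 0) (nat_lit 196434079366) (nat_lit 152) (nat_lit 23313538396) (nat_lit 0) (nat_lit 191236227210) (nat_lit 104) (nat_lit 5) (nat_lit 106) (nat_lit 4) (nat_lit 104) (nat_lit 4) (nat_lit 435) (nat_lit 339) (nat_lit 246))) (XT.nd (nat_lit 78) (nat_lit 304) (nat_lit 0) (XT.lf (nat_lit 0) (nat_lit 2207296905) (nat_lit 152) (nat_lit 673193704) (nat_lit 76) (nat_lit 429817892389) (nat_lit 102) (nat_lit 5) (nat_lit 104) (nat_lit 5) (nat_lit 103) (nat_lit 4) (nat_lit 436) (nat_lit 339) (nat_lit 245)) (XT.nd (nat_lit 78) (nat_lit 152) (nat_lit 0) (XT.lf (nat_lit 0) (nat_lit 21499480990) (nat_lit 76) (nat_lit 219409786283) (nat_lit 76) (nat_lit 214458900254) (nat_lit 100) (nat_lit 4) (nat_lit 101) (nat_lit 5) (nat_lit 101) (nat_lit 4) (nat_lit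 437) (nat_lit 339) (nat_lit 244)) (XT.lf (nat_lit 0) (nat_lit 27100054722) (nat_lit 152) (nat_lit 429909683755) (nat_lit 0) (nat_lit 22384691721) (nat_lit 98) (nat_lit 5) (nat_lit 100) (nat_lit 4) (nat_lit 98) (nat_lit 4) (nat_lit 438) (nat_lit 339) (nat_lit 243))))))))
noncomputable def xc88 : XT := (XT.nd (nat_lit 45942) (nat_lit 0) (nat_lit 11476) (XT.nd (nat_lit 624) (nat_lit 76) (nat_lit 0) (XT.nd (nat_lit 312) (nat_lit 456) (nat_lit 0) (XT.nd (nat_lit 156) (nat_lit 228) (nat_lit 0) (XT.nd (nat_lit 78) (nat_lit 152) (nat_lit 0) (XT.lf (nat_lit 0) (nat_lit 77008611846) (nat_lit 76) (nat_lit 216120512763) (nat_lit 76) (nat_lit 211404933605) (nat_lit 97) (nat_lit 4) (nat_lit 98) (nat_lit 5) (nat_lit 98) (nat_lit 4) (nat_lit 439) (nat_lit 339) (nat_lit 242)) (XT.lf (nat_lit 0) (nat_lit 57370537910) (nat_lit 152) (nat_lit 420888170407) (nat_lit 0) (nat_lit 52879319526) (nat_lit 95) (nat_lit 5)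 (nat_lit 97) (nat_lit 4) (nat_lit 95) (nat_lit 4) (nat_lit 440) (nat_lit 339) (nat_lit 241))) (XT.nd (nat_lit 78) (nat_lit 152) (nat_lit 0) (XT.lf (nat_lit 0) (nat_lit 144047007818) (nat_lit 76) (nat_lit 209732264090) (nat_lit 76) (nat_lit 205240869211) (nat_lit 94) (nat_lit 4) (nat_lit 95) (nat_lit 5) (nat_lit 95) (nat_lit 4) (nat_lit 441) (nat_lit 339) (nat_lit 240)) (XT.lf (nat_lit 0) (nat_lit 93813986281) (nat_lit 152) (nat_lit 405128391921) (nat_lit 0) (nat_lit 89536311709) (nat_lit 92) (nat_lit 5) (nat_lit 94) (nat_lit 4) (nat_lit 92) (nat_lit 4) (nat_lit 442) (nat_lit 339) (nat_lit 239)))) (XT.nd (nat_lit 156) (nat_lit 228) (nat_lit 0) (XT.nd (nat_lit 78) (nat_lit 152) (nat_lit 0) (XT.lf (nat_lit 0) (nat_lit 224447870464) (nat_lit 76) (nat_lit 199616281258) (nat_lit 76) (nat_lit 195338462575) (nat_lit 91) (nat_lit 4) (nat_lit 92) (nat_lit 5) (nat_lit 92) (nat_lit 4) (nat_lit 443) (nat_lit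 339) (nat_lit 238)) (XT.lf (nat_lit 0) (nat_lit 137402806511) (nat_lit 152) (nat_lit 381291028816) (nat_lit 0) (nat_lit 133328566398) (nat_lit 89) (nat_lit 5) (nat_lit 91) (nat_lit 4) (nat_lit 89) (nat_lit 4) (nat_lit 444) (nat_lit 339) (nat_lit 237))) (XT.nd (nat_lit 78) (nat_lit 152) (nat_lit 0) (XT.lf (nat_lit 0) (nat_lit 320304286981) (nat_lit 76) (nat_lit 185045121245) (nat_lit 76) (nat_lit 180970763464) (nat_lit 88) (nat_lit 4) (nat_lit 89) (nat_lit 5) (nat_lit 89) (nat_lit 4) (nat_lit 445) (nat_lit 339) (nat_lit 236)) (XT.lf (nat_lit 0) (nat_lit 189246742295) (nat_lit 152) (nat_lit 347827813427) (nat_lit 0) (nat_lit 185366297787) (nat_lit 86) (nat_lit 5) (nat_lit 88) (nat_lit 4) (nat_lit 86) (nat_lit 4) (nat_lit 446) (nat_lit 339) (nat_lit 235))))) (XT.nd (nat_lit 45006) (nat_lit 0) (nat_lit 18772) (XT.nd (nat_lit 44850) (nat_lit 0) (nat_lit 20064) (XT.nd (nat_lit 44772) (nat_lit 0) (nat_lit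 20292) (XT.lf (nat_lit 0) (nat_lit 434003861405) (nat_lit 76) (nat_lit 165178734155) (nat_lit 76) (nat_lit 161298193570) (nat_lit 85) (nat_lit 4) (nat_lit 86) (nat_lit 5) (nat_lit 86) (nat_lit 4) (nat_lit 447) (nat_lit 339) (nat_lit 234)) (XT.lf (nat_lit 0) (nat_lit 1073741823) (nat_lit 0) (nat_lit 0) (nat_lit 0) (nat_lit 0) (nat_lit 352) (nat_lit 0) (nat_lit 1) (nat_lit 0) (nat_lit 1) (nat_lit 0) (nat_lit 340) (nat_lit 340) (nat_lit 340))) (XT.nd (nat_lit 78) (nat_lit 152) (nat_lit 0) (XT.lf (nat_lit 0) (nat_lit 4981849133) (nat_lit 76) (nat_lit 1259544143) (nat_lit 0) (nat_lit 209663248) (nat_lit 351) (nat_lit 5) (nat_lit 352) (nat_lit 0) (nat_lit 351) (nat_lit 4) (nat_lit 341) (nat_lit 340) (nat_lit 339)) (XT.lf (nat_lit 0) (nat_lit 3341271051) (nat_lit 152) (nat_lit 2341270862) (nat_lit 76) (nat_lit 796549640) (nat_lit 349) (nat_lit 5) (nat_lit 351) (nat_lit 5) (nat_lit 350) (nat_lit 4) (nat_lit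 342) (nat_lit 340) (nat_lit 338)))) (XT.nd (nat_lit 156) (nat_lit 836) (nat_lit 0) (XT.nd (nat_lit 78) (nat_lit 228) (nat_lit 0) (XT.lf (nat_lit 0) (nat_lit 1512450366) (nat_lit 228) (nat_lit 3249312669) (nat_lit 76) (nat_lit 1764919981) (nat_lit 346) (nat_lit 5) (nat_lit 349) (nat_lit 5) (nat_lit 347) (nat_lit 5) (nat_lit 343) (nat_lit 340) (nat_lit 337)) (XT.lf (nat_lit 0) (nat_lit 2598868827) (nat_lit 228) (nat_lit 3463498392) (nat_lit 304) (nat_lit 531264680) (nat_lit 343) (nat_lit 5) (nat_lit 346) (nat_lit 5) (nat_lit 347) (nat_lit 5) (nat_lit 344) (nat_lit 340) (nat_lit 336))) (XT.nd (nat_lit 78) (nat_lit 456) (nat_lit 0) (XT.lf (nat_lit 0) (nat_lit 2080716936) (nat_lit 304) (nat_lit 1757697264) (nat_lit 380) (nat_lit 2840856104) (nat_lit 338) (nat_lit 5) (nat_lit 342) (nat_lit 5) (nat_lit 343) (nat_lit 5) (nat_lit 345) (nat_lit 340) (nat_lit 335)) (XT.lf (nat_lit 0) (nat_lit 1411289037)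 (nat_lit 456) (nat_lit 5041951787) (nat_lit 76) (nat_lit 331696669) (nat_lit 332) (nat_lit 5) (nat_lit 338) (nat_lit 5) (nat_lit 333) (nat_lit 5) (nat_lit 346) (nat_lit 340) (nat_lit 334)))))) (XT.nd (nat_lit 624) (nat_lit 2736) (nat_lit 0) (XT.nd (nat_lit 312) (nat_lit 2128) (nat_lit 0) (XT.nd (nat_lit 156) (nat_lit 1368) (nat_lit 0) (XT.nd (nat_lit 78) (nat_lit 608) (nat_lit 0) (XT.lf (nat_lit 0) (nat_lit 1536869410) (nat_lit 456) (nat_lit 4127461191) (nat_lit 532) (nat_lit 1244386155) (nat_lit 326) (nat_lit 5) (nat_lit 332) (nat_lit 5) (nat_lit 333) (nat_lit 5) (nat_lit 347) (nat_lit 340) (nat_lit 333)) (XT.lf (nat_lit 0) (nat_lit 1486443954) (nat_lit 532) (nat_lit 1379897224) (nat_lit 608) (nat_lit 4185845702) (nat_lit 318) (nat_lit 5) (nat_lit 325) (nat_lit 5) (nat_lit 326) (nat_lit 5) (nat_lit 348) (nat_lit 340) (nat_lit 332))) (XT.nd (nat_lit 78) (nat_lit 760) (nat_lit 0) (XT.lf (nat_lit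 0) (nat_lit 1587835801) (nat_lit 608) (nat_lit 5484350579) (nat_lit 684) (nat_lit 143435400) (nat_lit 310) (nat_lit 5) (nat_lit 318) (nat_lit 5) (nat_lit 319) (nat_lit 5) (nat_lit 349) (nat_lit 340) (nat_lit 331)) (XT.lf (nat_lit 0) (nat_lit 1795795205) (nat_lit 684) (nat_lit 2121090559) (nat_lit 760) (nat_lit 3480466549) (nat_lit 300) (nat_lit 5) (nat_lit 309) (nat_lit 5) (nat_lit 310) (nat_lit 5) (nat_lit 350) (nat_lit 340) (nat_lit 330)))) (XT.nd (nat_lit 156) (nat_lit 836) (nat_lit 0) (XT.nd (nat_lit 78) (nat_lit 456) (nat_lit 0) (XT.lf (nat_lit 0) (nat_lit 535183609) (nat_lit 836) (nat_lit 5440527510) (nat_lit 76) (nat_lit 1624533592) (nat_lit 289) (nat_lit 5) (nat_lit 300) (nat_lit 5) (nat_lit 290) (nat_lit 5) (nat_lit 351) (nat_lit 340) (nat_lit 329)) (XT.lf (nat_lit 0) (nat_lit 2620190102) (nat_lit 456) (nat_lit 2019995885) (nat_lit 532) (nat_lit 3181827732) (nat_lit 283) (nat_lit 5)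 (nat_lit 289) (nat_lit 5) (nat_lit 290) (nat_lit 5) (nat_lit 352) (nat_lit 340) (nat_lit 328))) (XT.nd (nat_lit 78) (nat_lit 380) (nat_lit 0) (XT.lf (nat_lit 0) (nat_lit 889466023) (nat_lit 456) (nat_lit 4845818236) (nat_lit 76) (nat_lit 2329960226) (nat_lit 277) (nat_lit 5) (nat_lit 283) (nat_lit 5) (nat_lit 278) (nat_lit 5) (nat_lit 353) (nat_lit 340) (nat_lit 327)) (XT.lf (nat_lit 0) (nat_lit 3921747061) (nat_lit 380) (nat_lit 1182840104) (nat_lit 456) (nat_lit 3224258510) (nat_lit 272) (nat_lit 5) (nat_lit 277) (nat_lit 5) (nat_lit 278) (nat_lit 5) (nat_lit 354) (nat_lit 340) (nat_lit 326))))) (XT.nd (nat_lit 312) (nat_lit 1368) (nat_lit 0) (XT.nd (nat_lit 156) (nat_lit 684) (nat_lit 0) (XT.nd (nat_lit 78) (nat_lit 304) (nat_lit 0) (XT.lf (nat_lit 0) (nat_lit 982949438) (nat_lit 380) (nat_lit 3874040029) (nat_lit 76) (nat_lit 3757082928) (nat_lit 267) (nat_lit 5) (nat_lit 272) (nat_lit 5)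 (nat_lit 268) (nat_lit 5) (nat_lit 355) (nat_lit 340) (nat_lit 325)) (XT.lf (nat_lit 0) (nat_lit 5371844521) (nat_lit 380) (nat_lit 3247947677) (nat_lit 76) (nat_lit 301778580) (nat_lit 263) (nat_lit 5) (nat_lit 268) (nat_lit 5) (nat_lit 264) (nat_lit 5) (nat_lit 356) (nat_lit 340) (nat_lit 324))) (XT.nd (nat_lit 78) (nat_lit 304) (nat_lit 0) (XT.lf (nat_lit 0) (nat_lit 864089441) (nat_lit 380) (nat_lit 2544044179) (nat_lit 76) (nat_lit 5843196757) (nat_lit 258) (nat_lit 5) (nat_lit 263) (nat_lit 5) (nat_lit 259) (nat_lit 5) (nat_lit 357) (nat_lit 340) (nat_lit 323)) (XT.lf (nat_lit 0) (nat_lit 5512713897) (nat_lit 380) (nat_lit 1760036144) (nat_lit 76) (nat_lit 2331507661) (nat_lit 254) (nat_lit 5) (nat_lit 259) (nat_lit 5) (nat_lit 255) (nat_lit 5) (nat_lit 358) (nat_lit 340) (nat_lit 322)))) (XT.nd (nat_lit 156) (nat_lit 532) (nat_lit 0) (XT.nd (nat_lit 78) (nat_lit 532) (nat_lit 0) (XT.lf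 (nat_lit 0) (nat_lit 572913444) (nat_lit 304) (nat_lit 862483866) (nat_lit 76) (nat_lit 8547462378) (nat_lit 250) (nat_lit 5) (nat_lit 254) (nat_lit 5) (nat_lit 251) (nat_lit 5) (nat_lit 359) (nat_lit 340) (nat_lit 321)) (XT.lf (nat_lit 0) (nat_lit 77126794) (nat_lit 228) (nat_lit 5472804350) (nat_lit 304) (nat_lit 4834327381) (nat_lit 243) (nat_lit 5) (nat_lit 246) (nat_lit 5) (nat_lit 247) (nat_lit 5) (nat_lit 360) (nat_lit 340) (nat_lit 320))) (XT.nd (nat_lit 78) (nat_lit 228) (nat_lit 0) (XT.lf (nat_lit 0) (nat_lit 178108589) (nat_lit 304) (nat_lit 9617342085) (nat_lit 76) (nat_lit 1018524643) (nat_lit 239) (nat_lit 5) (nat_lit 243) (nat_lit 5) (nat_lit 240) (nat_lit 5) (nat_lit 361) (nat_lit 340) (nat_lit 319)) (XT.lf (nat_lit 0) (nat_lit 2341035732) (nat_lit 228) (nat_lit 3210075897) (nat_lit 304) (nat_lit 5716548086) (nat_lit 236) (nat_lit 5) (nat_lit 239) (nat_lit 5) (nat_lit 240) (nat_lit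 5) (nat_lit 362) (nat_lit 340) (nat_lit 318)))))))
noncomputable def xc89 : XT := (XT.nd (nat_lit 1248) (nat_lit 2128) (nat_lit 0) (XT.nd (nat_lit 624) (nat_lit 1368) (nat_lit 0) (XT.nd (nat_lit 312) (nat_lit 760) (nat_lit 0) (XT.nd (nat_lit 156) (nat_lit 456) (nat_lit 0) (XT.nd (nat_lit 78) (nat_lit 228) (nat_lit 0) (XT.lf (nat_lit 0) (nat_lit 3630639996) (nat_lit 228) (nat_lit 7834699852) (nat_lit 304) (nat_lit 286729770) (nat_lit 233) (nat_lit 5) (nat_lit 236) (nat_lit 5) (nat_lit 237) (nat_lit 5) (nat_lit 363) (nat_lit 340) (nat_lit 317)) (XT.lf (nat_lit 0) (nat_lit 4993925787) (nat_lit 152) (nat_lit 524943168) (nat_lit 228) (nat_lit 6746013911) (nat_lit 230) (nat_lit 5) (nat_lit 232) (nat_lit 5) (nat_lit 233) (nat_lit 5) (nat_lit 364) (nat_lit 340) (nat_lit 316))) (XT.nd (nat_lit 78) (nat_lit 228) (nat_lit 0) (XT.lf (nat_lit 0) (nat_lit 6460413421) (nat_lit 228) (nat_lit 5515261447) (nat_lit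 304) (nat_lit 832971036) (nat_lit 227) (nat_lit 5) (nat_lit 230) (nat_lit 5) (nat_lit 231) (nat_lit 5) (nat_lit 365) (nat_lit 340) (nat_lit 315)) (XT.lf (nat_lit 0) (nat_lit 5521845308) (nat_lit 228) (nat_lit 5360608339) (nat_lit 76) (nat_lit 2501798134) (nat_lit 224) (nat_lit 5) (nat_lit 227) (nat_lit 5) (nat_lit 225) (nat_lit 5) (nat_lit 366) (nat_lit 340) (nat_lit 314)))) (XT.nd (nat_lit 156) (nat_lit 380) (nat_lit 0) (XT.nd (nat_lit 78) (nat_lit 228) (nat_lit 0) (XT.lf (nat_lit 0) (nat_lit 9724152147) (nat_lit 152) (nat_lit 2838293300) (nat_lit 228) (nat_lit 1432448830) (nat_lit 222) (nat_lit 5) (nat_lit 224) (nat_lit 5) (nat_lit 225) (nat_lit 5) (nat_lit 367) (nat_lit 340) (nat_lit 313)) (XT.lf (nat_lit 0) (nat_lit 5561277298) (nat_lit 228) (nat_lit 3142098965) (nat_lit 76) (nat_lit 5935419732) (nat_lit 219) (nat_lit 5) (nat_lit 222) (nat_lit 5) (nat_lit 220) (nat_lit 5) (nat_lit 368) (nat_lit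 340) (nat_lit 312))) (XT.nd (nat_lit 78) (nat_lit 228) (nat_lit 0) (XT.lf (nat_lit 0) (nat_lit 13261735961) (nat_lit 228) (nat_lit 1859892523) (nat_lit 76) (nat_lit 201536205) (nat_lit 217) (nat_lit 5) (nat_lit 220) (nat_lit 5) (nat_lit 218) (nat_lit 4) (nat_lit 369) (nat_lit 340) (nat_lit 311)) (XT.lf (nat_lit 0) (nat_lit 5655038161) (nat_lit 228) (nat_lit 571117742) (nat_lit 76) (nat_lit 9816039277) (nat_lit 214) (nat_lit 5) (nat_lit 217) (nat_lit 5) (nat_lit 215) (nat_lit 5) (nat_lit 370) (nat_lit 340) (nat_lit 310))))) (XT.nd (nat_lit 312) (nat_lit 608) (nat_lit 0) (XT.nd (nat_lit 156) (nat_lit 304) (nat_lit 0) (XT.nd (nat_lit 78) (nat_lit 228) (nat_lit 0) (XT.lf (nat_lit 0) (nat_lit 906834339) (nat_lit 76) (nat_lit 13261269488) (nat_lit 152) (nat_lit 2636379397) (nat_lit 211) (nat_lit 5) (nat_lit 212) (nat_lit 5) (nat_lit 213) (nat_lit 4) (nat_lit 371) (nat_lit 340) (nat_lit 309)) (XT.lf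 (nat_lit 0) (nat_lit 2476128869) (nat_lit 152) (nat_lit 3391805493) (nat_lit 228) (nat_lit 11739492776) (nat_lit 208) (nat_lit 5) (nat_lit 210) (nat_lit 5) (nat_lit 211) (nat_lit 5) (nat_lit 372) (nat_lit 340) (nat_lit 308))) (XT.nd (nat_lit 78) (nat_lit 228) (nat_lit 0) (XT.lf (nat_lit 0) (nat_lit 4168997498) (nat_lit 76) (nat_lit 11125788079) (nat_lit 152) (nat_lit 3160932108) (nat_lit 207) (nat_lit 5) (nat_lit 208) (nat_lit 5) (nat_lit 209) (nat_lit 4) (nat_lit 373) (nat_lit 340) (nat_lit 307)) (XT.lf (nat_lit 0) (nat_lit 6007579695) (nat_lit 152) (nat_lit 197151213) (nat_lit 228) (nat_lit 13147566566) (nat_lit 204) (nat_lit 5) (nat_lit 206) (nat_lit 5) (nat_lit 207) (nat_lit 5) (nat_lit 374) (nat_lit 340) (nat_lit 306)))) (XT.nd (nat_lit 156) (nat_lit 304) (nat_lit 0) (XT.nd (nat_lit 78) (nat_lit 228) (nat_lit 0) (XT.lf (nat_lit 0) (nat_lit 7925002778) (nat_lit 76) (nat_lit 8724810680) (nat_lit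 152) (nat_lit 3646153753) (nat_lit 203) (nat_lit 5) (nat_lit 204) (nat_lit 5) (nat_lit 205) (nat_lit 4) (nat_lit 375) (nat_lit 340) (nat_lit 305)) (XT.lf (nat_lit 0) (nat_lit 6738498106) (nat_lit 228) (nat_lit 11279351206) (nat_lit 76) (nat_lit 3275374027) (nat_lit 200) (nat_lit 5) (nat_lit 203) (nat_lit 5) (nat_lit 201) (nat_lit 4) (nat_lit 376) (nat_lit 340) (nat_lit 304))) (XT.nd (nat_lit 78) (nat_lit 228) (nat_lit 0) (XT.lf (nat_lit 0) (nat_lit 12244898342) (nat_lit 76) (nat_lit 6029419490) (nat_lit 152) (nat_lit 4070546516) (nat_lit 199) (nat_lit 5) (nat_lit 200) (nat_lit 5) (nat_lit 201) (nat_lit 4) (nat_lit 377) (nat_lit 340) (nat_lit 303)) (XT.lf (nat_lit 0) (nat_lit 7457986214) (nat_lit 228) (nat_lit 8837257329) (nat_lit 76) (nat_lit 7157844570) (nat_lit 196) (nat_lit 5) (nat_lit 199) (nat_lit 5) (nat_lit 197) (nat_lit 4) (nat_lit 378) (nat_lit 340) (nat_lit 302)))))) (XT.nd (nat_lit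 624) (nat_lit 1064) (nat_lit 0) (XT.nd (nat_lit 312) (nat_lit 532) (nat_lit 0) (XT.nd (nat_lit 156) (nat_lit 228) (nat_lit 0) (XT.nd (nat_lit 78) (nat_lit 228) (nat_lit 0) (XT.lf (nat_lit 0) (nat_lit 17209809091) (nat_lit 76) (nat_lit 3003524319) (nat_lit 152) (nat_lit 4410942658) (nat_lit 195) (nat_lit 5) (nat_lit 196) (nat_lit 5) (nat_lit 197) (nat_lit 4) (nat_lit 379) (nat_lit 340) (nat_lit 301)) (XT.lf (nat_lit 0) (nat_lit 8395753814) (nat_lit 228) (nat_lit 5951951316) (nat_lit 76) (nat_lit 11507378110) (nat_lit 192) (nat_lit 5) (nat_lit 195) (nat_lit 5) (nat_lit 193) (nat_lit 4) (nat_lit 380) (nat_lit 340) (nat_lit 300))) (XT.nd (nat_lit 78) (nat_lit 152) (nat_lit 0) (XT.lf (nat_lit 0) (nat_lit 22522822199) (nat_lit 152) (nat_lit 4251659457) (nat_lit 0) (nat_lit 383739096) (nat_lit 191) (nat_lit 5) (nat_lit 193) (nat_lit 4) (nat_lit 191) (nat_lit 4) (nat_lit 381) (nat_lit 340) (nat_lit 299))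 (XT.lf (nat_lit 0) (nat_lit 9591329645) (nat_lit 152) (nat_lit 2549864933) (nat_lit 76) (nat_lit 16383631385) (nat_lit 189) (nat_lit 5) (nat_lit 191) (nat_lit 5) (nat_lit 190) (nat_lit 4) (nat_lit 382) (nat_lit 340) (nat_lit 298)))) (XT.nd (nat_lit 156) (nat_lit 228) (nat_lit 0) (XT.nd (nat_lit 78) (nat_lit 228) (nat_lit 0) (XT.lf (nat_lit 0) (nat_lit 25305521989) (nat_lit 152) (nat_lit 579082428) (nat_lit 0) (nat_lit 4086769284) (nat_lit 188) (nat_lit 5) (nat_lit 190) (nat_lit 4) (nat_lit 188) (nat_lit 4) (nat_lit 383) (nat_lit 340) (nat_lit 297)) (XT.lf (nat_lit 0) (nat_lit 1501956952) (nat_lit 76) (nat_lit 9610394914) (nat_lit 152) (nat_lit 20377256962) (nat_lit 185) (nat_lit 5) (nat_lit 186) (nat_lit 5) (nat_lit 187) (nat_lit 4) (nat_lit 384) (nat_lit 340) (nat_lit 296))) (XT.nd (nat_lit 78) (nat_lit 152) (nat_lit 0) (XT.lf (nat_lit 0) (nat_lit 3864797413) (nat_lit 76) (nat_lit 24772968149)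 (nat_lit 76) (nat_lit 4455291610) (nat_lit 184) (nat_lit 4) (nat_lit 185) (nat_lit 5) (nat_lit 185) (nat_lit 4) (nat_lit 385) (nat_lit 340) (nat_lit 295)) (XT.lf (nat_lit 0) (nat_lit 6360414387) (nat_lit 76) (nat_lit 6677031778) (nat_lit 152) (nat_lit 21742150098) (nat_lit 182) (nat_lit 5) (nat_lit 183) (nat_lit 5) (nat_lit 184) (nat_lit 4) (nat_lit 386) (nat_lit 340) (nat_lit 294))))) (XT.nd (nat_lit 312) (nat_lit 608) (nat_lit 0) (XT.nd (nat_lit 156) (nat_lit 228) (nat_lit 0) (XT.nd (nat_lit 78) (nat_lit 152) (nat_lit 0) (XT.lf (nat_lit 0) (nat_lit 9104618747) (nat_lit 76) (nat_lit 23446672524) (nat_lit 76) (nat_lit 4007226329) (nat_lit 181) (nat_lit 4) (nat_lit 182) (nat_lit 5) (nat_lit 182) (nat_lit 4) (nat_lit 387) (nat_lit 340) (nat_lit 293)) (XT.lf (nat_lit 0) (nat_lit 12056648333) (nat_lit 76) (nat_lit 3326686913) (nat_lit 152) (nat_lit 23048512130) (nat_lit 179) (nat_lit 5) (nat_lit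 180) (nat_lit 5) (nat_lit 181) (nat_lit 4) (nat_lit 388) (nat_lit 340) (nat_lit 292))) (XT.nd (nat_lit 78) (nat_lit 152) (nat_lit 0) (XT.lf (nat_lit 0) (nat_lit 15244557620) (nat_lit 76) (nat_lit 21873593082) (nat_lit 76) (nat_lit 3286938088) (nat_lit 178) (nat_lit 4) (nat_lit 179) (nat_lit 5) (nat_lit 179) (nat_lit 4) (nat_lit 389) (nat_lit 340) (nat_lit 291)) (XT.lf (nat_lit 0) (nat_lit 18223399555) (nat_lit 152) (nat_lit 23770490473) (nat_lit 0) (nat_lit 490918171) (nat_lit 176) (nat_lit 5) (nat_lit 178) (nat_lit 4) (nat_lit 176) (nat_lit 4) (nat_lit 390) (nat_lit 340) (nat_lit 290)))) (XT.nd (nat_lit 156) (nat_lit 380) (nat_lit 0) (XT.nd (nat_lit 78) (nat_lit 152) (nat_lit 0) (XT.lf (nat_lit 0) (nat_lit 22425448965) (nat_lit 76) (nat_lit 20004662021) (nat_lit 76) (nat_lit 2243564710) (nat_lit 175) (nat_lit 4) (nat_lit 176) (nat_lit 5) (nat_lit 176) (nat_lit 4) (nat_lit 391) (nat_lit 340)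 (nat_lit 289)) (XT.lf (nat_lit 0) (nat_lit 21684590021) (nat_lit 152) (nat_lit 20550318170) (nat_lit 0) (nat_lit 4744024746) (nat_lit 173) (nat_lit 5) (nat_lit 175) (nat_lit 4) (nat_lit 173) (nat_lit 4) (nat_lit 392) (nat_lit 340) (nat_lit 288))) (XT.nd (nat_lit 78) (nat_lit 304) (nat_lit 0) (XT.lf (nat_lit 0) (nat_lit 30807876486) (nat_lit 76) (nat_lit 17782854483) (nat_lit 76) (nat_lit 818923929) (nat_lit 172) (nat_lit 4) (nat_lit 173) (nat_lit 5) (nat_lit 173) (nat_lit 4) (nat_lit 393) (nat_lit 340) (nat_lit 287)) (XT.nd (nat_lit 78) (nat_lit 152) (nat_lit 0) (XT.lf (nat_lit 0) (nat_lit 25800483889) (nat_lit 152) (nat_lit 16540310742) (nat_lit 0) (nat_lit 9623755248) (nat_lit 170) (nat_lit 5) (nat_lit 172) (nat_lit 4) (nat_lit 170) (nat_lit 4) (nat_lit 394) (nat_lit 340) (nat_lit 286)) (XT.lf (nat_lit 0) (nat_lit 1019859867) (nat_lit 152) (nat_lit 14105093972) (nat_lit 76) (nat_lit 39537579710)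 (nat_lit 168) (nat_lit 5) (nat_lit 170) (nat_lit 5) (nat_lit 169) (nat_lit 4) (nat_lit 395) (nat_lit 340) (nat_lit 285))))))))
noncomputable def xc90 : XT := (XT.nd (nat_lit 1248) (nat_lit 2052) (nat_lit 0) (XT.nd (nat_lit 624) (nat_lit 912) (nat_lit 0) (XT.nd (nat_lit 312) (nat_lit 532) (nat_lit 0) (XT.nd (nat_lit 156) (nat_lit 228) (nat_lit 0) (XT.nd (nat_lit 78) (nat_lit 152) (nat_lit 0) (XT.lf (nat_lit 0) (nat_lit 30668130819) (nat_lit 152) (nat_lit 11599735190) (nat_lit 0) (nat_lit 15226729325) (nat_lit 167) (nat_lit 5) (nat_lit 169) (nat_lit 4) (nat_lit 167) (nat_lit 4) (nat_lit 396) (nat_lit 340) (nat_lit 284)) (XT.lf (nat_lit 0) (nat_lit 3339757563) (nat_lit 152) (nat_lit 8610475974) (nat_lit 76) (nat_lit 48537669284) (nat_lit 165) (nat_lit 5) (nat_lit 167) (nat_lit 5) (nat_lit 166) (nat_lit 4) (nat_lit 397) (nat_lit 340) (nat_lit 283))) (XT.nd (nat_lit 78) (nat_lit 152) (nat_lit 0) (XT.lf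 (nat_lit 0) (nat_lit 36397677939) (nat_lit 152) (nat_lit 5567085790) (nat_lit 0) (nat_lit 21663008816) (nat_lit 164) (nat_lit 5) (nat_lit 166) (nat_lit 4) (nat_lit 164) (nat_lit 4) (nat_lit 398) (nat_lit 340) (nat_lit 282)) (XT.lf (nat_lit 0) (nat_lit 6251432026) (nat_lit 152) (nat_lit 1931952690) (nat_lit 76) (nat_lit 58764846961) (nat_lit 162) (nat_lit 5) (nat_lit 164) (nat_lit 5) (nat_lit 163) (nat_lit 4) (nat_lit 399) (nat_lit 340) (nat_lit 281)))) (XT.nd (nat_lit 156) (nat_lit 228) (nat_lit 0) (XT.nd (nat_lit 78) (nat_lit 152) (nat_lit 0) (XT.lf (nat_lit 0) (nat_lit 1800342365) (nat_lit 76) (nat_lit 41341887735) (nat_lit 76) (nat_lit 27285539732) (nat_lit 160) (nat_lit 4) (nat_lit 161) (nat_lit 5) (nat_lit 161) (nat_lit 4) (nat_lit 400) (nat_lit 340) (nat_lit 280)) (XT.lf (nat_lit 0) (nat_lit 6331455249) (nat_lit 76) (nat_lit 3618880684) (nat_lit 152) (nat_lit 64156800260) (nat_lit 158)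 (nat_lit 5) (nat_lit 159) (nat_lit 5) (nat_lit 160) (nat_lit 4) (nat_lit 401) (nat_lit 340) (nat_lit 279))) (XT.nd (nat_lit 78) (nat_lit 152) (nat_lit 0) (XT.lf (nat_lit 0) (nat_lit 10890069050) (nat_lit 76) (nat_lit 40239228198) (nat_lit 76) (nat_lit 26833181019) (nat_lit 157) (nat_lit 4) (nat_lit 158) (nat_lit 5) (nat_lit 158) (nat_lit 4) (nat_lit 402) (nat_lit 340) (nat_lit 278)) (XT.lf (nat_lit 0) (nat_lit 14533509424) (nat_lit 152) (nat_lit 65750023286) (nat_lit 0) (nat_lit 1757769420) (nat_lit 155) (nat_lit 5) (nat_lit 157) (nat_lit 4) (nat_lit 155) (nat_lit 4) (nat_lit 403) (nat_lit 340) (nat_lit 277))))) (XT.nd (nat_lit 312) (nat_lit 456) (nat_lit 0) (XT.nd (nat_lit 156) (nat_lit 228) (nat_lit 0) (XT.nd (nat_lit 78) (nat_lit 152) (nat_lit 0) (XT.lf (nat_lit 0) (nat_lit 21768212672) (nat_lit 76) (nat_lit 38665611486) (nat_lit 76) (nat_lit 25882393681) (nat_lit 154) (nat_lit 4) (nat_lit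 155) (nat_lit 5) (nat_lit 155) (nat_lit 4) (nat_lit 404) (nat_lit 340) (nat_lit 276)) (XT.lf (nat_lit 0) (nat_lit 20143486533) (nat_lit 152) (nat_lit 62728306612) (nat_lit 0) (nat_lit 7962399205) (nat_lit 152) (nat_lit 5) (nat_lit 154) (nat_lit 4) (nat_lit 152) (nat_lit 4) (nat_lit 405) (nat_lit 340) (nat_lit 275))) (XT.nd (nat_lit 78) (nat_lit 152) (nat_lit 0) (XT.lf (nat_lit 0) (nat_lit 34720513078) (nat_lit 76) (nat_lit 36522085986) (nat_lit 76) (nat_lit 24334892935) (nat_lit 151) (nat_lit 4) (nat_lit 152) (nat_lit 5) (nat_lit 152) (nat_lit 4) (nat_lit 406) (nat_lit 340) (nat_lit 274)) (XT.lf (nat_lit 0) (nat_lit 26874970751) (nat_lit 152) (nat_lit 58444009150) (nat_lit 0) (nat_lit 15262735990) (nat_lit 149) (nat_lit 5) (nat_lit 151) (nat_lit 4) (nat_lit 149) (nat_lit 4) (nat_lit 407) (nat_lit 340) (nat_lit 273)))) (XT.nd (nat_lit 156) (nat_lit 228) (nat_lit 0) (XT.nd (nat_lit 78) (nat_lit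 152) (nat_lit 0) (XT.lf (nat_lit 0) (nat_lit 50073000260) (nat_lit 76) (nat_lit 33694318694) (nat_lit 76) (nat_lit 22077098531) (nat_lit 148) (nat_lit 4) (nat_lit 149) (nat_lit 5) (nat_lit 149) (nat_lit 4) (nat_lit 408) (nat_lit 340) (nat_lit 272)) (XT.lf (nat_lit 0) (nat_lit 34900416860) (nat_lit 152) (nat_lit 52654644708) (nat_lit 0) (nat_lit 23832001358) (nat_lit 146) (nat_lit 5) (nat_lit 148) (nat_lit 4) (nat_lit 146) (nat_lit 4) (nat_lit 409) (nat_lit 340) (nat_lit 271))) (XT.nd (nat_lit 78) (nat_lit 152) (nat_lit 0) (XT.lf (nat_lit 0) (nat_lit 68197347599) (nat_lit 76) (nat_lit 30050452762) (nat_lit 76) (nat_lit 18977966613) (nat_lit 145) (nat_lit 4) (nat_lit 146) (nat_lit 5) (nat_lit 146) (nat_lit 4) (nat_lit 410) (nat_lit 340) (nat_lit 270)) (XT.lf (nat_lit 0) (nat_lit 44416363342) (nat_lit 152) (nat_lit 45080713569) (nat_lit 0) (nat_lit 33867548803) (nat_lit 143) (nat_lit 5) (nat_lit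 145) (nat_lit 4) (nat_lit 143) (nat_lit 4) (nat_lit 411) (nat_lit 340) (nat_lit 269)))))) (XT.nd (nat_lit 624) (nat_lit 1064) (nat_lit 0) (XT.nd (nat_lit 312) (nat_lit 532) (nat_lit 0) (XT.nd (nat_lit 156) (nat_lit 228) (nat_lit 0) (XT.nd (nat_lit 78) (nat_lit 152) (nat_lit 0) (XT.lf (nat_lit 0) (nat_lit 89516912330) (nat_lit 76) (nat_lit 25438675601) (nat_lit 76) (nat_lit 14886537324) (nat_lit 142) (nat_lit 4) (nat_lit 143) (nat_lit 5) (nat_lit 143) (nat_lit 4) (nat_lit 412) (nat_lit 340) (nat_lit 268)) (XT.lf (nat_lit 0) (nat_lit 55646624853) (nat_lit 152) (nat_lit 35400550570) (nat_lit 0) (nat_lit 45594038367) (nat_lit 140) (nat_lit 5) (nat_lit 142) (nat_lit 4) (nat_lit 140) (nat_lit 4) (nat_lit 413) (nat_lit 340) (nat_lit 267))) (XT.nd (nat_lit 78) (nat_lit 152) (nat_lit 0) (XT.lf (nat_lit 0) (nat_lit 114513548276) (nat_lit 76) (nat_lit 19684461664) (nat_lit 76) (nat_lit 9629161303) (nat_lit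 139) (nat_lit 4) (nat_lit 140) (nat_lit 5) (nat_lit 140) (nat_lit 4) (nat_lit 414) (nat_lit 340) (nat_lit 266)) (XT.lf (nat_lit 0) (nat_lit 68845889050) (nat_lit 152) (nat_lit 23244492965) (nat_lit 0) (nat_lit 59267019327) (nat_lit 137) (nat_lit 5) (nat_lit 139) (nat_lit 4) (nat_lit 137) (nat_lit 4) (nat_lit 415) (nat_lit 340) (nat_lit 265)))) (XT.nd (nat_lit 156) (nat_lit 304) (nat_lit 0) (XT.nd (nat_lit 78) (nat_lit 152) (nat_lit 0) (XT.lf (nat_lit 0) (nat_lit 143735286414) (nat_lit 76) (nat_lit 12587449377) (nat_lit 76) (nat_lit 3006363740) (nat_lit 136) (nat_lit 4) (nat_lit 137) (nat_lit 5) (nat_lit 137) (nat_lit 4) (nat_lit 416) (nat_lit 340) (nat_lit 264)) (XT.lf (nat_lit 0) (nat_lit 84303768358) (nat_lit 152) (nat_lit 8188282005) (nat_lit 0) (nat_lit 75176970825) (nat_lit 134) (nat_lit 5) (nat_lit 136) (nat_lit 4) (nat_lit 134) (nat_lit 4) (nat_lit 417) (nat_lit 340) (nat_lit 263))) (XT.nd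 (nat_lit 78) (nat_lit 76) (nat_lit 0) (XT.lf (nat_lit 0) (nat_lit 1251495948) (nat_lit 76) (nat_lit 3811968834) (nat_lit 152) (nat_lit 171443687199) (nat_lit 131) (nat_lit 5) (nat_lit 132) (nat_lit 5) (nat_lit 133) (nat_lit 4) (nat_lit 418) (nat_lit 340) (nat_lit 262)) (XT.lf (nat_lit 0) (nat_lit 10593455355) (nat_lit 76) (nat_lit 91921301526) (nat_lit 76) (nat_lit 83225794710) (nat_lit 130) (nat_lit 4) (nat_lit 131) (nat_lit 5) (nat_lit 131) (nat_lit 4) (nat_lit 419) (nat_lit 340) (nat_lit 261))))) (XT.nd (nat_lit 312) (nat_lit 608) (nat_lit 0) (XT.nd (nat_lit 156) (nat_lit 228) (nat_lit 0) (XT.nd (nat_lit 78) (nat_lit 76) (nat_lit 0) (XT.lf (nat_lit 0) (nat_lit 15256455585) (nat_lit 152) (nat_lit 173293518372) (nat_lit 0) (nat_lit 6973613536) (nat_lit 128) (nat_lit 5) (nat_lit 130) (nat_lit 4) (nat_lit 128) (nat_lit 4) (nat_lit 420) (nat_lit 340) (nat_lit 260)) (XT.lf (nat_lit 0) (nat_lit 33719593979)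 (nat_lit 76) (nat_lit 90163264641) (nat_lit 76) (nat_lit 81879119826) (nat_lit 127) (nat_lit 4) (nat_lit 128) (nat_lit 5) (nat_lit 128) (nat_lit 4) (nat_lit 421) (nat_lit 340) (nat_lit 259))) (XT.nd (nat_lit 78) (nat_lit 76) (nat_lit 0) (XT.lf (nat_lit 0) (nat_lit 27700285312) (nat_lit 152) (nat_lit 169085615538) (nat_lit 0) (nat_lit 19809474760) (nat_lit 125) (nat_lit 5) (nat_lit 127) (nat_lit 4) (nat_lit 125) (nat_lit 4) (nat_lit 422) (nat_lit 340) (nat_lit 258)) (XT.lf (nat_lit 0) (nat_lit 61577275177) (nat_lit 76) (nat_lit 87133139378) (nat_lit 76) (nat_lit 79241265100) (nat_lit 124) (nat_lit 4) (nat_lit 125) (nat_lit 5) (nat_lit 125) (nat_lit 4) (nat_lit 423) (nat_lit 340) (nat_lit 257)))) (XT.nd (nat_lit 156) (nat_lit 380) (nat_lit 0) (XT.nd (nat_lit 78) (nat_lit 76) (nat_lit 0) (XT.lf (nat_lit 0) (nat_lit 42684222790) (nat_lit 152) (nat_lit 162096786080) (nat_lit 0) (nat_lit 35167214019)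 (nat_lit 122) (nat_lit 5) (nat_lit 124) (nat_lit 4) (nat_lit 122) (nat_lit 4) (nat_lit 424) (nat_lit 340) (nat_lit 256)) (XT.lf (nat_lit 0) (nat_lit 94918162261) (nat_lit 76) (nat_lit 82572058905) (nat_lit 76) (nat_lit 75054181589) (nat_lit 121) (nat_lit 4) (nat_lit 122) (nat_lit 5) (nat_lit 122) (nat_lit 4) (nat_lit 425) (nat_lit 340) (nat_lit 255))) (XT.nd (nat_lit 78) (nat_lit 228) (nat_lit 0) (XT.lf (nat_lit 0) (nat_lit 60606630104) (nat_lit 152) (nat_lit 151776402104) (nat_lit 0) (nat_lit 53445981033) (nat_lit 119) (nat_lit 5) (nat_lit 121) (nat_lit 4) (nat_lit 119) (nat_lit 4) (nat_lit 426) (nat_lit 340) (nat_lit 254)) (XT.nd (nat_lit 78) (nat_lit 152) (nat_lit 0) (XT.lf (nat_lit 0) (nat_lit 134600246607) (nat_lit 76) (nat_lit 76180736950) (nat_lit 76) (nat_lit 69019378699) (nat_lit 118) (nat_lit 4) (nat_lit 119) (nat_lit 5) (nat_lit 119) (nat_lit 4) (nat_lit 427) (nat_lit 340) (nat_lit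 253)) (XT.lf (nat_lit 0) (nat_lit 81922063120) (nat_lit 152) (nat_lit 137488245228) (nat_lit 0) (nat_lit 75101096550) (nat_lit 116) (nat_lit 5) (nat_lit 118) (nat_lit 4) (nat_lit 116) (nat_lit 4) (nat_lit 428) (nat_lit 340) (nat_lit 252))))))))
noncomputable def xc91 : XT := (XT.nd (nat_lit 1248) (nat_lit 380) (nat_lit 0) (XT.nd (nat_lit 624) (nat_lit 988) (nat_lit 0) (XT.nd (nat_lit 312) (nat_lit 456) (nat_lit 0) (XT.nd (nat_lit 156) (nat_lit 228) (nat_lit 0) (XT.nd (nat_lit 78) (nat_lit 152) (nat_lit 0) (XT.lf (nat_lit 0) (nat_lit 181602006521) (nat_lit 76) (nat_lit 67613771873) (nat_lit 76) (nat_lit 60792226249) (nat_lit 115) (nat_lit 4) (nat_lit 116) (nat_lit 5) (nat_lit 116) (nat_lit 4) (nat_lit 429) (nat_lit 340) (nat_lit 251)) (XT.lf (nat_lit 0) (nat_lit 107148735084) (nat_lit 152) (nat_lit 118498487076) (nat_lit 0) (nat_lit 100651514337) (nat_lit 113) (nat_lit 5) (nat_lit 115) (nat_lit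 4) (nat_lit 113) (nat_lit 4) (nat_lit 430) (nat_lit 340) (nat_lit 250))) (XT.nd (nat_lit 78) (nat_lit 152) (nat_lit 0) (XT.lf (nat_lit 0) (nat_lit 237038378450) (nat_lit 76) (nat_lit 56473194574) (nat_lit 76) (nat_lit 49975501021) (nat_lit 112) (nat_lit 4) (nat_lit 113) (nat_lit 5) (nat_lit 113) (nat_lit 4) (nat_lit 431) (nat_lit 340) (nat_lit 249)) (XT.lf (nat_lit 0) (nat_lit 136876933593) (nat_lit 152) (nat_lit 93962078356) (nat_lit 0) (nat_lit 130688237083) (nat_lit 110) (nat_lit 5) (nat_lit 112) (nat_lit 4) (nat_lit 110) (nat_lit 4) (nat_lit 432) (nat_lit 340) (nat_lit 248)))) (XT.nd (nat_lit 156) (nat_lit 228) (nat_lit 0) (XT.nd (nat_lit 78) (nat_lit 152) (nat_lit 0) (XT.lf (nat_lit 0) (nat_lit 302178766243) (nat_lit 76) (nat_lit 42301163777) (nat_lit 76) (nat_lit 36112081216) (nat_lit 109) (nat_lit 4) (nat_lit 110) (nat_lit 5) (nat_lit 110) (nat_lit 4) (nat_lit 433) (nat_lit 340) (nat_lit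 247)) (XT.lf (nat_lit 0) (nat_lit 171778509621) (nat_lit 152) (nat_lit 62907343599) (nat_lit 0) (nat_lit 165883804844) (nat_lit 107) (nat_lit 5) (nat_lit 109) (nat_lit 4) (nat_lit 107) (nat_lit 4) (nat_lit 434) (nat_lit 340) (nat_lit 246))) (XT.nd (nat_lit 78) (nat_lit 152) (nat_lit 0) (XT.lf (nat_lit 0) (nat_lit 378467341793) (nat_lit 76) (nat_lit 24571700244) (nat_lit 76) (nat_lit 18676680250) (nat_lit 106) (nat_lit 4) (nat_lit 107) (nat_lit 5) (nat_lit 107) (nat_lit 4) (nat_lit 435) (nat_lit 340) (nat_lit 245)) (XT.lf (nat_lit 0) (nat_lit 212617571790) (nat_lit 152) (nat_lit 24218553410) (nat_lit 0) (nat_lit 207002989065) (nat_lit 104) (nat_lit 5) (nat_lit 106) (nat_lit 4) (nat_lit 104) (nat_lit 4) (nat_lit 436) (nat_lit 340) (nat_lit 244))))) (XT.nd (nat_lit 312) (nat_lit 456) (nat_lit 0) (XT.nd (nat_lit 156) (nat_lit 228) (nat_lit 0) (XT.nd (nat_lit 78) (nat_lit 76) (nat_lit 0) (XT.lf (nat_lit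 0) (nat_lit 213187322) (nat_lit 76) (nat_lit 2629752885) (nat_lit 152) (nat_lit 464448360454) (nat_lit 101) (nat_lit 5) (nat_lit 102) (nat_lit 5) (nat_lit 103) (nat_lit 4) (nat_lit 437) (nat_lit 340) (nat_lit 243)) (XT.lf (nat_lit 0) (nat_lit 24156955657) (nat_lit 76) (nat_lit 236482737391) (nat_lit 76) (nat_lit 231135043661) (nat_lit 100) (nat_lit 4) (nat_lit 101) (nat_lit 5) (nat_lit 101) (nat_lit 4) (nat_lit 438) (nat_lit 340) (nat_lit 242))) (XT.nd (nat_lit 78) (nat_lit 76) (nat_lit 0) (XT.lf (nat_lit 0) (nat_lit 29720302808) (nat_lit 152) (nat_lit 463376008606) (nat_lit 0) (nat_lit 24627061015) (nat_lit 98) (nat_lit 5) (nat_lit 100) (nat_lit 4) (nat_lit 98) (nat_lit 4) (nat_lit 439) (nat_lit 340) (nat_lit 241)) (XT.lf (nat_lit 0) (nat_lit 84055488261) (nat_lit 76) (nat_lit 232956546361) (nat_lit 76) (nat_lit 227863119248) (nat_lit 97) (nat_lit 4) (nat_lit 98) (nat_lit 5) (nat_lit 98) (nat_lit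 4) (nat_lit 440) (nat_lit 340) (nat_lit 240)))) (XT.nd (nat_lit 156) (nat_lit 228) (nat_lit 0) (XT.nd (nat_lit 78) (nat_lit 76) (nat_lit 0) (XT.lf (nat_lit 0) (nat_lit 62387621536) (nat_lit 152) (nat_lit 453683501356) (nat_lit 0) (nat_lit 57536575150) (nat_lit 95) (nat_lit 5) (nat_lit 97) (nat_lit 4) (nat_lit 95) (nat_lit 4) (nat_lit 441) (nat_lit 340) (nat_lit 239)) (XT.lf (nat_lit 0) (nat_lit 156408433287) (nat_lit 76) (nat_lit 226082036996) (nat_lit 76) (nat_lit 221230839294) (nat_lit 94) (nat_lit 4) (nat_lit 95) (nat_lit 5) (nat_lit 95) (nat_lit 4) (nat_lit 442) (nat_lit 340) (nat_lit 238))) (XT.nd (nat_lit 78) (nat_lit 76) (nat_lit 0) (XT.lf (nat_lit 0) (nat_lit 101723106505) (nat_lit 152) (nat_lit 436710893752) (nat_lit 0) (nat_lit 97102784782) (nat_lit 92) (nat_lit 5) (nat_lit 94) (nat_lit 4) (nat_lit 92) (nat_lit 4) (nat_lit 443) (nat_lit 340) (nat_lit 237)) (XT.lf (nat_lit 0) (nat_lit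 243195495770) (nat_lit 76) (nat_lit 215180225537) (nat_lit 76) (nat_lit 210559780262) (nat_lit 91) (nat_lit 4) (nat_lit 92) (nat_lit 5) (nat_lit 92) (nat_lit 4) (nat_lit 444) (nat_lit 340) (nat_lit 236)))))) (XT.nd (nat_lit 45396) (nat_lit 0) (nat_lit 14136) (XT.nd (nat_lit 45084) (nat_lit 0) (nat_lit 19076) (XT.nd (nat_lit 156) (nat_lit 152) (nat_lit 0) (XT.nd (nat_lit 78) (nat_lit 76) (nat_lit 0) (XT.lf (nat_lit 0) (nat_lit 148776881286) (nat_lit 152) (nat_lit 411011871804) (nat_lit 0) (nat_lit 144376348262) (nat_lit 89) (nat_lit 5) (nat_lit 91) (nat_lit 4) (nat_lit 89) (nat_lit 4) (nat_lit 445) (nat_lit 340) (nat_lit 235)) (XT.lf (nat_lit 0) (nat_lit 346677065398) (nat_lit 76) (nat_lit 199465545710) (nat_lit 76) (nat_lit 195064911805) (nat_lit 88) (nat_lit 4) (nat_lit 89) (nat_lit 5) (nat_lit 89) (nat_lit 4) (nat_lit 446) (nat_lit 340) (nat_lit 234))) (XT.nd (nat_lit 44850) (nat_lit 0) (nat_lit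 19912) (XT.lf (nat_lit 0) (nat_lit 204747397741) (nat_lit 152) (nat_lit 374914449375) (nat_lit 0) (nat_lit 200556228871) (nat_lit 86) (nat_lit 5) (nat_lit 88) (nat_lit 4) (nat_lit 86) (nat_lit 4) (nat_lit 447) (nat_lit 340) (nat_lit 233)) (XT.lf (nat_lit 0) (nat_lit 1570810371) (nat_lit 228) (nat_lit 831954797) (nat_lit 228) (nat_lit 831954797) (nat_lit 348) (nat_lit 3) (nat_lit 351) (nat_lit 3) (nat_lit 351) (nat_lit 5) (nat_lit 341) (nat_lit 341) (nat_lit 338)))) (XT.nd (nat_lit 156) (nat_lit 608) (nat_lit 0) (XT.nd (nat_lit 78) (nat_lit 0) (nat_lit 0) (XT.lf (nat_lit 0) (nat_lit 1116037247) (nat_lit 228) (nat_lit 2942409296) (nat_lit 304) (nat_lit 2449162840) (nat_lit 345) (nat_lit 5) (nat_lit 348) (nat_lit 3) (nat_lit 349) (nat_lit 5) (nat_lit 342) (nat_lit 341) (nat_lit 337)) (XT.lf (nat_lit 76) (nat_lit 2497924692) (nat_lit 0) (nat_lit 2926024778) (nat_lit 304) (nat_lit 1140898308) (nat_lit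 346) (nat_lit 5) (nat_lit 345) (nat_lit 5) (nat_lit 349) (nat_lit 5) (nat_lit 343) (nat_lit 341) (nat_lit 336))) (XT.nd (nat_lit 78) (nat_lit 304) (nat_lit 0) (XT.lf (nat_lit 76) (nat_lit 1597680626) (nat_lit 0) (nat_lit 1396297002) (nat_lit 380) (nat_lit 3647266326) (nat_lit 342) (nat_lit 5) (nat_lit 341) (nat_lit 5) (nat_lit 346) (nat_lit 5) (nat_lit 344) (nat_lit 341) (nat_lit 335)) (XT.lf (nat_lit 0) (nat_lit 367289289) (nat_lit 380) (nat_lit 5863952724) (nat_lit 76) (nat_lit 506393778) (nat_lit 337) (nat_lit 5) (nat_lit 342) (nat_lit 5) (nat_lit 338) (nat_lit 5) (nat_lit 345) (nat_lit 341) (nat_lit 334))))) (XT.nd (nat_lit 312) (nat_lit 3420) (nat_lit 0) (XT.nd (nat_lit 156) (nat_lit 1064) (nat_lit 0) (XT.nd (nat_lit 78) (nat_lit 76) (nat_lit 0) (XT.lf (nat_lit 0) (nat_lit 263828750) (nat_lit 380) (nat_lit 4056596818) (nat_lit 456) (nat_lit 2531063911) (nat_lit 332) (nat_lit 5) (nat_lit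 337) (nat_lit 5) (nat_lit 338) (nat_lit 5) (nat_lit 346) (nat_lit 341) (nat_lit 333)) (XT.lf (nat_lit 0) (nat_lit 1311981627) (nat_lit 456) (nat_lit 170434059) (nat_lit 76) (nat_lit 5503358661) (nat_lit 331) (nat_lit 5) (nat_lit 337) (nat_lit 5) (nat_lit 332) (nat_lit 5) (nat_lit 347) (nat_lit 341) (nat_lit 332))) (XT.nd (nat_lit 78) (nat_lit 608) (nat_lit 0) (XT.lf (nat_lit 0) (nat_lit 5174170946) (nat_lit 532) (nat_lit 478170380) (nat_lit 76) (nat_lit 1486367222) (nat_lit 325) (nat_lit 5) (nat_lit 332) (nat_lit 5) (nat_lit 326) (nat_lit 5) (nat_lit 348) (nat_lit 341) (nat_lit 331)) (XT.lf (nat_lit 0) (nat_lit 1798207304) (nat_lit 608) (nat_lit 664268984) (nat_lit 76) (nat_lit 4848703113) (nat_lit 317) (nat_lit 5) (nat_lit 325) (nat_lit 5) (nat_lit 318) (nat_lit 5) (nat_lit 349) (nat_lit 341) (nat_lit 330)))) (XT.nd (nat_lit 156) (nat_lit 2052) (nat_lit 0) (XT.nd (nat_lit 78) (nat_lit 760) (nat_lit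 0) (XT.lf (nat_lit 0) (nat_lit 5634031568) (nat_lit 684) (nat_lit 727258171) (nat_lit 76) (nat_lit 1142503527) (nat_lit 309) (nat_lit 5) (nat_lit 318) (nat_lit 5) (nat_lit 310) (nat_lit 5) (nat_lit 350) (nat_lit 341) (nat_lit 329)) (XT.lf (nat_lit 0) (nat_lit 1885923680) (nat_lit 760) (nat_lit 692428992) (nat_lit 76) (nat_lit 5137496220) (nat_lit 299) (nat_lit 5) (nat_lit 309) (nat_lit 5) (nat_lit 300) (nat_lit 5) (nat_lit 351) (nat_lit 341) (nat_lit 328))) (XT.nd (nat_lit 78) (nat_lit 1292) (nat_lit 0) (XT.lf (nat_lit 0) (nat_lit 5770454890) (nat_lit 836) (nat_lit 545782732) (nat_lit 76) (nat_lit 1632403836) (nat_lit 289) (nat_lit 5) (nat_lit 300) (nat_lit 5) (nat_lit 290) (nat_lit 5) (nat_lit 352) (nat_lit 341) (nat_lit 327)) (XT.nd (nat_lit 78) (nat_lit 760) (nat_lit 0) (XT.lf (nat_lit 0) (nat_lit 1641163019) (nat_lit 532) (nat_lit 301716151) (nat_lit 76) (nat_lit 6259200640) (nat_lit 282)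 (nat_lit 5) (nat_lit 289) (nat_lit 5) (nat_lit 283) (nat_lit 5) (nat_lit 353) (nat_lit 341) (nat_lit 326)) (XT.lf (nat_lit 0) (nat_lit 29718286) (nat_lit 380) (nat_lit 5615100736) (nat_lit 456) (nat_lit 2831435236) (nat_lit 272) (nat_lit 5) (nat_lit 277) (nat_lit 5) (nat_lit 278) (nat_lit 5) (nat_lit 354) (nat_lit 341) (nat_lit 325))))))))
noncomputable def xc92 : XT := (XT.nd (nat_lit 1248) (nat_lit 2280) (nat_lit 0) (XT.nd (nat_lit 624) (nat_lit 1900) (nat_lit 0) (XT.nd (nat_lit 312) (nat_lit 1140) (nat_lit 0) (XT.nd (nat_lit 156) (nat_lit 684) (nat_lit 0) (XT.nd (nat_lit 78) (nat_lit 304) (nat_lit 0) (XT.lf (nat_lit 0) (nat_lit 492405856) (nat_lit 304) (nat_lit 632294746) (nat_lit 380) (nat_lit 7648398688) (nat_lit 267) (nat_lit 5) (nat_lit 271) (nat_lit 5) (nat_lit 272) (nat_lit 5) (nat_lit 355) (nat_lit 341) (nat_lit 324)) (XT.lf (nat_lit 0) (nat_lit 1005288735) (nat_lit 304) (nat_lit 4316017908)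 (nat_lit 380) (nat_lit 3768905482) (nat_lit 263) (nat_lit 5) (nat_lit 267) (nat_lit 5) (nat_lit 268) (nat_lit 5) (nat_lit 356) (nat_lit 341) (nat_lit 323))) (XT.nd (nat_lit 78) (nat_lit 304) (nat_lit 0) (XT.lf (nat_lit 0) (nat_lit 402461663) (nat_lit 380) (nat_lit 7775119156) (nat_lit 76) (nat_lit 1255035188) (nat_lit 258) (nat_lit 5) (nat_lit 263) (nat_lit 5) (nat_lit 259) (nat_lit 5) (nat_lit 357) (nat_lit 341) (nat_lit 322)) (XT.lf (nat_lit 0) (nat_lit 2351768792) (nat_lit 304) (nat_lit 2480173088) (nat_lit 380) (nat_lit 4964558663) (nat_lit 254) (nat_lit 5) (nat_lit 258) (nat_lit 5) (nat_lit 259) (nat_lit 5) (nat_lit 358) (nat_lit 341) (nat_lit 321)))) (XT.nd (nat_lit 156) (nat_lit 532) (nat_lit 0) (XT.nd (nat_lit 78) (nat_lit 380) (nat_lit 0) (XT.lf (nat_lit 0) (nat_lit 3170893963) (nat_lit 228) (nat_lit 6501336442) (nat_lit 304) (nat_lit 514442943) (nat_lit 251) (nat_lit 5) (nat_lit 254)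 (nat_lit 5) (nat_lit 255) (nat_lit 5) (nat_lit 359) (nat_lit 341) (nat_lit 320)) (XT.lf (nat_lit 0) (nat_lit 4069679642) (nat_lit 304) (nat_lit 140957553) (nat_lit 380) (nat_lit 6391256733) (nat_lit 246) (nat_lit 5) (nat_lit 250) (nat_lit 5) (nat_lit 251) (nat_lit 5) (nat_lit 360) (nat_lit 341) (nat_lit 319))) (XT.nd (nat_lit 78) (nat_lit 304) (nat_lit 0) (XT.lf (nat_lit 0) (nat_lit 5047801338) (nat_lit 228) (nat_lit 4383970755) (nat_lit 304) (nat_lit 1611334792) (nat_lit 243) (nat_lit 5) (nat_lit 246) (nat_lit 5) (nat_lit 247) (nat_lit 5) (nat_lit 361) (nat_lit 341) (nat_lit 318)) (XT.lf (nat_lit 0) (nat_lit 3527767674) (nat_lit 304) (nat_lit 5386070091) (nat_lit 76) (nat_lit 2598485058) (nat_lit 239) (nat_lit 5) (nat_lit 243) (nat_lit 5) (nat_lit 240) (nat_lit 5) (nat_lit 362) (nat_lit 341) (nat_lit 317))))) (XT.nd (nat_lit 312) (nat_lit 912) (nat_lit 0) (XT.nd (nat_lit 156) (nat_lit 456) (nat_lit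 0) (XT.nd (nat_lit 78) (nat_lit 304) (nat_lit 0) (XT.lf (nat_lit 0) (nat_lit 7311655390) (nat_lit 228) (nat_lit 1846569423) (nat_lit 304) (nat_lit 2852696466) (nat_lit 236) (nat_lit 5) (nat_lit 239) (nat_lit 5) (nat_lit 240) (nat_lit 5) (nat_lit 363) (nat_lit 341) (nat_lit 316)) (XT.lf (nat_lit 0) (nat_lit 2775412357) (nat_lit 304) (nat_lit 3962091474) (nat_lit 76) (nat_lit 5801214636) (nat_lit 232) (nat_lit 5) (nat_lit 236) (nat_lit 5) (nat_lit 233) (nat_lit 5) (nat_lit 364) (nat_lit 341) (nat_lit 315))) (XT.nd (nat_lit 78) (nat_lit 304) (nat_lit 0) (XT.lf (nat_lit 0) (nat_lit 8896825263) (nat_lit 228) (nat_lit 3128565372) (nat_lit 76) (nat_lit 1073860521) (nat_lit 230) (nat_lit 5) (nat_lit 233) (nat_lit 5) (nat_lit 231) (nat_lit 5) (nat_lit 365) (nat_lit 341) (nat_lit 314)) (XT.lf (nat_lit 0) (nat_lit 1972592254) (nat_lit 304) (nat_lit 2237730564) (nat_lit 76) (nat_lit 9481546635) (nat_lit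 226) (nat_lit 5) (nat_lit 230) (nat_lit 5) (nat_lit 227) (nat_lit 5) (nat_lit 366) (nat_lit 341) (nat_lit 313)))) (XT.nd (nat_lit 156) (nat_lit 532) (nat_lit 0) (XT.nd (nat_lit 78) (nat_lit 228) (nat_lit 0) (XT.lf (nat_lit 0) (nat_lit 8691723626) (nat_lit 228) (nat_lit 1276745912) (nat_lit 76) (nat_lit 4350115850) (nat_lit 224) (nat_lit 5) (nat_lit 227) (nat_lit 5) (nat_lit 225) (nat_lit 5) (nat_lit 367) (nat_lit 341) (nat_lit 312)) (XT.lf (nat_lit 0) (nat_lit 1138426854) (nat_lit 228) (nat_lit 184497001) (nat_lit 76) (nat_lit 13660971824) (nat_lit 221) (nat_lit 5) (nat_lit 224) (nat_lit 5) (nat_lit 222) (nat_lit 5) (nat_lit 368) (nat_lit 341) (nat_lit 311))) (XT.nd (nat_lit 78) (nat_lit 228) (nat_lit 0) (XT.lf (nat_lit 0) (nat_lit 947931455) (nat_lit 152) (nat_lit 7606149149) (nat_lit 228) (nat_lit 7128424013) (nat_lit 217) (nat_lit 5) (nat_lit 219) (nat_lit 5) (nat_lit 220) (nat_lit 5) (nat_lit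 369) (nat_lit 341) (nat_lit 310)) (XT.lf (nat_lit 0) (nat_lit 357672160) (nat_lit 228) (nat_lit 14149388305) (nat_lit 76) (nat_lit 1918057455) (nat_lit 214) (nat_lit 5) (nat_lit 217) (nat_lit 5) (nat_lit 215) (nat_lit 5) (nat_lit 370) (nat_lit 341) (nat_lit 309)))))) (XT.nd (nat_lit 624) (nat_lit 1140) (nat_lit 0) (XT.nd (nat_lit 312) (nat_lit 608) (nat_lit 0) (XT.nd (nat_lit 156) (nat_lit 304) (nat_lit 0) (XT.nd (nat_lit 78) (nat_lit 76) (nat_lit 0) (XT.lf (nat_lit 0) (nat_lit 3610854378) (nat_lit 152) (nat_lit 4910080495) (nat_lit 228) (nat_lit 8683961239) (nat_lit 212) (nat_lit 5) (nat_lit 214) (nat_lit 5) (nat_lit 215) (nat_lit 5) (nat_lit 371) (nat_lit 341) (nat_lit 308)) (XT.lf (nat_lit 0) (nat_lit 5131478526) (nat_lit 76) (nat_lit 12505204573) (nat_lit 152) (nat_lit 395402234) (nat_lit 211) (nat_lit 5) (nat_lit 212) (nat_lit 5) (nat_lit 213) (nat_lit 4) (nat_lit 372) (nat_lit 341) (nat_lit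 307))) (XT.nd (nat_lit 78) (nat_lit 76) (nat_lit 0) (XT.lf (nat_lit 0) (nat_lit 6720936778) (nat_lit 152) (nat_lit 1877216456) (nat_lit 228) (nat_lit 10304828869) (nat_lit 208) (nat_lit 5) (nat_lit 210) (nat_lit 5) (nat_lit 211) (nat_lit 5) (nat_lit 373) (nat_lit 341) (nat_lit 306)) (XT.lf (nat_lit 0) (nat_lit 8454824495) (nat_lit 76) (nat_lit 10244387140) (nat_lit 152) (nat_lit 1123921304) (nat_lit 207) (nat_lit 5) (nat_lit 208) (nat_lit 5) (nat_lit 209) (nat_lit 4) (nat_lit 374) (nat_lit 341) (nat_lit 305)))) (XT.nd (nat_lit 156) (nat_lit 304) (nat_lit 0) (XT.nd (nat_lit 78) (nat_lit 76) (nat_lit 0) (XT.lf (nat_lit 0) (nat_lit 8837444084) (nat_lit 228) (nat_lit 10479831573) (nat_lit 76) (nat_lit 1476388879) (nat_lit 204) (nat_lit 5) (nat_lit 207) (nat_lit 5) (nat_lit 205) (nat_lit 4) (nat_lit 375) (nat_lit 341) (nat_lit 304)) (XT.lf (nat_lit 0) (nat_lit 12317386694) (nat_lit 76) (nat_lit 7704256513)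 (nat_lit 152) (nat_lit 1796009147) (nat_lit 203) (nat_lit 5) (nat_lit 204) (nat_lit 5) (nat_lit 205) (nat_lit 4) (nat_lit 376) (nat_lit 341) (nat_lit 303))) (XT.nd (nat_lit 78) (nat_lit 76) (nat_lit 0) (XT.lf (nat_lit 0) (nat_lit 9280726854) (nat_lit 228) (nat_lit 8448522619) (nat_lit 76) (nat_lit 5167274289) (nat_lit 200) (nat_lit 5) (nat_lit 203) (nat_lit 5) (nat_lit 201) (nat_lit 4) (nat_lit 377) (nat_lit 341) (nat_lit 302)) (XT.lf (nat_lit 0) (nat_lit 16795427585) (nat_lit 76) (nat_lit 4851355514) (nat_lit 152) (nat_lit 2390144406) (nat_lit 199) (nat_lit 5) (nat_lit 200) (nat_lit 5) (nat_lit 201) (nat_lit 4) (nat_lit 378) (nat_lit 341) (nat_lit 301))))) (XT.nd (nat_lit 312) (nat_lit 532) (nat_lit 0) (XT.nd (nat_lit 156) (nat_lit 304) (nat_lit 0) (XT.nd (nat_lit 78) (nat_lit 76) (nat_lit 0) (XT.lf (nat_lit 0) (nat_lit 9932282115) (nat_lit 228) (nat_lit 5999827914) (nat_lit 76) (nat_lit 9303342283)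 (nat_lit 196) (nat_lit 5) (nat_lit 199) (nat_lit 5) (nat_lit 197) (nat_lit 4) (nat_lit 379) (nat_lit 341) (nat_lit 300)) (XT.lf (nat_lit 0) (nat_lit 21976968080) (nat_lit 76) (nat_lit 1644936546) (nat_lit 152) (nat_lit 2882738299) (nat_lit 195) (nat_lit 5) (nat_lit 196) (nat_lit 5) (nat_lit 197) (nat_lit 4) (nat_lit 380) (nat_lit 341) (nat_lit 299))) (XT.nd (nat_lit 78) (nat_lit 76) (nat_lit 0) (XT.lf (nat_lit 0) (nat_lit 10829344360) (nat_lit 228) (nat_lit 3065012908) (nat_lit 76) (nat_lit 13941036119) (nat_lit 192) (nat_lit 5) (nat_lit 195) (nat_lit 5) (nat_lit 193) (nat_lit 4) (nat_lit 381) (nat_lit 341) (nat_lit 298)) (XT.lf (nat_lit 0) (nat_lit 26030260568) (nat_lit 152) (nat_lit 1314741849) (nat_lit 0) (nat_lit 1900595366) (nat_lit 191) (nat_lit 5) (nat_lit 193) (nat_lit 4) (nat_lit 191) (nat_lit 4) (nat_lit 382) (nat_lit 341) (nat_lit 297)))) (XT.nd (nat_lit 156) (nat_lit 228) (nat_lit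 0) (XT.nd (nat_lit 78) (nat_lit 76) (nat_lit 0) (XT.lf (nat_lit 0) (nat_lit 449897735) (nat_lit 76) (nat_lit 11570665772) (nat_lit 152) (nat_lit 18703152160) (nat_lit 188) (nat_lit 5) (nat_lit 189) (nat_lit 5) (nat_lit 190) (nat_lit 4) (nat_lit 383) (nat_lit 341) (nat_lit 296)) (XT.lf (nat_lit 0) (nat_lit 2563417451) (nat_lit 76) (nat_lit 26409480315) (nat_lit 76) (nat_lit 3314039130) (nat_lit 187) (nat_lit 4) (nat_lit 188) (nat_lit 5) (nat_lit 188) (nat_lit 4) (nat_lit 384) (nat_lit 341) (nat_lit 295))) (XT.nd (nat_lit 78) (nat_lit 76) (nat_lit 0) (XT.lf (nat_lit 0) (nat_lit 4745275756) (nat_lit 76) (nat_lit 8860492214) (nat_lit 152) (nat_lit 20322788168) (nat_lit 185) (nat_lit 5) (nat_lit 186) (nat_lit 5) (nat_lit 187) (nat_lit 4) (nat_lit 385) (nat_lit 341) (nat_lit 294)) (XT.lf (nat_lit 0) (nat_lit 7215468485) (nat_lit 76) (nat_lit 25268341178) (nat_lit 76) (nat_lit 3178940940) (nat_lit 184)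 (nat_lit 4) (nat_lit 185) (nat_lit 5) (nat_lit 185) (nat_lit 4) (nat_lit 386) (nat_lit 341) (nat_lit 293)))))))
noncomputable def xc93 : XT := (XT.nd (nat_lit 1248) (nat_lit 2052) (nat_lit 0) (XT.nd (nat_lit 624) (nat_lit 988) (nat_lit 0) (XT.nd (nat_lit 312) (nat_lit 532) (nat_lit 0) (XT.nd (nat_lit 156) (nat_lit 228) (nat_lit 0) (XT.nd (nat_lit 78) (nat_lit 76) (nat_lit 0) (XT.lf (nat_lit 0) (nat_lit 9828543339) (nat_lit 76) (nat_lit 5761541265) (nat_lit 152) (nat_lit 21896397221) (nat_lit 182) (nat_lit 5) (nat_lit 183) (nat_lit 5) (nat_lit 184) (nat_lit 4) (nat_lit 387) (nat_lit 341) (nat_lit 292)) (XT.lf (nat_lit 0) (nat_lit 12714228897) (nat_lit 76) (nat_lit 23904923893) (nat_lit 76) (nat_lit 2790858308) (nat_lit 181) (nat_lit 4) (nat_lit 182) (nat_lit 5) (nat_lit 182) (nat_lit 4) (nat_lit 388) (nat_lit 341) (nat_lit 291))) (XT.nd (nat_lit 78) (nat_lit 76) (nat_lit 0) (XT.lf (nat_lit 0)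 (nat_lit 15824259698) (nat_lit 76) (nat_lit 2211056529) (nat_lit 152) (nat_lit 23400013232) (nat_lit 179) (nat_lit 5) (nat_lit 180) (nat_lit 5) (nat_lit 181) (nat_lit 4) (nat_lit 389) (nat_lit 341) (nat_lit 290)) (XT.lf (nat_lit 0) (nat_lit 19192724905) (nat_lit 76) (nat_lit 22273485830) (nat_lit 76) (nat_lit 2102354758) (nat_lit 178) (nat_lit 4) (nat_lit 179) (nat_lit 5) (nat_lit 179) (nat_lit 4) (nat_lit 390) (nat_lit 341) (nat_lit 289)))) (XT.nd (nat_lit 156) (nat_lit 304) (nat_lit 0) (XT.nd (nat_lit 78) (nat_lit 76) (nat_lit 0) (XT.lf (nat_lit 0) (nat_lit 21040666433) (nat_lit 152) (nat_lit 22971387492) (nat_lit 0) (nat_lit 1803569185) (nat_lit 176) (nat_lit 5) (nat_lit 178) (nat_lit 4) (nat_lit 176) (nat_lit 4) (nat_lit 391) (nat_lit 341) (nat_lit 288)) (XT.lf (nat_lit 0) (nat_lit 26802856136) (nat_lit 76) (nat_lit 20320696388) (nat_lit 76) (nat_lit 1059065595) (nat_lit 175) (nat_lit 4)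 (nat_lit 176) (nat_lit 5) (nat_lit 176) (nat_lit 4) (nat_lit 392) (nat_lit 341) (nat_lit 287))) (XT.nd (nat_lit 78) (nat_lit 152) (nat_lit 0) (XT.lf (nat_lit 0) (nat_lit 24700649381) (nat_lit 152) (nat_lit 19637929001) (nat_lit 0) (nat_lit 6334604583) (nat_lit 173) (nat_lit 5) (nat_lit 175) (nat_lit 4) (nat_lit 173) (nat_lit 4) (nat_lit 393) (nat_lit 341) (nat_lit 286)) (XT.lf (nat_lit 0) (nat_lit 388504305) (nat_lit 152) (nat_lit 17589642932) (nat_lit 76) (nat_lit 35322738750) (nat_lit 171) (nat_lit 5) (nat_lit 173) (nat_lit 5) (nat_lit 172) (nat_lit 4) (nat_lit 394) (nat_lit 341) (nat_lit 285))))) (XT.nd (nat_lit 312) (nat_lit 532) (nat_lit 0) (XT.nd (nat_lit 156) (nat_lit 228) (nat_lit 0) (XT.nd (nat_lit 78) (nat_lit 152) (nat_lit 0) (XT.lf (nat_lit 0) (nat_lit 29072656788) (nat_lit 152) (nat_lit 15444207747) (nat_lit 0) (nat_lit 11544442624) (nat_lit 170) (nat_lit 5) (nat_lit 172) (nat_lit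 4) (nat_lit 170) (nat_lit 4) (nat_lit 395) (nat_lit 341) (nat_lit 284)) (XT.lf (nat_lit 0) (nat_lit 2275153081) (nat_lit 152) (nat_lit 12880506707) (nat_lit 76) (nat_lit 43821191224) (nat_lit 168) (nat_lit 5) (nat_lit 170) (nat_lit 5) (nat_lit 169) (nat_lit 4) (nat_lit 396) (nat_lit 341) (nat_lit 283))) (XT.nd (nat_lit 78) (nat_lit 152) (nat_lit 0) (XT.lf (nat_lit 0) (nat_lit 34261109190) (nat_lit 152) (nat_lit 10238506569) (nat_lit 0) (nat_lit 17537570807) (nat_lit 167) (nat_lit 5) (nat_lit 169) (nat_lit 4) (nat_lit 167) (nat_lit 4) (nat_lit 397) (nat_lit 341) (nat_lit 282)) (XT.lf (nat_lit 0) (nat_lit 4714101762) (nat_lit 152) (nat_lit 7072984953) (nat_lit 76) (nat_lit 53484490153) (nat_lit 165) (nat_lit 5) (nat_lit 167) (nat_lit 5) (nat_lit 166) (nat_lit 4) (nat_lit 398) (nat_lit 341) (nat_lit 281)))) (XT.nd (nat_lit 156) (nat_lit 228) (nat_lit 0) (XT.nd (nat_lit 78) (nat_lit 228) (nat_lit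 0) (XT.lf (nat_lit 0) (nat_lit 40384616342) (nat_lit 152) (nat_lit 3846681148) (nat_lit 0) (nat_lit 24432940649) (nat_lit 164) (nat_lit 5) (nat_lit 166) (nat_lit 4) (nat_lit 164) (nat_lit 4) (nat_lit 399) (nat_lit 341) (nat_lit 280)) (XT.lf (nat_lit 0) (nat_lit 20333419) (nat_lit 76) (nat_lit 7776209895) (nat_lit 152) (nat_lit 64455297062) (nat_lit 161) (nat_lit 5) (nat_lit 162) (nat_lit 5) (nat_lit 163) (nat_lit 4) (nat_lit 400) (nat_lit 341) (nat_lit 279))) (XT.nd (nat_lit 78) (nat_lit 152) (nat_lit 0) (XT.lf (nat_lit 0) (nat_lit 4060845527) (nat_lit 76) (nat_lit 43580418372) (nat_lit 76) (nat_lit 28368344749) (nat_lit 160) (nat_lit 4) (nat_lit 161) (nat_lit 5) (nat_lit 161) (nat_lit 4) (nat_lit 401) (nat_lit 341) (nat_lit 278)) (XT.lf (nat_lit 0) (nat_lit 8896145975) (nat_lit 76) (nat_lit 2868304471) (nat_lit 152) (nat_lit 68220352261) (nat_lit 158) (nat_lit 5) (nat_lit 159) (nat_lit 5) (nat_lit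 160) (nat_lit 4) (nat_lit 402) (nat_lit 341) (nat_lit 277)))))) (XT.nd (nat_lit 624) (nat_lit 1140) (nat_lit 0) (XT.nd (nat_lit 312) (nat_lit 456) (nat_lit 0) (XT.nd (nat_lit 156) (nat_lit 228) (nat_lit 0) (XT.nd (nat_lit 78) (nat_lit 152) (nat_lit 0) (XT.lf (nat_lit 0) (nat_lit 13763162317) (nat_lit 76) (nat_lit 42445443331) (nat_lit 76) (nat_lit 27941422649) (nat_lit 157) (nat_lit 4) (nat_lit 158) (nat_lit 5) (nat_lit 158) (nat_lit 4) (nat_lit 403) (nat_lit 341) (nat_lit 276)) (XT.lf (nat_lit 0) (nat_lit 16672690347) (nat_lit 152) (nat_lit 69030677517) (nat_lit 0) (nat_lit 2852413427) (nat_lit 155) (nat_lit 5) (nat_lit 157) (nat_lit 4) (nat_lit 155) (nat_lit 4) (nat_lit 404) (nat_lit 341) (nat_lit 275))) (XT.nd (nat_lit 78) (nat_lit 152) (nat_lit 0) (XT.lf (nat_lit 0) (nat_lit 25402997282) (nat_lit 76) (nat_lit 40799259783) (nat_lit 76) (nat_lit 26972571854) (nat_lit 154) (nat_lit 4) (nat_lit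 155) (nat_lit 5) (nat_lit 155) (nat_lit 4) (nat_lit 405) (nat_lit 341) (nat_lit 274)) (XT.lf (nat_lit 0) (nat_lit 22677020581) (nat_lit 152) (nat_lit 65874711486) (nat_lit 0) (nat_lit 9503092916) (nat_lit 152) (nat_lit 5) (nat_lit 154) (nat_lit 4) (nat_lit 152) (nat_lit 4) (nat_lit 406) (nat_lit 341) (nat_lit 273)))) (XT.nd (nat_lit 156) (nat_lit 228) (nat_lit 0) (XT.nd (nat_lit 78) (nat_lit 152) (nat_lit 0) (XT.lf (nat_lit 0) (nat_lit 39288665040) (nat_lit 76) (nat_lit 38535051588) (nat_lit 76) (nat_lit 25355889250) (nat_lit 151) (nat_lit 4) (nat_lit 152) (nat_lit 5) (nat_lit 152) (nat_lit 4) (nat_lit 407) (nat_lit 341) (nat_lit 272)) (XT.lf (nat_lit 0) (nat_lit 29895735244) (nat_lit 152) (nat_lit 61349443625) (nat_lit 0) (nat_lit 17339535952) (nat_lit 149) (nat_lit 5) (nat_lit 151) (nat_lit 4) (nat_lit 149) (nat_lit 4) (nat_lit 408) (nat_lit 341) (nat_lit 271))) (XT.nd (nat_lit 78) (nat_lit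 152) (nat_lit 0) (XT.lf (nat_lit 0) (nat_lit 55772000746) (nat_lit 76) (nat_lit 35529404291) (nat_lit 76) (nat_lit 22968930819) (nat_lit 148) (nat_lit 4) (nat_lit 149) (nat_lit 5) (nat_lit 149) (nat_lit 4) (nat_lit 409) (nat_lit 341) (nat_lit 270)) (XT.lf (nat_lit 0) (nat_lit 38514880631) (nat_lit 152) (nat_lit 55193269982) (nat_lit 0) (nat_lit 26548755825) (nat_lit 146) (nat_lit 5) (nat_lit 148) (nat_lit 4) (nat_lit 146) (nat_lit 4) (nat_lit 410) (nat_lit 341) (nat_lit 269))))) (XT.nd (nat_lit 312) (nat_lit 684) (nat_lit 0) (XT.nd (nat_lit 156) (nat_lit 228) (nat_lit 0) (XT.nd (nat_lit 78) (nat_lit 152) (nat_lit 0) (XT.lf (nat_lit 0) (nat_lit 75254142736) (nat_lit 76) (nat_lit 31639987517) (nat_lit 76) (nat_lit 19670372787) (nat_lit 145) (nat_lit 4) (nat_lit 146) (nat_lit 5) (nat_lit 146) (nat_lit 4) (nat_lit 411) (nat_lit 341) (nat_lit 268)) (XT.lf (nat_lit 0) (nat_lit 48746530511) (nat_lit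 152) (nat_lit 47104602453) (nat_lit 0) (nat_lit 37343819901) (nat_lit 143) (nat_lit 5) (nat_lit 145) (nat_lit 4) (nat_lit 143) (nat_lit 4) (nat_lit 412) (nat_lit 341) (nat_lit 267))) (XT.nd (nat_lit 78) (nat_lit 152) (nat_lit 0) (XT.lf (nat_lit 0) (nat_lit 98192057032) (nat_lit 76) (nat_lit 26702925521) (nat_lit 76) (nat_lit 15297365343) (nat_lit 142) (nat_lit 4) (nat_lit 143) (nat_lit 5) (nat_lit 143) (nat_lit 4) (nat_lit 413) (nat_lit 341) (nat_lit 266)) (XT.lf (nat_lit 0) (nat_lit 60832231995) (nat_lit 152) (nat_lit 36736304159) (nat_lit 0) (nat_lit 49967280882) (nat_lit 140) (nat_lit 5) (nat_lit 142) (nat_lit 4) (nat_lit 140) (nat_lit 4) (nat_lit 414) (nat_lit 341) (nat_lit 265)))) (XT.nd (nat_lit 156) (nat_lit 456) (nat_lit 0) (XT.nd (nat_lit 78) (nat_lit 152) (nat_lit 0) (XT.lf (nat_lit 0) (nat_lit 125105895634) (nat_lit 76) (nat_lit 20529817018) (nat_lit 76) (nat_lit 9662539195) (nat_lit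 139) (nat_lit 4) (nat_lit 140) (nat_lit 5) (nat_lit 140) (nat_lit 4) (nat_lit 415) (nat_lit 341) (nat_lit 264)) (XT.lf (nat_lit 0) (nat_lit 75046888401) (nat_lit 152) (nat_lit 23689390412) (nat_lit 0) (nat_lit 64695048225) (nat_lit 137) (nat_lit 5) (nat_lit 139) (nat_lit 4) (nat_lit 137) (nat_lit 4) (nat_lit 416) (nat_lit 341) (nat_lit 263))) (XT.nd (nat_lit 78) (nat_lit 380) (nat_lit 0) (XT.lf (nat_lit 0) (nat_lit 156587291831) (nat_lit 76) (nat_lit 12904360375) (nat_lit 76) (nat_lit 2550620410) (nat_lit 136) (nat_lit 4) (nat_lit 137) (nat_lit 5) (nat_lit 137) (nat_lit 4) (nat_lit 417) (nat_lit 341) (nat_lit 262)) (XT.nd (nat_lit 78) (nat_lit 228) (nat_lit 0) (XT.lf (nat_lit 0) (nat_lit 91703133721) (nat_lit 152) (nat_lit 7505902275) (nat_lit 0) (nat_lit 81840753693) (nat_lit 134) (nat_lit 5) (nat_lit 136) (nat_lit 4) (nat_lit 134) (nat_lit 4) (nat_lit 418) (nat_lit 341) (nat_lit 261)) (XT.lf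 (nat_lit 0) (nat_lit 2694985521) (nat_lit 76) (nat_lit 3431315333) (nat_lit 152) (nat_lit 184468535342) (nat_lit 131) (nat_lit 5) (nat_lit 132) (nat_lit 5) (nat_lit 133) (nat_lit 4) (nat_lit 419) (nat_lit 341) (nat_lit 260))))))))
noncomputable def xc94 : XT := (XT.nd (nat_lit 1248) (nat_lit 1444) (nat_lit 0) (XT.nd (nat_lit 624) (nat_lit 912) (nat_lit 0) (XT.nd (nat_lit 312) (nat_lit 456) (nat_lit 0) (XT.nd (nat_lit 156) (nat_lit 228) (nat_lit 0) (XT.nd (nat_lit 78) (nat_lit 152) (nat_lit 0) (XT.lf (nat_lit 0) (nat_lit 12747140023) (nat_lit 76) (nat_lit 98608138385) (nat_lit 76) (nat_lit 89212550261) (nat_lit 130) (nat_lit 4) (nat_lit 131) (nat_lit 5) (nat_lit 131) (nat_lit 4) (nat_lit 420) (nat_lit 341) (nat_lit 259)) (XT.lf (nat_lit 0) (nat_lit 17108611795) (nat_lit 152) (nat_lit 185866054346) (nat_lit 0) (nat_lit 8159226364) (nat_lit 128) (nat_lit 5) (nat_lit 130) (nat_lit 4) (nat_lit 128)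 (nat_lit 4) (nat_lit 421) (nat_lit 341) (nat_lit 258))) (XT.nd (nat_lit 78) (nat_lit 152) (nat_lit 0) (XT.lf (nat_lit 0) (nat_lit 37652004075) (nat_lit 76) (nat_lit 96745614220) (nat_lit 76) (nat_lit 87795111877) (nat_lit 127) (nat_lit 4) (nat_lit 128) (nat_lit 5) (nat_lit 128) (nat_lit 4) (nat_lit 422) (nat_lit 341) (nat_lit 257)) (XT.lf (nat_lit 0) (nat_lit 30513178931) (nat_lit 152) (nat_lit 181392077133) (nat_lit 0) (nat_lit 21987906055) (nat_lit 125) (nat_lit 5) (nat_lit 127) (nat_lit 4) (nat_lit 125) (nat_lit 4) (nat_lit 423) (nat_lit 341) (nat_lit 256)))) (XT.nd (nat_lit 156) (nat_lit 228) (nat_lit 0) (XT.nd (nat_lit 78) (nat_lit 152) (nat_lit 0) (XT.lf (nat_lit 0) (nat_lit 67670808280) (nat_lit 76) (nat_lit 93507323205) (nat_lit 76) (nat_lit 84981138355) (nat_lit 124) (nat_lit 4) (nat_lit 125) (nat_lit 5) (nat_lit 125) (nat_lit 4) (nat_lit 424) (nat_lit 341) (nat_lit 255)) (XT.lf (nat_lit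 0) (nat_lit 46662997541) (nat_lit 152) (nat_lit 173910864049) (nat_lit 0) (nat_lit 38542017285) (nat_lit 122) (nat_lit 5) (nat_lit 124) (nat_lit 4) (nat_lit 122) (nat_lit 4) (nat_lit 425) (nat_lit 341) (nat_lit 254))) (XT.nd (nat_lit 78) (nat_lit 152) (nat_lit 0) (XT.lf (nat_lit 0) (nat_lit 103615143289) (nat_lit 76) (nat_lit 88613781152) (nat_lit 76) (nat_lit 80492056257) (nat_lit 121) (nat_lit 4) (nat_lit 122) (nat_lit 5) (nat_lit 122) (nat_lit 4) (nat_lit 426) (nat_lit 341) (nat_lit 253)) (XT.lf (nat_lit 0) (nat_lit 65988187100) (nat_lit 152) (nat_lit 162827941507) (nat_lit 0) (nat_lit 58252554363) (nat_lit 119) (nat_lit 5) (nat_lit 121) (nat_lit 4) (nat_lit 119) (nat_lit 4) (nat_lit 427) (nat_lit 341) (nat_lit 252))))) (XT.nd (nat_lit 312) (nat_lit 456) (nat_lit 0) (XT.nd (nat_lit 156) (nat_lit 228) (nat_lit 0) (XT.nd (nat_lit 78) (nat_lit 152) (nat_lit 0) (XT.lf (nat_lit 0) (nat_lit 146411444137)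 (nat_lit 76) (nat_lit 81741848170) (nat_lit 76) (nat_lit 74005607426) (nat_lit 118) (nat_lit 4) (nat_lit 119) (nat_lit 5) (nat_lit 119) (nat_lit 4) (nat_lit 428) (nat_lit 341) (nat_lit 251)) (XT.lf (nat_lit 0) (nat_lit 88979563501) (nat_lit 152) (nat_lit 147456388011) (nat_lit 0) (nat_lit 81611179012) (nat_lit 116) (nat_lit 5) (nat_lit 118) (nat_lit 4) (nat_lit 116) (nat_lit 4) (nat_lit 429) (nat_lit 341) (nat_lit 250))) (XT.nd (nat_lit 78) (nat_lit 152) (nat_lit 0) (XT.lf (nat_lit 0) (nat_lit 197116281489) (nat_lit 76) (nat_lit 72518576790) (nat_lit 76) (nat_lit 65149695856) (nat_lit 115) (nat_lit 4) (nat_lit 116) (nat_lit 5) (nat_lit 116) (nat_lit 4) (nat_lit 430) (nat_lit 341) (nat_lit 249)) (XT.lf (nat_lit 0) (nat_lit 116196699161) (nat_lit 152) (nat_lit 127003853455) (nat_lit 0) (nat_lit 109178279537) (nat_lit 113) (nat_lit 5) (nat_lit 115) (nat_lit 4) (nat_lit 113) (nat_lit 4) (nat_lit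 431) (nat_lit 341) (nat_lit 248)))) (XT.nd (nat_lit 156) (nat_lit 228) (nat_lit 0) (XT.nd (nat_lit 78) (nat_lit 152) (nat_lit 0) (XT.lf (nat_lit 0) (nat_lit 256933610184) (nat_lit 76) (nat_lit 60514243511) (nat_lit 76) (nat_lit 53495418532) (nat_lit 112) (nat_lit 4) (nat_lit 113) (nat_lit 5) (nat_lit 113) (nat_lit 4) (nat_lit 432) (nat_lit 341) (nat_lit 247)) (XT.lf (nat_lit 0) (nat_lit 148277012843) (nat_lit 152) (nat_lit 100557859715) (nat_lit 0) (nat_lit 141592060169) (nat_lit 110) (nat_lit 5) (nat_lit 112) (nat_lit 4) (nat_lit 110) (nat_lit 4) (nat_lit 433) (nat_lit 341) (nat_lit 246))) (XT.nd (nat_lit 78) (nat_lit 152) (nat_lit 0) (XT.lf (nat_lit 0) (nat_lit 327234218878) (nat_lit 76) (nat_lit 45234459602) (nat_lit 76) (nat_lit 38549175951) (nat_lit 109) (nat_lit 4) (nat_lit 110) (nat_lit 5) (nat_lit 110) (nat_lit 4) (nat_lit 434) (nat_lit 341) (nat_lit 245)) (XT.lf (nat_lit 0) (nat_lit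 185946017340) (nat_lit 152) (nat_lit 67069163358) (nat_lit 0) (nat_lit 179578788663) (nat_lit 107) (nat_lit 5) (nat_lit 109) (nat_lit 4) (nat_lit 107) (nat_lit 4) (nat_lit 435) (nat_lit 341) (nat_lit 244)))))) (XT.nd (nat_lit 624) (nat_lit 456) (nat_lit 0) (XT.nd (nat_lit 312) (nat_lit 456) (nat_lit 0) (XT.nd (nat_lit 156) (nat_lit 304) (nat_lit 0) (XT.nd (nat_lit 78) (nat_lit 152) (nat_lit 0) (XT.lf (nat_lit 0) (nat_lit 409577654361) (nat_lit 76) (nat_lit 26111243992) (nat_lit 76) (nat_lit 19743745068) (nat_lit 106) (nat_lit 4) (nat_lit 107) (nat_lit 5) (nat_lit 107) (nat_lit 4) (nat_lit 436) (nat_lit 341) (nat_lit 243)) (XT.lf (nat_lit 0) (nat_lit 230028868888) (nat_lit 152) (nat_lit 25332934067) (nat_lit 0) (nat_lit 223964345885) (nat_lit 104) (nat_lit 5) (nat_lit 106) (nat_lit 4) (nat_lit 104) (nat_lit 4) (nat_lit 437) (nat_lit 341) (nat_lit 242))) (XT.nd (nat_lit 78) (nat_lit 76) (nat_lit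 0) (XT.lf (nat_lit 0) (nat_lit 1056953602) (nat_lit 76) (nat_lit 2417045063) (nat_lit 152) (nat_lit 501180424887) (nat_lit 101) (nat_lit 5) (nat_lit 102) (nat_lit 5) (nat_lit 103) (nat_lit 4) (nat_lit 438) (nat_lit 341) (nat_lit 241)) (XT.lf (nat_lit 0) (nat_lit 26893281133) (nat_lit 76) (nat_lit 254989977958) (nat_lit 76) (nat_lit 249213837026) (nat_lit 100) (nat_lit 4) (nat_lit 101) (nat_lit 5) (nat_lit 101) (nat_lit 4) (nat_lit 439) (nat_lit 341) (nat_lit 240)))) (XT.nd (nat_lit 156) (nat_lit 228) (nat_lit 0) (XT.nd (nat_lit 78) (nat_lit 76) (nat_lit 0) (XT.lf (nat_lit 0) (nat_lit 32485653119) (nat_lit 152) (nat_lit 499651807874) (nat_lit 0) (nat_lit 26984394925) (nat_lit 98) (nat_lit 5) (nat_lit 100) (nat_lit 4) (nat_lit 98) (nat_lit 4) (nat_lit 440) (nat_lit 341) (nat_lit 239)) (XT.lf (nat_lit 0) (nat_lit 91539690240) (nat_lit 76) (nat_lit 251204174816) (nat_lit 76) (nat_lit 245702757740)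 (nat_lit 97) (nat_lit 4) (nat_lit 98) (nat_lit 5) (nat_lit 98) (nat_lit 4) (nat_lit 441) (nat_lit 341) (nat_lit 238))) (XT.nd (nat_lit 78) (nat_lit 76) (nat_lit 0) (XT.lf (nat_lit 0) (nat_lit 67745092673) (nat_lit 152) (nat_lit 489227390411) (nat_lit 0) (nat_lit 62505507731) (nat_lit 95) (nat_lit 5) (nat_lit 97) (nat_lit 4) (nat_lit 95) (nat_lit 4) (nat_lit 442) (nat_lit 341) (nat_lit 237)) (XT.lf (nat_lit 0) (nat_lit 169639270539) (nat_lit 76) (nat_lit 243800966021) (nat_lit 76) (nat_lit 238561251350) (nat_lit 94) (nat_lit 4) (nat_lit 95) (nat_lit 5) (nat_lit 95) (nat_lit 4) (nat_lit 443) (nat_lit 341) (nat_lit 236))))) (XT.nd (nat_lit 45162) (nat_lit 0) (nat_lit 18392) (XT.nd (nat_lit 156) (nat_lit 228) (nat_lit 0) (XT.nd (nat_lit 78) (nat_lit 76) (nat_lit 0) (XT.lf (nat_lit 0) (nat_lit 110207321042) (nat_lit 152) (nat_lit 470938086305) (nat_lit 0) (nat_lit 105217002194) (nat_lit 92) (nat_lit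 5) (nat_lit 94) (nat_lit 4) (nat_lit 92) (nat_lit 4) (nat_lit 444) (nat_lit 341) (nat_lit 235)) (XT.lf (nat_lit 0) (nat_lit 263329972596) (nat_lit 76) (nat_lit 232047114241) (nat_lit 76) (nat_lit 227056689467) (nat_lit 91) (nat_lit 4) (nat_lit 92) (nat_lit 5) (nat_lit 92) (nat_lit 4) (nat_lit 445) (nat_lit 341) (nat_lit 234))) (XT.nd (nat_lit 78) (nat_lit 76) (nat_lit 0) (XT.lf (nat_lit 0) (nat_lit 161006406834) (nat_lit 152) (nat_lit 443222005946) (nat_lit 0) (nat_lit 156253527927) (nat_lit 89) (nat_lit 5) (nat_lit 91) (nat_lit 4) (nat_lit 89) (nat_lit 4) (nat_lit 446) (nat_lit 341) (nat_lit 233)) (XT.lf (nat_lit 0) (nat_lit 375052893403) (nat_lit 76) (nat_lit 215094269791) (nat_lit 76) (nat_lit 210341304393) (nat_lit 88) (nat_lit 4) (nat_lit 89) (nat_lit 5) (nat_lit 89) (nat_lit 4) (nat_lit 447) (nat_lit 341) (nat_lit 232)))) (XT.nd (nat_lit 156) (nat_lit 760) (nat_lit 0) (XT.nd (nat_lit 78)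 (nat_lit 380) (nat_lit 0) (XT.lf (nat_lit 0) (nat_lit 1302911646) (nat_lit 0) (nat_lit 1302911646) (nat_lit 228) (nat_lit 671810613) (nat_lit 345) (nat_lit 5) (nat_lit 345) (nat_lit 3) (nat_lit 348) (nat_lit 3) (nat_lit 342) (nat_lit 342) (nat_lit 336)) (XT.lf (nat_lit 76) (nat_lit 1320822697) (nat_lit 0) (nat_lit 1252434066) (nat_lit 380) (nat_lit 4049017681) (nat_lit 341) (nat_lit 5) (nat_lit 340) (nat_lit 3) (nat_lit 345) (nat_lit 5) (nat_lit 343) (nat_lit 342) (nat_lit 335))) (XT.nd (nat_lit 78) (nat_lit 836) (nat_lit 0) (XT.lf (nat_lit 76) (nat_lit 207687306) (nat_lit 0) (nat_lit 6234606208) (nat_lit 380) (nat_lit 266952641) (nat_lit 342) (nat_lit 5) (nat_lit 341) (nat_lit 5) (nat_lit 346) (nat_lit 5) (nat_lit 344) (nat_lit 342) (nat_lit 334)) (XT.nd (nat_lit 78) (nat_lit 456) (nat_lit 0) (XT.lf (nat_lit 0) (nat_lit 3438767311) (nat_lit 380) (nat_lit 770478114) (nat_lit 456) (nat_lit 2603785983)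 (nat_lit 336) (nat_lit 5) (nat_lit 341) (nat_lit 5) (nat_lit 342) (nat_lit 5) (nat_lit 345) (nat_lit 342) (nat_lit 333)) (XT.lf (nat_lit 0) (nat_lit 225964771) (nat_lit 456) (nat_lit 1574212241) (nat_lit 532) (nat_lit 5137553584) (nat_lit 330) (nat_lit 5) (nat_lit 336) (nat_lit 5) (nat_lit 337) (nat_lit 5) (nat_lit 346) (nat_lit 342) (nat_lit 332))))))))
noncomputable def xc95 : XT := (XT.nd (nat_lit 1248) (nat_lit 3268) (nat_lit 0) (XT.nd (nat_lit 624) (nat_lit 2660) (nat_lit 0) (XT.nd (nat_lit 312) (nat_lit 2432) (nat_lit 0) (XT.nd (nat_lit 156) (nat_lit 1140) (nat_lit 0) (XT.nd (nat_lit 78) (nat_lit 532) (nat_lit 0) (XT.lf (nat_lit 0) (nat_lit 3775835216) (nat_lit 456) (nat_lit 2277188116) (nat_lit 76) (nat_lit 1027624544) (nat_lit 331) (nat_lit 5) (nat_lit 337) (nat_lit 5) (nat_lit 332) (nat_lit 5) (nat_lit 347) (nat_lit 342) (nat_lit 331)) (XT.lf (nat_lit 0) (nat_lit 181868237) (nat_lit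 532) (nat_lit 2850552148) (nat_lit 76) (nat_lit 4211327444) (nat_lit 324) (nat_lit 5) (nat_lit 331) (nat_lit 5) (nat_lit 325) (nat_lit 5) (nat_lit 348) (nat_lit 342) (nat_lit 330))) (XT.nd (nat_lit 78) (nat_lit 608) (nat_lit 0) (XT.lf (nat_lit 0) (nat_lit 3654620354) (nat_lit 608) (nat_lit 3325132513) (nat_lit 76) (nat_lit 446287984) (nat_lit 317) (nat_lit 5) (nat_lit 325) (nat_lit 5) (nat_lit 318) (nat_lit 5) (nat_lit 349) (nat_lit 342) (nat_lit 329)) (XT.lf (nat_lit 0) (nat_lit 3931884610) (nat_lit 608) (nat_lit 3364973741) (nat_lit 684) (nat_lit 331475678) (nat_lit 309) (nat_lit 5) (nat_lit 317) (nat_lit 5) (nat_lit 318) (nat_lit 5) (nat_lit 350) (nat_lit 342) (nat_lit 328)))) (XT.nd (nat_lit 156) (nat_lit 912) (nat_lit 0) (XT.nd (nat_lit 78) (nat_lit 760) (nat_lit 0) (XT.lf (nat_lit 0) (nat_lit 3147708407) (nat_lit 760) (nat_lit 3978324535) (nat_lit 76) (nat_lit 724519192) (nat_lit 299) (nat_lit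 5) (nat_lit 309) (nat_lit 5) (nat_lit 300) (nat_lit 5) (nat_lit 351) (nat_lit 342) (nat_lit 327)) (XT.lf (nat_lit 0) (nat_lit 3920317359) (nat_lit 760) (nat_lit 2914072090) (nat_lit 836) (nat_lit 1258847760) (nat_lit 289) (nat_lit 5) (nat_lit 299) (nat_lit 5) (nat_lit 300) (nat_lit 5) (nat_lit 352) (nat_lit 342) (nat_lit 326))) (XT.nd (nat_lit 78) (nat_lit 380) (nat_lit 0) (XT.lf (nat_lit 0) (nat_lit 2312773048) (nat_lit 532) (nat_lit 4284279588) (nat_lit 76) (nat_lit 1759820463) (nat_lit 282) (nat_lit 5) (nat_lit 289) (nat_lit 5) (nat_lit 283) (nat_lit 5) (nat_lit 353) (nat_lit 342) (nat_lit 325)) (XT.lf (nat_lit 0) (nat_lit 4324386871) (nat_lit 380) (nat_lit 1774459768) (nat_lit 456) (nat_lit 2543080028) (nat_lit 277) (nat_lit 5) (nat_lit 282) (nat_lit 5) (nat_lit 283) (nat_lit 5) (nat_lit 354) (nat_lit 342) (nat_lit 324))))) (XT.nd (nat_lit 312) (nat_lit 1216) (nat_lit 0) (XT.nd (nat_lit 156)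 (nat_lit 684) (nat_lit 0) (XT.nd (nat_lit 78) (nat_lit 304) (nat_lit 0) (XT.lf (nat_lit 0) (nat_lit 1195256626) (nat_lit 456) (nat_lit 4276418078) (nat_lit 76) (nat_lit 3477300394) (nat_lit 271) (nat_lit 5) (nat_lit 277) (nat_lit 5) (nat_lit 272) (nat_lit 5) (nat_lit 355) (nat_lit 342) (nat_lit 323)) (XT.lf (nat_lit 0) (nat_lit 5121376453) (nat_lit 304) (nat_lit 12487100) (nat_lit 380) (nat_lit 4145124336) (nat_lit 267) (nat_lit 5) (nat_lit 271) (nat_lit 5) (nat_lit 272) (nat_lit 5) (nat_lit 356) (nat_lit 342) (nat_lit 322))) (XT.nd (nat_lit 78) (nat_lit 380) (nat_lit 0) (XT.lf (nat_lit 0) (nat_lit 5653263864) (nat_lit 304) (nat_lit 3803627735) (nat_lit 380) (nat_lit 175043474) (nat_lit 263) (nat_lit 5) (nat_lit 267) (nat_lit 5) (nat_lit 268) (nat_lit 5) (nat_lit 357) (nat_lit 342) (nat_lit 321)) (XT.lf (nat_lit 0) (nat_lit 4010591542) (nat_lit 380) (nat_lit 3745216449) (nat_lit 76) (nat_lit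 2252620649) (nat_lit 258) (nat_lit 5) (nat_lit 263) (nat_lit 5) (nat_lit 259) (nat_lit 5) (nat_lit 358) (nat_lit 342) (nat_lit 320)))) (XT.nd (nat_lit 156) (nat_lit 608) (nat_lit 0) (XT.nd (nat_lit 78) (nat_lit 304) (nat_lit 0) (XT.lf (nat_lit 0) (nat_lit 6989656098) (nat_lit 304) (nat_lit 1609363159) (nat_lit 380) (nat_lit 1812175229) (nat_lit 254) (nat_lit 5) (nat_lit 258) (nat_lit 5) (nat_lit 259) (nat_lit 5) (nat_lit 359) (nat_lit 342) (nat_lit 319)) (XT.lf (nat_lit 0) (nat_lit 2729176435) (nat_lit 304) (nat_lit 3058268165) (nat_lit 76) (nat_lit 5051246729) (nat_lit 250) (nat_lit 5) (nat_lit 254) (nat_lit 5) (nat_lit 251) (nat_lit 5) (nat_lit 360) (nat_lit 342) (nat_lit 318))) (XT.nd (nat_lit 78) (nat_lit 304) (nat_lit 0) (XT.lf (nat_lit 0) (nat_lit 7656534176) (nat_lit 380) (nat_lit 2602776428) (nat_lit 76) (nat_lit 1035282539) (nat_lit 246) (nat_lit 5) (nat_lit 251) (nat_lit 5) (nat_lit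 247) (nat_lit 5) (nat_lit 361) (nat_lit 342) (nat_lit 317)) (XT.lf (nat_lit 0) (nat_lit 1311174269) (nat_lit 304) (nat_lit 2092445655) (nat_lit 76) (nat_lit 8374508152) (nat_lit 242) (nat_lit 5) (nat_lit 246) (nat_lit 5) (nat_lit 243) (nat_lit 5) (nat_lit 362) (nat_lit 342) (nat_lit 316)))))) (XT.nd (nat_lit 624) (nat_lit 1368) (nat_lit 0) (XT.nd (nat_lit 312) (nat_lit 760) (nat_lit 0) (XT.nd (nat_lit 156) (nat_lit 684) (nat_lit 0) (XT.nd (nat_lit 78) (nat_lit 228) (nat_lit 0) (XT.lf (nat_lit 0) (nat_lit 6669565904) (nat_lit 304) (nat_lit 1529696301) (nat_lit 76) (nat_lit 4091067603) (nat_lit 239) (nat_lit 5) (nat_lit 243) (nat_lit 5) (nat_lit 240) (nat_lit 5) (nat_lit 363) (nat_lit 342) (nat_lit 315)) (XT.lf (nat_lit 0) (nat_lit 11997528150) (nat_lit 228) (nat_lit 605138131) (nat_lit 304) (nat_lit 233539527) (nat_lit 236) (nat_lit 5) (nat_lit 239) (nat_lit 5) (nat_lit 240) (nat_lit 5) (nat_lit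 364) (nat_lit 342) (nat_lit 314))) (XT.nd (nat_lit 78) (nat_lit 380) (nat_lit 0) (XT.lf (nat_lit 0) (nat_lit 5633907276) (nat_lit 304) (nat_lit 160216430) (nat_lit 76) (nat_lit 7615869142) (nat_lit 232) (nat_lit 5) (nat_lit 236) (nat_lit 5) (nat_lit 233) (nat_lit 5) (nat_lit 365) (nat_lit 342) (nat_lit 313)) (XT.lf (nat_lit 0) (nat_lit 685632299) (nat_lit 228) (nat_lit 11458762190) (nat_lit 304) (nat_lit 1876005599) (nat_lit 227) (nat_lit 5) (nat_lit 230) (nat_lit 5) (nat_lit 231) (nat_lit 5) (nat_lit 366) (nat_lit 342) (nat_lit 312)))) (XT.nd (nat_lit 156) (nat_lit 380) (nat_lit 0) (XT.nd (nat_lit 78) (nat_lit 152) (nat_lit 0) (XT.lf (nat_lit 0) (nat_lit 1581321224) (nat_lit 152) (nat_lit 3011531220) (nat_lit 228) (nat_lit 10071243925) (nat_lit 224) (nat_lit 5) (nat_lit 226) (nat_lit 5) (nat_lit 227) (nat_lit 5) (nat_lit 367) (nat_lit 342) (nat_lit 311)) (XT.lf (nat_lit 0) (nat_lit 2572368682)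 (nat_lit 152) (nat_lit 9193787068) (nat_lit 228) (nat_lit 3578961758) (nat_lit 222) (nat_lit 5) (nat_lit 224) (nat_lit 5) (nat_lit 225) (nat_lit 5) (nat_lit 368) (nat_lit 342) (nat_lit 310))) (XT.nd (nat_lit 78) (nat_lit 152) (nat_lit 0) (XT.lf (nat_lit 0) (nat_lit 3549391712) (nat_lit 228) (nat_lit 12374532581) (nat_lit 76) (nat_lit 142688505) (nat_lit 219) (nat_lit 5) (nat_lit 222) (nat_lit 5) (nat_lit 220) (nat_lit 5) (nat_lit 369) (nat_lit 342) (nat_lit 309)) (XT.lf (nat_lit 0) (nat_lit 4842011581) (nat_lit 152) (nat_lit 6627735030) (nat_lit 228) (nat_lit 5355791399) (nat_lit 217) (nat_lit 5) (nat_lit 219) (nat_lit 5) (nat_lit 220) (nat_lit 5) (nat_lit 370) (nat_lit 342) (nat_lit 308))))) (XT.nd (nat_lit 312) (nat_lit 684) (nat_lit 0) (XT.nd (nat_lit 156) (nat_lit 304) (nat_lit 0) (XT.nd (nat_lit 78) (nat_lit 152) (nat_lit 0) (XT.lf (nat_lit 0) (nat_lit 2568802694) (nat_lit 228) (nat_lit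 11473847102) (nat_lit 76) (nat_lit 3587351720) (nat_lit 214) (nat_lit 5) (nat_lit 217) (nat_lit 5) (nat_lit 215) (nat_lit 5) (nat_lit 371) (nat_lit 342) (nat_lit 307)) (XT.lf (nat_lit 0) (nat_lit 7541746022) (nat_lit 152) (nat_lit 3738574685) (nat_lit 228) (nat_lit 7197081542) (nat_lit 212) (nat_lit 5) (nat_lit 214) (nat_lit 5) (nat_lit 215) (nat_lit 5) (nat_lit 372) (nat_lit 342) (nat_lit 306))) (XT.nd (nat_lit 78) (nat_lit 152) (nat_lit 0) (XT.lf (nat_lit 0) (nat_lit 1621451429) (nat_lit 152) (nat_lit 10298953552) (nat_lit 76) (nat_lit 7452839636) (nat_lit 210) (nat_lit 5) (nat_lit 212) (nat_lit 5) (nat_lit 211) (nat_lit 5) (nat_lit 373) (nat_lit 342) (nat_lit 305)) (XT.lf (nat_lit 0) (nat_lit 10728019813) (nat_lit 152) (nat_lit 496243673) (nat_lit 228) (nat_lit 9094044285) (nat_lit 208) (nat_lit 5) (nat_lit 210) (nat_lit 5) (nat_lit 211) (nat_lit 5) (nat_lit 374) (nat_lit 342) (nat_lit 304))))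 (XT.nd (nat_lit 156) (nat_lit 380) (nat_lit 0) (XT.nd (nat_lit 78) (nat_lit 152) (nat_lit 0) (XT.lf (nat_lit 0) (nat_lit 725388011) (nat_lit 152) (nat_lit 8807520460) (nat_lit 76) (nat_lit 11782004036) (nat_lit 206) (nat_lit 5) (nat_lit 208) (nat_lit 5) (nat_lit 207) (nat_lit 5) (nat_lit 375) (nat_lit 342) (nat_lit 303)) (XT.lf (nat_lit 0) (nat_lit 11378852362) (nat_lit 228) (nat_lit 7949614448) (nat_lit 76) (nat_lit 3036970253) (nat_lit 204) (nat_lit 5) (nat_lit 207) (nat_lit 5) (nat_lit 205) (nat_lit 4) (nat_lit 376) (nat_lit 342) (nat_lit 302))) (XT.nd (nat_lit 78) (nat_lit 304) (nat_lit 0) (XT.lf (nat_lit 0) (nat_lit 16524985871) (nat_lit 76) (nat_lit 6847226818) (nat_lit 152) (nat_lit 103409952) (nat_lit 203) (nat_lit 5) (nat_lit 204) (nat_lit 5) (nat_lit 205) (nat_lit 4) (nat_lit 377) (nat_lit 342) (nat_lit 301)) (XT.nd (nat_lit 78) (nat_lit 76) (nat_lit 0) (XT.lf (nat_lit 0) (nat_lit 11740562316)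 (nat_lit 228) (nat_lit 5923807134) (nat_lit 76) (nat_lit 6978007347) (nat_lit 200) (nat_lit 5) (nat_lit 203) (nat_lit 5) (nat_lit 201) (nat_lit 4) (nat_lit 378) (nat_lit 342) (nat_lit 300)) (XT.lf (nat_lit 0) (nat_lit 21200565028) (nat_lit 76) (nat_lit 3815923544) (nat_lit 152) (nat_lit 861494992) (nat_lit 199) (nat_lit 5) (nat_lit 200) (nat_lit 5) (nat_lit 201) (nat_lit 4) (nat_lit 379) (nat_lit 342) (nat_lit 299))))))))
noncomputable def xc96 : XT := (XT.nd (nat_lit 1248) (nat_lit 1900) (nat_lit 0) (XT.nd (nat_lit 624) (nat_lit 988) (nat_lit 0) (XT.nd (nat_lit 312) (nat_lit 456) (nat_lit 0) (XT.nd (nat_lit 156) (nat_lit 380) (nat_lit 0) (XT.nd (nat_lit 78) (nat_lit 76) (nat_lit 0) (XT.lf (nat_lit 0) (nat_lit 12336652925) (nat_lit 228) (nat_lit 3441053857) (nat_lit 76) (nat_lit 11396092303) (nat_lit 196) (nat_lit 5) (nat_lit 199) (nat_lit 5) (nat_lit 197) (nat_lit 4) (nat_lit 380) (nat_lit 342)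 (nat_lit 298)) (XT.lf (nat_lit 0) (nat_lit 26641824997) (nat_lit 76) (nat_lit 405758392) (nat_lit 152) (nat_lit 1500634651) (nat_lit 195) (nat_lit 5) (nat_lit 196) (nat_lit 5) (nat_lit 197) (nat_lit 4) (nat_lit 381) (nat_lit 342) (nat_lit 297))) (XT.nd (nat_lit 78) (nat_lit 152) (nat_lit 0) (XT.lf (nat_lit 0) (nat_lit 13206263103) (nat_lit 228) (nat_lit 426902458) (nat_lit 76) (nat_lit 16353530738) (nat_lit 192) (nat_lit 5) (nat_lit 195) (nat_lit 5) (nat_lit 193) (nat_lit 4) (nat_lit 382) (nat_lit 342) (nat_lit 296)) (XT.lf (nat_lit 0) (nat_lit 1435568451) (nat_lit 76) (nat_lit 28161814096) (nat_lit 76) (nat_lit 1913628002) (nat_lit 190) (nat_lit 4) (nat_lit 191) (nat_lit 5) (nat_lit 191) (nat_lit 4) (nat_lit 383) (nat_lit 342) (nat_lit 295)))) (XT.nd (nat_lit 156) (nat_lit 228) (nat_lit 0) (XT.nd (nat_lit 78) (nat_lit 76) (nat_lit 0) (XT.lf (nat_lit 0) (nat_lit 3310655258) (nat_lit 76) (nat_lit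 11134468703) (nat_lit 152) (nat_lit 18663343190) (nat_lit 188) (nat_lit 5) (nat_lit 189) (nat_lit 5) (nat_lit 190) (nat_lit 4) (nat_lit 384) (nat_lit 342) (nat_lit 294)) (XT.lf (nat_lit 0) (nat_lit 5520124353) (nat_lit 76) (nat_lit 27187804533) (nat_lit 76) (nat_lit 2091102998) (nat_lit 187) (nat_lit 4) (nat_lit 188) (nat_lit 5) (nat_lit 188) (nat_lit 4) (nat_lit 385) (nat_lit 342) (nat_lit 293))) (XT.nd (nat_lit 78) (nat_lit 76) (nat_lit 0) (XT.lf (nat_lit 0) (nat_lit 7802506053) (nat_lit 76) (nat_lit 8267261724) (nat_lit 152) (nat_lit 20504295933) (nat_lit 185) (nat_lit 5) (nat_lit 186) (nat_lit 5) (nat_lit 187) (nat_lit 4) (nat_lit 386) (nat_lit 342) (nat_lit 292)) (XT.lf (nat_lit 0) (nat_lit 10400291079) (nat_lit 76) (nat_lit 26015404817) (nat_lit 76) (nat_lit 2033415682) (nat_lit 184) (nat_lit 4) (nat_lit 185) (nat_lit 5) (nat_lit 185) (nat_lit 4) (nat_lit 387) (nat_lit 342) (nat_lit 291)))))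 (XT.nd (nat_lit 312) (nat_lit 532) (nat_lit 0) (XT.nd (nat_lit 156) (nat_lit 228) (nat_lit 0) (XT.nd (nat_lit 78) (nat_lit 76) (nat_lit 0) (XT.lf (nat_lit 0) (nat_lit 13151945978) (nat_lit 76) (nat_lit 4979620726) (nat_lit 152) (nat_lit 22289119901) (nat_lit 182) (nat_lit 5) (nat_lit 183) (nat_lit 5) (nat_lit 184) (nat_lit 4) (nat_lit 388) (nat_lit 342) (nat_lit 290)) (XT.lf (nat_lit 0) (nat_lit 16201566669) (nat_lit 76) (nat_lit 24602055087) (nat_lit 76) (nat_lit 1696443393) (nat_lit 181) (nat_lit 4) (nat_lit 182) (nat_lit 5) (nat_lit 182) (nat_lit 4) (nat_lit 389) (nat_lit 342) (nat_lit 289))) (XT.nd (nat_lit 78) (nat_lit 76) (nat_lit 0) (XT.lf (nat_lit 0) (nat_lit 19493389344) (nat_lit 76) (nat_lit 1203299987) (nat_lit 152) (nat_lit 23992539094) (nat_lit 179) (nat_lit 5) (nat_lit 180) (nat_lit 5) (nat_lit 181) (nat_lit 4) (nat_lit 390) (nat_lit 342) (nat_lit 288)) (XT.lf (nat_lit 0) (nat_lit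 23067479896) (nat_lit 76) (nat_lit 22897961835) (nat_lit 76) (nat_lit 1029512295) (nat_lit 178) (nat_lit 4) (nat_lit 179) (nat_lit 5) (nat_lit 179) (nat_lit 4) (nat_lit 391) (nat_lit 342) (nat_lit 287)))) (XT.nd (nat_lit 156) (nat_lit 228) (nat_lit 0) (XT.nd (nat_lit 78) (nat_lit 152) (nat_lit 0) (XT.lf (nat_lit 0) (nat_lit 23889381780) (nat_lit 152) (nat_lit 22493647342) (nat_lit 0) (nat_lit 3039570735) (nat_lit 176) (nat_lit 5) (nat_lit 178) (nat_lit 4) (nat_lit 176) (nat_lit 4) (nat_lit 392) (nat_lit 342) (nat_lit 286)) (XT.lf (nat_lit 0) (nat_lit 24786294) (nat_lit 152) (nat_lit 20820032701) (nat_lit 76) (nat_lit 31136703029) (nat_lit 174) (nat_lit 5) (nat_lit 176) (nat_lit 5) (nat_lit 175) (nat_lit 4) (nat_lit 393) (nat_lit 342) (nat_lit 285))) (XT.nd (nat_lit 78) (nat_lit 152) (nat_lit 0) (XT.lf (nat_lit 0) (nat_lit 27775202838) (nat_lit 152) (nat_lit 19017249824) (nat_lit 0) (nat_lit 7879659864)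 (nat_lit 173) (nat_lit 5) (nat_lit 175) (nat_lit 4) (nat_lit 173) (nat_lit 4) (nat_lit 394) (nat_lit 342) (nat_lit 284)) (XT.lf (nat_lit 0) (nat_lit 1486658222) (nat_lit 152) (nat_lit 16865067796) (nat_lit 76) (nat_lit 39159877170) (nat_lit 171) (nat_lit 5) (nat_lit 173) (nat_lit 5) (nat_lit 172) (nat_lit 4) (nat_lit 395) (nat_lit 342) (nat_lit 283)))))) (XT.nd (nat_lit 624) (nat_lit 912) (nat_lit 0) (XT.nd (nat_lit 312) (nat_lit 532) (nat_lit 0) (XT.nd (nat_lit 156) (nat_lit 228) (nat_lit 0) (XT.nd (nat_lit 78) (nat_lit 152) (nat_lit 0) (XT.lf (nat_lit 0) (nat_lit 32434249671) (nat_lit 152) (nat_lit 14605560678) (nat_lit 0) (nat_lit 13454612366) (nat_lit 170) (nat_lit 5) (nat_lit 172) (nat_lit 4) (nat_lit 170) (nat_lit 4) (nat_lit 396) (nat_lit 342) (nat_lit 282)) (XT.lf (nat_lit 0) (nat_lit 3463427695) (nat_lit 152) (nat_lit 11893633472) (nat_lit 76) (nat_lit 48287624808) (nat_lit 168) (nat_lit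 5) (nat_lit 170) (nat_lit 5) (nat_lit 169) (nat_lit 4) (nat_lit 397) (nat_lit 342) (nat_lit 281))) (XT.nd (nat_lit 78) (nat_lit 152) (nat_lit 0) (XT.lf (nat_lit 0) (nat_lit 37978959435) (nat_lit 152) (nat_lit 9094960692) (nat_lit 0) (nat_lit 19877393289) (nat_lit 167) (nat_lit 5) (nat_lit 169) (nat_lit 4) (nat_lit 167) (nat_lit 4) (nat_lit 398) (nat_lit 342) (nat_lit 280)) (XT.lf (nat_lit 0) (nat_lit 6040444232) (nat_lit 152) (nat_lit 5730105386) (nat_lit 76) (nat_lit 58675292683) (nat_lit 165) (nat_lit 5) (nat_lit 167) (nat_lit 5) (nat_lit 166) (nat_lit 4) (nat_lit 399) (nat_lit 342) (nat_lit 279)))) (XT.nd (nat_lit 156) (nat_lit 228) (nat_lit 0) (XT.nd (nat_lit 78) (nat_lit 228) (nat_lit 0) (XT.lf (nat_lit 0) (nat_lit 44537131336) (nat_lit 152) (nat_lit 2297615653) (nat_lit 0) (nat_lit 27276542918) (nat_lit 164) (nat_lit 5) (nat_lit 166) (nat_lit 4) (nat_lit 164) (nat_lit 4) (nat_lit 400) (nat_lit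 342) (nat_lit 278)) (XT.lf (nat_lit 0) (nat_lit 1887385103) (nat_lit 76) (nat_lit 7457650276) (nat_lit 152) (nat_lit 68640713796) (nat_lit 161) (nat_lit 5) (nat_lit 162) (nat_lit 5) (nat_lit 163) (nat_lit 4) (nat_lit 401) (nat_lit 342) (nat_lit 277))) (XT.nd (nat_lit 78) (nat_lit 152) (nat_lit 0) (XT.lf (nat_lit 0) (nat_lit 6200250012) (nat_lit 76) (nat_lit 46150510638) (nat_lit 76) (nat_lit 29694706909) (nat_lit 160) (nat_lit 4) (nat_lit 161) (nat_lit 5) (nat_lit 161) (nat_lit 4) (nat_lit 402) (nat_lit 342) (nat_lit 276)) (XT.lf (nat_lit 0) (nat_lit 11372390384) (nat_lit 76) (nat_lit 2206062152) (nat_lit 152) (nat_lit 72761492085) (nat_lit 158) (nat_lit 5) (nat_lit 159) (nat_lit 5) (nat_lit 160) (nat_lit 4) (nat_lit 403) (nat_lit 342) (nat_lit 275))))) (XT.nd (nat_lit 312) (nat_lit 456) (nat_lit 0) (XT.nd (nat_lit 156) (nat_lit 228) (nat_lit 0) (XT.nd (nat_lit 78) (nat_lit 152) (nat_lit 0) (XT.lf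 (nat_lit 0) (nat_lit 16580511379) (nat_lit 76) (nat_lit 44972660483) (nat_lit 76) (nat_lit 29286464812) (nat_lit 157) (nat_lit 4) (nat_lit 158) (nat_lit 5) (nat_lit 158) (nat_lit 4) (nat_lit 404) (nat_lit 342) (nat_lit 274)) (XT.lf (nat_lit 0) (nat_lit 18843697078) (nat_lit 152) (nat_lit 72856160156) (nat_lit 0) (nat_lit 3898526987) (nat_lit 155) (nat_lit 5) (nat_lit 157) (nat_lit 4) (nat_lit 155) (nat_lit 4) (nat_lit 405) (nat_lit 342) (nat_lit 273))) (XT.nd (nat_lit 78) (nat_lit 152) (nat_lit 0) (XT.lf (nat_lit 0) (nat_lit 29058460311) (nat_lit 76) (nat_lit 43240497700) (nat_lit 76) (nat_lit 28289831202) (nat_lit 154) (nat_lit 4) (nat_lit 155) (nat_lit 5) (nat_lit 155) (nat_lit 4) (nat_lit 406) (nat_lit 342) (nat_lit 272)) (XT.lf (nat_lit 0) (nat_lit 25281695880) (nat_lit 152) (nat_lit 69539870456) (nat_lit 0) (nat_lit 11038118962) (nat_lit 152) (nat_lit 5) (nat_lit 154) (nat_lit 4) (nat_lit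 152) (nat_lit 4) (nat_lit 407) (nat_lit 342) (nat_lit 271)))) (XT.nd (nat_lit 156) (nat_lit 228) (nat_lit 0) (XT.nd (nat_lit 78) (nat_lit 152) (nat_lit 0) (XT.lf (nat_lit 0) (nat_lit 43966832760) (nat_lit 76) (nat_lit 40838705099) (nat_lit 76) (nat_lit 26590640293) (nat_lit 151) (nat_lit 4) (nat_lit 152) (nat_lit 5) (nat_lit 152) (nat_lit 4) (nat_lit 408) (nat_lit 342) (nat_lit 270)) (XT.lf (nat_lit 0) (nat_lit 33033936274) (nat_lit 152) (nat_lit 64739835452) (nat_lit 0) (nat_lit 19460393171) (nat_lit 149) (nat_lit 5) (nat_lit 151) (nat_lit 4) (nat_lit 149) (nat_lit 4) (nat_lit 409) (nat_lit 342) (nat_lit 269))) (XT.nd (nat_lit 78) (nat_lit 152) (nat_lit 0) (XT.lf (nat_lit 0) (nat_lit 61685373002) (nat_lit 76) (nat_lit 37634050960) (nat_lit 76) (nat_lit 24056843436) (nat_lit 148) (nat_lit 4) (nat_lit 149) (nat_lit 5) (nat_lit 149) (nat_lit 4) (nat_lit 410) (nat_lit 342) (nat_lit 268)) (XT.lf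 (nat_lit 0) (nat_lit 42301172610) (nat_lit 152) (nat_lit 58173763900) (nat_lit 0) (nat_lit 29367267367) (nat_lit 146) (nat_lit 5) (nat_lit 148) (nat_lit 4) (nat_lit 146) (nat_lit 4) (nat_lit 411) (nat_lit 342) (nat_lit 267)))))))
noncomputable def xc97 : XT := (XT.nd (nat_lit 1248) (nat_lit 2052) (nat_lit 0) (XT.nd (nat_lit 624) (nat_lit 988) (nat_lit 0) (XT.nd (nat_lit 312) (nat_lit 456) (nat_lit 0) (XT.nd (nat_lit 156) (nat_lit 228) (nat_lit 0) (XT.nd (nat_lit 78) (nat_lit 152) (nat_lit 0) (XT.lf (nat_lit 0) (nat_lit 82647079889) (nat_lit 76) (nat_lit 33472882792) (nat_lit 76) (nat_lit 20535985502) (nat_lit 145) (nat_lit 4) (nat_lit 146) (nat_lit 5) (nat_lit 146) (nat_lit 4) (nat_lit 412) (nat_lit 342) (nat_lit 266)) (XT.lf (nat_lit 0) (nat_lit 53312283561) (nat_lit 152) (nat_lit 49516173495) (nat_lit 0) (nat_lit 40988790510) (nat_lit 143) (nat_lit 5) (nat_lit 145) (nat_lit 4) (nat_lit 143)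 (nat_lit 4) (nat_lit 413) (nat_lit 342) (nat_lit 265))) (XT.nd (nat_lit 78) (nat_lit 152) (nat_lit 0) (XT.lf (nat_lit 0) (nat_lit 107345253999) (nat_lit 76) (nat_lit 28178284968) (nat_lit 76) (nat_lit 15852348871) (nat_lit 142) (nat_lit 4) (nat_lit 143) (nat_lit 5) (nat_lit 143) (nat_lit 4) (nat_lit 414) (nat_lit 342) (nat_lit 264)) (XT.lf (nat_lit 0) (nat_lit 66327991927) (nat_lit 152) (nat_lit 38392380597) (nat_lit 0) (nat_lit 54586850806) (nat_lit 140) (nat_lit 5) (nat_lit 142) (nat_lit 4) (nat_lit 140) (nat_lit 4) (nat_lit 415) (nat_lit 342) (nat_lit 263)))) (XT.nd (nat_lit 156) (nat_lit 228) (nat_lit 0) (XT.nd (nat_lit 78) (nat_lit 152) (nat_lit 0) (XT.lf (nat_lit 0) (nat_lit 136341445043) (nat_lit 76) (nat_lit 21546858089) (nat_lit 76) (nat_lit 9803722189) (nat_lit 139) (nat_lit 4) (nat_lit 140) (nat_lit 5) (nat_lit 140) (nat_lit 4) (nat_lit 416) (nat_lit 342) (nat_lit 262)) (XT.lf (nat_lit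 0) (nat_lit 81645056677) (nat_lit 152) (nat_lit 24371697004) (nat_lit 0) (nat_lit 70459358660) (nat_lit 137) (nat_lit 5) (nat_lit 139) (nat_lit 4) (nat_lit 137) (nat_lit 4) (nat_lit 417) (nat_lit 342) (nat_lit 261))) (XT.nd (nat_lit 78) (nat_lit 152) (nat_lit 0) (XT.lf (nat_lit 0) (nat_lit 170274411069) (nat_lit 76) (nat_lit 13345072586) (nat_lit 76) (nat_lit 2157745806) (nat_lit 136) (nat_lit 4) (nat_lit 137) (nat_lit 5) (nat_lit 137) (nat_lit 4) (nat_lit 418) (nat_lit 342) (nat_lit 260)) (XT.lf (nat_lit 0) (nat_lit 99600996125) (nat_lit 152) (nat_lit 6959733261) (nat_lit 0) (nat_lit 88944962893) (nat_lit 134) (nat_lit 5) (nat_lit 136) (nat_lit 4) (nat_lit 134) (nat_lit 4) (nat_lit 419) (nat_lit 342) (nat_lit 259))))) (XT.nd (nat_lit 312) (nat_lit 456) (nat_lit 0) (XT.nd (nat_lit 156) (nat_lit 228) (nat_lit 0) (XT.nd (nat_lit 78) (nat_lit 76) (nat_lit 0) (XT.lf (nat_lit 0) (nat_lit 4062307525)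 (nat_lit 76) (nat_lit 3118019628) (nat_lit 152) (nat_lit 198633899827) (nat_lit 131) (nat_lit 5) (nat_lit 132) (nat_lit 5) (nat_lit 133) (nat_lit 4) (nat_lit 420) (nat_lit 342) (nat_lit 258)) (XT.lf (nat_lit 0) (nat_lit 14886774256) (nat_lit 76) (nat_lit 105925058264) (nat_lit 76) (nat_lit 95774015850) (nat_lit 130) (nat_lit 4) (nat_lit 131) (nat_lit 5) (nat_lit 131) (nat_lit 4) (nat_lit 421) (nat_lit 342) (nat_lit 257))) (XT.nd (nat_lit 78) (nat_lit 76) (nat_lit 0) (XT.lf (nat_lit 0) (nat_lit 19018830027) (nat_lit 152) (nat_lit 199628561006) (nat_lit 0) (nat_lit 9350136408) (nat_lit 128) (nat_lit 5) (nat_lit 130) (nat_lit 4) (nat_lit 128) (nat_lit 4) (nat_lit 422) (nat_lit 342) (nat_lit 256)) (XT.lf (nat_lit 0) (nat_lit 41722842880) (nat_lit 76) (nat_lit 103944529825) (nat_lit 76) (nat_lit 94274878634) (nat_lit 127) (nat_lit 4) (nat_lit 128) (nat_lit 5) (nat_lit 128) (nat_lit 4) (nat_lit 423)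 (nat_lit 342) (nat_lit 255)))) (XT.nd (nat_lit 156) (nat_lit 228) (nat_lit 0) (XT.nd (nat_lit 78) (nat_lit 76) (nat_lit 0) (XT.lf (nat_lit 0) (nat_lit 33465953749) (nat_lit 152) (nat_lit 194857157597) (nat_lit 0) (nat_lit 24255917719) (nat_lit 125) (nat_lit 5) (nat_lit 127) (nat_lit 4) (nat_lit 125) (nat_lit 4) (nat_lit 424) (nat_lit 342) (nat_lit 254)) (XT.lf (nat_lit 0) (nat_lit 74085288347) (nat_lit 76) (nat_lit 100476534470) (nat_lit 76) (nat_lit 91265716570) (nat_lit 124) (nat_lit 4) (nat_lit 125) (nat_lit 5) (nat_lit 125) (nat_lit 4) (nat_lit 425) (nat_lit 342) (nat_lit 253))) (XT.nd (nat_lit 78) (nat_lit 76) (nat_lit 0) (XT.lf (nat_lit 0) (nat_lit 50879608098) (nat_lit 152) (nat_lit 186834651453) (nat_lit 0) (nat_lit 42106711095) (nat_lit 122) (nat_lit 5) (nat_lit 124) (nat_lit 4) (nat_lit 122) (nat_lit 4) (nat_lit 426) (nat_lit 342) (nat_lit 252)) (XT.lf (nat_lit 0) (nat_lit 112850452185)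 (nat_lit 76) (nat_lit 95219308141) (nat_lit 76) (nat_lit 86445772731) (nat_lit 121) (nat_lit 4) (nat_lit 122) (nat_lit 5) (nat_lit 122) (nat_lit 4) (nat_lit 427) (nat_lit 342) (nat_lit 251)))))) (XT.nd (nat_lit 624) (nat_lit 1140) (nat_lit 0) (XT.nd (nat_lit 312) (nat_lit 456) (nat_lit 0) (XT.nd (nat_lit 156) (nat_lit 228) (nat_lit 0) (XT.nd (nat_lit 78) (nat_lit 76) (nat_lit 0) (XT.lf (nat_lit 0) (nat_lit 71724226454) (nat_lit 152) (nat_lit 174919186460) (nat_lit 0) (nat_lit 63367915475) (nat_lit 119) (nat_lit 5) (nat_lit 121) (nat_lit 4) (nat_lit 119) (nat_lit 4) (nat_lit 428) (nat_lit 342) (nat_lit 250)) (XT.lf (nat_lit 0) (nat_lit 159018716494) (nat_lit 76) (nat_lit 87823936305) (nat_lit 76) (nat_lit 79467104058) (nat_lit 118) (nat_lit 4) (nat_lit 119) (nat_lit 5) (nat_lit 119) (nat_lit 4) (nat_lit 429) (nat_lit 342) (nat_lit 249))) (XT.nd (nat_lit 78) (nat_lit 76) (nat_lit 0) (XT.lf (nat_lit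 0) (nat_lit 96529800435) (nat_lit 152) (nat_lit 158369054029) (nat_lit 0) (nat_lit 88570452909) (nat_lit 116) (nat_lit 5) (nat_lit 118) (nat_lit 4) (nat_lit 116) (nat_lit 4) (nat_lit 430) (nat_lit 342) (nat_lit 248)) (XT.lf (nat_lit 0) (nat_lit 213731018203) (nat_lit 76) (nat_lit 77887709682) (nat_lit 76) (nat_lit 69927936533) (nat_lit 115) (nat_lit 4) (nat_lit 116) (nat_lit 5) (nat_lit 116) (nat_lit 4) (nat_lit 431) (nat_lit 342) (nat_lit 247)))) (XT.nd (nat_lit 156) (nat_lit 228) (nat_lit 0) (XT.nd (nat_lit 78) (nat_lit 76) (nat_lit 0) (XT.lf (nat_lit 0) (nat_lit 125900584332) (nat_lit 152) (nat_lit 136328674259) (nat_lit 0) (nat_lit 118319472672) (nat_lit 113) (nat_lit 5) (nat_lit 115) (nat_lit 4) (nat_lit 113) (nat_lit 4) (nat_lit 432) (nat_lit 342) (nat_lit 246)) (XT.lf (nat_lit 0) (nat_lit 278287477203) (nat_lit 76) (nat_lit 64946598160) (nat_lit 76) (nat_lit 57365138974) (nat_lit 112)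 (nat_lit 4) (nat_lit 113) (nat_lit 5) (nat_lit 113) (nat_lit 4) (nat_lit 433) (nat_lit 342) (nat_lit 245))) (XT.nd (nat_lit 78) (nat_lit 76) (nat_lit 0) (XT.lf (nat_lit 0) (nat_lit 160524911664) (nat_lit 152) (nat_lit 107812720908) (nat_lit 0) (nat_lit 153304167884) (nat_lit 110) (nat_lit 5) (nat_lit 112) (nat_lit 4) (nat_lit 110) (nat_lit 4) (nat_lit 434) (nat_lit 342) (nat_lit 244)) (XT.lf (nat_lit 0) (nat_lit 354168401635) (nat_lit 76) (nat_lit 48466730364) (nat_lit 76) (nat_lit 41245702825) (nat_lit 109) (nat_lit 4) (nat_lit 110) (nat_lit 5) (nat_lit 110) (nat_lit 4) (nat_lit 435) (nat_lit 342) (nat_lit 243))))) (XT.nd (nat_lit 312) (nat_lit 532) (nat_lit 0) (XT.nd (nat_lit 156) (nat_lit 380) (nat_lit 0) (XT.nd (nat_lit 78) (nat_lit 76) (nat_lit 0) (XT.lf (nat_lit 0) (nat_lit 201186262299) (nat_lit 152) (nat_lit 71688153449) (nat_lit 0) (nat_lit 194308842985) (nat_lit 107) (nat_lit 5) (nat_lit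 109) (nat_lit 4) (nat_lit 107) (nat_lit 4) (nat_lit 436) (nat_lit 342) (nat_lit 242)) (XT.lf (nat_lit 0) (nat_lit 443057965839) (nat_lit 76) (nat_lit 27834752333) (nat_lit 76) (nat_lit 20957101326) (nat_lit 106) (nat_lit 4) (nat_lit 107) (nat_lit 5) (nat_lit 107) (nat_lit 4) (nat_lit 437) (nat_lit 342) (nat_lit 241))) (XT.nd (nat_lit 78) (nat_lit 228) (nat_lit 0) (XT.lf (nat_lit 0) (nat_lit 248775735458) (nat_lit 152) (nat_lit 26653890110) (nat_lit 0) (nat_lit 242225387326) (nat_lit 104) (nat_lit 5) (nat_lit 106) (nat_lit 4) (nat_lit 104) (nat_lit 4) (nat_lit 438) (nat_lit 342) (nat_lit 240)) (XT.lf (nat_lit 0) (nat_lit 1850281576) (nat_lit 76) (nat_lit 2247678857) (nat_lit 152) (nat_lit 540911514910) (nat_lit 101) (nat_lit 5) (nat_lit 102) (nat_lit 5) (nat_lit 103) (nat_lit 4) (nat_lit 439) (nat_lit 342) (nat_lit 239)))) (XT.nd (nat_lit 156) (nat_lit 304) (nat_lit 0) (XT.nd (nat_lit 78) (nat_lit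 152) (nat_lit 0) (XT.lf (nat_lit 0) (nat_lit 29733846009) (nat_lit 76) (nat_lit 275036485501) (nat_lit 76) (nat_lit 268797711711) (nat_lit 100) (nat_lit 4) (nat_lit 101) (nat_lit 5) (nat_lit 101) (nat_lit 4) (nat_lit 440) (nat_lit 342) (nat_lit 238)) (XT.lf (nat_lit 0) (nat_lit 35416917995) (nat_lit 152) (nat_lit 538942984208) (nat_lit 0) (nat_lit 29475081558) (nat_lit 98) (nat_lit 5) (nat_lit 100) (nat_lit 4) (nat_lit 98) (nat_lit 4) (nat_lit 441) (nat_lit 342) (nat_lit 237))) (XT.nd (nat_lit 78) (nat_lit 228) (nat_lit 0) (XT.lf (nat_lit 0) (nat_lit 99514239703) (nat_lit 76) (nat_lit 270967093803) (nat_lit 76) (nat_lit 265025121151) (nat_lit 97) (nat_lit 4) (nat_lit 98) (nat_lit 5) (nat_lit 98) (nat_lit 4) (nat_lit 442) (nat_lit 342) (nat_lit 236)) (XT.nd (nat_lit 78) (nat_lit 76) (nat_lit 0) (XT.lf (nat_lit 0) (nat_lit 73478881683) (nat_lit 152) (nat_lit 527721899328) (nat_lit 0) (nat_lit 67819739989)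 (nat_lit 95) (nat_lit 5) (nat_lit 97) (nat_lit 4) (nat_lit 95) (nat_lit 4) (nat_lit 443) (nat_lit 342) (nat_lit 235)) (XT.lf (nat_lit 0) (nat_lit 183826120849) (nat_lit 76) (nat_lit 262989856459) (nat_lit 76) (nat_lit 257330603544) (nat_lit 94) (nat_lit 4) (nat_lit 95) (nat_lit 5) (nat_lit 95) (nat_lit 4) (nat_lit 444) (nat_lit 342) (nat_lit 234))))))))
noncomputable def xc98 : XT := (XT.nd (nat_lit 46176) (nat_lit 0) (nat_lit 9728) (XT.nd (nat_lit 45552) (nat_lit 0) (nat_lit 14212) (XT.nd (nat_lit 45240) (nat_lit 0) (nat_lit 18316) (XT.nd (nat_lit 156) (nat_lit 152) (nat_lit 0) (XT.nd (nat_lit 78) (nat_lit 76) (nat_lit 0) (XT.lf (nat_lit 0) (nat_lit 119320859757) (nat_lit 152) (nat_lit 508004697899) (nat_lit 0) (nat_lit 113930996997) (nat_lit 92) (nat_lit 5) (nat_lit 94) (nat_lit 4) (nat_lit 92) (nat_lit 4) (nat_lit 445) (nat_lit 342) (nat_lit 233)) (XT.lf (nat_lit 0) (nat_lit 284978363857)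 (nat_lit 76) (nat_lit 250312932986) (nat_lit 76) (nat_lit 244922979411) (nat_lit 91) (nat_lit 4) (nat_lit 92) (nat_lit 5) (nat_lit 92) (nat_lit 4) (nat_lit 446) (nat_lit 342) (nat_lit 232))) (XT.nd (nat_lit 45006) (nat_lit 0) (nat_lit 19076) (XT.lf (nat_lit 0) (nat_lit 174167590717) (nat_lit 152) (nat_lit 478104650165) (nat_lit 0) (nat_lit 169034221515) (nat_lit 89) (nat_lit 5) (nat_lit 91) (nat_lit 4) (nat_lit 89) (nat_lit 4) (nat_lit 447) (nat_lit 342) (nat_lit 231)) (XT.lf (nat_lit 0) (nat_lit 3109021499) (nat_lit 380) (nat_lit 120410891) (nat_lit 380) (nat_lit 120410891) (nat_lit 340) (nat_lit 3) (nat_lit 345) (nat_lit 3) (nat_lit 345) (nat_lit 5) (nat_lit 343) (nat_lit 343) (nat_lit 334)))) (XT.nd (nat_lit 156) (nat_lit 380) (nat_lit 0) (XT.nd (nat_lit 78) (nat_lit 0) (nat_lit 0) (XT.lf (nat_lit 0) (nat_lit 3001538047) (nat_lit 380) (nat_lit 1590084570) (nat_lit 456) (nat_lit 2202121685)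 (nat_lit 335) (nat_lit 5) (nat_lit 340) (nat_lit 3) (nat_lit 341) (nat_lit 5) (nat_lit 344) (nat_lit 343) (nat_lit 333)) (XT.lf (nat_lit 76) (nat_lit 4128087266) (nat_lit 0) (nat_lit 2344002851) (nat_lit 456) (nat_lit 436562231) (nat_lit 336) (nat_lit 5) (nat_lit 335) (nat_lit 5) (nat_lit 341) (nat_lit 5) (nat_lit 345) (nat_lit 343) (nat_lit 332))) (XT.nd (nat_lit 78) (nat_lit 0) (nat_lit 0) (XT.lf (nat_lit 0) (nat_lit 2842774655) (nat_lit 456) (nat_lit 3862670298) (nat_lit 532) (nat_lit 336956653) (nat_lit 330) (nat_lit 5) (nat_lit 336) (nat_lit 5) (nat_lit 337) (nat_lit 5) (nat_lit 346) (nat_lit 343) (nat_lit 331)) (XT.lf (nat_lit 76) (nat_lit 2355413056) (nat_lit 0) (nat_lit 3836499613) (nat_lit 532) (nat_lit 1003442838) (nat_lit 331) (nat_lit 5) (nat_lit 330) (nat_lit 5) (nat_lit 337) (nat_lit 5) (nat_lit 347) (nat_lit 343) (nat_lit 330))))) (XT.nd (nat_lit 312) (nat_lit 1748) (nat_lit 0)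 (XT.nd (nat_lit 156) (nat_lit 1368) (nat_lit 0) (XT.nd (nat_lit 78) (nat_lit 456) (nat_lit 0) (XT.lf (nat_lit 76) (nat_lit 1660848640) (nat_lit 0) (nat_lit 515304659) (nat_lit 608) (nat_lit 5192176948) (nat_lit 324) (nat_lit 5) (nat_lit 323) (nat_lit 5) (nat_lit 331) (nat_lit 5) (nat_lit 348) (nat_lit 343) (nat_lit 329)) (XT.lf (nat_lit 0) (nat_lit 1060869390) (nat_lit 532) (nat_lit 4395987780) (nat_lit 608) (nat_lit 2103368511) (nat_lit 317) (nat_lit 5) (nat_lit 324) (nat_lit 5) (nat_lit 325) (nat_lit 5) (nat_lit 349) (nat_lit 343) (nat_lit 328))) (XT.nd (nat_lit 78) (nat_lit 684) (nat_lit 0) (XT.lf (nat_lit 0) (nat_lit 591612638) (nat_lit 608) (nat_lit 464310655) (nat_lit 684) (nat_lit 6717445893) (nat_lit 308) (nat_lit 5) (nat_lit 316) (nat_lit 5) (nat_lit 317) (nat_lit 5) (nat_lit 350) (nat_lit 343) (nat_lit 327)) (XT.lf (nat_lit 0) (nat_lit 180165129) (nat_lit 684) (nat_lit 4152328452) (nat_lit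 760) (nat_lit 3672435171) (nat_lit 299) (nat_lit 5) (nat_lit 308) (nat_lit 5) (nat_lit 309) (nat_lit 5) (nat_lit 351) (nat_lit 343) (nat_lit 326)))) (XT.nd (nat_lit 156) (nat_lit 912) (nat_lit 0) (XT.nd (nat_lit 78) (nat_lit 836) (nat_lit 0) (XT.lf (nat_lit 0) (nat_lit 7785066501) (nat_lit 760) (nat_lit 90418245) (nat_lit 76) (nat_lit 383834488) (nat_lit 299) (nat_lit 5) (nat_lit 309) (nat_lit 5) (nat_lit 300) (nat_lit 5) (nat_lit 352) (nat_lit 343) (nat_lit 325)) (XT.lf (nat_lit 0) (nat_lit 2875059786) (nat_lit 836) (nat_lit 323573103) (nat_lit 76) (nat_lit 5333569566) (nat_lit 288) (nat_lit 5) (nat_lit 299) (nat_lit 5) (nat_lit 289) (nat_lit 5) (nat_lit 353) (nat_lit 343) (nat_lit 324))) (XT.nd (nat_lit 78) (nat_lit 456) (nat_lit 0) (XT.lf (nat_lit 0) (nat_lit 6441197466) (nat_lit 532) (nat_lit 449398873) (nat_lit 76) (nat_lit 1937656479) (nat_lit 282) (nat_lit 5) (nat_lit 289) (nat_lit 5)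 (nat_lit 283) (nat_lit 5) (nat_lit 354) (nat_lit 343) (nat_lit 323)) (XT.lf (nat_lit 0) (nat_lit 1115948217) (nat_lit 456) (nat_lit 499189045) (nat_lit 76) (nat_lit 7531559154) (nat_lit 276) (nat_lit 5) (nat_lit 282) (nat_lit 5) (nat_lit 277) (nat_lit 5) (nat_lit 355) (nat_lit 343) (nat_lit 322)))))) (XT.nd (nat_lit 624) (nat_lit 1672) (nat_lit 0) (XT.nd (nat_lit 312) (nat_lit 1444) (nat_lit 0) (XT.nd (nat_lit 156) (nat_lit 684) (nat_lit 0) (XT.nd (nat_lit 78) (nat_lit 304) (nat_lit 0) (XT.lf (nat_lit 0) (nat_lit 4853405606) (nat_lit 456) (nat_lit 504936186) (nat_lit 76) (nat_lit 4128424892) (nat_lit 271) (nat_lit 5) (nat_lit 277) (nat_lit 5) (nat_lit 272) (nat_lit 5) (nat_lit 356) (nat_lit 343) (nat_lit 321)) (XT.lf (nat_lit 0) (nat_lit 8913406654) (nat_lit 380) (nat_lit 396156240) (nat_lit 76) (nat_lit 543302325) (nat_lit 267) (nat_lit 5) (nat_lit 272) (nat_lit 5) (nat_lit 268) (nat_lit 5)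 (nat_lit 357) (nat_lit 343) (nat_lit 320))) (XT.nd (nat_lit 78) (nat_lit 304) (nat_lit 0) (XT.lf (nat_lit 0) (nat_lit 3049769622) (nat_lit 380) (nat_lit 271183845) (nat_lit 76) (nat_lit 6920045696) (nat_lit 262) (nat_lit 5) (nat_lit 267) (nat_lit 5) (nat_lit 263) (nat_lit 5) (nat_lit 358) (nat_lit 343) (nat_lit 319)) (XT.lf (nat_lit 0) (nat_lit 7397224999) (nat_lit 380) (nat_lit 56568814) (nat_lit 76) (nat_lit 3202019811) (nat_lit 258) (nat_lit 5) (nat_lit 263) (nat_lit 5) (nat_lit 259) (nat_lit 5) (nat_lit 359) (nat_lit 343) (nat_lit 318)))) (XT.nd (nat_lit 156) (nat_lit 532) (nat_lit 0) (XT.nd (nat_lit 78) (nat_lit 304) (nat_lit 0) (XT.lf (nat_lit 0) (nat_lit 255823178) (nat_lit 228) (nat_lit 799427796) (nat_lit 304) (nat_lit 10042878939) (nat_lit 250) (nat_lit 5) (nat_lit 253) (nat_lit 5) (nat_lit 254) (nat_lit 5) (nat_lit 360) (nat_lit 343) (nat_lit 317)) (XT.lf (nat_lit 0) (nat_lit 582393679)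 (nat_lit 304) (nat_lit 5175128904) (nat_lit 380) (nat_lit 5807763451) (nat_lit 246) (nat_lit 5) (nat_lit 250) (nat_lit 5) (nat_lit 251) (nat_lit 5) (nat_lit 361) (nat_lit 343) (nat_lit 316))) (XT.nd (nat_lit 78) (nat_lit 304) (nat_lit 0) (XT.lf (nat_lit 0) (nat_lit 1037040804) (nat_lit 228) (nat_lit 9915750777) (nat_lit 304) (nat_lit 1111182279) (nat_lit 243) (nat_lit 5) (nat_lit 246) (nat_lit 5) (nat_lit 247) (nat_lit 5) (nat_lit 362) (nat_lit 343) (nat_lit 315)) (XT.lf (nat_lit 0) (nat_lit 1522880388) (nat_lit 228) (nat_lit 2485308943) (nat_lit 304) (nat_lit 8582582936) (nat_lit 239) (nat_lit 5) (nat_lit 242) (nat_lit 5) (nat_lit 243) (nat_lit 5) (nat_lit 363) (nat_lit 343) (nat_lit 314))))) (XT.nd (nat_lit 312) (nat_lit 684) (nat_lit 0) (XT.nd (nat_lit 156) (nat_lit 456) (nat_lit 0) (XT.nd (nat_lit 78) (nat_lit 304) (nat_lit 0) (XT.lf (nat_lit 0) (nat_lit 2090470004) (nat_lit 228) (nat_lit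 7596925481) (nat_lit 304) (nat_lit 3461947492) (nat_lit 236) (nat_lit 5) (nat_lit 239) (nat_lit 5) (nat_lit 240) (nat_lit 5) (nat_lit 364) (nat_lit 343) (nat_lit 313)) (XT.lf (nat_lit 0) (nat_lit 2171966011) (nat_lit 304) (nat_lit 10971429455) (nat_lit 76) (nat_lit 599097902) (nat_lit 232) (nat_lit 5) (nat_lit 236) (nat_lit 5) (nat_lit 233) (nat_lit 5) (nat_lit 365) (nat_lit 343) (nat_lit 312))) (XT.nd (nat_lit 78) (nat_lit 304) (nat_lit 0) (XT.lf (nat_lit 0) (nat_lit 3469247284) (nat_lit 152) (nat_lit 4929878406) (nat_lit 228) (nat_lit 5967941294) (nat_lit 230) (nat_lit 5) (nat_lit 232) (nat_lit 5) (nat_lit 233) (nat_lit 5) (nat_lit 366) (nat_lit 343) (nat_lit 311)) (XT.lf (nat_lit 0) (nat_lit 295950206) (nat_lit 304) (nat_lit 10714862553) (nat_lit 76) (nat_lit 4019941538) (nat_lit 226) (nat_lit 5) (nat_lit 230) (nat_lit 5) (nat_lit 227) (nat_lit 5) (nat_lit 367) (nat_lit 343) (nat_lit 310))))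 (XT.nd (nat_lit 156) (nat_lit 380) (nat_lit 0) (XT.nd (nat_lit 78) (nat_lit 152) (nat_lit 0) (XT.lf (nat_lit 0) (nat_lit 5204036517) (nat_lit 152) (nat_lit 1900819426) (nat_lit 228) (nat_lit 8625139371) (nat_lit 224) (nat_lit 5) (nat_lit 226) (nat_lit 5) (nat_lit 227) (nat_lit 5) (nat_lit 368) (nat_lit 343) (nat_lit 309)) (XT.lf (nat_lit 0) (nat_lit 6204809799) (nat_lit 152) (nat_lit 8561395547) (nat_lit 228) (nat_lit 1703583704) (nat_lit 222) (nat_lit 5) (nat_lit 224) (nat_lit 5) (nat_lit 225) (nat_lit 5) (nat_lit 369) (nat_lit 343) (nat_lit 308))) (XT.nd (nat_lit 78) (nat_lit 152) (nat_lit 0) (XT.lf (nat_lit 0) (nat_lit 5844200496) (nat_lit 228) (nat_lit 9942237868) (nat_lit 76) (nat_lit 1464960585) (nat_lit 219) (nat_lit 5) (nat_lit 222) (nat_lit 5) (nat_lit 220) (nat_lit 5) (nat_lit 370) (nat_lit 343) (nat_lit 307)) (XT.lf (nat_lit 0) (nat_lit 8502902694) (nat_lit 152) (nat_lit 5797437670)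 (nat_lit 228) (nat_lit 3775589985) (nat_lit 217) (nat_lit 5) (nat_lit 219) (nat_lit 5) (nat_lit 220) (nat_lit 5) (nat_lit 371) (nat_lit 343) (nat_lit 306)))))))
noncomputable def xc99 : XT := (XT.nd (nat_lit 1248) (nat_lit 2052) (nat_lit 0) (XT.nd (nat_lit 624) (nat_lit 1140) (nat_lit 0) (XT.nd (nat_lit 312) (nat_lit 608) (nat_lit 0) (XT.nd (nat_lit 156) (nat_lit 304) (nat_lit 0) (XT.nd (nat_lit 78) (nat_lit 152) (nat_lit 0) (XT.lf (nat_lit 0) (nat_lit 4645463256) (nat_lit 228) (nat_lit 9127443940) (nat_lit 76) (nat_lit 5173936624) (nat_lit 214) (nat_lit 5) (nat_lit 217) (nat_lit 5) (nat_lit 215) (nat_lit 5) (nat_lit 372) (nat_lit 343) (nat_lit 305)) (XT.lf (nat_lit 0) (nat_lit 11267533658) (nat_lit 152) (nat_lit 2696515040) (nat_lit 228) (nat_lit 5902480614) (nat_lit 212) (nat_lit 5) (nat_lit 214) (nat_lit 5) (nat_lit 215) (nat_lit 5) (nat_lit 373) (nat_lit 343) (nat_lit 304))) (XT.nd (nat_lit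 78) (nat_lit 152) (nat_lit 0) (XT.lf (nat_lit 0) (nat_lit 3495696071) (nat_lit 152) (nat_lit 8013272274) (nat_lit 76) (nat_lit 9326909415) (nat_lit 210) (nat_lit 5) (nat_lit 212) (nat_lit 5) (nat_lit 211) (nat_lit 5) (nat_lit 374) (nat_lit 343) (nat_lit 303)) (XT.lf (nat_lit 0) (nat_lit 13796075962) (nat_lit 228) (nat_lit 7312093139) (nat_lit 76) (nat_lit 751909722) (nat_lit 208) (nat_lit 5) (nat_lit 211) (nat_lit 5) (nat_lit 209) (nat_lit 4) (nat_lit 375) (nat_lit 343) (nat_lit 302)))) (XT.nd (nat_lit 156) (nat_lit 304) (nat_lit 0) (XT.nd (nat_lit 78) (nat_lit 152) (nat_lit 0) (XT.lf (nat_lit 0) (nat_lit 2412682357) (nat_lit 152) (nat_lit 6553187516) (nat_lit 76) (nat_lit 13972772469) (nat_lit 206) (nat_lit 5) (nat_lit 208) (nat_lit 5) (nat_lit 207) (nat_lit 5) (nat_lit 376) (nat_lit 343) (nat_lit 301)) (XT.lf (nat_lit 0) (nat_lit 13861873814) (nat_lit 228) (nat_lit 5697548923) (nat_lit 76)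 (nat_lit 4516613627) (nat_lit 204) (nat_lit 5) (nat_lit 207) (nat_lit 5) (nat_lit 205) (nat_lit 4) (nat_lit 377) (nat_lit 343) (nat_lit 300))) (XT.nd (nat_lit 78) (nat_lit 152) (nat_lit 0) (XT.lf (nat_lit 0) (nat_lit 1415817981) (nat_lit 152) (nat_lit 4692031936) (nat_lit 76) (nat_lit 19169713410) (nat_lit 202) (nat_lit 5) (nat_lit 204) (nat_lit 5) (nat_lit 203) (nat_lit 5) (nat_lit 378) (nat_lit 343) (nat_lit 299)) (XT.lf (nat_lit 0) (nat_lit 14152181542) (nat_lit 228) (nat_lit 3653715396) (nat_lit 76) (nat_lit 8734251291) (nat_lit 200) (nat_lit 5) (nat_lit 203) (nat_lit 5) (nat_lit 201) (nat_lit 4) (nat_lit 379) (nat_lit 343) (nat_lit 298))))) (XT.nd (nat_lit 312) (nat_lit 456) (nat_lit 0) (XT.nd (nat_lit 156) (nat_lit 380) (nat_lit 0) (XT.nd (nat_lit 78) (nat_lit 152) (nat_lit 0) (XT.lf (nat_lit 0) (nat_lit 526674734) (nat_lit 152) (nat_lit 2365146744) (nat_lit 76) (nat_lit 24985761577) (nat_lit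 198) (nat_lit 5) (nat_lit 200) (nat_lit 5) (nat_lit 199) (nat_lit 5) (nat_lit 380) (nat_lit 343) (nat_lit 297)) (XT.lf (nat_lit 0) (nat_lit 14703719111) (nat_lit 228) (nat_lit 1111091004) (nat_lit 76) (nat_lit 13463886200) (nat_lit 196) (nat_lit 5) (nat_lit 199) (nat_lit 5) (nat_lit 197) (nat_lit 4) (nat_lit 381) (nat_lit 343) (nat_lit 296))) (XT.nd (nat_lit 78) (nat_lit 152) (nat_lit 0) (XT.lf (nat_lit 0) (nat_lit 503573156) (nat_lit 152) (nat_lit 30043995016) (nat_lit 152) (nat_lit 217698406) (nat_lit 193) (nat_lit 4) (nat_lit 195) (nat_lit 5) (nat_lit 195) (nat_lit 4) (nat_lit 382) (nat_lit 343) (nat_lit 295)) (XT.lf (nat_lit 0) (nat_lit 2077410314) (nat_lit 76) (nat_lit 13512859359) (nat_lit 152) (nat_lit 16728987053) (nat_lit 191) (nat_lit 5) (nat_lit 192) (nat_lit 5) (nat_lit 193) (nat_lit 4) (nat_lit 383) (nat_lit 343) (nat_lit 294)))) (XT.nd (nat_lit 156) (nat_lit 228) (nat_lit 0) (XT.nd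 (nat_lit 78) (nat_lit 152) (nat_lit 0) (XT.lf (nat_lit 0) (nat_lit 4038787260) (nat_lit 76) (nat_lit 29218912544) (nat_lit 76) (nat_lit 709565255) (nat_lit 190) (nat_lit 4) (nat_lit 191) (nat_lit 5) (nat_lit 191) (nat_lit 4) (nat_lit 384) (nat_lit 343) (nat_lit 293)) (XT.lf (nat_lit 0) (nat_lit 5997288975) (nat_lit 76) (nat_lit 10857659043) (nat_lit 152) (nat_lit 18839485797) (nat_lit 188) (nat_lit 5) (nat_lit 189) (nat_lit 5) (nat_lit 190) (nat_lit 4) (nat_lit 385) (nat_lit 343) (nat_lit 292))) (XT.nd (nat_lit 78) (nat_lit 152) (nat_lit 0) (XT.lf (nat_lit 0) (nat_lit 8320816525) (nat_lit 76) (nat_lit 28218766646) (nat_lit 76) (nat_lit 982620265) (nat_lit 187) (nat_lit 4) (nat_lit 188) (nat_lit 5) (nat_lit 188) (nat_lit 4) (nat_lit 386) (nat_lit 343) (nat_lit 291)) (XT.lf (nat_lit 0) (nat_lit 10722324024) (nat_lit 76) (nat_lit 7812327619) (nat_lit 152) (nat_lit 20906372043) (nat_lit 185) (nat_lit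 5) (nat_lit 186) (nat_lit 5) (nat_lit 187) (nat_lit 4) (nat_lit 387) (nat_lit 343) (nat_lit 290)))))) (XT.nd (nat_lit 624) (nat_lit 1140) (nat_lit 0) (XT.nd (nat_lit 312) (nat_lit 456) (nat_lit 0) (XT.nd (nat_lit 156) (nat_lit 228) (nat_lit 0) (XT.nd (nat_lit 78) (nat_lit 152) (nat_lit 0) (XT.lf (nat_lit 0) (nat_lit 13467898312) (nat_lit 76) (nat_lit 27004041477) (nat_lit 76) (nat_lit 995951305) (nat_lit 184) (nat_lit 4) (nat_lit 185) (nat_lit 5) (nat_lit 185) (nat_lit 4) (nat_lit 388) (nat_lit 343) (nat_lit 289)) (XT.lf (nat_lit 0) (nat_lit 16379272414) (nat_lit 76) (nat_lit 4312452113) (nat_lit 152) (nat_lit 22907135383) (nat_lit 182) (nat_lit 5) (nat_lit 183) (nat_lit 5) (nat_lit 184) (nat_lit 4) (nat_lit 389) (nat_lit 343) (nat_lit 288))) (XT.nd (nat_lit 78) (nat_lit 152) (nat_lit 0) (XT.lf (nat_lit 0) (nat_lit 19615489893) (nat_lit 76) (nat_lit 25528327590) (nat_lit 76) (nat_lit 702457578)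 (nat_lit 181) (nat_lit 4) (nat_lit 182) (nat_lit 5) (nat_lit 182) (nat_lit 4) (nat_lit 390) (nat_lit 343) (nat_lit 287)) (XT.lf (nat_lit 0) (nat_lit 23113207602) (nat_lit 76) (nat_lit 283925213) (nat_lit 152) (nat_lit 24814998466) (nat_lit 179) (nat_lit 5) (nat_lit 180) (nat_lit 5) (nat_lit 181) (nat_lit 4) (nat_lit 391) (nat_lit 343) (nat_lit 286)))) (XT.nd (nat_lit 156) (nat_lit 228) (nat_lit 0) (XT.nd (nat_lit 78) (nat_lit 152) (nat_lit 0) (XT.lf (nat_lit 0) (nat_lit 26918482711) (nat_lit 76) (nat_lit 23737512378) (nat_lit 76) (nat_lit 47889359) (nat_lit 178) (nat_lit 4) (nat_lit 179) (nat_lit 5) (nat_lit 179) (nat_lit 4) (nat_lit 392) (nat_lit 343) (nat_lit 285)) (XT.lf (nat_lit 0) (nat_lit 26799728165) (nat_lit 152) (nat_lit 22308012974) (nat_lit 0) (nat_lit 4218706914) (nat_lit 176) (nat_lit 5) (nat_lit 178) (nat_lit 4) (nat_lit 176) (nat_lit 4) (nat_lit 393) (nat_lit 343) (nat_lit 284)))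 (XT.nd (nat_lit 78) (nat_lit 76) (nat_lit 0) (XT.lf (nat_lit 0) (nat_lit 997249896) (nat_lit 152) (nat_lit 20554691850) (nat_lit 76) (nat_lit 34539578004) (nat_lit 174) (nat_lit 5) (nat_lit 176) (nat_lit 5) (nat_lit 175) (nat_lit 4) (nat_lit 394) (nat_lit 343) (nat_lit 283)) (XT.lf (nat_lit 0) (nat_lit 30939007052) (nat_lit 152) (nat_lit 18659588745) (nat_lit 0) (nat_lit 9400196332) (nat_lit 173) (nat_lit 5) (nat_lit 175) (nat_lit 4) (nat_lit 173) (nat_lit 4) (nat_lit 395) (nat_lit 343) (nat_lit 282))))) (XT.nd (nat_lit 312) (nat_lit 684) (nat_lit 0) (XT.nd (nat_lit 156) (nat_lit 228) (nat_lit 0) (XT.nd (nat_lit 78) (nat_lit 76) (nat_lit 0) (XT.lf (nat_lit 0) (nat_lit 2520434477) (nat_lit 152) (nat_lit 16386644130) (nat_lit 76) (nat_lit 43159710656) (nat_lit 171) (nat_lit 5) (nat_lit 173) (nat_lit 5) (nat_lit 172) (nat_lit 4) (nat_lit 396) (nat_lit 343) (nat_lit 281)) (XT.lf (nat_lit 0) (nat_lit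 35917004339) (nat_lit 152) (nat_lit 13995727336) (nat_lit 0) (nat_lit 15376844123) (nat_lit 170) (nat_lit 5) (nat_lit 172) (nat_lit 4) (nat_lit 170) (nat_lit 4) (nat_lit 397) (nat_lit 343) (nat_lit 280))) (XT.nd (nat_lit 78) (nat_lit 76) (nat_lit 0) (XT.lf (nat_lit 0) (nat_lit 4603209701) (nat_lit 152) (nat_lit 11115602741) (nat_lit 76) (nat_lit 52974313021) (nat_lit 168) (nat_lit 5) (nat_lit 170) (nat_lit 5) (nat_lit 169) (nat_lit 4) (nat_lit 398) (nat_lit 343) (nat_lit 279)) (XT.lf (nat_lit 0) (nat_lit 41854863218) (nat_lit 152) (nat_lit 8139921743) (nat_lit 0) (nat_lit 22270754177) (nat_lit 167) (nat_lit 5) (nat_lit 169) (nat_lit 4) (nat_lit 167) (nat_lit 4) (nat_lit 399) (nat_lit 343) (nat_lit 278)))) (XT.nd (nat_lit 156) (nat_lit 456) (nat_lit 0) (XT.nd (nat_lit 78) (nat_lit 76) (nat_lit 0) (XT.lf (nat_lit 0) (nat_lit 7337478064) (nat_lit 152) (nat_lit 4552095467) (nat_lit 76) (nat_lit 64151246240)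 (nat_lit 165) (nat_lit 5) (nat_lit 167) (nat_lit 5) (nat_lit 166) (nat_lit 4) (nat_lit 400) (nat_lit 343) (nat_lit 277)) (XT.lf (nat_lit 0) (nat_lit 48890350202) (nat_lit 152) (nat_lit 889518195) (nat_lit 0) (nat_lit 30220812285) (nat_lit 164) (nat_lit 5) (nat_lit 166) (nat_lit 4) (nat_lit 164) (nat_lit 4) (nat_lit 401) (nat_lit 343) (nat_lit 276))) (XT.nd (nat_lit 78) (nat_lit 228) (nat_lit 0) (XT.lf (nat_lit 0) (nat_lit 3637677190) (nat_lit 76) (nat_lit 7247801041) (nat_lit 152) (nat_lit 73299488878) (nat_lit 161) (nat_lit 5) (nat_lit 162) (nat_lit 5) (nat_lit 163) (nat_lit 4) (nat_lit 402) (nat_lit 343) (nat_lit 275)) (XT.nd (nat_lit 78) (nat_lit 152) (nat_lit 0) (XT.lf (nat_lit 0) (nat_lit 8251942889) (nat_lit 76) (nat_lit 49056936601) (nat_lit 76) (nat_lit 31261722574) (nat_lit 160) (nat_lit 4) (nat_lit 161) (nat_lit 5) (nat_lit 161) (nat_lit 4) (nat_lit 403) (nat_lit 343) (nat_lit 274))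 (XT.lf (nat_lit 0) (nat_lit 13795001172) (nat_lit 76) (nat_lit 1618052374) (nat_lit 152) (nat_lit 77796670404) (nat_lit 158) (nat_lit 5) (nat_lit 159) (nat_lit 5) (nat_lit 160) (nat_lit 4) (nat_lit 404) (nat_lit 343) (nat_lit 273))))))))
noncomputable def xc100 : XT := (XT.nd (nat_lit 1248) (nat_lit 1900) (nat_lit 0) (XT.nd (nat_lit 624) (nat_lit 912) (nat_lit 0) (XT.nd (nat_lit 312) (nat_lit 456) (nat_lit 0) (XT.nd (nat_lit 156) (nat_lit 228) (nat_lit 0) (XT.nd (nat_lit 78) (nat_lit 152) (nat_lit 0) (XT.lf (nat_lit 0) (nat_lit 19378399542) (nat_lit 76) (nat_lit 47825944588) (nat_lit 76) (nat_lit 30866117552) (nat_lit 157) (nat_lit 4) (nat_lit 158) (nat_lit 5) (nat_lit 158) (nat_lit 4) (nat_lit 405) (nat_lit 343) (nat_lit 272)) (XT.lf (nat_lit 0) (nat_lit 21068949620) (nat_lit 152) (nat_lit 77229773370) (nat_lit 0) (nat_lit 4911644129) (nat_lit 155) (nat_lit 5) (nat_lit 157) (nat_lit 4) (nat_lit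 155) (nat_lit 4) (nat_lit 406) (nat_lit 343) (nat_lit 271))) (XT.nd (nat_lit 78) (nat_lit 152) (nat_lit 0) (XT.lf (nat_lit 0) (nat_lit 32774789440) (nat_lit 76) (nat_lit 45994402412) (nat_lit 76) (nat_lit 29832384639) (nat_lit 154) (nat_lit 4) (nat_lit 155) (nat_lit 5) (nat_lit 155) (nat_lit 4) (nat_lit 407) (nat_lit 343) (nat_lit 270)) (XT.lf (nat_lit 0) (nat_lit 27981969593) (nat_lit 152) (nat_lit 73727187365) (nat_lit 0) (nat_lit 12585416262) (nat_lit 152) (nat_lit 5) (nat_lit 154) (nat_lit 4) (nat_lit 152) (nat_lit 4) (nat_lit 408) (nat_lit 343) (nat_lit 269)))) (XT.nd (nat_lit 156) (nat_lit 228) (nat_lit 0) (XT.nd (nat_lit 78) (nat_lit 152) (nat_lit 0) (XT.lf (nat_lit 0) (nat_lit 48800258356) (nat_lit 76) (nat_lit 43437805438) (nat_lit 76) (nat_lit 28037404466) (nat_lit 151) (nat_lit 4) (nat_lit 152) (nat_lit 5) (nat_lit 152) (nat_lit 4) (nat_lit 409) (nat_lit 343) (nat_lit 268)) (XT.lf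 (nat_lit 0) (nat_lit 36316690794) (nat_lit 152) (nat_lit 68617956047) (nat_lit 0) (nat_lit 21646249267) (nat_lit 149) (nat_lit 5) (nat_lit 151) (nat_lit 4) (nat_lit 149) (nat_lit 4) (nat_lit 410) (nat_lit 343) (nat_lit 267))) (XT.nd (nat_lit 78) (nat_lit 152) (nat_lit 0) (XT.lf (nat_lit 0) (nat_lit 67864726330) (nat_lit 76) (nat_lit 40012311324) (nat_lit 76) (nat_lit 25338728148) (nat_lit 148) (nat_lit 4) (nat_lit 149) (nat_lit 5) (nat_lit 149) (nat_lit 4) (nat_lit 411) (nat_lit 343) (nat_lit 266)) (XT.lf (nat_lit 0) (nat_lit 46289777331) (nat_lit 152) (nat_lit 61597411513) (nat_lit 0) (nat_lit 32312165797) (nat_lit 146) (nat_lit 5) (nat_lit 148) (nat_lit 4) (nat_lit 146) (nat_lit 4) (nat_lit 412) (nat_lit 343) (nat_lit 265))))) (XT.nd (nat_lit 312) (nat_lit 456) (nat_lit 0) (XT.nd (nat_lit 156) (nat_lit 228) (nat_lit 0) (XT.nd (nat_lit 78) (nat_lit 152) (nat_lit 0) (XT.lf (nat_lit 0) (nat_lit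 90435634461) (nat_lit 76) (nat_lit 35552030522) (nat_lit 76) (nat_lit 21571853790) (nat_lit 145) (nat_lit 4) (nat_lit 146) (nat_lit 5) (nat_lit 146) (nat_lit 4) (nat_lit 413) (nat_lit 343) (nat_lit 264)) (XT.lf (nat_lit 0) (nat_lit 58148280142) (nat_lit 152) (nat_lit 52314232502) (nat_lit 0) (nat_lit 44831564032) (nat_lit 143) (nat_lit 5) (nat_lit 145) (nat_lit 4) (nat_lit 143) (nat_lit 4) (nat_lit 414) (nat_lit 343) (nat_lit 263))) (XT.nd (nat_lit 78) (nat_lit 152) (nat_lit 0) (XT.lf (nat_lit 0) (nat_lit 117045556421) (nat_lit 76) (nat_lit 29865954320) (nat_lit 76) (nat_lit 16547143691) (nat_lit 142) (nat_lit 4) (nat_lit 143) (nat_lit 5) (nat_lit 143) (nat_lit 4) (nat_lit 415) (nat_lit 343) (nat_lit 262)) (XT.lf (nat_lit 0) (nat_lit 72173652896) (nat_lit 152) (nat_lit 40363952891) (nat_lit 0) (nat_lit 59487224328) (nat_lit 140) (nat_lit 5) (nat_lit 142) (nat_lit 4) (nat_lit 140) (nat_lit 4)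 (nat_lit 416) (nat_lit 343) (nat_lit 261)))) (XT.nd (nat_lit 156) (nat_lit 228) (nat_lit 0) (XT.nd (nat_lit 78) (nat_lit 152) (nat_lit 0) (XT.lf (nat_lit 0) (nat_lit 148300782043) (nat_lit 76) (nat_lit 22734474800) (nat_lit 76) (nat_lit 10046336030) (nat_lit 139) (nat_lit 4) (nat_lit 140) (nat_lit 5) (nat_lit 140) (nat_lit 4) (nat_lit 417) (nat_lit 343) (nat_lit 260)) (XT.lf (nat_lit 0) (nat_lit 88686278156) (nat_lit 152) (nat_lit 25281613970) (nat_lit 0) (nat_lit 76600828356) (nat_lit 137) (nat_lit 5) (nat_lit 139) (nat_lit 4) (nat_lit 137) (nat_lit 4) (nat_lit 418) (nat_lit 343) (nat_lit 259))) (XT.nd (nat_lit 78) (nat_lit 152) (nat_lit 0) (XT.lf (nat_lit 0) (nat_lit 184890993491) (nat_lit 76) (nat_lit 13905445352) (nat_lit 76) (nat_lit 1818599150) (nat_lit 136) (nat_lit 4) (nat_lit 137) (nat_lit 5) (nat_lit 137) (nat_lit 4) (nat_lit 419) (nat_lit 343) (nat_lit 258)) (XT.lf (nat_lit 0) (nat_lit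 108050567333) (nat_lit 152) (nat_lit 6533451912) (nat_lit 0) (nat_lit 96538053841) (nat_lit 134) (nat_lit 5) (nat_lit 136) (nat_lit 4) (nat_lit 134) (nat_lit 4) (nat_lit 420) (nat_lit 343) (nat_lit 257)))))) (XT.nd (nat_lit 624) (nat_lit 912) (nat_lit 0) (XT.nd (nat_lit 312) (nat_lit 456) (nat_lit 0) (XT.nd (nat_lit 156) (nat_lit 228) (nat_lit 0) (XT.nd (nat_lit 78) (nat_lit 76) (nat_lit 0) (XT.lf (nat_lit 0) (nat_lit 5374709105) (nat_lit 76) (nat_lit 2863516640) (nat_lit 152) (nat_lit 214016965773) (nat_lit 131) (nat_lit 5) (nat_lit 132) (nat_lit 5) (nat_lit 133) (nat_lit 4) (nat_lit 421) (nat_lit 343) (nat_lit 256)) (XT.lf (nat_lit 0) (nat_lit 17037818247) (nat_lit 76) (nat_lit 113908895580) (nat_lit 76) (nat_lit 102942505679) (nat_lit 130) (nat_lit 4) (nat_lit 131) (nat_lit 5) (nat_lit 131) (nat_lit 4) (nat_lit 422) (nat_lit 343) (nat_lit 255))) (XT.nd (nat_lit 78) (nat_lit 76) (nat_lit 0)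 (XT.lf (nat_lit 0) (nat_lit 21004610511) (nat_lit 152) (nat_lit 214649962408) (nat_lit 0) (nat_lit 10559543013) (nat_lit 128) (nat_lit 5) (nat_lit 130) (nat_lit 4) (nat_lit 128) (nat_lit 4) (nat_lit 423) (nat_lit 343) (nat_lit 254)) (XT.lf (nat_lit 0) (nat_lit 45968316469) (nat_lit 76) (nat_lit 111796500362) (nat_lit 76) (nat_lit 101350611900) (nat_lit 127) (nat_lit 4) (nat_lit 128) (nat_lit 5) (nat_lit 128) (nat_lit 4) (nat_lit 424) (nat_lit 343) (nat_lit 253)))) (XT.nd (nat_lit 156) (nat_lit 228) (nat_lit 0) (XT.nd (nat_lit 78) (nat_lit 76) (nat_lit 0) (XT.lf (nat_lit 0) (nat_lit 36581947901) (nat_lit 152) (nat_lit 209548708851) (nat_lit 0) (nat_lit 26632758745) (nat_lit 125) (nat_lit 5) (nat_lit 127) (nat_lit 4) (nat_lit 125) (nat_lit 4) (nat_lit 425) (nat_lit 343) (nat_lit 252)) (XT.lf (nat_lit 0) (nat_lit 80870149313) (nat_lit 76) (nat_lit 108076235938) (nat_lit 76) (nat_lit 98126376455)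 (nat_lit 124) (nat_lit 4) (nat_lit 125) (nat_lit 5) (nat_lit 125) (nat_lit 4) (nat_lit 426) (nat_lit 343) (nat_lit 251))) (XT.nd (nat_lit 78) (nat_lit 76) (nat_lit 0) (XT.lf (nat_lit 0) (nat_lit 55364560726) (nat_lit 152) (nat_lit 200933445415) (nat_lit 0) (nat_lit 45887912958) (nat_lit 122) (nat_lit 5) (nat_lit 124) (nat_lit 4) (nat_lit 122) (nat_lit 4) (nat_lit 427) (nat_lit 343) (nat_lit 250)) (XT.lf (nat_lit 0) (nat_lit 122689614418) (nat_lit 76) (nat_lit 102422264742) (nat_lit 76) (nat_lit 92945069642) (nat_lit 121) (nat_lit 4) (nat_lit 122) (nat_lit 5) (nat_lit 122) (nat_lit 4) (nat_lit 428) (nat_lit 343) (nat_lit 249))))) (XT.nd (nat_lit 312) (nat_lit 456) (nat_lit 0) (XT.nd (nat_lit 156) (nat_lit 228) (nat_lit 0) (XT.nd (nat_lit 78) (nat_lit 76) (nat_lit 0) (XT.lf (nat_lit 0) (nat_lit 77853955025) (nat_lit 152) (nat_lit 188111117838) (nat_lit 0) (nat_lit 68827572275) (nat_lit 119) (nat_lit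 5) (nat_lit 121) (nat_lit 4) (nat_lit 119) (nat_lit 4) (nat_lit 429) (nat_lit 343) (nat_lit 248)) (XT.lf (nat_lit 0) (nat_lit 172506980639) (nat_lit 76) (nat_lit 94457824702) (nat_lit 76) (nat_lit 85430995049) (nat_lit 118) (nat_lit 4) (nat_lit 119) (nat_lit 5) (nat_lit 119) (nat_lit 4) (nat_lit 430) (nat_lit 343) (nat_lit 247))) (XT.nd (nat_lit 78) (nat_lit 76) (nat_lit 0) (XT.lf (nat_lit 0) (nat_lit 104622444976) (nat_lit 152) (nat_lit 170280823702) (nat_lit 0) (nat_lit 96025070260) (nat_lit 116) (nat_lit 5) (nat_lit 118) (nat_lit 4) (nat_lit 116) (nat_lit 4) (nat_lit 431) (nat_lit 343) (nat_lit 246)) (XT.lf (nat_lit 0) (nat_lit 231554323215) (nat_lit 76) (nat_lit 83748053229) (nat_lit 76) (nat_lit 75150313611) (nat_lit 115) (nat_lit 4) (nat_lit 116) (nat_lit 5) (nat_lit 116) (nat_lit 4) (nat_lit 432) (nat_lit 343) (nat_lit 245)))) (XT.nd (nat_lit 156) (nat_lit 228) (nat_lit 0) (XT.nd (nat_lit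 78) (nat_lit 76) (nat_lit 0) (XT.lf (nat_lit 0) (nat_lit 136322553264) (nat_lit 152) (nat_lit 146518672357) (nat_lit 0) (nat_lit 128133908034) (nat_lit 113) (nat_lit 5) (nat_lit 115) (nat_lit 4) (nat_lit 113) (nat_lit 4) (nat_lit 433) (nat_lit 343) (nat_lit 244)) (XT.lf (nat_lit 0) (nat_lit 301235641878) (nat_lit 76) (nat_lit 69791858907) (nat_lit 76) (nat_lit 61602915730) (nat_lit 112) (nat_lit 4) (nat_lit 113) (nat_lit 5) (nat_lit 113) (nat_lit 4) (nat_lit 434) (nat_lit 343) (nat_lit 243))) (XT.nd (nat_lit 78) (nat_lit 76) (nat_lit 0) (XT.lf (nat_lit 0) (nat_lit 173697612581) (nat_lit 152) (nat_lit 115760640173) (nat_lit 0) (nat_lit 165898356339) (nat_lit 110) (nat_lit 5) (nat_lit 112) (nat_lit 4) (nat_lit 110) (nat_lit 4) (nat_lit 435) (nat_lit 343) (nat_lit 242)) (XT.lf (nat_lit 0) (nat_lit 383149546303) (nat_lit 76) (nat_lit 52012719337) (nat_lit 76) (nat_lit 44213219816) (nat_lit 109) (nat_lit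 4) (nat_lit 110) (nat_lit 5) (nat_lit 110) (nat_lit 4) (nat_lit 436) (nat_lit 343) (nat_lit 241)))))))
noncomputable def xc101 : XT := (XT.nd (nat_lit 46254) (nat_lit 0) (nat_lit 11020) (XT.nd (nat_lit 624) (nat_lit 304) (nat_lit 0) (XT.nd (nat_lit 312) (nat_lit 456) (nat_lit 0) (XT.nd (nat_lit 156) (nat_lit 380) (nat_lit 0) (XT.nd (nat_lit 78) (nat_lit 76) (nat_lit 0) (XT.lf (nat_lit 0) (nat_lit 217593717784) (nat_lit 152) (nat_lit 76783165449) (nat_lit 0) (nat_lit 210165408472) (nat_lit 107) (nat_lit 5) (nat_lit 109) (nat_lit 4) (nat_lit 107) (nat_lit 4) (nat_lit 437) (nat_lit 343) (nat_lit 240)) (XT.lf (nat_lit 0) (nat_lit 479114828012) (nat_lit 76) (nat_lit 29748268478) (nat_lit 76) (nat_lit 22319760525) (nat_lit 106) (nat_lit 4) (nat_lit 107) (nat_lit 5) (nat_lit 107) (nat_lit 4) (nat_lit 438) (nat_lit 343) (nat_lit 239))) (XT.nd (nat_lit 78) (nat_lit 228) (nat_lit 0) (XT.lf (nat_lit 0)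 (nat_lit 268973196437) (nat_lit 152) (nat_lit 28181195589) (nat_lit 0) (nat_lit 261898251792) (nat_lit 104) (nat_lit 5) (nat_lit 106) (nat_lit 4) (nat_lit 104) (nat_lit 4) (nat_lit 439) (nat_lit 343) (nat_lit 238)) (XT.lf (nat_lit 0) (nat_lit 2605961583) (nat_lit 76) (nat_lit 2116510817) (nat_lit 152) (nat_lit 583872927214) (nat_lit 101) (nat_lit 5) (nat_lit 102) (nat_lit 5) (nat_lit 103) (nat_lit 4) (nat_lit 440) (nat_lit 343) (nat_lit 237)))) (XT.nd (nat_lit 156) (nat_lit 228) (nat_lit 0) (XT.nd (nat_lit 78) (nat_lit 152) (nat_lit 0) (XT.lf (nat_lit 0) (nat_lit 32703347917) (nat_lit 76) (nat_lit 296737028918) (nat_lit 76) (nat_lit 289998688904) (nat_lit 100) (nat_lit 4) (nat_lit 101) (nat_lit 5) (nat_lit 101) (nat_lit 4) (nat_lit 441) (nat_lit 343) (nat_lit 236)) (XT.lf (nat_lit 0) (nat_lit 38535261684) (nat_lit 152) (nat_lit 581474602389) (nat_lit 0) (nat_lit 32117668878) (nat_lit 98) (nat_lit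 5) (nat_lit 100) (nat_lit 4) (nat_lit 98) (nat_lit 4) (nat_lit 442) (nat_lit 343) (nat_lit 235))) (XT.nd (nat_lit 78) (nat_lit 152) (nat_lit 0) (XT.lf (nat_lit 0) (nat_lit 108033827306) (nat_lit 76) (nat_lit 292358611687) (nat_lit 76) (nat_lit 285940902097) (nat_lit 97) (nat_lit 4) (nat_lit 98) (nat_lit 5) (nat_lit 98) (nat_lit 4) (nat_lit 443) (nat_lit 343) (nat_lit 234)) (XT.lf (nat_lit 0) (nat_lit 79626552296) (nat_lit 152) (nat_lit 569387797437) (nat_lit 0) (nat_lit 73514344943) (nat_lit 95) (nat_lit 5) (nat_lit 97) (nat_lit 4) (nat_lit 95) (nat_lit 4) (nat_lit 444) (nat_lit 343) (nat_lit 233))))) (XT.nd (nat_lit 45318) (nat_lit 0) (nat_lit 17556) (XT.nd (nat_lit 156) (nat_lit 76) (nat_lit 0) (XT.nd (nat_lit 78) (nat_lit 152) (nat_lit 0) (XT.lf (nat_lit 0) (nat_lit 199060081459) (nat_lit 76) (nat_lit 283758823059) (nat_lit 76) (nat_lit 277646520351) (nat_lit 94) (nat_lit 4) (nat_lit 95) (nat_lit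 5) (nat_lit 95) (nat_lit 4) (nat_lit 445) (nat_lit 343) (nat_lit 232)) (XT.lf (nat_lit 0) (nat_lit 129121117900) (nat_lit 152) (nat_lit 548123438519) (nat_lit 0) (nat_lit 123299793138) (nat_lit 92) (nat_lit 5) (nat_lit 94) (nat_lit 4) (nat_lit 92) (nat_lit 4) (nat_lit 446) (nat_lit 343) (nat_lit 231))) (XT.nd (nat_lit 45084) (nat_lit 0) (nat_lit 18544) (XT.lf (nat_lit 0) (nat_lit 308275598547) (nat_lit 76) (nat_lit 270082523186) (nat_lit 76) (nat_lit 264261120565) (nat_lit 91) (nat_lit 4) (nat_lit 92) (nat_lit 5) (nat_lit 92) (nat_lit 4) (nat_lit 447) (nat_lit 343) (nat_lit 230)) (XT.lf (nat_lit 0) (nat_lit 1559886044) (nat_lit 0) (nat_lit 1559886044) (nat_lit 380) (nat_lit 329684932) (nat_lit 335) (nat_lit 5) (nat_lit 335) (nat_lit 3) (nat_lit 340) (nat_lit 3) (nat_lit 344) (nat_lit 344) (nat_lit 332)))) (XT.nd (nat_lit 156) (nat_lit 456) (nat_lit 0) (XT.nd (nat_lit 78) (nat_lit 0) (nat_lit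 76) (XT.lf (nat_lit 76) (nat_lit 1778253561) (nat_lit 0) (nat_lit 599733082) (nat_lit 532) (nat_lit 4645330121) (nat_lit 329) (nat_lit 5) (nat_lit 328) (nat_lit 3) (nat_lit 335) (nat_lit 5) (nat_lit 345) (nat_lit 344) (nat_lit 331)) (XT.lf (nat_lit 76) (nat_lit 552214346) (nat_lit 0) (nat_lit 4890079089) (nat_lit 532) (nat_lit 1724484657) (nat_lit 330) (nat_lit 5) (nat_lit 329) (nat_lit 5) (nat_lit 336) (nat_lit 5) (nat_lit 346) (nat_lit 344) (nat_lit 330))) (XT.nd (nat_lit 78) (nat_lit 0) (nat_lit 76) (XT.lf (nat_lit 0) (nat_lit 1200362821) (nat_lit 532) (nat_lit 533079270) (nat_lit 608) (nat_lit 5596352688) (nat_lit 322) (nat_lit 5) (nat_lit 329) (nat_lit 5) (nat_lit 330) (nat_lit 5) (nat_lit 347) (nat_lit 344) (nat_lit 329)) (XT.lf (nat_lit 0) (nat_lit 4157798842) (nat_lit 532) (nat_lit 1512870662) (nat_lit 608) (nat_lit 1840818870) (nat_lit 323) (nat_lit 5) (nat_lit 330) (nat_lit 5) (nat_lit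 331) (nat_lit 5) (nat_lit 348) (nat_lit 344) (nat_lit 328)))))) (XT.nd (nat_lit 624) (nat_lit 2660) (nat_lit 0) (XT.nd (nat_lit 312) (nat_lit 2052) (nat_lit 0) (XT.nd (nat_lit 156) (nat_lit 1368) (nat_lit 0) (XT.nd (nat_lit 78) (nat_lit 532) (nat_lit 0) (XT.lf (nat_lit 76) (nat_lit 5330381630) (nat_lit 0) (nat_lit 1896221331) (nat_lit 608) (nat_lit 487375836) (nat_lit 324) (nat_lit 5) (nat_lit 323) (nat_lit 5) (nat_lit 331) (nat_lit 5) (nat_lit 349) (nat_lit 344) (nat_lit 327)) (XT.lf (nat_lit 0) (nat_lit 2428250519) (nat_lit 608) (nat_lit 3194647492) (nat_lit 76) (nat_lit 2312559962) (nat_lit 316) (nat_lit 5) (nat_lit 324) (nat_lit 5) (nat_lit 317) (nat_lit 5) (nat_lit 350) (nat_lit 344) (nat_lit 326))) (XT.nd (nat_lit 78) (nat_lit 760) (nat_lit 0) (XT.lf (nat_lit 0) (nat_lit 4263458709) (nat_lit 608) (nat_lit 1217955011) (nat_lit 684) (nat_lit 2696774173) (nat_lit 308) (nat_lit 5) (nat_lit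 316) (nat_lit 5) (nat_lit 317) (nat_lit 5) (nat_lit 351) (nat_lit 344) (nat_lit 325)) (XT.lf (nat_lit 0) (nat_lit 294020372) (nat_lit 760) (nat_lit 4566836538) (nat_lit 76) (nat_lit 3580897030) (nat_lit 298) (nat_lit 5) (nat_lit 308) (nat_lit 5) (nat_lit 299) (nat_lit 5) (nat_lit 352) (nat_lit 344) (nat_lit 324)))) (XT.nd (nat_lit 156) (nat_lit 836) (nat_lit 0) (XT.nd (nat_lit 78) (nat_lit 456) (nat_lit 0) (XT.lf (nat_lit 0) (nat_lit 3383248738) (nat_lit 836) (nat_lit 5159340464) (nat_lit 76) (nat_lit 183922993) (nat_lit 288) (nat_lit 5) (nat_lit 299) (nat_lit 5) (nat_lit 289) (nat_lit 5) (nat_lit 353) (nat_lit 344) (nat_lit 323)) (XT.lf (nat_lit 0) (nat_lit 3325171931) (nat_lit 456) (nat_lit 3425001561) (nat_lit 532) (nat_lit 2282349713) (nat_lit 282) (nat_lit 5) (nat_lit 288) (nat_lit 5) (nat_lit 289) (nat_lit 5) (nat_lit 354) (nat_lit 344) (nat_lit 322))) (XT.nd (nat_lit 78) (nat_lit 380)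 (nat_lit 0) (XT.lf (nat_lit 0) (nat_lit 991507353) (nat_lit 456) (nat_lit 6180301572) (nat_lit 76) (nat_lit 2190365904) (nat_lit 276) (nat_lit 5) (nat_lit 282) (nat_lit 5) (nat_lit 277) (nat_lit 5) (nat_lit 355) (nat_lit 344) (nat_lit 321)) (XT.lf (nat_lit 0) (nat_lit 3092850731) (nat_lit 380) (nat_lit 1396745644) (nat_lit 456) (nat_lit 5224617139) (nat_lit 271) (nat_lit 5) (nat_lit 276) (nat_lit 5) (nat_lit 277) (nat_lit 5) (nat_lit 356) (nat_lit 344) (nat_lit 320))))) (XT.nd (nat_lit 312) (nat_lit 1368) (nat_lit 0) (XT.nd (nat_lit 156) (nat_lit 608) (nat_lit 0) (XT.nd (nat_lit 78) (nat_lit 380) (nat_lit 0) (XT.lf (nat_lit 0) (nat_lit 3079992901) (nat_lit 304) (nat_lit 5264066412) (nat_lit 380) (nat_lit 1746529642) (nat_lit 267) (nat_lit 5) (nat_lit 271) (nat_lit 5) (nat_lit 272) (nat_lit 5) (nat_lit 357) (nat_lit 344) (nat_lit 319)) (XT.lf (nat_lit 0) (nat_lit 2004146611) (nat_lit 380) (nat_lit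 7342638575) (nat_lit 76) (nat_lit 1145786908) (nat_lit 262) (nat_lit 5) (nat_lit 267) (nat_lit 5) (nat_lit 263) (nat_lit 5) (nat_lit 358) (nat_lit 344) (nat_lit 318))) (XT.nd (nat_lit 78) (nat_lit 304) (nat_lit 0) (XT.lf (nat_lit 0) (nat_lit 3260402596) (nat_lit 304) (nat_lit 2855828313) (nat_lit 380) (nat_lit 4802924200) (nat_lit 258) (nat_lit 5) (nat_lit 262) (nat_lit 5) (nat_lit 263) (nat_lit 5) (nat_lit 359) (nat_lit 344) (nat_lit 317)) (XT.lf (nat_lit 0) (nat_lit 3469237307) (nat_lit 304) (nat_lit 7202347675) (nat_lit 380) (nat_lit 702564633) (nat_lit 254) (nat_lit 5) (nat_lit 258) (nat_lit 5) (nat_lit 259) (nat_lit 5) (nat_lit 360) (nat_lit 344) (nat_lit 316)))) (XT.nd (nat_lit 156) (nat_lit 760) (nat_lit 0) (XT.nd (nat_lit 78) (nat_lit 304) (nat_lit 0) (XT.lf (nat_lit 0) (nat_lit 3719634976) (nat_lit 304) (nat_lit 8115949366) (nat_lit 76) (nat_lit 21397767) (nat_lit 250) (nat_lit 5) (nat_lit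 254) (nat_lit 5) (nat_lit 251) (nat_lit 5) (nat_lit 361) (nat_lit 344) (nat_lit 315)) (XT.lf (nat_lit 0) (nat_lit 4053653440) (nat_lit 304) (nat_lit 4619276411) (nat_lit 380) (nat_lit 3694838791) (nat_lit 246) (nat_lit 5) (nat_lit 250) (nat_lit 5) (nat_lit 251) (nat_lit 5) (nat_lit 362) (nat_lit 344) (nat_lit 314))) (XT.nd (nat_lit 78) (nat_lit 456) (nat_lit 0) (XT.lf (nat_lit 0) (nat_lit 1216430027) (nat_lit 304) (nat_lit 8432962237) (nat_lit 76) (nat_lit 3261731487) (nat_lit 242) (nat_lit 5) (nat_lit 246) (nat_lit 5) (nat_lit 243) (nat_lit 5) (nat_lit 363) (nat_lit 344) (nat_lit 313)) (XT.nd (nat_lit 78) (nat_lit 228) (nat_lit 0) (XT.lf (nat_lit 0) (nat_lit 4951845812) (nat_lit 228) (nat_lit 1630573917) (nat_lit 304) (nat_lit 6902935556) (nat_lit 239) (nat_lit 5) (nat_lit 242) (nat_lit 5) (nat_lit 243) (nat_lit 5) (nat_lit 364) (nat_lit 344) (nat_lit 312)) (XT.lf (nat_lit 0) (nat_lit 5513166256)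 (nat_lit 228) (nat_lit 7101922028) (nat_lit 304) (nat_lit 1478567075) (nat_lit 236) (nat_lit 5) (nat_lit 239) (nat_lit 5) (nat_lit 240) (nat_lit 5) (nat_lit 365) (nat_lit 344) (nat_lit 311))))))))
noncomputable def xc102 : XT := (XT.nd (nat_lit 1248) (nat_lit 2128) (nat_lit 0) (XT.nd (nat_lit 624) (nat_lit 1216) (nat_lit 0) (XT.nd (nat_lit 312) (nat_lit 760) (nat_lit 0) (XT.nd (nat_lit 156) (nat_lit 456) (nat_lit 0) (XT.nd (nat_lit 78) (nat_lit 152) (nat_lit 0) (XT.lf (nat_lit 0) (nat_lit 4438631774) (nat_lit 304) (nat_lit 8579473950) (nat_lit 76) (nat_lit 1719141690) (nat_lit 232) (nat_lit 5) (nat_lit 236) (nat_lit 5) (nat_lit 233) (nat_lit 5) (nat_lit 366) (nat_lit 344) (nat_lit 310)) (XT.lf (nat_lit 0) (nat_lit 6874361062) (nat_lit 152) (nat_lit 4183403103) (nat_lit 228) (nat_lit 4359332757) (nat_lit 230) (nat_lit 5) (nat_lit 232) (nat_lit 5) (nat_lit 233) (nat_lit 5) (nat_lit 367) (nat_lit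 344) (nat_lit 309))) (XT.nd (nat_lit 78) (nat_lit 152) (nat_lit 0) (XT.lf (nat_lit 0) (nat_lit 2254801845) (nat_lit 304) (nat_lit 8438432063) (nat_lit 76) (nat_lit 5443221951) (nat_lit 226) (nat_lit 5) (nat_lit 230) (nat_lit 5) (nat_lit 227) (nat_lit 5) (nat_lit 368) (nat_lit 344) (nat_lit 308)) (XT.lf (nat_lit 0) (nat_lit 8617795648) (nat_lit 152) (nat_lit 894076431) (nat_lit 228) (nat_lit 7384591477) (nat_lit 224) (nat_lit 5) (nat_lit 226) (nat_lit 5) (nat_lit 227) (nat_lit 5) (nat_lit 369) (nat_lit 344) (nat_lit 307)))) (XT.nd (nat_lit 156) (nat_lit 380) (nat_lit 0) (XT.nd (nat_lit 78) (nat_lit 152) (nat_lit 0) (XT.lf (nat_lit 0) (nat_lit 13004642) (nat_lit 228) (nat_lit 8060333264) (nat_lit 76) (nat_lit 9625771161) (nat_lit 221) (nat_lit 5) (nat_lit 224) (nat_lit 5) (nat_lit 222) (nat_lit 5) (nat_lit 370) (nat_lit 344) (nat_lit 306)) (XT.lf (nat_lit 0) (nat_lit 8035722688) (nat_lit 228) (nat_lit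 7803582845) (nat_lit 76) (nat_lit 2706006025) (nat_lit 219) (nat_lit 5) (nat_lit 222) (nat_lit 5) (nat_lit 220) (nat_lit 5) (nat_lit 371) (nat_lit 344) (nat_lit 305))) (XT.nd (nat_lit 78) (nat_lit 228) (nat_lit 0) (XT.lf (nat_lit 0) (nat_lit 11989659418) (nat_lit 152) (nat_lit 5094809362) (nat_lit 228) (nat_lit 2355530938) (nat_lit 217) (nat_lit 5) (nat_lit 219) (nat_lit 5) (nat_lit 220) (nat_lit 5) (nat_lit 372) (nat_lit 344) (nat_lit 304)) (XT.lf (nat_lit 0) (nat_lit 6621315290) (nat_lit 228) (nat_lit 7059018974) (nat_lit 76) (nat_lit 6702046313) (nat_lit 214) (nat_lit 5) (nat_lit 217) (nat_lit 5) (nat_lit 215) (nat_lit 5) (nat_lit 373) (nat_lit 344) (nat_lit 303))))) (XT.nd (nat_lit 312) (nat_lit 608) (nat_lit 0) (XT.nd (nat_lit 156) (nat_lit 304) (nat_lit 0) (XT.nd (nat_lit 78) (nat_lit 152) (nat_lit 0) (XT.lf (nat_lit 0) (nat_lit 14845932197) (nat_lit 152) (nat_lit 1762420040) (nat_lit 228)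 (nat_lit 4771140438) (nat_lit 212) (nat_lit 5) (nat_lit 214) (nat_lit 5) (nat_lit 215) (nat_lit 5) (nat_lit 374) (nat_lit 344) (nat_lit 302)) (XT.lf (nat_lit 0) (nat_lit 5271003786) (nat_lit 152) (nat_lit 5988355351) (nat_lit 76) (nat_lit 11168606242) (nat_lit 210) (nat_lit 5) (nat_lit 212) (nat_lit 5) (nat_lit 211) (nat_lit 5) (nat_lit 375) (nat_lit 344) (nat_lit 301))) (XT.nd (nat_lit 78) (nat_lit 152) (nat_lit 0) (XT.lf (nat_lit 0) (nat_lit 16342010815) (nat_lit 228) (nat_lit 5293279484) (nat_lit 76) (nat_lit 1901482390) (nat_lit 208) (nat_lit 5) (nat_lit 211) (nat_lit 5) (nat_lit 209) (nat_lit 4) (nat_lit 376) (nat_lit 344) (nat_lit 300)) (XT.lf (nat_lit 0) (nat_lit 4002527626) (nat_lit 152) (nat_lit 4540633035) (nat_lit 76) (nat_lit 16160731534) (nat_lit 206) (nat_lit 5) (nat_lit 208) (nat_lit 5) (nat_lit 207) (nat_lit 5) (nat_lit 377) (nat_lit 344) (nat_lit 299)))) (XT.nd (nat_lit 156)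 (nat_lit 304) (nat_lit 0) (XT.nd (nat_lit 78) (nat_lit 152) (nat_lit 0) (XT.lf (nat_lit 0) (nat_lit 16319171853) (nat_lit 228) (nat_lit 3677328590) (nat_lit 76) (nat_lit 5938201423) (nat_lit 204) (nat_lit 5) (nat_lit 207) (nat_lit 5) (nat_lit 205) (nat_lit 4) (nat_lit 378) (nat_lit 344) (nat_lit 298)) (XT.lf (nat_lit 0) (nat_lit 2835604497) (nat_lit 152) (nat_lit 2655775754) (nat_lit 76) (nat_lit 21743062089) (nat_lit 202) (nat_lit 5) (nat_lit 204) (nat_lit 5) (nat_lit 203) (nat_lit 5) (nat_lit 379) (nat_lit 344) (nat_lit 297))) (XT.nd (nat_lit 78) (nat_lit 152) (nat_lit 0) (XT.lf (nat_lit 0) (nat_lit 16546679660) (nat_lit 228) (nat_lit 1593478069) (nat_lit 76) (nat_lit 10460086178) (nat_lit 200) (nat_lit 5) (nat_lit 203) (nat_lit 5) (nat_lit 201) (nat_lit 4) (nat_lit 380) (nat_lit 344) (nat_lit 296)) (XT.lf (nat_lit 0) (nat_lit 1792497199) (nat_lit 152) (nat_lit 263601543) (nat_lit 76) (nat_lit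 27990506534) (nat_lit 198) (nat_lit 5) (nat_lit 200) (nat_lit 5) (nat_lit 199) (nat_lit 5) (nat_lit 381) (nat_lit 344) (nat_lit 295)))))) (XT.nd (nat_lit 624) (nat_lit 1064) (nat_lit 0) (XT.nd (nat_lit 312) (nat_lit 380) (nat_lit 0) (XT.nd (nat_lit 156) (nat_lit 228) (nat_lit 0) (XT.nd (nat_lit 78) (nat_lit 228) (nat_lit 0) (XT.lf (nat_lit 0) (nat_lit 1067776768) (nat_lit 76) (nat_lit 16012153273) (nat_lit 152) (nat_lit 14481066309) (nat_lit 195) (nat_lit 5) (nat_lit 196) (nat_lit 5) (nat_lit 197) (nat_lit 4) (nat_lit 382) (nat_lit 344) (nat_lit 294)) (XT.lf (nat_lit 0) (nat_lit 971550963) (nat_lit 228) (nat_lit 30390092487) (nat_lit 76) (nat_lit 1805070988) (nat_lit 192) (nat_lit 5) (nat_lit 195) (nat_lit 5) (nat_lit 193) (nat_lit 4) (nat_lit 383) (nat_lit 344) (nat_lit 293))) (XT.nd (nat_lit 78) (nat_lit 152) (nat_lit 0) (XT.lf (nat_lit 0) (nat_lit 4432997445) (nat_lit 76) (nat_lit 13548991306)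 (nat_lit 152) (nat_lit 16865583638) (nat_lit 191) (nat_lit 5) (nat_lit 192) (nat_lit 5) (nat_lit 193) (nat_lit 4) (nat_lit 384) (nat_lit 344) (nat_lit 292)) (XT.lf (nat_lit 0) (nat_lit 384496280) (nat_lit 152) (nat_lit 30140171855) (nat_lit 76) (nat_lit 6104261388) (nat_lit 189) (nat_lit 5) (nat_lit 191) (nat_lit 5) (nat_lit 190) (nat_lit 4) (nat_lit 385) (nat_lit 344) (nat_lit 291)))) (XT.nd (nat_lit 156) (nat_lit 152) (nat_lit 0) (XT.nd (nat_lit 78) (nat_lit 152) (nat_lit 0) (XT.lf (nat_lit 0) (nat_lit 8553359214) (nat_lit 76) (nat_lit 10725271118) (nat_lit 152) (nat_lit 19217593866) (nat_lit 188) (nat_lit 5) (nat_lit 189) (nat_lit 5) (nat_lit 190) (nat_lit 4) (nat_lit 386) (nat_lit 344) (nat_lit 290)) (XT.lf (nat_lit 0) (nat_lit 31496671) (nat_lit 152) (nat_lit 29463388915) (nat_lit 76) (nat_lit 10976984534) (nat_lit 186) (nat_lit 5) (nat_lit 188) (nat_lit 5) (nat_lit 187) (nat_lit 4) (nat_lit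 387) (nat_lit 344) (nat_lit 289))) (XT.nd (nat_lit 78) (nat_lit 76) (nat_lit 0) (XT.lf (nat_lit 0) (nat_lit 13548231934) (nat_lit 76) (nat_lit 7480253605) (nat_lit 152) (nat_lit 21517266953) (nat_lit 185) (nat_lit 5) (nat_lit 186) (nat_lit 5) (nat_lit 187) (nat_lit 4) (nat_lit 388) (nat_lit 344) (nat_lit 288)) (XT.lf (nat_lit 0) (nat_lit 16461983080) (nat_lit 76) (nat_lit 28227640064) (nat_lit 76) (nat_lit 46702828) (nat_lit 184) (nat_lit 4) (nat_lit 185) (nat_lit 5) (nat_lit 185) (nat_lit 4) (nat_lit 389) (nat_lit 344) (nat_lit 287))))) (XT.nd (nat_lit 312) (nat_lit 532) (nat_lit 0) (XT.nd (nat_lit 156) (nat_lit 228) (nat_lit 0) (XT.nd (nat_lit 78) (nat_lit 152) (nat_lit 0) (XT.lf (nat_lit 0) (nat_lit 19554472538) (nat_lit 76) (nat_lit 3743920958) (nat_lit 152) (nat_lit 23740808657) (nat_lit 182) (nat_lit 5) (nat_lit 183) (nat_lit 5) (nat_lit 184) (nat_lit 4) (nat_lit 390) (nat_lit 344) (nat_lit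 286)) (XT.lf (nat_lit 0) (nat_lit 203165029) (nat_lit 152) (nat_lit 26470733693) (nat_lit 76) (nat_lit 22793793703) (nat_lit 180) (nat_lit 5) (nat_lit 182) (nat_lit 5) (nat_lit 181) (nat_lit 4) (nat_lit 391) (nat_lit 344) (nat_lit 285))) (XT.nd (nat_lit 78) (nat_lit 152) (nat_lit 0) (XT.lf (nat_lit 0) (nat_lit 26173379752) (nat_lit 152) (nat_lit 25304445858) (nat_lit 0) (nat_lit 546052359) (nat_lit 179) (nat_lit 5) (nat_lit 181) (nat_lit 4) (nat_lit 179) (nat_lit 4) (nat_lit 392) (nat_lit 344) (nat_lit 284)) (XT.lf (nat_lit 0) (nat_lit 832933661) (nat_lit 152) (nat_lit 23938747917) (nat_lit 76) (nat_lit 29944404061) (nat_lit 177) (nat_lit 5) (nat_lit 179) (nat_lit 5) (nat_lit 178) (nat_lit 4) (nat_lit 393) (nat_lit 344) (nat_lit 283)))) (XT.nd (nat_lit 156) (nat_lit 304) (nat_lit 0) (XT.nd (nat_lit 78) (nat_lit 152) (nat_lit 0) (XT.lf (nat_lit 0) (nat_lit 29800355804) (nat_lit 152) (nat_lit 22390728295)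 (nat_lit 0) (nat_lit 5358647330) (nat_lit 176) (nat_lit 5) (nat_lit 178) (nat_lit 4) (nat_lit 176) (nat_lit 4) (nat_lit 394) (nat_lit 344) (nat_lit 282)) (XT.lf (nat_lit 0) (nat_lit 1909060665) (nat_lit 152) (nat_lit 20543594404) (nat_lit 76) (nat_lit 38084584723) (nat_lit 174) (nat_lit 5) (nat_lit 176) (nat_lit 5) (nat_lit 175) (nat_lit 4) (nat_lit 395) (nat_lit 344) (nat_lit 281))) (XT.nd (nat_lit 78) (nat_lit 228) (nat_lit 0) (XT.lf (nat_lit 0) (nat_lit 34221559017) (nat_lit 152) (nat_lit 18541380996) (nat_lit 0) (nat_lit 10915383916) (nat_lit 173) (nat_lit 5) (nat_lit 175) (nat_lit 4) (nat_lit 173) (nat_lit 4) (nat_lit 396) (nat_lit 344) (nat_lit 280)) (XT.nd (nat_lit 78) (nat_lit 76) (nat_lit 0) (XT.lf (nat_lit 0) (nat_lit 3506400167) (nat_lit 152) (nat_lit 16130678292) (nat_lit 76) (nat_lit 47355837399) (nat_lit 171) (nat_lit 5) (nat_lit 173) (nat_lit 5) (nat_lit 172) (nat_lit 4) (nat_lit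 397) (nat_lit 344) (nat_lit 279)) (XT.lf (nat_lit 0) (nat_lit 39551694157) (nat_lit 152) (nat_lit 13590798591) (nat_lit 0) (nat_lit 17332182640) (nat_lit 170) (nat_lit 5) (nat_lit 172) (nat_lit 4) (nat_lit 170) (nat_lit 4) (nat_lit 398) (nat_lit 344) (nat_lit 278))))))))
noncomputable def xc103 : XT := (XT.nd (nat_lit 1248) (nat_lit 2052) (nat_lit 0) (XT.nd (nat_lit 624) (nat_lit 912) (nat_lit 0) (XT.nd (nat_lit 312) (nat_lit 456) (nat_lit 0) (XT.nd (nat_lit 156) (nat_lit 304) (nat_lit 0) (XT.nd (nat_lit 78) (nat_lit 76) (nat_lit 0) (XT.lf (nat_lit 0) (nat_lit 5711099357) (nat_lit 152) (nat_lit 10522065116) (nat_lit 76) (nat_lit 57918429384) (nat_lit 168) (nat_lit 5) (nat_lit 170) (nat_lit 5) (nat_lit 169) (nat_lit 4) (nat_lit 399) (nat_lit 344) (nat_lit 277)) (XT.lf (nat_lit 0) (nat_lit 45921348150) (nat_lit 152) (nat_lit 7348526487) (nat_lit 0) (nat_lit 24741002838) (nat_lit 167) (nat_lit 5)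 (nat_lit 169) (nat_lit 4) (nat_lit 167) (nat_lit 4) (nat_lit 400) (nat_lit 344) (nat_lit 276))) (XT.nd (nat_lit 78) (nat_lit 152) (nat_lit 0) (XT.lf (nat_lit 0) (nat_lit 8622177178) (nat_lit 152) (nat_lit 3513298127) (nat_lit 76) (nat_lit 69953725005) (nat_lit 165) (nat_lit 5) (nat_lit 167) (nat_lit 5) (nat_lit 166) (nat_lit 4) (nat_lit 401) (nat_lit 344) (nat_lit 275)) (XT.lf (nat_lit 0) (nat_lit 417485927) (nat_lit 76) (nat_lit 53068121013) (nat_lit 76) (nat_lit 32880926761) (nat_lit 163) (nat_lit 4) (nat_lit 164) (nat_lit 5) (nat_lit 164) (nat_lit 4) (nat_lit 402) (nat_lit 344) (nat_lit 274)))) (XT.nd (nat_lit 156) (nat_lit 228) (nat_lit 0) (XT.nd (nat_lit 78) (nat_lit 76) (nat_lit 0) (XT.lf (nat_lit 0) (nat_lit 5299834436) (nat_lit 76) (nat_lit 7136214581) (nat_lit 152) (nat_lit 78449728833) (nat_lit 161) (nat_lit 5) (nat_lit 162) (nat_lit 5) (nat_lit 163) (nat_lit 4) (nat_lit 403) (nat_lit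 344) (nat_lit 273)) (XT.lf (nat_lit 0) (nat_lit 10245837069) (nat_lit 76) (nat_lit 52307953389) (nat_lit 76) (nat_lit 33069449742) (nat_lit 160) (nat_lit 4) (nat_lit 161) (nat_lit 5) (nat_lit 161) (nat_lit 4) (nat_lit 404) (nat_lit 344) (nat_lit 272))) (XT.nd (nat_lit 78) (nat_lit 76) (nat_lit 0) (XT.lf (nat_lit 0) (nat_lit 16195600200) (nat_lit 76) (nat_lit 1092065537) (nat_lit 152) (nat_lit 83346757734) (nat_lit 158) (nat_lit 5) (nat_lit 159) (nat_lit 5) (nat_lit 160) (nat_lit 4) (nat_lit 405) (nat_lit 344) (nat_lit 271)) (XT.lf (nat_lit 0) (nat_lit 22190200358) (nat_lit 76) (nat_lit 51013706769) (nat_lit 76) (nat_lit 32681030717) (nat_lit 157) (nat_lit 4) (nat_lit 158) (nat_lit 5) (nat_lit 158) (nat_lit 4) (nat_lit 406) (nat_lit 344) (nat_lit 270))))) (XT.nd (nat_lit 312) (nat_lit 456) (nat_lit 0) (XT.nd (nat_lit 156) (nat_lit 228) (nat_lit 0) (XT.nd (nat_lit 78) (nat_lit 76) (nat_lit 0) (XT.lf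 (nat_lit 0) (nat_lit 23369826336) (nat_lit 152) (nat_lit 82160830482) (nat_lit 0) (nat_lit 5905771634) (nat_lit 155) (nat_lit 5) (nat_lit 157) (nat_lit 4) (nat_lit 155) (nat_lit 4) (nat_lit 407) (nat_lit 344) (nat_lit 269)) (XT.lf (nat_lit 0) (nat_lit 36589890139) (nat_lit 76) (nat_lit 49069243439) (nat_lit 76) (nat_lit 31601148713) (nat_lit 154) (nat_lit 4) (nat_lit 155) (nat_lit 5) (nat_lit 155) (nat_lit 4) (nat_lit 408) (nat_lit 344) (nat_lit 268))) (XT.nd (nat_lit 78) (nat_lit 76) (nat_lit 0) (XT.lf (nat_lit 0) (nat_lit 30801578294) (nat_lit 152) (nat_lit 78445773253) (nat_lit 0) (nat_lit 14161734973) (nat_lit 152) (nat_lit 5) (nat_lit 154) (nat_lit 4) (nat_lit 152) (nat_lit 4) (nat_lit 409) (nat_lit 344) (nat_lit 267)) (XT.lf (nat_lit 0) (nat_lit 53832604620) (nat_lit 76) (nat_lit 46340130911) (nat_lit 76) (nat_lit 29696988857) (nat_lit 151) (nat_lit 4) (nat_lit 152) (nat_lit 5) (nat_lit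 152) (nat_lit 4) (nat_lit 410) (nat_lit 344) (nat_lit 266)))) (XT.nd (nat_lit 156) (nat_lit 228) (nat_lit 0) (XT.nd (nat_lit 78) (nat_lit 76) (nat_lit 0) (XT.lf (nat_lit 0) (nat_lit 39770756868) (nat_lit 152) (nat_lit 72991937934) (nat_lit 0) (nat_lit 23917236453) (nat_lit 149) (nat_lit 5) (nat_lit 151) (nat_lit 4) (nat_lit 149) (nat_lit 4) (nat_lit 411) (nat_lit 344) (nat_lit 265)) (XT.lf (nat_lit 0) (nat_lit 74360882735) (nat_lit 76) (nat_lit 42671060536) (nat_lit 76) (nat_lit 26814846664) (nat_lit 148) (nat_lit 4) (nat_lit 149) (nat_lit 5) (nat_lit 149) (nat_lit 4) (nat_lit 412) (nat_lit 344) (nat_lit 264))) (XT.nd (nat_lit 78) (nat_lit 76) (nat_lit 0) (XT.lf (nat_lit 0) (nat_lit 50511230191) (nat_lit 152) (nat_lit 65470460351) (nat_lit 0) (nat_lit 35407698938) (nat_lit 146) (nat_lit 5) (nat_lit 148) (nat_lit 4) (nat_lit 146) (nat_lit 4) (nat_lit 413) (nat_lit 344) (nat_lit 263)) (XT.lf (nat_lit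 0) (nat_lit 98679391408) (nat_lit 76) (nat_lit 37882918879) (nat_lit 76) (nat_lit 22777188382) (nat_lit 145) (nat_lit 4) (nat_lit 146) (nat_lit 5) (nat_lit 146) (nat_lit 4) (nat_lit 414) (nat_lit 344) (nat_lit 262)))))) (XT.nd (nat_lit 624) (nat_lit 988) (nat_lit 0) (XT.nd (nat_lit 312) (nat_lit 608) (nat_lit 0) (XT.nd (nat_lit 156) (nat_lit 228) (nat_lit 0) (XT.nd (nat_lit 78) (nat_lit 76) (nat_lit 0) (XT.lf (nat_lit 0) (nat_lit 63289694933) (nat_lit 152) (nat_lit 55502084690) (nat_lit 0) (nat_lit 48901345568) (nat_lit 143) (nat_lit 5) (nat_lit 145) (nat_lit 4) (nat_lit 143) (nat_lit 4) (nat_lit 415) (nat_lit 344) (nat_lit 261)) (XT.lf (nat_lit 0) (nat_lit 127363146496) (nat_lit 76) (nat_lit 31769468109) (nat_lit 76) (nat_lit 17379323032) (nat_lit 142) (nat_lit 4) (nat_lit 143) (nat_lit 5) (nat_lit 143) (nat_lit 4) (nat_lit 416) (nat_lit 344) (nat_lit 260))) (XT.nd (nat_lit 78) (nat_lit 76)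 (nat_lit 0) (XT.lf (nat_lit 0) (nat_lit 78410012220) (nat_lit 152) (nat_lit 42650152324) (nat_lit 0) (nat_lit 64703528626) (nat_lit 140) (nat_lit 5) (nat_lit 142) (nat_lit 4) (nat_lit 140) (nat_lit 4) (nat_lit 417) (nat_lit 344) (nat_lit 259)) (XT.lf (nat_lit 0) (nat_lit 161066783390) (nat_lit 76) (nat_lit 24093586063) (nat_lit 76) (nat_lit 10385636248) (nat_lit 139) (nat_lit 4) (nat_lit 140) (nat_lit 5) (nat_lit 140) (nat_lit 4) (nat_lit 418) (nat_lit 344) (nat_lit 258)))) (XT.nd (nat_lit 156) (nat_lit 380) (nat_lit 0) (XT.nd (nat_lit 78) (nat_lit 76) (nat_lit 0) (XT.lf (nat_lit 0) (nat_lit 96218094798) (nat_lit 152) (nat_lit 26412666069) (nat_lit 0) (nat_lit 83161611533) (nat_lit 137) (nat_lit 5) (nat_lit 139) (nat_lit 4) (nat_lit 137) (nat_lit 4) (nat_lit 419) (nat_lit 344) (nat_lit 257)) (XT.lf (nat_lit 0) (nat_lit 200535007484) (nat_lit 76) (nat_lit 14583010404) (nat_lit 76) (nat_lit 1525329949)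 (nat_lit 136) (nat_lit 4) (nat_lit 137) (nat_lit 5) (nat_lit 137) (nat_lit 4) (nat_lit 420) (nat_lit 344) (nat_lit 256))) (XT.nd (nat_lit 78) (nat_lit 228) (nat_lit 0) (XT.lf (nat_lit 0) (nat_lit 117107414090) (nat_lit 152) (nat_lit 6213312556) (nat_lit 0) (nat_lit 104670472219) (nat_lit 134) (nat_lit 5) (nat_lit 136) (nat_lit 4) (nat_lit 134) (nat_lit 4) (nat_lit 421) (nat_lit 344) (nat_lit 255)) (XT.lf (nat_lit 0) (nat_lit 6651236740) (nat_lit 76) (nat_lit 2660546738) (nat_lit 152) (nat_lit 230703098377) (nat_lit 131) (nat_lit 5) (nat_lit 132) (nat_lit 5) (nat_lit 133) (nat_lit 4) (nat_lit 422) (nat_lit 344) (nat_lit 254))))) (XT.nd (nat_lit 312) (nat_lit 532) (nat_lit 0) (XT.nd (nat_lit 156) (nat_lit 228) (nat_lit 0) (XT.nd (nat_lit 78) (nat_lit 152) (nat_lit 0) (XT.lf (nat_lit 0) (nat_lit 19223976466) (nat_lit 76) (nat_lit 122601367732) (nat_lit 76) (nat_lit 110754868205) (nat_lit 130) (nat_lit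 4) (nat_lit 131) (nat_lit 5) (nat_lit 131) (nat_lit 4) (nat_lit 423) (nat_lit 344) (nat_lit 253)) (XT.lf (nat_lit 0) (nat_lit 23083019546) (nat_lit 152) (nat_lit 231008444760) (nat_lit 0) (nat_lit 11799878892) (nat_lit 128) (nat_lit 5) (nat_lit 130) (nat_lit 4) (nat_lit 128) (nat_lit 4) (nat_lit 424) (nat_lit 344) (nat_lit 252))) (XT.nd (nat_lit 78) (nat_lit 152) (nat_lit 0) (XT.lf (nat_lit 0) (nat_lit 50423942073) (nat_lit 76) (nat_lit 120342765102) (nat_lit 76) (nat_lit 109058920605) (nat_lit 127) (nat_lit 4) (nat_lit 128) (nat_lit 5) (nat_lit 128) (nat_lit 4) (nat_lit 425) (nat_lit 344) (nat_lit 251)) (XT.lf (nat_lit 0) (nat_lit 39884633578) (nat_lit 152) (nat_lit 225543554331) (nat_lit 0) (nat_lit 29137494336) (nat_lit 125) (nat_lit 5) (nat_lit 127) (nat_lit 4) (nat_lit 125) (nat_lit 4) (nat_lit 426) (nat_lit 344) (nat_lit 250)))) (XT.nd (nat_lit 156) (nat_lit 304) (nat_lit 0) (XT.nd (nat_lit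 78) (nat_lit 152) (nat_lit 0) (XT.lf (nat_lit 0) (nat_lit 88075390458) (nat_lit 76) (nat_lit 116346459222) (nat_lit 76) (nat_lit 105598745282) (nat_lit 124) (nat_lit 4) (nat_lit 125) (nat_lit 5) (nat_lit 125) (nat_lit 4) (nat_lit 427) (nat_lit 344) (nat_lit 249)) (XT.lf (nat_lit 0) (nat_lit 60149164525) (nat_lit 152) (nat_lit 216281116457) (nat_lit 0) (nat_lit 49912739698) (nat_lit 122) (nat_lit 5) (nat_lit 124) (nat_lit 4) (nat_lit 122) (nat_lit 4) (nat_lit 428) (nat_lit 344) (nat_lit 248))) (XT.nd (nat_lit 78) (nat_lit 228) (nat_lit 0) (XT.lf (nat_lit 0) (nat_lit 133200193429) (nat_lit 76) (nat_lit 110260603491) (nat_lit 76) (nat_lit 100023709416) (nat_lit 121) (nat_lit 4) (nat_lit 122) (nat_lit 5) (nat_lit 122) (nat_lit 4) (nat_lit 429) (nat_lit 344) (nat_lit 247)) (XT.nd (nat_lit 78) (nat_lit 76) (nat_lit 0) (XT.lf (nat_lit 0) (nat_lit 84418168593) (nat_lit 152) (nat_lit 202472761433) (nat_lit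 0) (nat_lit 74668331865) (nat_lit 119) (nat_lit 5) (nat_lit 121) (nat_lit 4) (nat_lit 119) (nat_lit 4) (nat_lit 430) (nat_lit 344) (nat_lit 246)) (XT.lf (nat_lit 0) (nat_lit 186964918057) (nat_lit 76) (nat_lit 101678351134) (nat_lit 76) (nat_lit 91928131259) (nat_lit 118) (nat_lit 4) (nat_lit 119) (nat_lit 5) (nat_lit 119) (nat_lit 4) (nat_lit 431) (nat_lit 344) (nat_lit 245))))))))
noncomputable def xc104 : XT := (XT.nd (nat_lit 46332) (nat_lit 0) (nat_lit 12616) (XT.nd (nat_lit 624) (nat_lit 1064) (nat_lit 0) (XT.nd (nat_lit 312) (nat_lit 456) (nat_lit 0) (XT.nd (nat_lit 156) (nat_lit 228) (nat_lit 0) (XT.nd (nat_lit 78) (nat_lit 76) (nat_lit 0) (XT.lf (nat_lit 0) (nat_lit 113309679280) (nat_lit 152) (nat_lit 183253637121) (nat_lit 0) (nat_lit 104023417717) (nat_lit 116) (nat_lit 5) (nat_lit 118) (nat_lit 4) (nat_lit 116) (nat_lit 4) (nat_lit 432) (nat_lit 344) (nat_lit 244)) (XT.lf (nat_lit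 0) (nat_lit 250700088445) (nat_lit 76) (nat_lit 90130104941) (nat_lit 76) (nat_lit 80843530533) (nat_lit 115) (nat_lit 4) (nat_lit 116) (nat_lit 5) (nat_lit 116) (nat_lit 4) (nat_lit 433) (nat_lit 344) (nat_lit 243))) (XT.nd (nat_lit 78) (nat_lit 76) (nat_lit 0) (XT.lf (nat_lit 0) (nat_lit 147528359399) (nat_lit 152) (nat_lit 157626057912) (nat_lit 0) (nat_lit 138683726943) (nat_lit 113) (nat_lit 5) (nat_lit 115) (nat_lit 4) (nat_lit 113) (nat_lit 4) (nat_lit 434) (nat_lit 344) (nat_lit 242)) (XT.lf (nat_lit 0) (nat_lit 325921913066) (nat_lit 76) (nat_lit 75074738564) (nat_lit 76) (nat_lit 66229850666) (nat_lit 112) (nat_lit 4) (nat_lit 113) (nat_lit 5) (nat_lit 113) (nat_lit 4) (nat_lit 435) (nat_lit 344) (nat_lit 241)))) (XT.nd (nat_lit 156) (nat_lit 228) (nat_lit 0) (XT.nd (nat_lit 78) (nat_lit 76) (nat_lit 0) (XT.lf (nat_lit 0) (nat_lit 187876950381) (nat_lit 152) (nat_lit 124440988636) (nat_lit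 0) (nat_lit 179453022364) (nat_lit 110) (nat_lit 5) (nat_lit 112) (nat_lit 4) (nat_lit 110) (nat_lit 4) (nat_lit 436) (nat_lit 344) (nat_lit 240)) (XT.lf (nat_lit 0) (nat_lit 414356784816) (nat_lit 76) (nat_lit 55889658132) (nat_lit 76) (nat_lit 47465521542) (nat_lit 109) (nat_lit 4) (nat_lit 110) (nat_lit 5) (nat_lit 110) (nat_lit 4) (nat_lit 437) (nat_lit 344) (nat_lit 239))) (XT.nd (nat_lit 78) (nat_lit 76) (nat_lit 0) (XT.lf (nat_lit 0) (nat_lit 235269180315) (nat_lit 152) (nat_lit 82377087311) (nat_lit 0) (nat_lit 227246009161) (nat_lit 107) (nat_lit 5) (nat_lit 109) (nat_lit 4) (nat_lit 107) (nat_lit 4) (nat_lit 438) (nat_lit 344) (nat_lit 238)) (XT.lf (nat_lit 0) (nat_lit 517968898431) (nat_lit 76) (nat_lit 31859556531) (nat_lit 76) (nat_lit 23836215076) (nat_lit 106) (nat_lit 4) (nat_lit 107) (nat_lit 5) (nat_lit 107) (nat_lit 4) (nat_lit 439) (nat_lit 344) (nat_lit 237))))) (XT.nd (nat_lit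 312) (nat_lit 456) (nat_lit 0) (XT.nd (nat_lit 156) (nat_lit 228) (nat_lit 0) (XT.nd (nat_lit 78) (nat_lit 228) (nat_lit 0) (XT.lf (nat_lit 0) (nat_lit 290744311877) (nat_lit 152) (nat_lit 29916996338) (nat_lit 0) (nat_lit 283102884123) (nat_lit 104) (nat_lit 5) (nat_lit 106) (nat_lit 4) (nat_lit 104) (nat_lit 4) (nat_lit 440) (nat_lit 344) (nat_lit 236)) (XT.lf (nat_lit 0) (nat_lit 3335406857) (nat_lit 76) (nat_lit 2019214442) (nat_lit 152) (nat_lit 630315692728) (nat_lit 101) (nat_lit 5) (nat_lit 102) (nat_lit 5) (nat_lit 103) (nat_lit 4) (nat_lit 441) (nat_lit 344) (nat_lit 235))) (XT.nd (nat_lit 78) (nat_lit 152) (nat_lit 0) (XT.lf (nat_lit 0) (nat_lit 35826126575) (nat_lit 76) (nat_lit 320216753043) (nat_lit 76) (nat_lit 312938947747) (nat_lit 100) (nat_lit 4) (nat_lit 101) (nat_lit 5) (nat_lit 101) (nat_lit 4) (nat_lit 442) (nat_lit 344) (nat_lit 234)) (XT.lf (nat_lit 0) (nat_lit 41862415822)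 (nat_lit 152) (nat_lit 627492038553) (nat_lit 0) (nat_lit 34931064550) (nat_lit 98) (nat_lit 5) (nat_lit 100) (nat_lit 4) (nat_lit 98) (nat_lit 4) (nat_lit 443) (nat_lit 344) (nat_lit 233)))) (XT.nd (nat_lit 156) (nat_lit 228) (nat_lit 0) (XT.nd (nat_lit 78) (nat_lit 152) (nat_lit 0) (XT.lf (nat_lit 0) (nat_lit 117155313005) (nat_lit 76) (nat_lit 315502230645) (nat_lit 76) (nat_lit 308570779251) (nat_lit 97) (nat_lit 4) (nat_lit 98) (nat_lit 5) (nat_lit 98) (nat_lit 4) (nat_lit 444) (nat_lit 344) (nat_lit 232)) (XT.lf (nat_lit 0) (nat_lit 86227609332) (nat_lit 152) (nat_lit 614465695514) (nat_lit 0) (nat_lit 79626138761) (nat_lit 95) (nat_lit 5) (nat_lit 97) (nat_lit 4) (nat_lit 95) (nat_lit 4) (nat_lit 445) (nat_lit 344) (nat_lit 231))) (XT.nd (nat_lit 78) (nat_lit 152) (nat_lit 0) (XT.lf (nat_lit 0) (nat_lit 215437452227) (nat_lit 76) (nat_lit 306227857165) (nat_lit 76) (nat_lit 299626304842)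 (nat_lit 94) (nat_lit 4) (nat_lit 95) (nat_lit 5) (nat_lit 95) (nat_lit 4) (nat_lit 446) (nat_lit 344) (nat_lit 230)) (XT.lf (nat_lit 0) (nat_lit 139669076675) (nat_lit 152) (nat_lit 591526095484) (nat_lit 0) (nat_lit 133381811895) (nat_lit 92) (nat_lit 5) (nat_lit 94) (nat_lit 4) (nat_lit 92) (nat_lit 4) (nat_lit 447) (nat_lit 344) (nat_lit 229)))))) (XT.nd (nat_lit 624) (nat_lit 3724) (nat_lit 0) (XT.nd (nat_lit 312) (nat_lit 1064) (nat_lit 0) (XT.nd (nat_lit 156) (nat_lit 0) (nat_lit 76) (XT.nd (nat_lit 78) (nat_lit 532) (nat_lit 0) (XT.lf (nat_lit 0) (nat_lit 2596868832) (nat_lit 532) (nat_lit 490873042) (nat_lit 532) (nat_lit 490873042) (nat_lit 328) (nat_lit 3) (nat_lit 335) (nat_lit 3) (nat_lit 335) (nat_lit 5) (nat_lit 345) (nat_lit 345) (nat_lit 330)) (XT.lf (nat_lit 0) (nat_lit 727081734) (nat_lit 532) (nat_lit 2447343101) (nat_lit 608) (nat_lit 4135500491) (nat_lit 321) (nat_lit 5)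 (nat_lit 328) (nat_lit 3) (nat_lit 329) (nat_lit 5) (nat_lit 346) (nat_lit 345) (nat_lit 329))) (XT.nd (nat_lit 78) (nat_lit 0) (nat_lit 0) (XT.lf (nat_lit 0) (nat_lit 3379349989) (nat_lit 532) (nat_lit 3816664329) (nat_lit 608) (nat_lit 286450739) (nat_lit 322) (nat_lit 5) (nat_lit 329) (nat_lit 5) (nat_lit 330) (nat_lit 5) (nat_lit 347) (nat_lit 345) (nat_lit 328)) (XT.lf (nat_lit 76) (nat_lit 2559898378) (nat_lit 0) (nat_lit 3574778803) (nat_lit 608) (nat_lit 1539586913) (nat_lit 323) (nat_lit 5) (nat_lit 322) (nat_lit 5) (nat_lit 330) (nat_lit 5) (nat_lit 348) (nat_lit 345) (nat_lit 327)))) (XT.nd (nat_lit 156) (nat_lit 608) (nat_lit 0) (XT.nd (nat_lit 78) (nat_lit 0) (nat_lit 0) (XT.lf (nat_lit 0) (nat_lit 1056320704) (nat_lit 608) (nat_lit 6318239784) (nat_lit 684) (nat_lit 512555460) (nat_lit 315) (nat_lit 5) (nat_lit 323) (nat_lit 5) (nat_lit 324) (nat_lit 5) (nat_lit 349) (nat_lit 345)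 (nat_lit 326)) (XT.lf (nat_lit 76) (nat_lit 626607352) (nat_lit 0) (nat_lit 3122883246) (nat_lit 684) (nat_lit 4369066930) (nat_lit 316) (nat_lit 5) (nat_lit 315) (nat_lit 5) (nat_lit 324) (nat_lit 5) (nat_lit 350) (nat_lit 345) (nat_lit 325))) (XT.nd (nat_lit 78) (nat_lit 684) (nat_lit 0) (XT.lf (nat_lit 0) (nat_lit 6589573241) (nat_lit 608) (nat_lit 201599033) (nat_lit 76) (nat_lit 1580769202) (nat_lit 316) (nat_lit 5) (nat_lit 324) (nat_lit 5) (nat_lit 317) (nat_lit 5) (nat_lit 351) (nat_lit 345) (nat_lit 324)) (XT.lf (nat_lit 0) (nat_lit 963436452) (nat_lit 684) (nat_lit 949921536) (nat_lit 76) (nat_lit 6732221871) (nat_lit 307) (nat_lit 5) (nat_lit 316) (nat_lit 5) (nat_lit 308) (nat_lit 5) (nat_lit 352) (nat_lit 345) (nat_lit 323))))) (XT.nd (nat_lit 312) (nat_lit 1368) (nat_lit 0) (XT.nd (nat_lit 156) (nat_lit 912) (nat_lit 0) (XT.nd (nat_lit 78) (nat_lit 760) (nat_lit 0) (XT.lf (nat_lit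 0) (nat_lit 3861185888) (nat_lit 760) (nat_lit 1655448027) (nat_lit 76) (nat_lit 3423278146) (nat_lit 298) (nat_lit 5) (nat_lit 308) (nat_lit 5) (nat_lit 299) (nat_lit 5) (nat_lit 353) (nat_lit 345) (nat_lit 322)) (XT.lf (nat_lit 0) (nat_lit 6980939814) (nat_lit 836) (nat_lit 2268194540) (nat_lit 76) (nat_lit 9147258) (nat_lit 288) (nat_lit 5) (nat_lit 299) (nat_lit 5) (nat_lit 289) (nat_lit 5) (nat_lit 354) (nat_lit 345) (nat_lit 321))) (XT.nd (nat_lit 78) (nat_lit 380) (nat_lit 0) (XT.lf (nat_lit 0) (nat_lit 795191686) (nat_lit 532) (nat_lit 2859958772) (nat_lit 76) (nat_lit 5942837034) (nat_lit 281) (nat_lit 5) (nat_lit 288) (nat_lit 5) (nat_lit 282) (nat_lit 5) (nat_lit 355) (nat_lit 345) (nat_lit 320)) (XT.lf (nat_lit 0) (nat_lit 4067202232) (nat_lit 456) (nat_lit 3403443881) (nat_lit 76) (nat_lit 2490683988) (nat_lit 276) (nat_lit 5) (nat_lit 282) (nat_lit 5) (nat_lit 277) (nat_lit 5) (nat_lit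 356) (nat_lit 345) (nat_lit 319)))) (XT.nd (nat_lit 156) (nat_lit 608) (nat_lit 0) (XT.nd (nat_lit 78) (nat_lit 380) (nat_lit 0) (XT.lf (nat_lit 0) (nat_lit 6469394685) (nat_lit 380) (nat_lit 1202644308) (nat_lit 456) (nat_lit 2678147857) (nat_lit 271) (nat_lit 5) (nat_lit 276) (nat_lit 5) (nat_lit 277) (nat_lit 5) (nat_lit 357) (nat_lit 345) (nat_lit 318)) (XT.lf (nat_lit 0) (nat_lit 885179348) (nat_lit 380) (nat_lit 4328764433) (nat_lit 76) (nat_lit 5549811799) (nat_lit 266) (nat_lit 5) (nat_lit 271) (nat_lit 5) (nat_lit 267) (nat_lit 5) (nat_lit 358) (nat_lit 345) (nat_lit 317))) (XT.nd (nat_lit 78) (nat_lit 304) (nat_lit 0) (XT.lf (nat_lit 0) (nat_lit 4730752133) (nat_lit 380) (nat_lit 4736597896) (nat_lit 76) (nat_lit 1736314143) (nat_lit 262) (nat_lit 5) (nat_lit 267) (nat_lit 5) (nat_lit 263) (nat_lit 5) (nat_lit 359) (nat_lit 345) (nat_lit 316)) (XT.lf (nat_lit 0) (nat_lit 6575903047)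 (nat_lit 304) (nat_lit 2453497706) (nat_lit 380) (nat_lit 2642093198) (nat_lit 258) (nat_lit 5) (nat_lit 262) (nat_lit 5) (nat_lit 263) (nat_lit 5) (nat_lit 360) (nat_lit 345) (nat_lit 315)))))))
noncomputable def xc105 : XT := (XT.nd (nat_lit 1248) (nat_lit 2356) (nat_lit 0) (XT.nd (nat_lit 624) (nat_lit 1520) (nat_lit 0) (XT.nd (nat_lit 312) (nat_lit 912) (nat_lit 0) (XT.nd (nat_lit 156) (nat_lit 608) (nat_lit 0) (XT.nd (nat_lit 78) (nat_lit 228) (nat_lit 0) (XT.lf (nat_lit 0) (nat_lit 1603958884) (nat_lit 380) (nat_lit 5419717050) (nat_lit 76) (nat_lit 5144075812) (nat_lit 253) (nat_lit 5) (nat_lit 258) (nat_lit 5) (nat_lit 254) (nat_lit 5) (nat_lit 361) (nat_lit 345) (nat_lit 314)) (XT.lf (nat_lit 0) (nat_lit 6240665768) (nat_lit 304) (nat_lit 5695727635) (nat_lit 76) (nat_lit 757974276) (nat_lit 250) (nat_lit 5) (nat_lit 254) (nat_lit 5) (nat_lit 251) (nat_lit 5) (nat_lit 362) (nat_lit 345)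 (nat_lit 313))) (XT.nd (nat_lit 78) (nat_lit 304) (nat_lit 0) (XT.lf (nat_lit 0) (nat_lit 7314046768) (nat_lit 304) (nat_lit 4157317491) (nat_lit 380) (nat_lit 1780595874) (nat_lit 246) (nat_lit 5) (nat_lit 250) (nat_lit 5) (nat_lit 251) (nat_lit 5) (nat_lit 363) (nat_lit 345) (nat_lit 312)) (XT.lf (nat_lit 0) (nat_lit 3352579250) (nat_lit 304) (nat_lit 6143445495) (nat_lit 76) (nat_lit 4346047166) (nat_lit 242) (nat_lit 5) (nat_lit 246) (nat_lit 5) (nat_lit 243) (nat_lit 5) (nat_lit 364) (nat_lit 345) (nat_lit 311)))) (XT.nd (nat_lit 156) (nat_lit 380) (nat_lit 0) (XT.nd (nat_lit 78) (nat_lit 304) (nat_lit 0) (XT.lf (nat_lit 0) (nat_lit 8183328690) (nat_lit 228) (nat_lit 857762165) (nat_lit 304) (nat_lit 5426488975) (nat_lit 239) (nat_lit 5) (nat_lit 242) (nat_lit 5) (nat_lit 243) (nat_lit 5) (nat_lit 365) (nat_lit 345) (nat_lit 310)) (XT.lf (nat_lit 0) (nat_lit 330106725) (nat_lit 304) (nat_lit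 6388941740) (nat_lit 76) (nat_lit 8409553393) (nat_lit 235) (nat_lit 5) (nat_lit 239) (nat_lit 5) (nat_lit 236) (nat_lit 5) (nat_lit 366) (nat_lit 345) (nat_lit 309))) (XT.nd (nat_lit 78) (nat_lit 152) (nat_lit 0) (XT.lf (nat_lit 0) (nat_lit 6588054005) (nat_lit 304) (nat_lit 6462616963) (nat_lit 76) (nat_lit 2775839654) (nat_lit 232) (nat_lit 5) (nat_lit 236) (nat_lit 5) (nat_lit 233) (nat_lit 5) (nat_lit 367) (nat_lit 345) (nat_lit 308)) (XT.lf (nat_lit 0) (nat_lit 10105700546) (nat_lit 152) (nat_lit 3539967005) (nat_lit 228) (nat_lit 2919633013) (nat_lit 230) (nat_lit 5) (nat_lit 232) (nat_lit 5) (nat_lit 233) (nat_lit 5) (nat_lit 368) (nat_lit 345) (nat_lit 307))))) (XT.nd (nat_lit 312) (nat_lit 684) (nat_lit 0) (XT.nd (nat_lit 156) (nat_lit 380) (nat_lit 0) (XT.nd (nat_lit 78) (nat_lit 152) (nat_lit 0) (XT.lf (nat_lit 0) (nat_lit 4094287179) (nat_lit 304) (nat_lit 6426932988) (nat_lit 76)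 (nat_lit 6823197102) (nat_lit 226) (nat_lit 5) (nat_lit 230) (nat_lit 5) (nat_lit 227) (nat_lit 5) (nat_lit 369) (nat_lit 345) (nat_lit 306)) (XT.lf (nat_lit 0) (nat_lit 11849584140) (nat_lit 228) (nat_lit 6292761999) (nat_lit 76) (nat_lit 26996386) (nat_lit 224) (nat_lit 5) (nat_lit 227) (nat_lit 5) (nat_lit 225) (nat_lit 5) (nat_lit 370) (nat_lit 345) (nat_lit 305))) (XT.nd (nat_lit 78) (nat_lit 152) (nat_lit 0) (XT.lf (nat_lit 0) (nat_lit 1552100312) (nat_lit 228) (nat_lit 6135613633) (nat_lit 76) (nat_lit 11350421082) (nat_lit 221) (nat_lit 5) (nat_lit 224) (nat_lit 5) (nat_lit 222) (nat_lit 5) (nat_lit 371) (nat_lit 345) (nat_lit 304)) (XT.lf (nat_lit 0) (nat_lit 10156620756) (nat_lit 228) (nat_lit 5912408179) (nat_lit 76) (nat_lit 3886005535) (nat_lit 219) (nat_lit 5) (nat_lit 222) (nat_lit 5) (nat_lit 220) (nat_lit 5) (nat_lit 372) (nat_lit 345) (nat_lit 303)))) (XT.nd (nat_lit 156) (nat_lit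 304) (nat_lit 0) (XT.nd (nat_lit 78) (nat_lit 228) (nat_lit 0) (XT.lf (nat_lit 0) (nat_lit 15354974582) (nat_lit 152) (nat_lit 4502374116) (nat_lit 228) (nat_lit 1067544876) (nat_lit 217) (nat_lit 5) (nat_lit 219) (nat_lit 5) (nat_lit 220) (nat_lit 5) (nat_lit 373) (nat_lit 345) (nat_lit 302)) (XT.lf (nat_lit 0) (nat_lit 8526376287) (nat_lit 228) (nat_lit 5224374510) (nat_lit 76) (nat_lit 8193452438) (nat_lit 214) (nat_lit 5) (nat_lit 217) (nat_lit 5) (nat_lit 215) (nat_lit 5) (nat_lit 374) (nat_lit 345) (nat_lit 301))) (XT.nd (nat_lit 78) (nat_lit 152) (nat_lit 0) (XT.lf (nat_lit 0) (nat_lit 18328699233) (nat_lit 152) (nat_lit 917631577) (nat_lit 228) (nat_lit 3778055760) (nat_lit 212) (nat_lit 5) (nat_lit 214) (nat_lit 5) (nat_lit 215) (nat_lit 5) (nat_lit 375) (nat_lit 345) (nat_lit 300)) (XT.lf (nat_lit 0) (nat_lit 6974964636) (nat_lit 152) (nat_lit 4181776741) (nat_lit 76) (nat_lit 13001347205)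 (nat_lit 210) (nat_lit 5) (nat_lit 212) (nat_lit 5) (nat_lit 211) (nat_lit 5) (nat_lit 376) (nat_lit 345) (nat_lit 299)))))) (XT.nd (nat_lit 624) (nat_lit 988) (nat_lit 0) (XT.nd (nat_lit 312) (nat_lit 760) (nat_lit 0) (XT.nd (nat_lit 156) (nat_lit 304) (nat_lit 0) (XT.nd (nat_lit 78) (nat_lit 152) (nat_lit 0) (XT.lf (nat_lit 0) (nat_lit 18885867545) (nat_lit 228) (nat_lit 3484419222) (nat_lit 76) (nat_lit 2987602945) (nat_lit 208) (nat_lit 5) (nat_lit 211) (nat_lit 5) (nat_lit 209) (nat_lit 4) (nat_lit 377) (nat_lit 345) (nat_lit 298)) (XT.lf (nat_lit 0) (nat_lit 5520287003) (nat_lit 152) (nat_lit 2728978429) (nat_lit 76) (nat_lit 18371060280) (nat_lit 206) (nat_lit 5) (nat_lit 208) (nat_lit 5) (nat_lit 207) (nat_lit 5) (nat_lit 378) (nat_lit 345) (nat_lit 297))) (XT.nd (nat_lit 78) (nat_lit 152) (nat_lit 0) (XT.lf (nat_lit 0) (nat_lit 18780696800) (nat_lit 228) (nat_lit 1848723171) (nat_lit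 76) (nat_lit 7322258485) (nat_lit 204) (nat_lit 5) (nat_lit 207) (nat_lit 5) (nat_lit 205) (nat_lit 4) (nat_lit 379) (nat_lit 345) (nat_lit 296)) (XT.lf (nat_lit 0) (nat_lit 4182584095) (nat_lit 152) (nat_lit 800663452) (nat_lit 76) (nat_lit 24373943618) (nat_lit 202) (nat_lit 5) (nat_lit 204) (nat_lit 5) (nat_lit 203) (nat_lit 5) (nat_lit 380) (nat_lit 345) (nat_lit 295)))) (XT.nd (nat_lit 156) (nat_lit 304) (nat_lit 0) (XT.nd (nat_lit 78) (nat_lit 228) (nat_lit 0) (XT.lf (nat_lit 0) (nat_lit 305748757) (nat_lit 76) (nat_lit 18651677892) (nat_lit 152) (nat_lit 11876486141) (nat_lit 199) (nat_lit 5) (nat_lit 200) (nat_lit 5) (nat_lit 201) (nat_lit 4) (nat_lit 381) (nat_lit 345) (nat_lit 294)) (XT.lf (nat_lit 0) (nat_lit 1734789276) (nat_lit 152) (nat_lit 1277308262) (nat_lit 228) (nat_lit 29384426131) (nat_lit 196) (nat_lit 5) (nat_lit 198) (nat_lit 5) (nat_lit 199) (nat_lit 5) (nat_lit 382)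 (nat_lit 345) (nat_lit 293))) (XT.nd (nat_lit 78) (nat_lit 228) (nat_lit 0) (XT.lf (nat_lit 0) (nat_lit 3131449728) (nat_lit 76) (nat_lit 16360200411) (nat_lit 152) (nat_lit 14541959635) (nat_lit 195) (nat_lit 5) (nat_lit 196) (nat_lit 5) (nat_lit 197) (nat_lit 4) (nat_lit 383) (nat_lit 345) (nat_lit 292)) (XT.lf (nat_lit 0) (nat_lit 2077344412) (nat_lit 228) (nat_lit 30858966539) (nat_lit 76) (nat_lit 2832337173) (nat_lit 192) (nat_lit 5) (nat_lit 195) (nat_lit 5) (nat_lit 193) (nat_lit 4) (nat_lit 384) (nat_lit 345) (nat_lit 291))))) (XT.nd (nat_lit 312) (nat_lit 532) (nat_lit 0) (XT.nd (nat_lit 156) (nat_lit 228) (nat_lit 0) (XT.nd (nat_lit 78) (nat_lit 152) (nat_lit 0) (XT.lf (nat_lit 0) (nat_lit 6664689972) (nat_lit 76) (nat_lit 13737080018) (nat_lit 152) (nat_lit 17184547083) (nat_lit 191) (nat_lit 5) (nat_lit 192) (nat_lit 5) (nat_lit 193) (nat_lit 4) (nat_lit 385) (nat_lit 345) (nat_lit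 290)) (XT.lf (nat_lit 0) (nat_lit 1380876178) (nat_lit 152) (nat_lit 30690429154) (nat_lit 76) (nat_lit 7439657543) (nat_lit 189) (nat_lit 5) (nat_lit 191) (nat_lit 5) (nat_lit 190) (nat_lit 4) (nat_lit 386) (nat_lit 345) (nat_lit 289))) (XT.nd (nat_lit 78) (nat_lit 152) (nat_lit 0) (XT.lf (nat_lit 0) (nat_lit 11017709501) (nat_lit 76) (nat_lit 10725096093) (nat_lit 152) (nat_lit 19787022298) (nat_lit 188) (nat_lit 5) (nat_lit 189) (nat_lit 5) (nat_lit 190) (nat_lit 4) (nat_lit 387) (nat_lit 345) (nat_lit 288)) (XT.lf (nat_lit 0) (nat_lit 941732947) (nat_lit 152) (nat_lit 30056450960) (nat_lit 76) (nat_lit 12666049996) (nat_lit 186) (nat_lit 5) (nat_lit 188) (nat_lit 5) (nat_lit 187) (nat_lit 4) (nat_lit 388) (nat_lit 345) (nat_lit 287)))) (XT.nd (nat_lit 156) (nat_lit 304) (nat_lit 0) (XT.nd (nat_lit 78) (nat_lit 152) (nat_lit 0) (XT.lf (nat_lit 0) (nat_lit 16319437872) (nat_lit 76) (nat_lit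 7258149011) (nat_lit 152) (nat_lit 22328484683) (nat_lit 185) (nat_lit 5) (nat_lit 186) (nat_lit 5) (nat_lit 187) (nat_lit 4) (nat_lit 389) (nat_lit 345) (nat_lit 286)) (XT.lf (nat_lit 0) (nat_lit 805078404) (nat_lit 152) (nat_lit 28864047997) (nat_lit 76) (nat_lit 18603449869) (nat_lit 183) (nat_lit 5) (nat_lit 185) (nat_lit 5) (nat_lit 184) (nat_lit 4) (nat_lit 390) (nat_lit 345) (nat_lit 285))) (XT.nd (nat_lit 78) (nat_lit 228) (nat_lit 0) (XT.lf (nat_lit 0) (nat_lit 22717645783) (nat_lit 76) (nat_lit 3260232195) (nat_lit 152) (nat_lit 24783679696) (nat_lit 182) (nat_lit 5) (nat_lit 183) (nat_lit 5) (nat_lit 184) (nat_lit 4) (nat_lit 391) (nat_lit 345) (nat_lit 284)) (XT.nd (nat_lit 78) (nat_lit 76) (nat_lit 0) (XT.lf (nat_lit 0) (nat_lit 1023205562) (nat_lit 152) (nat_lit 27005170878) (nat_lit 76) (nat_lit 25356542013) (nat_lit 180) (nat_lit 5) (nat_lit 182) (nat_lit 5) (nat_lit 181) (nat_lit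 4) (nat_lit 392) (nat_lit 345) (nat_lit 283)) (XT.lf (nat_lit 0) (nat_lit 29046797293) (nat_lit 152) (nat_lit 25787645647) (nat_lit 0) (nat_lit 1312367909) (nat_lit 179) (nat_lit 5) (nat_lit 181) (nat_lit 4) (nat_lit 179) (nat_lit 4) (nat_lit 393) (nat_lit 345) (nat_lit 282))))))))
noncomputable def xc106 : XT := (XT.nd (nat_lit 1248) (nat_lit 2052) (nat_lit 0) (XT.nd (nat_lit 624) (nat_lit 988) (nat_lit 0) (XT.nd (nat_lit 312) (nat_lit 456) (nat_lit 0) (XT.nd (nat_lit 156) (nat_lit 228) (nat_lit 0) (XT.nd (nat_lit 78) (nat_lit 76) (nat_lit 0) (XT.lf (nat_lit 0) (nat_lit 1656597496) (nat_lit 152) (nat_lit 24354637825) (nat_lit 76) (nat_lit 33044285713) (nat_lit 177) (nat_lit 5) (nat_lit 179) (nat_lit 5) (nat_lit 178) (nat_lit 4) (nat_lit 394) (nat_lit 345) (nat_lit 281)) (XT.lf (nat_lit 0) (nat_lit 32918823042) (nat_lit 152) (nat_lit 22722859572) (nat_lit 0) (nat_lit 6475305390) (nat_lit 176)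 (nat_lit 5) (nat_lit 178) (nat_lit 4) (nat_lit 176) (nat_lit 4) (nat_lit 395) (nat_lit 345) (nat_lit 280))) (XT.nd (nat_lit 78) (nat_lit 76) (nat_lit 0) (XT.lf (nat_lit 0) (nat_lit 2775117804) (nat_lit 152) (nat_lit 20767780864) (nat_lit 76) (nat_lit 41801653694) (nat_lit 174) (nat_lit 5) (nat_lit 176) (nat_lit 5) (nat_lit 175) (nat_lit 4) (nat_lit 396) (nat_lit 345) (nat_lit 279)) (XT.lf (nat_lit 0) (nat_lit 37651526024) (nat_lit 152) (nat_lit 18643540199) (nat_lit 0) (nat_lit 12442911507) (nat_lit 173) (nat_lit 5) (nat_lit 175) (nat_lit 4) (nat_lit 173) (nat_lit 4) (nat_lit 397) (nat_lit 345) (nat_lit 278)))) (XT.nd (nat_lit 156) (nat_lit 228) (nat_lit 0) (XT.nd (nat_lit 78) (nat_lit 76) (nat_lit 0) (XT.lf (nat_lit 0) (nat_lit 4459349535) (nat_lit 152) (nat_lit 16077770614) (nat_lit 76) (nat_lit 51781607109) (nat_lit 171) (nat_lit 5) (nat_lit 173) (nat_lit 5) (nat_lit 172) (nat_lit 4) (nat_lit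 398) (nat_lit 345) (nat_lit 277)) (XT.lf (nat_lit 0) (nat_lit 43368547000) (nat_lit 152) (nat_lit 13370974918) (nat_lit 0) (nat_lit 19340491637) (nat_lit 170) (nat_lit 5) (nat_lit 172) (nat_lit 4) (nat_lit 170) (nat_lit 4) (nat_lit 399) (nat_lit 345) (nat_lit 276))) (XT.nd (nat_lit 78) (nat_lit 76) (nat_lit 0) (XT.lf (nat_lit 0) (nat_lit 6802103286) (nat_lit 152) (nat_lit 10092580458) (nat_lit 76) (nat_lit 63157331821) (nat_lit 168) (nat_lit 5) (nat_lit 170) (nat_lit 5) (nat_lit 169) (nat_lit 4) (nat_lit 400) (nat_lit 345) (nat_lit 275)) (XT.lf (nat_lit 0) (nat_lit 50210707472) (nat_lit 152) (nat_lit 6699621058) (nat_lit 0) (nat_lit 27310636570) (nat_lit 167) (nat_lit 5) (nat_lit 169) (nat_lit 4) (nat_lit 167) (nat_lit 4) (nat_lit 401) (nat_lit 345) (nat_lit 274))))) (XT.nd (nat_lit 312) (nat_lit 456) (nat_lit 0) (XT.nd (nat_lit 156) (nat_lit 228) (nat_lit 0) (XT.nd (nat_lit 78) (nat_lit 152)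 (nat_lit 0) (XT.lf (nat_lit 0) (nat_lit 9910117392) (nat_lit 152) (nat_lit 2591545638) (nat_lit 76) (nat_lit 76124765002) (nat_lit 165) (nat_lit 5) (nat_lit 167) (nat_lit 5) (nat_lit 166) (nat_lit 4) (nat_lit 402) (nat_lit 345) (nat_lit 273)) (XT.lf (nat_lit 0) (nat_lit 1659672512) (nat_lit 76) (nat_lit 56704511682) (nat_lit 76) (nat_lit 34881685768) (nat_lit 163) (nat_lit 4) (nat_lit 164) (nat_lit 5) (nat_lit 164) (nat_lit 4) (nat_lit 403) (nat_lit 345) (nat_lit 272))) (XT.nd (nat_lit 78) (nat_lit 76) (nat_lit 0) (XT.lf (nat_lit 0) (nat_lit 6899355374) (nat_lit 76) (nat_lit 7114338649) (nat_lit 152) (nat_lit 84113808002) (nat_lit 161) (nat_lit 5) (nat_lit 162) (nat_lit 5) (nat_lit 163) (nat_lit 4) (nat_lit 404) (nat_lit 345) (nat_lit 271)) (XT.lf (nat_lit 0) (nat_lit 12208970040) (nat_lit 76) (nat_lit 55915139265) (nat_lit 76) (nat_lit 35120689330) (nat_lit 160) (nat_lit 4) (nat_lit 161) (nat_lit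 5) (nat_lit 161) (nat_lit 4) (nat_lit 405) (nat_lit 345) (nat_lit 270)))) (XT.nd (nat_lit 156) (nat_lit 228) (nat_lit 0) (XT.nd (nat_lit 78) (nat_lit 76) (nat_lit 0) (XT.lf (nat_lit 0) (nat_lit 18603215752) (nat_lit 76) (nat_lit 617504316) (nat_lit 152) (nat_lit 89436955227) (nat_lit 158) (nat_lit 5) (nat_lit 159) (nat_lit 5) (nat_lit 160) (nat_lit 4) (nat_lit 406) (nat_lit 345) (nat_lit 269)) (XT.lf (nat_lit 0) (nat_lit 25046974044) (nat_lit 76) (nat_lit 54547552464) (nat_lit 76) (nat_lit 34734491021) (nat_lit 157) (nat_lit 4) (nat_lit 158) (nat_lit 5) (nat_lit 158) (nat_lit 4) (nat_lit 407) (nat_lit 345) (nat_lit 268))) (XT.nd (nat_lit 78) (nat_lit 76) (nat_lit 0) (XT.lf (nat_lit 0) (nat_lit 25766985100) (nat_lit 152) (nat_lit 87664316983) (nat_lit 0) (nat_lit 6893662011) (nat_lit 155) (nat_lit 5) (nat_lit 157) (nat_lit 4) (nat_lit 155) (nat_lit 4) (nat_lit 408) (nat_lit 345) (nat_lit 267))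 (XT.lf (nat_lit 0) (nat_lit 40539987339) (nat_lit 76) (nat_lit 52476340556) (nat_lit 76) (nat_lit 33599553798) (nat_lit 154) (nat_lit 4) (nat_lit 155) (nat_lit 5) (nat_lit 155) (nat_lit 4) (nat_lit 409) (nat_lit 345) (nat_lit 266)))))) (XT.nd (nat_lit 624) (nat_lit 1140) (nat_lit 0) (XT.nd (nat_lit 312) (nat_lit 456) (nat_lit 0) (XT.nd (nat_lit 156) (nat_lit 228) (nat_lit 0) (XT.nd (nat_lit 78) (nat_lit 76) (nat_lit 0) (XT.lf (nat_lit 0) (nat_lit 33763862252) (nat_lit 152) (nat_lit 83710127586) (nat_lit 0) (nat_lit 15782915720) (nat_lit 152) (nat_lit 5) (nat_lit 154) (nat_lit 4) (nat_lit 152) (nat_lit 4) (nat_lit 410) (nat_lit 345) (nat_lit 265)) (XT.lf (nat_lit 0) (nat_lit 59106570325) (nat_lit 76) (nat_lit 49556344332) (nat_lit 76) (nat_lit 31572569669) (nat_lit 151) (nat_lit 4) (nat_lit 152) (nat_lit 5) (nat_lit 152) (nat_lit 4) (nat_lit 411) (nat_lit 345) (nat_lit 264))) (XT.nd (nat_lit 78)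 (nat_lit 76) (nat_lit 0) (XT.lf (nat_lit 0) (nat_lit 43422865643) (nat_lit 152) (nat_lit 77874970442) (nat_lit 0) (nat_lit 26292967260) (nat_lit 149) (nat_lit 5) (nat_lit 151) (nat_lit 4) (nat_lit 149) (nat_lit 4) (nat_lit 412) (nat_lit 345) (nat_lit 263)) (XT.lf (nat_lit 0) (nat_lit 81224515270) (nat_lit 76) (nat_lit 45619865669) (nat_lit 76) (nat_lit 28487658080) (nat_lit 148) (nat_lit 4) (nat_lit 149) (nat_lit 5) (nat_lit 149) (nat_lit 4) (nat_lit 413) (nat_lit 345) (nat_lit 262)))) (XT.nd (nat_lit 156) (nat_lit 228) (nat_lit 0) (XT.nd (nat_lit 78) (nat_lit 76) (nat_lit 0) (XT.lf (nat_lit 0) (nat_lit 54996462173) (nat_lit 152) (nat_lit 69803824131) (nat_lit 0) (nat_lit 38678037656) (nat_lit 146) (nat_lit 5) (nat_lit 148) (nat_lit 4) (nat_lit 146) (nat_lit 4) (nat_lit 414) (nat_lit 345) (nat_lit 261)) (XT.lf (nat_lit 0) (nat_lit 107438717164) (nat_lit 76) (nat_lit 40473502591) (nat_lit 76)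 (nat_lit 24153192576) (nat_lit 145) (nat_lit 4) (nat_lit 146) (nat_lit 5) (nat_lit 146) (nat_lit 4) (nat_lit 415) (nat_lit 345) (nat_lit 260))) (XT.nd (nat_lit 78) (nat_lit 76) (nat_lit 0) (XT.lf (nat_lit 0) (nat_lit 68772582788) (nat_lit 152) (nat_lit 59087239108) (nat_lit 0) (nat_lit 53227767697) (nat_lit 143) (nat_lit 5) (nat_lit 145) (nat_lit 4) (nat_lit 143) (nat_lit 4) (nat_lit 416) (nat_lit 345) (nat_lit 259)) (XT.lf (nat_lit 0) (nat_lit 138370052777) (nat_lit 76) (nat_lit 33894562461) (nat_lit 76) (nat_lit 18348207837) (nat_lit 142) (nat_lit 4) (nat_lit 143) (nat_lit 5) (nat_lit 143) (nat_lit 4) (nat_lit 417) (nat_lit 345) (nat_lit 258))))) (XT.nd (nat_lit 312) (nat_lit 684) (nat_lit 0) (XT.nd (nat_lit 156) (nat_lit 228) (nat_lit 0) (XT.nd (nat_lit 78) (nat_lit 76) (nat_lit 0) (XT.lf (nat_lit 0) (nat_lit 85079304188) (nat_lit 152) (nat_lit 45253765334) (nat_lit 0) (nat_lit 70271894552)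 (nat_lit 140) (nat_lit 5) (nat_lit 142) (nat_lit 4) (nat_lit 140) (nat_lit 4) (nat_lit 418) (nat_lit 345) (nat_lit 257)) (XT.lf (nat_lit 0) (nat_lit 174725393194) (nat_lit 76) (nat_lit 25626999970) (nat_lit 76) (nat_lit 10818333285) (nat_lit 139) (nat_lit 4) (nat_lit 140) (nat_lit 5) (nat_lit 140) (nat_lit 4) (nat_lit 419) (nat_lit 345) (nat_lit 256))) (XT.nd (nat_lit 78) (nat_lit 76) (nat_lit 0) (XT.lf (nat_lit 0) (nat_lit 104290126050) (nat_lit 152) (nat_lit 27761381499) (nat_lit 0) (nat_lit 90185525460) (nat_lit 137) (nat_lit 5) (nat_lit 139) (nat_lit 4) (nat_lit 137) (nat_lit 4) (nat_lit 420) (nat_lit 345) (nat_lit 255)) (XT.lf (nat_lit 0) (nat_lit 217308890484) (nat_lit 76) (nat_lit 15376819809) (nat_lit 76) (nat_lit 1271192821) (nat_lit 136) (nat_lit 4) (nat_lit 137) (nat_lit 5) (nat_lit 137) (nat_lit 4) (nat_lit 421) (nat_lit 345) (nat_lit 254)))) (XT.nd (nat_lit 156) (nat_lit 304) (nat_lit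 0) (XT.nd (nat_lit 78) (nat_lit 228) (nat_lit 0) (XT.lf (nat_lit 0) (nat_lit 126829917856) (nat_lit 152) (nat_lit 5987799106) (nat_lit 0) (nat_lit 113395082280) (nat_lit 134) (nat_lit 5) (nat_lit 136) (nat_lit 4) (nat_lit 134) (nat_lit 4) (nat_lit 422) (nat_lit 345) (nat_lit 253)) (XT.lf (nat_lit 0) (nat_lit 7909116635) (nat_lit 76) (nat_lit 2502976183) (nat_lit 152) (nat_lit 248786211253) (nat_lit 131) (nat_lit 5) (nat_lit 132) (nat_lit 5) (nat_lit 133) (nat_lit 4) (nat_lit 423) (nat_lit 345) (nat_lit 252))) (XT.nd (nat_lit 78) (nat_lit 228) (nat_lit 0) (XT.lf (nat_lit 0) (nat_lit 21467598252) (nat_lit 76) (nat_lit 132049189519) (nat_lit 76) (nat_lit 119252570823) (nat_lit 130) (nat_lit 4) (nat_lit 131) (nat_lit 5) (nat_lit 131) (nat_lit 4) (nat_lit 424) (nat_lit 345) (nat_lit 251)) (XT.nd (nat_lit 78) (nat_lit 76) (nat_lit 0) (XT.lf (nat_lit 0) (nat_lit 25270916419) (nat_lit 152) (nat_lit 248791662658)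 (nat_lit 0) (nat_lit 13083008811) (nat_lit 128) (nat_lit 5) (nat_lit 130) (nat_lit 4) (nat_lit 128) (nat_lit 4) (nat_lit 425) (nat_lit 345) (nat_lit 250)) (XT.lf (nat_lit 0) (nat_lit 55125004461) (nat_lit 76) (nat_lit 129629432462) (nat_lit 76) (nat_lit 117440921421) (nat_lit 127) (nat_lit 4) (nat_lit 128) (nat_lit 5) (nat_lit 128) (nat_lit 4) (nat_lit 426) (nat_lit 345) (nat_lit 249))))))))
noncomputable def xc107 : XT := (XT.nd (nat_lit 1248) (nat_lit 532) (nat_lit 0) (XT.nd (nat_lit 624) (nat_lit 1064) (nat_lit 0) (XT.nd (nat_lit 312) (nat_lit 456) (nat_lit 0) (XT.nd (nat_lit 156) (nat_lit 228) (nat_lit 0) (XT.nd (nat_lit 78) (nat_lit 76) (nat_lit 0) (XT.lf (nat_lit 0) (nat_lit 43397874983) (nat_lit 152) (nat_lit 242927701204) (nat_lit 0) (nat_lit 31789237102) (nat_lit 125) (nat_lit 5) (nat_lit 127) (nat_lit 4) (nat_lit 125) (nat_lit 4) (nat_lit 427) (nat_lit 345) (nat_lit 248)) (XT.lf (nat_lit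 0) (nat_lit 95752105165) (nat_lit 76) (nat_lit 125331923225) (nat_lit 76) (nat_lit 113722792633) (nat_lit 124) (nat_lit 4) (nat_lit 125) (nat_lit 5) (nat_lit 125) (nat_lit 4) (nat_lit 428) (nat_lit 345) (nat_lit 247))) (XT.nd (nat_lit 78) (nat_lit 76) (nat_lit 0) (XT.lf (nat_lit 0) (nat_lit 65265829289) (nat_lit 152) (nat_lit 232960316516) (nat_lit 0) (nat_lit 54209079950) (nat_lit 122) (nat_lit 5) (nat_lit 124) (nat_lit 4) (nat_lit 122) (nat_lit 4) (nat_lit 429) (nat_lit 345) (nat_lit 246)) (XT.lf (nat_lit 0) (nat_lit 144452410770) (nat_lit 76) (nat_lit 118776717176) (nat_lit 76) (nat_lit 107719565533) (nat_lit 121) (nat_lit 4) (nat_lit 122) (nat_lit 5) (nat_lit 122) (nat_lit 4) (nat_lit 430) (nat_lit 345) (nat_lit 245)))) (XT.nd (nat_lit 156) (nat_lit 228) (nat_lit 0) (XT.nd (nat_lit 78) (nat_lit 76) (nat_lit 0) (XT.lf (nat_lit 0) (nat_lit 91459599760) (nat_lit 152) (nat_lit 218081379816) (nat_lit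 0) (nat_lit 80928624382) (nat_lit 119) (nat_lit 5) (nat_lit 121) (nat_lit 4) (nat_lit 119) (nat_lit 4) (nat_lit 431) (nat_lit 345) (nat_lit 244)) (XT.lf (nat_lit 0) (nat_lit 202485708008) (nat_lit 76) (nat_lit 109524468039) (nat_lit 76) (nat_lit 98993164173) (nat_lit 118) (nat_lit 4) (nat_lit 119) (nat_lit 5) (nat_lit 119) (nat_lit 4) (nat_lit 432) (nat_lit 345) (nat_lit 243))) (XT.nd (nat_lit 78) (nat_lit 76) (nat_lit 0) (XT.lf (nat_lit 0) (nat_lit 122646606148) (nat_lit 152) (nat_lit 197356955802) (nat_lit 0) (nat_lit 112616503271) (nat_lit 116) (nat_lit 5) (nat_lit 118) (nat_lit 4) (nat_lit 116) (nat_lit 4) (nat_lit 433) (nat_lit 345) (nat_lit 242)) (XT.lf (nat_lit 0) (nat_lit 271288862472) (nat_lit 76) (nat_lit 97068057449) (nat_lit 76) (nat_lit 87037686358) (nat_lit 115) (nat_lit 4) (nat_lit 116) (nat_lit 5) (nat_lit 116) (nat_lit 4) (nat_lit 434) (nat_lit 345) (nat_lit 241))))) (XT.nd (nat_lit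 312) (nat_lit 608) (nat_lit 0) (XT.nd (nat_lit 156) (nat_lit 228) (nat_lit 0) (XT.nd (nat_lit 78) (nat_lit 76) (nat_lit 0) (XT.lf (nat_lit 0) (nat_lit 159587831404) (nat_lit 152) (nat_lit 169709643717) (nat_lit 0) (nat_lit 150034860511) (nat_lit 113) (nat_lit 5) (nat_lit 115) (nat_lit 4) (nat_lit 113) (nat_lit 4) (nat_lit 435) (nat_lit 345) (nat_lit 240)) (XT.lf (nat_lit 0) (nat_lit 352499283943) (nat_lit 76) (nat_lit 80823113864) (nat_lit 76) (nat_lit 71269923971) (nat_lit 112) (nat_lit 4) (nat_lit 113) (nat_lit 5) (nat_lit 113) (nat_lit 4) (nat_lit 436) (nat_lit 345) (nat_lit 239))) (XT.nd (nat_lit 78) (nat_lit 76) (nat_lit 0) (XT.lf (nat_lit 0) (nat_lit 203150186653) (nat_lit 152) (nat_lit 133898580183) (nat_lit 0) (nat_lit 194051717443) (nat_lit 110) (nat_lit 5) (nat_lit 112) (nat_lit 4) (nat_lit 110) (nat_lit 4) (nat_lit 437) (nat_lit 345) (nat_lit 238)) (XT.lf (nat_lit 0) (nat_lit 447981386250)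 (nat_lit 76) (nat_lit 60117279040) (nat_lit 76) (nat_lit 51018631013) (nat_lit 109) (nat_lit 4) (nat_lit 110) (nat_lit 5) (nat_lit 110) (nat_lit 4) (nat_lit 438) (nat_lit 345) (nat_lit 237)))) (XT.nd (nat_lit 156) (nat_lit 380) (nat_lit 0) (XT.nd (nat_lit 78) (nat_lit 76) (nat_lit 0) (XT.lf (nat_lit 0) (nat_lit 254320451630) (nat_lit 152) (nat_lit 88496805586) (nat_lit 0) (nat_lit 245654914870) (nat_lit 107) (nat_lit 5) (nat_lit 109) (nat_lit 4) (nat_lit 107) (nat_lit 4) (nat_lit 439) (nat_lit 345) (nat_lit 236)) (XT.lf (nat_lit 0) (nat_lit 559856413887) (nat_lit 76) (nat_lit 34178062631) (nat_lit 76) (nat_lit 25512379865) (nat_lit 106) (nat_lit 4) (nat_lit 107) (nat_lit 5) (nat_lit 107) (nat_lit 4) (nat_lit 440) (nat_lit 345) (nat_lit 235))) (XT.nd (nat_lit 78) (nat_lit 228) (nat_lit 0) (XT.lf (nat_lit 0) (nat_lit 314220986221) (nat_lit 152) (nat_lit 31865658773) (nat_lit 0) (nat_lit 305967826262)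 (nat_lit 104) (nat_lit 5) (nat_lit 106) (nat_lit 4) (nat_lit 104) (nat_lit 4) (nat_lit 441) (nat_lit 345) (nat_lit 234)) (XT.lf (nat_lit 0) (nat_lit 4048885795) (nat_lit 76) (nat_lit 1952170287) (nat_lit 152) (nat_lit 680511979813) (nat_lit 101) (nat_lit 5) (nat_lit 102) (nat_lit 5) (nat_lit 103) (nat_lit 4) (nat_lit 442) (nat_lit 345) (nat_lit 233)))))) (XT.nd (nat_lit 45786) (nat_lit 0) (nat_lit 13832) (XT.nd (nat_lit 312) (nat_lit 76) (nat_lit 0) (XT.nd (nat_lit 156) (nat_lit 228) (nat_lit 0) (XT.nd (nat_lit 78) (nat_lit 152) (nat_lit 0) (XT.lf (nat_lit 0) (nat_lit 39126468095) (nat_lit 76) (nat_lit 345611838324) (nat_lit 76) (nat_lit 337751467315) (nat_lit 100) (nat_lit 4) (nat_lit 101) (nat_lit 5) (nat_lit 101) (nat_lit 4) (nat_lit 443) (nat_lit 345) (nat_lit 232)) (XT.lf (nat_lit 0) (nat_lit 45420885428) (nat_lit 152) (nat_lit 677262276100) (nat_lit 0) (nat_lit 37934725094) (nat_lit 98)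 (nat_lit 5) (nat_lit 100) (nat_lit 4) (nat_lit 98) (nat_lit 4) (nat_lit 444) (nat_lit 345) (nat_lit 231))) (XT.nd (nat_lit 78) (nat_lit 152) (nat_lit 0) (XT.lf (nat_lit 0) (nat_lit 126938214310) (nat_lit 76) (nat_lit 340532301091) (nat_lit 76) (nat_lit 333046054918) (nat_lit 97) (nat_lit 4) (nat_lit 98) (nat_lit 5) (nat_lit 98) (nat_lit 4) (nat_lit 445) (nat_lit 345) (nat_lit 230)) (XT.lf (nat_lit 0) (nat_lit 93323805778) (nat_lit 152) (nat_lit 663217322110) (nat_lit 0) (nat_lit 86193971822) (nat_lit 95) (nat_lit 5) (nat_lit 97) (nat_lit 4) (nat_lit 95) (nat_lit 4) (nat_lit 446) (nat_lit 345) (nat_lit 229)))) (XT.nd (nat_lit 45318) (nat_lit 0) (nat_lit 16644) (XT.nd (nat_lit 45240) (nat_lit 0) (nat_lit 17252) (XT.lf (nat_lit 0) (nat_lit 233060449306) (nat_lit 76) (nat_lit 330527464562) (nat_lit 76) (nat_lit 323397560518) (nat_lit 94) (nat_lit 4) (nat_lit 95) (nat_lit 5) (nat_lit 95) (nat_lit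 4) (nat_lit 447) (nat_lit 345) (nat_lit 228)) (XT.lf (nat_lit 0) (nat_lit 781045310) (nat_lit 0) (nat_lit 781045310) (nat_lit 532) (nat_lit 2174219158) (nat_lit 321) (nat_lit 5) (nat_lit 321) (nat_lit 3) (nat_lit 328) (nat_lit 3) (nat_lit 346) (nat_lit 346) (nat_lit 328))) (XT.nd (nat_lit 78) (nat_lit 608) (nat_lit 0) (XT.lf (nat_lit 76) (nat_lit 49641773) (nat_lit 0) (nat_lit 5523302263) (nat_lit 608) (nat_lit 2082390528) (nat_lit 322) (nat_lit 5) (nat_lit 321) (nat_lit 5) (nat_lit 329) (nat_lit 5) (nat_lit 347) (nat_lit 346) (nat_lit 327)) (XT.lf (nat_lit 0) (nat_lit 251240459) (nat_lit 608) (nat_lit 1323205786) (nat_lit 684) (nat_lit 6283036648) (nat_lit 313) (nat_lit 5) (nat_lit 321) (nat_lit 5) (nat_lit 322) (nat_lit 5) (nat_lit 348) (nat_lit 346) (nat_lit 326))))) (XT.nd (nat_lit 312) (nat_lit 2356) (nat_lit 0) (XT.nd (nat_lit 156) (nat_lit 532) (nat_lit 0) (XT.nd (nat_lit 78) (nat_lit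 0) (nat_lit 0) (XT.lf (nat_lit 0) (nat_lit 2614606970) (nat_lit 608) (nat_lit 2653272953) (nat_lit 684) (nat_lit 2810416195) (nat_lit 314) (nat_lit 5) (nat_lit 322) (nat_lit 5) (nat_lit 323) (nat_lit 5) (nat_lit 349) (nat_lit 346) (nat_lit 325)) (XT.lf (nat_lit 76) (nat_lit 4424433816) (nat_lit 0) (nat_lit 661184382) (nat_lit 684) (nat_lit 3235227433) (nat_lit 315) (nat_lit 5) (nat_lit 314) (nat_lit 5) (nat_lit 323) (nat_lit 5) (nat_lit 350) (nat_lit 346) (nat_lit 324))) (XT.nd (nat_lit 78) (nat_lit 608) (nat_lit 0) (XT.lf (nat_lit 76) (nat_lit 3486681077) (nat_lit 0) (nat_lit 4249666644) (nat_lit 684) (nat_lit 847349516) (nat_lit 316) (nat_lit 5) (nat_lit 315) (nat_lit 5) (nat_lit 324) (nat_lit 5) (nat_lit 351) (nat_lit 346) (nat_lit 323)) (XT.lf (nat_lit 0) (nat_lit 1635615025) (nat_lit 684) (nat_lit 6243618816) (nat_lit 76) (nat_lit 989017549) (nat_lit 307) (nat_lit 5) (nat_lit 316) (nat_lit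 5) (nat_lit 308) (nat_lit 5) (nat_lit 352) (nat_lit 346) (nat_lit 322)))) (XT.nd (nat_lit 156) (nat_lit 912) (nat_lit 0) (XT.nd (nat_lit 78) (nat_lit 760) (nat_lit 0) (XT.lf (nat_lit 0) (nat_lit 1803156265) (nat_lit 684) (nat_lit 2508592007) (nat_lit 760) (nat_lit 4861916130) (nat_lit 298) (nat_lit 5) (nat_lit 307) (nat_lit 5) (nat_lit 308) (nat_lit 5) (nat_lit 353) (nat_lit 346) (nat_lit 321)) (XT.lf (nat_lit 0) (nat_lit 1055160342) (nat_lit 760) (nat_lit 6169497895) (nat_lit 836) (nat_lit 2277717914) (nat_lit 288) (nat_lit 5) (nat_lit 298) (nat_lit 5) (nat_lit 299) (nat_lit 5) (nat_lit 354) (nat_lit 346) (nat_lit 320))) (XT.nd (nat_lit 78) (nat_lit 380) (nat_lit 0) (XT.lf (nat_lit 0) (nat_lit 384345547) (nat_lit 456) (nat_lit 142501112) (nat_lit 532) (nat_lit 9328634713) (nat_lit 281) (nat_lit 5) (nat_lit 287) (nat_lit 5) (nat_lit 288) (nat_lit 5) (nat_lit 355) (nat_lit 346) (nat_lit 319))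 (XT.nd (nat_lit 78) (nat_lit 380) (nat_lit 0) (XT.lf (nat_lit 0) (nat_lit 3586204120) (nat_lit 532) (nat_lit 289118969) (nat_lit 76) (nat_lit 6354133547) (nat_lit 281) (nat_lit 5) (nat_lit 288) (nat_lit 5) (nat_lit 282) (nat_lit 5) (nat_lit 356) (nat_lit 346) (nat_lit 318)) (XT.lf (nat_lit 0) (nat_lit 6961486410) (nat_lit 456) (nat_lit 871122497) (nat_lit 76) (nat_lit 2797182202) (nat_lit 276) (nat_lit 5) (nat_lit 282) (nat_lit 5) (nat_lit 277) (nat_lit 5) (nat_lit 357) (nat_lit 346) (nat_lit 317))))))))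
noncomputable def xc108 : XT := (XT.nd (nat_lit 1248) (nat_lit 2508) (nat_lit 0) (XT.nd (nat_lit 624) (nat_lit 1748) (nat_lit 0) (XT.nd (nat_lit 312) (nat_lit 1216) (nat_lit 0) (XT.nd (nat_lit 156) (nat_lit 608) (nat_lit 0) (XT.nd (nat_lit 78) (nat_lit 380) (nat_lit 0) (XT.lf (nat_lit 0) (nat_lit 9669658791) (nat_lit 380) (nat_lit 1036646501) (nat_lit 456) (nat_lit 350871348) (nat_lit 271) (nat_lit 5) (nat_lit 276) (nat_lit 5) (nat_lit 277) (nat_lit 5) (nat_lit 358) (nat_lit 346) (nat_lit 316)) (XT.lf (nat_lit 0) (nat_lit 3280290265) (nat_lit 380) (nat_lit 1920239090) (nat_lit 76) (nat_lit 6308111843) (nat_lit 266) (nat_lit 5) (nat_lit 271) (nat_lit 5) (nat_lit 267) (nat_lit 5) (nat_lit 359) (nat_lit 346) (nat_lit 315))) (XT.nd (nat_lit 78) (nat_lit 304) (nat_lit 0) (XT.lf (nat_lit 0) (nat_lit 7309378450) (nat_lit 380) (nat_lit 2377655560) (nat_lit 76) (nat_lit 2302914989) (nat_lit 262) (nat_lit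 5) (nat_lit 267) (nat_lit 5) (nat_lit 263) (nat_lit 5) (nat_lit 360) (nat_lit 346) (nat_lit 314)) (XT.lf (nat_lit 0) (nat_lit 9720860958) (nat_lit 304) (nat_lit 2108970876) (nat_lit 380) (nat_lit 671477682) (nat_lit 258) (nat_lit 5) (nat_lit 262) (nat_lit 5) (nat_lit 263) (nat_lit 5) (nat_lit 361) (nat_lit 346) (nat_lit 313)))) (XT.nd (nat_lit 156) (nat_lit 608) (nat_lit 0) (XT.nd (nat_lit 78) (nat_lit 228) (nat_lit 0) (XT.lf (nat_lit 0) (nat_lit 3737113829) (nat_lit 380) (nat_lit 3190621471) (nat_lit 76) (nat_lit 6113194674) (nat_lit 253) (nat_lit 5) (nat_lit 258) (nat_lit 5) (nat_lit 254) (nat_lit 5) (nat_lit 362) (nat_lit 346) (nat_lit 312)) (XT.lf (nat_lit 0) (nat_lit 8646177598) (nat_lit 304) (nat_lit 3519786325) (nat_lit 76) (nat_lit 1448640242) (nat_lit 250) (nat_lit 5) (nat_lit 254) (nat_lit 5) (nat_lit 251) (nat_lit 5) (nat_lit 363) (nat_lit 346) (nat_lit 311))) (XT.nd (nat_lit 78) (nat_lit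 304) (nat_lit 0) (XT.lf (nat_lit 0) (nat_lit 10416403922) (nat_lit 304) (nat_lit 3777024776) (nat_lit 380) (nat_lit 28470482) (nat_lit 246) (nat_lit 5) (nat_lit 250) (nat_lit 5) (nat_lit 251) (nat_lit 5) (nat_lit 364) (nat_lit 346) (nat_lit 310)) (XT.lf (nat_lit 0) (nat_lit 5368757830) (nat_lit 304) (nat_lit 4093637079) (nat_lit 76) (nat_lit 5399644143) (nat_lit 242) (nat_lit 5) (nat_lit 246) (nat_lit 5) (nat_lit 243) (nat_lit 5) (nat_lit 365) (nat_lit 346) (nat_lit 309))))) (XT.nd (nat_lit 312) (nat_lit 836) (nat_lit 0) (XT.nd (nat_lit 156) (nat_lit 380) (nat_lit 0) (XT.nd (nat_lit 78) (nat_lit 304) (nat_lit 0) (XT.lf (nat_lit 0) (nat_lit 11268837932) (nat_lit 228) (nat_lit 151985277) (nat_lit 304) (nat_lit 4121340753) (nat_lit 239) (nat_lit 5) (nat_lit 242) (nat_lit 5) (nat_lit 243) (nat_lit 5) (nat_lit 366) (nat_lit 346) (nat_lit 308)) (XT.lf (nat_lit 0) (nat_lit 1964754217) (nat_lit 304)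 (nat_lit 4454022143) (nat_lit 76) (nat_lit 9839701699) (nat_lit 235) (nat_lit 5) (nat_lit 239) (nat_lit 5) (nat_lit 236) (nat_lit 5) (nat_lit 367) (nat_lit 346) (nat_lit 307))) (XT.nd (nat_lit 78) (nat_lit 152) (nat_lit 0) (XT.lf (nat_lit 0) (nat_lit 8653448539) (nat_lit 304) (nat_lit 4576321363) (nat_lit 76) (nat_lit 3785944060) (nat_lit 232) (nat_lit 5) (nat_lit 236) (nat_lit 5) (nat_lit 233) (nat_lit 5) (nat_lit 368) (nat_lit 346) (nat_lit 306)) (XT.lf (nat_lit 0) (nat_lit 13213016842) (nat_lit 152) (nat_lit 2984594110) (nat_lit 228) (nat_lit 1619899157) (nat_lit 230) (nat_lit 5) (nat_lit 232) (nat_lit 5) (nat_lit 233) (nat_lit 5) (nat_lit 369) (nat_lit 346) (nat_lit 305)))) (XT.nd (nat_lit 156) (nat_lit 380) (nat_lit 0) (XT.nd (nat_lit 78) (nat_lit 152) (nat_lit 0) (XT.lf (nat_lit 0) (nat_lit 5844242007) (nat_lit 304) (nat_lit 4637783752) (nat_lit 76) (nat_lit 8178824299) (nat_lit 226) (nat_lit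 5) (nat_lit 230) (nat_lit 5) (nat_lit 227) (nat_lit 5) (nat_lit 370) (nat_lit 346) (nat_lit 304)) (XT.lf (nat_lit 0) (nat_lit 14162295433) (nat_lit 228) (nat_lit 4538703896) (nat_lit 76) (nat_lit 853653371) (nat_lit 224) (nat_lit 5) (nat_lit 227) (nat_lit 5) (nat_lit 225) (nat_lit 5) (nat_lit 371) (nat_lit 346) (nat_lit 303))) (XT.nd (nat_lit 78) (nat_lit 152) (nat_lit 0) (XT.lf (nat_lit 0) (nat_lit 2994902853) (nat_lit 228) (nat_lit 4423490937) (nat_lit 76) (nat_lit 13076860314) (nat_lit 221) (nat_lit 5) (nat_lit 224) (nat_lit 5) (nat_lit 222) (nat_lit 5) (nat_lit 372) (nat_lit 346) (nat_lit 302)) (XT.lf (nat_lit 0) (nat_lit 12236331704) (nat_lit 228) (nat_lit 4228798216) (nat_lit 76) (nat_lit 5022948244) (nat_lit 219) (nat_lit 5) (nat_lit 222) (nat_lit 5) (nat_lit 220) (nat_lit 5) (nat_lit 373) (nat_lit 346) (nat_lit 301)))))) (XT.nd (nat_lit 624) (nat_lit 1064) (nat_lit 0) (XT.nd (nat_lit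 312) (nat_lit 760) (nat_lit 0) (XT.nd (nat_lit 156) (nat_lit 304) (nat_lit 0) (XT.nd (nat_lit 78) (nat_lit 152) (nat_lit 0) (XT.lf (nat_lit 0) (nat_lit 109239095) (nat_lit 228) (nat_lit 3894118971) (nat_lit 76) (nat_lit 18535162732) (nat_lit 216) (nat_lit 5) (nat_lit 219) (nat_lit 5) (nat_lit 217) (nat_lit 5) (nat_lit 374) (nat_lit 346) (nat_lit 300)) (XT.lf (nat_lit 0) (nat_lit 10387632286) (nat_lit 228) (nat_lit 3585254871) (nat_lit 76) (nat_lit 9667895042) (nat_lit 214) (nat_lit 5) (nat_lit 217) (nat_lit 5) (nat_lit 215) (nat_lit 5) (nat_lit 375) (nat_lit 346) (nat_lit 299))) (XT.nd (nat_lit 78) (nat_lit 152) (nat_lit 0) (XT.lf (nat_lit 0) (nat_lit 21762667034) (nat_lit 152) (nat_lit 145892868) (nat_lit 228) (nat_lit 2901651461) (nat_lit 212) (nat_lit 5) (nat_lit 214) (nat_lit 5) (nat_lit 215) (nat_lit 5) (nat_lit 376) (nat_lit 346) (nat_lit 298)) (XT.lf (nat_lit 0) (nat_lit 8632310698) (nat_lit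 152) (nat_lit 2556744945) (nat_lit 76) (nat_lit 14846712581) (nat_lit 210) (nat_lit 5) (nat_lit 212) (nat_lit 5) (nat_lit 211) (nat_lit 5) (nat_lit 377) (nat_lit 346) (nat_lit 297)))) (XT.nd (nat_lit 156) (nat_lit 456) (nat_lit 0) (XT.nd (nat_lit 78) (nat_lit 152) (nat_lit 0) (XT.lf (nat_lit 0) (nat_lit 21456832854) (nat_lit 228) (nat_lit 1849315917) (nat_lit 76) (nat_lit 4027367323) (nat_lit 208) (nat_lit 5) (nat_lit 211) (nat_lit 5) (nat_lit 209) (nat_lit 4) (nat_lit 378) (nat_lit 346) (nat_lit 296)) (XT.lf (nat_lit 0) (nat_lit 6988622213) (nat_lit 152) (nat_lit 1082666003) (nat_lit 76) (nat_lit 20627327941) (nat_lit 206) (nat_lit 5) (nat_lit 208) (nat_lit 5) (nat_lit 207) (nat_lit 5) (nat_lit 379) (nat_lit 346) (nat_lit 295))) (XT.nd (nat_lit 78) (nat_lit 304) (nat_lit 0) (XT.lf (nat_lit 0) (nat_lit 21274228675) (nat_lit 228) (nat_lit 176669288) (nat_lit 76) (nat_lit 8687360964) (nat_lit 204)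 (nat_lit 5) (nat_lit 207) (nat_lit 5) (nat_lit 205) (nat_lit 4) (nat_lit 380) (nat_lit 346) (nat_lit 294)) (XT.lf (nat_lit 0) (nat_lit 937914353) (nat_lit 152) (nat_lit 4554251936) (nat_lit 228) (nat_lit 26164851396) (nat_lit 200) (nat_lit 5) (nat_lit 202) (nat_lit 5) (nat_lit 203) (nat_lit 5) (nat_lit 381) (nat_lit 346) (nat_lit 293))))) (XT.nd (nat_lit 312) (nat_lit 456) (nat_lit 0) (XT.nd (nat_lit 156) (nat_lit 304) (nat_lit 0) (XT.nd (nat_lit 78) (nat_lit 228) (nat_lit 0) (XT.lf (nat_lit 0) (nat_lit 2116566391) (nat_lit 76) (nat_lit 19313189967) (nat_lit 152) (nat_lit 11823082677) (nat_lit 199) (nat_lit 5) (nat_lit 200) (nat_lit 5) (nat_lit 201) (nat_lit 4) (nat_lit 382) (nat_lit 346) (nat_lit 292)) (XT.lf (nat_lit 0) (nat_lit 3613020353) (nat_lit 152) (nat_lit 566650214) (nat_lit 228) (nat_lit 30762244736) (nat_lit 196) (nat_lit 5) (nat_lit 198) (nat_lit 5) (nat_lit 199) (nat_lit 5) (nat_lit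 383) (nat_lit 346) (nat_lit 291))) (XT.nd (nat_lit 78) (nat_lit 228) (nat_lit 0) (XT.lf (nat_lit 0) (nat_lit 5077996929) (nat_lit 76) (nat_lit 16869183518) (nat_lit 152) (nat_lit 14764308193) (nat_lit 195) (nat_lit 5) (nat_lit 196) (nat_lit 5) (nat_lit 197) (nat_lit 4) (nat_lit 384) (nat_lit 346) (nat_lit 290)) (XT.lf (nat_lit 0) (nat_lit 3124935749) (nat_lit 228) (nat_lit 31645299305) (nat_lit 76) (nat_lit 3815834732) (nat_lit 192) (nat_lit 5) (nat_lit 195) (nat_lit 5) (nat_lit 193) (nat_lit 4) (nat_lit 385) (nat_lit 346) (nat_lit 289)))) (XT.nd (nat_lit 156) (nat_lit 228) (nat_lit 0) (XT.nd (nat_lit 78) (nat_lit 152) (nat_lit 0) (XT.lf (nat_lit 0) (nat_lit 8807135344) (nat_lit 76) (nat_lit 14068016077) (nat_lit 152) (nat_lit 17676009027) (nat_lit 191) (nat_lit 5) (nat_lit 192) (nat_lit 5) (nat_lit 193) (nat_lit 4) (nat_lit 386) (nat_lit 346) (nat_lit 288)) (XT.lf (nat_lit 0) (nat_lit 2319209952)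 (nat_lit 152) (nat_lit 31550193279) (nat_lit 76) (nat_lit 8761043491) (nat_lit 189) (nat_lit 5) (nat_lit 191) (nat_lit 5) (nat_lit 190) (nat_lit 4) (nat_lit 387) (nat_lit 346) (nat_lit 287))) (XT.nd (nat_lit 78) (nat_lit 152) (nat_lit 0) (XT.lf (nat_lit 0) (nat_lit 13425259277) (nat_lit 76) (nat_lit 10847338421) (nat_lit 152) (nat_lit 20540098042) (nat_lit 188) (nat_lit 5) (nat_lit 189) (nat_lit 5) (nat_lit 190) (nat_lit 4) (nat_lit 388) (nat_lit 346) (nat_lit 286)) (XT.lf (nat_lit 0) (nat_lit 1795292212) (nat_lit 152) (nat_lit 30948613584) (nat_lit 76) (nat_lit 14374555788) (nat_lit 186) (nat_lit 5) (nat_lit 188) (nat_lit 5) (nat_lit 187) (nat_lit 4) (nat_lit 389) (nat_lit 346) (nat_lit 285)))))))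
noncomputable def xc109 : XT := (XT.nd (nat_lit 1248) (nat_lit 1900) (nat_lit 0) (XT.nd (nat_lit 624) (nat_lit 988) (nat_lit 0) (XT.nd (nat_lit 312) (nat_lit 456) (nat_lit 0) (XT.nd (nat_lit 156) (nat_lit 228) (nat_lit 0) (XT.nd (nat_lit 78) (nat_lit 152) (nat_lit 0) (XT.lf (nat_lit 0) (nat_lit 19071621317) (nat_lit 76) (nat_lit 7135333098) (nat_lit 152) (nat_lit 23334444848) (nat_lit 185) (nat_lit 5) (nat_lit 186) (nat_lit 5) (nat_lit 187) (nat_lit 4) (nat_lit 390) (nat_lit 346) (nat_lit 284)) (XT.lf (nat_lit 0) (nat_lit 1601568948) (nat_lit 152) (nat_lit 29740168723) (nat_lit 76) (nat_lit 20756040487) (nat_lit 183) (nat_lit 5) (nat_lit 185) (nat_lit 5) (nat_lit 184) (nat_lit 4) (nat_lit 391) (nat_lit 346) (nat_lit 283))) (XT.nd (nat_lit 78) (nat_lit 152) (nat_lit 0) (XT.lf (nat_lit 0) (nat_lit 25905783990) (nat_lit 76) (nat_lit 2849580916) (nat_lit 152) (nat_lit 26032154548) (nat_lit 182) (nat_lit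 5) (nat_lit 183) (nat_lit 5) (nat_lit 184) (nat_lit 4) (nat_lit 392) (nat_lit 346) (nat_lit 282)) (XT.lf (nat_lit 0) (nat_lit 1794180089) (nat_lit 152) (nat_lit 27808227285) (nat_lit 76) (nat_lit 28018848651) (nat_lit 180) (nat_lit 5) (nat_lit 182) (nat_lit 5) (nat_lit 181) (nat_lit 4) (nat_lit 393) (nat_lit 346) (nat_lit 281)))) (XT.nd (nat_lit 156) (nat_lit 228) (nat_lit 0) (XT.nd (nat_lit 78) (nat_lit 152) (nat_lit 0) (XT.lf (nat_lit 0) (nat_lit 32038877120) (nat_lit 152) (nat_lit 26529364535) (nat_lit 0) (nat_lit 2036897260) (nat_lit 179) (nat_lit 5) (nat_lit 181) (nat_lit 4) (nat_lit 179) (nat_lit 4) (nat_lit 394) (nat_lit 346) (nat_lit 280)) (XT.lf (nat_lit 0) (nat_lit 2438155767) (nat_lit 152) (nat_lit 25017677982) (nat_lit 76) (nat_lit 36291677444) (nat_lit 177) (nat_lit 5) (nat_lit 179) (nat_lit 5) (nat_lit 178) (nat_lit 4) (nat_lit 395) (nat_lit 346) (nat_lit 279))) (XT.nd (nat_lit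 78) (nat_lit 152) (nat_lit 0) (XT.lf (nat_lit 0) (nat_lit 36181991758) (nat_lit 152) (nat_lit 23289722129) (nat_lit 0) (nat_lit 7583150015) (nat_lit 176) (nat_lit 5) (nat_lit 178) (nat_lit 4) (nat_lit 176) (nat_lit 4) (nat_lit 396) (nat_lit 346) (nat_lit 278)) (XT.lf (nat_lit 0) (nat_lit 3608694688) (nat_lit 152) (nat_lit 21212381409) (nat_lit 76) (nat_lit 45720462081) (nat_lit 174) (nat_lit 5) (nat_lit 176) (nat_lit 5) (nat_lit 175) (nat_lit 4) (nat_lit 397) (nat_lit 346) (nat_lit 277))))) (XT.nd (nat_lit 312) (nat_lit 532) (nat_lit 0) (XT.nd (nat_lit 156) (nat_lit 228) (nat_lit 0) (XT.nd (nat_lit 78) (nat_lit 152) (nat_lit 0) (XT.lf (nat_lit 0) (nat_lit 41257134290) (nat_lit 152) (nat_lit 18950908809) (nat_lit 0) (nat_lit 13999298540) (nat_lit 173) (nat_lit 5) (nat_lit 175) (nat_lit 4) (nat_lit 173) (nat_lit 4) (nat_lit 398) (nat_lit 346) (nat_lit 276)) (XT.lf (nat_lit 0) (nat_lit 5392604146)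 (nat_lit 152) (nat_lit 16212275922) (nat_lit 76) (nat_lit 56470520039) (nat_lit 171) (nat_lit 5) (nat_lit 173) (nat_lit 5) (nat_lit 172) (nat_lit 4) (nat_lit 399) (nat_lit 346) (nat_lit 275))) (XT.nd (nat_lit 78) (nat_lit 152) (nat_lit 0) (XT.lf (nat_lit 0) (nat_lit 47397630648) (nat_lit 152) (nat_lit 13320036003) (nat_lit 0) (nat_lit 21420767992) (nat_lit 170) (nat_lit 5) (nat_lit 172) (nat_lit 4) (nat_lit 170) (nat_lit 4) (nat_lit 400) (nat_lit 346) (nat_lit 274)) (XT.lf (nat_lit 0) (nat_lit 7889923795) (nat_lit 152) (nat_lit 9810095034) (nat_lit 76) (nat_lit 68728975369) (nat_lit 168) (nat_lit 5) (nat_lit 170) (nat_lit 5) (nat_lit 169) (nat_lit 4) (nat_lit 401) (nat_lit 346) (nat_lit 273)))) (XT.nd (nat_lit 156) (nat_lit 304) (nat_lit 0) (XT.nd (nat_lit 78) (nat_lit 152) (nat_lit 0) (XT.lf (nat_lit 0) (nat_lit 54755385975) (nat_lit 152) (nat_lit 6175244765) (nat_lit 0) (nat_lit 30001620472)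 (nat_lit 167) (nat_lit 5) (nat_lit 169) (nat_lit 4) (nat_lit 167) (nat_lit 4) (nat_lit 402) (nat_lit 346) (nat_lit 272)) (XT.lf (nat_lit 0) (nat_lit 11215757750) (nat_lit 152) (nat_lit 1767648148) (nat_lit 76) (nat_lit 82707494828) (nat_lit 165) (nat_lit 5) (nat_lit 167) (nat_lit 5) (nat_lit 166) (nat_lit 4) (nat_lit 403) (nat_lit 346) (nat_lit 271))) (XT.nd (nat_lit 78) (nat_lit 152) (nat_lit 0) (XT.lf (nat_lit 0) (nat_lit 2828786942) (nat_lit 76) (nat_lit 60718702682) (nat_lit 76) (nat_lit 37132341400) (nat_lit 163) (nat_lit 4) (nat_lit 164) (nat_lit 5) (nat_lit 164) (nat_lit 4) (nat_lit 404) (nat_lit 346) (nat_lit 270)) (XT.lf (nat_lit 0) (nat_lit 8459134894) (nat_lit 76) (nat_lit 7175278351) (nat_lit 152) (nat_lit 90318307757) (nat_lit 161) (nat_lit 5) (nat_lit 162) (nat_lit 5) (nat_lit 163) (nat_lit 4) (nat_lit 405) (nat_lit 346) (nat_lit 269)))))) (XT.nd (nat_lit 624) (nat_lit 988) (nat_lit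 0) (XT.nd (nat_lit 312) (nat_lit 456) (nat_lit 0) (XT.nd (nat_lit 156) (nat_lit 228) (nat_lit 0) (XT.nd (nat_lit 78) (nat_lit 152) (nat_lit 0) (XT.lf (nat_lit 0) (nat_lit 14166025439) (nat_lit 76) (nat_lit 59893279766) (nat_lit 76) (nat_lit 37420813964) (nat_lit 160) (nat_lit 4) (nat_lit 161) (nat_lit 5) (nat_lit 161) (nat_lit 4) (nat_lit 406) (nat_lit 346) (nat_lit 268)) (XT.lf (nat_lit 0) (nat_lit 21044805948) (nat_lit 76) (nat_lit 185143290) (nat_lit 152) (nat_lit 96096761502) (nat_lit 158) (nat_lit 5) (nat_lit 159) (nat_lit 5) (nat_lit 160) (nat_lit 4) (nat_lit 407) (nat_lit 346) (nat_lit 267))) (XT.nd (nat_lit 78) (nat_lit 152) (nat_lit 0) (XT.lf (nat_lit 0) (nat_lit 27977993334) (nat_lit 76) (nat_lit 58442177267) (nat_lit 76) (nat_lit 37032264232) (nat_lit 157) (nat_lit 4) (nat_lit 158) (nat_lit 5) (nat_lit 158) (nat_lit 4) (nat_lit 408) (nat_lit 346) (nat_lit 266)) (XT.lf (nat_lit 0) (nat_lit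 28280652428) (nat_lit 152) (nat_lit 93760641409) (nat_lit 0) (nat_lit 7887051960) (nat_lit 155) (nat_lit 5) (nat_lit 157) (nat_lit 4) (nat_lit 155) (nat_lit 4) (nat_lit 409) (nat_lit 346) (nat_lit 265)))) (XT.nd (nat_lit 156) (nat_lit 228) (nat_lit 0) (XT.nd (nat_lit 78) (nat_lit 152) (nat_lit 0) (XT.lf (nat_lit 0) (nat_lit 44660163339) (nat_lit 76) (nat_lit 56229967041) (nat_lit 76) (nat_lit 35833397036) (nat_lit 154) (nat_lit 4) (nat_lit 155) (nat_lit 5) (nat_lit 155) (nat_lit 4) (nat_lit 410) (nat_lit 346) (nat_lit 264)) (XT.lf (nat_lit 0) (nat_lit 36892061161) (nat_lit 152) (nat_lit 89539904590) (nat_lit 0) (nat_lit 17464137755) (nat_lit 152) (nat_lit 5) (nat_lit 154) (nat_lit 4) (nat_lit 152) (nat_lit 4) (nat_lit 411) (nat_lit 346) (nat_lit 263))) (XT.nd (nat_lit 78) (nat_lit 152) (nat_lit 0) (XT.lf (nat_lit 0) (nat_lit 64664448948) (nat_lit 76) (nat_lit 53099901044) (nat_lit 76) (nat_lit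 33669552972) (nat_lit 151) (nat_lit 4) (nat_lit 152) (nat_lit 5) (nat_lit 152) (nat_lit 4) (nat_lit 412) (nat_lit 346) (nat_lit 262)) (XT.lf (nat_lit 0) (nat_lit 47300028422) (nat_lit 152) (nat_lit 83285075649) (nat_lit 0) (nat_lit 28792796865) (nat_lit 149) (nat_lit 5) (nat_lit 151) (nat_lit 4) (nat_lit 149) (nat_lit 4) (nat_lit 413) (nat_lit 346) (nat_lit 261))))) (XT.nd (nat_lit 312) (nat_lit 532) (nat_lit 0) (XT.nd (nat_lit 156) (nat_lit 228) (nat_lit 0) (XT.nd (nat_lit 78) (nat_lit 152) (nat_lit 0) (XT.lf (nat_lit 0) (nat_lit 88506737394) (nat_lit 76) (nat_lit 48870895501) (nat_lit 76) (nat_lit 30361684173) (nat_lit 148) (nat_lit 4) (nat_lit 149) (nat_lit 5) (nat_lit 149) (nat_lit 4) (nat_lit 414) (nat_lit 346) (nat_lit 260)) (XT.lf (nat_lit 0) (nat_lit 59777123563) (nat_lit 152) (nat_lit 74612861673) (nat_lit 0) (nat_lit 42147557419) (nat_lit 146) (nat_lit 5) (nat_lit 148) (nat_lit 4) (nat_lit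 146) (nat_lit 4) (nat_lit 415) (nat_lit 346) (nat_lit 259))) (XT.nd (nat_lit 78) (nat_lit 152) (nat_lit 0) (XT.lf (nat_lit 0) (nat_lit 116775390706) (nat_lit 76) (nat_lit 43334111023) (nat_lit 76) (nat_lit 25702928369) (nat_lit 145) (nat_lit 4) (nat_lit 146) (nat_lit 5) (nat_lit 146) (nat_lit 4) (nat_lit 416) (nat_lit 346) (nat_lit 258)) (XT.lf (nat_lit 0) (nat_lit 74634225025) (nat_lit 152) (nat_lit 63081182951) (nat_lit 0) (nat_lit 57841197004) (nat_lit 143) (nat_lit 5) (nat_lit 145) (nat_lit 4) (nat_lit 143) (nat_lit 4) (nat_lit 417) (nat_lit 346) (nat_lit 257)))) (XT.nd (nat_lit 156) (nat_lit 304) (nat_lit 0) (XT.nd (nat_lit 78) (nat_lit 152) (nat_lit 0) (XT.lf (nat_lit 0) (nat_lit 150140835465) (nat_lit 76) (nat_lit 36249077477) (nat_lit 76) (nat_lit 19454729554) (nat_lit 142) (nat_lit 4) (nat_lit 143) (nat_lit 5) (nat_lit 143) (nat_lit 4) (nat_lit 418) (nat_lit 346) (nat_lit 256)) (XT.lf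 (nat_lit 0) (nat_lit 92225575642) (nat_lit 152) (nat_lit 48180994566) (nat_lit 0) (nat_lit 76229794638) (nat_lit 140) (nat_lit 5) (nat_lit 142) (nat_lit 4) (nat_lit 140) (nat_lit 4) (nat_lit 419) (nat_lit 346) (nat_lit 255))) (XT.nd (nat_lit 78) (nat_lit 228) (nat_lit 0) (XT.lf (nat_lit 0) (nat_lit 189366376581) (nat_lit 76) (nat_lit 27339305906) (nat_lit 76) (nat_lit 11342447185) (nat_lit 139) (nat_lit 4) (nat_lit 140) (nat_lit 5) (nat_lit 140) (nat_lit 4) (nat_lit 420) (nat_lit 346) (nat_lit 254)) (XT.nd (nat_lit 78) (nat_lit 76) (nat_lit 0) (XT.lf (nat_lit 0) (nat_lit 112954481254) (nat_lit 152) (nat_lit 29327029798) (nat_lit 0) (nat_lit 97718427342) (nat_lit 137) (nat_lit 5) (nat_lit 139) (nat_lit 4) (nat_lit 137) (nat_lit 4) (nat_lit 421) (nat_lit 346) (nat_lit 253)) (XT.lf (nat_lit 0) (nat_lit 235320387047) (nat_lit 76) (nat_lit 16287322537) (nat_lit 76) (nat_lit 1050388656) (nat_lit 136)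 (nat_lit 4) (nat_lit 137) (nat_lit 5) (nat_lit 137) (nat_lit 4) (nat_lit 422) (nat_lit 346) (nat_lit 252))))))))
noncomputable def xc110 : XT := (XT.nd (nat_lit 1248) (nat_lit 1140) (nat_lit 0) (XT.nd (nat_lit 624) (nat_lit 912) (nat_lit 0) (XT.nd (nat_lit 312) (nat_lit 456) (nat_lit 0) (XT.nd (nat_lit 156) (nat_lit 228) (nat_lit 0) (XT.nd (nat_lit 78) (nat_lit 228) (nat_lit 0) (XT.lf (nat_lit 0) (nat_lit 137279732615) (nat_lit 152) (nat_lit 5847328474) (nat_lit 0) (nat_lit 122767591025) (nat_lit 134) (nat_lit 5) (nat_lit 136) (nat_lit 4) (nat_lit 134) (nat_lit 4) (nat_lit 423) (nat_lit 346) (nat_lit 251)) (XT.lf (nat_lit 0) (nat_lit 9164086154) (nat_lit 76) (nat_lit 2385643724) (nat_lit 152) (nat_lit 268369205038) (nat_lit 131) (nat_lit 5) (nat_lit 132) (nat_lit 5) (nat_lit 133) (nat_lit 4) (nat_lit 424) (nat_lit 346) (nat_lit 250))) (XT.nd (nat_lit 78) (nat_lit 152) (nat_lit 0) (XT.lf (nat_lit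 0) (nat_lit 23790033263) (nat_lit 76) (nat_lit 142304236107) (nat_lit 76) (nat_lit 128481830982) (nat_lit 130) (nat_lit 4) (nat_lit 131) (nat_lit 5) (nat_lit 131) (nat_lit 4) (nat_lit 425) (nat_lit 346) (nat_lit 249)) (XT.lf (nat_lit 0) (nat_lit 27585161158) (nat_lit 152) (nat_lit 268097038123) (nat_lit 0) (nat_lit 14420407067) (nat_lit 128) (nat_lit 5) (nat_lit 130) (nat_lit 4) (nat_lit 128) (nat_lit 4) (nat_lit 426) (nat_lit 346) (nat_lit 248)))) (XT.nd (nat_lit 156) (nat_lit 228) (nat_lit 0) (XT.nd (nat_lit 78) (nat_lit 152) (nat_lit 0) (XT.lf (nat_lit 0) (nat_lit 60106975859) (nat_lit 76) (nat_lit 139707645557) (nat_lit 76) (nat_lit 126542374119) (nat_lit 127) (nat_lit 4) (nat_lit 128) (nat_lit 5) (nat_lit 128) (nat_lit 4) (nat_lit 427) (nat_lit 346) (nat_lit 247)) (XT.lf (nat_lit 0) (nat_lit 47146171647) (nat_lit 152) (nat_lit 261796641688) (nat_lit 0) (nat_lit 34607361683) (nat_lit 125)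 (nat_lit 5) (nat_lit 127) (nat_lit 4) (nat_lit 125) (nat_lit 4) (nat_lit 428) (nat_lit 346) (nat_lit 246))) (XT.nd (nat_lit 78) (nat_lit 152) (nat_lit 0) (XT.lf (nat_lit 0) (nat_lit 103952983001) (nat_lit 76) (nat_lit 135082197303) (nat_lit 76) (nat_lit 122542964919) (nat_lit 124) (nat_lit 4) (nat_lit 125) (nat_lit 5) (nat_lit 125) (nat_lit 4) (nat_lit 429) (nat_lit 346) (nat_lit 245)) (XT.lf (nat_lit 0) (nat_lit 70748353864) (nat_lit 152) (nat_lit 251062771760) (nat_lit 0) (nat_lit 58805855280) (nat_lit 122) (nat_lit 5) (nat_lit 124) (nat_lit 4) (nat_lit 122) (nat_lit 4) (nat_lit 430) (nat_lit 346) (nat_lit 244))))) (XT.nd (nat_lit 312) (nat_lit 456) (nat_lit 0) (XT.nd (nat_lit 156) (nat_lit 228) (nat_lit 0) (XT.nd (nat_lit 78) (nat_lit 152) (nat_lit 0) (XT.lf (nat_lit 0) (nat_lit 156519750636) (nat_lit 76) (nat_lit 128017593753) (nat_lit 76) (nat_lit 116074750257) (nat_lit 121) (nat_lit 4)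 (nat_lit 122) (nat_lit 5) (nat_lit 122) (nat_lit 4) (nat_lit 431) (nat_lit 346) (nat_lit 243)) (XT.lf (nat_lit 0) (nat_lit 99023262185) (nat_lit 152) (nat_lit 235022743999) (nat_lit 0) (nat_lit 87648821369) (nat_lit 119) (nat_lit 5) (nat_lit 121) (nat_lit 4) (nat_lit 119) (nat_lit 4) (nat_lit 432) (nat_lit 346) (nat_lit 242))) (XT.nd (nat_lit 78) (nat_lit 152) (nat_lit 0) (XT.lf (nat_lit 0) (nat_lit 219167757814) (nat_lit 76) (nat_lit 118039382284) (nat_lit 76) (nat_lit 106664659842) (nat_lit 118) (nat_lit 4) (nat_lit 119) (nat_lit 5) (nat_lit 119) (nat_lit 4) (nat_lit 433) (nat_lit 346) (nat_lit 241)) (XT.lf (nat_lit 0) (nat_lit 132691661564) (nat_lit 152) (nat_lit 212667998301) (nat_lit 0) (nat_lit 121858344226) (nat_lit 116) (nat_lit 5) (nat_lit 118) (nat_lit 4) (nat_lit 116) (nat_lit 4) (nat_lit 434) (nat_lit 346) (nat_lit 240)))) (XT.nd (nat_lit 156) (nat_lit 228) (nat_lit 0) (XT.nd (nat_lit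 78) (nat_lit 152) (nat_lit 0) (XT.lf (nat_lit 0) (nat_lit 293448733260) (nat_lit 76) (nat_lit 104599915036) (nat_lit 76) (nat_lit 93766367747) (nat_lit 115) (nat_lit 4) (nat_lit 116) (nat_lit 5) (nat_lit 116) (nat_lit 4) (nat_lit 435) (nat_lit 346) (nat_lit 239)) (XT.lf (nat_lit 0) (nat_lit 172575368249) (nat_lit 152) (nat_lit 182835027330) (nat_lit 0) (nat_lit 162257501387) (nat_lit 113) (nat_lit 5) (nat_lit 115) (nat_lit 4) (nat_lit 113) (nat_lit 4) (nat_lit 436) (nat_lit 346) (nat_lit 238))) (XT.nd (nat_lit 78) (nat_lit 152) (nat_lit 0) (XT.lf (nat_lit 0) (nat_lit 381130997775) (nat_lit 76) (nat_lit 87068109248) (nat_lit 76) (nat_lit 76750054628) (nat_lit 112) (nat_lit 4) (nat_lit 113) (nat_lit 5) (nat_lit 113) (nat_lit 4) (nat_lit 437) (nat_lit 346) (nat_lit 237)) (XT.lf (nat_lit 0) (nat_lit 219610603713) (nat_lit 152) (nat_lit 144183779746) (nat_lit 0) (nat_lit 209783719456) (nat_lit 110)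 (nat_lit 5) (nat_lit 112) (nat_lit 4) (nat_lit 110) (nat_lit 4) (nat_lit 438) (nat_lit 346) (nat_lit 236)))))) (XT.nd (nat_lit 624) (nat_lit 152) (nat_lit 0) (XT.nd (nat_lit 312) (nat_lit 532) (nat_lit 0) (XT.nd (nat_lit 156) (nat_lit 228) (nat_lit 0) (XT.nd (nat_lit 78) (nat_lit 152) (nat_lit 0) (XT.lf (nat_lit 0) (nat_lit 484228040711) (nat_lit 76) (nat_lit 64717855000) (nat_lit 76) (nat_lit 54890817437) (nat_lit 109) (nat_lit 4) (nat_lit 110) (nat_lit 5) (nat_lit 110) (nat_lit 4) (nat_lit 439) (nat_lit 346) (nat_lit 235)) (XT.lf (nat_lit 0) (nat_lit 274863050114) (nat_lit 152) (nat_lit 95173216091) (nat_lit 0) (nat_lit 265503831530) (nat_lit 107) (nat_lit 5) (nat_lit 109) (nat_lit 4) (nat_lit 107) (nat_lit 4) (nat_lit 440) (nat_lit 346) (nat_lit 234))) (XT.nd (nat_lit 78) (nat_lit 152) (nat_lit 0) (XT.lf (nat_lit 0) (nat_lit 605030732538) (nat_lit 76) (nat_lit 36714898157) (nat_lit 76) (nat_lit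 27355554396) (nat_lit 106) (nat_lit 4) (nat_lit 107) (nat_lit 5) (nat_lit 107) (nat_lit 4) (nat_lit 441) (nat_lit 346) (nat_lit 233)) (XT.lf (nat_lit 0) (nat_lit 339544818577) (nat_lit 152) (nat_lit 34033655240) (nat_lit 0) (nat_lit 330631047467) (nat_lit 104) (nat_lit 5) (nat_lit 106) (nat_lit 4) (nat_lit 104) (nat_lit 4) (nat_lit 442) (nat_lit 346) (nat_lit 232)))) (XT.nd (nat_lit 156) (nat_lit 228) (nat_lit 0) (XT.nd (nat_lit 78) (nat_lit 76) (nat_lit 0) (XT.lf (nat_lit 0) (nat_lit 4755723946) (nat_lit 76) (nat_lit 1912372280) (nat_lit 152) (nat_lit 734756634758) (nat_lit 101) (nat_lit 5) (nat_lit 102) (nat_lit 5) (nat_lit 103) (nat_lit 4) (nat_lit 443) (nat_lit 346) (nat_lit 231)) (XT.lf (nat_lit 0) (nat_lit 42628886120) (nat_lit 76) (nat_lit 373070237583) (nat_lit 76) (nat_lit 364580744292) (nat_lit 100) (nat_lit 4) (nat_lit 101) (nat_lit 5) (nat_lit 101) (nat_lit 4) (nat_lit 444) (nat_lit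 346) (nat_lit 230))) (XT.nd (nat_lit 78) (nat_lit 76) (nat_lit 0) (XT.lf (nat_lit 0) (nat_lit 49234148462) (nat_lit 152) (nat_lit 731075352206) (nat_lit 0) (nat_lit 41148837275) (nat_lit 98) (nat_lit 5) (nat_lit 100) (nat_lit 4) (nat_lit 98) (nat_lit 4) (nat_lit 445) (nat_lit 346) (nat_lit 229)) (XT.lf (nat_lit 0) (nat_lit 137445188691) (nat_lit 76) (nat_lit 367594751430) (nat_lit 76) (nat_lit 359509366650) (nat_lit 97) (nat_lit 4) (nat_lit 98) (nat_lit 5) (nat_lit 98) (nat_lit 4) (nat_lit 446) (nat_lit 346) (nat_lit 228))))) (XT.nd (nat_lit 45552) (nat_lit 0) (nat_lit 15428) (XT.nd (nat_lit 45396) (nat_lit 0) (nat_lit 16568) (XT.nd (nat_lit 45318) (nat_lit 0) (nat_lit 17176) (XT.lf (nat_lit 0) (nat_lit 100959452781) (nat_lit 152) (nat_lit 715926946352) (nat_lit 0) (nat_lit 93259021427) (nat_lit 95) (nat_lit 5) (nat_lit 97) (nat_lit 4) (nat_lit 95) (nat_lit 4) (nat_lit 447) (nat_lit 346) (nat_lit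 227)) (XT.lf (nat_lit 0) (nat_lit 1960330637) (nat_lit 0) (nat_lit 1960330637) (nat_lit 532) (nat_lit 2873117) (nat_lit 321) (nat_lit 5) (nat_lit 321) (nat_lit 3) (nat_lit 328) (nat_lit 3) (nat_lit 347) (nat_lit 347) (nat_lit 326))) (XT.nd (nat_lit 78) (nat_lit 0) (nat_lit 0) (XT.lf (nat_lit 0) (nat_lit 2032115422) (nat_lit 608) (nat_lit 5656318560) (nat_lit 684) (nat_lit 370627206) (nat_lit 313) (nat_lit 5) (nat_lit 321) (nat_lit 5) (nat_lit 322) (nat_lit 5) (nat_lit 348) (nat_lit 347) (nat_lit 325)) (XT.lf (nat_lit 76) (nat_lit 936769049) (nat_lit 0) (nat_lit 3246525616) (nat_lit 684) (nat_lit 4107189111) (nat_lit 314) (nat_lit 5) (nat_lit 313) (nat_lit 5) (nat_lit 322) (nat_lit 5) (nat_lit 349) (nat_lit 347) (nat_lit 324)))) (XT.nd (nat_lit 156) (nat_lit 532) (nat_lit 0) (XT.nd (nat_lit 78) (nat_lit 684) (nat_lit 0) (XT.lf (nat_lit 0) (nat_lit 6445296729) (nat_lit 608) (nat_lit 427021610)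 (nat_lit 684) (nat_lit 1671165409) (nat_lit 314) (nat_lit 5) (nat_lit 322) (nat_lit 5) (nat_lit 323) (nat_lit 5) (nat_lit 350) (nat_lit 347) (nat_lit 323)) (XT.lf (nat_lit 0) (nat_lit 63031973) (nat_lit 684) (nat_lit 1707119146) (nat_lit 760) (nat_lit 7046827439) (nat_lit 305) (nat_lit 5) (nat_lit 314) (nat_lit 5) (nat_lit 315) (nat_lit 5) (nat_lit 351) (nat_lit 347) (nat_lit 322))) (XT.nd (nat_lit 78) (nat_lit 608) (nat_lit 0) (XT.lf (nat_lit 0) (nat_lit 2326891683) (nat_lit 684) (nat_lit 2975186882) (nat_lit 760) (nat_lit 3808391891) (nat_lit 306) (nat_lit 5) (nat_lit 315) (nat_lit 5) (nat_lit 316) (nat_lit 5) (nat_lit 352) (nat_lit 347) (nat_lit 321)) (XT.nd (nat_lit 78) (nat_lit 684) (nat_lit 0) (XT.lf (nat_lit 0) (nat_lit 4769320321) (nat_lit 684) (nat_lit 4177034930) (nat_lit 76) (nat_lit 481213447) (nat_lit 307) (nat_lit 5) (nat_lit 316) (nat_lit 5) (nat_lit 308) (nat_lit 5) (nat_lit 353)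 (nat_lit 347) (nat_lit 320)) (XT.lf (nat_lit 0) (nat_lit 4401963736) (nat_lit 684) (nat_lit 3073469189) (nat_lit 760) (nat_lit 2291187390) (nat_lit 298) (nat_lit 5) (nat_lit 307) (nat_lit 5) (nat_lit 308) (nat_lit 5) (nat_lit 354) (nat_lit 347) (nat_lit 319))))))))
noncomputable def xc111 : XT := (XT.nd (nat_lit 1248) (nat_lit 2964) (nat_lit 0) (XT.nd (nat_lit 624) (nat_lit 2052) (nat_lit 0) (XT.nd (nat_lit 312) (nat_lit 1064) (nat_lit 0) (XT.nd (nat_lit 156) (nat_lit 760) (nat_lit 0) (XT.nd (nat_lit 78) (nat_lit 456) (nat_lit 0) (XT.lf (nat_lit 0) (nat_lit 305665307) (nat_lit 836) (nat_lit 6507612424) (nat_lit 76) (nat_lit 3316865469) (nat_lit 287) (nat_lit 5) (nat_lit 298) (nat_lit 5) (nat_lit 288) (nat_lit 5) (nat_lit 355) (nat_lit 347) (nat_lit 318)) (XT.lf (nat_lit 0) (nat_lit 2880075200) (nat_lit 456) (nat_lit 215244619) (nat_lit 532) (nat_lit 7422283791) (nat_lit 281) (nat_lit 5) (nat_lit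 287) (nat_lit 5) (nat_lit 288) (nat_lit 5) (nat_lit 356) (nat_lit 347) (nat_lit 317))) (XT.nd (nat_lit 78) (nat_lit 380) (nat_lit 0) (XT.lf (nat_lit 0) (nat_lit 2157026903) (nat_lit 380) (nat_lit 4088054193) (nat_lit 456) (nat_lit 4684133039) (nat_lit 276) (nat_lit 5) (nat_lit 281) (nat_lit 5) (nat_lit 282) (nat_lit 5) (nat_lit 357) (nat_lit 347) (nat_lit 316)) (XT.lf (nat_lit 0) (nat_lit 1512073282) (nat_lit 380) (nat_lit 8232364296) (nat_lit 456) (nat_lit 1624435207) (nat_lit 271) (nat_lit 5) (nat_lit 276) (nat_lit 5) (nat_lit 277) (nat_lit 5) (nat_lit 358) (nat_lit 347) (nat_lit 315)))) (XT.nd (nat_lit 156) (nat_lit 380) (nat_lit 0) (XT.nd (nat_lit 78) (nat_lit 304) (nat_lit 0) (XT.lf (nat_lit 0) (nat_lit 906132588) (nat_lit 304) (nat_lit 850412974) (nat_lit 380) (nat_lit 10079333118) (nat_lit 266) (nat_lit 5) (nat_lit 270) (nat_lit 5) (nat_lit 271) (nat_lit 5) (nat_lit 359) (nat_lit 347)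 (nat_lit 314)) (XT.lf (nat_lit 0) (nat_lit 297482788) (nat_lit 304) (nat_lit 5242584916) (nat_lit 380) (nat_lit 6789397079) (nat_lit 262) (nat_lit 5) (nat_lit 266) (nat_lit 5) (nat_lit 267) (nat_lit 5) (nat_lit 360) (nat_lit 347) (nat_lit 313))) (XT.nd (nat_lit 78) (nat_lit 380) (nat_lit 0) (XT.lf (nat_lit 0) (nat_lit 9780416574) (nat_lit 380) (nat_lit 220585624) (nat_lit 76) (nat_lit 2853828328) (nat_lit 262) (nat_lit 5) (nat_lit 267) (nat_lit 5) (nat_lit 263) (nat_lit 5) (nat_lit 361) (nat_lit 347) (nat_lit 312)) (XT.lf (nat_lit 0) (nat_lit 1108839566) (nat_lit 380) (nat_lit 686415713) (nat_lit 76) (nat_lit 11616183882) (nat_lit 257) (nat_lit 5) (nat_lit 262) (nat_lit 5) (nat_lit 258) (nat_lit 5) (nat_lit 362) (nat_lit 347) (nat_lit 311))))) (XT.nd (nat_lit 312) (nat_lit 912) (nat_lit 0) (XT.nd (nat_lit 156) (nat_lit 608) (nat_lit 0) (XT.nd (nat_lit 78) (nat_lit 228) (nat_lit 0) (XT.lf (nat_lit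 0) (nat_lit 5754908582) (nat_lit 380) (nat_lit 1163058309) (nat_lit 76) (nat_lit 7080296199) (nat_lit 253) (nat_lit 5) (nat_lit 258) (nat_lit 5) (nat_lit 254) (nat_lit 5) (nat_lit 363) (nat_lit 347) (nat_lit 310)) (XT.lf (nat_lit 0) (nat_lit 10972181278) (nat_lit 304) (nat_lit 1545196802) (nat_lit 76) (nat_lit 2104678945) (nat_lit 250) (nat_lit 5) (nat_lit 254) (nat_lit 5) (nat_lit 251) (nat_lit 5) (nat_lit 364) (nat_lit 347) (nat_lit 309))) (XT.nd (nat_lit 78) (nat_lit 228) (nat_lit 0) (XT.lf (nat_lit 0) (nat_lit 1542539588) (nat_lit 380) (nat_lit 1899345433) (nat_lit 76) (nat_lit 11839174917) (nat_lit 245) (nat_lit 5) (nat_lit 250) (nat_lit 5) (nat_lit 246) (nat_lit 5) (nat_lit 365) (nat_lit 347) (nat_lit 308)) (XT.lf (nat_lit 0) (nat_lit 7296862914) (nat_lit 304) (nat_lit 2242386571) (nat_lit 76) (nat_lit 6436822467) (nat_lit 242) (nat_lit 5) (nat_lit 246) (nat_lit 5) (nat_lit 243) (nat_lit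 5) (nat_lit 366) (nat_lit 347) (nat_lit 307)))) (XT.nd (nat_lit 156) (nat_lit 380) (nat_lit 0) (XT.nd (nat_lit 78) (nat_lit 304) (nat_lit 0) (XT.lf (nat_lit 0) (nat_lit 13762426666) (nat_lit 304) (nat_lit 2467932278) (nat_lit 76) (nat_lit 483781255) (nat_lit 239) (nat_lit 5) (nat_lit 243) (nat_lit 5) (nat_lit 240) (nat_lit 5) (nat_lit 367) (nat_lit 347) (nat_lit 306)) (XT.lf (nat_lit 0) (nat_lit 3500740242) (nat_lit 304) (nat_lit 2713263207) (nat_lit 76) (nat_lit 11276212570) (nat_lit 235) (nat_lit 5) (nat_lit 239) (nat_lit 5) (nat_lit 236) (nat_lit 5) (nat_lit 368) (nat_lit 347) (nat_lit 305))) (XT.nd (nat_lit 78) (nat_lit 152) (nat_lit 0) (XT.lf (nat_lit 0) (nat_lit 10664611780) (nat_lit 304) (nat_lit 2881980435) (nat_lit 76) (nat_lit 4764434496) (nat_lit 232) (nat_lit 5) (nat_lit 236) (nat_lit 5) (nat_lit 233) (nat_lit 5) (nat_lit 369) (nat_lit 347) (nat_lit 304)) (XT.lf (nat_lit 0) (nat_lit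 16240960327) (nat_lit 152) (nat_lit 2504422805) (nat_lit 228) (nat_lit 434929621) (nat_lit 230) (nat_lit 5) (nat_lit 232) (nat_lit 5) (nat_lit 233) (nat_lit 5) (nat_lit 370) (nat_lit 347) (nat_lit 303)))))) (XT.nd (nat_lit 624) (nat_lit 1444) (nat_lit 0) (XT.nd (nat_lit 312) (nat_lit 684) (nat_lit 0) (XT.nd (nat_lit 156) (nat_lit 380) (nat_lit 0) (XT.nd (nat_lit 78) (nat_lit 152) (nat_lit 0) (XT.lf (nat_lit 0) (nat_lit 7531270268) (nat_lit 304) (nat_lit 3034094625) (nat_lit 76) (nat_lit 9527378725) (nat_lit 226) (nat_lit 5) (nat_lit 230) (nat_lit 5) (nat_lit 227) (nat_lit 5) (nat_lit 371) (nat_lit 347) (nat_lit 302)) (XT.lf (nat_lit 0) (nat_lit 16465327560) (nat_lit 228) (nat_lit 2966375770) (nat_lit 76) (nat_lit 1628819161) (nat_lit 224) (nat_lit 5) (nat_lit 227) (nat_lit 5) (nat_lit 225) (nat_lit 5) (nat_lit 372) (nat_lit 347) (nat_lit 301))) (XT.nd (nat_lit 78) (nat_lit 152) (nat_lit 0) (XT.lf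 (nat_lit 0) (nat_lit 4365011641) (nat_lit 228) (nat_lit 2888676979) (nat_lit 76) (nat_lit 14824659984) (nat_lit 221) (nat_lit 5) (nat_lit 224) (nat_lit 5) (nat_lit 222) (nat_lit 5) (nat_lit 373) (nat_lit 347) (nat_lit 300)) (XT.lf (nat_lit 0) (nat_lit 14301641950) (nat_lit 228) (nat_lit 2718162929) (nat_lit 76) (nat_lit 6132999352) (nat_lit 219) (nat_lit 5) (nat_lit 222) (nat_lit 5) (nat_lit 220) (nat_lit 5) (nat_lit 374) (nat_lit 347) (nat_lit 299)))) (XT.nd (nat_lit 156) (nat_lit 304) (nat_lit 0) (XT.nd (nat_lit 78) (nat_lit 152) (nat_lit 0) (XT.lf (nat_lit 0) (nat_lit 1168463487) (nat_lit 228) (nat_lit 2402328199) (nat_lit 76) (nat_lit 20718286513) (nat_lit 216) (nat_lit 5) (nat_lit 219) (nat_lit 5) (nat_lit 217) (nat_lit 5) (nat_lit 375) (nat_lit 347) (nat_lit 298)) (XT.lf (nat_lit 0) (nat_lit 12229570421) (nat_lit 228) (nat_lit 2108469636) (nat_lit 76) (nat_lit 11143458341) (nat_lit 214)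 (nat_lit 5) (nat_lit 217) (nat_lit 5) (nat_lit 215) (nat_lit 5) (nat_lit 376) (nat_lit 347) (nat_lit 297))) (XT.nd (nat_lit 78) (nat_lit 152) (nat_lit 0) (XT.lf (nat_lit 0) (nat_lit 24632479613) (nat_lit 228) (nat_lit 1565119985) (nat_lit 76) (nat_lit 548866929) (nat_lit 212) (nat_lit 5) (nat_lit 215) (nat_lit 5) (nat_lit 213) (nat_lit 4) (nat_lit 377) (nat_lit 347) (nat_lit 296)) (XT.lf (nat_lit 0) (nat_lit 10265410036) (nat_lit 152) (nat_lit 1081265734) (nat_lit 76) (nat_lit 16724828188) (nat_lit 210) (nat_lit 5) (nat_lit 212) (nat_lit 5) (nat_lit 211) (nat_lit 5) (nat_lit 378) (nat_lit 347) (nat_lit 295))))) (XT.nd (nat_lit 312) (nat_lit 684) (nat_lit 0) (XT.nd (nat_lit 156) (nat_lit 304) (nat_lit 0) (XT.nd (nat_lit 78) (nat_lit 304) (nat_lit 0) (XT.lf (nat_lit 0) (nat_lit 24082240855) (nat_lit 228) (nat_lit 356437422) (nat_lit 76) (nat_lit 5036076035) (nat_lit 208) (nat_lit 5) (nat_lit 211)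 (nat_lit 5) (nat_lit 209) (nat_lit 4) (nat_lit 379) (nat_lit 347) (nat_lit 294)) (XT.lf (nat_lit 0) (nat_lit 443536953) (nat_lit 152) (nat_lit 7991340160) (nat_lit 228) (nat_lit 22515270081) (nat_lit 204) (nat_lit 5) (nat_lit 206) (nat_lit 5) (nat_lit 207) (nat_lit 5) (nat_lit 380) (nat_lit 347) (nat_lit 293))) (XT.nd (nat_lit 78) (nat_lit 228) (nat_lit 0) (XT.lf (nat_lit 0) (nat_lit 1414794710) (nat_lit 76) (nat_lit 22433149210) (nat_lit 152) (nat_lit 8657786874) (nat_lit 203) (nat_lit 5) (nat_lit 204) (nat_lit 5) (nat_lit 205) (nat_lit 4) (nat_lit 381) (nat_lit 347) (nat_lit 292)) (XT.lf (nat_lit 0) (nat_lit 2582925481) (nat_lit 152) (nat_lit 4196455767) (nat_lit 228) (nat_lit 27367805770) (nat_lit 200) (nat_lit 5) (nat_lit 202) (nat_lit 5) (nat_lit 203) (nat_lit 5) (nat_lit 382) (nat_lit 347) (nat_lit 291)))) (XT.nd (nat_lit 156) (nat_lit 380) (nat_lit 0) (XT.nd (nat_lit 78) (nat_lit 228)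 (nat_lit 0) (XT.lf (nat_lit 0) (nat_lit 3817405534) (nat_lit 76) (nat_lit 20146120544) (nat_lit 152) (nat_lit 11908570619) (nat_lit 199) (nat_lit 5) (nat_lit 200) (nat_lit 5) (nat_lit 201) (nat_lit 4) (nat_lit 383) (nat_lit 347) (nat_lit 290)) (XT.lf (nat_lit 0) (nat_lit 5309784359) (nat_lit 228) (nat_lit 32305515092) (nat_lit 76) (nat_lit 82182068) (nat_lit 196) (nat_lit 5) (nat_lit 199) (nat_lit 5) (nat_lit 197) (nat_lit 4) (nat_lit 384) (nat_lit 347) (nat_lit 289))) (XT.nd (nat_lit 78) (nat_lit 304) (nat_lit 0) (XT.lf (nat_lit 0) (nat_lit 6938310091) (nat_lit 76) (nat_lit 17532990383) (nat_lit 152) (nat_lit 15138689978) (nat_lit 195) (nat_lit 5) (nat_lit 196) (nat_lit 5) (nat_lit 197) (nat_lit 4) (nat_lit 385) (nat_lit 347) (nat_lit 288)) (XT.nd (nat_lit 78) (nat_lit 76) (nat_lit 0) (XT.lf (nat_lit 0) (nat_lit 4130592288) (nat_lit 228) (nat_lit 32734549658) (nat_lit 76) (nat_lit 4770030338)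 (nat_lit 192) (nat_lit 5) (nat_lit 195) (nat_lit 5) (nat_lit 193) (nat_lit 4) (nat_lit 386) (nat_lit 347) (nat_lit 287)) (XT.lf (nat_lit 0) (nat_lit 10891395964) (nat_lit 76) (nat_lit 14534995135) (nat_lit 152) (nat_lit 18332800806) (nat_lit 191) (nat_lit 5) (nat_lit 192) (nat_lit 5) (nat_lit 193) (nat_lit 4) (nat_lit 387) (nat_lit 347) (nat_lit 286))))))))
noncomputable def xc112 : XT := (XT.nd (nat_lit 1248) (nat_lit 1900) (nat_lit 0) (XT.nd (nat_lit 624) (nat_lit 912) (nat_lit 0) (XT.nd (nat_lit 312) (nat_lit 456) (nat_lit 0) (XT.nd (nat_lit 156) (nat_lit 228) (nat_lit 0) (XT.nd (nat_lit 78) (nat_lit 76) (nat_lit 0) (XT.lf (nat_lit 0) (nat_lit 3214506418) (nat_lit 152) (nat_lit 32706350196) (nat_lit 76) (nat_lit 10084537861) (nat_lit 189) (nat_lit 5) (nat_lit 191) (nat_lit 5) (nat_lit 190) (nat_lit 4) (nat_lit 388) (nat_lit 347) (nat_lit 285)) (XT.lf (nat_lit 0) (nat_lit 15807693099) (nat_lit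 76) (nat_lit 11084325290) (nat_lit 152) (nat_lit 21471812367) (nat_lit 188) (nat_lit 5) (nat_lit 189) (nat_lit 5) (nat_lit 190) (nat_lit 4) (nat_lit 389) (nat_lit 347) (nat_lit 284))) (XT.nd (nat_lit 78) (nat_lit 76) (nat_lit 0) (XT.lf (nat_lit 0) (nat_lit 2606114345) (nat_lit 152) (nat_lit 32127903345) (nat_lit 76) (nat_lit 16120560882) (nat_lit 186) (nat_lit 5) (nat_lit 188) (nat_lit 5) (nat_lit 187) (nat_lit 4) (nat_lit 390) (nat_lit 347) (nat_lit 283)) (XT.lf (nat_lit 0) (nat_lit 21837601721) (nat_lit 76) (nat_lit 7103049462) (nat_lit 152) (nat_lit 24532203000) (nat_lit 185) (nat_lit 5) (nat_lit 186) (nat_lit 5) (nat_lit 187) (nat_lit 4) (nat_lit 391) (nat_lit 347) (nat_lit 282)))) (XT.nd (nat_lit 156) (nat_lit 228) (nat_lit 0) (XT.nd (nat_lit 78) (nat_lit 76) (nat_lit 0) (XT.lf (nat_lit 0) (nat_lit 2357338729) (nat_lit 152) (nat_lit 30890813022) (nat_lit 76) (nat_lit 22986066446) (nat_lit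 183) (nat_lit 5) (nat_lit 185) (nat_lit 5) (nat_lit 184) (nat_lit 4) (nat_lit 392) (nat_lit 347) (nat_lit 281)) (XT.lf (nat_lit 0) (nat_lit 29153423788) (nat_lit 76) (nat_lit 2501870216) (nat_lit 152) (nat_lit 27485252011) (nat_lit 182) (nat_lit 5) (nat_lit 183) (nat_lit 5) (nat_lit 184) (nat_lit 4) (nat_lit 393) (nat_lit 347) (nat_lit 280))) (XT.nd (nat_lit 78) (nat_lit 76) (nat_lit 0) (XT.lf (nat_lit 0) (nat_lit 2528522179) (nat_lit 152) (nat_lit 28869170394) (nat_lit 76) (nat_lit 30803723550) (nat_lit 180) (nat_lit 5) (nat_lit 182) (nat_lit 5) (nat_lit 181) (nat_lit 4) (nat_lit 394) (nat_lit 347) (nat_lit 279)) (XT.lf (nat_lit 0) (nat_lit 35174977724) (nat_lit 152) (nat_lit 27518918118) (nat_lit 0) (nat_lit 2731004664) (nat_lit 179) (nat_lit 5) (nat_lit 181) (nat_lit 4) (nat_lit 179) (nat_lit 4) (nat_lit 395) (nat_lit 347) (nat_lit 278))))) (XT.nd (nat_lit 312) (nat_lit 456) (nat_lit 0) (XT.nd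 (nat_lit 156) (nat_lit 228) (nat_lit 0) (XT.nd (nat_lit 78) (nat_lit 76) (nat_lit 0) (XT.lf (nat_lit 0) (nat_lit 3189647247) (nat_lit 152) (nat_lit 25917128169) (nat_lit 76) (nat_lit 39712714721) (nat_lit 177) (nat_lit 5) (nat_lit 179) (nat_lit 5) (nat_lit 178) (nat_lit 4) (nat_lit 396) (nat_lit 347) (nat_lit 277)) (XT.lf (nat_lit 0) (nat_lit 39616385522) (nat_lit 152) (nat_lit 24080398005) (nat_lit 0) (nat_lit 8695477765) (nat_lit 176) (nat_lit 5) (nat_lit 178) (nat_lit 4) (nat_lit 176) (nat_lit 4) (nat_lit 397) (nat_lit 347) (nat_lit 276))) (XT.nd (nat_lit 78) (nat_lit 76) (nat_lit 0) (XT.lf (nat_lit 0) (nat_lit 4421710788) (nat_lit 152) (nat_lit 21866143248) (nat_lit 76) (nat_lit 49870791169) (nat_lit 174) (nat_lit 5) (nat_lit 176) (nat_lit 5) (nat_lit 175) (nat_lit 4) (nat_lit 398) (nat_lit 347) (nat_lit 275)) (XT.lf (nat_lit 0) (nat_lit 45066523778) (nat_lit 152) (nat_lit 19451794094) (nat_lit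 0) (nat_lit 15600170161) (nat_lit 173) (nat_lit 5) (nat_lit 175) (nat_lit 4) (nat_lit 173) (nat_lit 4) (nat_lit 399) (nat_lit 347) (nat_lit 274)))) (XT.nd (nat_lit 156) (nat_lit 228) (nat_lit 0) (XT.nd (nat_lit 78) (nat_lit 76) (nat_lit 0) (XT.lf (nat_lit 0) (nat_lit 6318274008) (nat_lit 152) (nat_lit 16521846866) (nat_lit 76) (nat_lit 61456598165) (nat_lit 171) (nat_lit 5) (nat_lit 173) (nat_lit 5) (nat_lit 172) (nat_lit 4) (nat_lit 400) (nat_lit 347) (nat_lit 273)) (XT.lf (nat_lit 0) (nat_lit 51669207808) (nat_lit 152) (nat_lit 13424890506) (nat_lit 0) (nat_lit 23591422766) (nat_lit 170) (nat_lit 5) (nat_lit 172) (nat_lit 4) (nat_lit 170) (nat_lit 4) (nat_lit 401) (nat_lit 347) (nat_lit 272))) (XT.nd (nat_lit 78) (nat_lit 76) (nat_lit 0) (XT.lf (nat_lit 0) (nat_lit 8987211875) (nat_lit 152) (nat_lit 9660496034) (nat_lit 76) (nat_lit 74672301117) (nat_lit 168) (nat_lit 5) (nat_lit 170) (nat_lit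 5) (nat_lit 169) (nat_lit 4) (nat_lit 402) (nat_lit 347) (nat_lit 271)) (XT.lf (nat_lit 0) (nat_lit 59588339062) (nat_lit 152) (nat_lit 5760188577) (nat_lit 0) (nat_lit 32835677559) (nat_lit 167) (nat_lit 5) (nat_lit 169) (nat_lit 4) (nat_lit 167) (nat_lit 4) (nat_lit 403) (nat_lit 347) (nat_lit 270)))))) (XT.nd (nat_lit 624) (nat_lit 912) (nat_lit 0) (XT.nd (nat_lit 312) (nat_lit 456) (nat_lit 0) (XT.nd (nat_lit 156) (nat_lit 228) (nat_lit 0) (XT.nd (nat_lit 78) (nat_lit 152) (nat_lit 0) (XT.lf (nat_lit 0) (nat_lit 12552688266) (nat_lit 152) (nat_lit 1024954083) (nat_lit 76) (nat_lit 89746546940) (nat_lit 165) (nat_lit 5) (nat_lit 167) (nat_lit 5) (nat_lit 166) (nat_lit 4) (nat_lit 404) (nat_lit 347) (nat_lit 269)) (XT.lf (nat_lit 0) (nat_lit 3943584951) (nat_lit 76) (nat_lit 65128522340) (nat_lit 76) (nat_lit 39640069289) (nat_lit 163) (nat_lit 4) (nat_lit 164) (nat_lit 5) (nat_lit 164) (nat_lit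 4) (nat_lit 405) (nat_lit 347) (nat_lit 268))) (XT.nd (nat_lit 78) (nat_lit 76) (nat_lit 0) (XT.lf (nat_lit 0) (nat_lit 9999918403) (nat_lit 76) (nat_lit 7313594695) (nat_lit 152) (nat_lit 97094008244) (nat_lit 161) (nat_lit 5) (nat_lit 162) (nat_lit 5) (nat_lit 163) (nat_lit 4) (nat_lit 406) (nat_lit 347) (nat_lit 267)) (XT.lf (nat_lit 0) (nat_lit 16139789123) (nat_lit 76) (nat_lit 64260298868) (nat_lit 76) (nat_lit 39977638792) (nat_lit 160) (nat_lit 4) (nat_lit 161) (nat_lit 5) (nat_lit 161) (nat_lit 4) (nat_lit 407) (nat_lit 347) (nat_lit 266)))) (XT.nd (nat_lit 156) (nat_lit 228) (nat_lit 0) (XT.nd (nat_lit 78) (nat_lit 76) (nat_lit 0) (XT.lf (nat_lit 0) (nat_lit 23335968531) (nat_lit 152) (nat_lit 103150239756) (nat_lit 0) (nat_lit 206258145) (nat_lit 158) (nat_lit 5) (nat_lit 160) (nat_lit 4) (nat_lit 158) (nat_lit 4) (nat_lit 408) (nat_lit 347) (nat_lit 265)) (XT.lf (nat_lit 0) (nat_lit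 31011209967) (nat_lit 76) (nat_lit 62715305740) (nat_lit 76) (nat_lit 39582477340) (nat_lit 157) (nat_lit 4) (nat_lit 158) (nat_lit 5) (nat_lit 158) (nat_lit 4) (nat_lit 409) (nat_lit 347) (nat_lit 264))) (XT.nd (nat_lit 78) (nat_lit 76) (nat_lit 0) (XT.lf (nat_lit 0) (nat_lit 30930886274) (nat_lit 152) (nat_lit 100475466544) (nat_lit 0) (nat_lit 8896871560) (nat_lit 155) (nat_lit 5) (nat_lit 157) (nat_lit 4) (nat_lit 155) (nat_lit 4) (nat_lit 410) (nat_lit 347) (nat_lit 263)) (XT.lf (nat_lit 0) (nat_lit 48984842844) (nat_lit 76) (nat_lit 60347293794) (nat_lit 76) (nat_lit 38310733180) (nat_lit 154) (nat_lit 4) (nat_lit 155) (nat_lit 5) (nat_lit 155) (nat_lit 4) (nat_lit 411) (nat_lit 347) (nat_lit 262))))) (XT.nd (nat_lit 312) (nat_lit 456) (nat_lit 0) (XT.nd (nat_lit 156) (nat_lit 228) (nat_lit 0) (XT.nd (nat_lit 78) (nat_lit 76) (nat_lit 0) (XT.lf (nat_lit 0) (nat_lit 40209586831) (nat_lit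 152) (nat_lit 95959755733) (nat_lit 0) (nat_lit 19220141184) (nat_lit 152) (nat_lit 5) (nat_lit 154) (nat_lit 4) (nat_lit 152) (nat_lit 4) (nat_lit 412) (nat_lit 347) (nat_lit 261)) (XT.lf (nat_lit 0) (nat_lit 70548641384) (nat_lit 76) (nat_lit 56986995637) (nat_lit 76) (nat_lit 35995471229) (nat_lit 151) (nat_lit 4) (nat_lit 152) (nat_lit 5) (nat_lit 152) (nat_lit 4) (nat_lit 413) (nat_lit 347) (nat_lit 260))) (XT.nd (nat_lit 78) (nat_lit 76) (nat_lit 0) (XT.lf (nat_lit 0) (nat_lit 51429824186) (nat_lit 152) (nat_lit 89244956095) (nat_lit 0) (nat_lit 31436063057) (nat_lit 149) (nat_lit 5) (nat_lit 151) (nat_lit 4) (nat_lit 149) (nat_lit 4) (nat_lit 414) (nat_lit 347) (nat_lit 259)) (XT.lf (nat_lit 0) (nat_lit 96259653702) (nat_lit 76) (nat_lit 52438866677) (nat_lit 76) (nat_lit 32443408212) (nat_lit 148) (nat_lit 4) (nat_lit 149) (nat_lit 5) (nat_lit 149) (nat_lit 4) (nat_lit 415) (nat_lit 347)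 (nat_lit 258)))) (XT.nd (nat_lit 156) (nat_lit 228) (nat_lit 0) (XT.nd (nat_lit 78) (nat_lit 76) (nat_lit 0) (XT.lf (nat_lit 0) (nat_lit 64885891885) (nat_lit 152) (nat_lit 79917222922) (nat_lit 0) (nat_lit 45841101340) (nat_lit 146) (nat_lit 5) (nat_lit 148) (nat_lit 4) (nat_lit 146) (nat_lit 4) (nat_lit 416) (nat_lit 347) (nat_lit 257)) (XT.lf (nat_lit 0) (nat_lit 126753204001) (nat_lit 76) (nat_lit 46477390166) (nat_lit 76) (nat_lit 27431213725) (nat_lit 145) (nat_lit 4) (nat_lit 146) (nat_lit 5) (nat_lit 146) (nat_lit 4) (nat_lit 417) (nat_lit 347) (nat_lit 256))) (XT.nd (nat_lit 78) (nat_lit 76) (nat_lit 0) (XT.lf (nat_lit 0) (nat_lit 80913464068) (nat_lit 152) (nat_lit 67499217981) (nat_lit 0) (nat_lit 62773026278) (nat_lit 143) (nat_lit 5) (nat_lit 145) (nat_lit 4) (nat_lit 143) (nat_lit 4) (nat_lit 418) (nat_lit 347) (nat_lit 255)) (XT.lf (nat_lit 0) (nat_lit 162753249820) (nat_lit 76)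 (nat_lit 38842890867) (nat_lit 76) (nat_lit 20701321474) (nat_lit 142) (nat_lit 4) (nat_lit 143) (nat_lit 5) (nat_lit 143) (nat_lit 4) (nat_lit 419) (nat_lit 347) (nat_lit 254)))))))
noncomputable def xc113 : XT := (XT.nd (nat_lit 1248) (nat_lit 1444) (nat_lit 0) (XT.nd (nat_lit 624) (nat_lit 912) (nat_lit 0) (XT.nd (nat_lit 312) (nat_lit 608) (nat_lit 0) (XT.nd (nat_lit 156) (nat_lit 228) (nat_lit 0) (XT.nd (nat_lit 78) (nat_lit 76) (nat_lit 0) (XT.lf (nat_lit 0) (nat_lit 99895054407) (nat_lit 152) (nat_lit 51441276604) (nat_lit 0) (nat_lit 82616371386) (nat_lit 140) (nat_lit 5) (nat_lit 142) (nat_lit 4) (nat_lit 140) (nat_lit 4) (nat_lit 420) (nat_lit 347) (nat_lit 253)) (XT.lf (nat_lit 0) (nat_lit 205084061134) (nat_lit 76) (nat_lit 29236794976) (nat_lit 76) (nat_lit 11957187985) (nat_lit 139) (nat_lit 4) (nat_lit 140) (nat_lit 5) (nat_lit 140) (nat_lit 4) (nat_lit 421) (nat_lit 347) (nat_lit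 252))) (XT.nd (nat_lit 78) (nat_lit 76) (nat_lit 0) (XT.lf (nat_lit 0) (nat_lit 122266169932) (nat_lit 152) (nat_lit 31111410441) (nat_lit 0) (nat_lit 105808586583) (nat_lit 137) (nat_lit 5) (nat_lit 139) (nat_lit 4) (nat_lit 137) (nat_lit 4) (nat_lit 422) (nat_lit 347) (nat_lit 251)) (XT.lf (nat_lit 0) (nat_lit 254683385401) (nat_lit 76) (nat_lit 17316266111) (nat_lit 76) (nat_lit 857928329) (nat_lit 136) (nat_lit 4) (nat_lit 137) (nat_lit 5) (nat_lit 137) (nat_lit 4) (nat_lit 423) (nat_lit 347) (nat_lit 250)))) (XT.nd (nat_lit 156) (nat_lit 228) (nat_lit 0) (XT.nd (nat_lit 78) (nat_lit 228) (nat_lit 0) (XT.lf (nat_lit 0) (nat_lit 148522246109) (nat_lit 152) (nat_lit 5783998017) (nat_lit 0) (nat_lit 132846973413) (nat_lit 134) (nat_lit 5) (nat_lit 136) (nat_lit 4) (nat_lit 134) (nat_lit 4) (nat_lit 424) (nat_lit 347) (nat_lit 249)) (XT.lf (nat_lit 0) (nat_lit 10430683715) (nat_lit 76) (nat_lit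 2304229658) (nat_lit 152) (nat_lit 289564476081) (nat_lit 131) (nat_lit 5) (nat_lit 132) (nat_lit 5) (nat_lit 133) (nat_lit 4) (nat_lit 425) (nat_lit 347) (nat_lit 248))) (XT.nd (nat_lit 78) (nat_lit 152) (nat_lit 0) (XT.lf (nat_lit 0) (nat_lit 26211949187) (nat_lit 76) (nat_lit 153423752831) (nat_lit 76) (nat_lit 138493791808) (nat_lit 130) (nat_lit 4) (nat_lit 131) (nat_lit 5) (nat_lit 131) (nat_lit 4) (nat_lit 426) (nat_lit 347) (nat_lit 247)) (XT.lf (nat_lit 0) (nat_lit 30042806891) (nat_lit 152) (nat_lit 289032148955) (nat_lit 0) (nat_lit 15823317368) (nat_lit 128) (nat_lit 5) (nat_lit 130) (nat_lit 4) (nat_lit 128) (nat_lit 4) (nat_lit 427) (nat_lit 347) (nat_lit 246))))) (XT.nd (nat_lit 312) (nat_lit 456) (nat_lit 0) (XT.nd (nat_lit 156) (nat_lit 228) (nat_lit 0) (XT.nd (nat_lit 78) (nat_lit 152) (nat_lit 0) (XT.lf (nat_lit 0) (nat_lit 65405906905) (nat_lit 76) (nat_lit 150633792950) (nat_lit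 76) (nat_lit 136413859886) (nat_lit 127) (nat_lit 4) (nat_lit 128) (nat_lit 5) (nat_lit 128) (nat_lit 4) (nat_lit 428) (nat_lit 347) (nat_lit 245)) (XT.lf (nat_lit 0) (nat_lit 51154890983) (nat_lit 152) (nat_lit 282255740298) (nat_lit 0) (nat_lit 37611706459) (nat_lit 125) (nat_lit 5) (nat_lit 127) (nat_lit 4) (nat_lit 125) (nat_lit 4) (nat_lit 429) (nat_lit 347) (nat_lit 244))) (XT.nd (nat_lit 78) (nat_lit 152) (nat_lit 0) (XT.lf (nat_lit 0) (nat_lit 112732792820) (nat_lit 76) (nat_lit 145651907706) (nat_lit 76) (nat_lit 132108361025) (nat_lit 124) (nat_lit 4) (nat_lit 125) (nat_lit 5) (nat_lit 125) (nat_lit 4) (nat_lit 430) (nat_lit 347) (nat_lit 243)) (XT.lf (nat_lit 0) (nat_lit 76632208998) (nat_lit 152) (nat_lit 270689657289) (nat_lit 0) (nat_lit 63733273749) (nat_lit 122) (nat_lit 5) (nat_lit 124) (nat_lit 4) (nat_lit 122) (nat_lit 4) (nat_lit 431) (nat_lit 347) (nat_lit 242)))) (XT.nd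 (nat_lit 156) (nat_lit 228) (nat_lit 0) (XT.nd (nat_lit 78) (nat_lit 152) (nat_lit 0) (XT.lf (nat_lit 0) (nat_lit 169479556857) (nat_lit 76) (nat_lit 138035012229) (nat_lit 76) (nat_lit 125135781274) (nat_lit 121) (nat_lit 4) (nat_lit 122) (nat_lit 5) (nat_lit 122) (nat_lit 4) (nat_lit 432) (nat_lit 347) (nat_lit 241)) (XT.lf (nat_lit 0) (nat_lit 107156795352) (nat_lit 152) (nat_lit 253391482069) (nat_lit 0) (nat_lit 94871552727) (nat_lit 119) (nat_lit 5) (nat_lit 121) (nat_lit 4) (nat_lit 119) (nat_lit 4) (nat_lit 433) (nat_lit 347) (nat_lit 240))) (XT.nd (nat_lit 78) (nat_lit 152) (nat_lit 0) (XT.lf (nat_lit 0) (nat_lit 237115438696) (nat_lit 76) (nat_lit 127270733142) (nat_lit 76) (nat_lit 114985249069) (nat_lit 118) (nat_lit 4) (nat_lit 119) (nat_lit 5) (nat_lit 119) (nat_lit 4) (nat_lit 434) (nat_lit 347) (nat_lit 239)) (XT.lf (nat_lit 0) (nat_lit 143507034720) (nat_lit 152) (nat_lit 229272046906)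 (nat_lit 0) (nat_lit 131806360781) (nat_lit 116) (nat_lit 5) (nat_lit 118) (nat_lit 4) (nat_lit 116) (nat_lit 4) (nat_lit 435) (nat_lit 347) (nat_lit 238)))))) (XT.nd (nat_lit 624) (nat_lit 532) (nat_lit 0) (XT.nd (nat_lit 312) (nat_lit 456) (nat_lit 0) (XT.nd (nat_lit 156) (nat_lit 228) (nat_lit 0) (XT.nd (nat_lit 78) (nat_lit 152) (nat_lit 0) (XT.lf (nat_lit 0) (nat_lit 317316231534) (nat_lit 76) (nat_lit 112767645028) (nat_lit 76) (nat_lit 101066773943) (nat_lit 115) (nat_lit 4) (nat_lit 116) (nat_lit 5) (nat_lit 116) (nat_lit 4) (nat_lit 436) (nat_lit 347) (nat_lit 237)) (XT.lf (nat_lit 0) (nat_lit 186570449778) (nat_lit 152) (nat_lit 197074837160) (nat_lit 0) (nat_lit 175426589181) (nat_lit 113) (nat_lit 5) (nat_lit 115) (nat_lit 4) (nat_lit 113) (nat_lit 4) (nat_lit 437) (nat_lit 347) (nat_lit 236))) (XT.nd (nat_lit 78) (nat_lit 152) (nat_lit 0) (XT.lf (nat_lit 0) (nat_lit 411991651737)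 (nat_lit 76) (nat_lit 93844211516) (nat_lit 76) (nat_lit 82700189947) (nat_lit 112) (nat_lit 4) (nat_lit 113) (nat_lit 5) (nat_lit 113) (nat_lit 4) (nat_lit 438) (nat_lit 347) (nat_lit 235)) (XT.lf (nat_lit 0) (nat_lit 237358123244) (nat_lit 152) (nat_lit 155352666924) (nat_lit 0) (nat_lit 226744627419) (nat_lit 110) (nat_lit 5) (nat_lit 112) (nat_lit 4) (nat_lit 110) (nat_lit 4) (nat_lit 439) (nat_lit 347) (nat_lit 234)))) (XT.nd (nat_lit 156) (nat_lit 228) (nat_lit 0) (XT.nd (nat_lit 78) (nat_lit 152) (nat_lit 0) (XT.lf (nat_lit 0) (nat_lit 523316201287) (nat_lit 76) (nat_lit 69716265599) (nat_lit 76) (nat_lit 59102638338) (nat_lit 109) (nat_lit 4) (nat_lit 110) (nat_lit 5) (nat_lit 110) (nat_lit 4) (nat_lit 440) (nat_lit 347) (nat_lit 233)) (XT.lf (nat_lit 0) (nat_lit 297020957595) (nat_lit 152) (nat_lit 102441279533) (nat_lit 0) (nat_lit 286912625252) (nat_lit 107) (nat_lit 5) (nat_lit 109)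 (nat_lit 4) (nat_lit 107) (nat_lit 4) (nat_lit 441) (nat_lit 347) (nat_lit 232))) (XT.nd (nat_lit 78) (nat_lit 152) (nat_lit 0) (XT.lf (nat_lit 0) (nat_lit 653763957208) (nat_lit 76) (nat_lit 39482843195) (nat_lit 76) (nat_lit 29374403533) (nat_lit 106) (nat_lit 4) (nat_lit 107) (nat_lit 5) (nat_lit 107) (nat_lit 4) (nat_lit 442) (nat_lit 347) (nat_lit 231)) (XT.lf (nat_lit 0) (nat_lit 366868000649) (nat_lit 152) (nat_lit 36429481889) (nat_lit 0) (nat_lit 357240820619) (nat_lit 104) (nat_lit 5) (nat_lit 106) (nat_lit 4) (nat_lit 104) (nat_lit 4) (nat_lit 443) (nat_lit 347) (nat_lit 230))))) (XT.nd (nat_lit 45630) (nat_lit 0) (nat_lit 15808) (XT.nd (nat_lit 156) (nat_lit 228) (nat_lit 0) (XT.nd (nat_lit 78) (nat_lit 76) (nat_lit 0) (XT.lf (nat_lit 0) (nat_lit 5464480291) (nat_lit 76) (nat_lit 1897347975) (nat_lit 152) (nat_lit 793368866979) (nat_lit 101) (nat_lit 5) (nat_lit 102) (nat_lit 5) (nat_lit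 103) (nat_lit 4) (nat_lit 444) (nat_lit 347) (nat_lit 229)) (XT.lf (nat_lit 0) (nat_lit 46358384747) (nat_lit 76) (nat_lit 402752492557) (nat_lit 76) (nat_lit 393583588944) (nat_lit 100) (nat_lit 4) (nat_lit 101) (nat_lit 5) (nat_lit 101) (nat_lit 4) (nat_lit 445) (nat_lit 347) (nat_lit 228))) (XT.nd (nat_lit 78) (nat_lit 76) (nat_lit 0) (XT.lf (nat_lit 0) (nat_lit 53326851702) (nat_lit 152) (nat_lit 789245960303) (nat_lit 0) (nat_lit 44594494405) (nat_lit 98) (nat_lit 5) (nat_lit 100) (nat_lit 4) (nat_lit 98) (nat_lit 4) (nat_lit 446) (nat_lit 347) (nat_lit 227)) (XT.lf (nat_lit 0) (nat_lit 148742516094) (nat_lit 76) (nat_lit 396847895888) (nat_lit 76) (nat_lit 388115475497) (nat_lit 97) (nat_lit 4) (nat_lit 98) (nat_lit 5) (nat_lit 98) (nat_lit 4) (nat_lit 447) (nat_lit 347) (nat_lit 226)))) (XT.nd (nat_lit 156) (nat_lit 532) (nat_lit 0) (XT.nd (nat_lit 78) (nat_lit 0) (nat_lit 0) (XT.lf (nat_lit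 0) (nat_lit 1943343957) (nat_lit 684) (nat_lit 1098379114) (nat_lit 684) (nat_lit 1098379114) (nat_lit 312) (nat_lit 3) (nat_lit 321) (nat_lit 3) (nat_lit 321) (nat_lit 5) (nat_lit 348) (nat_lit 348) (nat_lit 324)) (XT.lf (nat_lit 76) (nat_lit 4556590731) (nat_lit 0) (nat_lit 1266505947) (nat_lit 684) (nat_lit 2699268804) (nat_lit 313) (nat_lit 5) (nat_lit 312) (nat_lit 3) (nat_lit 321) (nat_lit 5) (nat_lit 349) (nat_lit 348) (nat_lit 323))) (XT.nd (nat_lit 78) (nat_lit 608) (nat_lit 0) (XT.lf (nat_lit 76) (nat_lit 3080539921) (nat_lit 0) (nat_lit 4811050315) (nat_lit 684) (nat_lit 893450642) (nat_lit 314) (nat_lit 5) (nat_lit 313) (nat_lit 5) (nat_lit 322) (nat_lit 5) (nat_lit 350) (nat_lit 348) (nat_lit 322)) (XT.nd (nat_lit 78) (nat_lit 0) (nat_lit 0) (XT.lf (nat_lit 0) (nat_lit 988968020) (nat_lit 684) (nat_lit 7403030333) (nat_lit 760) (nat_lit 677608932) (nat_lit 305) (nat_lit 5) (nat_lit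 314) (nat_lit 5) (nat_lit 315) (nat_lit 5) (nat_lit 351) (nat_lit 348) (nat_lit 321)) (XT.lf (nat_lit 76) (nat_lit 262141269) (nat_lit 0) (nat_lit 2763769438) (nat_lit 760) (nat_lit 6348534327) (nat_lit 306) (nat_lit 5) (nat_lit 305) (nat_lit 5) (nat_lit 315) (nat_lit 5) (nat_lit 352) (nat_lit 348) (nat_lit 320))))))))
noncomputable def xc114 : XT := (XT.nd (nat_lit 1248) (nat_lit 3040) (nat_lit 0) (XT.nd (nat_lit 624) (nat_lit 2052) (nat_lit 0) (XT.nd (nat_lit 312) (nat_lit 1596) (nat_lit 0) (XT.nd (nat_lit 156) (nat_lit 1444) (nat_lit 0) (XT.nd (nat_lit 78) (nat_lit 0) (nat_lit 76) (XT.lf (nat_lit 0) (nat_lit 5267448922) (nat_lit 684) (nat_lit 1056735174) (nat_lit 760) (nat_lit 3377403702) (nat_lit 306) (nat_lit 5) (nat_lit 315) (nat_lit 5) (nat_lit 316) (nat_lit 5) (nat_lit 353) (nat_lit 348) (nat_lit 319)) (XT.lf (nat_lit 0) (nat_lit 7725331048) (nat_lit 684) (nat_lit 2311203389) (nat_lit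 76) (nat_lit 16516501) (nat_lit 307) (nat_lit 5) (nat_lit 316) (nat_lit 5) (nat_lit 308) (nat_lit 5) (nat_lit 354) (nat_lit 348) (nat_lit 318))) (XT.nd (nat_lit 78) (nat_lit 760) (nat_lit 0) (XT.lf (nat_lit 0) (nat_lit 60952552) (nat_lit 760) (nat_lit 3569595983) (nat_lit 76) (nat_lit 6796521284) (nat_lit 297) (nat_lit 5) (nat_lit 307) (nat_lit 5) (nat_lit 298) (nat_lit 5) (nat_lit 355) (nat_lit 348) (nat_lit 317)) (XT.lf (nat_lit 0) (nat_lit 2633674226) (nat_lit 836) (nat_lit 4818881426) (nat_lit 76) (nat_lit 3372821218) (nat_lit 287) (nat_lit 5) (nat_lit 298) (nat_lit 5) (nat_lit 288) (nat_lit 5) (nat_lit 356) (nat_lit 348) (nat_lit 316)))) (XT.nd (nat_lit 156) (nat_lit 760) (nat_lit 0) (XT.nd (nat_lit 78) (nat_lit 380) (nat_lit 0) (XT.lf (nat_lit 0) (nat_lit 5223805984) (nat_lit 456) (nat_lit 285056283) (nat_lit 532) (nat_lit 5741853790) (nat_lit 281) (nat_lit 5) (nat_lit 287) (nat_lit 5)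 (nat_lit 288) (nat_lit 5) (nat_lit 357) (nat_lit 348) (nat_lit 315)) (XT.lf (nat_lit 0) (nat_lit 4455446167) (nat_lit 380) (nat_lit 4327150292) (nat_lit 456) (nat_lit 2919059362) (nat_lit 276) (nat_lit 5) (nat_lit 281) (nat_lit 5) (nat_lit 282) (nat_lit 5) (nat_lit 358) (nat_lit 348) (nat_lit 314))) (XT.nd (nat_lit 78) (nat_lit 304) (nat_lit 0) (XT.lf (nat_lit 0) (nat_lit 254734440) (nat_lit 456) (nat_lit 8423754711) (nat_lit 76) (nat_lit 3503614354) (nat_lit 270) (nat_lit 5) (nat_lit 276) (nat_lit 5) (nat_lit 271) (nat_lit 5) (nat_lit 359) (nat_lit 348) (nat_lit 313)) (XT.lf (nat_lit 0) (nat_lit 3077463841) (nat_lit 304) (nat_lit 660682510) (nat_lit 380) (nat_lit 8952548767) (nat_lit 266) (nat_lit 5) (nat_lit 270) (nat_lit 5) (nat_lit 271) (nat_lit 5) (nat_lit 360) (nat_lit 348) (nat_lit 312))))) (XT.nd (nat_lit 312) (nat_lit 836) (nat_lit 0) (XT.nd (nat_lit 156) (nat_lit 608) (nat_lit 0) (XT.nd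 (nat_lit 78) (nat_lit 304) (nat_lit 0) (XT.lf (nat_lit 0) (nat_lit 2413112794) (nat_lit 304) (nat_lit 5311247042) (nat_lit 380) (nat_lit 5504407794) (nat_lit 262) (nat_lit 5) (nat_lit 266) (nat_lit 5) (nat_lit 267) (nat_lit 5) (nat_lit 361) (nat_lit 348) (nat_lit 311)) (XT.lf (nat_lit 0) (nat_lit 1832846362) (nat_lit 304) (nat_lit 10375807205) (nat_lit 380) (nat_lit 1592273219) (nat_lit 258) (nat_lit 5) (nat_lit 262) (nat_lit 5) (nat_lit 263) (nat_lit 5) (nat_lit 362) (nat_lit 348) (nat_lit 310))) (XT.nd (nat_lit 78) (nat_lit 228) (nat_lit 0) (XT.lf (nat_lit 0) (nat_lit 1275795954) (nat_lit 304) (nat_lit 1494159810) (nat_lit 380) (nat_lit 11635778079) (nat_lit 253) (nat_lit 5) (nat_lit 257) (nat_lit 5) (nat_lit 258) (nat_lit 5) (nat_lit 363) (nat_lit 348) (nat_lit 309)) (XT.lf (nat_lit 0) (nat_lit 724220712) (nat_lit 228) (nat_lit 6976003622) (nat_lit 304) (nat_lit 7343653649) (nat_lit 250) (nat_lit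 5) (nat_lit 253) (nat_lit 5) (nat_lit 254) (nat_lit 5) (nat_lit 364) (nat_lit 348) (nat_lit 308)))) (XT.nd (nat_lit 156) (nat_lit 456) (nat_lit 0) (XT.nd (nat_lit 78) (nat_lit 76) (nat_lit 0) (XT.lf (nat_lit 0) (nat_lit 274270014) (nat_lit 304) (nat_lit 12981124843) (nat_lit 380) (nat_lit 2466154775) (nat_lit 246) (nat_lit 5) (nat_lit 250) (nat_lit 5) (nat_lit 251) (nat_lit 5) (nat_lit 365) (nat_lit 348) (nat_lit 307)) (XT.lf (nat_lit 0) (nat_lit 3013939650) (nat_lit 380) (nat_lit 156480498) (nat_lit 76) (nat_lit 13265724741) (nat_lit 245) (nat_lit 5) (nat_lit 250) (nat_lit 5) (nat_lit 246) (nat_lit 5) (nat_lit 366) (nat_lit 348) (nat_lit 306))) (XT.nd (nat_lit 78) (nat_lit 228) (nat_lit 0) (XT.lf (nat_lit 0) (nat_lit 9165423726) (nat_lit 304) (nat_lit 553857852) (nat_lit 76) (nat_lit 7470635542) (nat_lit 242) (nat_lit 5) (nat_lit 246) (nat_lit 5) (nat_lit 243) (nat_lit 5) (nat_lit 367) (nat_lit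 348) (nat_lit 305)) (XT.lf (nat_lit 0) (nat_lit 16089844281) (nat_lit 304) (nat_lit 826634792) (nat_lit 76) (nat_lit 1073471169) (nat_lit 239) (nat_lit 5) (nat_lit 243) (nat_lit 5) (nat_lit 240) (nat_lit 5) (nat_lit 368) (nat_lit 348) (nat_lit 304)))))) (XT.nd (nat_lit 624) (nat_lit 1292) (nat_lit 0) (XT.nd (nat_lit 312) (nat_lit 760) (nat_lit 0) (XT.nd (nat_lit 156) (nat_lit 456) (nat_lit 0) (XT.nd (nat_lit 78) (nat_lit 228) (nat_lit 0) (XT.lf (nat_lit 0) (nat_lit 4962903103) (nat_lit 304) (nat_lit 1132415565) (nat_lit 76) (nat_lit 12735009451) (nat_lit 235) (nat_lit 5) (nat_lit 239) (nat_lit 5) (nat_lit 236) (nat_lit 5) (nat_lit 369) (nat_lit 348) (nat_lit 303)) (XT.lf (nat_lit 0) (nat_lit 12648514053) (nat_lit 304) (nat_lit 1346037980) (nat_lit 76) (nat_lit 5724820148) (nat_lit 232) (nat_lit 5) (nat_lit 236) (nat_lit 5) (nat_lit 233) (nat_lit 5) (nat_lit 370) (nat_lit 348) (nat_lit 302)))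 (XT.nd (nat_lit 78) (nat_lit 228) (nat_lit 0) (XT.lf (nat_lit 0) (nat_lit 636262863) (nat_lit 228) (nat_lit 1441364174) (nat_lit 76) (nat_lit 18582929783) (nat_lit 229) (nat_lit 5) (nat_lit 232) (nat_lit 5) (nat_lit 230) (nat_lit 5) (nat_lit 371) (nat_lit 348) (nat_lit 301)) (XT.lf (nat_lit 0) (nat_lit 9179287065) (nat_lit 304) (nat_lit 1583825086) (nat_lit 76) (nat_lit 10884775198) (nat_lit 226) (nat_lit 5) (nat_lit 230) (nat_lit 5) (nat_lit 227) (nat_lit 5) (nat_lit 372) (nat_lit 348) (nat_lit 300)))) (XT.nd (nat_lit 156) (nat_lit 380) (nat_lit 0) (XT.nd (nat_lit 78) (nat_lit 228) (nat_lit 0) (XT.lf (nat_lit 0) (nat_lit 18785681759) (nat_lit 228) (nat_lit 1544371328) (nat_lit 76) (nat_lit 2365154804) (nat_lit 224) (nat_lit 5) (nat_lit 227) (nat_lit 5) (nat_lit 225) (nat_lit 5) (nat_lit 373) (nat_lit 348) (nat_lit 299)) (XT.lf (nat_lit 0) (nat_lit 5683448306) (nat_lit 228) (nat_lit 1500521109)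 (nat_lit 76) (nat_lit 16612185291) (nat_lit 221) (nat_lit 5) (nat_lit 224) (nat_lit 5) (nat_lit 222) (nat_lit 5) (nat_lit 374) (nat_lit 348) (nat_lit 298))) (XT.nd (nat_lit 78) (nat_lit 228) (nat_lit 0) (XT.lf (nat_lit 0) (nat_lit 16377189381) (nat_lit 228) (nat_lit 1350448659) (nat_lit 76) (nat_lit 7230819726) (nat_lit 219) (nat_lit 5) (nat_lit 222) (nat_lit 5) (nat_lit 220) (nat_lit 5) (nat_lit 375) (nat_lit 348) (nat_lit 297)) (XT.lf (nat_lit 0) (nat_lit 2162562362) (nat_lit 228) (nat_lit 1048457966) (nat_lit 76) (nat_lit 22976153037) (nat_lit 216) (nat_lit 5) (nat_lit 219) (nat_lit 5) (nat_lit 217) (nat_lit 5) (nat_lit 376) (nat_lit 348) (nat_lit 296))))) (XT.nd (nat_lit 312) (nat_lit 608) (nat_lit 0) (XT.nd (nat_lit 156) (nat_lit 380) (nat_lit 0) (XT.nd (nat_lit 78) (nat_lit 152) (nat_lit 0) (XT.lf (nat_lit 0) (nat_lit 14074643489) (nat_lit 228) (nat_lit 765139641) (nat_lit 76) (nat_lit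 12636899768) (nat_lit 214) (nat_lit 5) (nat_lit 217) (nat_lit 5) (nat_lit 215) (nat_lit 5) (nat_lit 377) (nat_lit 348) (nat_lit 295)) (XT.lf (nat_lit 0) (nat_lit 27437864451) (nat_lit 228) (nat_lit 212476470) (nat_lit 76) (nat_lit 1194103604) (nat_lit 212) (nat_lit 5) (nat_lit 215) (nat_lit 5) (nat_lit 213) (nat_lit 4) (nat_lit 378) (nat_lit 348) (nat_lit 294))) (XT.nd (nat_lit 78) (nat_lit 76) (nat_lit 0) (XT.lf (nat_lit 0) (nat_lit 281591018) (nat_lit 152) (nat_lit 11617502498) (nat_lit 228) (nat_lit 18377508224) (nat_lit 208) (nat_lit 5) (nat_lit 210) (nat_lit 5) (nat_lit 211) (nat_lit 5) (nat_lit 379) (nat_lit 348) (nat_lit 293)) (XT.lf (nat_lit 0) (nat_lit 1055574471) (nat_lit 76) (nat_lit 25748928265) (nat_lit 152) (nat_lit 4988447791) (nat_lit 207) (nat_lit 5) (nat_lit 208) (nat_lit 5) (nat_lit 209) (nat_lit 4) (nat_lit 380) (nat_lit 348) (nat_lit 292)))) (XT.nd (nat_lit 156) (nat_lit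 304) (nat_lit 0) (XT.nd (nat_lit 78) (nat_lit 76) (nat_lit 0) (XT.lf (nat_lit 0) (nat_lit 1894896016) (nat_lit 152) (nat_lit 7991541214) (nat_lit 228) (nat_lit 23500883243) (nat_lit 204) (nat_lit 5) (nat_lit 206) (nat_lit 5) (nat_lit 207) (nat_lit 5) (nat_lit 381) (nat_lit 348) (nat_lit 291)) (XT.lf (nat_lit 0) (nat_lit 2909928171) (nat_lit 76) (nat_lit 23595897915) (nat_lit 152) (nat_lit 8562860838) (nat_lit 203) (nat_lit 5) (nat_lit 204) (nat_lit 5) (nat_lit 205) (nat_lit 4) (nat_lit 382) (nat_lit 348) (nat_lit 290))) (XT.nd (nat_lit 78) (nat_lit 76) (nat_lit 0) (XT.lf (nat_lit 0) (nat_lit 4135562589) (nat_lit 152) (nat_lit 3913056724) (nat_lit 228) (nat_lit 28793998288) (nat_lit 200) (nat_lit 5) (nat_lit 202) (nat_lit 5) (nat_lit 203) (nat_lit 5) (nat_lit 383) (nat_lit 348) (nat_lit 289)) (XT.lf (nat_lit 0) (nat_lit 5435824238) (nat_lit 76) (nat_lit 21147278105) (nat_lit 152) (nat_lit 12123637380)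 (nat_lit 199) (nat_lit 5) (nat_lit 200) (nat_lit 5) (nat_lit 201) (nat_lit 4) (nat_lit 384) (nat_lit 348) (nat_lit 288)))))))
noncomputable def xc115 : XT := (XT.nd (nat_lit 1248) (nat_lit 2052) (nat_lit 0) (XT.nd (nat_lit 624) (nat_lit 912) (nat_lit 0) (XT.nd (nat_lit 312) (nat_lit 456) (nat_lit 0) (XT.nd (nat_lit 156) (nat_lit 304) (nat_lit 0) (XT.nd (nat_lit 78) (nat_lit 76) (nat_lit 0) (XT.lf (nat_lit 0) (nat_lit 6424977692) (nat_lit 228) (nat_lit 33586684098) (nat_lit 76) (nat_lit 667097722) (nat_lit 196) (nat_lit 5) (nat_lit 199) (nat_lit 5) (nat_lit 197) (nat_lit 4) (nat_lit 385) (nat_lit 348) (nat_lit 287)) (XT.lf (nat_lit 0) (nat_lit 8740008479) (nat_lit 76) (nat_lit 18347728537) (nat_lit 152) (nat_lit 15658116048) (nat_lit 195) (nat_lit 5) (nat_lit 196) (nat_lit 5) (nat_lit 197) (nat_lit 4) (nat_lit 386) (nat_lit 348) (nat_lit 286))) (XT.nd (nat_lit 78) (nat_lit 76) (nat_lit 0) (XT.lf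 (nat_lit 0) (nat_lit 5108897765) (nat_lit 228) (nat_lit 34116710758) (nat_lit 76) (nat_lit 5707984641) (nat_lit 192) (nat_lit 5) (nat_lit 195) (nat_lit 5) (nat_lit 193) (nat_lit 4) (nat_lit 387) (nat_lit 348) (nat_lit 285)) (XT.lf (nat_lit 0) (nat_lit 12945569261) (nat_lit 76) (nat_lit 15133269516) (nat_lit 152) (nat_lit 19150171661) (nat_lit 191) (nat_lit 5) (nat_lit 192) (nat_lit 5) (nat_lit 193) (nat_lit 4) (nat_lit 388) (nat_lit 348) (nat_lit 284)))) (XT.nd (nat_lit 156) (nat_lit 228) (nat_lit 0) (XT.nd (nat_lit 78) (nat_lit 76) (nat_lit 0) (XT.lf (nat_lit 0) (nat_lit 4080171450) (nat_lit 152) (nat_lit 34150139980) (nat_lit 76) (nat_lit 11425089378) (nat_lit 189) (nat_lit 5) (nat_lit 191) (nat_lit 5) (nat_lit 190) (nat_lit 4) (nat_lit 389) (nat_lit 348) (nat_lit 283)) (XT.lf (nat_lit 0) (nat_lit 18194061873) (nat_lit 76) (nat_lit 11430261810) (nat_lit 152) (nat_lit 22579566342) (nat_lit 188)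 (nat_lit 5) (nat_lit 189) (nat_lit 5) (nat_lit 190) (nat_lit 4) (nat_lit 390) (nat_lit 348) (nat_lit 282))) (XT.nd (nat_lit 78) (nat_lit 76) (nat_lit 0) (XT.lf (nat_lit 0) (nat_lit 3386618887) (nat_lit 152) (nat_lit 33586510677) (nat_lit 76) (nat_lit 17921214525) (nat_lit 186) (nat_lit 5) (nat_lit 188) (nat_lit 5) (nat_lit 187) (nat_lit 4) (nat_lit 391) (nat_lit 348) (nat_lit 281)) (XT.lf (nat_lit 0) (nat_lit 24647924929) (nat_lit 76) (nat_lit 7154223560) (nat_lit 152) (nat_lit 25921221768) (nat_lit 185) (nat_lit 5) (nat_lit 186) (nat_lit 5) (nat_lit 187) (nat_lit 4) (nat_lit 392) (nat_lit 348) (nat_lit 280))))) (XT.nd (nat_lit 312) (nat_lit 456) (nat_lit 0) (XT.nd (nat_lit 156) (nat_lit 228) (nat_lit 0) (XT.nd (nat_lit 78) (nat_lit 76) (nat_lit 0) (XT.lf (nat_lit 0) (nat_lit 3084029622) (nat_lit 152) (nat_lit 32308777997) (nat_lit 76) (nat_lit 25313242845) (nat_lit 183) (nat_lit 5) (nat_lit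 185) (nat_lit 5) (nat_lit 184) (nat_lit 4) (nat_lit 393) (nat_lit 348) (nat_lit 279)) (XT.lf (nat_lit 0) (nat_lit 32493222621) (nat_lit 76) (nat_lit 2208469445) (nat_lit 152) (nat_lit 29144398903) (nat_lit 182) (nat_lit 5) (nat_lit 183) (nat_lit 5) (nat_lit 184) (nat_lit 4) (nat_lit 394) (nat_lit 348) (nat_lit 278))) (XT.nd (nat_lit 78) (nat_lit 76) (nat_lit 0) (XT.lf (nat_lit 0) (nat_lit 3237326316) (nat_lit 152) (nat_lit 30181005916) (nat_lit 76) (nat_lit 33733871062) (nat_lit 180) (nat_lit 5) (nat_lit 182) (nat_lit 5) (nat_lit 181) (nat_lit 4) (nat_lit 395) (nat_lit 348) (nat_lit 277)) (XT.lf (nat_lit 0) (nat_lit 38480222885) (nat_lit 152) (nat_lit 28749241941) (nat_lit 0) (nat_lit 3404865372) (nat_lit 179) (nat_lit 5) (nat_lit 181) (nat_lit 4) (nat_lit 179) (nat_lit 4) (nat_lit 396) (nat_lit 348) (nat_lit 276)))) (XT.nd (nat_lit 156) (nat_lit 228) (nat_lit 0) (XT.nd (nat_lit 78) (nat_lit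 76) (nat_lit 0) (XT.lf (nat_lit 0) (nat_lit 3921875798) (nat_lit 152) (nat_lit 27045741863) (nat_lit 76) (nat_lit 43333578849) (nat_lit 177) (nat_lit 5) (nat_lit 179) (nat_lit 5) (nat_lit 178) (nat_lit 4) (nat_lit 397) (nat_lit 348) (nat_lit 275)) (XT.lf (nat_lit 0) (nat_lit 43248517372) (nat_lit 152) (nat_lit 25087332337) (nat_lit 0) (nat_lit 9824651437) (nat_lit 176) (nat_lit 5) (nat_lit 178) (nat_lit 4) (nat_lit 176) (nat_lit 4) (nat_lit 398) (nat_lit 348) (nat_lit 274))) (XT.nd (nat_lit 78) (nat_lit 76) (nat_lit 0) (XT.lf (nat_lit 0) (nat_lit 5224967991) (nat_lit 152) (nat_lit 22721034268) (nat_lit 76) (nat_lit 54282858546) (nat_lit 174) (nat_lit 5) (nat_lit 176) (nat_lit 5) (nat_lit 175) (nat_lit 4) (nat_lit 399) (nat_lit 348) (nat_lit 273)) (XT.lf (nat_lit 0) (nat_lit 49108075742) (nat_lit 152) (nat_lit 20137578037) (nat_lit 0) (nat_lit 17260501793) (nat_lit 173) (nat_lit 5) (nat_lit 175)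 (nat_lit 4) (nat_lit 173) (nat_lit 4) (nat_lit 400) (nat_lit 348) (nat_lit 272)))))) (XT.nd (nat_lit 624) (nat_lit 1064) (nat_lit 0) (XT.nd (nat_lit 312) (nat_lit 532) (nat_lit 0) (XT.nd (nat_lit 156) (nat_lit 228) (nat_lit 0) (XT.nd (nat_lit 78) (nat_lit 76) (nat_lit 0) (XT.lf (nat_lit 0) (nat_lit 7247485526) (nat_lit 152) (nat_lit 16997048722) (nat_lit 76) (nat_lit 66774734835) (nat_lit 171) (nat_lit 5) (nat_lit 173) (nat_lit 5) (nat_lit 172) (nat_lit 4) (nat_lit 401) (nat_lit 348) (nat_lit 271)) (XT.lf (nat_lit 0) (nat_lit 56214067057) (nat_lit 152) (nat_lit 13675194866) (nat_lit 0) (nat_lit 25870534713) (nat_lit 170) (nat_lit 5) (nat_lit 172) (nat_lit 4) (nat_lit 170) (nat_lit 4) (nat_lit 402) (nat_lit 348) (nat_lit 270))) (XT.nd (nat_lit 78) (nat_lit 76) (nat_lit 0) (XT.lf (nat_lit 0) (nat_lit 10105789455) (nat_lit 152) (nat_lit 9632232663) (nat_lit 76) (nat_lit 81027607598) (nat_lit 168)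 (nat_lit 5) (nat_lit 170) (nat_lit 5) (nat_lit 169) (nat_lit 4) (nat_lit 403) (nat_lit 348) (nat_lit 269)) (XT.lf (nat_lit 0) (nat_lit 64743371045) (nat_lit 152) (nat_lit 5441617716) (nat_lit 0) (nat_lit 35834554612) (nat_lit 167) (nat_lit 5) (nat_lit 169) (nat_lit 4) (nat_lit 167) (nat_lit 4) (nat_lit 404) (nat_lit 348) (nat_lit 268)))) (XT.nd (nat_lit 156) (nat_lit 228) (nat_lit 0) (XT.nd (nat_lit 78) (nat_lit 152) (nat_lit 0) (XT.lf (nat_lit 0) (nat_lit 13933849398) (nat_lit 152) (nat_lit 348972086) (nat_lit 76) (nat_lit 97288455645) (nat_lit 165) (nat_lit 5) (nat_lit 167) (nat_lit 5) (nat_lit 166) (nat_lit 4) (nat_lit 405) (nat_lit 348) (nat_lit 267)) (XT.lf (nat_lit 0) (nat_lit 5020813048) (nat_lit 76) (nat_lit 69954993637) (nat_lit 76) (nat_lit 42414447482) (nat_lit 163) (nat_lit 4) (nat_lit 164) (nat_lit 5) (nat_lit 164) (nat_lit 4) (nat_lit 406) (nat_lit 348) (nat_lit 266))) (XT.nd (nat_lit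 78) (nat_lit 76) (nat_lit 0) (XT.lf (nat_lit 0) (nat_lit 11540697813) (nat_lit 76) (nat_lit 7525134668) (nat_lit 152) (nat_lit 104475928652) (nat_lit 161) (nat_lit 5) (nat_lit 162) (nat_lit 5) (nat_lit 163) (nat_lit 4) (nat_lit 407) (nat_lit 348) (nat_lit 265)) (XT.lf (nat_lit 0) (nat_lit 18151549799) (nat_lit 76) (nat_lit 69037231077) (nat_lit 76) (nat_lit 42801329757) (nat_lit 160) (nat_lit 4) (nat_lit 161) (nat_lit 5) (nat_lit 161) (nat_lit 4) (nat_lit 408) (nat_lit 348) (nat_lit 264))))) (XT.nd (nat_lit 312) (nat_lit 608) (nat_lit 0) (XT.nd (nat_lit 156) (nat_lit 228) (nat_lit 0) (XT.nd (nat_lit 78) (nat_lit 76) (nat_lit 0) (XT.lf (nat_lit 0) (nat_lit 25554993825) (nat_lit 152) (nat_lit 110689728444) (nat_lit 0) (nat_lit 565534088) (nat_lit 158) (nat_lit 5) (nat_lit 160) (nat_lit 4) (nat_lit 158) (nat_lit 4) (nat_lit 409) (nat_lit 348) (nat_lit 263)) (XT.lf (nat_lit 0) (nat_lit 34173671550)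 (nat_lit 76) (nat_lit 67387669338) (nat_lit 76) (nat_lit 42395536407) (nat_lit 157) (nat_lit 4) (nat_lit 158) (nat_lit 5) (nat_lit 158) (nat_lit 4) (nat_lit 410) (nat_lit 348) (nat_lit 262))) (XT.nd (nat_lit 78) (nat_lit 76) (nat_lit 0) (XT.lf (nat_lit 0) (nat_lit 33737817441) (nat_lit 152) (nat_lit 107839613111) (nat_lit 0) (nat_lit 9933428763) (nat_lit 155) (nat_lit 5) (nat_lit 157) (nat_lit 4) (nat_lit 155) (nat_lit 4) (nat_lit 411) (nat_lit 348) (nat_lit 261)) (XT.lf (nat_lit 0) (nat_lit 53548234556) (nat_lit 76) (nat_lit 64848370670) (nat_lit 76) (nat_lit 41041799294) (nat_lit 154) (nat_lit 4) (nat_lit 155) (nat_lit 5) (nat_lit 155) (nat_lit 4) (nat_lit 412) (nat_lit 348) (nat_lit 260)))) (XT.nd (nat_lit 156) (nat_lit 380) (nat_lit 0) (XT.nd (nat_lit 78) (nat_lit 76) (nat_lit 0) (XT.lf (nat_lit 0) (nat_lit 43740277625) (nat_lit 152) (nat_lit 102999240904) (nat_lit 0) (nat_lit 21065427726)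 (nat_lit 152) (nat_lit 5) (nat_lit 154) (nat_lit 4) (nat_lit 152) (nat_lit 4) (nat_lit 413) (nat_lit 348) (nat_lit 259)) (XT.lf (nat_lit 0) (nat_lit 76802131906) (nat_lit 76) (nat_lit 61236543858) (nat_lit 76) (nat_lit 38559911757) (nat_lit 151) (nat_lit 4) (nat_lit 152) (nat_lit 5) (nat_lit 152) (nat_lit 4) (nat_lit 414) (nat_lit 348) (nat_lit 258))) (XT.nd (nat_lit 78) (nat_lit 228) (nat_lit 0) (XT.lf (nat_lit 0) (nat_lit 55840672304) (nat_lit 152) (nat_lit 95781907172) (nat_lit 0) (nat_lit 34242308219) (nat_lit 149) (nat_lit 5) (nat_lit 151) (nat_lit 4) (nat_lit 149) (nat_lit 4) (nat_lit 415) (nat_lit 348) (nat_lit 257)) (XT.nd (nat_lit 78) (nat_lit 152) (nat_lit 0) (XT.lf (nat_lit 0) (nat_lit 104536881173) (nat_lit 76) (nat_lit 56341022938) (nat_lit 76) (nat_lit 34741203662) (nat_lit 148) (nat_lit 4) (nat_lit 149) (nat_lit 5) (nat_lit 149) (nat_lit 4) (nat_lit 416) (nat_lit 348) (nat_lit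 256)) (XT.lf (nat_lit 0) (nat_lit 70356768754) (nat_lit 152) (nat_lit 85740755346) (nat_lit 0) (nat_lit 49784229063) (nat_lit 146) (nat_lit 5) (nat_lit 148) (nat_lit 4) (nat_lit 146) (nat_lit 4) (nat_lit 417) (nat_lit 348) (nat_lit 255))))))))
noncomputable def xc116 : XT := (XT.nd (nat_lit 1248) (nat_lit 1748) (nat_lit 0) (XT.nd (nat_lit 624) (nat_lit 988) (nat_lit 0) (XT.nd (nat_lit 312) (nat_lit 456) (nat_lit 0) (XT.nd (nat_lit 156) (nat_lit 228) (nat_lit 0) (XT.nd (nat_lit 78) (nat_lit 152) (nat_lit 0) (XT.lf (nat_lit 0) (nat_lit 137438540943) (nat_lit 76) (nat_lit 49918275362) (nat_lit 76) (nat_lit 29344547488) (nat_lit 145) (nat_lit 4) (nat_lit 146) (nat_lit 5) (nat_lit 146) (nat_lit 4) (nat_lit 418) (nat_lit 348) (nat_lit 254)) (XT.lf (nat_lit 0) (nat_lit 87651031112) (nat_lit 152) (nat_lit 72360352601) (nat_lit 0) (nat_lit 68055956784) (nat_lit 143) (nat_lit 5) (nat_lit 145) (nat_lit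 4) (nat_lit 143) (nat_lit 4) (nat_lit 419) (nat_lit 348) (nat_lit 253))) (XT.nd (nat_lit 78) (nat_lit 152) (nat_lit 0) (XT.lf (nat_lit 0) (nat_lit 176288896910) (nat_lit 76) (nat_lit 41687879741) (nat_lit 76) (nat_lit 22091835247) (nat_lit 142) (nat_lit 4) (nat_lit 143) (nat_lit 5) (nat_lit 143) (nat_lit 4) (nat_lit 420) (nat_lit 348) (nat_lit 252)) (XT.lf (nat_lit 0) (nat_lit 108136515340) (nat_lit 152) (nat_lit 55047150125) (nat_lit 0) (nat_lit 89472760295) (nat_lit 140) (nat_lit 5) (nat_lit 142) (nat_lit 4) (nat_lit 140) (nat_lit 4) (nat_lit 421) (nat_lit 348) (nat_lit 251)))) (XT.nd (nat_lit 156) (nat_lit 228) (nat_lit 0) (XT.nd (nat_lit 78) (nat_lit 152) (nat_lit 0) (XT.lf (nat_lit 0) (nat_lit 221978075486) (nat_lit 76) (nat_lit 31327405752) (nat_lit 76) (nat_lit 12662858553) (nat_lit 139) (nat_lit 4) (nat_lit 140) (nat_lit 5) (nat_lit 140) (nat_lit 4) (nat_lit 422) (nat_lit 348) (nat_lit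 250)) (XT.lf (nat_lit 0) (nat_lit 132283514777) (nat_lit 152) (nat_lit 33118685982) (nat_lit 0) (nat_lit 114507056991) (nat_lit 137) (nat_lit 5) (nat_lit 139) (nat_lit 4) (nat_lit 137) (nat_lit 4) (nat_lit 423) (nat_lit 348) (nat_lit 249))) (XT.nd (nat_lit 78) (nat_lit 152) (nat_lit 0) (XT.lf (nat_lit 0) (nat_lit 275518762158) (nat_lit 76) (nat_lit 18466620359) (nat_lit 76) (nat_lit 689515768) (nat_lit 136) (nat_lit 4) (nat_lit 137) (nat_lit 5) (nat_lit 137) (nat_lit 4) (nat_lit 424) (nat_lit 348) (nat_lit 248)) (XT.lf (nat_lit 0) (nat_lit 160627049534) (nat_lit 152) (nat_lit 5791370864) (nat_lit 0) (nat_lit 143695903359) (nat_lit 134) (nat_lit 5) (nat_lit 136) (nat_lit 4) (nat_lit 134) (nat_lit 4) (nat_lit 425) (nat_lit 348) (nat_lit 247))))) (XT.nd (nat_lit 312) (nat_lit 456) (nat_lit 0) (XT.nd (nat_lit 156) (nat_lit 228) (nat_lit 0) (XT.nd (nat_lit 78) (nat_lit 76) (nat_lit 0) (XT.lf (nat_lit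 0) (nat_lit 11722503526) (nat_lit 76) (nat_lit 2255144193) (nat_lit 152) (nat_lit 312494495827) (nat_lit 131) (nat_lit 5) (nat_lit 132) (nat_lit 5) (nat_lit 133) (nat_lit 4) (nat_lit 426) (nat_lit 348) (nat_lit 246)) (XT.lf (nat_lit 0) (nat_lit 28753618140) (nat_lit 76) (nat_lit 165470610735) (nat_lit 76) (nat_lit 149344740923) (nat_lit 130) (nat_lit 4) (nat_lit 131) (nat_lit 5) (nat_lit 131) (nat_lit 4) (nat_lit 427) (nat_lit 348) (nat_lit 245))) (XT.nd (nat_lit 78) (nat_lit 76) (nat_lit 0) (XT.lf (nat_lit 0) (nat_lit 32661280173) (nat_lit 152) (nat_lit 311715204224) (nat_lit 0) (nat_lit 17302898237) (nat_lit 128) (nat_lit 5) (nat_lit 130) (nat_lit 4) (nat_lit 128) (nat_lit 4) (nat_lit 428) (nat_lit 348) (nat_lit 244)) (XT.lf (nat_lit 0) (nat_lit 71058795247) (nat_lit 76) (nat_lit 162469763661) (nat_lit 76) (nat_lit 147111001460) (nat_lit 127) (nat_lit 4) (nat_lit 128) (nat_lit 5) (nat_lit 128)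 (nat_lit 4) (nat_lit 429) (nat_lit 348) (nat_lit 243)))) (XT.nd (nat_lit 156) (nat_lit 228) (nat_lit 0) (XT.nd (nat_lit 78) (nat_lit 76) (nat_lit 0) (XT.lf (nat_lit 0) (nat_lit 55450493514) (nat_lit 152) (nat_lit 304420705072) (nat_lit 0) (nat_lit 40822765611) (nat_lit 125) (nat_lit 5) (nat_lit 127) (nat_lit 4) (nat_lit 125) (nat_lit 4) (nat_lit 430) (nat_lit 348) (nat_lit 242)) (XT.lf (nat_lit 0) (nat_lit 122148853812) (nat_lit 76) (nat_lit 157100986437) (nat_lit 76) (nat_lit 142472948042) (nat_lit 124) (nat_lit 4) (nat_lit 125) (nat_lit 5) (nat_lit 125) (nat_lit 4) (nat_lit 431) (nat_lit 348) (nat_lit 241))) (XT.nd (nat_lit 78) (nat_lit 76) (nat_lit 0) (XT.lf (nat_lit 0) (nat_lit 82954818317) (nat_lit 152) (nat_lit 291952051912) (nat_lit 0) (nat_lit 69023079378) (nat_lit 122) (nat_lit 5) (nat_lit 124) (nat_lit 4) (nat_lit 122) (nat_lit 4) (nat_lit 432) (nat_lit 348) (nat_lit 240)) (XT.lf (nat_lit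 0) (nat_lit 183413629714) (nat_lit 76) (nat_lit 148885778722) (nat_lit 76) (nat_lit 134953786262) (nat_lit 121) (nat_lit 4) (nat_lit 122) (nat_lit 5) (nat_lit 122) (nat_lit 4) (nat_lit 433) (nat_lit 348) (nat_lit 239)))))) (XT.nd (nat_lit 624) (nat_lit 836) (nat_lit 0) (XT.nd (nat_lit 312) (nat_lit 456) (nat_lit 0) (XT.nd (nat_lit 156) (nat_lit 228) (nat_lit 0) (XT.nd (nat_lit 78) (nat_lit 76) (nat_lit 0) (XT.lf (nat_lit 0) (nat_lit 115910813767) (nat_lit 152) (nat_lit 273291503095) (nat_lit 0) (nat_lit 102642025957) (nat_lit 119) (nat_lit 5) (nat_lit 121) (nat_lit 4) (nat_lit 119) (nat_lit 4) (nat_lit 434) (nat_lit 348) (nat_lit 238)) (XT.lf (nat_lit 0) (nat_lit 256439835193) (nat_lit 76) (nat_lit 137270807668) (nat_lit 76) (nat_lit 124001812856) (nat_lit 118) (nat_lit 4) (nat_lit 119) (nat_lit 5) (nat_lit 119) (nat_lit 4) (nat_lit 435) (nat_lit 348) (nat_lit 237))) (XT.nd (nat_lit 78) (nat_lit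 76) (nat_lit 0) (XT.lf (nat_lit 0) (nat_lit 155159099753) (nat_lit 152) (nat_lit 247262823640) (nat_lit 0) (nat_lit 142521779295) (nat_lit 116) (nat_lit 5) (nat_lit 118) (nat_lit 4) (nat_lit 116) (nat_lit 4) (nat_lit 436) (nat_lit 348) (nat_lit 236)) (XT.lf (nat_lit 0) (nat_lit 343037263608) (nat_lit 76) (nat_lit 121617363205) (nat_lit 76) (nat_lit 108979873726) (nat_lit 115) (nat_lit 4) (nat_lit 116) (nat_lit 5) (nat_lit 116) (nat_lit 4) (nat_lit 437) (nat_lit 348) (nat_lit 235)))) (XT.nd (nat_lit 156) (nat_lit 228) (nat_lit 0) (XT.nd (nat_lit 78) (nat_lit 76) (nat_lit 0) (XT.lf (nat_lit 0) (nat_lit 201658167438) (nat_lit 152) (nat_lit 212509040563) (nat_lit 0) (nat_lit 189622314124) (nat_lit 113) (nat_lit 5) (nat_lit 115) (nat_lit 4) (nat_lit 113) (nat_lit 4) (nat_lit 438) (nat_lit 348) (nat_lit 234)) (XT.lf (nat_lit 0) (nat_lit 445268348537) (nat_lit 76) (nat_lit 101189414356) (nat_lit 76)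 (nat_lit 89153423035) (nat_lit 112) (nat_lit 4) (nat_lit 113) (nat_lit 5) (nat_lit 113) (nat_lit 4) (nat_lit 439) (nat_lit 348) (nat_lit 233))) (XT.nd (nat_lit 78) (nat_lit 76) (nat_lit 0) (XT.lf (nat_lit 0) (nat_lit 256499954889) (nat_lit 152) (nat_lit 167467252705) (nat_lit 0) (nat_lit 245036984312) (nat_lit 110) (nat_lit 5) (nat_lit 112) (nat_lit 4) (nat_lit 110) (nat_lit 4) (nat_lit 440) (nat_lit 348) (nat_lit 232)) (XT.lf (nat_lit 0) (nat_lit 565481495092) (nat_lit 76) (nat_lit 75140087936) (nat_lit 76) (nat_lit 63677004675) (nat_lit 109) (nat_lit 4) (nat_lit 110) (nat_lit 5) (nat_lit 110) (nat_lit 4) (nat_lit 441) (nat_lit 348) (nat_lit 231))))) (XT.nd (nat_lit 312) (nat_lit 228) (nat_lit 0) (XT.nd (nat_lit 156) (nat_lit 380) (nat_lit 0) (XT.nd (nat_lit 78) (nat_lit 76) (nat_lit 0) (XT.lf (nat_lit 0) (nat_lit 320927407413) (nat_lit 152) (nat_lit 110340119408) (nat_lit 0) (nat_lit 310010085890)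 (nat_lit 107) (nat_lit 5) (nat_lit 109) (nat_lit 4) (nat_lit 107) (nat_lit 4) (nat_lit 442) (nat_lit 348) (nat_lit 230)) (XT.lf (nat_lit 0) (nat_lit 706348652374) (nat_lit 76) (nat_lit 42496368787) (nat_lit 76) (nat_lit 31578955255) (nat_lit 106) (nat_lit 4) (nat_lit 107) (nat_lit 5) (nat_lit 107) (nat_lit 4) (nat_lit 443) (nat_lit 348) (nat_lit 229))) (XT.nd (nat_lit 78) (nat_lit 228) (nat_lit 0) (XT.lf (nat_lit 0) (nat_lit 396354269050) (nat_lit 152) (nat_lit 39063605726) (nat_lit 0) (nat_lit 385956651216) (nat_lit 104) (nat_lit 5) (nat_lit 106) (nat_lit 4) (nat_lit 104) (nat_lit 4) (nat_lit 444) (nat_lit 348) (nat_lit 228)) (XT.lf (nat_lit 0) (nat_lit 6183101703) (nat_lit 76) (nat_lit 1905090815) (nat_lit 152) (nat_lit 856694087449) (nat_lit 101) (nat_lit 5) (nat_lit 102) (nat_lit 5) (nat_lit 103) (nat_lit 4) (nat_lit 445) (nat_lit 348) (nat_lit 227)))) (XT.nd (nat_lit 45552) (nat_lit 0) (nat_lit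 15580) (XT.nd (nat_lit 78) (nat_lit 152) (nat_lit 0) (XT.lf (nat_lit 0) (nat_lit 50340707566) (nat_lit 76) (nat_lit 434832633635) (nat_lit 76) (nat_lit 424930002663) (nat_lit 100) (nat_lit 4) (nat_lit 101) (nat_lit 5) (nat_lit 101) (nat_lit 4) (nat_lit 446) (nat_lit 348) (nat_lit 226)) (XT.lf (nat_lit 0) (nat_lit 57725005466) (nat_lit 152) (nat_lit 852115215247) (nat_lit 0) (nat_lit 48293869929) (nat_lit 98) (nat_lit 5) (nat_lit 100) (nat_lit 4) (nat_lit 98) (nat_lit 4) (nat_lit 447) (nat_lit 348) (nat_lit 225))) (XT.nd (nat_lit 78) (nat_lit 684) (nat_lit 0) (XT.lf (nat_lit 0) (nat_lit 3767490837) (nat_lit 684) (nat_lit 310192777) (nat_lit 684) (nat_lit 310192777) (nat_lit 312) (nat_lit 3) (nat_lit 321) (nat_lit 3) (nat_lit 321) (nat_lit 5) (nat_lit 349) (nat_lit 349) (nat_lit 322)) (XT.lf (nat_lit 0) (nat_lit 345495271) (nat_lit 684) (nat_lit 2456824938) (nat_lit 760) (nat_lit 6245740210) (nat_lit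 303) (nat_lit 5) (nat_lit 312) (nat_lit 3) (nat_lit 313) (nat_lit 5) (nat_lit 350) (nat_lit 349) (nat_lit 321)))))))
noncomputable def xc117 : XT := (XT.nd (nat_lit 1248) (nat_lit 3268) (nat_lit 0) (XT.nd (nat_lit 624) (nat_lit 2660) (nat_lit 0) (XT.nd (nat_lit 312) (nat_lit 1748) (nat_lit 0) (XT.nd (nat_lit 156) (nat_lit 0) (nat_lit 76) (XT.nd (nat_lit 78) (nat_lit 0) (nat_lit 0) (XT.lf (nat_lit 0) (nat_lit 2005718166) (nat_lit 684) (nat_lit 4274906331) (nat_lit 760) (nat_lit 3060984854) (nat_lit 304) (nat_lit 5) (nat_lit 313) (nat_lit 5) (nat_lit 314) (nat_lit 5) (nat_lit 351) (nat_lit 349) (nat_lit 320)) (XT.lf (nat_lit 76) (nat_lit 3601879712) (nat_lit 0) (nat_lit 204343737) (nat_lit 760) (nat_lit 5852045521) (nat_lit 305) (nat_lit 5) (nat_lit 304) (nat_lit 5) (nat_lit 314) (nat_lit 5) (nat_lit 352) (nat_lit 349) (nat_lit 319))) (XT.nd (nat_lit 78) (nat_lit 0) (nat_lit 76) (XT.lf (nat_lit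 76) (nat_lit 2140786287) (nat_lit 0) (nat_lit 3688559667) (nat_lit 760) (nat_lit 4166986564) (nat_lit 306) (nat_lit 5) (nat_lit 305) (nat_lit 5) (nat_lit 315) (nat_lit 5) (nat_lit 353) (nat_lit 349) (nat_lit 318)) (XT.lf (nat_lit 76) (nat_lit 730943344) (nat_lit 0) (nat_lit 7330772674) (nat_lit 760) (nat_lit 2297355244) (nat_lit 307) (nat_lit 5) (nat_lit 306) (nat_lit 5) (nat_lit 316) (nat_lit 5) (nat_lit 354) (nat_lit 349) (nat_lit 317)))) (XT.nd (nat_lit 156) (nat_lit 1216) (nat_lit 0) (XT.nd (nat_lit 78) (nat_lit 684) (nat_lit 0) (XT.lf (nat_lit 76) (nat_lit 10129972451) (nat_lit 0) (nat_lit 427244437) (nat_lit 760) (nat_lit 189385159) (nat_lit 307) (nat_lit 5) (nat_lit 306) (nat_lit 5) (nat_lit 316) (nat_lit 5) (nat_lit 355) (nat_lit 349) (nat_lit 316)) (XT.lf (nat_lit 0) (nat_lit 2171655269) (nat_lit 760) (nat_lit 1981364349) (nat_lit 76) (nat_lit 7002924461) (nat_lit 297) (nat_lit 5) (nat_lit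 307) (nat_lit 5) (nat_lit 298) (nat_lit 5) (nat_lit 356) (nat_lit 349) (nat_lit 315))) (XT.nd (nat_lit 78) (nat_lit 456) (nat_lit 0) (XT.lf (nat_lit 0) (nat_lit 4819295886) (nat_lit 836) (nat_lit 3310238999) (nat_lit 76) (nat_lit 3463125750) (nat_lit 287) (nat_lit 5) (nat_lit 298) (nat_lit 5) (nat_lit 288) (nat_lit 5) (nat_lit 357) (nat_lit 349) (nat_lit 314)) (XT.lf (nat_lit 0) (nat_lit 7453545826) (nat_lit 456) (nat_lit 352950029) (nat_lit 532) (nat_lit 4251431256) (nat_lit 281) (nat_lit 5) (nat_lit 287) (nat_lit 5) (nat_lit 288) (nat_lit 5) (nat_lit 358) (nat_lit 349) (nat_lit 313))))) (XT.nd (nat_lit 312) (nat_lit 1216) (nat_lit 0) (XT.nd (nat_lit 156) (nat_lit 608) (nat_lit 0) (XT.nd (nat_lit 78) (nat_lit 456) (nat_lit 0) (XT.lf (nat_lit 0) (nat_lit 6634461689) (nat_lit 380) (nat_lit 4597920878) (nat_lit 456) (nat_lit 1318046800) (nat_lit 276) (nat_lit 5) (nat_lit 281) (nat_lit 5) (nat_lit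 282) (nat_lit 5) (nat_lit 359) (nat_lit 349) (nat_lit 312)) (XT.lf (nat_lit 0) (nat_lit 1949472787) (nat_lit 456) (nat_lit 7216484127) (nat_lit 76) (nat_lit 3906996891) (nat_lit 270) (nat_lit 5) (nat_lit 276) (nat_lit 5) (nat_lit 271) (nat_lit 5) (nat_lit 360) (nat_lit 349) (nat_lit 311))) (XT.nd (nat_lit 78) (nat_lit 304) (nat_lit 0) (XT.lf (nat_lit 0) (nat_lit 5123078511) (nat_lit 304) (nat_lit 492546454) (nat_lit 380) (nat_lit 8011404417) (nat_lit 266) (nat_lit 5) (nat_lit 270) (nat_lit 5) (nat_lit 271) (nat_lit 5) (nat_lit 361) (nat_lit 349) (nat_lit 310)) (XT.lf (nat_lit 0) (nat_lit 4399570068) (nat_lit 304) (nat_lit 5435439786) (nat_lit 380) (nat_lit 4377424126) (nat_lit 262) (nat_lit 5) (nat_lit 266) (nat_lit 5) (nat_lit 267) (nat_lit 5) (nat_lit 362) (nat_lit 349) (nat_lit 309)))) (XT.nd (nat_lit 156) (nat_lit 532) (nat_lit 0) (XT.nd (nat_lit 78) (nat_lit 380) (nat_lit 0) (XT.lf (nat_lit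 0) (nat_lit 3761843651) (nat_lit 304) (nat_lit 10837807865) (nat_lit 380) (nat_lit 234634129) (nat_lit 258) (nat_lit 5) (nat_lit 262) (nat_lit 5) (nat_lit 263) (nat_lit 5) (nat_lit 363) (nat_lit 349) (nat_lit 308)) (XT.lf (nat_lit 0) (nat_lit 3128233951) (nat_lit 304) (nat_lit 1221656709) (nat_lit 380) (nat_lit 11140384967) (nat_lit 253) (nat_lit 5) (nat_lit 257) (nat_lit 5) (nat_lit 258) (nat_lit 5) (nat_lit 364) (nat_lit 349) (nat_lit 307))) (XT.nd (nat_lit 78) (nat_lit 304) (nat_lit 0) (XT.lf (nat_lit 0) (nat_lit 2515574114) (nat_lit 228) (nat_lit 7091119808) (nat_lit 304) (nat_lit 6576171719) (nat_lit 250) (nat_lit 5) (nat_lit 253) (nat_lit 5) (nat_lit 254) (nat_lit 5) (nat_lit 365) (nat_lit 349) (nat_lit 306)) (XT.lf (nat_lit 0) (nat_lit 2009398379) (nat_lit 304) (nat_lit 13534441964) (nat_lit 380) (nat_lit 1374032565) (nat_lit 246) (nat_lit 5) (nat_lit 250) (nat_lit 5) (nat_lit 251) (nat_lit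 5) (nat_lit 366) (nat_lit 349) (nat_lit 305)))))) (XT.nd (nat_lit 624) (nat_lit 1596) (nat_lit 0) (XT.nd (nat_lit 312) (nat_lit 608) (nat_lit 0) (XT.nd (nat_lit 156) (nat_lit 532) (nat_lit 0) (XT.nd (nat_lit 78) (nat_lit 228) (nat_lit 0) (XT.lf (nat_lit 0) (nat_lit 1503622752) (nat_lit 228) (nat_lit 2930597901) (nat_lit 304) (nat_lit 13257857535) (nat_lit 242) (nat_lit 5) (nat_lit 245) (nat_lit 5) (nat_lit 246) (nat_lit 5) (nat_lit 367) (nat_lit 349) (nat_lit 304)) (XT.lf (nat_lit 0) (nat_lit 1036446298) (nat_lit 228) (nat_lit 9979912172) (nat_lit 304) (nat_lit 7492866978) (nat_lit 239) (nat_lit 5) (nat_lit 242) (nat_lit 5) (nat_lit 243) (nat_lit 5) (nat_lit 368) (nat_lit 349) (nat_lit 303))) (XT.nd (nat_lit 78) (nat_lit 304) (nat_lit 0) (XT.lf (nat_lit 0) (nat_lit 706255390) (nat_lit 228) (nat_lit 17733263520) (nat_lit 304) (nat_lit 936502997) (nat_lit 236) (nat_lit 5) (nat_lit 239) (nat_lit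 5) (nat_lit 240) (nat_lit 5) (nat_lit 369) (nat_lit 349) (nat_lit 302)) (XT.lf (nat_lit 0) (nat_lit 328936122) (nat_lit 228) (nat_lit 6049598185) (nat_lit 304) (nat_lit 13907290113) (nat_lit 232) (nat_lit 5) (nat_lit 235) (nat_lit 5) (nat_lit 236) (nat_lit 5) (nat_lit 370) (nat_lit 349) (nat_lit 301)))) (XT.nd (nat_lit 156) (nat_lit 380) (nat_lit 0) (XT.nd (nat_lit 78) (nat_lit 76) (nat_lit 0) (XT.lf (nat_lit 0) (nat_lit 62778059) (nat_lit 152) (nat_lit 14568018840) (nat_lit 228) (nat_lit 6617604971) (nat_lit 230) (nat_lit 5) (nat_lit 232) (nat_lit 5) (nat_lit 233) (nat_lit 5) (nat_lit 371) (nat_lit 349) (nat_lit 300)) (XT.lf (nat_lit 0) (nat_lit 1622480039) (nat_lit 228) (nat_lit 77075625) (nat_lit 76) (nat_lit 20567079895) (nat_lit 229) (nat_lit 5) (nat_lit 232) (nat_lit 5) (nat_lit 230) (nat_lit 5) (nat_lit 372) (nat_lit 349) (nat_lit 299))) (XT.nd (nat_lit 78) (nat_lit 152) (nat_lit 0) (XT.lf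 (nat_lit 0) (nat_lit 10809990777) (nat_lit 304) (nat_lit 259058949) (nat_lit 76) (nat_lit 12265850573) (nat_lit 226) (nat_lit 5) (nat_lit 230) (nat_lit 5) (nat_lit 227) (nat_lit 5) (nat_lit 373) (nat_lit 349) (nat_lit 298)) (XT.lf (nat_lit 0) (nat_lit 21148556871) (nat_lit 228) (nat_lit 245326295) (nat_lit 76) (nat_lit 3073940327) (nat_lit 224) (nat_lit 5) (nat_lit 227) (nat_lit 5) (nat_lit 225) (nat_lit 5) (nat_lit 374) (nat_lit 349) (nat_lit 297))))) (XT.nd (nat_lit 312) (nat_lit 684) (nat_lit 0) (XT.nd (nat_lit 156) (nat_lit 532) (nat_lit 0) (XT.nd (nat_lit 78) (nat_lit 152) (nat_lit 0) (XT.lf (nat_lit 0) (nat_lit 6969087591) (nat_lit 228) (nat_lit 232316889) (nat_lit 76) (nat_lit 18456894431) (nat_lit 221) (nat_lit 5) (nat_lit 224) (nat_lit 5) (nat_lit 222) (nat_lit 5) (nat_lit 375) (nat_lit 349) (nat_lit 296)) (XT.lf (nat_lit 0) (nat_lit 18485903691) (nat_lit 228) (nat_lit 99459084) (nat_lit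 76) (nat_lit 8329844654) (nat_lit 219) (nat_lit 5) (nat_lit 222) (nat_lit 5) (nat_lit 220) (nat_lit 5) (nat_lit 376) (nat_lit 349) (nat_lit 295))) (XT.nd (nat_lit 78) (nat_lit 152) (nat_lit 0) (XT.lf (nat_lit 0) (nat_lit 199546373) (nat_lit 152) (nat_lit 2911274485) (nat_lit 228) (nat_lit 25132563702) (nat_lit 214) (nat_lit 5) (nat_lit 216) (nat_lit 5) (nat_lit 217) (nat_lit 5) (nat_lit 377) (nat_lit 349) (nat_lit 294)) (XT.lf (nat_lit 0) (nat_lit 485490703) (nat_lit 152) (nat_lit 15465766064) (nat_lit 228) (nat_lit 13686028672) (nat_lit 212) (nat_lit 5) (nat_lit 214) (nat_lit 5) (nat_lit 215) (nat_lit 5) (nat_lit 378) (nat_lit 349) (nat_lit 293)))) (XT.nd (nat_lit 156) (nat_lit 380) (nat_lit 0) (XT.nd (nat_lit 78) (nat_lit 228) (nat_lit 0) (XT.lf (nat_lit 0) (nat_lit 1071852222) (nat_lit 76) (nat_lit 29293470849) (nat_lit 152) (nat_lit 750055543) (nat_lit 211) (nat_lit 5) (nat_lit 212) (nat_lit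 5) (nat_lit 213) (nat_lit 4) (nat_lit 379) (nat_lit 349) (nat_lit 292)) (XT.lf (nat_lit 0) (nat_lit 1579812456) (nat_lit 152) (nat_lit 11983901984) (nat_lit 228) (nat_lit 19099380769) (nat_lit 208) (nat_lit 5) (nat_lit 210) (nat_lit 5) (nat_lit 211) (nat_lit 5) (nat_lit 380) (nat_lit 349) (nat_lit 291))) (XT.nd (nat_lit 78) (nat_lit 304) (nat_lit 0) (XT.lf (nat_lit 0) (nat_lit 2385952489) (nat_lit 76) (nat_lit 27250403199) (nat_lit 152) (nat_lit 4665656245) (nat_lit 207) (nat_lit 5) (nat_lit 208) (nat_lit 5) (nat_lit 209) (nat_lit 4) (nat_lit 381) (nat_lit 349) (nat_lit 290)) (XT.nd (nat_lit 78) (nat_lit 76) (nat_lit 0) (XT.lf (nat_lit 0) (nat_lit 3260373248) (nat_lit 152) (nat_lit 8082933990) (nat_lit 228) (nat_lit 24681701120) (nat_lit 204) (nat_lit 5) (nat_lit 206) (nat_lit 5) (nat_lit 207) (nat_lit 5) (nat_lit 382) (nat_lit 349) (nat_lit 289)) (XT.lf (nat_lit 0) (nat_lit 4327521708) (nat_lit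 76) (nat_lit 24941814578) (nat_lit 152) (nat_lit 8572693387) (nat_lit 203) (nat_lit 5) (nat_lit 204) (nat_lit 5) (nat_lit 205) (nat_lit 4) (nat_lit 383) (nat_lit 349) (nat_lit 288))))))))
noncomputable def xc118 : XT := (XT.nd (nat_lit 1248) (nat_lit 2052) (nat_lit 0) (XT.nd (nat_lit 624) (nat_lit 912) (nat_lit 0) (XT.nd (nat_lit 312) (nat_lit 532) (nat_lit 0) (XT.nd (nat_lit 156) (nat_lit 304) (nat_lit 0) (XT.nd (nat_lit 78) (nat_lit 76) (nat_lit 0) (XT.lf (nat_lit 0) (nat_lit 5620388279) (nat_lit 152) (nat_lit 3695309506) (nat_lit 228) (nat_lit 30443169777) (nat_lit 200) (nat_lit 5) (nat_lit 202) (nat_lit 5) (nat_lit 203) (nat_lit 5) (nat_lit 384) (nat_lit 349) (nat_lit 287)) (XT.lf (nat_lit 0) (nat_lit 6996398564) (nat_lit 76) (nat_lit 22315627499) (nat_lit 152) (nat_lit 12461139062) (nat_lit 199) (nat_lit 5) (nat_lit 200) (nat_lit 5) (nat_lit 201) (nat_lit 4) (nat_lit 385) (nat_lit 349) (nat_lit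 286))) (XT.nd (nat_lit 78) (nat_lit 76) (nat_lit 0) (XT.lf (nat_lit 0) (nat_lit 7530891702) (nat_lit 228) (nat_lit 35156272974) (nat_lit 76) (nat_lit 1216299807) (nat_lit 196) (nat_lit 5) (nat_lit 199) (nat_lit 5) (nat_lit 197) (nat_lit 4) (nat_lit 386) (nat_lit 349) (nat_lit 285)) (XT.lf (nat_lit 0) (nat_lit 10507996520) (nat_lit 76) (nat_lit 19311516404) (nat_lit 152) (nat_lit 16317770538) (nat_lit 195) (nat_lit 5) (nat_lit 196) (nat_lit 5) (nat_lit 197) (nat_lit 4) (nat_lit 387) (nat_lit 349) (nat_lit 284)))) (XT.nd (nat_lit 156) (nat_lit 228) (nat_lit 0) (XT.nd (nat_lit 78) (nat_lit 76) (nat_lit 0) (XT.lf (nat_lit 0) (nat_lit 6073043479) (nat_lit 228) (nat_lit 35785859970) (nat_lit 76) (nat_lit 6641605473) (nat_lit 192) (nat_lit 5) (nat_lit 195) (nat_lit 5) (nat_lit 193) (nat_lit 4) (nat_lit 388) (nat_lit 349) (nat_lit 283)) (XT.lf (nat_lit 0) (nat_lit 14995327987) (nat_lit 76) (nat_lit 15859941683)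 (nat_lit 152) (nat_lit 20125555414) (nat_lit 191) (nat_lit 5) (nat_lit 192) (nat_lit 5) (nat_lit 193) (nat_lit 4) (nat_lit 389) (nat_lit 349) (nat_lit 282))) (XT.nd (nat_lit 78) (nat_lit 76) (nat_lit 0) (XT.lf (nat_lit 0) (nat_lit 4928279712) (nat_lit 152) (nat_lit 35876734314) (nat_lit 76) (nat_lit 12796734120) (nat_lit 189) (nat_lit 5) (nat_lit 191) (nat_lit 5) (nat_lit 190) (nat_lit 4) (nat_lit 390) (nat_lit 349) (nat_lit 281)) (XT.lf (nat_lit 0) (nat_lit 20611309497) (nat_lit 76) (nat_lit 11881025773) (nat_lit 152) (nat_lit 23862962674) (nat_lit 188) (nat_lit 5) (nat_lit 189) (nat_lit 5) (nat_lit 190) (nat_lit 4) (nat_lit 391) (nat_lit 349) (nat_lit 280))))) (XT.nd (nat_lit 312) (nat_lit 456) (nat_lit 0) (XT.nd (nat_lit 156) (nat_lit 228) (nat_lit 0) (XT.nd (nat_lit 78) (nat_lit 76) (nat_lit 0) (XT.lf (nat_lit 0) (nat_lit 4147959402) (nat_lit 152) (nat_lit 35320392319) (nat_lit 76) (nat_lit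 19793019344) (nat_lit 186) (nat_lit 5) (nat_lit 188) (nat_lit 5) (nat_lit 187) (nat_lit 4) (nat_lit 392) (nat_lit 349) (nat_lit 279)) (XT.lf (nat_lit 0) (nat_lit 27531380212) (nat_lit 76) (nat_lit 7283257382) (nat_lit 152) (nat_lit 27503186422) (nat_lit 185) (nat_lit 5) (nat_lit 186) (nat_lit 5) (nat_lit 187) (nat_lit 4) (nat_lit 393) (nat_lit 349) (nat_lit 278))) (XT.nd (nat_lit 78) (nat_lit 76) (nat_lit 0) (XT.lf (nat_lit 0) (nat_lit 3792089264) (nat_lit 152) (nat_lit 33990445199) (nat_lit 76) (nat_lit 27756933175) (nat_lit 183) (nat_lit 5) (nat_lit 185) (nat_lit 5) (nat_lit 184) (nat_lit 4) (nat_lit 394) (nat_lit 349) (nat_lit 277)) (XT.lf (nat_lit 0) (nat_lit 35956470666) (nat_lit 76) (nat_lit 1962007092) (nat_lit 152) (nat_lit 31013267972) (nat_lit 182) (nat_lit 5) (nat_lit 183) (nat_lit 5) (nat_lit 184) (nat_lit 4) (nat_lit 395) (nat_lit 349) (nat_lit 276)))) (XT.nd (nat_lit 156) (nat_lit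 228) (nat_lit 0) (XT.nd (nat_lit 78) (nat_lit 76) (nat_lit 0) (XT.lf (nat_lit 0) (nat_lit 3930573706) (nat_lit 152) (nat_lit 31740121070) (nat_lit 76) (nat_lit 36831971718) (nat_lit 180) (nat_lit 5) (nat_lit 182) (nat_lit 5) (nat_lit 181) (nat_lit 4) (nat_lit 396) (nat_lit 349) (nat_lit 275)) (XT.lf (nat_lit 0) (nat_lit 41979805791) (nat_lit 152) (nat_lit 30216542729) (nat_lit 0) (nat_lit 4067669842) (nat_lit 179) (nat_lit 5) (nat_lit 181) (nat_lit 4) (nat_lit 179) (nat_lit 4) (nat_lit 397) (nat_lit 349) (nat_lit 274))) (XT.nd (nat_lit 78) (nat_lit 76) (nat_lit 0) (XT.lf (nat_lit 0) (nat_lit 4644625152) (nat_lit 152) (nat_lit 28399424738) (nat_lit 76) (nat_lit 47180792376) (nat_lit 177) (nat_lit 5) (nat_lit 179) (nat_lit 5) (nat_lit 178) (nat_lit 4) (nat_lit 398) (nat_lit 349) (nat_lit 273)) (XT.lf (nat_lit 0) (nat_lit 47105193178) (nat_lit 152) (nat_lit 26305998014) (nat_lit 0) (nat_lit 10982310323)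 (nat_lit 176) (nat_lit 5) (nat_lit 178) (nat_lit 4) (nat_lit 176) (nat_lit 4) (nat_lit 399) (nat_lit 349) (nat_lit 272)))))) (XT.nd (nat_lit 624) (nat_lit 1064) (nat_lit 0) (XT.nd (nat_lit 312) (nat_lit 532) (nat_lit 0) (XT.nd (nat_lit 156) (nat_lit 228) (nat_lit 0) (XT.nd (nat_lit 78) (nat_lit 76) (nat_lit 0) (XT.lf (nat_lit 0) (nat_lit 6028356668) (nat_lit 152) (nat_lit 23771912792) (nat_lit 76) (nat_lit 58987630648) (nat_lit 174) (nat_lit 5) (nat_lit 176) (nat_lit 5) (nat_lit 175) (nat_lit 4) (nat_lit 400) (nat_lit 349) (nat_lit 271)) (XT.lf (nat_lit 0) (nat_lit 53410718769) (nat_lit 152) (nat_lit 21002391220) (nat_lit 0) (nat_lit 18994838181) (nat_lit 173) (nat_lit 5) (nat_lit 175) (nat_lit 4) (nat_lit 173) (nat_lit 4) (nat_lit 401) (nat_lit 349) (nat_lit 270))) (XT.nd (nat_lit 78) (nat_lit 76) (nat_lit 0) (XT.lf (nat_lit 0) (nat_lit 8190581348) (nat_lit 152) (nat_lit 17631035962) (nat_lit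 76) (nat_lit 72461028450) (nat_lit 171) (nat_lit 5) (nat_lit 173) (nat_lit 5) (nat_lit 172) (nat_lit 4) (nat_lit 402) (nat_lit 349) (nat_lit 269)) (XT.lf (nat_lit 0) (nat_lit 61063835275) (nat_lit 152) (nat_lit 14063031717) (nat_lit 0) (nat_lit 28276081232) (nat_lit 170) (nat_lit 5) (nat_lit 172) (nat_lit 4) (nat_lit 170) (nat_lit 4) (nat_lit 403) (nat_lit 349) (nat_lit 268)))) (XT.nd (nat_lit 156) (nat_lit 304) (nat_lit 0) (XT.nd (nat_lit 78) (nat_lit 76) (nat_lit 0) (XT.lf (nat_lit 0) (nat_lit 11256845745) (nat_lit 152) (nat_lit 9715994529) (nat_lit 76) (nat_lit 87836910163) (nat_lit 168) (nat_lit 5) (nat_lit 170) (nat_lit 5) (nat_lit 169) (nat_lit 4) (nat_lit 404) (nat_lit 349) (nat_lit 267)) (XT.lf (nat_lit 0) (nat_lit 70255458061) (nat_lit 152) (nat_lit 5208749305) (nat_lit 0) (nat_lit 39020268610) (nat_lit 167) (nat_lit 5) (nat_lit 169) (nat_lit 4) (nat_lit 167) (nat_lit 4) (nat_lit 405)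 (nat_lit 349) (nat_lit 266))) (XT.nd (nat_lit 78) (nat_lit 76) (nat_lit 0) (XT.lf (nat_lit 0) (nat_lit 281979492) (nat_lit 76) (nat_lit 15094150846) (nat_lit 152) (nat_lit 105104470312) (nat_lit 164) (nat_lit 5) (nat_lit 165) (nat_lit 5) (nat_lit 166) (nat_lit 4) (nat_lit 406) (nat_lit 349) (nat_lit 265)) (XT.lf (nat_lit 0) (nat_lit 6075548480) (nat_lit 76) (nat_lit 75222337496) (nat_lit 76) (nat_lit 45467387787) (nat_lit 163) (nat_lit 4) (nat_lit 164) (nat_lit 5) (nat_lit 164) (nat_lit 4) (nat_lit 407) (nat_lit 349) (nat_lit 264))))) (XT.nd (nat_lit 312) (nat_lit 608) (nat_lit 0) (XT.nd (nat_lit 156) (nat_lit 228) (nat_lit 0) (XT.nd (nat_lit 78) (nat_lit 76) (nat_lit 0) (XT.lf (nat_lit 0) (nat_lit 13099058180) (nat_lit 76) (nat_lit 7806888581) (nat_lit 152) (nat_lit 112503412879) (nat_lit 161) (nat_lit 5) (nat_lit 162) (nat_lit 5) (nat_lit 163) (nat_lit 4) (nat_lit 408) (nat_lit 349) (nat_lit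 263)) (XT.lf (nat_lit 0) (nat_lit 20221452886) (nat_lit 76) (nat_lit 74248231083) (nat_lit 76) (nat_lit 45904345484) (nat_lit 160) (nat_lit 4) (nat_lit 161) (nat_lit 5) (nat_lit 161) (nat_lit 4) (nat_lit 409) (nat_lit 349) (nat_lit 262))) (XT.nd (nat_lit 78) (nat_lit 76) (nat_lit 0) (XT.lf (nat_lit 0) (nat_lit 27901303320) (nat_lit 152) (nat_lit 118934026668) (nat_lit 0) (nat_lit 904651378) (nat_lit 158) (nat_lit 5) (nat_lit 160) (nat_lit 4) (nat_lit 158) (nat_lit 4) (nat_lit 410) (nat_lit 349) (nat_lit 261)) (XT.lf (nat_lit 0) (nat_lit 37491897224) (nat_lit 76) (nat_lit 72483020282) (nat_lit 76) (nat_lit 45484076507) (nat_lit 157) (nat_lit 4) (nat_lit 158) (nat_lit 5) (nat_lit 158) (nat_lit 4) (nat_lit 411) (nat_lit 349) (nat_lit 260)))) (XT.nd (nat_lit 156) (nat_lit 380) (nat_lit 0) (XT.nd (nat_lit 78) (nat_lit 76) (nat_lit 0) (XT.lf (nat_lit 0) (nat_lit 36721873927) (nat_lit 152) (nat_lit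 115889029455) (nat_lit 0) (nat_lit 11006573124) (nat_lit 155) (nat_lit 5) (nat_lit 157) (nat_lit 4) (nat_lit 155) (nat_lit 4) (nat_lit 412) (nat_lit 349) (nat_lit 259)) (XT.lf (nat_lit 0) (nat_lit 58384737597) (nat_lit 76) (nat_lit 69756142050) (nat_lit 76) (nat_lit 44038969935) (nat_lit 154) (nat_lit 4) (nat_lit 155) (nat_lit 5) (nat_lit 155) (nat_lit 4) (nat_lit 413) (nat_lit 349) (nat_lit 258))) (XT.nd (nat_lit 78) (nat_lit 228) (nat_lit 0) (XT.lf (nat_lit 0) (nat_lit 47508638937) (nat_lit 152) (nat_lit 110692802187) (nat_lit 0) (nat_lit 23014443878) (nat_lit 152) (nat_lit 5) (nat_lit 154) (nat_lit 4) (nat_lit 152) (nat_lit 4) (nat_lit 414) (nat_lit 349) (nat_lit 257)) (XT.nd (nat_lit 78) (nat_lit 152) (nat_lit 0) (XT.lf (nat_lit 0) (nat_lit 83468935527) (nat_lit 76) (nat_lit 65870196937) (nat_lit 76) (nat_lit 41374473927) (nat_lit 151) (nat_lit 4) (nat_lit 152) (nat_lit 5) (nat_lit 152) (nat_lit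 4) (nat_lit 415) (nat_lit 349) (nat_lit 256)) (XT.lf (nat_lit 0) (nat_lit 60562094626) (nat_lit 152) (nat_lit 102927788440) (nat_lit 0) (nat_lit 37231487217) (nat_lit 149) (nat_lit 5) (nat_lit 151) (nat_lit 4) (nat_lit 149) (nat_lit 4) (nat_lit 416) (nat_lit 349) (nat_lit 255))))))))
noncomputable def xc119 : XT := (XT.nd (nat_lit 1248) (nat_lit 1824) (nat_lit 0) (XT.nd (nat_lit 624) (nat_lit 988) (nat_lit 0) (XT.nd (nat_lit 312) (nat_lit 456) (nat_lit 0) (XT.nd (nat_lit 156) (nat_lit 228) (nat_lit 0) (XT.nd (nat_lit 78) (nat_lit 152) (nat_lit 0) (XT.lf (nat_lit 0) (nat_lit 113394049067) (nat_lit 76) (nat_lit 60597144731) (nat_lit 76) (nat_lit 37265289729) (nat_lit 148) (nat_lit 4) (nat_lit 149) (nat_lit 5) (nat_lit 149) (nat_lit 4) (nat_lit 417) (nat_lit 349) (nat_lit 254)) (XT.lf (nat_lit 0) (nat_lit 76225369855) (nat_lit 152) (nat_lit 92111465183) (nat_lit 0) (nat_lit 54003455398) (nat_lit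 146) (nat_lit 5) (nat_lit 148) (nat_lit 4) (nat_lit 146) (nat_lit 4) (nat_lit 418) (nat_lit 349) (nat_lit 253))) (XT.nd (nat_lit 78) (nat_lit 152) (nat_lit 0) (XT.lf (nat_lit 0) (nat_lit 148900942996) (nat_lit 76) (nat_lit 53673992177) (nat_lit 76) (nat_lit 31451059045) (nat_lit 145) (nat_lit 4) (nat_lit 146) (nat_lit 5) (nat_lit 146) (nat_lit 4) (nat_lit 419) (nat_lit 349) (nat_lit 252)) (XT.lf (nat_lit 0) (nat_lit 94889871075) (nat_lit 152) (nat_lit 77687244237) (nat_lit 0) (nat_lit 73724274551) (nat_lit 143) (nat_lit 5) (nat_lit 145) (nat_lit 4) (nat_lit 143) (nat_lit 4) (nat_lit 420) (nat_lit 349) (nat_lit 251)))) (XT.nd (nat_lit 156) (nat_lit 228) (nat_lit 0) (XT.nd (nat_lit 78) (nat_lit 152) (nat_lit 0) (XT.lf (nat_lit 0) (nat_lit 190833870034) (nat_lit 76) (nat_lit 44797908068) (nat_lit 76) (nat_lit 23631479782) (nat_lit 142) (nat_lit 4) (nat_lit 143) (nat_lit 5) (nat_lit 143) (nat_lit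 4) (nat_lit 421) (nat_lit 349) (nat_lit 250)) (XT.lf (nat_lit 0) (nat_lit 117001648312) (nat_lit 152) (nat_lit 59014169214) (nat_lit 0) (nat_lit 96842411707) (nat_lit 140) (nat_lit 5) (nat_lit 142) (nat_lit 4) (nat_lit 140) (nat_lit 4) (nat_lit 422) (nat_lit 349) (nat_lit 249))) (XT.nd (nat_lit 78) (nat_lit 152) (nat_lit 0) (XT.lf (nat_lit 0) (nat_lit 240154093696) (nat_lit 76) (nat_lit 33620692844) (nat_lit 76) (nat_lit 13460777094) (nat_lit 139) (nat_lit 4) (nat_lit 140) (nat_lit 5) (nat_lit 140) (nat_lit 4) (nat_lit 423) (nat_lit 349) (nat_lit 248)) (XT.lf (nat_lit 0) (nat_lit 143068571860) (nat_lit 152) (nat_lit 35355254511) (nat_lit 0) (nat_lit 123868053205) (nat_lit 137) (nat_lit 5) (nat_lit 139) (nat_lit 4) (nat_lit 137) (nat_lit 4) (nat_lit 424) (nat_lit 349) (nat_lit 247))))) (XT.nd (nat_lit 312) (nat_lit 456) (nat_lit 0) (XT.nd (nat_lit 156) (nat_lit 304) (nat_lit 0) (XT.nd (nat_lit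 78) (nat_lit 152) (nat_lit 0) (XT.lf (nat_lit 0) (nat_lit 297955244204) (nat_lit 76) (nat_lit 19742520768) (nat_lit 76) (nat_lit 541447582) (nat_lit 136) (nat_lit 4) (nat_lit 137) (nat_lit 5) (nat_lit 137) (nat_lit 4) (nat_lit 425) (nat_lit 349) (nat_lit 246)) (XT.lf (nat_lit 0) (nat_lit 173668420403) (nat_lit 152) (nat_lit 5864293877) (nat_lit 0) (nat_lit 155381195032) (nat_lit 134) (nat_lit 5) (nat_lit 136) (nat_lit 4) (nat_lit 134) (nat_lit 4) (nat_lit 426) (nat_lit 349) (nat_lit 245))) (XT.nd (nat_lit 78) (nat_lit 76) (nat_lit 0) (XT.lf (nat_lit 0) (nat_lit 13052420676) (nat_lit 76) (nat_lit 2235432411) (nat_lit 152) (nat_lit 337292462266) (nat_lit 131) (nat_lit 5) (nat_lit 132) (nat_lit 5) (nat_lit 133) (nat_lit 4) (nat_lit 427) (nat_lit 349) (nat_lit 244)) (XT.lf (nat_lit 0) (nat_lit 31435177325) (nat_lit 76) (nat_lit 178513607397) (nat_lit 76) (nat_lit 161096371783) (nat_lit 130) (nat_lit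 4) (nat_lit 131) (nat_lit 5) (nat_lit 131) (nat_lit 4) (nat_lit 428) (nat_lit 349) (nat_lit 243)))) (XT.nd (nat_lit 156) (nat_lit 228) (nat_lit 0) (XT.nd (nat_lit 78) (nat_lit 76) (nat_lit 0) (XT.lf (nat_lit 0) (nat_lit 35458552213) (nat_lit 152) (nat_lit 336275605877) (nat_lit 0) (nat_lit 18870356674) (nat_lit 128) (nat_lit 5) (nat_lit 130) (nat_lit 4) (nat_lit 128) (nat_lit 4) (nat_lit 429) (nat_lit 349) (nat_lit 242)) (XT.lf (nat_lit 0) (nat_lit 77103937644) (nat_lit 76) (nat_lit 175283246052) (nat_lit 76) (nat_lit 158694724497) (nat_lit 127) (nat_lit 4) (nat_lit 128) (nat_lit 5) (nat_lit 128) (nat_lit 4) (nat_lit 430) (nat_lit 349) (nat_lit 241))) (XT.nd (nat_lit 78) (nat_lit 76) (nat_lit 0) (XT.lf (nat_lit 0) (nat_lit 60060753890) (nat_lit 152) (nat_lit 328418141956) (nat_lit 0) (nat_lit 44261874441) (nat_lit 125) (nat_lit 5) (nat_lit 127) (nat_lit 4) (nat_lit 125) (nat_lit 4) (nat_lit 431)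 (nat_lit 349) (nat_lit 240)) (XT.lf (nat_lit 0) (nat_lit 132261500772) (nat_lit 76) (nat_lit 169494962226) (nat_lit 76) (nat_lit 153695816580) (nat_lit 124) (nat_lit 4) (nat_lit 125) (nat_lit 5) (nat_lit 125) (nat_lit 4) (nat_lit 432) (nat_lit 349) (nat_lit 239)))))) (XT.nd (nat_lit 624) (nat_lit 912) (nat_lit 0) (XT.nd (nat_lit 312) (nat_lit 456) (nat_lit 0) (XT.nd (nat_lit 156) (nat_lit 228) (nat_lit 0) (XT.nd (nat_lit 78) (nat_lit 76) (nat_lit 0) (XT.lf (nat_lit 0) (nat_lit 89755840785) (nat_lit 152) (nat_lit 314971472273) (nat_lit 0) (nat_lit 74708800668) (nat_lit 122) (nat_lit 5) (nat_lit 124) (nat_lit 4) (nat_lit 122) (nat_lit 4) (nat_lit 433) (nat_lit 349) (nat_lit 238)) (XT.lf (nat_lit 0) (nat_lit 198408829408) (nat_lit 76) (nat_lit 160632002400) (nat_lit 76) (nat_lit 145584744930) (nat_lit 121) (nat_lit 4) (nat_lit 122) (nat_lit 5) (nat_lit 122) (nat_lit 4) (nat_lit 434) (nat_lit 349)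 (nat_lit 237))) (XT.nd (nat_lit 78) (nat_lit 76) (nat_lit 0) (XT.lf (nat_lit 0) (nat_lit 125339264249) (nat_lit 152) (nat_lit 294836495549) (nat_lit 0) (nat_lit 111008351179) (nat_lit 119) (nat_lit 5) (nat_lit 121) (nat_lit 4) (nat_lit 119) (nat_lit 4) (nat_lit 435) (nat_lit 349) (nat_lit 236)) (XT.lf (nat_lit 0) (nat_lit 277259515665) (nat_lit 76) (nat_lit 148096793162) (nat_lit 76) (nat_lit 133765702621) (nat_lit 118) (nat_lit 4) (nat_lit 119) (nat_lit 5) (nat_lit 119) (nat_lit 4) (nat_lit 436) (nat_lit 349) (nat_lit 235)))) (XT.nd (nat_lit 156) (nat_lit 228) (nat_lit 0) (XT.nd (nat_lit 78) (nat_lit 76) (nat_lit 0) (XT.lf (nat_lit 0) (nat_lit 167718863275) (nat_lit 152) (nat_lit 266742934734) (nat_lit 0) (nat_lit 154070049117) (nat_lit 116) (nat_lit 5) (nat_lit 118) (nat_lit 4) (nat_lit 116) (nat_lit 4) (nat_lit 437) (nat_lit 349) (nat_lit 234)) (XT.lf (nat_lit 0) (nat_lit 370768082103) (nat_lit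 76) (nat_lit 131199552824) (nat_lit 76) (nat_lit 117550593758) (nat_lit 115) (nat_lit 4) (nat_lit 116) (nat_lit 5) (nat_lit 116) (nat_lit 4) (nat_lit 438) (nat_lit 349) (nat_lit 233))) (XT.nd (nat_lit 78) (nat_lit 76) (nat_lit 0) (XT.lf (nat_lit 0) (nat_lit 217929779748) (nat_lit 152) (nat_lit 229225312873) (nat_lit 0) (nat_lit 204930643329) (nat_lit 113) (nat_lit 5) (nat_lit 115) (nat_lit 4) (nat_lit 113) (nat_lit 4) (nat_lit 439) (nat_lit 349) (nat_lit 232)) (XT.lf (nat_lit 0) (nat_lit 481161905463) (nat_lit 76) (nat_lit 109145392195) (nat_lit 76) (nat_lit 96146137457) (nat_lit 112) (nat_lit 4) (nat_lit 113) (nat_lit 5) (nat_lit 113) (nat_lit 4) (nat_lit 440) (nat_lit 349) (nat_lit 231))))) (XT.nd (nat_lit 312) (nat_lit 456) (nat_lit 0) (XT.nd (nat_lit 156) (nat_lit 228) (nat_lit 0) (XT.nd (nat_lit 78) (nat_lit 76) (nat_lit 0) (XT.lf (nat_lit 0) (nat_lit 277151279971) (nat_lit 152) (nat_lit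 180595747827) (nat_lit 0) (nat_lit 264770933025) (nat_lit 110) (nat_lit 5) (nat_lit 112) (nat_lit 4) (nat_lit 110) (nat_lit 4) (nat_lit 441) (nat_lit 349) (nat_lit 230)) (XT.lf (nat_lit 0) (nat_lit 610977214375) (nat_lit 76) (nat_lit 81019711543) (nat_lit 76) (nat_lit 68639267989) (nat_lit 109) (nat_lit 4) (nat_lit 110) (nat_lit 5) (nat_lit 110) (nat_lit 4) (nat_lit 442) (nat_lit 349) (nat_lit 229))) (XT.nd (nat_lit 78) (nat_lit 76) (nat_lit 0) (XT.lf (nat_lit 0) (nat_lit 346725719699) (nat_lit 152) (nat_lit 118913160161) (nat_lit 0) (nat_lit 334934735883) (nat_lit 107) (nat_lit 5) (nat_lit 109) (nat_lit 4) (nat_lit 107) (nat_lit 4) (nat_lit 443) (nat_lit 349) (nat_lit 228)) (XT.lf (nat_lit 0) (nat_lit 763099667497) (nat_lit 76) (nat_lit 45771676828) (nat_lit 76) (nat_lit 33980614129) (nat_lit 106) (nat_lit 4) (nat_lit 107) (nat_lit 5) (nat_lit 107) (nat_lit 4) (nat_lit 444) (nat_lit 349) (nat_lit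 227)))) (XT.nd (nat_lit 156) (nat_lit 76) (nat_lit 0) (XT.nd (nat_lit 78) (nat_lit 228) (nat_lit 0) (XT.lf (nat_lit 0) (nat_lit 428179918829) (nat_lit 152) (nat_lit 41948438085) (nat_lit 0) (nat_lit 416950265745) (nat_lit 104) (nat_lit 5) (nat_lit 106) (nat_lit 4) (nat_lit 104) (nat_lit 4) (nat_lit 445) (nat_lit 349) (nat_lit 226)) (XT.lf (nat_lit 0) (nat_lit 6919058985) (nat_lit 76) (nat_lit 1934002711) (nat_lit 152) (nat_lit 925105909979) (nat_lit 101) (nat_lit 5) (nat_lit 102) (nat_lit 5) (nat_lit 103) (nat_lit 4) (nat_lit 446) (nat_lit 349) (nat_lit 225))) (XT.nd (nat_lit 45552) (nat_lit 0) (nat_lit 15428) (XT.lf (nat_lit 0) (nat_lit 54602576687) (nat_lit 76) (nat_lit 469499166885) (nat_lit 76) (nat_lit 458804141047) (nat_lit 100) (nat_lit 4) (nat_lit 101) (nat_lit 5) (nat_lit 101) (nat_lit 4) (nat_lit 447) (nat_lit 349) (nat_lit 224)) (XT.nd (nat_lit 78) (nat_lit 0) (nat_lit 0) (XT.lf (nat_lit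 0) (nat_lit 409358395) (nat_lit 0) (nat_lit 409358395) (nat_lit 684) (nat_lit 3847348329) (nat_lit 303) (nat_lit 5) (nat_lit 303) (nat_lit 3) (nat_lit 312) (nat_lit 3) (nat_lit 350) (nat_lit 350) (nat_lit 320)) (XT.lf (nat_lit 0) (nat_lit 3088670424) (nat_lit 684) (nat_lit 1126710103) (nat_lit 760) (nat_lit 5420747948) (nat_lit 303) (nat_lit 5) (nat_lit 312) (nat_lit 3) (nat_lit 313) (nat_lit 5) (nat_lit 351) (nat_lit 350) (nat_lit 319))))))))
noncomputable def xc120 : XT := (XT.nd (nat_lit 1248) (nat_lit 3192) (nat_lit 0) (XT.nd (nat_lit 624) (nat_lit 2660) (nat_lit 0) (XT.nd (nat_lit 312) (nat_lit 1748) (nat_lit 0) (XT.nd (nat_lit 156) (nat_lit 0) (nat_lit 76) (XT.nd (nat_lit 78) (nat_lit 0) (nat_lit 0) (XT.lf (nat_lit 0) (nat_lit 4686547001) (nat_lit 684) (nat_lit 3012912646) (nat_lit 760) (nat_lit 2263459882) (nat_lit 304) (nat_lit 5) (nat_lit 313) (nat_lit 5) (nat_lit 314) (nat_lit 5) (nat_lit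 352) (nat_lit 350) (nat_lit 318)) (XT.lf (nat_lit 76) (nat_lit 5424308995) (nat_lit 0) (nat_lit 1044043928) (nat_lit 760) (nat_lit 3844695984) (nat_lit 305) (nat_lit 5) (nat_lit 304) (nat_lit 5) (nat_lit 314) (nat_lit 5) (nat_lit 353) (nat_lit 350) (nat_lit 317))) (XT.nd (nat_lit 78) (nat_lit 0) (nat_lit 76) (XT.lf (nat_lit 76) (nat_lit 3904704982) (nat_lit 0) (nat_lit 4586944058) (nat_lit 760) (nat_lit 2194592309) (nat_lit 306) (nat_lit 5) (nat_lit 305) (nat_lit 5) (nat_lit 315) (nat_lit 5) (nat_lit 354) (nat_lit 350) (nat_lit 316)) (XT.lf (nat_lit 76) (nat_lit 2426895668) (nat_lit 0) (nat_lit 8329893800) (nat_lit 760) (nat_lit 328500687) (nat_lit 307) (nat_lit 5) (nat_lit 306) (nat_lit 5) (nat_lit 316) (nat_lit 5) (nat_lit 355) (nat_lit 350) (nat_lit 315)))) (XT.nd (nat_lit 156) (nat_lit 1140) (nat_lit 0) (XT.nd (nat_lit 78) (nat_lit 0) (nat_lit 76) (XT.lf (nat_lit 76) (nat_lit 947537261) (nat_lit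 0) (nat_lit 798660387) (nat_lit 836) (nat_lit 9763082871) (nat_lit 297) (nat_lit 5) (nat_lit 296) (nat_lit 5) (nat_lit 307) (nat_lit 5) (nat_lit 356) (nat_lit 350) (nat_lit 314)) (XT.lf (nat_lit 0) (nat_lit 4150794508) (nat_lit 760) (nat_lit 533392605) (nat_lit 76) (nat_lit 7273962151) (nat_lit 297) (nat_lit 5) (nat_lit 307) (nat_lit 5) (nat_lit 298) (nat_lit 5) (nat_lit 357) (nat_lit 350) (nat_lit 313))) (XT.nd (nat_lit 78) (nat_lit 456) (nat_lit 0) (XT.lf (nat_lit 0) (nat_lit 6898021760) (nat_lit 836) (nat_lit 1951127270) (nat_lit 76) (nat_lit 3586265346) (nat_lit 287) (nat_lit 5) (nat_lit 298) (nat_lit 5) (nat_lit 288) (nat_lit 5) (nat_lit 358) (nat_lit 350) (nat_lit 312)) (XT.lf (nat_lit 0) (nat_lit 9603186285) (nat_lit 456) (nat_lit 419842790) (nat_lit 532) (nat_lit 2919931527) (nat_lit 281) (nat_lit 5) (nat_lit 287) (nat_lit 5) (nat_lit 288) (nat_lit 5) (nat_lit 359) (nat_lit 350) (nat_lit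 311))))) (XT.nd (nat_lit 312) (nat_lit 1216) (nat_lit 0) (XT.nd (nat_lit 156) (nat_lit 608) (nat_lit 0) (XT.nd (nat_lit 78) (nat_lit 380) (nat_lit 0) (XT.lf (nat_lit 0) (nat_lit 144550032) (nat_lit 456) (nat_lit 4754111913) (nat_lit 76) (nat_lit 8580789008) (nat_lit 275) (nat_lit 5) (nat_lit 281) (nat_lit 5) (nat_lit 276) (nat_lit 5) (nat_lit 360) (nat_lit 350) (nat_lit 310)) (XT.lf (nat_lit 0) (nat_lit 3540924087) (nat_lit 456) (nat_lit 6181001965) (nat_lit 76) (nat_lit 4325089383) (nat_lit 270) (nat_lit 5) (nat_lit 276) (nat_lit 5) (nat_lit 271) (nat_lit 5) (nat_lit 361) (nat_lit 350) (nat_lit 309))) (XT.nd (nat_lit 78) (nat_lit 304) (nat_lit 0) (XT.lf (nat_lit 0) (nat_lit 7075635323) (nat_lit 304) (nat_lit 342486302) (nat_lit 380) (nat_lit 7231407775) (nat_lit 266) (nat_lit 5) (nat_lit 270) (nat_lit 5) (nat_lit 271) (nat_lit 5) (nat_lit 362) (nat_lit 350) (nat_lit 308)) (XT.lf (nat_lit 0)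 (nat_lit 6289094187) (nat_lit 304) (nat_lit 5612467167) (nat_lit 380) (nat_lit 3383879808) (nat_lit 262) (nat_lit 5) (nat_lit 266) (nat_lit 5) (nat_lit 267) (nat_lit 5) (nat_lit 363) (nat_lit 350) (nat_lit 307)))) (XT.nd (nat_lit 156) (nat_lit 532) (nat_lit 0) (XT.nd (nat_lit 78) (nat_lit 304) (nat_lit 0) (XT.lf (nat_lit 0) (nat_lit 987122518) (nat_lit 380) (nat_lit 10385437094) (nat_lit 76) (nat_lit 4587045860) (nat_lit 257) (nat_lit 5) (nat_lit 262) (nat_lit 5) (nat_lit 258) (nat_lit 5) (nat_lit 364) (nat_lit 350) (nat_lit 306)) (XT.lf (nat_lit 0) (nat_lit 4879156523) (nat_lit 304) (nat_lit 983281663) (nat_lit 380) (nat_lit 10808831678) (nat_lit 253) (nat_lit 5) (nat_lit 257) (nat_lit 5) (nat_lit 258) (nat_lit 5) (nat_lit 365) (nat_lit 350) (nat_lit 305))) (XT.nd (nat_lit 78) (nat_lit 304) (nat_lit 0) (XT.lf (nat_lit 0) (nat_lit 4202944652) (nat_lit 228) (nat_lit 7278639069) (nat_lit 304) (nat_lit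 5940593456) (nat_lit 250) (nat_lit 5) (nat_lit 253) (nat_lit 5) (nat_lit 254) (nat_lit 5) (nat_lit 366) (nat_lit 350) (nat_lit 304)) (XT.lf (nat_lit 0) (nat_lit 3638931768) (nat_lit 304) (nat_lit 14201239789) (nat_lit 380) (nat_lit 378489985) (nat_lit 246) (nat_lit 5) (nat_lit 250) (nat_lit 5) (nat_lit 251) (nat_lit 5) (nat_lit 367) (nat_lit 350) (nat_lit 303)))))) (XT.nd (nat_lit 624) (nat_lit 1368) (nat_lit 0) (XT.nd (nat_lit 312) (nat_lit 760) (nat_lit 0) (XT.nd (nat_lit 156) (nat_lit 532) (nat_lit 0) (XT.nd (nat_lit 78) (nat_lit 228) (nat_lit 0) (XT.lf (nat_lit 0) (nat_lit 3062706777) (nat_lit 228) (nat_lit 2739533098) (nat_lit 304) (nat_lit 13254540491) (nat_lit 242) (nat_lit 5) (nat_lit 245) (nat_lit 5) (nat_lit 246) (nat_lit 5) (nat_lit 368) (nat_lit 350) (nat_lit 302)) (XT.lf (nat_lit 0) (nat_lit 2537735514) (nat_lit 228) (nat_lit 10326451431) (nat_lit 304) (nat_lit 7077450548) (nat_lit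 239) (nat_lit 5) (nat_lit 242) (nat_lit 5) (nat_lit 243) (nat_lit 5) (nat_lit 369) (nat_lit 350) (nat_lit 301))) (XT.nd (nat_lit 78) (nat_lit 304) (nat_lit 0) (XT.lf (nat_lit 0) (nat_lit 2158966236) (nat_lit 228) (nat_lit 18678970815) (nat_lit 304) (nat_lit 42003777) (nat_lit 236) (nat_lit 5) (nat_lit 239) (nat_lit 5) (nat_lit 240) (nat_lit 5) (nat_lit 370) (nat_lit 350) (nat_lit 300)) (XT.lf (nat_lit 0) (nat_lit 1720462884) (nat_lit 228) (nat_lit 6058550417) (nat_lit 304) (nat_lit 14085167261) (nat_lit 232) (nat_lit 5) (nat_lit 235) (nat_lit 5) (nat_lit 236) (nat_lit 5) (nat_lit 371) (nat_lit 350) (nat_lit 299)))) (XT.nd (nat_lit 156) (nat_lit 304) (nat_lit 0) (XT.nd (nat_lit 78) (nat_lit 304) (nat_lit 0) (XT.lf (nat_lit 0) (nat_lit 1409163181) (nat_lit 152) (nat_lit 15244162657) (nat_lit 228) (nat_lit 6252344922) (nat_lit 230) (nat_lit 5) (nat_lit 232) (nat_lit 5) (nat_lit 233) (nat_lit 5)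 (nat_lit 372) (nat_lit 350) (nat_lit 298)) (XT.lf (nat_lit 0) (nat_lit 1224465396) (nat_lit 228) (nat_lit 1348813224) (nat_lit 304) (nat_lit 21433637775) (nat_lit 226) (nat_lit 5) (nat_lit 229) (nat_lit 5) (nat_lit 230) (nat_lit 5) (nat_lit 373) (nat_lit 350) (nat_lit 297))) (XT.nd (nat_lit 78) (nat_lit 152) (nat_lit 0) (XT.lf (nat_lit 0) (nat_lit 996514434) (nat_lit 152) (nat_lit 11462318853) (nat_lit 228) (nat_lit 12703656874) (nat_lit 224) (nat_lit 5) (nat_lit 226) (nat_lit 5) (nat_lit 227) (nat_lit 5) (nat_lit 374) (nat_lit 350) (nat_lit 296)) (XT.lf (nat_lit 0) (nat_lit 986259768) (nat_lit 152) (nat_lit 22606908954) (nat_lit 228) (nat_lit 2794444287) (nat_lit 222) (nat_lit 5) (nat_lit 224) (nat_lit 5) (nat_lit 225) (nat_lit 5) (nat_lit 375) (nat_lit 350) (nat_lit 295))))) (XT.nd (nat_lit 312) (nat_lit 608) (nat_lit 0) (XT.nd (nat_lit 156) (nat_lit 380) (nat_lit 0) (XT.nd (nat_lit 78) (nat_lit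 152) (nat_lit 0) (XT.lf (nat_lit 0) (nat_lit 970352199) (nat_lit 152) (nat_lit 7283829515) (nat_lit 228) (nat_lit 19420402755) (nat_lit 219) (nat_lit 5) (nat_lit 221) (nat_lit 5) (nat_lit 222) (nat_lit 5) (nat_lit 376) (nat_lit 350) (nat_lit 294)) (XT.lf (nat_lit 0) (nat_lit 1092702792) (nat_lit 152) (nat_lit 19573751968) (nat_lit 228) (nat_lit 8366885326) (nat_lit 217) (nat_lit 5) (nat_lit 219) (nat_lit 5) (nat_lit 220) (nat_lit 5) (nat_lit 377) (nat_lit 350) (nat_lit 293))) (XT.nd (nat_lit 78) (nat_lit 152) (nat_lit 0) (XT.lf (nat_lit 0) (nat_lit 1389482195) (nat_lit 152) (nat_lit 2650517232) (nat_lit 228) (nat_lit 26428840252) (nat_lit 214) (nat_lit 5) (nat_lit 216) (nat_lit 5) (nat_lit 217) (nat_lit 5) (nat_lit 378) (nat_lit 350) (nat_lit 292)) (XT.lf (nat_lit 0) (nat_lit 1672447593) (nat_lit 152) (nat_lit 16209890888) (nat_lit 228) (nat_lit 14093180735) (nat_lit 212) (nat_lit 5) (nat_lit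 214) (nat_lit 5) (nat_lit 215) (nat_lit 5) (nat_lit 379) (nat_lit 350) (nat_lit 291)))) (XT.nd (nat_lit 156) (nat_lit 304) (nat_lit 0) (XT.nd (nat_lit 78) (nat_lit 228) (nat_lit 0) (XT.lf (nat_lit 0) (nat_lit 2279783421) (nat_lit 76) (nat_lit 31145878894) (nat_lit 152) (nat_lit 147390919) (nat_lit 211) (nat_lit 5) (nat_lit 212) (nat_lit 5) (nat_lit 213) (nat_lit 4) (nat_lit 380) (nat_lit 350) (nat_lit 290)) (XT.lf (nat_lit 0) (nat_lit 2799899574) (nat_lit 152) (nat_lit 12459931775) (nat_lit 228) (nat_lit 19985760488) (nat_lit 208) (nat_lit 5) (nat_lit 210) (nat_lit 5) (nat_lit 211) (nat_lit 5) (nat_lit 381) (nat_lit 350) (nat_lit 289))) (XT.nd (nat_lit 78) (nat_lit 228) (nat_lit 0) (XT.lf (nat_lit 0) (nat_lit 3645014610) (nat_lit 76) (nat_lit 28951663741) (nat_lit 152) (nat_lit 4420023826) (nat_lit 207) (nat_lit 5) (nat_lit 208) (nat_lit 5) (nat_lit 209) (nat_lit 4) (nat_lit 382) (nat_lit 350)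 (nat_lit 288)) (XT.lf (nat_lit 0) (nat_lit 4561914315) (nat_lit 152) (nat_lit 8259806603) (nat_lit 228) (nat_lit 26056740655) (nat_lit 204) (nat_lit 5) (nat_lit 206) (nat_lit 5) (nat_lit 207) (nat_lit 5) (nat_lit 383) (nat_lit 350) (nat_lit 287)))))))
noncomputable def xc121 : XT := (XT.nd (nat_lit 1248) (nat_lit 1976) (nat_lit 0) (XT.nd (nat_lit 624) (nat_lit 912) (nat_lit 0) (XT.nd (nat_lit 312) (nat_lit 532) (nat_lit 0) (XT.nd (nat_lit 156) (nat_lit 304) (nat_lit 0) (XT.nd (nat_lit 78) (nat_lit 228) (nat_lit 0) (XT.lf (nat_lit 0) (nat_lit 5689497865) (nat_lit 76) (nat_lit 26472692005) (nat_lit 152) (nat_lit 8679636843) (nat_lit 203) (nat_lit 5) (nat_lit 204) (nat_lit 5) (nat_lit 205) (nat_lit 4) (nat_lit 384) (nat_lit 350) (nat_lit 286)) (XT.lf (nat_lit 0) (nat_lit 7059371779) (nat_lit 152) (nat_lit 3535865889) (nat_lit 228) (nat_lit 32317625096) (nat_lit 200) (nat_lit 5) (nat_lit 202) (nat_lit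 5) (nat_lit 203) (nat_lit 5) (nat_lit 385) (nat_lit 350) (nat_lit 285))) (XT.nd (nat_lit 78) (nat_lit 228) (nat_lit 0) (XT.lf (nat_lit 0) (nat_lit 8521223949) (nat_lit 76) (nat_lit 23652118392) (nat_lit 152) (nat_lit 12915858283) (nat_lit 199) (nat_lit 5) (nat_lit 200) (nat_lit 5) (nat_lit 201) (nat_lit 4) (nat_lit 386) (nat_lit 350) (nat_lit 284)) (XT.lf (nat_lit 0) (nat_lit 8640835428) (nat_lit 228) (nat_lit 37010830837) (nat_lit 76) (nat_lit 1738701757) (nat_lit 196) (nat_lit 5) (nat_lit 199) (nat_lit 5) (nat_lit 197) (nat_lit 4) (nat_lit 387) (nat_lit 350) (nat_lit 283)))) (XT.nd (nat_lit 156) (nat_lit 228) (nat_lit 0) (XT.nd (nat_lit 78) (nat_lit 228) (nat_lit 0) (XT.lf (nat_lit 0) (nat_lit 12264949139) (nat_lit 76) (nat_lit 20424312874) (nat_lit 152) (nat_lit 17114794723) (nat_lit 195) (nat_lit 5) (nat_lit 196) (nat_lit 5) (nat_lit 197) (nat_lit 4) (nat_lit 388) (nat_lit 350) (nat_lit 282))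 (XT.lf (nat_lit 0) (nat_lit 7035081996) (nat_lit 228) (nat_lit 37739788740) (nat_lit 76) (nat_lit 7581869148) (nat_lit 192) (nat_lit 5) (nat_lit 195) (nat_lit 5) (nat_lit 193) (nat_lit 4) (nat_lit 389) (nat_lit 350) (nat_lit 281))) (XT.nd (nat_lit 78) (nat_lit 152) (nat_lit 0) (XT.lf (nat_lit 0) (nat_lit 17064392828) (nat_lit 76) (nat_lit 16713794121) (nat_lit 152) (nat_lit 21258379357) (nat_lit 191) (nat_lit 5) (nat_lit 192) (nat_lit 5) (nat_lit 193) (nat_lit 4) (nat_lit 390) (nat_lit 350) (nat_lit 280)) (XT.lf (nat_lit 0) (nat_lit 5769811076) (nat_lit 152) (nat_lit 37884890150) (nat_lit 76) (nat_lit 14212823323) (nat_lit 189) (nat_lit 5) (nat_lit 191) (nat_lit 5) (nat_lit 190) (nat_lit 4) (nat_lit 391) (nat_lit 350) (nat_lit 279))))) (XT.nd (nat_lit 312) (nat_lit 456) (nat_lit 0) (XT.nd (nat_lit 156) (nat_lit 228) (nat_lit 0) (XT.nd (nat_lit 78) (nat_lit 152) (nat_lit 0) (XT.lf (nat_lit 0)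 (nat_lit 23084736439) (nat_lit 76) (nat_lit 12433996705) (nat_lit 152) (nat_lit 25323638083) (nat_lit 188) (nat_lit 5) (nat_lit 189) (nat_lit 5) (nat_lit 190) (nat_lit 4) (nat_lit 392) (nat_lit 350) (nat_lit 278)) (XT.lf (nat_lit 0) (nat_lit 4900244545) (nat_lit 152) (nat_lit 37328946192) (nat_lit 76) (nat_lit 21752067594) (nat_lit 186) (nat_lit 5) (nat_lit 188) (nat_lit 5) (nat_lit 187) (nat_lit 4) (nat_lit 393) (nat_lit 350) (nat_lit 277))) (XT.nd (nat_lit 78) (nat_lit 152) (nat_lit 0) (XT.lf (nat_lit 0) (nat_lit 30515458950) (nat_lit 76) (nat_lit 7485856190) (nat_lit 152) (nat_lit 29281859471) (nat_lit 185) (nat_lit 5) (nat_lit 186) (nat_lit 5) (nat_lit 187) (nat_lit 4) (nat_lit 394) (nat_lit 350) (nat_lit 276)) (XT.lf (nat_lit 0) (nat_lit 4490978757) (nat_lit 152) (nat_lit 35935473821) (nat_lit 76) (nat_lit 30336396352) (nat_lit 183) (nat_lit 5) (nat_lit 185) (nat_lit 5) (nat_lit 184) (nat_lit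 4) (nat_lit 395) (nat_lit 350) (nat_lit 275)))) (XT.nd (nat_lit 156) (nat_lit 228) (nat_lit 0) (XT.nd (nat_lit 78) (nat_lit 152) (nat_lit 0) (XT.lf (nat_lit 0) (nat_lit 39573549221) (nat_lit 76) (nat_lit 1756193390) (nat_lit 152) (nat_lit 33097653447) (nat_lit 182) (nat_lit 5) (nat_lit 183) (nat_lit 5) (nat_lit 184) (nat_lit 4) (nat_lit 396) (nat_lit 350) (nat_lit 274)) (XT.lf (nat_lit 0) (nat_lit 4617328660) (nat_lit 152) (nat_lit 33545992861) (nat_lit 76) (nat_lit 40120942840) (nat_lit 180) (nat_lit 5) (nat_lit 182) (nat_lit 5) (nat_lit 181) (nat_lit 4) (nat_lit 397) (nat_lit 350) (nat_lit 273))) (XT.nd (nat_lit 78) (nat_lit 152) (nat_lit 0) (XT.lf (nat_lit 0) (nat_lit 45699271423) (nat_lit 152) (nat_lit 31920012779) (nat_lit 0) (nat_lit 4727801570) (nat_lit 179) (nat_lit 5) (nat_lit 181) (nat_lit 4) (nat_lit 179) (nat_lit 4) (nat_lit 398) (nat_lit 350) (nat_lit 272)) (XT.lf (nat_lit 0) (nat_lit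 5366846133) (nat_lit 152) (nat_lit 29976954442) (nat_lit 76) (nat_lit 51281496524) (nat_lit 177) (nat_lit 5) (nat_lit 179) (nat_lit 5) (nat_lit 178) (nat_lit 4) (nat_lit 399) (nat_lit 350) (nat_lit 271)))))) (XT.nd (nat_lit 624) (nat_lit 988) (nat_lit 0) (XT.nd (nat_lit 312) (nat_lit 532) (nat_lit 0) (XT.nd (nat_lit 156) (nat_lit 228) (nat_lit 0) (XT.nd (nat_lit 78) (nat_lit 152) (nat_lit 0) (XT.lf (nat_lit 0) (nat_lit 51213795890) (nat_lit 152) (nat_lit 27734619737) (nat_lit 0) (nat_lit 12179556648) (nat_lit 176) (nat_lit 5) (nat_lit 178) (nat_lit 4) (nat_lit 176) (nat_lit 4) (nat_lit 400) (nat_lit 350) (nat_lit 270)) (XT.lf (nat_lit 0) (nat_lit 6841036071) (nat_lit 152) (nat_lit 25016254791) (nat_lit 76) (nat_lit 64017120710) (nat_lit 174) (nat_lit 5) (nat_lit 176) (nat_lit 5) (nat_lit 175) (nat_lit 4) (nat_lit 401) (nat_lit 350) (nat_lit 269))) (XT.nd (nat_lit 78) (nat_lit 152) (nat_lit 0)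 (XT.lf (nat_lit 0) (nat_lit 58004218389) (nat_lit 152) (nat_lit 22042842240) (nat_lit 0) (nat_lit 20817491288) (nat_lit 173) (nat_lit 5) (nat_lit 175) (nat_lit 4) (nat_lit 173) (nat_lit 4) (nat_lit 402) (nat_lit 350) (nat_lit 268)) (XT.lf (nat_lit 0) (nat_lit 9157296460) (nat_lit 152) (nat_lit 18419282336) (nat_lit 76) (nat_lit 78553105195) (nat_lit 171) (nat_lit 5) (nat_lit 173) (nat_lit 5) (nat_lit 172) (nat_lit 4) (nat_lit 403) (nat_lit 350) (nat_lit 267)))) (XT.nd (nat_lit 156) (nat_lit 304) (nat_lit 0) (XT.nd (nat_lit 78) (nat_lit 152) (nat_lit 0) (XT.lf (nat_lit 0) (nat_lit 66251276504) (nat_lit 152) (nat_lit 14582639808) (nat_lit 0) (nat_lit 30826151050) (nat_lit 170) (nat_lit 5) (nat_lit 172) (nat_lit 4) (nat_lit 170) (nat_lit 4) (nat_lit 404) (nat_lit 350) (nat_lit 266)) (XT.lf (nat_lit 0) (nat_lit 12451111798) (nat_lit 152) (nat_lit 9904439431) (nat_lit 76) (nat_lit 95144293323) (nat_lit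 168) (nat_lit 5) (nat_lit 170) (nat_lit 5) (nat_lit 169) (nat_lit 4) (nat_lit 405) (nat_lit 350) (nat_lit 265))) (XT.nd (nat_lit 78) (nat_lit 228) (nat_lit 0) (XT.lf (nat_lit 0) (nat_lit 76161060458) (nat_lit 152) (nat_lit 5052577311) (nat_lit 0) (nat_lit 42415337997) (nat_lit 167) (nat_lit 5) (nat_lit 169) (nat_lit 4) (nat_lit 167) (nat_lit 4) (nat_lit 406) (nat_lit 350) (nat_lit 264)) (XT.lf (nat_lit 0) (nat_lit 880096002) (nat_lit 76) (nat_lit 16012177453) (nat_lit 152) (nat_lit 113212472613) (nat_lit 164) (nat_lit 5) (nat_lit 165) (nat_lit 5) (nat_lit 166) (nat_lit 4) (nat_lit 407) (nat_lit 350) (nat_lit 263))))) (XT.nd (nat_lit 312) (nat_lit 532) (nat_lit 0) (XT.nd (nat_lit 156) (nat_lit 228) (nat_lit 0) (XT.nd (nat_lit 78) (nat_lit 152) (nat_lit 0) (XT.lf (nat_lit 0) (nat_lit 7121494955) (nat_lit 76) (nat_lit 80958012327) (nat_lit 76) (nat_lit 48813098861) (nat_lit 163) (nat_lit 4) (nat_lit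 164) (nat_lit 5) (nat_lit 164) (nat_lit 4) (nat_lit 408) (nat_lit 350) (nat_lit 262)) (XT.lf (nat_lit 0) (nat_lit 14691482613) (nat_lit 76) (nat_lit 8156871028) (nat_lit 152) (nat_lit 121220258213) (nat_lit 161) (nat_lit 5) (nat_lit 162) (nat_lit 5) (nat_lit 163) (nat_lit 4) (nat_lit 409) (nat_lit 350) (nat_lit 261))) (XT.nd (nat_lit 78) (nat_lit 152) (nat_lit 0) (XT.lf (nat_lit 0) (nat_lit 22368815124) (nat_lit 76) (nat_lit 79920618307) (nat_lit 76) (nat_lit 49301409641) (nat_lit 160) (nat_lit 4) (nat_lit 161) (nat_lit 5) (nat_lit 161) (nat_lit 4) (nat_lit 410) (nat_lit 350) (nat_lit 260)) (XT.lf (nat_lit 0) (nat_lit 30392246739) (nat_lit 152) (nat_lit 127925017618) (nat_lit 0) (nat_lit 1228973560) (nat_lit 158) (nat_lit 5) (nat_lit 160) (nat_lit 4) (nat_lit 158) (nat_lit 4) (nat_lit 411) (nat_lit 350) (nat_lit 259)))) (XT.nd (nat_lit 156) (nat_lit 304) (nat_lit 0) (XT.nd (nat_lit 78) (nat_lit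 152) (nat_lit 0) (XT.lf (nat_lit 0) (nat_lit 40992219466) (nat_lit 76) (nat_lit 78028178876) (nat_lit 76) (nat_lit 48862940820) (nat_lit 157) (nat_lit 4) (nat_lit 158) (nat_lit 5) (nat_lit 158) (nat_lit 4) (nat_lit 412) (nat_lit 350) (nat_lit 258)) (XT.lf (nat_lit 0) (nat_lit 39903992060) (nat_lit 152) (nat_lit 124664821988) (nat_lit 0) (nat_lit 12125842167) (nat_lit 155) (nat_lit 5) (nat_lit 157) (nat_lit 4) (nat_lit 155) (nat_lit 4) (nat_lit 413) (nat_lit 350) (nat_lit 257))) (XT.nd (nat_lit 78) (nat_lit 228) (nat_lit 0) (XT.lf (nat_lit 0) (nat_lit 63529319998) (nat_lit 76) (nat_lit 75096494290) (nat_lit 76) (nat_lit 47316740047) (nat_lit 154) (nat_lit 4) (nat_lit 155) (nat_lit 5) (nat_lit 155) (nat_lit 4) (nat_lit 414) (nat_lit 350) (nat_lit 256)) (XT.nd (nat_lit 78) (nat_lit 76) (nat_lit 0) (XT.lf (nat_lit 0) (nat_lit 51540073451) (nat_lit 152) (nat_lit 119079795300) (nat_lit 0) (nat_lit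 25081749880) (nat_lit 152) (nat_lit 5) (nat_lit 154) (nat_lit 4) (nat_lit 152) (nat_lit 4) (nat_lit 415) (nat_lit 350) (nat_lit 255)) (XT.lf (nat_lit 0) (nat_lit 90594523987) (nat_lit 76) (nat_lit 70912386055) (nat_lit 76) (nat_lit 44452752511) (nat_lit 151) (nat_lit 4) (nat_lit 152) (nat_lit 5) (nat_lit 152) (nat_lit 4) (nat_lit 416) (nat_lit 350) (nat_lit 254))))))))
noncomputable def xc122 : XT := (XT.nd (nat_lit 1248) (nat_lit 1596) (nat_lit 0) (XT.nd (nat_lit 624) (nat_lit 1064) (nat_lit 0) (XT.nd (nat_lit 312) (nat_lit 456) (nat_lit 0) (XT.nd (nat_lit 156) (nat_lit 228) (nat_lit 0) (XT.nd (nat_lit 78) (nat_lit 76) (nat_lit 0) (XT.lf (nat_lit 0) (nat_lit 65624970751) (nat_lit 152) (nat_lit 110719049148) (nat_lit 0) (nat_lit 40424164579) (nat_lit 149) (nat_lit 5) (nat_lit 151) (nat_lit 4) (nat_lit 149) (nat_lit 4) (nat_lit 417) (nat_lit 350) (nat_lit 253)) (XT.lf (nat_lit 0) (nat_lit 122889284755)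 (nat_lit 76) (nat_lit 65229587055) (nat_lit 76) (nat_lit 40027711274) (nat_lit 148) (nat_lit 4) (nat_lit 149) (nat_lit 5) (nat_lit 149) (nat_lit 4) (nat_lit 418) (nat_lit 350) (nat_lit 252))) (XT.nd (nat_lit 78) (nat_lit 76) (nat_lit 0) (XT.lf (nat_lit 0) (nat_lit 82529211858) (nat_lit 152) (nat_lit 99061529010) (nat_lit 0) (nat_lit 58526482181) (nat_lit 146) (nat_lit 5) (nat_lit 148) (nat_lit 4) (nat_lit 146) (nat_lit 4) (nat_lit 419) (nat_lit 350) (nat_lit 251)) (XT.lf (nat_lit 0) (nat_lit 161213668965) (nat_lit 76) (nat_lit 57764083350) (nat_lit 76) (nat_lit 33760480324) (nat_lit 145) (nat_lit 4) (nat_lit 146) (nat_lit 5) (nat_lit 146) (nat_lit 4) (nat_lit 420) (nat_lit 350) (nat_lit 250)))) (XT.nd (nat_lit 156) (nat_lit 228) (nat_lit 0) (XT.nd (nat_lit 78) (nat_lit 76) (nat_lit 0) (XT.lf (nat_lit 0) (nat_lit 102675468747) (nat_lit 152) (nat_lit 83506187620) (nat_lit 0) (nat_lit 79814124286)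 (nat_lit 143) (nat_lit 5) (nat_lit 145) (nat_lit 4) (nat_lit 143) (nat_lit 4) (nat_lit 421) (nat_lit 350) (nat_lit 249)) (XT.lf (nat_lit 0) (nat_lit 206479404544) (nat_lit 76) (nat_lit 48188837719) (nat_lit 76) (nat_lit 25326780156) (nat_lit 142) (nat_lit 4) (nat_lit 143) (nat_lit 5) (nat_lit 143) (nat_lit 4) (nat_lit 422) (nat_lit 350) (nat_lit 248))) (XT.nd (nat_lit 78) (nat_lit 76) (nat_lit 0) (XT.lf (nat_lit 0) (nat_lit 126545432222) (nat_lit 152) (nat_lit 63360857518) (nat_lit 0) (nat_lit 104771415230) (nat_lit 140) (nat_lit 5) (nat_lit 142) (nat_lit 4) (nat_lit 140) (nat_lit 4) (nat_lit 423) (nat_lit 350) (nat_lit 247)) (XT.lf (nat_lit 0) (nat_lit 259724593492) (nat_lit 76) (nat_lit 36127816235) (nat_lit 76) (nat_lit 14353216985) (nat_lit 139) (nat_lit 4) (nat_lit 140) (nat_lit 5) (nat_lit 140) (nat_lit 4) (nat_lit 424) (nat_lit 350) (nat_lit 246))))) (XT.nd (nat_lit 312) (nat_lit 456)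 (nat_lit 0) (XT.nd (nat_lit 156) (nat_lit 380) (nat_lit 0) (XT.nd (nat_lit 78) (nat_lit 76) (nat_lit 0) (XT.lf (nat_lit 0) (nat_lit 154687562324) (nat_lit 152) (nat_lit 37829657083) (nat_lit 0) (nat_lit 133949335299) (nat_lit 137) (nat_lit 5) (nat_lit 139) (nat_lit 4) (nat_lit 137) (nat_lit 4) (nat_lit 425) (nat_lit 350) (nat_lit 245)) (XT.lf (nat_lit 0) (nat_lit 322130296348) (nat_lit 76) (nat_lit 21149229340) (nat_lit 76) (nat_lit 410526895) (nat_lit 136) (nat_lit 4) (nat_lit 137) (nat_lit 5) (nat_lit 137) (nat_lit 4) (nat_lit 426) (nat_lit 350) (nat_lit 244))) (XT.nd (nat_lit 78) (nat_lit 228) (nat_lit 0) (XT.lf (nat_lit 0) (nat_lit 187725823139) (nat_lit 152) (nat_lit 5998743753) (nat_lit 0) (nat_lit 167974258710) (nat_lit 134) (nat_lit 5) (nat_lit 136) (nat_lit 4) (nat_lit 134) (nat_lit 4) (nat_lit 427) (nat_lit 350) (nat_lit 243)) (XT.lf (nat_lit 0) (nat_lit 14432791342) (nat_lit 76) (nat_lit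 2242693514) (nat_lit 152) (nat_lit 364103025547) (nat_lit 131) (nat_lit 5) (nat_lit 132) (nat_lit 5) (nat_lit 133) (nat_lit 4) (nat_lit 428) (nat_lit 350) (nat_lit 242)))) (XT.nd (nat_lit 156) (nat_lit 228) (nat_lit 0) (XT.nd (nat_lit 78) (nat_lit 152) (nat_lit 0) (XT.lf (nat_lit 0) (nat_lit 34276868855) (nat_lit 76) (nat_lit 192627813104) (nat_lit 76) (nat_lit 173816087344) (nat_lit 130) (nat_lit 4) (nat_lit 131) (nat_lit 5) (nat_lit 131) (nat_lit 4) (nat_lit 429) (nat_lit 350) (nat_lit 241)) (XT.lf (nat_lit 0) (nat_lit 38453303627) (nat_lit 152) (nat_lit 362854596490) (nat_lit 0) (nat_lit 20537072466) (nat_lit 128) (nat_lit 5) (nat_lit 130) (nat_lit 4) (nat_lit 128) (nat_lit 4) (nat_lit 430) (nat_lit 350) (nat_lit 240))) (XT.nd (nat_lit 78) (nat_lit 152) (nat_lit 0) (XT.lf (nat_lit 0) (nat_lit 83581270812) (nat_lit 76) (nat_lit 189148070772) (nat_lit 76) (nat_lit 171231560105) (nat_lit 127)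 (nat_lit 4) (nat_lit 128) (nat_lit 5) (nat_lit 128) (nat_lit 4) (nat_lit 431) (nat_lit 350) (nat_lit 239)) (XT.lf (nat_lit 0) (nat_lit 65014980538) (nat_lit 152) (nat_lit 354386192489) (nat_lit 0) (nat_lit 47951390567) (nat_lit 125) (nat_lit 5) (nat_lit 127) (nat_lit 4) (nat_lit 125) (nat_lit 4) (nat_lit 432) (nat_lit 350) (nat_lit 238)))))) (XT.nd (nat_lit 624) (nat_lit 684) (nat_lit 0) (XT.nd (nat_lit 312) (nat_lit 456) (nat_lit 0) (XT.nd (nat_lit 156) (nat_lit 228) (nat_lit 0) (XT.nd (nat_lit 78) (nat_lit 152) (nat_lit 0) (XT.lf (nat_lit 0) (nat_lit 143134549311) (nat_lit 76) (nat_lit 182905293835) (nat_lit 76) (nat_lit 165841475644) (nat_lit 124) (nat_lit 4) (nat_lit 125) (nat_lit 5) (nat_lit 125) (nat_lit 4) (nat_lit 433) (nat_lit 350) (nat_lit 237)) (XT.lf (nat_lit 0) (nat_lit 97077457742) (nat_lit 152) (nat_lit 339880486529) (nat_lit 0) (nat_lit 80826001069) (nat_lit 122) (nat_lit 5) (nat_lit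 124) (nat_lit 4) (nat_lit 122) (nat_lit 4) (nat_lit 434) (nat_lit 350) (nat_lit 236))) (XT.nd (nat_lit 78) (nat_lit 152) (nat_lit 0) (XT.lf (nat_lit 0) (nat_lit 214557692583) (nat_lit 76) (nat_lit 173341411513) (nat_lit 76) (nat_lit 157089768495) (nat_lit 121) (nat_lit 4) (nat_lit 122) (nat_lit 5) (nat_lit 122) (nat_lit 4) (nat_lit 435) (nat_lit 350) (nat_lit 235)) (XT.lf (nat_lit 0) (nat_lit 135499794775) (nat_lit 152) (nat_lit 318150500417) (nat_lit 0) (nat_lit 120021875194) (nat_lit 119) (nat_lit 5) (nat_lit 121) (nat_lit 4) (nat_lit 119) (nat_lit 4) (nat_lit 436) (nat_lit 350) (nat_lit 234)))) (XT.nd (nat_lit 156) (nat_lit 228) (nat_lit 0) (XT.nd (nat_lit 78) (nat_lit 152) (nat_lit 0) (XT.lf (nat_lit 0) (nat_lit 299701331150) (nat_lit 76) (nat_lit 159811066862) (nat_lit 76) (nat_lit 144332995128) (nat_lit 118) (nat_lit 4) (nat_lit 119) (nat_lit 5) (nat_lit 119) (nat_lit 4) (nat_lit 437) (nat_lit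 350) (nat_lit 233)) (XT.lf (nat_lit 0) (nat_lit 181262431615) (nat_lit 152) (nat_lit 287824383576) (nat_lit 0) (nat_lit 166521276742) (nat_lit 116) (nat_lit 5) (nat_lit 118) (nat_lit 4) (nat_lit 116) (nat_lit 4) (nat_lit 438) (nat_lit 350) (nat_lit 232))) (XT.nd (nat_lit 78) (nat_lit 152) (nat_lit 0) (XT.lf (nat_lit 0) (nat_lit 400676302854) (nat_lit 76) (nat_lit 141569317257) (nat_lit 76) (nat_lit 126828038149) (nat_lit 115) (nat_lit 4) (nat_lit 116) (nat_lit 5) (nat_lit 116) (nat_lit 4) (nat_lit 439) (nat_lit 350) (nat_lit 231)) (XT.lf (nat_lit 0) (nat_lit 235483296999) (nat_lit 152) (nat_lit 247319467074) (nat_lit 0) (nat_lit 221443874009) (nat_lit 113) (nat_lit 5) (nat_lit 115) (nat_lit 4) (nat_lit 113) (nat_lit 4) (nat_lit 440) (nat_lit 350) (nat_lit 230))))) (XT.nd (nat_lit 312) (nat_lit 228) (nat_lit 0) (XT.nd (nat_lit 156) (nat_lit 228) (nat_lit 0) (XT.nd (nat_lit 78) (nat_lit 152) (nat_lit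 0) (XT.lf (nat_lit 0) (nat_lit 519888130400) (nat_lit 76) (nat_lit 117757703174) (nat_lit 76) (nat_lit 103718178744) (nat_lit 112) (nat_lit 4) (nat_lit 113) (nat_lit 5) (nat_lit 113) (nat_lit 4) (nat_lit 441) (nat_lit 350) (nat_lit 229)) (XT.lf (nat_lit 0) (nat_lit 299435975553) (nat_lit 152) (nat_lit 194812882024) (nat_lit 0) (nat_lit 286064910453) (nat_lit 110) (nat_lit 5) (nat_lit 112) (nat_lit 4) (nat_lit 110) (nat_lit 4) (nat_lit 442) (nat_lit 350) (nat_lit 228))) (XT.nd (nat_lit 78) (nat_lit 152) (nat_lit 0) (XT.lf (nat_lit 0) (nat_lit 660075898791) (nat_lit 76) (nat_lit 87388476886) (nat_lit 76) (nat_lit 74017328958) (nat_lit 109) (nat_lit 4) (nat_lit 110) (nat_lit 5) (nat_lit 110) (nat_lit 4) (nat_lit 443) (nat_lit 350) (nat_lit 227)) (XT.lf (nat_lit 0) (nat_lit 374570189906) (nat_lit 152) (nat_lit 128208304195) (nat_lit 0) (nat_lit 361835690270) (nat_lit 107) (nat_lit 5) (nat_lit 109)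 (nat_lit 4) (nat_lit 107) (nat_lit 4) (nat_lit 444) (nat_lit 350) (nat_lit 226)))) (XT.nd (nat_lit 45786) (nat_lit 0) (nat_lit 15124) (XT.nd (nat_lit 78) (nat_lit 152) (nat_lit 0) (XT.lf (nat_lit 0) (nat_lit 824356079626) (nat_lit 76) (nat_lit 49326756773) (nat_lit 76) (nat_lit 36592189507) (nat_lit 106) (nat_lit 4) (nat_lit 107) (nat_lit 5) (nat_lit 107) (nat_lit 4) (nat_lit 445) (nat_lit 350) (nat_lit 225)) (XT.lf (nat_lit 0) (nat_lit 462534885257) (nat_lit 152) (nat_lit 45098332251) (nat_lit 0) (nat_lit 450406666318) (nat_lit 104) (nat_lit 5) (nat_lit 106) (nat_lit 4) (nat_lit 104) (nat_lit 4) (nat_lit 446) (nat_lit 350) (nat_lit 224))) (XT.nd (nat_lit 78) (nat_lit 0) (nat_lit 0) (XT.lf (nat_lit 0) (nat_lit 1075648937) (nat_lit 0) (nat_lit 1075648937) (nat_lit 684) (nat_lit 2824698269) (nat_lit 303) (nat_lit 5) (nat_lit 303) (nat_lit 3) (nat_lit 312) (nat_lit 3) (nat_lit 351) (nat_lit 351)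 (nat_lit 318)) (XT.nd (nat_lit 78) (nat_lit 0) (nat_lit 76) (XT.lf (nat_lit 76) (nat_lit 95061235) (nat_lit 0) (nat_lit 5570321024) (nat_lit 760) (nat_lit 4625155584) (nat_lit 304) (nat_lit 5) (nat_lit 303) (nat_lit 5) (nat_lit 313) (nat_lit 5) (nat_lit 352) (nat_lit 351) (nat_lit 317)) (XT.lf (nat_lit 0) (nat_lit 7222282989) (nat_lit 684) (nat_lit 1878786029) (nat_lit 760) (nat_lit 1550843464) (nat_lit 304) (nat_lit 5) (nat_lit 313) (nat_lit 5) (nat_lit 314) (nat_lit 5) (nat_lit 353) (nat_lit 351) (nat_lit 316))))))))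
noncomputable def xc123 : XT := (XT.nd (nat_lit 1248) (nat_lit 3192) (nat_lit 0) (XT.nd (nat_lit 624) (nat_lit 2508) (nat_lit 0) (XT.nd (nat_lit 312) (nat_lit 1596) (nat_lit 0) (XT.nd (nat_lit 156) (nat_lit 608) (nat_lit 0) (XT.nd (nat_lit 78) (nat_lit 0) (nat_lit 76) (XT.lf (nat_lit 76) (nat_lit 7173650582) (nat_lit 0) (nat_lit 1833459669) (nat_lit 760) (nat_lit 2029918114) (nat_lit 305) (nat_lit 5) (nat_lit 304) (nat_lit 5) (nat_lit 314) (nat_lit 5) (nat_lit 354) (nat_lit 351) (nat_lit 315)) (XT.lf (nat_lit 76) (nat_lit 5582527018) (nat_lit 0) (nat_lit 5471131765) (nat_lit 760) (nat_lit 393347983) (nat_lit 306) (nat_lit 5) (nat_lit 305) (nat_lit 5) (nat_lit 315) (nat_lit 5) (nat_lit 355) (nat_lit 351) (nat_lit 314))) (XT.nd (nat_lit 78) (nat_lit 0) (nat_lit 0) (XT.lf (nat_lit 0) (nat_lit 1443049902) (nat_lit 760) (nat_lit 7882585502) (nat_lit 836) (nat_lit 2557431147) (nat_lit 296) (nat_lit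 5) (nat_lit 306) (nat_lit 5) (nat_lit 307) (nat_lit 5) (nat_lit 356) (nat_lit 351) (nat_lit 313)) (XT.lf (nat_lit 76) (nat_lit 2422704013) (nat_lit 0) (nat_lit 1139181367) (nat_lit 836) (nat_lit 8784337985) (nat_lit 297) (nat_lit 5) (nat_lit 296) (nat_lit 5) (nat_lit 307) (nat_lit 5) (nat_lit 357) (nat_lit 351) (nat_lit 312)))) (XT.nd (nat_lit 156) (nat_lit 912) (nat_lit 0) (XT.nd (nat_lit 78) (nat_lit 0) (nat_lit 0) (XT.lf (nat_lit 0) (nat_lit 827726847) (nat_lit 760) (nat_lit 5215899709) (nat_lit 836) (nat_lit 6793136225) (nat_lit 287) (nat_lit 5) (nat_lit 297) (nat_lit 5) (nat_lit 298) (nat_lit 5) (nat_lit 358) (nat_lit 351) (nat_lit 311)) (XT.lf (nat_lit 0) (nat_lit 8901494334) (nat_lit 836) (nat_lit 714958494) (nat_lit 76) (nat_lit 3741213157) (nat_lit 287) (nat_lit 5) (nat_lit 298) (nat_lit 5) (nat_lit 288) (nat_lit 5) (nat_lit 359) (nat_lit 351) (nat_lit 310))) (XT.nd (nat_lit 78) (nat_lit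 456) (nat_lit 0) (XT.lf (nat_lit 0) (nat_lit 11703194269) (nat_lit 456) (nat_lit 486572153) (nat_lit 532) (nat_lit 1720386278) (nat_lit 281) (nat_lit 5) (nat_lit 287) (nat_lit 5) (nat_lit 288) (nat_lit 5) (nat_lit 360) (nat_lit 351) (nat_lit 309)) (XT.lf (nat_lit 0) (nat_lit 1461395233) (nat_lit 456) (nat_lit 3751631791) (nat_lit 76) (nat_lit 9279515945) (nat_lit 275) (nat_lit 5) (nat_lit 281) (nat_lit 5) (nat_lit 276) (nat_lit 5) (nat_lit 361) (nat_lit 351) (nat_lit 308))))) (XT.nd (nat_lit 312) (nat_lit 1140) (nat_lit 0) (XT.nd (nat_lit 156) (nat_lit 684) (nat_lit 0) (XT.nd (nat_lit 78) (nat_lit 304) (nat_lit 0) (XT.lf (nat_lit 0) (nat_lit 5054902299) (nat_lit 456) (nat_lit 5292765308) (nat_lit 76) (nat_lit 4761573850) (nat_lit 270) (nat_lit 5) (nat_lit 276) (nat_lit 5) (nat_lit 271) (nat_lit 5) (nat_lit 362) (nat_lit 351) (nat_lit 307)) (XT.lf (nat_lit 0) (nat_lit 8964311775) (nat_lit 304)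 (nat_lit 207450476) (nat_lit 380) (nat_lit 6591719956) (nat_lit 266) (nat_lit 5) (nat_lit 270) (nat_lit 5) (nat_lit 271) (nat_lit 5) (nat_lit 363) (nat_lit 351) (nat_lit 306))) (XT.nd (nat_lit 78) (nat_lit 380) (nat_lit 0) (XT.lf (nat_lit 0) (nat_lit 8110430324) (nat_lit 304) (nat_lit 5840435904) (nat_lit 380) (nat_lit 2502551229) (nat_lit 262) (nat_lit 5) (nat_lit 266) (nat_lit 5) (nat_lit 267) (nat_lit 5) (nat_lit 364) (nat_lit 351) (nat_lit 305)) (XT.lf (nat_lit 0) (nat_lit 2122691119) (nat_lit 380) (nat_lit 9871241283) (nat_lit 76) (nat_lit 5189611567) (nat_lit 257) (nat_lit 5) (nat_lit 262) (nat_lit 5) (nat_lit 258) (nat_lit 5) (nat_lit 365) (nat_lit 351) (nat_lit 304)))) (XT.nd (nat_lit 156) (nat_lit 608) (nat_lit 0) (XT.nd (nat_lit 78) (nat_lit 228) (nat_lit 0) (XT.lf (nat_lit 0) (nat_lit 6556066425) (nat_lit 304) (nat_lit 773786117) (nat_lit 380) (nat_lit 10625197947) (nat_lit 253) (nat_lit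 5) (nat_lit 257) (nat_lit 5) (nat_lit 258) (nat_lit 5) (nat_lit 366) (nat_lit 351) (nat_lit 303)) (XT.lf (nat_lit 0) (nat_lit 5813292543) (nat_lit 228) (nat_lit 7535338354) (nat_lit 304) (nat_lit 5419894430) (nat_lit 250) (nat_lit 5) (nat_lit 253) (nat_lit 5) (nat_lit 254) (nat_lit 5) (nat_lit 367) (nat_lit 351) (nat_lit 302))) (XT.nd (nat_lit 78) (nat_lit 228) (nat_lit 0) (XT.lf (nat_lit 0) (nat_lit 521738018) (nat_lit 380) (nat_lit 14450148527) (nat_lit 76) (nat_lit 4658715820) (nat_lit 245) (nat_lit 5) (nat_lit 250) (nat_lit 5) (nat_lit 246) (nat_lit 5) (nat_lit 368) (nat_lit 351) (nat_lit 301)) (XT.lf (nat_lit 0) (nat_lit 4541257445) (nat_lit 228) (nat_lit 2593887245) (nat_lit 304) (nat_lit 13402741824) (nat_lit 242) (nat_lit 5) (nat_lit 245) (nat_lit 5) (nat_lit 246) (nat_lit 5) (nat_lit 369) (nat_lit 351) (nat_lit 300)))))) (XT.nd (nat_lit 624) (nat_lit 1444) (nat_lit 0) (XT.nd (nat_lit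 312) (nat_lit 836) (nat_lit 0) (XT.nd (nat_lit 156) (nat_lit 380) (nat_lit 0) (XT.nd (nat_lit 78) (nat_lit 304) (nat_lit 0) (XT.lf (nat_lit 0) (nat_lit 3956781028) (nat_lit 228) (nat_lit 10765175816) (nat_lit 304) (nat_lit 6773579902) (nat_lit 239) (nat_lit 5) (nat_lit 242) (nat_lit 5) (nat_lit 243) (nat_lit 5) (nat_lit 370) (nat_lit 351) (nat_lit 299)) (XT.lf (nat_lit 0) (nat_lit 760607729) (nat_lit 304) (nat_lit 18994317849) (nat_lit 76) (nat_lit 2755219936) (nat_lit 235) (nat_lit 5) (nat_lit 239) (nat_lit 5) (nat_lit 236) (nat_lit 5) (nat_lit 371) (nat_lit 351) (nat_lit 298))) (XT.nd (nat_lit 78) (nat_lit 152) (nat_lit 0) (XT.lf (nat_lit 0) (nat_lit 3028549051) (nat_lit 228) (nat_lit 6135985116) (nat_lit 304) (nat_lit 14410620849) (nat_lit 232) (nat_lit 5) (nat_lit 235) (nat_lit 5) (nat_lit 236) (nat_lit 5) (nat_lit 372) (nat_lit 351) (nat_lit 297)) (XT.lf (nat_lit 0) (nat_lit 2671898703)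 (nat_lit 152) (nat_lit 16044201765) (nat_lit 228) (nat_lit 5985498525) (nat_lit 230) (nat_lit 5) (nat_lit 232) (nat_lit 5) (nat_lit 233) (nat_lit 5) (nat_lit 373) (nat_lit 351) (nat_lit 296)))) (XT.nd (nat_lit 156) (nat_lit 380) (nat_lit 0) (XT.nd (nat_lit 78) (nat_lit 152) (nat_lit 0) (XT.lf (nat_lit 0) (nat_lit 2445930360) (nat_lit 228) (nat_lit 1038236944) (nat_lit 304) (nat_lit 22408051083) (nat_lit 226) (nat_lit 5) (nat_lit 229) (nat_lit 5) (nat_lit 230) (nat_lit 5) (nat_lit 374) (nat_lit 351) (nat_lit 295)) (XT.lf (nat_lit 0) (nat_lit 2178386663) (nat_lit 152) (nat_lit 11953212862) (nat_lit 228) (nat_lit 13010086870) (nat_lit 224) (nat_lit 5) (nat_lit 226) (nat_lit 5) (nat_lit 227) (nat_lit 5) (nat_lit 375) (nat_lit 351) (nat_lit 294))) (XT.nd (nat_lit 78) (nat_lit 228) (nat_lit 0) (XT.lf (nat_lit 0) (nat_lit 2145384049) (nat_lit 152) (nat_lit 23984244280) (nat_lit 228) (nat_lit 2336543414)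 (nat_lit 222) (nat_lit 5) (nat_lit 224) (nat_lit 5) (nat_lit 225) (nat_lit 5) (nat_lit 376) (nat_lit 351) (nat_lit 293)) (XT.lf (nat_lit 0) (nat_lit 2102121665) (nat_lit 152) (nat_lit 7439635607) (nat_lit 228) (nat_lit 20315431904) (nat_lit 219) (nat_lit 5) (nat_lit 221) (nat_lit 5) (nat_lit 222) (nat_lit 5) (nat_lit 377) (nat_lit 351) (nat_lit 292))))) (XT.nd (nat_lit 312) (nat_lit 760) (nat_lit 0) (XT.nd (nat_lit 156) (nat_lit 304) (nat_lit 0) (XT.nd (nat_lit 78) (nat_lit 228) (nat_lit 0) (XT.lf (nat_lit 0) (nat_lit 2212072252) (nat_lit 152) (nat_lit 20710760690) (nat_lit 228) (nat_lit 8403021259) (nat_lit 217) (nat_lit 5) (nat_lit 219) (nat_lit 5) (nat_lit 220) (nat_lit 5) (nat_lit 378) (nat_lit 351) (nat_lit 291)) (XT.lf (nat_lit 0) (nat_lit 2507132637) (nat_lit 152) (nat_lit 2439325404) (nat_lit 228) (nat_lit 27930725879) (nat_lit 214) (nat_lit 5) (nat_lit 216) (nat_lit 5) (nat_lit 217)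 (nat_lit 5) (nat_lit 379) (nat_lit 351) (nat_lit 290))) (XT.nd (nat_lit 78) (nat_lit 152) (nat_lit 0) (XT.lf (nat_lit 0) (nat_lit 2790569217) (nat_lit 152) (nat_lit 17083897128) (nat_lit 228) (nat_lit 14631017370) (nat_lit 212) (nat_lit 5) (nat_lit 214) (nat_lit 5) (nat_lit 215) (nat_lit 5) (nat_lit 380) (nat_lit 351) (nat_lit 289)) (XT.lf (nat_lit 0) (nat_lit 395860778) (nat_lit 152) (nat_lit 32813971281) (nat_lit 76) (nat_lit 3021692290) (nat_lit 210) (nat_lit 5) (nat_lit 212) (nat_lit 5) (nat_lit 211) (nat_lit 5) (nat_lit 381) (nat_lit 351) (nat_lit 288)))) (XT.nd (nat_lit 156) (nat_lit 532) (nat_lit 0) (XT.nd (nat_lit 78) (nat_lit 76) (nat_lit 0) (XT.lf (nat_lit 0) (nat_lit 3961564828) (nat_lit 152) (nat_lit 13042903985) (nat_lit 228) (nat_lit 21034577824) (nat_lit 208) (nat_lit 5) (nat_lit 210) (nat_lit 5) (nat_lit 211) (nat_lit 5) (nat_lit 382) (nat_lit 351) (nat_lit 287)) (XT.lf (nat_lit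 0) (nat_lit 4852413037) (nat_lit 76) (nat_lit 30857327264) (nat_lit 152) (nat_lit 4243031667) (nat_lit 207) (nat_lit 5) (nat_lit 208) (nat_lit 5) (nat_lit 209) (nat_lit 4) (nat_lit 383) (nat_lit 351) (nat_lit 286))) (XT.nd (nat_lit 78) (nat_lit 304) (nat_lit 0) (XT.lf (nat_lit 0) (nat_lit 5819109578) (nat_lit 152) (nat_lit 8517845841) (nat_lit 228) (nat_lit 27627308238) (nat_lit 204) (nat_lit 5) (nat_lit 206) (nat_lit 5) (nat_lit 207) (nat_lit 5) (nat_lit 384) (nat_lit 351) (nat_lit 285)) (XT.nd (nat_lit 78) (nat_lit 228) (nat_lit 0) (XT.lf (nat_lit 0) (nat_lit 7015520537) (nat_lit 76) (nat_lit 28192301142) (nat_lit 152) (nat_lit 8877718340) (nat_lit 203) (nat_lit 5) (nat_lit 204) (nat_lit 5) (nat_lit 205) (nat_lit 4) (nat_lit 385) (nat_lit 351) (nat_lit 284)) (XT.lf (nat_lit 0) (nat_lit 8472331774) (nat_lit 152) (nat_lit 3428587374) (nat_lit 228) (nat_lit 34422069515) (nat_lit 200) (nat_lit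 5) (nat_lit 202) (nat_lit 5) (nat_lit 203) (nat_lit 5) (nat_lit 386) (nat_lit 351) (nat_lit 283))))))))
noncomputable def xc124 : XT := (XT.nd (nat_lit 1248) (nat_lit 1900) (nat_lit 0) (XT.nd (nat_lit 624) (nat_lit 912) (nat_lit 0) (XT.nd (nat_lit 312) (nat_lit 456) (nat_lit 0) (XT.nd (nat_lit 156) (nat_lit 304) (nat_lit 0) (XT.nd (nat_lit 78) (nat_lit 228) (nat_lit 0) (XT.lf (nat_lit 0) (nat_lit 10030351135) (nat_lit 76) (nat_lit 25159549089) (nat_lit 152) (nat_lit 13484301926) (nat_lit 199) (nat_lit 5) (nat_lit 200) (nat_lit 5) (nat_lit 201) (nat_lit 4) (nat_lit 387) (nat_lit 351) (nat_lit 282)) (XT.lf (nat_lit 0) (nat_lit 9767178043) (nat_lit 228) (nat_lit 39150414747) (nat_lit 76) (nat_lit 2242250886) (nat_lit 196) (nat_lit 5) (nat_lit 199) (nat_lit 5) (nat_lit 197) (nat_lit 4) (nat_lit 388) (nat_lit 351) (nat_lit 281))) (XT.nd (nat_lit 78) (nat_lit 228) (nat_lit 0) (XT.lf (nat_lit 0) (nat_lit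 14031735688) (nat_lit 76) (nat_lit 21687780501) (nat_lit 152) (nat_lit 18048109425) (nat_lit 195) (nat_lit 5) (nat_lit 196) (nat_lit 5) (nat_lit 197) (nat_lit 4) (nat_lit 389) (nat_lit 351) (nat_lit 280)) (XT.lf (nat_lit 0) (nat_lit 8006149049) (nat_lit 228) (nat_lit 39979702268) (nat_lit 76) (nat_lit 8539014733) (nat_lit 192) (nat_lit 5) (nat_lit 195) (nat_lit 5) (nat_lit 193) (nat_lit 4) (nat_lit 390) (nat_lit 351) (nat_lit 279)))) (XT.nd (nat_lit 156) (nat_lit 228) (nat_lit 0) (XT.nd (nat_lit 78) (nat_lit 152) (nat_lit 0) (XT.lf (nat_lit 0) (nat_lit 19174947720) (nat_lit 76) (nat_lit 17695150997) (nat_lit 152) (nat_lit 22549910053) (nat_lit 191) (nat_lit 5) (nat_lit 192) (nat_lit 5) (nat_lit 193) (nat_lit 4) (nat_lit 391) (nat_lit 351) (nat_lit 278)) (XT.lf (nat_lit 0) (nat_lit 6614857027) (nat_lit 152) (nat_lit 40176669952) (nat_lit 76) (nat_lit 15686226481) (nat_lit 189) (nat_lit 5) (nat_lit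 191) (nat_lit 5) (nat_lit 190) (nat_lit 4) (nat_lit 392) (nat_lit 351) (nat_lit 277))) (XT.nd (nat_lit 78) (nat_lit 152) (nat_lit 0) (XT.lf (nat_lit 0) (nat_lit 25638410229) (nat_lit 76) (nat_lit 13087914718) (nat_lit 152) (nat_lit 26965131320) (nat_lit 188) (nat_lit 5) (nat_lit 189) (nat_lit 5) (nat_lit 190) (nat_lit 4) (nat_lit 393) (nat_lit 351) (nat_lit 276)) (XT.lf (nat_lit 0) (nat_lit 5652730837) (nat_lit 152) (nat_lit 39614749616) (nat_lit 76) (nat_lit 23814255209) (nat_lit 186) (nat_lit 5) (nat_lit 188) (nat_lit 5) (nat_lit 187) (nat_lit 4) (nat_lit 394) (nat_lit 351) (nat_lit 275))))) (XT.nd (nat_lit 312) (nat_lit 456) (nat_lit 0) (XT.nd (nat_lit 156) (nat_lit 228) (nat_lit 0) (XT.nd (nat_lit 78) (nat_lit 152) (nat_lit 0) (XT.lf (nat_lit 0) (nat_lit 33626764527) (nat_lit 76) (nat_lit 7758882965) (nat_lit 152) (nat_lit 31262969731) (nat_lit 185) (nat_lit 5) (nat_lit 186) (nat_lit 5) (nat_lit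 187) (nat_lit 4) (nat_lit 395) (nat_lit 351) (nat_lit 274)) (XT.lf (nat_lit 0) (nat_lit 5189353725) (nat_lit 152) (nat_lit 38146554016) (nat_lit 76) (nat_lit 33071014270) (nat_lit 183) (nat_lit 5) (nat_lit 185) (nat_lit 5) (nat_lit 184) (nat_lit 4) (nat_lit 396) (nat_lit 351) (nat_lit 273))) (XT.nd (nat_lit 78) (nat_lit 152) (nat_lit 0) (XT.lf (nat_lit 0) (nat_lit 43374344768) (nat_lit 76) (nat_lit 1585668397) (nat_lit 152) (nat_lit 35405380020) (nat_lit 182) (nat_lit 5) (nat_lit 183) (nat_lit 5) (nat_lit 184) (nat_lit 4) (nat_lit 397) (nat_lit 351) (nat_lit 272)) (XT.lf (nat_lit 0) (nat_lit 5305909961) (nat_lit 152) (nat_lit 35600953245) (nat_lit 76) (nat_lit 43624182554) (nat_lit 180) (nat_lit 5) (nat_lit 182) (nat_lit 5) (nat_lit 181) (nat_lit 4) (nat_lit 398) (nat_lit 351) (nat_lit 271)))) (XT.nd (nat_lit 156) (nat_lit 228) (nat_lit 0) (XT.nd (nat_lit 78) (nat_lit 152) (nat_lit 0) (XT.lf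 (nat_lit 0) (nat_lit 49664782040) (nat_lit 152) (nat_lit 33861599597) (nat_lit 0) (nat_lit 5392992551) (nat_lit 179) (nat_lit 5) (nat_lit 181) (nat_lit 4) (nat_lit 179) (nat_lit 4) (nat_lit 399) (nat_lit 351) (nat_lit 270)) (XT.lf (nat_lit 0) (nat_lit 6096820512) (nat_lit 152) (nat_lit 31779753909) (nat_lit 76) (nat_lit 55663715113) (nat_lit 177) (nat_lit 5) (nat_lit 179) (nat_lit 5) (nat_lit 178) (nat_lit 4) (nat_lit 400) (nat_lit 351) (nat_lit 269))) (XT.nd (nat_lit 78) (nat_lit 152) (nat_lit 0) (XT.lf (nat_lit 0) (nat_lit 55602555303) (nat_lit 152) (nat_lit 29373949914) (nat_lit 0) (nat_lit 13427122052) (nat_lit 176) (nat_lit 5) (nat_lit 178) (nat_lit 4) (nat_lit 176) (nat_lit 4) (nat_lit 401) (nat_lit 351) (nat_lit 268)) (XT.lf (nat_lit 0) (nat_lit 7671593021) (nat_lit 152) (nat_lit 26453931183) (nat_lit 76) (nat_lit 69404676591) (nat_lit 174) (nat_lit 5) (nat_lit 176) (nat_lit 5) (nat_lit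 175) (nat_lit 4) (nat_lit 402) (nat_lit 351) (nat_lit 267)))))) (XT.nd (nat_lit 624) (nat_lit 912) (nat_lit 0) (XT.nd (nat_lit 312) (nat_lit 532) (nat_lit 0) (XT.nd (nat_lit 156) (nat_lit 228) (nat_lit 0) (XT.nd (nat_lit 78) (nat_lit 152) (nat_lit 0) (XT.lf (nat_lit 0) (nat_lit 62919454796) (nat_lit 152) (nat_lit 23257795445) (nat_lit 0) (nat_lit 22742720883) (nat_lit 173) (nat_lit 5) (nat_lit 175) (nat_lit 4) (nat_lit 173) (nat_lit 4) (nat_lit 403) (nat_lit 351) (nat_lit 266)) (XT.lf (nat_lit 0) (nat_lit 10156914302) (nat_lit 152) (nat_lit 19359357413) (nat_lit 76) (nat_lit 85090435289) (nat_lit 171) (nat_lit 5) (nat_lit 173) (nat_lit 5) (nat_lit 172) (nat_lit 4) (nat_lit 404) (nat_lit 351) (nat_lit 265))) (XT.nd (nat_lit 78) (nat_lit 152) (nat_lit 0) (XT.lf (nat_lit 0) (nat_lit 71810581649) (nat_lit 152) (nat_lit 15230188538) (nat_lit 0) (nat_lit 33539142412) (nat_lit 170) (nat_lit 5) (nat_lit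 172) (nat_lit 4) (nat_lit 170) (nat_lit 4) (nat_lit 405) (nat_lit 351) (nat_lit 264)) (XT.lf (nat_lit 0) (nat_lit 13699016922) (nat_lit 152) (nat_lit 10191963773) (nat_lit 76) (nat_lit 102996260613) (nat_lit 168) (nat_lit 5) (nat_lit 170) (nat_lit 5) (nat_lit 169) (nat_lit 4) (nat_lit 406) (nat_lit 351) (nat_lit 263)))) (XT.nd (nat_lit 156) (nat_lit 228) (nat_lit 0) (XT.nd (nat_lit 78) (nat_lit 228) (nat_lit 0) (XT.lf (nat_lit 0) (nat_lit 82498428964) (nat_lit 152) (nat_lit 4965638144) (nat_lit 0) (nat_lit 46043002536) (nat_lit 167) (nat_lit 5) (nat_lit 169) (nat_lit 4) (nat_lit 167) (nat_lit 4) (nat_lit 407) (nat_lit 351) (nat_lit 262)) (XT.lf (nat_lit 0) (nat_lit 1443952029) (nat_lit 76) (nat_lit 17044947379) (nat_lit 152) (nat_lit 122011964142) (nat_lit 164) (nat_lit 5) (nat_lit 165) (nat_lit 5) (nat_lit 166) (nat_lit 4) (nat_lit 408) (nat_lit 351) (nat_lit 261))) (XT.nd (nat_lit 78) (nat_lit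 152) (nat_lit 0) (XT.lf (nat_lit 0) (nat_lit 8171240782) (nat_lit 76) (nat_lit 87192787600) (nat_lit 76) (nat_lit 52468078226) (nat_lit 163) (nat_lit 4) (nat_lit 164) (nat_lit 5) (nat_lit 164) (nat_lit 4) (nat_lit 409) (nat_lit 351) (nat_lit 260)) (XT.lf (nat_lit 0) (nat_lit 16333622020) (nat_lit 76) (nat_lit 8574022357) (nat_lit 152) (nat_lit 130674885304) (nat_lit 161) (nat_lit 5) (nat_lit 162) (nat_lit 5) (nat_lit 163) (nat_lit 4) (nat_lit 410) (nat_lit 351) (nat_lit 259))))) (XT.nd (nat_lit 312) (nat_lit 456) (nat_lit 0) (XT.nd (nat_lit 156) (nat_lit 228) (nat_lit 0) (XT.nd (nat_lit 78) (nat_lit 152) (nat_lit 0) (XT.lf (nat_lit 0) (nat_lit 24612406417) (nat_lit 76) (nat_lit 86084954275) (nat_lit 76) (nat_lit 53009511196) (nat_lit 160) (nat_lit 4) (nat_lit 161) (nat_lit 5) (nat_lit 161) (nat_lit 4) (nat_lit 411) (nat_lit 351) (nat_lit 258)) (XT.lf (nat_lit 0) (nat_lit 33045539333) (nat_lit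 152) (nat_lit 137710003953) (nat_lit 0) (nat_lit 1543298022) (nat_lit 158) (nat_lit 5) (nat_lit 160) (nat_lit 4) (nat_lit 158) (nat_lit 4) (nat_lit 412) (nat_lit 351) (nat_lit 257))) (XT.nd (nat_lit 78) (nat_lit 152) (nat_lit 0) (XT.lf (nat_lit 0) (nat_lit 44701098450) (nat_lit 76) (nat_lit 84053112346) (nat_lit 76) (nat_lit 52549186469) (nat_lit 157) (nat_lit 4) (nat_lit 158) (nat_lit 5) (nat_lit 158) (nat_lit 4) (nat_lit 413) (nat_lit 351) (nat_lit 256)) (XT.lf (nat_lit 0) (nat_lit 43305817786) (nat_lit 152) (nat_lit 134213342261) (nat_lit 0) (nat_lit 13300593347) (nat_lit 155) (nat_lit 5) (nat_lit 157) (nat_lit 4) (nat_lit 155) (nat_lit 4) (nat_lit 414) (nat_lit 351) (nat_lit 255)))) (XT.nd (nat_lit 156) (nat_lit 228) (nat_lit 0) (XT.nd (nat_lit 78) (nat_lit 152) (nat_lit 0) (XT.lf (nat_lit 0) (nat_lit 69017875639) (nat_lit 76) (nat_lit 80898333240) (nat_lit 76) (nat_lit 50891733331) (nat_lit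 154) (nat_lit 4) (nat_lit 155) (nat_lit 5) (nat_lit 155) (nat_lit 4) (nat_lit 415) (nat_lit 351) (nat_lit 254)) (XT.lf (nat_lit 0) (nat_lit 55861104602) (nat_lit 152) (nat_lit 128204574791) (nat_lit 0) (nat_lit 27282177466) (nat_lit 152) (nat_lit 5) (nat_lit 154) (nat_lit 4) (nat_lit 152) (nat_lit 4) (nat_lit 416) (nat_lit 351) (nat_lit 253))) (XT.nd (nat_lit 78) (nat_lit 152) (nat_lit 0) (XT.lf (nat_lit 0) (nat_lit 98226236814) (nat_lit 76) (nat_lit 76390395254) (nat_lit 76) (nat_lit 47810345029) (nat_lit 151) (nat_lit 4) (nat_lit 152) (nat_lit 5) (nat_lit 152) (nat_lit 4) (nat_lit 417) (nat_lit 351) (nat_lit 252)) (XT.lf (nat_lit 0) (nat_lit 71061789875) (nat_lit 152) (nat_lit 119196804247) (nat_lit 0) (nat_lit 43841704043) (nat_lit 149) (nat_lit 5) (nat_lit 151) (nat_lit 4) (nat_lit 149) (nat_lit 4) (nat_lit 418) (nat_lit 351) (nat_lit 251)))))))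
noncomputable def xc125 : XT := (XT.nd (nat_lit 1248) (nat_lit 1368) (nat_lit 0) (XT.nd (nat_lit 624) (nat_lit 988) (nat_lit 0) (XT.nd (nat_lit 312) (nat_lit 456) (nat_lit 0) (XT.nd (nat_lit 156) (nat_lit 228) (nat_lit 0) (XT.nd (nat_lit 78) (nat_lit 152) (nat_lit 0) (XT.lf (nat_lit 0) (nat_lit 133083692078) (nat_lit 76) (nat_lit 70263343890) (nat_lit 76) (nat_lit 43042341041) (nat_lit 148) (nat_lit 4) (nat_lit 149) (nat_lit 5) (nat_lit 149) (nat_lit 4) (nat_lit 419) (nat_lit 351) (nat_lit 250)) (XT.lf (nat_lit 0) (nat_lit 89307999779) (nat_lit 152) (nat_lit 106627352062) (nat_lit 0) (nat_lit 63382426503) (nat_lit 146) (nat_lit 5) (nat_lit 148) (nat_lit 4) (nat_lit 146) (nat_lit 4) (nat_lit 420) (nat_lit 351) (nat_lit 249))) (XT.nd (nat_lit 78) (nat_lit 152) (nat_lit 0) (XT.lf (nat_lit 0) (nat_lit 174454255735) (nat_lit 76) (nat_lit 62210460188) (nat_lit 76) (nat_lit 36284138156) (nat_lit 145)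 (nat_lit 4) (nat_lit 146) (nat_lit 5) (nat_lit 146) (nat_lit 4) (nat_lit 421) (nat_lit 351) (nat_lit 248)) (XT.lf (nat_lit 0) (nat_lit 111056179760) (nat_lit 152) (nat_lit 89847145459) (nat_lit 0) (nat_lit 86363784211) (nat_lit 143) (nat_lit 5) (nat_lit 145) (nat_lit 4) (nat_lit 143) (nat_lit 4) (nat_lit 422) (nat_lit 351) (nat_lit 247)))) (XT.nd (nat_lit 156) (nat_lit 228) (nat_lit 0) (XT.nd (nat_lit 78) (nat_lit 152) (nat_lit 0) (XT.lf (nat_lit 0) (nat_lit 223322538207) (nat_lit 76) (nat_lit 51878561511) (nat_lit 76) (nat_lit 27185554592) (nat_lit 142) (nat_lit 4) (nat_lit 143) (nat_lit 5) (nat_lit 143) (nat_lit 4) (nat_lit 423) (nat_lit 351) (nat_lit 246)) (XT.lf (nat_lit 0) (nat_lit 136826518828) (nat_lit 152) (nat_lit 68108699684) (nat_lit 0) (nat_lit 113308830254) (nat_lit 140) (nat_lit 5) (nat_lit 142) (nat_lit 4) (nat_lit 140) (nat_lit 4) (nat_lit 424) (nat_lit 351) (nat_lit 245))) (XT.nd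 (nat_lit 78) (nat_lit 152) (nat_lit 0) (XT.lf (nat_lit 0) (nat_lit 280809635989) (nat_lit 76) (nat_lit 38861549732) (nat_lit 76) (nat_lit 15343361967) (nat_lit 139) (nat_lit 4) (nat_lit 140) (nat_lit 5) (nat_lit 140) (nat_lit 4) (nat_lit 425) (nat_lit 351) (nat_lit 244)) (XT.lf (nat_lit 0) (nat_lit 167211319638) (nat_lit 152) (nat_lit 40552516455) (nat_lit 0) (nat_lit 144812605373) (nat_lit 137) (nat_lit 5) (nat_lit 139) (nat_lit 4) (nat_lit 137) (nat_lit 4) (nat_lit 426) (nat_lit 351) (nat_lit 243))))) (XT.nd (nat_lit 312) (nat_lit 456) (nat_lit 0) (XT.nd (nat_lit 156) (nat_lit 304) (nat_lit 0) (XT.nd (nat_lit 78) (nat_lit 152) (nat_lit 0) (XT.lf (nat_lit 0) (nat_lit 348191042937) (nat_lit 76) (nat_lit 22693111198) (nat_lit 76) (nat_lit 293989336) (nat_lit 136) (nat_lit 4) (nat_lit 137) (nat_lit 5) (nat_lit 137) (nat_lit 4) (nat_lit 427) (nat_lit 351) (nat_lit 242)) (XT.lf (nat_lit 0) (nat_lit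 202884431774) (nat_lit 152) (nat_lit 6191697407) (nat_lit 0) (nat_lit 181551575330) (nat_lit 134) (nat_lit 5) (nat_lit 136) (nat_lit 4) (nat_lit 134) (nat_lit 4) (nat_lit 428) (nat_lit 351) (nat_lit 241))) (XT.nd (nat_lit 78) (nat_lit 76) (nat_lit 0) (XT.lf (nat_lit 0) (nat_lit 15875632253) (nat_lit 76) (nat_lit 2275012383) (nat_lit 152) (nat_lit 393083090551) (nat_lit 131) (nat_lit 5) (nat_lit 132) (nat_lit 5) (nat_lit 133) (nat_lit 4) (nat_lit 429) (nat_lit 351) (nat_lit 240)) (XT.lf (nat_lit 0) (nat_lit 37299262999) (nat_lit 76) (nat_lit 207894962976) (nat_lit 76) (nat_lit 187577346398) (nat_lit 130) (nat_lit 4) (nat_lit 131) (nat_lit 5) (nat_lit 131) (nat_lit 4) (nat_lit 430) (nat_lit 351) (nat_lit 239)))) (XT.nd (nat_lit 156) (nat_lit 228) (nat_lit 0) (XT.nd (nat_lit 78) (nat_lit 76) (nat_lit 0) (XT.lf (nat_lit 0) (nat_lit 41665085096) (nat_lit 152) (nat_lit 391605994168) (nat_lit 0) (nat_lit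 22314715267) (nat_lit 128) (nat_lit 5) (nat_lit 130) (nat_lit 4) (nat_lit 128) (nat_lit 4) (nat_lit 431) (nat_lit 351) (nat_lit 238)) (XT.lf (nat_lit 0) (nat_lit 90532705738) (nat_lit 76) (nat_lit 204144598393) (nat_lit 76) (nat_lit 184793988932) (nat_lit 127) (nat_lit 4) (nat_lit 128) (nat_lit 5) (nat_lit 128) (nat_lit 4) (nat_lit 432) (nat_lit 351) (nat_lit 237))) (XT.nd (nat_lit 78) (nat_lit 76) (nat_lit 0) (XT.lf (nat_lit 0) (nat_lit 70344236540) (nat_lit 152) (nat_lit 382475255906) (nat_lit 0) (nat_lit 51914873358) (nat_lit 125) (nat_lit 5) (nat_lit 127) (nat_lit 4) (nat_lit 125) (nat_lit 4) (nat_lit 433) (nat_lit 351) (nat_lit 236)) (XT.lf (nat_lit 0) (nat_lit 154835766339) (nat_lit 76) (nat_lit 197409746347) (nat_lit 76) (nat_lit 178980187502) (nat_lit 124) (nat_lit 4) (nat_lit 125) (nat_lit 5) (nat_lit 125) (nat_lit 4) (nat_lit 434) (nat_lit 351) (nat_lit 235)))))) (XT.nd (nat_lit 624)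 (nat_lit 456) (nat_lit 0) (XT.nd (nat_lit 312) (nat_lit 456) (nat_lit 0) (XT.nd (nat_lit 156) (nat_lit 228) (nat_lit 0) (XT.nd (nat_lit 78) (nat_lit 76) (nat_lit 0) (XT.lf (nat_lit 0) (nat_lit 104964667473) (nat_lit 152) (nat_lit 366823408712) (nat_lit 0) (nat_lit 87412534127) (nat_lit 122) (nat_lit 5) (nat_lit 124) (nat_lit 4) (nat_lit 122) (nat_lit 4) (nat_lit 435) (nat_lit 351) (nat_lit 234)) (XT.lf (nat_lit 0) (nat_lit 231959067954) (nat_lit 76) (nat_lit 187087710134) (nat_lit 76) (nat_lit 169535417027) (nat_lit 121) (nat_lit 4) (nat_lit 122) (nat_lit 5) (nat_lit 122) (nat_lit 4) (nat_lit 436) (nat_lit 351) (nat_lit 233))) (XT.nd (nat_lit 78) (nat_lit 76) (nat_lit 0) (XT.lf (nat_lit 0) (nat_lit 146454138256) (nat_lit 152) (nat_lit 343368560019) (nat_lit 0) (nat_lit 129737527748) (nat_lit 119) (nat_lit 5) (nat_lit 121) (nat_lit 4) (nat_lit 119) (nat_lit 4) (nat_lit 437) (nat_lit 351) (nat_lit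 232)) (XT.lf (nat_lit 0) (nat_lit 323901249569) (nat_lit 76) (nat_lit 172481523410) (nat_lit 76) (nat_lit 155764782455) (nat_lit 118) (nat_lit 4) (nat_lit 119) (nat_lit 5) (nat_lit 119) (nat_lit 4) (nat_lit 438) (nat_lit 351) (nat_lit 231)))) (XT.nd (nat_lit 156) (nat_lit 228) (nat_lit 0) (XT.nd (nat_lit 78) (nat_lit 76) (nat_lit 0) (XT.lf (nat_lit 0) (nat_lit 195871501656) (nat_lit 152) (nat_lit 310629152903) (nat_lit 0) (nat_lit 179950680952) (nat_lit 116) (nat_lit 5) (nat_lit 118) (nat_lit 4) (nat_lit 116) (nat_lit 4) (nat_lit 439) (nat_lit 351) (nat_lit 230)) (XT.lf (nat_lit 0) (nat_lit 432941976169) (nat_lit 76) (nat_lit 152786666656) (nat_lit 76) (nat_lit 136865739441) (nat_lit 115) (nat_lit 4) (nat_lit 116) (nat_lit 5) (nat_lit 116) (nat_lit 4) (nat_lit 440) (nat_lit 351) (nat_lit 229))) (XT.nd (nat_lit 78) (nat_lit 76) (nat_lit 0) (XT.lf (nat_lit 0) (nat_lit 254424099710) (nat_lit 152)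 (nat_lit 266895944512) (nat_lit 0) (nat_lit 239261217960) (nat_lit 113) (nat_lit 5) (nat_lit 115) (nat_lit 4) (nat_lit 113) (nat_lit 4) (nat_lit 441) (nat_lit 351) (nat_lit 228)) (XT.lf (nat_lit 0) (nat_lit 561679174402) (nat_lit 76) (nat_lit 127076021421) (nat_lit 76) (nat_lit 111913052704) (nat_lit 112) (nat_lit 4) (nat_lit 113) (nat_lit 5) (nat_lit 113) (nat_lit 4) (nat_lit 442) (nat_lit 351) (nat_lit 227))))) (XT.nd (nat_lit 46020) (nat_lit 0) (nat_lit 14364) (XT.nd (nat_lit 156) (nat_lit 228) (nat_lit 0) (XT.nd (nat_lit 78) (nat_lit 76) (nat_lit 0) (XT.lf (nat_lit 0) (nat_lit 323487384106) (nat_lit 152) (nat_lit 210200274015) (nat_lit 0) (nat_lit 309046384826) (nat_lit 110) (nat_lit 5) (nat_lit 112) (nat_lit 4) (nat_lit 110) (nat_lit 4) (nat_lit 443) (nat_lit 351) (nat_lit 226)) (XT.lf (nat_lit 0) (nat_lit 713071020134) (nat_lit 76) (nat_lit 94282837289) (nat_lit 76) (nat_lit 79841766999)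 (nat_lit 109) (nat_lit 4) (nat_lit 110) (nat_lit 5) (nat_lit 110) (nat_lit 4) (nat_lit 444) (nat_lit 351) (nat_lit 225))) (XT.nd (nat_lit 78) (nat_lit 76) (nat_lit 0) (XT.lf (nat_lit 0) (nat_lit 404627036779) (nat_lit 152) (nat_lit 138278146875) (nat_lit 0) (nat_lit 390873573883) (nat_lit 107) (nat_lit 5) (nat_lit 109) (nat_lit 4) (nat_lit 107) (nat_lit 4) (nat_lit 445) (nat_lit 351) (nat_lit 224)) (XT.lf (nat_lit 0) (nat_lit 890483268610) (nat_lit 76) (nat_lit 53181458527) (nat_lit 76) (nat_lit 39427937650) (nat_lit 106) (nat_lit 4) (nat_lit 107) (nat_lit 5) (nat_lit 107) (nat_lit 4) (nat_lit 446) (nat_lit 351) (nat_lit 223)))) (XT.nd (nat_lit 156) (nat_lit 608) (nat_lit 0) (XT.nd (nat_lit 78) (nat_lit 0) (nat_lit 0) (XT.lf (nat_lit 0) (nat_lit 1704860891) (nat_lit 0) (nat_lit 1704860891) (nat_lit 684) (nat_lit 1910038048) (nat_lit 303) (nat_lit 5) (nat_lit 303) (nat_lit 3) (nat_lit 312) (nat_lit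 3) (nat_lit 352) (nat_lit 352) (nat_lit 316)) (XT.lf (nat_lit 76) (nat_lit 1261910477) (nat_lit 0) (nat_lit 6870801098) (nat_lit 760) (nat_lit 2880364359) (nat_lit 304) (nat_lit 5) (nat_lit 303) (nat_lit 5) (nat_lit 313) (nat_lit 5) (nat_lit 353) (nat_lit 352) (nat_lit 315))) (XT.nd (nat_lit 78) (nat_lit 684) (nat_lit 0) (XT.lf (nat_lit 0) (nat_lit 9652613834) (nat_lit 684) (nat_lit 850111177) (nat_lit 760) (nat_lit 908713059) (nat_lit 304) (nat_lit 5) (nat_lit 313) (nat_lit 5) (nat_lit 314) (nat_lit 5) (nat_lit 354) (nat_lit 352) (nat_lit 314)) (XT.nd (nat_lit 78) (nat_lit 684) (nat_lit 0) (XT.lf (nat_lit 76) (nat_lit 8875283427) (nat_lit 0) (nat_lit 2585325251) (nat_lit 760) (nat_lit 372735476) (nat_lit 305) (nat_lit 5) (nat_lit 304) (nat_lit 5) (nat_lit 314) (nat_lit 5) (nat_lit 355) (nat_lit 352) (nat_lit 313)) (XT.lf (nat_lit 0) (nat_lit 1229334255) (nat_lit 760) (nat_lit 5102111909) (nat_lit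 836) (nat_lit 5949625106) (nat_lit 295) (nat_lit 5) (nat_lit 305) (nat_lit 5) (nat_lit 306) (nat_lit 5) (nat_lit 356) (nat_lit 352) (nat_lit 312))))))))
noncomputable def xc126 : XT := (XT.nd (nat_lit 1248) (nat_lit 2964) (nat_lit 0) (XT.nd (nat_lit 624) (nat_lit 2356) (nat_lit 0) (XT.nd (nat_lit 312) (nat_lit 1140) (nat_lit 0) (XT.nd (nat_lit 156) (nat_lit 1140) (nat_lit 0) (XT.nd (nat_lit 78) (nat_lit 0) (nat_lit 0) (XT.lf (nat_lit 0) (nat_lit 3090108644) (nat_lit 760) (nat_lit 7258955870) (nat_lit 836) (nat_lit 2408066624) (nat_lit 296) (nat_lit 5) (nat_lit 306) (nat_lit 5) (nat_lit 307) (nat_lit 5) (nat_lit 357) (nat_lit 352) (nat_lit 311)) (XT.lf (nat_lit 76) (nat_lit 3816249218) (nat_lit 0) (nat_lit 1467479928) (nat_lit 836) (nat_lit 7978347441) (nat_lit 297) (nat_lit 5) (nat_lit 296) (nat_lit 5) (nat_lit 307) (nat_lit 5) (nat_lit 358) (nat_lit 352) (nat_lit 310))) (XT.nd (nat_lit 78) (nat_lit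 456) (nat_lit 0) (XT.lf (nat_lit 0) (nat_lit 2113799367) (nat_lit 760) (nat_lit 5759390567) (nat_lit 836) (nat_lit 5923210207) (nat_lit 287) (nat_lit 5) (nat_lit 297) (nat_lit 5) (nat_lit 298) (nat_lit 5) (nat_lit 359) (nat_lit 352) (nat_lit 309)) (XT.lf (nat_lit 0) (nat_lit 435418593) (nat_lit 456) (nat_lit 10429532857) (nat_lit 532) (nat_lit 3498760935) (nat_lit 281) (nat_lit 5) (nat_lit 287) (nat_lit 5) (nat_lit 288) (nat_lit 5) (nat_lit 360) (nat_lit 352) (nat_lit 308)))) (XT.nd (nat_lit 156) (nat_lit 684) (nat_lit 0) (XT.nd (nat_lit 78) (nat_lit 456) (nat_lit 0) (XT.lf (nat_lit 0) (nat_lit 13781213425) (nat_lit 456) (nat_lit 553911798) (nat_lit 532) (nat_lit 629330819) (nat_lit 281) (nat_lit 5) (nat_lit 287) (nat_lit 5) (nat_lit 288) (nat_lit 5) (nat_lit 361) (nat_lit 352) (nat_lit 307)) (XT.lf (nat_lit 0) (nat_lit 2697375094) (nat_lit 456) (nat_lit 2866226434) (nat_lit 76) (nat_lit 10032391466)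 (nat_lit 275) (nat_lit 5) (nat_lit 281) (nat_lit 5) (nat_lit 276) (nat_lit 5) (nat_lit 362) (nat_lit 352) (nat_lit 306))) (XT.nd (nat_lit 78) (nat_lit 304) (nat_lit 0) (XT.lf (nat_lit 0) (nat_lit 6514425042) (nat_lit 456) (nat_lit 4530729731) (nat_lit 76) (nat_lit 5220069473) (nat_lit 270) (nat_lit 5) (nat_lit 276) (nat_lit 5) (nat_lit 271) (nat_lit 5) (nat_lit 363) (nat_lit 352) (nat_lit 305)) (XT.lf (nat_lit 0) (nat_lit 10815395012) (nat_lit 304) (nat_lit 84784915) (nat_lit 380) (nat_lit 6074647023) (nat_lit 266) (nat_lit 5) (nat_lit 270) (nat_lit 5) (nat_lit 271) (nat_lit 5) (nat_lit 364) (nat_lit 352) (nat_lit 304))))) (XT.nd (nat_lit 312) (nat_lit 1140) (nat_lit 0) (XT.nd (nat_lit 156) (nat_lit 532) (nat_lit 0) (XT.nd (nat_lit 78) (nat_lit 380) (nat_lit 0) (XT.lf (nat_lit 0) (nat_lit 9889416157) (nat_lit 304) (nat_lit 6118174346) (nat_lit 380) (nat_lit 1715067601) (nat_lit 262) (nat_lit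 5) (nat_lit 266) (nat_lit 5) (nat_lit 267) (nat_lit 5) (nat_lit 365) (nat_lit 352) (nat_lit 303)) (XT.lf (nat_lit 0) (nat_lit 3198369577) (nat_lit 380) (nat_lit 9507793486) (nat_lit 76) (nat_lit 5806771266) (nat_lit 257) (nat_lit 5) (nat_lit 262) (nat_lit 5) (nat_lit 258) (nat_lit 5) (nat_lit 366) (nat_lit 352) (nat_lit 302))) (XT.nd (nat_lit 78) (nat_lit 228) (nat_lit 0) (XT.lf (nat_lit 0) (nat_lit 8183584472) (nat_lit 304) (nat_lit 588639899) (nat_lit 380) (nat_lit 10576430976) (nat_lit 253) (nat_lit 5) (nat_lit 257) (nat_lit 5) (nat_lit 258) (nat_lit 5) (nat_lit 367) (nat_lit 352) (nat_lit 301)) (XT.lf (nat_lit 0) (nat_lit 7370701900) (nat_lit 228) (nat_lit 7859022898) (nat_lit 304) (nat_lit 4999622384) (nat_lit 250) (nat_lit 5) (nat_lit 253) (nat_lit 5) (nat_lit 254) (nat_lit 5) (nat_lit 368) (nat_lit 352) (nat_lit 300)))) (XT.nd (nat_lit 156) (nat_lit 532) (nat_lit 0) (XT.nd (nat_lit 78)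 (nat_lit 228) (nat_lit 0) (XT.lf (nat_lit 0) (nat_lit 1350020300) (nat_lit 380) (nat_lit 14500555474) (nat_lit 76) (nat_lit 5311147618) (nat_lit 245) (nat_lit 5) (nat_lit 250) (nat_lit 5) (nat_lit 246) (nat_lit 5) (nat_lit 369) (nat_lit 352) (nat_lit 299)) (XT.lf (nat_lit 0) (nat_lit 5962114732) (nat_lit 228) (nat_lit 2488633734) (nat_lit 304) (nat_lit 13692929358) (nat_lit 242) (nat_lit 5) (nat_lit 245) (nat_lit 5) (nat_lit 246) (nat_lit 5) (nat_lit 370) (nat_lit 352) (nat_lit 298))) (XT.nd (nat_lit 78) (nat_lit 304) (nat_lit 0) (XT.lf (nat_lit 0) (nat_lit 5315870384) (nat_lit 228) (nat_lit 11294263912) (nat_lit 304) (nat_lit 6569524344) (nat_lit 239) (nat_lit 5) (nat_lit 242) (nat_lit 5) (nat_lit 243) (nat_lit 5) (nat_lit 371) (nat_lit 352) (nat_lit 297)) (XT.lf (nat_lit 0) (nat_lit 1511202469) (nat_lit 304) (nat_lit 19464800819) (nat_lit 76) (nat_lit 3300466561) (nat_lit 235) (nat_lit 5) (nat_lit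 239) (nat_lit 5) (nat_lit 236) (nat_lit 5) (nat_lit 372) (nat_lit 352) (nat_lit 296)))))) (XT.nd (nat_lit 624) (nat_lit 1368) (nat_lit 0) (XT.nd (nat_lit 312) (nat_lit 760) (nat_lit 0) (XT.nd (nat_lit 156) (nat_lit 456) (nat_lit 0) (XT.nd (nat_lit 78) (nat_lit 152) (nat_lit 0) (XT.lf (nat_lit 0) (nat_lit 4274304457) (nat_lit 228) (nat_lit 6277713262) (nat_lit 304) (nat_lit 14876433659) (nat_lit 232) (nat_lit 5) (nat_lit 235) (nat_lit 5) (nat_lit 236) (nat_lit 5) (nat_lit 373) (nat_lit 352) (nat_lit 295)) (XT.lf (nat_lit 0) (nat_lit 3871592357) (nat_lit 152) (nat_lit 16968089497) (nat_lit 228) (nat_lit 5806730390) (nat_lit 230) (nat_lit 5) (nat_lit 232) (nat_lit 5) (nat_lit 233) (nat_lit 5) (nat_lit 374) (nat_lit 352) (nat_lit 294))) (XT.nd (nat_lit 78) (nat_lit 152) (nat_lit 0) (XT.lf (nat_lit 0) (nat_lit 3604831581) (nat_lit 228) (nat_lit 762515604) (nat_lit 304) (nat_lit 23566026348) (nat_lit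 226) (nat_lit 5) (nat_lit 229) (nat_lit 5) (nat_lit 230) (nat_lit 5) (nat_lit 375) (nat_lit 352) (nat_lit 293)) (XT.lf (nat_lit 0) (nat_lit 3297574497) (nat_lit 152) (nat_lit 12544165108) (nat_lit 228) (nat_lit 13442301096) (nat_lit 224) (nat_lit 5) (nat_lit 226) (nat_lit 5) (nat_lit 227) (nat_lit 5) (nat_lit 376) (nat_lit 352) (nat_lit 292)))) (XT.nd (nat_lit 156) (nat_lit 380) (nat_lit 0) (XT.nd (nat_lit 78) (nat_lit 228) (nat_lit 0) (XT.lf (nat_lit 0) (nat_lit 3243132314) (nat_lit 152) (nat_lit 25533284414) (nat_lit 228) (nat_lit 1939227848) (nat_lit 222) (nat_lit 5) (nat_lit 224) (nat_lit 5) (nat_lit 225) (nat_lit 5) (nat_lit 377) (nat_lit 352) (nat_lit 291)) (XT.lf (nat_lit 0) (nat_lit 3174047649) (nat_lit 152) (nat_lit 7668808281) (nat_lit 228) (nat_lit 21376020476) (nat_lit 219) (nat_lit 5) (nat_lit 221) (nat_lit 5) (nat_lit 222) (nat_lit 5) (nat_lit 378) (nat_lit 352) (nat_lit 290)))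 (XT.nd (nat_lit 78) (nat_lit 228) (nat_lit 0) (XT.lf (nat_lit 0) (nat_lit 3273771604) (nat_lit 152) (nat_lit 21999916269) (nat_lit 228) (nat_lit 8532383251) (nat_lit 217) (nat_lit 5) (nat_lit 219) (nat_lit 5) (nat_lit 220) (nat_lit 5) (nat_lit 379) (nat_lit 352) (nat_lit 289)) (XT.lf (nat_lit 0) (nat_lit 3570607798) (nat_lit 152) (nat_lit 2271617179) (nat_lit 228) (nat_lit 29640131143) (nat_lit 214) (nat_lit 5) (nat_lit 216) (nat_lit 5) (nat_lit 217) (nat_lit 5) (nat_lit 380) (nat_lit 352) (nat_lit 288))))) (XT.nd (nat_lit 312) (nat_lit 836) (nat_lit 0) (XT.nd (nat_lit 156) (nat_lit 228) (nat_lit 0) (XT.nd (nat_lit 78) (nat_lit 152) (nat_lit 0) (XT.lf (nat_lit 0) (nat_lit 3857715489) (nat_lit 152) (nat_lit 18088138878) (nat_lit 228) (nat_lit 15295996509) (nat_lit 212) (nat_lit 5) (nat_lit 214) (nat_lit 5) (nat_lit 215) (nat_lit 5) (nat_lit 381) (nat_lit 352) (nat_lit 287)) (XT.lf (nat_lit 0)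 (nat_lit 899021537) (nat_lit 152) (nat_lit 34598661311) (nat_lit 76) (nat_lit 3608788855) (nat_lit 210) (nat_lit 5) (nat_lit 212) (nat_lit 5) (nat_lit 211) (nat_lit 5) (nat_lit 382) (nat_lit 352) (nat_lit 286))) (XT.nd (nat_lit 78) (nat_lit 76) (nat_lit 0) (XT.lf (nat_lit 0) (nat_lit 5082393724) (nat_lit 152) (nat_lit 13731550354) (nat_lit 228) (nat_lit 22245770402) (nat_lit 208) (nat_lit 5) (nat_lit 210) (nat_lit 5) (nat_lit 211) (nat_lit 5) (nat_lit 383) (nat_lit 352) (nat_lit 285)) (XT.lf (nat_lit 0) (nat_lit 6025754621) (nat_lit 76) (nat_lit 32974001943) (nat_lit 152) (nat_lit 4127575309) (nat_lit 207) (nat_lit 5) (nat_lit 208) (nat_lit 5) (nat_lit 209) (nat_lit 4) (nat_lit 384) (nat_lit 352) (nat_lit 284)))) (XT.nd (nat_lit 156) (nat_lit 532) (nat_lit 0) (XT.nd (nat_lit 78) (nat_lit 76) (nat_lit 0) (XT.lf (nat_lit 0) (nat_lit 7049592149) (nat_lit 152) (nat_lit 8853984337) (nat_lit 228) (nat_lit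 29396845032) (nat_lit 204) (nat_lit 5) (nat_lit 206) (nat_lit 5) (nat_lit 207) (nat_lit 5) (nat_lit 385) (nat_lit 352) (nat_lit 283)) (XT.lf (nat_lit 0) (nat_lit 8323386702) (nat_lit 76) (nat_lit 30106287579) (nat_lit 152) (nat_lit 9162447595) (nat_lit 203) (nat_lit 5) (nat_lit 204) (nat_lit 5) (nat_lit 205) (nat_lit 4) (nat_lit 386) (nat_lit 352) (nat_lit 282))) (XT.nd (nat_lit 78) (nat_lit 304) (nat_lit 0) (XT.lf (nat_lit 0) (nat_lit 9877321892) (nat_lit 152) (nat_lit 3368385521) (nat_lit 228) (nat_lit 36763484606) (nat_lit 200) (nat_lit 5) (nat_lit 202) (nat_lit 5) (nat_lit 203) (nat_lit 5) (nat_lit 387) (nat_lit 352) (nat_lit 281)) (XT.nd (nat_lit 78) (nat_lit 228) (nat_lit 0) (XT.lf (nat_lit 0) (nat_lit 11542166459) (nat_lit 76) (nat_lit 26842461530) (nat_lit 152) (nat_lit 14164533546) (nat_lit 199) (nat_lit 5) (nat_lit 200) (nat_lit 5) (nat_lit 201) (nat_lit 4) (nat_lit 388) (nat_lit 352)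 (nat_lit 280)) (XT.lf (nat_lit 0) (nat_lit 10921559642) (nat_lit 228) (nat_lit 41578330508) (nat_lit 76) (nat_lit 2734090652) (nat_lit 196) (nat_lit 5) (nat_lit 199) (nat_lit 5) (nat_lit 197) (nat_lit 4) (nat_lit 389) (nat_lit 352) (nat_lit 279))))))))
noncomputable def xc127 : XT := (XT.nd (nat_lit 1248) (nat_lit 1976) (nat_lit 0) (XT.nd (nat_lit 624) (nat_lit 912) (nat_lit 0) (XT.nd (nat_lit 312) (nat_lit 456) (nat_lit 0) (XT.nd (nat_lit 156) (nat_lit 228) (nat_lit 0) (XT.nd (nat_lit 78) (nat_lit 228) (nat_lit 0) (XT.lf (nat_lit 0) (nat_lit 15827791877) (nat_lit 76) (nat_lit 23105178282) (nat_lit 152) (nat_lit 19118270871) (nat_lit 195) (nat_lit 5) (nat_lit 196) (nat_lit 5) (nat_lit 197) (nat_lit 4) (nat_lit 390) (nat_lit 352) (nat_lit 278)) (XT.lf (nat_lit 0) (nat_lit 8996658542) (nat_lit 228) (nat_lit 42509980394) (nat_lit 76) (nat_lit 9522715519) (nat_lit 192) (nat_lit 5) (nat_lit 195) (nat_lit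 5) (nat_lit 193) (nat_lit 4) (nat_lit 391) (nat_lit 352) (nat_lit 277))) (XT.nd (nat_lit 78) (nat_lit 152) (nat_lit 0) (XT.lf (nat_lit 0) (nat_lit 21348006865) (nat_lit 76) (nat_lit 18805767661) (nat_lit 152) (nat_lit 24003131550) (nat_lit 191) (nat_lit 5) (nat_lit 192) (nat_lit 5) (nat_lit 193) (nat_lit 4) (nat_lit 392) (nat_lit 352) (nat_lit 276)) (XT.lf (nat_lit 0) (nat_lit 7472801646) (nat_lit 152) (nat_lit 42757220377) (nat_lit 76) (nat_lit 17229513910) (nat_lit 189) (nat_lit 5) (nat_lit 191) (nat_lit 5) (nat_lit 190) (nat_lit 4) (nat_lit 393) (nat_lit 352) (nat_lit 275)))) (XT.nd (nat_lit 156) (nat_lit 228) (nat_lit 0) (XT.nd (nat_lit 78) (nat_lit 152) (nat_lit 0) (XT.lf (nat_lit 0) (nat_lit 28295531465) (nat_lit 76) (nat_lit 13842765348) (nat_lit 152) (nat_lit 28792782661) (nat_lit 188) (nat_lit 5) (nat_lit 189) (nat_lit 5) (nat_lit 190) (nat_lit 4) (nat_lit 394) (nat_lit 352) (nat_lit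 274)) (XT.lf (nat_lit 0) (nat_lit 6413991423) (nat_lit 152) (nat_lit 42183353221) (nat_lit 76) (nat_lit 25995477765) (nat_lit 186) (nat_lit 5) (nat_lit 188) (nat_lit 5) (nat_lit 187) (nat_lit 4) (nat_lit 395) (nat_lit 352) (nat_lit 273))) (XT.nd (nat_lit 78) (nat_lit 152) (nat_lit 0) (XT.lf (nat_lit 0) (nat_lit 36891381737) (nat_lit 76) (nat_lit 8100236847) (nat_lit 152) (nat_lit 33454132053) (nat_lit 185) (nat_lit 5) (nat_lit 186) (nat_lit 5) (nat_lit 187) (nat_lit 4) (nat_lit 396) (nat_lit 352) (nat_lit 272)) (XT.lf (nat_lit 0) (nat_lit 5895222760) (nat_lit 152) (nat_lit 40629213085) (nat_lit 76) (nat_lit 35980503891) (nat_lit 183) (nat_lit 5) (nat_lit 185) (nat_lit 5) (nat_lit 184) (nat_lit 4) (nat_lit 397) (nat_lit 352) (nat_lit 271))))) (XT.nd (nat_lit 312) (nat_lit 456) (nat_lit 0) (XT.nd (nat_lit 156) (nat_lit 228) (nat_lit 0) (XT.nd (nat_lit 78) (nat_lit 152) (nat_lit 0) (XT.lf (nat_lit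 0) (nat_lit 47388626720) (nat_lit 76) (nat_lit 1445871951) (nat_lit 152) (nat_lit 37946241747) (nat_lit 182) (nat_lit 5) (nat_lit 183) (nat_lit 5) (nat_lit 184) (nat_lit 4) (nat_lit 398) (nat_lit 352) (nat_lit 270)) (XT.lf (nat_lit 0) (nat_lit 6004041029) (nat_lit 152) (nat_lit 37910004260) (nat_lit 76) (nat_lit 47365801217) (nat_lit 180) (nat_lit 5) (nat_lit 182) (nat_lit 5) (nat_lit 181) (nat_lit 4) (nat_lit 399) (nat_lit 352) (nat_lit 269))) (XT.nd (nat_lit 78) (nat_lit 152) (nat_lit 0) (XT.lf (nat_lit 0) (nat_lit 53903370042) (nat_lit 152) (nat_lit 36045824029) (nat_lit 0) (nat_lit 6070459781) (nat_lit 179) (nat_lit 5) (nat_lit 181) (nat_lit 4) (nat_lit 179) (nat_lit 4) (nat_lit 400) (nat_lit 352) (nat_lit 268)) (XT.lf (nat_lit 0) (nat_lit 6842305082) (nat_lit 152) (nat_lit 33811711649) (nat_lit 76) (nat_lit 60356609018) (nat_lit 177) (nat_lit 5) (nat_lit 179) (nat_lit 5) (nat_lit 178) (nat_lit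 4) (nat_lit 401) (nat_lit 352) (nat_lit 267)))) (XT.nd (nat_lit 156) (nat_lit 228) (nat_lit 0) (XT.nd (nat_lit 78) (nat_lit 152) (nat_lit 0) (XT.lf (nat_lit 0) (nat_lit 60300807517) (nat_lit 152) (nat_lit 31227090014) (nat_lit 0) (nat_lit 14735517531) (nat_lit 176) (nat_lit 5) (nat_lit 178) (nat_lit 4) (nat_lit 176) (nat_lit 4) (nat_lit 402) (nat_lit 352) (nat_lit 266)) (XT.lf (nat_lit 0) (nat_lit 8528182316) (nat_lit 152) (nat_lit 28087028950) (nat_lit 76) (nat_lit 75185262501) (nat_lit 174) (nat_lit 5) (nat_lit 176) (nat_lit 5) (nat_lit 175) (nat_lit 4) (nat_lit 403) (nat_lit 352) (nat_lit 265))) (XT.nd (nat_lit 78) (nat_lit 152) (nat_lit 0) (XT.lf (nat_lit 0) (nat_lit 68188692709) (nat_lit 152) (nat_lit 24648190879) (nat_lit 0) (nat_lit 24784901150) (nat_lit 173) (nat_lit 5) (nat_lit 175) (nat_lit 4) (nat_lit 173) (nat_lit 4) (nat_lit 404) (nat_lit 352) (nat_lit 264)) (XT.lf (nat_lit 0) (nat_lit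 11198406168) (nat_lit 152) (nat_lit 20450743601) (nat_lit 76) (nat_lit 92114646859) (nat_lit 171) (nat_lit 5) (nat_lit 173) (nat_lit 5) (nat_lit 172) (nat_lit 4) (nat_lit 405) (nat_lit 352) (nat_lit 263)))))) (XT.nd (nat_lit 624) (nat_lit 988) (nat_lit 0) (XT.nd (nat_lit 312) (nat_lit 456) (nat_lit 0) (XT.nd (nat_lit 156) (nat_lit 304) (nat_lit 0) (XT.nd (nat_lit 78) (nat_lit 152) (nat_lit 0) (XT.lf (nat_lit 0) (nat_lit 77777652996) (nat_lit 152) (nat_lit 16003591229) (nat_lit 0) (nat_lit 36433950142) (nat_lit 170) (nat_lit 5) (nat_lit 172) (nat_lit 4) (nat_lit 170) (nat_lit 4) (nat_lit 406) (nat_lit 352) (nat_lit 262)) (XT.lf (nat_lit 0) (nat_lit 15010830063) (nat_lit 152) (nat_lit 10574509821) (nat_lit 76) (nat_lit 111442086139) (nat_lit 168) (nat_lit 5) (nat_lit 170) (nat_lit 5) (nat_lit 169) (nat_lit 4) (nat_lit 407) (nat_lit 352) (nat_lit 261))) (XT.nd (nat_lit 78) (nat_lit 228) (nat_lit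 0) (XT.lf (nat_lit 0) (nat_lit 89307908622) (nat_lit 152) (nat_lit 4941811219) (nat_lit 0) (nat_lit 49927435108) (nat_lit 167) (nat_lit 5) (nat_lit 169) (nat_lit 4) (nat_lit 167) (nat_lit 4) (nat_lit 408) (nat_lit 352) (nat_lit 260)) (XT.lf (nat_lit 0) (nat_lit 1982520614) (nat_lit 76) (nat_lit 18195748013) (nat_lit 152) (nat_lit 131552151144) (nat_lit 164) (nat_lit 5) (nat_lit 165) (nat_lit 5) (nat_lit 166) (nat_lit 4) (nat_lit 409) (nat_lit 352) (nat_lit 259)))) (XT.nd (nat_lit 156) (nat_lit 228) (nat_lit 0) (XT.nd (nat_lit 78) (nat_lit 152) (nat_lit 0) (XT.lf (nat_lit 0) (nat_lit 9236485168) (nat_lit 76) (nat_lit 93960849742) (nat_lit 76) (nat_lit 56451131014) (nat_lit 163) (nat_lit 4) (nat_lit 164) (nat_lit 5) (nat_lit 164) (nat_lit 4) (nat_lit 410) (nat_lit 352) (nat_lit 258)) (XT.lf (nat_lit 0) (nat_lit 18040535374) (nat_lit 76) (nat_lit 9058127999) (nat_lit 152) (nat_lit 140920548310)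 (nat_lit 161) (nat_lit 5) (nat_lit 162) (nat_lit 5) (nat_lit 163) (nat_lit 4) (nat_lit 411) (nat_lit 352) (nat_lit 257))) (XT.nd (nat_lit 78) (nat_lit 152) (nat_lit 0) (XT.lf (nat_lit 0) (nat_lit 26970704558) (nat_lit 76) (nat_lit 92775151254) (nat_lit 76) (nat_lit 57047930515) (nat_lit 160) (nat_lit 4) (nat_lit 161) (nat_lit 5) (nat_lit 161) (nat_lit 4) (nat_lit 412) (nat_lit 352) (nat_lit 256)) (XT.lf (nat_lit 0) (nat_lit 35879436985) (nat_lit 152) (nat_lit 148341846215) (nat_lit 0) (nat_lit 1851952688) (nat_lit 158) (nat_lit 5) (nat_lit 160) (nat_lit 4) (nat_lit 158) (nat_lit 4) (nat_lit 413) (nat_lit 352) (nat_lit 255))))) (XT.nd (nat_lit 312) (nat_lit 532) (nat_lit 0) (XT.nd (nat_lit 156) (nat_lit 228) (nat_lit 0) (XT.nd (nat_lit 78) (nat_lit 152) (nat_lit 0) (XT.lf (nat_lit 0) (nat_lit 48645414572) (nat_lit 76) (nat_lit 90591043741) (nat_lit 76) (nat_lit 56562115200) (nat_lit 157) (nat_lit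 4) (nat_lit 158) (nat_lit 5) (nat_lit 158) (nat_lit 4) (nat_lit 414) (nat_lit 352) (nat_lit 254)) (XT.lf (nat_lit 0) (nat_lit 46949901145) (nat_lit 152) (nat_lit 144586327435) (nat_lit 0) (nat_lit 14540124189) (nat_lit 155) (nat_lit 5) (nat_lit 157) (nat_lit 4) (nat_lit 155) (nat_lit 4) (nat_lit 415) (nat_lit 352) (nat_lit 253))) (XT.nd (nat_lit 78) (nat_lit 152) (nat_lit 0) (XT.lf (nat_lit 0) (nat_lit 74887565328) (nat_lit 76) (nat_lit 87193690474) (nat_lit 76) (nat_lit 54782734274) (nat_lit 154) (nat_lit 4) (nat_lit 155) (nat_lit 5) (nat_lit 155) (nat_lit 4) (nat_lit 416) (nat_lit 352) (nat_lit 252)) (XT.lf (nat_lit 0) (nat_lit 60499596257) (nat_lit 152) (nat_lit 138116629960) (nat_lit 0) (nat_lit 29630979026) (nat_lit 152) (nat_lit 5) (nat_lit 154) (nat_lit 4) (nat_lit 152) (nat_lit 4) (nat_lit 417) (nat_lit 352) (nat_lit 251)))) (XT.nd (nat_lit 156) (nat_lit 304) (nat_lit 0) (XT.nd (nat_lit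 78) (nat_lit 152) (nat_lit 0) (XT.lf (nat_lit 0) (nat_lit 106413683244) (nat_lit 76) (nat_lit 82334461507) (nat_lit 76) (nat_lit 51464881407) (nat_lit 151) (nat_lit 4) (nat_lit 152) (nat_lit 5) (nat_lit 152) (nat_lit 4) (nat_lit 418) (nat_lit 352) (nat_lit 250)) (XT.lf (nat_lit 0) (nat_lit 76906902358) (nat_lit 152) (nat_lit 128406958023) (nat_lit 0) (nat_lit 47506453172) (nat_lit 149) (nat_lit 5) (nat_lit 151) (nat_lit 4) (nat_lit 149) (nat_lit 4) (nat_lit 419) (nat_lit 352) (nat_lit 249))) (XT.nd (nat_lit 78) (nat_lit 228) (nat_lit 0) (XT.lf (nat_lit 0) (nat_lit 144041828239) (nat_lit 76) (nat_lit 75726137972) (nat_lit 76) (nat_lit 46324902592) (nat_lit 148) (nat_lit 4) (nat_lit 149) (nat_lit 5) (nat_lit 149) (nat_lit 4) (nat_lit 420) (nat_lit 352) (nat_lit 248)) (XT.nd (nat_lit 78) (nat_lit 76) (nat_lit 0) (XT.lf (nat_lit 0) (nat_lit 96603918031) (nat_lit 152) (nat_lit 114849670484) (nat_lit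 0) (nat_lit 68602048185) (nat_lit 146) (nat_lit 5) (nat_lit 148) (nat_lit 4) (nat_lit 146) (nat_lit 4) (nat_lit 421) (nat_lit 352) (nat_lit 247)) (XT.lf (nat_lit 0) (nat_lit 188705086293) (nat_lit 76) (nat_lit 67037477191) (nat_lit 76) (nat_lit 39034965407) (nat_lit 145) (nat_lit 4) (nat_lit 146) (nat_lit 5) (nat_lit 146) (nat_lit 4) (nat_lit 422) (nat_lit 352) (nat_lit 246))))))))
noncomputable def xc128 : XT := (XT.nd (nat_lit 1248) (nat_lit 912) (nat_lit 0) (XT.nd (nat_lit 624) (nat_lit 912) (nat_lit 0) (XT.nd (nat_lit 312) (nat_lit 608) (nat_lit 0) (XT.nd (nat_lit 156) (nat_lit 228) (nat_lit 0) (XT.nd (nat_lit 78) (nat_lit 76) (nat_lit 0) (XT.lf (nat_lit 0) (nat_lit 120083569814) (nat_lit 152) (nat_lit 96743818698) (nat_lit 0) (nat_lit 93413944889) (nat_lit 143) (nat_lit 5) (nat_lit 145) (nat_lit 4) (nat_lit 143) (nat_lit 4) (nat_lit 423) (nat_lit 352) (nat_lit 245)) (XT.lf (nat_lit 0) (nat_lit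 241466788879) (nat_lit 76) (nat_lit 55887056972) (nat_lit 76) (nat_lit 29216907895) (nat_lit 142) (nat_lit 4) (nat_lit 143) (nat_lit 5) (nat_lit 143) (nat_lit 4) (nat_lit 424) (nat_lit 352) (nat_lit 244))) (XT.nd (nat_lit 78) (nat_lit 76) (nat_lit 0) (XT.lf (nat_lit 0) (nat_lit 147907630070) (nat_lit 152) (nat_lit 73282167233) (nat_lit 0) (nat_lit 122507025878) (nat_lit 140) (nat_lit 5) (nat_lit 142) (nat_lit 4) (nat_lit 140) (nat_lit 4) (nat_lit 425) (nat_lit 352) (nat_lit 243)) (XT.lf (nat_lit 0) (nat_lit 303537674201) (nat_lit 76) (nat_lit 41836307214) (nat_lit 76) (nat_lit 16435275046) (nat_lit 139) (nat_lit 4) (nat_lit 140) (nat_lit 5) (nat_lit 140) (nat_lit 4) (nat_lit 426) (nat_lit 352) (nat_lit 242)))) (XT.nd (nat_lit 156) (nat_lit 380) (nat_lit 0) (XT.nd (nat_lit 78) (nat_lit 76) (nat_lit 0) (XT.lf (nat_lit 0) (nat_lit 180715756355) (nat_lit 152) (nat_lit 43536504128) (nat_lit 0) (nat_lit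 156523919743) (nat_lit 137) (nat_lit 5) (nat_lit 139) (nat_lit 4) (nat_lit 137) (nat_lit 4) (nat_lit 427) (nat_lit 352) (nat_lit 241)) (XT.lf (nat_lit 0) (nat_lit 376295231447) (nat_lit 76) (nat_lit 24381625518) (nat_lit 76) (nat_lit 189439458) (nat_lit 136) (nat_lit 4) (nat_lit 137) (nat_lit 5) (nat_lit 137) (nat_lit 4) (nat_lit 428) (nat_lit 352) (nat_lit 240))) (XT.nd (nat_lit 78) (nat_lit 228) (nat_lit 0) (XT.lf (nat_lit 0) (nat_lit 219235679101) (nat_lit 152) (nat_lit 6441023386) (nat_lit 0) (nat_lit 196195193745) (nat_lit 134) (nat_lit 5) (nat_lit 136) (nat_lit 4) (nat_lit 134) (nat_lit 4) (nat_lit 429) (nat_lit 352) (nat_lit 239)) (XT.lf (nat_lit 0) (nat_lit 17392782973) (nat_lit 76) (nat_lit 2330901737) (nat_lit 152) (nat_lit 424402699867) (nat_lit 131) (nat_lit 5) (nat_lit 132) (nat_lit 5) (nat_lit 133) (nat_lit 4) (nat_lit 430) (nat_lit 352) (nat_lit 238))))) (XT.nd (nat_lit 312) (nat_lit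 456) (nat_lit 0) (XT.nd (nat_lit 156) (nat_lit 228) (nat_lit 0) (XT.nd (nat_lit 78) (nat_lit 152) (nat_lit 0) (XT.lf (nat_lit 0) (nat_lit 40523468645) (nat_lit 76) (nat_lit 224403896112) (nat_lit 76) (nat_lit 202460053371) (nat_lit 130) (nat_lit 4) (nat_lit 131) (nat_lit 5) (nat_lit 131) (nat_lit 4) (nat_lit 431) (nat_lit 352) (nat_lit 237)) (XT.lf (nat_lit 0) (nat_lit 45114476042) (nat_lit 152) (nat_lit 422697016532) (nat_lit 0) (nat_lit 24215356313) (nat_lit 128) (nat_lit 5) (nat_lit 130) (nat_lit 4) (nat_lit 128) (nat_lit 4) (nat_lit 432) (nat_lit 352) (nat_lit 236))) (XT.nd (nat_lit 78) (nat_lit 152) (nat_lit 0) (XT.lf (nat_lit 0) (nat_lit 98002459767) (nat_lit 76) (nat_lit 220360152854) (nat_lit 76) (nat_lit 199460827679) (nat_lit 127) (nat_lit 4) (nat_lit 128) (nat_lit 5) (nat_lit 128) (nat_lit 4) (nat_lit 433) (nat_lit 352) (nat_lit 235)) (XT.lf (nat_lit 0) (nat_lit 76081564180) (nat_lit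 152) (nat_lit 412848797655) (nat_lit 0) (nat_lit 56177263797) (nat_lit 125) (nat_lit 5) (nat_lit 127) (nat_lit 4) (nat_lit 125) (nat_lit 4) (nat_lit 434) (nat_lit 352) (nat_lit 234)))) (XT.nd (nat_lit 156) (nat_lit 228) (nat_lit 0) (XT.nd (nat_lit 78) (nat_lit 152) (nat_lit 0) (XT.lf (nat_lit 0) (nat_lit 167437350797) (nat_lit 76) (nat_lit 213092811553) (nat_lit 76) (nat_lit 193188343421) (nat_lit 124) (nat_lit 4) (nat_lit 125) (nat_lit 5) (nat_lit 125) (nat_lit 4) (nat_lit 435) (nat_lit 352) (nat_lit 233)) (XT.lf (nat_lit 0) (nat_lit 113465590109) (nat_lit 152) (nat_lit 395957075699) (nat_lit 0) (nat_lit 94508805867) (nat_lit 122) (nat_lit 5) (nat_lit 124) (nat_lit 4) (nat_lit 122) (nat_lit 4) (nat_lit 436) (nat_lit 352) (nat_lit 232))) (XT.nd (nat_lit 78) (nat_lit 152) (nat_lit 0) (XT.lf (nat_lit 0) (nat_lit 250718776899) (nat_lit 76) (nat_lit 201950976688) (nat_lit 76) (nat_lit 182994055476)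 (nat_lit 121) (nat_lit 4) (nat_lit 122) (nat_lit 5) (nat_lit 122) (nat_lit 4) (nat_lit 437) (nat_lit 352) (nat_lit 231)) (XT.lf (nat_lit 0) (nat_lit 158268514497) (nat_lit 152) (nat_lit 370637444313) (nat_lit 0) (nat_lit 140214183035) (nat_lit 119) (nat_lit 5) (nat_lit 121) (nat_lit 4) (nat_lit 119) (nat_lit 4) (nat_lit 438) (nat_lit 352) (nat_lit 230)))))) (XT.nd (nat_lit 46410) (nat_lit 0) (nat_lit 13680) (XT.nd (nat_lit 312) (nat_lit 456) (nat_lit 0) (XT.nd (nat_lit 156) (nat_lit 228) (nat_lit 0) (XT.nd (nat_lit 78) (nat_lit 152) (nat_lit 0) (XT.lf (nat_lit 0) (nat_lit 350005232189) (nat_lit 76) (nat_lit 186181941030) (nat_lit 76) (nat_lit 168127497731) (nat_lit 118) (nat_lit 4) (nat_lit 119) (nat_lit 5) (nat_lit 119) (nat_lit 4) (nat_lit 439) (nat_lit 352) (nat_lit 229)) (XT.lf (nat_lit 0) (nat_lit 211633879121) (nat_lit 152) (nat_lit 335289857770) (nat_lit 0) (nat_lit 194439072595) (nat_lit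 116) (nat_lit 5) (nat_lit 118) (nat_lit 4) (nat_lit 116) (nat_lit 4) (nat_lit 440) (nat_lit 352) (nat_lit 228))) (XT.nd (nat_lit 78) (nat_lit 152) (nat_lit 0) (XT.lf (nat_lit 0) (nat_lit 467758720654) (nat_lit 76) (nat_lit 164916839373) (nat_lit 76) (nat_lit 147721941531) (nat_lit 115) (nat_lit 4) (nat_lit 116) (nat_lit 5) (nat_lit 116) (nat_lit 4) (nat_lit 441) (nat_lit 352) (nat_lit 227)) (XT.lf (nat_lit 0) (nat_lit 274865595374) (nat_lit 152) (nat_lit 288068367733) (nat_lit 0) (nat_lit 258489421665) (nat_lit 113) (nat_lit 5) (nat_lit 115) (nat_lit 4) (nat_lit 113) (nat_lit 4) (nat_lit 442) (nat_lit 352) (nat_lit 226)))) (XT.nd (nat_lit 156) (nat_lit 228) (nat_lit 0) (XT.nd (nat_lit 78) (nat_lit 152) (nat_lit 0) (XT.lf (nat_lit 0) (nat_lit 606784970605) (nat_lit 76) (nat_lit 137154399082) (nat_lit 76) (nat_lit 120778150812) (nat_lit 112) (nat_lit 4) (nat_lit 113) (nat_lit 5) (nat_lit 113) (nat_lit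 4) (nat_lit 443) (nat_lit 352) (nat_lit 225)) (XT.lf (nat_lit 0) (nat_lit 349449134186) (nat_lit 152) (nat_lit 226846852717) (nat_lit 0) (nat_lit 333852641512) (nat_lit 110) (nat_lit 5) (nat_lit 112) (nat_lit 4) (nat_lit 110) (nat_lit 4) (nat_lit 444) (nat_lit 352) (nat_lit 224))) (XT.nd (nat_lit 78) (nat_lit 152) (nat_lit 0) (XT.lf (nat_lit 0) (nat_lit 770278781168) (nat_lit 76) (nat_lit 101742544392) (nat_lit 76) (nat_lit 86145990838) (nat_lit 109) (nat_lit 4) (nat_lit 110) (nat_lit 5) (nat_lit 110) (nat_lit 4) (nat_lit 445) (nat_lit 352) (nat_lit 223)) (XT.lf (nat_lit 0) (nat_lit 437075416182) (nat_lit 152) (nat_lit 149180229168) (nat_lit 0) (nat_lit 422221501967) (nat_lit 107) (nat_lit 5) (nat_lit 109) (nat_lit 4) (nat_lit 107) (nat_lit 4) (nat_lit 446) (nat_lit 352) (nat_lit 222))))) (XT.nd (nat_lit 312) (nat_lit 532) (nat_lit 0) (XT.nd (nat_lit 156) (nat_lit 684) (nat_lit 0) (XT.nd (nat_lit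 78) (nat_lit 0) (nat_lit 0) (XT.lf (nat_lit 0) (nat_lit 2306921950) (nat_lit 0) (nat_lit 2306921950) (nat_lit 684) (nat_lit 1084929498) (nat_lit 303) (nat_lit 5) (nat_lit 303) (nat_lit 3) (nat_lit 312) (nat_lit 3) (nat_lit 353) (nat_lit 353) (nat_lit 314)) (XT.lf (nat_lit 76) (nat_lit 2356728493) (nat_lit 0) (nat_lit 8153365042) (nat_lit 760) (nat_lit 1297690223) (nat_lit 304) (nat_lit 5) (nat_lit 303) (nat_lit 5) (nat_lit 313) (nat_lit 5) (nat_lit 354) (nat_lit 353) (nat_lit 313))) (XT.nd (nat_lit 78) (nat_lit 760) (nat_lit 0) (XT.lf (nat_lit 76) (nat_lit 95727175) (nat_lit 0) (nat_lit 11918851828) (nat_lit 760) (nat_lit 230286309) (nat_lit 305) (nat_lit 5) (nat_lit 304) (nat_lit 5) (nat_lit 314) (nat_lit 5) (nat_lit 355) (nat_lit 353) (nat_lit 312)) (XT.lf (nat_lit 0) (nat_lit 1120393629) (nat_lit 760) (nat_lit 2171635094) (nat_lit 836) (nat_lit 9412794030) (nat_lit 294) (nat_lit 5) (nat_lit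 304) (nat_lit 5) (nat_lit 305) (nat_lit 5) (nat_lit 356) (nat_lit 353) (nat_lit 311)))) (XT.nd (nat_lit 156) (nat_lit 608) (nat_lit 0) (XT.nd (nat_lit 78) (nat_lit 0) (nat_lit 76) (XT.lf (nat_lit 0) (nat_lit 2734191042) (nat_lit 760) (nat_lit 4460131981) (nat_lit 836) (nat_lit 5998908445) (nat_lit 295) (nat_lit 5) (nat_lit 305) (nat_lit 5) (nat_lit 306) (nat_lit 5) (nat_lit 357) (nat_lit 353) (nat_lit 310)) (XT.lf (nat_lit 0) (nat_lit 4650430119) (nat_lit 760) (nat_lit 6764366721) (nat_lit 836) (nat_lit 2297249150) (nat_lit 296) (nat_lit 5) (nat_lit 306) (nat_lit 5) (nat_lit 307) (nat_lit 5) (nat_lit 358) (nat_lit 353) (nat_lit 309))) (XT.nd (nat_lit 78) (nat_lit 684) (nat_lit 0) (XT.lf (nat_lit 76) (nat_lit 5150123302) (nat_lit 0) (nat_lit 1788208271) (nat_lit 836) (nat_lit 7323115937) (nat_lit 297) (nat_lit 5) (nat_lit 296) (nat_lit 5) (nat_lit 307) (nat_lit 5) (nat_lit 359) (nat_lit 353) (nat_lit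 308)) (XT.lf (nat_lit 0) (nat_lit 3328731824) (nat_lit 760) (nat_lit 6328354159) (nat_lit 836) (nat_lit 5185324126) (nat_lit 287) (nat_lit 5) (nat_lit 297) (nat_lit 5) (nat_lit 298) (nat_lit 5) (nat_lit 360) (nat_lit 353) (nat_lit 307)))))))
noncomputable def xc129 : XT := (XT.nd (nat_lit 1248) (nat_lit 2660) (nat_lit 0) (XT.nd (nat_lit 624) (nat_lit 2052) (nat_lit 0) (XT.nd (nat_lit 312) (nat_lit 1292) (nat_lit 0) (XT.nd (nat_lit 156) (nat_lit 760) (nat_lit 0) (XT.nd (nat_lit 78) (nat_lit 76) (nat_lit 0) (XT.lf (nat_lit 0) (nat_lit 1527440613) (nat_lit 456) (nat_lit 11290204626) (nat_lit 532) (nat_lit 2640989253) (nat_lit 281) (nat_lit 5) (nat_lit 287) (nat_lit 5) (nat_lit 288) (nat_lit 5) (nat_lit 361) (nat_lit 353) (nat_lit 306)) (XT.lf (nat_lit 0) (nat_lit 361761752) (nat_lit 532) (nat_lit 254696694) (nat_lit 76) (nat_lit 15494700407) (nat_lit 280) (nat_lit 5) (nat_lit 287) (nat_lit 5) (nat_lit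 281) (nat_lit 5) (nat_lit 362) (nat_lit 353) (nat_lit 305))) (XT.nd (nat_lit 78) (nat_lit 380) (nat_lit 0) (XT.lf (nat_lit 0) (nat_lit 3872585749) (nat_lit 456) (nat_lit 2079118599) (nat_lit 76) (nat_lit 10843997054) (nat_lit 275) (nat_lit 5) (nat_lit 281) (nat_lit 5) (nat_lit 276) (nat_lit 5) (nat_lit 363) (nat_lit 353) (nat_lit 304)) (XT.lf (nat_lit 0) (nat_lit 7940183434) (nat_lit 456) (nat_lit 3876849973) (nat_lit 76) (nat_lit 5704178559) (nat_lit 270) (nat_lit 5) (nat_lit 276) (nat_lit 5) (nat_lit 271) (nat_lit 5) (nat_lit 364) (nat_lit 353) (nat_lit 303)))) (XT.nd (nat_lit 156) (nat_lit 684) (nat_lit 0) (XT.nd (nat_lit 78) (nat_lit 304) (nat_lit 0) (XT.lf (nat_lit 0) (nat_lit 12625403717) (nat_lit 380) (nat_lit 5637812879) (nat_lit 76) (nat_lit 26936040) (nat_lit 266) (nat_lit 5) (nat_lit 271) (nat_lit 5) (nat_lit 267) (nat_lit 5) (nat_lit 365) (nat_lit 353) (nat_lit 302)) (XT.lf (nat_lit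 0) (nat_lit 11649492125) (nat_lit 304) (nat_lit 6445165648) (nat_lit 380) (nat_lit 1005489979) (nat_lit 262) (nat_lit 5) (nat_lit 266) (nat_lit 5) (nat_lit 267) (nat_lit 5) (nat_lit 366) (nat_lit 353) (nat_lit 301))) (XT.nd (nat_lit 78) (nat_lit 304) (nat_lit 0) (XT.lf (nat_lit 0) (nat_lit 4230870804) (nat_lit 380) (nat_lit 9279779190) (nat_lit 76) (nat_lit 6444487499) (nat_lit 257) (nat_lit 5) (nat_lit 262) (nat_lit 5) (nat_lit 258) (nat_lit 5) (nat_lit 367) (nat_lit 353) (nat_lit 300)) (XT.lf (nat_lit 0) (nat_lit 9783944011) (nat_lit 304) (nat_lit 423926300) (nat_lit 380) (nat_lit 10651984063) (nat_lit 253) (nat_lit 5) (nat_lit 257) (nat_lit 5) (nat_lit 258) (nat_lit 5) (nat_lit 368) (nat_lit 353) (nat_lit 299))))) (XT.nd (nat_lit 312) (nat_lit 988) (nat_lit 0) (XT.nd (nat_lit 156) (nat_lit 456) (nat_lit 0) (XT.nd (nat_lit 78) (nat_lit 380) (nat_lit 0) (XT.lf (nat_lit 0) (nat_lit 8896868642)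 (nat_lit 228) (nat_lit 8248425007) (nat_lit 304) (nat_lit 4667541764) (nat_lit 250) (nat_lit 5) (nat_lit 253) (nat_lit 5) (nat_lit 254) (nat_lit 5) (nat_lit 369) (nat_lit 353) (nat_lit 298)) (XT.lf (nat_lit 0) (nat_lit 2132355978) (nat_lit 380) (nat_lit 14712721881) (nat_lit 76) (nat_lit 5975866702) (nat_lit 245) (nat_lit 5) (nat_lit 250) (nat_lit 5) (nat_lit 246) (nat_lit 5) (nat_lit 370) (nat_lit 353) (nat_lit 297))) (XT.nd (nat_lit 78) (nat_lit 228) (nat_lit 0) (XT.lf (nat_lit 0) (nat_lit 7345768318) (nat_lit 228) (nat_lit 2419579294) (nat_lit 304) (nat_lit 14117897475) (nat_lit 242) (nat_lit 5) (nat_lit 245) (nat_lit 5) (nat_lit 246) (nat_lit 5) (nat_lit 371) (nat_lit 353) (nat_lit 296)) (XT.lf (nat_lit 0) (nat_lit 6634955922) (nat_lit 228) (nat_lit 11913060538) (nat_lit 304) (nat_lit 6455561300) (nat_lit 239) (nat_lit 5) (nat_lit 242) (nat_lit 5) (nat_lit 243) (nat_lit 5) (nat_lit 372) (nat_lit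 353) (nat_lit 295)))) (XT.nd (nat_lit 156) (nat_lit 456) (nat_lit 0) (XT.nd (nat_lit 78) (nat_lit 228) (nat_lit 0) (XT.lf (nat_lit 0) (nat_lit 2223444792) (nat_lit 304) (nat_lit 20122582915) (nat_lit 76) (nat_lit 3842992424) (nat_lit 235) (nat_lit 5) (nat_lit 239) (nat_lit 5) (nat_lit 236) (nat_lit 5) (nat_lit 373) (nat_lit 353) (nat_lit 294)) (XT.lf (nat_lit 0) (nat_lit 5476563869) (nat_lit 228) (nat_lit 6480589905) (nat_lit 304) (nat_lit 15477524981) (nat_lit 232) (nat_lit 5) (nat_lit 235) (nat_lit 5) (nat_lit 236) (nat_lit 5) (nat_lit 374) (nat_lit 353) (nat_lit 293))) (XT.nd (nat_lit 78) (nat_lit 304) (nat_lit 0) (XT.lf (nat_lit 0) (nat_lit 5026605890) (nat_lit 152) (nat_lit 18017196114) (nat_lit 228) (nat_lit 5707475940) (nat_lit 230) (nat_lit 5) (nat_lit 232) (nat_lit 5) (nat_lit 233) (nat_lit 5) (nat_lit 375) (nat_lit 353) (nat_lit 292)) (XT.lf (nat_lit 0) (nat_lit 4719029830) (nat_lit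 228) (nat_lit 515920576) (nat_lit 304) (nat_lit 24907182237) (nat_lit 226) (nat_lit 5) (nat_lit 229) (nat_lit 5) (nat_lit 230) (nat_lit 5) (nat_lit 376) (nat_lit 353) (nat_lit 291)))))) (XT.nd (nat_lit 624) (nat_lit 1292) (nat_lit 0) (XT.nd (nat_lit 312) (nat_lit 684) (nat_lit 0) (XT.nd (nat_lit 156) (nat_lit 380) (nat_lit 0) (XT.nd (nat_lit 78) (nat_lit 152) (nat_lit 0) (XT.lf (nat_lit 0) (nat_lit 4371494398) (nat_lit 152) (nat_lit 13234508345) (nat_lit 228) (nat_lit 13995915015) (nat_lit 224) (nat_lit 5) (nat_lit 226) (nat_lit 5) (nat_lit 227) (nat_lit 5) (nat_lit 377) (nat_lit 353) (nat_lit 290)) (XT.lf (nat_lit 0) (nat_lit 4296579420) (nat_lit 152) (nat_lit 27258989513) (nat_lit 228) (nat_lit 1593475267) (nat_lit 222) (nat_lit 5) (nat_lit 224) (nat_lit 5) (nat_lit 225) (nat_lit 5) (nat_lit 378) (nat_lit 353) (nat_lit 289))) (XT.nd (nat_lit 78) (nat_lit 152) (nat_lit 0) (XT.lf (nat_lit 0)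 (nat_lit 4202796779) (nat_lit 152) (nat_lit 7968528501) (nat_lit 228) (nat_lit 22602009195) (nat_lit 219) (nat_lit 5) (nat_lit 221) (nat_lit 5) (nat_lit 222) (nat_lit 5) (nat_lit 379) (nat_lit 353) (nat_lit 288)) (XT.lf (nat_lit 0) (nat_lit 4294189768) (nat_lit 152) (nat_lit 23444661563) (nat_lit 228) (nat_lit 8749542062) (nat_lit 217) (nat_lit 5) (nat_lit 219) (nat_lit 5) (nat_lit 220) (nat_lit 5) (nat_lit 380) (nat_lit 353) (nat_lit 287)))) (XT.nd (nat_lit 156) (nat_lit 304) (nat_lit 0) (XT.nd (nat_lit 78) (nat_lit 152) (nat_lit 0) (XT.lf (nat_lit 0) (nat_lit 4596057990) (nat_lit 152) (nat_lit 2142257512) (nat_lit 228) (nat_lit 31561193480) (nat_lit 214) (nat_lit 5) (nat_lit 216) (nat_lit 5) (nat_lit 217) (nat_lit 5) (nat_lit 381) (nat_lit 353) (nat_lit 286)) (XT.lf (nat_lit 0) (nat_lit 4889841588) (nat_lit 152) (nat_lit 19224430368) (nat_lit 228) (nat_lit 16086289528) (nat_lit 212) (nat_lit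 5) (nat_lit 214) (nat_lit 5) (nat_lit 215) (nat_lit 5) (nat_lit 382) (nat_lit 353) (nat_lit 285))) (XT.nd (nat_lit 78) (nat_lit 152) (nat_lit 0) (XT.lf (nat_lit 0) (nat_lit 1375171565) (nat_lit 152) (nat_lit 36646022946) (nat_lit 76) (nat_lit 4193583512) (nat_lit 210) (nat_lit 5) (nat_lit 212) (nat_lit 5) (nat_lit 211) (nat_lit 5) (nat_lit 383) (nat_lit 353) (nat_lit 284)) (XT.lf (nat_lit 0) (nat_lit 6178203080) (nat_lit 152) (nat_lit 14525902615) (nat_lit 228) (nat_lit 23621133639) (nat_lit 208) (nat_lit 5) (nat_lit 210) (nat_lit 5) (nat_lit 211) (nat_lit 5) (nat_lit 384) (nat_lit 353) (nat_lit 283))))) (XT.nd (nat_lit 312) (nat_lit 684) (nat_lit 0) (XT.nd (nat_lit 156) (nat_lit 304) (nat_lit 0) (XT.nd (nat_lit 78) (nat_lit 228) (nat_lit 0) (XT.lf (nat_lit 0) (nat_lit 7180953314) (nat_lit 76) (nat_lit 35310214706) (nat_lit 152) (nat_lit 4067778856) (nat_lit 207) (nat_lit 5) (nat_lit 208) (nat_lit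 5) (nat_lit 209) (nat_lit 4) (nat_lit 385) (nat_lit 353) (nat_lit 282)) (XT.lf (nat_lit 0) (nat_lit 8269384114) (nat_lit 152) (nat_lit 9266273272) (nat_lit 228) (nat_lit 31370808114) (nat_lit 204) (nat_lit 5) (nat_lit 206) (nat_lit 5) (nat_lit 207) (nat_lit 5) (nat_lit 386) (nat_lit 353) (nat_lit 281))) (XT.nd (nat_lit 78) (nat_lit 228) (nat_lit 0) (XT.lf (nat_lit 0) (nat_lit 9629367825) (nat_lit 76) (nat_lit 32222097124) (nat_lit 152) (nat_lit 9530655842) (nat_lit 203) (nat_lit 5) (nat_lit 204) (nat_lit 5) (nat_lit 205) (nat_lit 4) (nat_lit 387) (nat_lit 353) (nat_lit 280)) (XT.lf (nat_lit 0) (nat_lit 11290967500) (nat_lit 152) (nat_lit 3351086093) (nat_lit 228) (nat_lit 39351039309) (nat_lit 200) (nat_lit 5) (nat_lit 202) (nat_lit 5) (nat_lit 203) (nat_lit 5) (nat_lit 388) (nat_lit 353) (nat_lit 279)))) (XT.nd (nat_lit 156) (nat_lit 380) (nat_lit 0) (XT.nd (nat_lit 78) (nat_lit 228) (nat_lit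 0) (XT.lf (nat_lit 0) (nat_lit 13073724990) (nat_lit 76) (nat_lit 28707063968) (nat_lit 152) (nat_lit 14956035964) (nat_lit 199) (nat_lit 5) (nat_lit 200) (nat_lit 5) (nat_lit 201) (nat_lit 4) (nat_lit 389) (nat_lit 353) (nat_lit 278)) (XT.lf (nat_lit 0) (nat_lit 12115078100) (nat_lit 228) (nat_lit 44300929751) (nat_lit 76) (nat_lit 3220701730) (nat_lit 196) (nat_lit 5) (nat_lit 199) (nat_lit 5) (nat_lit 197) (nat_lit 4) (nat_lit 390) (nat_lit 353) (nat_lit 277))) (XT.nd (nat_lit 78) (nat_lit 304) (nat_lit 0) (XT.lf (nat_lit 0) (nat_lit 17671447783) (nat_lit 76) (nat_lit 24681280594) (nat_lit 152) (nat_lit 20327355904) (nat_lit 195) (nat_lit 5) (nat_lit 196) (nat_lit 5) (nat_lit 197) (nat_lit 4) (nat_lit 391) (nat_lit 353) (nat_lit 276)) (XT.nd (nat_lit 78) (nat_lit 76) (nat_lit 0) (XT.lf (nat_lit 0) (nat_lit 10016474875) (nat_lit 228) (nat_lit 45337992427) (nat_lit 76) (nat_lit 10542231327)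 (nat_lit 192) (nat_lit 5) (nat_lit 195) (nat_lit 5) (nat_lit 193) (nat_lit 4) (nat_lit 392) (nat_lit 353) (nat_lit 275)) (XT.lf (nat_lit 0) (nat_lit 23603741214) (nat_lit 76) (nat_lit 20048744664) (nat_lit 152) (nat_lit 25622652216) (nat_lit 191) (nat_lit 5) (nat_lit 192) (nat_lit 5) (nat_lit 193) (nat_lit 4) (nat_lit 393) (nat_lit 353) (nat_lit 274))))))))
noncomputable def xc130 : XT := (XT.nd (nat_lit 1248) (nat_lit 1900) (nat_lit 0) (XT.nd (nat_lit 624) (nat_lit 912) (nat_lit 0) (XT.nd (nat_lit 312) (nat_lit 456) (nat_lit 0) (XT.nd (nat_lit 156) (nat_lit 228) (nat_lit 0) (XT.nd (nat_lit 78) (nat_lit 76) (nat_lit 0) (XT.lf (nat_lit 0) (nat_lit 8352481108) (nat_lit 152) (nat_lit 45634602559) (nat_lit 76) (nat_lit 18855122374) (nat_lit 189) (nat_lit 5) (nat_lit 191) (nat_lit 5) (nat_lit 190) (nat_lit 4) (nat_lit 394) (nat_lit 353) (nat_lit 273)) (XT.lf (nat_lit 0) (nat_lit 31078762819) (nat_lit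 76) (nat_lit 14699687136) (nat_lit 152) (nat_lit 30813661408) (nat_lit 188) (nat_lit 5) (nat_lit 189) (nat_lit 5) (nat_lit 190) (nat_lit 4) (nat_lit 395) (nat_lit 353) (nat_lit 272))) (XT.nd (nat_lit 78) (nat_lit 76) (nat_lit 0) (XT.lf (nat_lit 0) (nat_lit 7192064543) (nat_lit 152) (nat_lit 45043124047) (nat_lit 76) (nat_lit 28311811921) (nat_lit 186) (nat_lit 5) (nat_lit 188) (nat_lit 5) (nat_lit 187) (nat_lit 4) (nat_lit 396) (nat_lit 353) (nat_lit 271)) (XT.lf (nat_lit 0) (nat_lit 40335212892) (nat_lit 76) (nat_lit 8508752403) (nat_lit 152) (nat_lit 35864794531) (nat_lit 185) (nat_lit 5) (nat_lit 186) (nat_lit 5) (nat_lit 187) (nat_lit 4) (nat_lit 397) (nat_lit 353) (nat_lit 270)))) (XT.nd (nat_lit 156) (nat_lit 228) (nat_lit 0) (XT.nd (nat_lit 78) (nat_lit 76) (nat_lit 0) (XT.lf (nat_lit 0) (nat_lit 6616086754) (nat_lit 152) (nat_lit 43391668400) (nat_lit 76) (nat_lit 39085117453) (nat_lit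 183) (nat_lit 5) (nat_lit 185) (nat_lit 5) (nat_lit 184) (nat_lit 4) (nat_lit 398) (nat_lit 353) (nat_lit 269)) (XT.lf (nat_lit 0) (nat_lit 51646395844) (nat_lit 76) (nat_lit 1332932381) (nat_lit 152) (nat_lit 40731967943) (nat_lit 182) (nat_lit 5) (nat_lit 183) (nat_lit 5) (nat_lit 184) (nat_lit 4) (nat_lit 399) (nat_lit 353) (nat_lit 268))) (XT.nd (nat_lit 78) (nat_lit 76) (nat_lit 0) (XT.lf (nat_lit 0) (nat_lit 6718982171) (nat_lit 152) (nat_lit 40480677334) (nat_lit 76) (nat_lit 51370843829) (nat_lit 180) (nat_lit 5) (nat_lit 182) (nat_lit 5) (nat_lit 181) (nat_lit 4) (nat_lit 400) (nat_lit 353) (nat_lit 267)) (XT.lf (nat_lit 0) (nat_lit 58443182030) (nat_lit 152) (nat_lit 38479641241) (nat_lit 0) (nat_lit 6767025770) (nat_lit 179) (nat_lit 5) (nat_lit 181) (nat_lit 4) (nat_lit 179) (nat_lit 4) (nat_lit 401) (nat_lit 353) (nat_lit 266))))) (XT.nd (nat_lit 312) (nat_lit 456) (nat_lit 0) (XT.nd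 (nat_lit 156) (nat_lit 228) (nat_lit 0) (XT.nd (nat_lit 78) (nat_lit 76) (nat_lit 0) (XT.lf (nat_lit 0) (nat_lit 7610659079) (nat_lit 152) (nat_lit 36079043495) (nat_lit 76) (nat_lit 65390724756) (nat_lit 177) (nat_lit 5) (nat_lit 179) (nat_lit 5) (nat_lit 178) (nat_lit 4) (nat_lit 402) (nat_lit 353) (nat_lit 265)) (XT.lf (nat_lit 0) (nat_lit 65339247795) (nat_lit 152) (nat_lit 33299351957) (nat_lit 0) (nat_lit 16115169730) (nat_lit 176) (nat_lit 5) (nat_lit 178) (nat_lit 4) (nat_lit 176) (nat_lit 4) (nat_lit 403) (nat_lit 353) (nat_lit 264))) (XT.nd (nat_lit 78) (nat_lit 76) (nat_lit 0) (XT.lf (nat_lit 0) (nat_lit 9418651795) (nat_lit 152) (nat_lit 29919710806) (nat_lit 76) (nat_lit 81395738321) (nat_lit 174) (nat_lit 5) (nat_lit 176) (nat_lit 5) (nat_lit 175) (nat_lit 4) (nat_lit 404) (nat_lit 353) (nat_lit 263)) (XT.lf (nat_lit 0) (nat_lit 73845847050) (nat_lit 152) (nat_lit 26216901257) (nat_lit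 0) (nat_lit 26958676264) (nat_lit 173) (nat_lit 5) (nat_lit 175) (nat_lit 4) (nat_lit 173) (nat_lit 4) (nat_lit 405) (nat_lit 353) (nat_lit 262)))) (XT.nd (nat_lit 156) (nat_lit 228) (nat_lit 0) (XT.nd (nat_lit 78) (nat_lit 76) (nat_lit 0) (XT.lf (nat_lit 0) (nat_lit 12290556716) (nat_lit 152) (nat_lit 21694688544) (nat_lit 76) (nat_lit 99669841197) (nat_lit 171) (nat_lit 5) (nat_lit 173) (nat_lit 5) (nat_lit 172) (nat_lit 4) (nat_lit 406) (nat_lit 353) (nat_lit 261)) (XT.lf (nat_lit 0) (nat_lit 84190387197) (nat_lit 152) (nat_lit 16902352128) (nat_lit 0) (nat_lit 39530144494) (nat_lit 170) (nat_lit 5) (nat_lit 172) (nat_lit 4) (nat_lit 170) (nat_lit 4) (nat_lit 407) (nat_lit 353) (nat_lit 260))) (XT.nd (nat_lit 78) (nat_lit 76) (nat_lit 0) (XT.lf (nat_lit 0) (nat_lit 16396788878) (nat_lit 152) (nat_lit 11049404889) (nat_lit 76) (nat_lit 120534171717) (nat_lit 168) (nat_lit 5) (nat_lit 170) (nat_lit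 5) (nat_lit 169) (nat_lit 4) (nat_lit 408) (nat_lit 353) (nat_lit 259)) (XT.lf (nat_lit 0) (nat_lit 96632244107) (nat_lit 152) (nat_lit 4976149621) (nat_lit 0) (nat_lit 54093948477) (nat_lit 167) (nat_lit 5) (nat_lit 169) (nat_lit 4) (nat_lit 167) (nat_lit 4) (nat_lit 409) (nat_lit 353) (nat_lit 258)))))) (XT.nd (nat_lit 624) (nat_lit 912) (nat_lit 0) (XT.nd (nat_lit 312) (nat_lit 456) (nat_lit 0) (XT.nd (nat_lit 156) (nat_lit 228) (nat_lit 0) (XT.nd (nat_lit 78) (nat_lit 76) (nat_lit 0) (XT.lf (nat_lit 0) (nat_lit 2503821528) (nat_lit 76) (nat_lit 19468970306) (nat_lit 152) (nat_lit 141887048432) (nat_lit 164) (nat_lit 5) (nat_lit 165) (nat_lit 5) (nat_lit 166) (nat_lit 4) (nat_lit 410) (nat_lit 353) (nat_lit 257)) (XT.lf (nat_lit 0) (nat_lit 10328237591) (nat_lit 76) (nat_lit 101299939202) (nat_lit 76) (nat_lit 60783413650) (nat_lit 163) (nat_lit 4) (nat_lit 164) (nat_lit 5) (nat_lit 164) (nat_lit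 4) (nat_lit 411) (nat_lit 353) (nat_lit 256))) (XT.nd (nat_lit 78) (nat_lit 76) (nat_lit 0) (XT.lf (nat_lit 0) (nat_lit 19826905426) (nat_lit 76) (nat_lit 9609753421) (nat_lit 152) (nat_lit 152015584650) (nat_lit 161) (nat_lit 5) (nat_lit 162) (nat_lit 5) (nat_lit 163) (nat_lit 4) (nat_lit 412) (nat_lit 353) (nat_lit 255)) (XT.lf (nat_lit 0) (nat_lit 29462127749) (nat_lit 76) (nat_lit 100028611088) (nat_lit 76) (nat_lit 61438289667) (nat_lit 160) (nat_lit 4) (nat_lit 161) (nat_lit 5) (nat_lit 161) (nat_lit 4) (nat_lit 413) (nat_lit 353) (nat_lit 254)))) (XT.nd (nat_lit 156) (nat_lit 228) (nat_lit 0) (XT.nd (nat_lit 78) (nat_lit 76) (nat_lit 0) (XT.lf (nat_lit 0) (nat_lit 38912904517) (nat_lit 152) (nat_lit 159879154428) (nat_lit 0) (nat_lit 2158880186) (nat_lit 158) (nat_lit 5) (nat_lit 160) (nat_lit 4) (nat_lit 158) (nat_lit 4) (nat_lit 414) (nat_lit 353) (nat_lit 253)) (XT.lf (nat_lit 0) (nat_lit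 52852744109) (nat_lit 76) (nat_lit 97678589935) (nat_lit 76) (nat_lit 60923327398) (nat_lit 157) (nat_lit 4) (nat_lit 158) (nat_lit 5) (nat_lit 158) (nat_lit 4) (nat_lit 415) (nat_lit 353) (nat_lit 252))) (XT.nd (nat_lit 78) (nat_lit 76) (nat_lit 0) (XT.lf (nat_lit 0) (nat_lit 50859886666) (nat_lit 152) (nat_lit 155841091820) (nat_lit 0) (nat_lit 15853782833) (nat_lit 155) (nat_lit 5) (nat_lit 157) (nat_lit 4) (nat_lit 155) (nat_lit 4) (nat_lit 416) (nat_lit 353) (nat_lit 251)) (XT.lf (nat_lit 0) (nat_lit 81177147062) (nat_lit 76) (nat_lit 94017857329) (nat_lit 76) (nat_lit 59010742485) (nat_lit 154) (nat_lit 4) (nat_lit 155) (nat_lit 5) (nat_lit 155) (nat_lit 4) (nat_lit 417) (nat_lit 353) (nat_lit 250))))) (XT.nd (nat_lit 312) (nat_lit 456) (nat_lit 0) (XT.nd (nat_lit 156) (nat_lit 228) (nat_lit 0) (XT.nd (nat_lit 78) (nat_lit 76) (nat_lit 0) (XT.lf (nat_lit 0) (nat_lit 65484971440) (nat_lit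 152) (nat_lit 148870769329) (nat_lit 0) (nat_lit 32143970519) (nat_lit 152) (nat_lit 5) (nat_lit 154) (nat_lit 4) (nat_lit 152) (nat_lit 4) (nat_lit 418) (nat_lit 353) (nat_lit 249)) (XT.lf (nat_lit 0) (nat_lit 115209140289) (nat_lit 76) (nat_lit 88777901068) (nat_lit 76) (nat_lit 55436074643) (nat_lit 151) (nat_lit 4) (nat_lit 152) (nat_lit 5) (nat_lit 152) (nat_lit 4) (nat_lit 419) (nat_lit 353) (nat_lit 248))) (XT.nd (nat_lit 78) (nat_lit 76) (nat_lit 0) (XT.lf (nat_lit 0) (nat_lit 83196773899) (nat_lit 152) (nat_lit 138400373235) (nat_lit 0) (nat_lit 51441925536) (nat_lit 149) (nat_lit 5) (nat_lit 151) (nat_lit 4) (nat_lit 149) (nat_lit 4) (nat_lit 420) (nat_lit 353) (nat_lit 247)) (XT.lf (nat_lit 0) (nat_lit 155832184782) (nat_lit 76) (nat_lit 81648535054) (nat_lit 76) (nat_lit 49893012655) (nat_lit 148) (nat_lit 4) (nat_lit 149) (nat_lit 5) (nat_lit 149) (nat_lit 4) (nat_lit 421) (nat_lit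 353) (nat_lit 246)))) (XT.nd (nat_lit 156) (nat_lit 228) (nat_lit 0) (XT.nd (nat_lit 78) (nat_lit 76) (nat_lit 0) (XT.lf (nat_lit 0) (nat_lit 104461928206) (nat_lit 152) (nat_lit 123773695440) (nat_lit 0) (nat_lit 74217979153) (nat_lit 146) (nat_lit 5) (nat_lit 148) (nat_lit 4) (nat_lit 146) (nat_lit 4) (nat_lit 422) (nat_lit 353) (nat_lit 245)) (XT.lf (nat_lit 0) (nat_lit 204053970991) (nat_lit 76) (nat_lit 72272029025) (nat_lit 76) (nat_lit 42027529613) (nat_lit 145) (nat_lit 4) (nat_lit 146) (nat_lit 5) (nat_lit 146) (nat_lit 4) (nat_lit 423) (nat_lit 353) (nat_lit 244))) (XT.nd (nat_lit 78) (nat_lit 76) (nat_lit 0) (XT.lf (nat_lit 0) (nat_lit 129812765407) (nat_lit 152) (nat_lit 104233754238) (nat_lit 0) (nat_lit 101007994928) (nat_lit 143) (nat_lit 5) (nat_lit 145) (nat_lit 4) (nat_lit 143) (nat_lit 4) (nat_lit 424) (nat_lit 353) (nat_lit 243)) (XT.lf (nat_lit 0) (nat_lit 261022855940) (nat_lit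 76) (nat_lit 60236459921) (nat_lit 76) (nat_lit 31431240068) (nat_lit 142) (nat_lit 4) (nat_lit 143) (nat_lit 5) (nat_lit 143) (nat_lit 4) (nat_lit 425) (nat_lit 353) (nat_lit 242)))))))
noncomputable def xc131 : XT := (XT.nd (nat_lit 1248) (nat_lit 532) (nat_lit 0) (XT.nd (nat_lit 624) (nat_lit 912) (nat_lit 0) (XT.nd (nat_lit 312) (nat_lit 608) (nat_lit 0) (XT.nd (nat_lit 156) (nat_lit 228) (nat_lit 0) (XT.nd (nat_lit 78) (nat_lit 76) (nat_lit 0) (XT.lf (nat_lit 0) (nat_lit 159855972416) (nat_lit 152) (nat_lit 78908776599) (nat_lit 0) (nat_lit 132422033424) (nat_lit 140) (nat_lit 5) (nat_lit 142) (nat_lit 4) (nat_lit 140) (nat_lit 4) (nat_lit 426) (nat_lit 353) (nat_lit 241)) (XT.lf (nat_lit 0) (nat_lit 328046397442) (nat_lit 76) (nat_lit 45068185645) (nat_lit 76) (nat_lit 17633879732) (nat_lit 139) (nat_lit 4) (nat_lit 140) (nat_lit 5) (nat_lit 140) (nat_lit 4) (nat_lit 427) (nat_lit 353)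 (nat_lit 240))) (XT.nd (nat_lit 78) (nat_lit 76) (nat_lit 0) (XT.lf (nat_lit 0) (nat_lit 195282354266) (nat_lit 152) (nat_lit 46796333200) (nat_lit 0) (nat_lit 169154120309) (nat_lit 137) (nat_lit 5) (nat_lit 139) (nat_lit 4) (nat_lit 137) (nat_lit 4) (nat_lit 428) (nat_lit 353) (nat_lit 239)) (XT.lf (nat_lit 0) (nat_lit 406612245947) (nat_lit 76) (nat_lit 26223329620) (nat_lit 76) (nat_lit 94796068) (nat_lit 136) (nat_lit 4) (nat_lit 137) (nat_lit 5) (nat_lit 137) (nat_lit 4) (nat_lit 429) (nat_lit 353) (nat_lit 238)))) (XT.nd (nat_lit 156) (nat_lit 228) (nat_lit 0) (XT.nd (nat_lit 78) (nat_lit 228) (nat_lit 0) (XT.lf (nat_lit 0) (nat_lit 236877836571) (nat_lit 152) (nat_lit 6745391494) (nat_lit 0) (nat_lit 211993254709) (nat_lit 134) (nat_lit 5) (nat_lit 136) (nat_lit 4) (nat_lit 134) (nat_lit 4) (nat_lit 430) (nat_lit 353) (nat_lit 237)) (XT.lf (nat_lit 0) (nat_lit 18996054153) (nat_lit 76)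 (nat_lit 2409253475) (nat_lit 152) (nat_lit 458246001308) (nat_lit 131) (nat_lit 5) (nat_lit 132) (nat_lit 5) (nat_lit 133) (nat_lit 4) (nat_lit 431) (nat_lit 353) (nat_lit 236))) (XT.nd (nat_lit 78) (nat_lit 152) (nat_lit 0) (XT.lf (nat_lit 0) (nat_lit 43971334311) (nat_lit 76) (nat_lit 242251043276) (nat_lit 76) (nat_lit 218550992810) (nat_lit 130) (nat_lit 4) (nat_lit 131) (nat_lit 5) (nat_lit 131) (nat_lit 4) (nat_lit 432) (nat_lit 353) (nat_lit 235)) (XT.lf (nat_lit 0) (nat_lit 48823243298) (nat_lit 152) (nat_lit 456309196606) (nat_lit 0) (nat_lit 26251576436) (nat_lit 128) (nat_lit 5) (nat_lit 130) (nat_lit 4) (nat_lit 128) (nat_lit 4) (nat_lit 433) (nat_lit 353) (nat_lit 234))))) (XT.nd (nat_lit 312) (nat_lit 456) (nat_lit 0) (XT.nd (nat_lit 156) (nat_lit 228) (nat_lit 0) (XT.nd (nat_lit 78) (nat_lit 152) (nat_lit 0) (XT.lf (nat_lit 0) (nat_lit 106037390405) (nat_lit 76) (nat_lit 237889502282)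 (nat_lit 76) (nat_lit 215317659284) (nat_lit 127) (nat_lit 4) (nat_lit 128) (nat_lit 5) (nat_lit 128) (nat_lit 4) (nat_lit 434) (nat_lit 353) (nat_lit 233)) (XT.lf (nat_lit 0) (nat_lit 82262215443) (nat_lit 152) (nat_lit 445684247144) (nat_lit 0) (nat_lit 60765066789) (nat_lit 125) (nat_lit 5) (nat_lit 127) (nat_lit 4) (nat_lit 125) (nat_lit 4) (nat_lit 435) (nat_lit 353) (nat_lit 232))) (XT.nd (nat_lit 78) (nat_lit 152) (nat_lit 0) (XT.lf (nat_lit 0) (nat_lit 181016429354) (nat_lit 76) (nat_lit 230046173975) (nat_lit 76) (nat_lit 208548881504) (nat_lit 124) (nat_lit 4) (nat_lit 125) (nat_lit 5) (nat_lit 125) (nat_lit 4) (nat_lit 436) (nat_lit 353) (nat_lit 231)) (XT.lf (nat_lit 0) (nat_lit 122631785568) (nat_lit 152) (nat_lit 427451709562) (nat_lit 0) (nat_lit 102158046867) (nat_lit 122) (nat_lit 5) (nat_lit 124) (nat_lit 4) (nat_lit 122) (nat_lit 4) (nat_lit 437) (nat_lit 353) (nat_lit 230))))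 (XT.nd (nat_lit 156) (nat_lit 228) (nat_lit 0) (XT.nd (nat_lit 78) (nat_lit 152) (nat_lit 0) (XT.lf (nat_lit 0) (nat_lit 270950304693) (nat_lit 76) (nat_lit 218018105700) (nat_lit 76) (nat_lit 197544249570) (nat_lit 121) (nat_lit 4) (nat_lit 122) (nat_lit 5) (nat_lit 122) (nat_lit 4) (nat_lit 438) (nat_lit 353) (nat_lit 229)) (XT.lf (nat_lit 0) (nat_lit 171014053596) (nat_lit 152) (nat_lit 400116457255) (nat_lit 0) (nat_lit 151515039443) (nat_lit 119) (nat_lit 5) (nat_lit 121) (nat_lit 4) (nat_lit 119) (nat_lit 4) (nat_lit 439) (nat_lit 353) (nat_lit 228))) (XT.nd (nat_lit 78) (nat_lit 152) (nat_lit 0) (XT.lf (nat_lit 0) (nat_lit 378170159212) (nat_lit 76) (nat_lit 200992387728) (nat_lit 76) (nat_lit 181493277693) (nat_lit 118) (nat_lit 4) (nat_lit 119) (nat_lit 5) (nat_lit 119) (nat_lit 4) (nat_lit 440) (nat_lit 353) (nat_lit 227)) (XT.lf (nat_lit 0) (nat_lit 228644028178) (nat_lit 152) (nat_lit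 361950471490) (nat_lit 0) (nat_lit 210073362640) (nat_lit 116) (nat_lit 5) (nat_lit 118) (nat_lit 4) (nat_lit 116) (nat_lit 4) (nat_lit 441) (nat_lit 353) (nat_lit 226)))))) (XT.nd (nat_lit 46488) (nat_lit 0) (nat_lit 12236) (XT.nd (nat_lit 312) (nat_lit 76) (nat_lit 0) (XT.nd (nat_lit 156) (nat_lit 228) (nat_lit 0) (XT.nd (nat_lit 78) (nat_lit 152) (nat_lit 0) (XT.lf (nat_lit 0) (nat_lit 505334927901) (nat_lit 76) (nat_lit 178030659247) (nat_lit 76) (nat_lit 159459915420) (nat_lit 115) (nat_lit 4) (nat_lit 116) (nat_lit 5) (nat_lit 116) (nat_lit 4) (nat_lit 442) (nat_lit 353) (nat_lit 225)) (XT.lf (nat_lit 0) (nat_lit 296929918181) (nat_lit 152) (nat_lit 310960157163) (nat_lit 0) (nat_lit 279243426451) (nat_lit 113) (nat_lit 5) (nat_lit 115) (nat_lit 4) (nat_lit 113) (nat_lit 4) (nat_lit 443) (nat_lit 353) (nat_lit 224))) (XT.nd (nat_lit 78) (nat_lit 152) (nat_lit 0) (XT.lf (nat_lit 0) (nat_lit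 655474769498) (nat_lit 76) (nat_lit 148051558919) (nat_lit 76) (nat_lit 130365003264) (nat_lit 112) (nat_lit 4) (nat_lit 113) (nat_lit 5) (nat_lit 113) (nat_lit 4) (nat_lit 444) (nat_lit 353) (nat_lit 223)) (XT.lf (nat_lit 0) (nat_lit 377476017726) (nat_lit 152) (nat_lit 244849330684) (nat_lit 0) (nat_lit 360631622637) (nat_lit 110) (nat_lit 5) (nat_lit 112) (nat_lit 4) (nat_lit 110) (nat_lit 4) (nat_lit 445) (nat_lit 353) (nat_lit 222)))) (XT.nd (nat_lit 46020) (nat_lit 0) (nat_lit 13984) (XT.nd (nat_lit 45942) (nat_lit 0) (nat_lit 14744) (XT.lf (nat_lit 0) (nat_lit 832040040643) (nat_lit 76) (nat_lit 109810857512) (nat_lit 76) (nat_lit 92966410227) (nat_lit 109) (nat_lit 4) (nat_lit 110) (nat_lit 5) (nat_lit 110) (nat_lit 4) (nat_lit 446) (nat_lit 353) (nat_lit 221)) (XT.lf (nat_lit 0) (nat_lit 2890714550) (nat_lit 0) (nat_lit 2890714550) (nat_lit 684) (nat_lit 333322286) (nat_lit 303) (nat_lit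 5) (nat_lit 303) (nat_lit 3) (nat_lit 312) (nat_lit 3) (nat_lit 354) (nat_lit 354) (nat_lit 312))) (XT.nd (nat_lit 78) (nat_lit 0) (nat_lit 0) (XT.lf (nat_lit 0) (nat_lit 148043406) (nat_lit 760) (nat_lit 9283427149) (nat_lit 836) (nat_lit 3246795378) (nat_lit 293) (nat_lit 5) (nat_lit 303) (nat_lit 5) (nat_lit 304) (nat_lit 5) (nat_lit 355) (nat_lit 354) (nat_lit 311)) (XT.lf (nat_lit 76) (nat_lit 975998308) (nat_lit 0) (nat_lit 184337877) (nat_lit 836) (nat_lit 11994258246) (nat_lit 294) (nat_lit 5) (nat_lit 293) (nat_lit 5) (nat_lit 304) (nat_lit 5) (nat_lit 356) (nat_lit 354) (nat_lit 310))))) (XT.nd (nat_lit 312) (nat_lit 1824) (nat_lit 0) (XT.nd (nat_lit 156) (nat_lit 0) (nat_lit 152) (XT.nd (nat_lit 78) (nat_lit 0) (nat_lit 76) (XT.lf (nat_lit 0) (nat_lit 2504661342) (nat_lit 760) (nat_lit 1473636228) (nat_lit 836) (nat_lit 9678179191) (nat_lit 294) (nat_lit 5) (nat_lit 304) (nat_lit 5)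 (nat_lit 305) (nat_lit 5) (nat_lit 357) (nat_lit 354) (nat_lit 309)) (XT.lf (nat_lit 0) (nat_lit 4158781990) (nat_lit 760) (nat_lit 3916609137) (nat_lit 836) (nat_lit 6113006076) (nat_lit 295) (nat_lit 5) (nat_lit 305) (nat_lit 5) (nat_lit 306) (nat_lit 5) (nat_lit 358) (nat_lit 354) (nat_lit 308))) (XT.nd (nat_lit 78) (nat_lit 0) (nat_lit 0) (XT.lf (nat_lit 0) (nat_lit 6148247092) (nat_lit 760) (nat_lit 6383614808) (nat_lit 836) (nat_lit 2220858640) (nat_lit 296) (nat_lit 5) (nat_lit 306) (nat_lit 5) (nat_lit 307) (nat_lit 5) (nat_lit 359) (nat_lit 354) (nat_lit 307)) (XT.lf (nat_lit 76) (nat_lit 6443969712) (nat_lit 0) (nat_lit 2105587590) (nat_lit 836) (nat_lit 6799998048) (nat_lit 297) (nat_lit 5) (nat_lit 296) (nat_lit 5) (nat_lit 307) (nat_lit 5) (nat_lit 360) (nat_lit 354) (nat_lit 306)))) (XT.nd (nat_lit 156) (nat_lit 836) (nat_lit 0) (XT.nd (nat_lit 78) (nat_lit 456) (nat_lit 0) (XT.lf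 (nat_lit 0) (nat_lit 4491659749) (nat_lit 760) (nat_lit 6927397138) (nat_lit 836) (nat_lit 4561275830) (nat_lit 287) (nat_lit 5) (nat_lit 297) (nat_lit 5) (nat_lit 298) (nat_lit 5) (nat_lit 361) (nat_lit 354) (nat_lit 305)) (XT.lf (nat_lit 0) (nat_lit 2556004631) (nat_lit 456) (nat_lit 12215976844) (nat_lit 532) (nat_lit 1876897546) (nat_lit 281) (nat_lit 5) (nat_lit 287) (nat_lit 5) (nat_lit 288) (nat_lit 5) (nat_lit 362) (nat_lit 354) (nat_lit 304))) (XT.nd (nat_lit 78) (nat_lit 380) (nat_lit 0) (XT.lf (nat_lit 0) (nat_lit 612672784) (nat_lit 380) (nat_lit 661811085) (nat_lit 456) (nat_lit 16081378633) (nat_lit 275) (nat_lit 5) (nat_lit 280) (nat_lit 5) (nat_lit 281) (nat_lit 5) (nat_lit 363) (nat_lit 354) (nat_lit 303)) (XT.nd (nat_lit 78) (nat_lit 380) (nat_lit 0) (XT.lf (nat_lit 0) (nat_lit 5004941174) (nat_lit 456) (nat_lit 1374043808) (nat_lit 76) (nat_lit 11719245103) (nat_lit 275) (nat_lit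 5) (nat_lit 281) (nat_lit 5) (nat_lit 276) (nat_lit 5) (nat_lit 364) (nat_lit 354) (nat_lit 302)) (XT.lf (nat_lit 0) (nat_lit 9350950568) (nat_lit 456) (nat_lit 3315651832) (nat_lit 76) (nat_lit 6217528900) (nat_lit 270) (nat_lit 5) (nat_lit 276) (nat_lit 5) (nat_lit 271) (nat_lit 5) (nat_lit 365) (nat_lit 354) (nat_lit 301))))))))
noncomputable def xc132 : XT := (XT.nd (nat_lit 1248) (nat_lit 2356) (nat_lit 0) (XT.nd (nat_lit 624) (nat_lit 1672) (nat_lit 0) (XT.nd (nat_lit 312) (nat_lit 1064) (nat_lit 0) (XT.nd (nat_lit 156) (nat_lit 684) (nat_lit 0) (XT.nd (nat_lit 78) (nat_lit 304) (nat_lit 0) (XT.lf (nat_lit 0) (nat_lit 14368151228) (nat_lit 380) (nat_lit 5220401707) (nat_lit 76) (nat_lit 128176151) (nat_lit 266) (nat_lit 5) (nat_lit 271) (nat_lit 5) (nat_lit 267) (nat_lit 5) (nat_lit 366) (nat_lit 354) (nat_lit 300)) (XT.lf (nat_lit 0) (nat_lit 13412146518) (nat_lit 304) (nat_lit 6821493367)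 (nat_lit 380) (nat_lit 359949213) (nat_lit 262) (nat_lit 5) (nat_lit 266) (nat_lit 5) (nat_lit 267) (nat_lit 5) (nat_lit 367) (nat_lit 354) (nat_lit 299))) (XT.nd (nat_lit 78) (nat_lit 304) (nat_lit 0) (XT.lf (nat_lit 0) (nat_lit 5235176940) (nat_lit 380) (nat_lit 9174563981) (nat_lit 76) (nat_lit 7108515748) (nat_lit 257) (nat_lit 5) (nat_lit 262) (nat_lit 5) (nat_lit 258) (nat_lit 5) (nat_lit 368) (nat_lit 354) (nat_lit 298)) (XT.lf (nat_lit 0) (nat_lit 11377421519) (nat_lit 304) (nat_lit 276251935) (nat_lit 380) (nat_lit 10843510594) (nat_lit 253) (nat_lit 5) (nat_lit 257) (nat_lit 5) (nat_lit 258) (nat_lit 5) (nat_lit 369) (nat_lit 354) (nat_lit 297)))) (XT.nd (nat_lit 156) (nat_lit 456) (nat_lit 0) (XT.nd (nat_lit 78) (nat_lit 380) (nat_lit 0) (XT.lf (nat_lit 0) (nat_lit 10411525018) (nat_lit 228) (nat_lit 8703120919) (nat_lit 304) (nat_lit 4413329869) (nat_lit 250) (nat_lit 5) (nat_lit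 253) (nat_lit 5) (nat_lit 254) (nat_lit 5) (nat_lit 370) (nat_lit 354) (nat_lit 296)) (XT.lf (nat_lit 0) (nat_lit 2881077219) (nat_lit 380) (nat_lit 15077086999) (nat_lit 76) (nat_lit 6659549270) (nat_lit 245) (nat_lit 5) (nat_lit 250) (nat_lit 5) (nat_lit 246) (nat_lit 5) (nat_lit 371) (nat_lit 354) (nat_lit 295))) (XT.nd (nat_lit 78) (nat_lit 228) (nat_lit 0) (XT.lf (nat_lit 0) (nat_lit 8710765523) (nat_lit 228) (nat_lit 2383254401) (nat_lit 304) (nat_lit 14672512545) (nat_lit 242) (nat_lit 5) (nat_lit 245) (nat_lit 5) (nat_lit 246) (nat_lit 5) (nat_lit 372) (nat_lit 354) (nat_lit 294)) (XT.lf (nat_lit 0) (nat_lit 7932055471) (nat_lit 228) (nat_lit 12621982879) (nat_lit 304) (nat_lit 6423716603) (nat_lit 239) (nat_lit 5) (nat_lit 242) (nat_lit 5) (nat_lit 243) (nat_lit 5) (nat_lit 373) (nat_lit 354) (nat_lit 293))))) (XT.nd (nat_lit 312) (nat_lit 684) (nat_lit 0) (XT.nd (nat_lit 156) (nat_lit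 456) (nat_lit 0) (XT.nd (nat_lit 78) (nat_lit 228) (nat_lit 0) (XT.lf (nat_lit 0) (nat_lit 2908304365) (nat_lit 304) (nat_lit 20961297325) (nat_lit 76) (nat_lit 4389190852) (nat_lit 235) (nat_lit 5) (nat_lit 239) (nat_lit 5) (nat_lit 236) (nat_lit 5) (nat_lit 374) (nat_lit 354) (nat_lit 292)) (XT.lf (nat_lit 0) (nat_lit 6652270474) (nat_lit 228) (nat_lit 6742400937) (nat_lit 304) (nat_lit 16210734379) (nat_lit 232) (nat_lit 5) (nat_lit 235) (nat_lit 5) (nat_lit 236) (nat_lit 5) (nat_lit 375) (nat_lit 354) (nat_lit 291))) (XT.nd (nat_lit 78) (nat_lit 304) (nat_lit 0) (XT.lf (nat_lit 0) (nat_lit 6153430987) (nat_lit 152) (nat_lit 19194219486) (nat_lit 228) (nat_lit 5680712491) (nat_lit 230) (nat_lit 5) (nat_lit 232) (nat_lit 5) (nat_lit 233) (nat_lit 5) (nat_lit 376) (nat_lit 354) (nat_lit 290)) (XT.lf (nat_lit 0) (nat_lit 5804552665) (nat_lit 228) (nat_lit 293479994) (nat_lit 304) (nat_lit 26433256285)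 (nat_lit 226) (nat_lit 5) (nat_lit 229) (nat_lit 5) (nat_lit 230) (nat_lit 5) (nat_lit 377) (nat_lit 354) (nat_lit 289)))) (XT.nd (nat_lit 156) (nat_lit 380) (nat_lit 0) (XT.nd (nat_lit 78) (nat_lit 152) (nat_lit 0) (XT.lf (nat_lit 0) (nat_lit 5415756081) (nat_lit 152) (nat_lit 14024759092) (nat_lit 228) (nat_lit 14668254396) (nat_lit 224) (nat_lit 5) (nat_lit 226) (nat_lit 5) (nat_lit 227) (nat_lit 5) (nat_lit 378) (nat_lit 354) (nat_lit 288)) (XT.lf (nat_lit 0) (nat_lit 5321029813) (nat_lit 152) (nat_lit 29167968572) (nat_lit 228) (nat_lit 1291520154) (nat_lit 222) (nat_lit 5) (nat_lit 224) (nat_lit 5) (nat_lit 225) (nat_lit 5) (nat_lit 379) (nat_lit 354) (nat_lit 287))) (XT.nd (nat_lit 78) (nat_lit 152) (nat_lit 0) (XT.lf (nat_lit 0) (nat_lit 5203308345) (nat_lit 152) (nat_lit 8336991197) (nat_lit 228) (nat_lit 23995138279) (nat_lit 219) (nat_lit 5) (nat_lit 221) (nat_lit 5) (nat_lit 222)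 (nat_lit 5) (nat_lit 380) (nat_lit 354) (nat_lit 286)) (XT.lf (nat_lit 0) (nat_lit 5288030536) (nat_lit 152) (nat_lit 25049960132) (nat_lit 228) (nat_lit 9050472634) (nat_lit 217) (nat_lit 5) (nat_lit 219) (nat_lit 5) (nat_lit 220) (nat_lit 5) (nat_lit 381) (nat_lit 354) (nat_lit 285)))))) (XT.nd (nat_lit 624) (nat_lit 1064) (nat_lit 0) (XT.nd (nat_lit 312) (nat_lit 608) (nat_lit 0) (XT.nd (nat_lit 156) (nat_lit 304) (nat_lit 0) (XT.nd (nat_lit 78) (nat_lit 152) (nat_lit 0) (XT.lf (nat_lit 0) (nat_lit 5598003233) (nat_lit 152) (nat_lit 2046929402) (nat_lit 228) (nat_lit 33700159472) (nat_lit 214) (nat_lit 5) (nat_lit 216) (nat_lit 5) (nat_lit 217) (nat_lit 5) (nat_lit 382) (nat_lit 354) (nat_lit 284)) (XT.lf (nat_lit 0) (nat_lit 5901321148) (nat_lit 152) (nat_lit 20495958512) (nat_lit 228) (nat_lit 17001633445) (nat_lit 212) (nat_lit 5) (nat_lit 214) (nat_lit 5) (nat_lit 215) (nat_lit 5) (nat_lit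 383) (nat_lit 354) (nat_lit 283))) (XT.nd (nat_lit 78) (nat_lit 152) (nat_lit 0) (XT.lf (nat_lit 0) (nat_lit 1831745910) (nat_lit 152) (nat_lit 38959965354) (nat_lit 76) (nat_lit 4782920971) (nat_lit 210) (nat_lit 5) (nat_lit 212) (nat_lit 5) (nat_lit 211) (nat_lit 5) (nat_lit 384) (nat_lit 354) (nat_lit 282)) (XT.lf (nat_lit 0) (nat_lit 7263352553) (nat_lit 152) (nat_lit 15427196559) (nat_lit 228) (nat_lit 25164203621) (nat_lit 208) (nat_lit 5) (nat_lit 210) (nat_lit 5) (nat_lit 211) (nat_lit 5) (nat_lit 385) (nat_lit 354) (nat_lit 281)))) (XT.nd (nat_lit 156) (nat_lit 304) (nat_lit 0) (XT.nd (nat_lit 78) (nat_lit 228) (nat_lit 0) (XT.lf (nat_lit 0) (nat_lit 8332537196) (nat_lit 76) (nat_lit 37876366423) (nat_lit 152) (nat_lit 4058836900) (nat_lit 207) (nat_lit 5) (nat_lit 208) (nat_lit 5) (nat_lit 209) (nat_lit 4) (nat_lit 386) (nat_lit 354) (nat_lit 280)) (XT.lf (nat_lit 0) (nat_lit 9493198726)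 (nat_lit 152) (nat_lit 9753777285) (nat_lit 228) (nat_lit 33556583428) (nat_lit 204) (nat_lit 5) (nat_lit 206) (nat_lit 5) (nat_lit 207) (nat_lit 5) (nat_lit 387) (nat_lit 354) (nat_lit 279))) (XT.nd (nat_lit 78) (nat_lit 228) (nat_lit 0) (XT.lf (nat_lit 0) (nat_lit 10948508564) (nat_lit 76) (nat_lit 34548927426) (nat_lit 152) (nat_lit 9980361771) (nat_lit 203) (nat_lit 5) (nat_lit 204) (nat_lit 5) (nat_lit 205) (nat_lit 4) (nat_lit 388) (nat_lit 354) (nat_lit 278)) (XT.lf (nat_lit 0) (nat_lit 12728761238) (nat_lit 152) (nat_lit 3373313695) (nat_lit 228) (nat_lit 42196032548) (nat_lit 200) (nat_lit 5) (nat_lit 202) (nat_lit 5) (nat_lit 203) (nat_lit 5) (nat_lit 389) (nat_lit 354) (nat_lit 277))))) (XT.nd (nat_lit 312) (nat_lit 456) (nat_lit 0) (XT.nd (nat_lit 156) (nat_lit 304) (nat_lit 0) (XT.nd (nat_lit 78) (nat_lit 228) (nat_lit 0) (XT.lf (nat_lit 0) (nat_lit 14641043784) (nat_lit 76) (nat_lit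 30761178395) (nat_lit 152) (nat_lit 15859600231) (nat_lit 199) (nat_lit 5) (nat_lit 200) (nat_lit 5) (nat_lit 201) (nat_lit 4) (nat_lit 390) (nat_lit 354) (nat_lit 276)) (XT.lf (nat_lit 0) (nat_lit 13358455890) (nat_lit 228) (nat_lit 47327456809) (nat_lit 76) (nat_lit 3708025072) (nat_lit 196) (nat_lit 5) (nat_lit 199) (nat_lit 5) (nat_lit 197) (nat_lit 4) (nat_lit 391) (nat_lit 354) (nat_lit 275))) (XT.nd (nat_lit 78) (nat_lit 228) (nat_lit 0) (XT.lf (nat_lit 0) (nat_lit 19580218953) (nat_lit 76) (nat_lit 26422319435) (nat_lit 152) (nat_lit 21678873050) (nat_lit 195) (nat_lit 5) (nat_lit 196) (nat_lit 5) (nat_lit 197) (nat_lit 4) (nat_lit 392) (nat_lit 354) (nat_lit 274)) (XT.lf (nat_lit 0) (nat_lit 11075066228) (nat_lit 228) (nat_lit 48473959807) (nat_lit 76) (nat_lit 11606544817) (nat_lit 192) (nat_lit 5) (nat_lit 195) (nat_lit 5) (nat_lit 193) (nat_lit 4) (nat_lit 393) (nat_lit 354) (nat_lit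 273)))) (XT.nd (nat_lit 156) (nat_lit 228) (nat_lit 0) (XT.nd (nat_lit 78) (nat_lit 152) (nat_lit 0) (XT.lf (nat_lit 0) (nat_lit 25961771134) (nat_lit 76) (nat_lit 21428463501) (nat_lit 152) (nat_lit 27414637011) (nat_lit 191) (nat_lit 5) (nat_lit 192) (nat_lit 5) (nat_lit 193) (nat_lit 4) (nat_lit 394) (nat_lit 354) (nat_lit 272)) (XT.lf (nat_lit 0) (nat_lit 9262325114) (nat_lit 152) (nat_lit 48819668219) (nat_lit 76) (nat_lit 20575506916) (nat_lit 189) (nat_lit 5) (nat_lit 191) (nat_lit 5) (nat_lit 190) (nat_lit 4) (nat_lit 395) (nat_lit 354) (nat_lit 271))) (XT.nd (nat_lit 78) (nat_lit 152) (nat_lit 0) (XT.lf (nat_lit 0) (nat_lit 34010527524) (nat_lit 76) (nat_lit 15660899212) (nat_lit 152) (nat_lit 33036518497) (nat_lit 188) (nat_lit 5) (nat_lit 189) (nat_lit 5) (nat_lit 190) (nat_lit 4) (nat_lit 396) (nat_lit 354) (nat_lit 270)) (XT.lf (nat_lit 0) (nat_lit 7994584889) (nat_lit 152) (nat_lit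 48205132415) (nat_lit 76) (nat_lit 30779685489) (nat_lit 186) (nat_lit 5) (nat_lit 188) (nat_lit 5) (nat_lit 187) (nat_lit 4) (nat_lit 397) (nat_lit 354) (nat_lit 269)))))))
noncomputable def xc133 : XT := (XT.nd (nat_lit 1248) (nat_lit 1900) (nat_lit 0) (XT.nd (nat_lit 624) (nat_lit 988) (nat_lit 0) (XT.nd (nat_lit 312) (nat_lit 456) (nat_lit 0) (XT.nd (nat_lit 156) (nat_lit 228) (nat_lit 0) (XT.nd (nat_lit 78) (nat_lit 152) (nat_lit 0) (XT.lf (nat_lit 0) (nat_lit 43984286968) (nat_lit 76) (nat_lit 8984117040) (nat_lit 152) (nat_lit 38506210530) (nat_lit 185) (nat_lit 5) (nat_lit 186) (nat_lit 5) (nat_lit 187) (nat_lit 4) (nat_lit 398) (nat_lit 354) (nat_lit 268)) (XT.lf (nat_lit 0) (nat_lit 7359062115) (nat_lit 152) (nat_lit 46444721923) (nat_lit 76) (nat_lit 42405833957) (nat_lit 183) (nat_lit 5) (nat_lit 185) (nat_lit 5) (nat_lit 184) (nat_lit 4) (nat_lit 399) (nat_lit 354) (nat_lit 267)))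 (XT.nd (nat_lit 78) (nat_lit 152) (nat_lit 0) (XT.lf (nat_lit 0) (nat_lit 56178209524) (nat_lit 76) (nat_lit 1243571322) (nat_lit 152) (nat_lit 43776213698) (nat_lit 182) (nat_lit 5) (nat_lit 183) (nat_lit 5) (nat_lit 184) (nat_lit 4) (nat_lit 400) (nat_lit 354) (nat_lit 266)) (XT.lf (nat_lit 0) (nat_lit 7457647744) (nat_lit 152) (nat_lit 43322931875) (nat_lit 76) (nat_lit 55665506632) (nat_lit 180) (nat_lit 5) (nat_lit 182) (nat_lit 5) (nat_lit 181) (nat_lit 4) (nat_lit 401) (nat_lit 354) (nat_lit 265)))) (XT.nd (nat_lit 156) (nat_lit 228) (nat_lit 0) (XT.nd (nat_lit 78) (nat_lit 152) (nat_lit 0) (XT.lf (nat_lit 0) (nat_lit 63313717513) (nat_lit 152) (nat_lit 41172339778) (nat_lit 0) (nat_lit 7489225628) (nat_lit 179) (nat_lit 5) (nat_lit 181) (nat_lit 4) (nat_lit 179) (nat_lit 4) (nat_lit 402) (nat_lit 354) (nat_lit 264)) (XT.lf (nat_lit 0) (nat_lit 8408957613) (nat_lit 152) (nat_lit 38590191146)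 (nat_lit 76) (nat_lit 70798240467) (nat_lit 177) (nat_lit 5) (nat_lit 179) (nat_lit 5) (nat_lit 178) (nat_lit 4) (nat_lit 403) (nat_lit 354) (nat_lit 263))) (XT.nd (nat_lit 78) (nat_lit 152) (nat_lit 0) (XT.lf (nat_lit 0) (nat_lit 70750180209) (nat_lit 152) (nat_lit 35598155002) (nat_lit 0) (nat_lit 17576546201) (nat_lit 176) (nat_lit 5) (nat_lit 178) (nat_lit 4) (nat_lit 176) (nat_lit 4) (nat_lit 404) (nat_lit 354) (nat_lit 262)) (XT.lf (nat_lit 0) (nat_lit 10350654651) (nat_lit 152) (nat_lit 31958108951) (nat_lit 76) (nat_lit 88075139860) (nat_lit 174) (nat_lit 5) (nat_lit 176) (nat_lit 5) (nat_lit 175) (nat_lit 4) (nat_lit 405) (nat_lit 354) (nat_lit 261))))) (XT.nd (nat_lit 312) (nat_lit 532) (nat_lit 0) (XT.nd (nat_lit 156) (nat_lit 228) (nat_lit 0) (XT.nd (nat_lit 78) (nat_lit 152) (nat_lit 0) (XT.lf (nat_lit 0) (nat_lit 79926747774) (nat_lit 152) (nat_lit 27968621591) (nat_lit 0) (nat_lit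 29279107524) (nat_lit 173) (nat_lit 5) (nat_lit 175) (nat_lit 4) (nat_lit 173) (nat_lit 4) (nat_lit 406) (nat_lit 354) (nat_lit 260)) (XT.lf (nat_lit 0) (nat_lit 13442078048) (nat_lit 152) (nat_lit 23094088606) (nat_lit 76) (nat_lit 107802912879) (nat_lit 171) (nat_lit 5) (nat_lit 173) (nat_lit 5) (nat_lit 172) (nat_lit 4) (nat_lit 407) (nat_lit 354) (nat_lit 259))) (XT.nd (nat_lit 78) (nat_lit 152) (nat_lit 0) (XT.lf (nat_lit 0) (nat_lit 91088960046) (nat_lit 152) (nat_lit 17927442905) (nat_lit 0) (nat_lit 42848144480) (nat_lit 170) (nat_lit 5) (nat_lit 172) (nat_lit 4) (nat_lit 170) (nat_lit 4) (nat_lit 408) (nat_lit 354) (nat_lit 258)) (XT.lf (nat_lit 0) (nat_lit 17867218896) (nat_lit 152) (nat_lit 11615228236) (nat_lit 76) (nat_lit 130328413246) (nat_lit 168) (nat_lit 5) (nat_lit 170) (nat_lit 5) (nat_lit 169) (nat_lit 4) (nat_lit 409) (nat_lit 354) (nat_lit 257)))) (XT.nd (nat_lit 156) (nat_lit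 228) (nat_lit 0) (XT.nd (nat_lit 78) (nat_lit 228) (nat_lit 0) (XT.lf (nat_lit 0) (nat_lit 104516889819) (nat_lit 152) (nat_lit 5064736707) (nat_lit 0) (nat_lit 58569199747) (nat_lit 167) (nat_lit 5) (nat_lit 169) (nat_lit 4) (nat_lit 167) (nat_lit 4) (nat_lit 410) (nat_lit 354) (nat_lit 256)) (XT.lf (nat_lit 0) (nat_lit 3015083410) (nat_lit 76) (nat_lit 20870077139) (nat_lit 152) (nat_lit 153075739671) (nat_lit 164) (nat_lit 5) (nat_lit 165) (nat_lit 5) (nat_lit 166) (nat_lit 4) (nat_lit 411) (nat_lit 354) (nat_lit 255))) (XT.nd (nat_lit 78) (nat_lit 152) (nat_lit 0) (XT.lf (nat_lit 0) (nat_lit 11456994550) (nat_lit 76) (nat_lit 109251517912) (nat_lit 76) (nat_lit 65488501141) (nat_lit 163) (nat_lit 4) (nat_lit 164) (nat_lit 5) (nat_lit 164) (nat_lit 4) (nat_lit 412) (nat_lit 354) (nat_lit 254)) (XT.lf (nat_lit 0) (nat_lit 21707234149) (nat_lit 76) (nat_lit 10230192803) (nat_lit 152) (nat_lit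 164023704256) (nat_lit 161) (nat_lit 5) (nat_lit 162) (nat_lit 5) (nat_lit 163) (nat_lit 4) (nat_lit 413) (nat_lit 354) (nat_lit 253)))))) (XT.nd (nat_lit 624) (nat_lit 988) (nat_lit 0) (XT.nd (nat_lit 312) (nat_lit 456) (nat_lit 0) (XT.nd (nat_lit 156) (nat_lit 228) (nat_lit 0) (XT.nd (nat_lit 78) (nat_lit 152) (nat_lit 0) (XT.lf (nat_lit 0) (nat_lit 32105249227) (nat_lit 76) (nat_lit 107886393575) (nat_lit 76) (nat_lit 66204625741) (nat_lit 160) (nat_lit 4) (nat_lit 161) (nat_lit 5) (nat_lit 161) (nat_lit 4) (nat_lit 414) (nat_lit 354) (nat_lit 252)) (XT.lf (nat_lit 0) (nat_lit 42165779619) (nat_lit 152) (nat_lit 172386531120) (nat_lit 0) (nat_lit 2467711385) (nat_lit 158) (nat_lit 5) (nat_lit 160) (nat_lit 4) (nat_lit 158) (nat_lit 4) (nat_lit 415) (nat_lit 354) (nat_lit 251))) (XT.nd (nat_lit 78) (nat_lit 152) (nat_lit 0) (XT.lf (nat_lit 0) (nat_lit 57351622391) (nat_lit 76) (nat_lit 105355928137)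 (nat_lit 76) (nat_lit 65656798341) (nat_lit 157) (nat_lit 4) (nat_lit 158) (nat_lit 5) (nat_lit 158) (nat_lit 4) (nat_lit 416) (nat_lit 354) (nat_lit 250)) (XT.lf (nat_lit 0) (nat_lit 55060702145) (nat_lit 152) (nat_lit 168040767875) (nat_lit 0) (nat_lit 17251070978) (nat_lit 155) (nat_lit 5) (nat_lit 157) (nat_lit 4) (nat_lit 155) (nat_lit 4) (nat_lit 417) (nat_lit 354) (nat_lit 249)))) (XT.nd (nat_lit 156) (nat_lit 228) (nat_lit 0) (XT.nd (nat_lit 78) (nat_lit 152) (nat_lit 0) (XT.lf (nat_lit 0) (nat_lit 87927300057) (nat_lit 76) (nat_lit 101409546219) (nat_lit 76) (nat_lit 63599048273) (nat_lit 154) (nat_lit 4) (nat_lit 155) (nat_lit 5) (nat_lit 155) (nat_lit 4) (nat_lit 418) (nat_lit 354) (nat_lit 248)) (XT.lf (nat_lit 0) (nat_lit 70848432634) (nat_lit 152) (nat_lit 160527352149) (nat_lit 0) (nat_lit 34837670234) (nat_lit 152) (nat_lit 5) (nat_lit 154) (nat_lit 4) (nat_lit 152) (nat_lit 4)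 (nat_lit 419) (nat_lit 354) (nat_lit 247))) (XT.nd (nat_lit 78) (nat_lit 152) (nat_lit 0) (XT.lf (nat_lit 0) (nat_lit 124667951746) (nat_lit 76) (nat_lit 95757261618) (nat_lit 76) (nat_lit 59745791481) (nat_lit 151) (nat_lit 4) (nat_lit 152) (nat_lit 5) (nat_lit 152) (nat_lit 4) (nat_lit 420) (nat_lit 354) (nat_lit 246)) (XT.lf (nat_lit 0) (nat_lit 89970245023) (nat_lit 152) (nat_lit 149233084310) (nat_lit 0) (nat_lit 55672982690) (nat_lit 149) (nat_lit 5) (nat_lit 151) (nat_lit 4) (nat_lit 149) (nat_lit 4) (nat_lit 421) (nat_lit 354) (nat_lit 245))))) (XT.nd (nat_lit 312) (nat_lit 532) (nat_lit 0) (XT.nd (nat_lit 156) (nat_lit 228) (nat_lit 0) (XT.nd (nat_lit 78) (nat_lit 152) (nat_lit 0) (XT.lf (nat_lit 0) (nat_lit 168527677846) (nat_lit 76) (nat_lit 88064082162) (nat_lit 76) (nat_lit 53766241953) (nat_lit 148) (nat_lit 4) (nat_lit 149) (nat_lit 5) (nat_lit 149) (nat_lit 4) (nat_lit 422) (nat_lit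 354) (nat_lit 244)) (XT.lf (nat_lit 0) (nat_lit 112930076506) (nat_lit 152) (nat_lit 133449297623) (nat_lit 0) (nat_lit 80264957192) (nat_lit 146) (nat_lit 5) (nat_lit 148) (nat_lit 4) (nat_lit 146) (nat_lit 4) (nat_lit 423) (nat_lit 354) (nat_lit 243))) (XT.nd (nat_lit 78) (nat_lit 152) (nat_lit 0) (XT.lf (nat_lit 0) (nat_lit 220594747685) (nat_lit 76) (nat_lit 77943669312) (nat_lit 76) (nat_lit 45278078154) (nat_lit 145) (nat_lit 4) (nat_lit 146) (nat_lit 5) (nat_lit 146) (nat_lit 4) (nat_lit 424) (nat_lit 354) (nat_lit 242)) (XT.lf (nat_lit 0) (nat_lit 140302819225) (nat_lit 152) (nat_lit 112358488565) (nat_lit 0) (nat_lit 109192316320) (nat_lit 143) (nat_lit 5) (nat_lit 145) (nat_lit 4) (nat_lit 143) (nat_lit 4) (nat_lit 425) (nat_lit 354) (nat_lit 241)))) (XT.nd (nat_lit 156) (nat_lit 304) (nat_lit 0) (XT.nd (nat_lit 78) (nat_lit 152) (nat_lit 0) (XT.lf (nat_lit 0) (nat_lit 282109351725)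 (nat_lit 76) (nat_lit 64951157230) (nat_lit 76) (nat_lit 33840269058) (nat_lit 142) (nat_lit 4) (nat_lit 143) (nat_lit 5) (nat_lit 143) (nat_lit 4) (nat_lit 426) (nat_lit 354) (nat_lit 240)) (XT.lf (nat_lit 0) (nat_lit 172743671695) (nat_lit 152) (nat_lit 85019177618) (nat_lit 0) (nat_lit 143113914647) (nat_lit 140) (nat_lit 5) (nat_lit 142) (nat_lit 4) (nat_lit 140) (nat_lit 4) (nat_lit 427) (nat_lit 354) (nat_lit 239))) (XT.nd (nat_lit 78) (nat_lit 228) (nat_lit 0) (XT.lf (nat_lit 0) (nat_lit 354483618586) (nat_lit 76) (nat_lit 48575024117) (nat_lit 76) (nat_lit 18944952494) (nat_lit 139) (nat_lit 4) (nat_lit 140) (nat_lit 5) (nat_lit 140) (nat_lit 4) (nat_lit 428) (nat_lit 354) (nat_lit 238)) (XT.nd (nat_lit 78) (nat_lit 76) (nat_lit 0) (XT.lf (nat_lit 0) (nat_lit 210998681806) (nat_lit 152) (nat_lit 50348775060) (nat_lit 0) (nat_lit 182779288571) (nat_lit 137) (nat_lit 5) (nat_lit 139) (nat_lit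 4) (nat_lit 137) (nat_lit 4) (nat_lit 429) (nat_lit 354) (nat_lit 237)) (XT.lf (nat_lit 0) (nat_lit 439324178285) (nat_lit 76) (nat_lit 28227895287) (nat_lit 76) (nat_lit 8245197) (nat_lit 136) (nat_lit 4) (nat_lit 137) (nat_lit 5) (nat_lit 137) (nat_lit 4) (nat_lit 430) (nat_lit 354) (nat_lit 236))))))))
noncomputable def xc134 : XT := (XT.nd (nat_lit 47190) (nat_lit 0) (nat_lit 10640) (XT.nd (nat_lit 624) (nat_lit 912) (nat_lit 0) (XT.nd (nat_lit 312) (nat_lit 456) (nat_lit 0) (XT.nd (nat_lit 156) (nat_lit 228) (nat_lit 0) (XT.nd (nat_lit 78) (nat_lit 228) (nat_lit 0) (XT.lf (nat_lit 0) (nat_lit 255916629290) (nat_lit 152) (nat_lit 7104198257) (nat_lit 0) (nat_lit 229040545558) (nat_lit 134) (nat_lit 5) (nat_lit 136) (nat_lit 4) (nat_lit 134) (nat_lit 4) (nat_lit 431) (nat_lit 354) (nat_lit 235)) (XT.lf (nat_lit 0) (nat_lit 20697364465) (nat_lit 76) (nat_lit 2509297935) (nat_lit 152) (nat_lit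 494812304743) (nat_lit 131) (nat_lit 5) (nat_lit 132) (nat_lit 5) (nat_lit 133) (nat_lit 4) (nat_lit 432) (nat_lit 354) (nat_lit 234))) (XT.nd (nat_lit 78) (nat_lit 152) (nat_lit 0) (XT.lf (nat_lit 0) (nat_lit 47665642713) (nat_lit 76) (nat_lit 261540965108) (nat_lit 76) (nat_lit 235944310205) (nat_lit 130) (nat_lit 4) (nat_lit 131) (nat_lit 5) (nat_lit 131) (nat_lit 4) (nat_lit 433) (nat_lit 354) (nat_lit 233)) (XT.lf (nat_lit 0) (nat_lit 52814501572) (nat_lit 152) (nat_lit 492639394226) (nat_lit 0) (nat_lit 28436571909) (nat_lit 128) (nat_lit 5) (nat_lit 130) (nat_lit 4) (nat_lit 128) (nat_lit 4) (nat_lit 434) (nat_lit 354) (nat_lit 232)))) (XT.nd (nat_lit 156) (nat_lit 228) (nat_lit 0) (XT.nd (nat_lit 78) (nat_lit 152) (nat_lit 0) (XT.lf (nat_lit 0) (nat_lit 114687334532) (nat_lit 76) (nat_lit 256835389145) (nat_lit 76) (nat_lit 232457308474) (nat_lit 127) (nat_lit 4) (nat_lit 128) (nat_lit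 5) (nat_lit 128) (nat_lit 4) (nat_lit 435) (nat_lit 354) (nat_lit 231)) (XT.lf (nat_lit 0) (nat_lit 88923890663) (nat_lit 152) (nat_lit 481173988353) (nat_lit 0) (nat_lit 65706537811) (nat_lit 125) (nat_lit 5) (nat_lit 127) (nat_lit 4) (nat_lit 125) (nat_lit 4) (nat_lit 436) (nat_lit 354) (nat_lit 230))) (XT.nd (nat_lit 78) (nat_lit 152) (nat_lit 0) (XT.lf (nat_lit 0) (nat_lit 195655571629) (nat_lit 76) (nat_lit 248369224459) (nat_lit 76) (nat_lit 225151748307) (nat_lit 124) (nat_lit 4) (nat_lit 125) (nat_lit 5) (nat_lit 125) (nat_lit 4) (nat_lit 437) (nat_lit 354) (nat_lit 229)) (XT.lf (nat_lit 0) (nat_lit 132518587201) (nat_lit 152) (nat_lit 461491868795) (nat_lit 0) (nat_lit 110406596421) (nat_lit 122) (nat_lit 5) (nat_lit 124) (nat_lit 4) (nat_lit 122) (nat_lit 4) (nat_lit 438) (nat_lit 354) (nat_lit 228))))) (XT.nd (nat_lit 312) (nat_lit 456) (nat_lit 0) (XT.nd (nat_lit 156) (nat_lit 228)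 (nat_lit 0) (XT.nd (nat_lit 78) (nat_lit 152) (nat_lit 0) (XT.lf (nat_lit 0) (nat_lit 292775528006) (nat_lit 76) (nat_lit 235383294619) (nat_lit 76) (nat_lit 213271203163) (nat_lit 121) (nat_lit 4) (nat_lit 122) (nat_lit 5) (nat_lit 122) (nat_lit 4) (nat_lit 439) (nat_lit 354) (nat_lit 227)) (XT.lf (nat_lit 0) (nat_lit 184767244019) (nat_lit 152) (nat_lit 431978326475) (nat_lit 0) (nat_lit 163708020519) (nat_lit 119) (nat_lit 5) (nat_lit 121) (nat_lit 4) (nat_lit 119) (nat_lit 4) (nat_lit 440) (nat_lit 354) (nat_lit 226))) (XT.nd (nat_lit 78) (nat_lit 152) (nat_lit 0) (XT.lf (nat_lit 0) (nat_lit 408564811428) (nat_lit 76) (nat_lit 216999669191) (nat_lit 76) (nat_lit 195940363488) (nat_lit 118) (nat_lit 4) (nat_lit 119) (nat_lit 5) (nat_lit 119) (nat_lit 4) (nat_lit 441) (nat_lit 354) (nat_lit 225)) (XT.lf (nat_lit 0) (nat_lit 247003656338) (nat_lit 152) (nat_lit 390767127435) (nat_lit 0) (nat_lit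 226947102225) (nat_lit 116) (nat_lit 5) (nat_lit 118) (nat_lit 4) (nat_lit 116) (nat_lit 4) (nat_lit 442) (nat_lit 354) (nat_lit 224)))) (XT.nd (nat_lit 156) (nat_lit 228) (nat_lit 0) (XT.nd (nat_lit 78) (nat_lit 152) (nat_lit 0) (XT.lf (nat_lit 0) (nat_lit 545895046545) (nat_lit 76) (nat_lit 192204930165) (nat_lit 76) (nat_lit 172148308933) (nat_lit 115) (nat_lit 4) (nat_lit 116) (nat_lit 5) (nat_lit 116) (nat_lit 4) (nat_lit 443) (nat_lit 354) (nat_lit 223)) (XT.lf (nat_lit 0) (nat_lit 320748676500) (nat_lit 152) (nat_lit 335705213916) (nat_lit 0) (nat_lit 301647073280) (nat_lit 113) (nat_lit 5) (nat_lit 115) (nat_lit 4) (nat_lit 113) (nat_lit 4) (nat_lit 444) (nat_lit 354) (nat_lit 222))) (XT.nd (nat_lit 78) (nat_lit 152) (nat_lit 0) (XT.lf (nat_lit 0) (nat_lit 708038780931) (nat_lit 76) (nat_lit 159831218535) (nat_lit 76) (nat_lit 140729560511) (nat_lit 112) (nat_lit 4) (nat_lit 113) (nat_lit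 5) (nat_lit 113) (nat_lit 4) (nat_lit 445) (nat_lit 354) (nat_lit 221)) (XT.lf (nat_lit 0) (nat_lit 407734929739) (nat_lit 152) (nat_lit 264312731315) (nat_lit 0) (nat_lit 389542826149) (nat_lit 110) (nat_lit 5) (nat_lit 112) (nat_lit 4) (nat_lit 110) (nat_lit 4) (nat_lit 446) (nat_lit 354) (nat_lit 220)))))) (XT.nd (nat_lit 624) (nat_lit 2812) (nat_lit 0) (XT.nd (nat_lit 312) (nat_lit 380) (nat_lit 0) (XT.nd (nat_lit 156) (nat_lit 0) (nat_lit 76) (XT.nd (nat_lit 78) (nat_lit 0) (nat_lit 76) (XT.lf (nat_lit 0) (nat_lit 347322107) (nat_lit 836) (nat_lit 3111050497) (nat_lit 836) (nat_lit 3111050497) (nat_lit 292) (nat_lit 3) (nat_lit 303) (nat_lit 3) (nat_lit 303) (nat_lit 5) (nat_lit 355) (nat_lit 355) (nat_lit 310)) (XT.lf (nat_lit 0) (nat_lit 1449917676) (nat_lit 760) (nat_lit 9252926502) (nat_lit 836) (nat_lit 2925181491) (nat_lit 293) (nat_lit 5) (nat_lit 303) (nat_lit 5) (nat_lit 304) (nat_lit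 5) (nat_lit 356) (nat_lit 355) (nat_lit 309))) (XT.nd (nat_lit 78) (nat_lit 0) (nat_lit 76) (XT.lf (nat_lit 76) (nat_lit 1793651757) (nat_lit 0) (nat_lit 665531099) (nat_lit 836) (nat_lit 11687478141) (nat_lit 294) (nat_lit 5) (nat_lit 293) (nat_lit 5) (nat_lit 304) (nat_lit 5) (nat_lit 357) (nat_lit 355) (nat_lit 308)) (XT.lf (nat_lit 0) (nat_lit 3814976142) (nat_lit 760) (nat_lit 844159436) (nat_lit 836) (nat_lit 10034362229) (nat_lit 294) (nat_lit 5) (nat_lit 304) (nat_lit 5) (nat_lit 305) (nat_lit 5) (nat_lit 358) (nat_lit 355) (nat_lit 307)))) (XT.nd (nat_lit 156) (nat_lit 608) (nat_lit 0) (XT.nd (nat_lit 78) (nat_lit 0) (nat_lit 76) (XT.lf (nat_lit 0) (nat_lit 5525311422) (nat_lit 760) (nat_lit 3458047092) (nat_lit 836) (nat_lit 6288419122) (nat_lit 295) (nat_lit 5) (nat_lit 305) (nat_lit 5) (nat_lit 306) (nat_lit 5) (nat_lit 359) (nat_lit 355) (nat_lit 306)) (XT.lf (nat_lit 0) (nat_lit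 7605283956) (nat_lit 760) (nat_lit 6103922263) (nat_lit 836) (nat_lit 2175473111) (nat_lit 296) (nat_lit 5) (nat_lit 306) (nat_lit 5) (nat_lit 307) (nat_lit 5) (nat_lit 360) (nat_lit 355) (nat_lit 305))) (XT.nd (nat_lit 78) (nat_lit 684) (nat_lit 0) (XT.lf (nat_lit 76) (nat_lit 7715519993) (nat_lit 0) (nat_lit 2423488179) (nat_lit 836) (nat_lit 6393237293) (nat_lit 297) (nat_lit 5) (nat_lit 296) (nat_lit 5) (nat_lit 307) (nat_lit 5) (nat_lit 361) (nat_lit 355) (nat_lit 304)) (XT.lf (nat_lit 0) (nat_lit 5619707703) (nat_lit 760) (nat_lit 7561128214) (nat_lit 836) (nat_lit 4035510693) (nat_lit 287) (nat_lit 5) (nat_lit 297) (nat_lit 5) (nat_lit 298) (nat_lit 5) (nat_lit 362) (nat_lit 355) (nat_lit 303))))) (XT.nd (nat_lit 312) (nat_lit 1520) (nat_lit 0) (XT.nd (nat_lit 156) (nat_lit 380) (nat_lit 0) (XT.nd (nat_lit 78) (nat_lit 456) (nat_lit 0) (XT.lf (nat_lit 0) (nat_lit 3537550133) (nat_lit 456)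 (nat_lit 13212592995) (nat_lit 532) (nat_lit 1190826058) (nat_lit 281) (nat_lit 5) (nat_lit 287) (nat_lit 5) (nat_lit 288) (nat_lit 5) (nat_lit 363) (nat_lit 355) (nat_lit 302)) (XT.lf (nat_lit 0) (nat_lit 1430582655) (nat_lit 380) (nat_lit 707363550) (nat_lit 456) (nat_lit 16568310116) (nat_lit 275) (nat_lit 5) (nat_lit 280) (nat_lit 5) (nat_lit 281) (nat_lit 5) (nat_lit 364) (nat_lit 355) (nat_lit 301))) (XT.nd (nat_lit 78) (nat_lit 380) (nat_lit 0) (XT.lf (nat_lit 0) (nat_lit 6110539285) (nat_lit 456) (nat_lit 736878597) (nat_lit 76) (nat_lit 12663410469) (nat_lit 275) (nat_lit 5) (nat_lit 281) (nat_lit 5) (nat_lit 276) (nat_lit 5) (nat_lit 365) (nat_lit 355) (nat_lit 300)) (XT.lf (nat_lit 0) (nat_lit 10763937845) (nat_lit 456) (nat_lit 2833865107) (nat_lit 76) (nat_lit 6763813290) (nat_lit 270) (nat_lit 5) (nat_lit 276) (nat_lit 5) (nat_lit 271) (nat_lit 5) (nat_lit 366) (nat_lit 355) (nat_lit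 299)))) (XT.nd (nat_lit 156) (nat_lit 836) (nat_lit 0) (XT.nd (nat_lit 78) (nat_lit 380) (nat_lit 0) (XT.lf (nat_lit 0) (nat_lit 16145788523) (nat_lit 380) (nat_lit 4893489775) (nat_lit 76) (nat_lit 223379855) (nat_lit 266) (nat_lit 5) (nat_lit 271) (nat_lit 5) (nat_lit 267) (nat_lit 5) (nat_lit 367) (nat_lit 355) (nat_lit 298)) (XT.lf (nat_lit 0) (nat_lit 226186895) (nat_lit 380) (nat_lit 7017780462) (nat_lit 76) (nat_lit 14967287850) (nat_lit 261) (nat_lit 5) (nat_lit 266) (nat_lit 5) (nat_lit 262) (nat_lit 5) (nat_lit 368) (nat_lit 355) (nat_lit 297))) (XT.nd (nat_lit 78) (nat_lit 532) (nat_lit 0) (XT.lf (nat_lit 0) (nat_lit 6224838550) (nat_lit 380) (nat_lit 9181850821) (nat_lit 76) (nat_lit 7804485458) (nat_lit 257) (nat_lit 5) (nat_lit 262) (nat_lit 5) (nat_lit 258) (nat_lit 5) (nat_lit 369) (nat_lit 355) (nat_lit 296)) (XT.nd (nat_lit 78) (nat_lit 228) (nat_lit 0) (XT.lf (nat_lit 0) (nat_lit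 12982712967) (nat_lit 304) (nat_lit 142669246) (nat_lit 380) (nat_lit 11144605816) (nat_lit 253) (nat_lit 5) (nat_lit 257) (nat_lit 5) (nat_lit 258) (nat_lit 5) (nat_lit 370) (nat_lit 355) (nat_lit 295)) (XT.lf (nat_lit 0) (nat_lit 11932810261) (nat_lit 228) (nat_lit 9223463452) (nat_lit 304) (nat_lit 4228317353) (nat_lit 250) (nat_lit 5) (nat_lit 253) (nat_lit 5) (nat_lit 254) (nat_lit 5) (nat_lit 371) (nat_lit 355) (nat_lit 294))))))))
noncomputable def xc135 : XT := (XT.nd (nat_lit 1248) (nat_lit 2280) (nat_lit 0) (XT.nd (nat_lit 624) (nat_lit 1292) (nat_lit 0) (XT.nd (nat_lit 312) (nat_lit 836) (nat_lit 0) (XT.nd (nat_lit 156) (nat_lit 532) (nat_lit 0) (XT.nd (nat_lit 78) (nat_lit 228) (nat_lit 0) (XT.lf (nat_lit 0) (nat_lit 3607219057) (nat_lit 380) (nat_lit 15586535309) (nat_lit 76) (nat_lit 7368593418) (nat_lit 245) (nat_lit 5) (nat_lit 250) (nat_lit 5) (nat_lit 246) (nat_lit 5) (nat_lit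 372) (nat_lit 355) (nat_lit 293)) (XT.lf (nat_lit 0) (nat_lit 10074066871) (nat_lit 228) (nat_lit 2376820071) (nat_lit 304) (nat_lit 15353500854) (nat_lit 242) (nat_lit 5) (nat_lit 245) (nat_lit 5) (nat_lit 246) (nat_lit 5) (nat_lit 373) (nat_lit 355) (nat_lit 292))) (XT.nd (nat_lit 78) (nat_lit 304) (nat_lit 0) (XT.lf (nat_lit 0) (nat_lit 9223601283) (nat_lit 228) (nat_lit 13422445812) (nat_lit 304) (nat_lit 6467543971) (nat_lit 239) (nat_lit 5) (nat_lit 242) (nat_lit 5) (nat_lit 243) (nat_lit 5) (nat_lit 374) (nat_lit 355) (nat_lit 291)) (XT.lf (nat_lit 0) (nat_lit 3575625770) (nat_lit 304) (nat_lit 21977113814) (nat_lit 76) (nat_lit 4945023509) (nat_lit 235) (nat_lit 5) (nat_lit 239) (nat_lit 5) (nat_lit 236) (nat_lit 5) (nat_lit 375) (nat_lit 355) (nat_lit 290)))) (XT.nd (nat_lit 156) (nat_lit 456) (nat_lit 0) (XT.nd (nat_lit 78) (nat_lit 152) (nat_lit 0) (XT.lf (nat_lit 0) (nat_lit 7816809361)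 (nat_lit 228) (nat_lit 7061768868) (nat_lit 304) (nat_lit 17074643368) (nat_lit 232) (nat_lit 5) (nat_lit 235) (nat_lit 5) (nat_lit 236) (nat_lit 5) (nat_lit 376) (nat_lit 355) (nat_lit 289)) (XT.lf (nat_lit 0) (nat_lit 7267016016) (nat_lit 152) (nat_lit 20503117541) (nat_lit 228) (nat_lit 5720764892) (nat_lit 230) (nat_lit 5) (nat_lit 232) (nat_lit 5) (nat_lit 233) (nat_lit 5) (nat_lit 377) (nat_lit 355) (nat_lit 288))) (XT.nd (nat_lit 78) (nat_lit 152) (nat_lit 0) (XT.lf (nat_lit 0) (nat_lit 6875913147) (nat_lit 228) (nat_lit 90865949) (nat_lit 304) (nat_lit 28147967774) (nat_lit 226) (nat_lit 5) (nat_lit 229) (nat_lit 5) (nat_lit 230) (nat_lit 5) (nat_lit 378) (nat_lit 355) (nat_lit 287)) (XT.lf (nat_lit 0) (nat_lit 6444474498) (nat_lit 152) (nat_lit 14916535841) (nat_lit 228) (nat_lit 15458198098) (nat_lit 224) (nat_lit 5) (nat_lit 226) (nat_lit 5) (nat_lit 227) (nat_lit 5) (nat_lit 379)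 (nat_lit 355) (nat_lit 286))))) (XT.nd (nat_lit 312) (nat_lit 532) (nat_lit 0) (XT.nd (nat_lit 156) (nat_lit 380) (nat_lit 0) (XT.nd (nat_lit 78) (nat_lit 228) (nat_lit 0) (XT.lf (nat_lit 0) (nat_lit 6330323344) (nat_lit 152) (nat_lit 31268432719) (nat_lit 228) (nat_lit 1026672068) (nat_lit 222) (nat_lit 5) (nat_lit 224) (nat_lit 5) (nat_lit 225) (nat_lit 5) (nat_lit 380) (nat_lit 355) (nat_lit 285)) (XT.lf (nat_lit 0) (nat_lit 6189092752) (nat_lit 152) (nat_lit 8773309560) (nat_lit 228) (nat_lit 25558926594) (nat_lit 219) (nat_lit 5) (nat_lit 221) (nat_lit 5) (nat_lit 222) (nat_lit 5) (nat_lit 381) (nat_lit 355) (nat_lit 284))) (XT.nd (nat_lit 78) (nat_lit 228) (nat_lit 0) (XT.lf (nat_lit 0) (nat_lit 6268605203) (nat_lit 152) (nat_lit 26822240246) (nat_lit 228) (nat_lit 9432404141) (nat_lit 217) (nat_lit 5) (nat_lit 219) (nat_lit 5) (nat_lit 220) (nat_lit 5) (nat_lit 382) (nat_lit 355) (nat_lit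 283)) (XT.lf (nat_lit 0) (nat_lit 6589619730) (nat_lit 152) (nat_lit 1982024022) (nat_lit 228) (nat_lit 36065299899) (nat_lit 214) (nat_lit 5) (nat_lit 216) (nat_lit 5) (nat_lit 217) (nat_lit 5) (nat_lit 383) (nat_lit 355) (nat_lit 282)))) (XT.nd (nat_lit 156) (nat_lit 228) (nat_lit 0) (XT.nd (nat_lit 78) (nat_lit 152) (nat_lit 0) (XT.lf (nat_lit 0) (nat_lit 6905227451) (nat_lit 152) (nat_lit 21907217596) (nat_lit 228) (nat_lit 18043211957) (nat_lit 212) (nat_lit 5) (nat_lit 214) (nat_lit 5) (nat_lit 215) (nat_lit 5) (nat_lit 384) (nat_lit 355) (nat_lit 281)) (XT.lf (nat_lit 0) (nat_lit 2275405454) (nat_lit 152) (nat_lit 41547150589) (nat_lit 76) (nat_lit 5383190776) (nat_lit 210) (nat_lit 5) (nat_lit 212) (nat_lit 5) (nat_lit 211) (nat_lit 5) (nat_lit 385) (nat_lit 355) (nat_lit 280))) (XT.nd (nat_lit 78) (nat_lit 76) (nat_lit 0) (XT.lf (nat_lit 0) (nat_lit 8351016458) (nat_lit 152) (nat_lit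 16437796954) (nat_lit 228) (nat_lit 26880168521) (nat_lit 208) (nat_lit 5) (nat_lit 210) (nat_lit 5) (nat_lit 211) (nat_lit 5) (nat_lit 386) (nat_lit 355) (nat_lit 279)) (XT.lf (nat_lit 0) (nat_lit 9493916935) (nat_lit 76) (nat_lit 40684711797) (nat_lit 152) (nat_lit 4096880388) (nat_lit 207) (nat_lit 5) (nat_lit 208) (nat_lit 5) (nat_lit 209) (nat_lit 4) (nat_lit 387) (nat_lit 355) (nat_lit 278)))))) (XT.nd (nat_lit 624) (nat_lit 1064) (nat_lit 0) (XT.nd (nat_lit 312) (nat_lit 608) (nat_lit 0) (XT.nd (nat_lit 156) (nat_lit 304) (nat_lit 0) (XT.nd (nat_lit 78) (nat_lit 76) (nat_lit 0) (XT.lf (nat_lit 0) (nat_lit 10734705278) (nat_lit 152) (nat_lit 10316488719) (nat_lit 228) (nat_lit 35963427202) (nat_lit 204) (nat_lit 5) (nat_lit 206) (nat_lit 5) (nat_lit 207) (nat_lit 5) (nat_lit 388) (nat_lit 355) (nat_lit 277)) (XT.lf (nat_lit 0) (nat_lit 12294889346) (nat_lit 76) (nat_lit 37097703188) (nat_lit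 152) (nat_lit 10510660965) (nat_lit 203) (nat_lit 5) (nat_lit 204) (nat_lit 5) (nat_lit 205) (nat_lit 4) (nat_lit 389) (nat_lit 355) (nat_lit 276))) (XT.nd (nat_lit 78) (nat_lit 76) (nat_lit 0) (XT.lf (nat_lit 0) (nat_lit 14205323744) (nat_lit 152) (nat_lit 3432394082) (nat_lit 228) (nat_lit 45311864409) (nat_lit 200) (nat_lit 5) (nat_lit 202) (nat_lit 5) (nat_lit 203) (nat_lit 5) (nat_lit 390) (nat_lit 355) (nat_lit 275)) (XT.lf (nat_lit 0) (nat_lit 16259361575) (nat_lit 76) (nat_lit 33014210278) (nat_lit 152) (nat_lit 16877237755) (nat_lit 199) (nat_lit 5) (nat_lit 200) (nat_lit 5) (nat_lit 201) (nat_lit 4) (nat_lit 391) (nat_lit 355) (nat_lit 274)))) (XT.nd (nat_lit 156) (nat_lit 304) (nat_lit 0) (XT.nd (nat_lit 78) (nat_lit 76) (nat_lit 0) (XT.lf (nat_lit 0) (nat_lit 14662190267) (nat_lit 228) (nat_lit 50669939943) (nat_lit 76) (nat_lit 4201569688) (nat_lit 196) (nat_lit 5) (nat_lit 199)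 (nat_lit 5) (nat_lit 197) (nat_lit 4) (nat_lit 392) (nat_lit 355) (nat_lit 273)) (XT.lf (nat_lit 0) (nat_lit 21571066636) (nat_lit 76) (nat_lit 28335947577) (nat_lit 152) (nat_lit 23177696502) (nat_lit 195) (nat_lit 5) (nat_lit 196) (nat_lit 5) (nat_lit 197) (nat_lit 4) (nat_lit 393) (nat_lit 355) (nat_lit 272))) (XT.nd (nat_lit 78) (nat_lit 76) (nat_lit 0) (XT.lf (nat_lit 0) (nat_lit 12181641967) (nat_lit 228) (nat_lit 51930861489) (nat_lit 76) (nat_lit 12724484542) (nat_lit 192) (nat_lit 5) (nat_lit 195) (nat_lit 5) (nat_lit 193) (nat_lit 4) (nat_lit 394) (nat_lit 355) (nat_lit 271)) (XT.lf (nat_lit 0) (nat_lit 28441431124) (nat_lit 76) (nat_lit 22950541733) (nat_lit 152) (nat_lit 29386762548) (nat_lit 191) (nat_lit 5) (nat_lit 192) (nat_lit 5) (nat_lit 193) (nat_lit 4) (nat_lit 395) (nat_lit 355) (nat_lit 270))))) (XT.nd (nat_lit 312) (nat_lit 608) (nat_lit 0) (XT.nd (nat_lit 156) (nat_lit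 228) (nat_lit 0) (XT.nd (nat_lit 78) (nat_lit 76) (nat_lit 0) (XT.lf (nat_lit 0) (nat_lit 10210483205) (nat_lit 152) (nat_lit 52325976806) (nat_lit 76) (nat_lit 22403281654) (nat_lit 189) (nat_lit 5) (nat_lit 191) (nat_lit 5) (nat_lit 190) (nat_lit 4) (nat_lit 396) (nat_lit 355) (nat_lit 269)) (XT.lf (nat_lit 0) (nat_lit 37113283031) (nat_lit 76) (nat_lit 16729646582) (nat_lit 152) (nat_lit 35471761801) (nat_lit 188) (nat_lit 5) (nat_lit 189) (nat_lit 5) (nat_lit 190) (nat_lit 4) (nat_lit 397) (nat_lit 355) (nat_lit 268))) (XT.nd (nat_lit 78) (nat_lit 76) (nat_lit 0) (XT.lf (nat_lit 0) (nat_lit 8828900638) (nat_lit 152) (nat_lit 51683078025) (nat_lit 76) (nat_lit 33416038907) (nat_lit 186) (nat_lit 5) (nat_lit 188) (nat_lit 5) (nat_lit 187) (nat_lit 4) (nat_lit 398) (nat_lit 355) (nat_lit 267)) (XT.lf (nat_lit 0) (nat_lit 47865047282) (nat_lit 76) (nat_lit 9526804261) (nat_lit 152) (nat_lit 41391433398)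 (nat_lit 185) (nat_lit 5) (nat_lit 186) (nat_lit 5) (nat_lit 187) (nat_lit 4) (nat_lit 399) (nat_lit 355) (nat_lit 266)))) (XT.nd (nat_lit 156) (nat_lit 380) (nat_lit 0) (XT.nd (nat_lit 78) (nat_lit 76) (nat_lit 0) (XT.lf (nat_lit 0) (nat_lit 8130990462) (nat_lit 152) (nat_lit 49801692039) (nat_lit 76) (nat_lit 45964544764) (nat_lit 183) (nat_lit 5) (nat_lit 185) (nat_lit 5) (nat_lit 184) (nat_lit 4) (nat_lit 400) (nat_lit 355) (nat_lit 265)) (XT.lf (nat_lit 0) (nat_lit 61015489273) (nat_lit 76) (nat_lit 1175022348) (nat_lit 152) (nat_lit 47094573071) (nat_lit 182) (nat_lit 5) (nat_lit 183) (nat_lit 5) (nat_lit 184) (nat_lit 4) (nat_lit 401) (nat_lit 355) (nat_lit 264))) (XT.nd (nat_lit 78) (nat_lit 228) (nat_lit 0) (XT.lf (nat_lit 0) (nat_lit 8226710695) (nat_lit 152) (nat_lit 46449089088) (nat_lit 76) (nat_lit 60277350813) (nat_lit 180) (nat_lit 5) (nat_lit 182) (nat_lit 5) (nat_lit 181) (nat_lit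 4) (nat_lit 402) (nat_lit 355) (nat_lit 263)) (XT.nd (nat_lit 78) (nat_lit 152) (nat_lit 0) (XT.lf (nat_lit 0) (nat_lit 68546065360) (nat_lit 152) (nat_lit 44135474729) (nat_lit 0) (nat_lit 8243402941) (nat_lit 179) (nat_lit 5) (nat_lit 181) (nat_lit 4) (nat_lit 179) (nat_lit 4) (nat_lit 403) (nat_lit 355) (nat_lit 262)) (XT.lf (nat_lit 0) (nat_lit 9244093468) (nat_lit 152) (nat_lit 41355753636) (nat_lit 76) (nat_lit 76613212299) (nat_lit 177) (nat_lit 5) (nat_lit 179) (nat_lit 5) (nat_lit 178) (nat_lit 4) (nat_lit 404) (nat_lit 355) (nat_lit 261))))))))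
noncomputable def xc136 : XT := (XT.nd (nat_lit 1248) (nat_lit 1900) (nat_lit 0) (XT.nd (nat_lit 624) (nat_lit 912) (nat_lit 0) (XT.nd (nat_lit 312) (nat_lit 532) (nat_lit 0) (XT.nd (nat_lit 156) (nat_lit 228) (nat_lit 0) (XT.nd (nat_lit 78) (nat_lit 152) (nat_lit 0) (XT.lf (nat_lit 0) (nat_lit 76567767148) (nat_lit 152) (nat_lit 38132954323) (nat_lit 0) (nat_lit 19130271828) (nat_lit 176) (nat_lit 5) (nat_lit 178) (nat_lit 4) (nat_lit 176) (nat_lit 4) (nat_lit 405) (nat_lit 355) (nat_lit 260)) (XT.lf (nat_lit 0) (nat_lit 11331751186) (nat_lit 152) (nat_lit 34210249162) (nat_lit 76) (nat_lit 95264963183) (nat_lit 174) (nat_lit 5) (nat_lit 176) (nat_lit 5) (nat_lit 175) (nat_lit 4) (nat_lit 406) (nat_lit 355) (nat_lit 259))) (XT.nd (nat_lit 78) (nat_lit 152) (nat_lit 0) (XT.lf (nat_lit 0) (nat_lit 86469406937) (nat_lit 152) (nat_lit 29909787788) (nat_lit 0) (nat_lit 31761814348) (nat_lit 173)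 (nat_lit 5) (nat_lit 175) (nat_lit 4) (nat_lit 173) (nat_lit 4) (nat_lit 407) (nat_lit 355) (nat_lit 258)) (XT.lf (nat_lit 0) (nat_lit 14661714521) (nat_lit 152) (nat_lit 24653399798) (nat_lit 76) (nat_lit 116563878065) (nat_lit 171) (nat_lit 5) (nat_lit 173) (nat_lit 5) (nat_lit 172) (nat_lit 4) (nat_lit 408) (nat_lit 355) (nat_lit 257)))) (XT.nd (nat_lit 156) (nat_lit 304) (nat_lit 0) (XT.nd (nat_lit 78) (nat_lit 152) (nat_lit 0) (XT.lf (nat_lit 0) (nat_lit 98516116178) (nat_lit 152) (nat_lit 19081205044) (nat_lit 0) (nat_lit 46409388036) (nat_lit 170) (nat_lit 5) (nat_lit 172) (nat_lit 4) (nat_lit 170) (nat_lit 4) (nat_lit 409) (nat_lit 355) (nat_lit 256)) (XT.lf (nat_lit 0) (nat_lit 19432644855) (nat_lit 152) (nat_lit 12271702114) (nat_lit 76) (nat_lit 140884579816) (nat_lit 168) (nat_lit 5) (nat_lit 170) (nat_lit 5) (nat_lit 169) (nat_lit 4) (nat_lit 410) (nat_lit 355) (nat_lit 255))) (XT.nd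 (nat_lit 78) (nat_lit 228) (nat_lit 0) (XT.lf (nat_lit 0) (nat_lit 113010327923) (nat_lit 152) (nat_lit 5204565093) (nat_lit 0) (nat_lit 63381395012) (nat_lit 167) (nat_lit 5) (nat_lit 169) (nat_lit 4) (nat_lit 167) (nat_lit 4) (nat_lit 411) (nat_lit 355) (nat_lit 254)) (XT.lf (nat_lit 0) (nat_lit 3522884871) (nat_lit 76) (nat_lit 22405586265) (nat_lit 152) (nat_lit 165182676214) (nat_lit 164) (nat_lit 5) (nat_lit 165) (nat_lit 5) (nat_lit 166) (nat_lit 4) (nat_lit 412) (nat_lit 355) (nat_lit 253))))) (XT.nd (nat_lit 312) (nat_lit 456) (nat_lit 0) (XT.nd (nat_lit 156) (nat_lit 228) (nat_lit 0) (XT.nd (nat_lit 78) (nat_lit 152) (nat_lit 0) (XT.lf (nat_lit 0) (nat_lit 12632897350) (nat_lit 76) (nat_lit 117860966826) (nat_lit 76) (nat_lit 70592476979) (nat_lit 163) (nat_lit 4) (nat_lit 164) (nat_lit 5) (nat_lit 164) (nat_lit 4) (nat_lit 413) (nat_lit 355) (nat_lit 252)) (XT.lf (nat_lit 0) (nat_lit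 23696021632) (nat_lit 76) (nat_lit 10921429821) (nat_lit 152) (nat_lit 177014318734) (nat_lit 161) (nat_lit 5) (nat_lit 162) (nat_lit 5) (nat_lit 163) (nat_lit 4) (nat_lit 414) (nat_lit 355) (nat_lit 251))) (XT.nd (nat_lit 78) (nat_lit 152) (nat_lit 0) (XT.lf (nat_lit 0) (nat_lit 34918997747) (nat_lit 76) (nat_lit 116393414114) (nat_lit 76) (nat_lit 71373486284) (nat_lit 160) (nat_lit 4) (nat_lit 161) (nat_lit 5) (nat_lit 161) (nat_lit 4) (nat_lit 415) (nat_lit 355) (nat_lit 250)) (XT.lf (nat_lit 0) (nat_lit 45658934599) (nat_lit 152) (nat_lit 185934864736) (nat_lit 0) (nat_lit 2781829928) (nat_lit 158) (nat_lit 5) (nat_lit 160) (nat_lit 4) (nat_lit 158) (nat_lit 4) (nat_lit 416) (nat_lit 355) (nat_lit 249)))) (XT.nd (nat_lit 156) (nat_lit 228) (nat_lit 0) (XT.nd (nat_lit 78) (nat_lit 152) (nat_lit 0) (XT.lf (nat_lit 0) (nat_lit 62171798439) (nat_lit 76) (nat_lit 113666990701) (nat_lit 76) (nat_lit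 70788975911) (nat_lit 157) (nat_lit 4) (nat_lit 158) (nat_lit 5) (nat_lit 158) (nat_lit 4) (nat_lit 417) (nat_lit 355) (nat_lit 248)) (XT.lf (nat_lit 0) (nat_lit 59578748084) (nat_lit 152) (nat_lit 181254595757) (nat_lit 0) (nat_lit 18741740949) (nat_lit 155) (nat_lit 5) (nat_lit 157) (nat_lit 4) (nat_lit 155) (nat_lit 4) (nat_lit 418) (nat_lit 355) (nat_lit 247))) (XT.nd (nat_lit 78) (nat_lit 152) (nat_lit 0) (XT.lf (nat_lit 0) (nat_lit 95180946708) (nat_lit 76) (nat_lit 109411079038) (nat_lit 76) (nat_lit 68573328779) (nat_lit 154) (nat_lit 4) (nat_lit 155) (nat_lit 5) (nat_lit 155) (nat_lit 4) (nat_lit 419) (nat_lit 355) (nat_lit 246)) (XT.lf (nat_lit 0) (nat_lit 76623186085) (nat_lit 152) (nat_lit 173152566103) (nat_lit 0) (nat_lit 37729435288) (nat_lit 152) (nat_lit 5) (nat_lit 154) (nat_lit 4) (nat_lit 152) (nat_lit 4) (nat_lit 420) (nat_lit 355) (nat_lit 245)))))) (XT.nd (nat_lit 624)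 (nat_lit 988) (nat_lit 0) (XT.nd (nat_lit 312) (nat_lit 456) (nat_lit 0) (XT.nd (nat_lit 156) (nat_lit 228) (nat_lit 0) (XT.nd (nat_lit 78) (nat_lit 152) (nat_lit 0) (XT.lf (nat_lit 0) (nat_lit 134848932668) (nat_lit 76) (nat_lit 103312500010) (nat_lit 76) (nat_lit 64418142443) (nat_lit 151) (nat_lit 4) (nat_lit 152) (nat_lit 5) (nat_lit 152) (nat_lit 4) (nat_lit 421) (nat_lit 355) (nat_lit 244)) (XT.lf (nat_lit 0) (nat_lit 97268798448) (nat_lit 152) (nat_lit 160966553770) (nat_lit 0) (nat_lit 60226018075) (nat_lit 149) (nat_lit 5) (nat_lit 151) (nat_lit 4) (nat_lit 149) (nat_lit 4) (nat_lit 422) (nat_lit 355) (nat_lit 243))) (XT.nd (nat_lit 78) (nat_lit 152) (nat_lit 0) (XT.lf (nat_lit 0) (nat_lit 182206152603) (nat_lit 76) (nat_lit 95009469627) (nat_lit 76) (nat_lit 57966193817) (nat_lit 148) (nat_lit 4) (nat_lit 149) (nat_lit 5) (nat_lit 149) (nat_lit 4) (nat_lit 423) (nat_lit 355) (nat_lit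 242)) (XT.lf (nat_lit 0) (nat_lit 122059813597) (nat_lit 152) (nat_lit 143931231271) (nat_lit 0) (nat_lit 86780066410) (nat_lit 146) (nat_lit 5) (nat_lit 148) (nat_lit 4) (nat_lit 146) (nat_lit 4) (nat_lit 424) (nat_lit 355) (nat_lit 241)))) (XT.nd (nat_lit 156) (nat_lit 228) (nat_lit 0) (XT.nd (nat_lit 78) (nat_lit 152) (nat_lit 0) (XT.lf (nat_lit 0) (nat_lit 238427906217) (nat_lit 76) (nat_lit 84084750961) (nat_lit 76) (nat_lit 48804599244) (nat_lit 145) (nat_lit 4) (nat_lit 146) (nat_lit 5) (nat_lit 146) (nat_lit 4) (nat_lit 425) (nat_lit 355) (nat_lit 240)) (XT.lf (nat_lit 0) (nat_lit 151617093276) (nat_lit 152) (nat_lit 121163726281) (nat_lit 0) (nat_lit 118016592055) (nat_lit 143) (nat_lit 5) (nat_lit 145) (nat_lit 4) (nat_lit 143) (nat_lit 4) (nat_lit 426) (nat_lit 355) (nat_lit 239))) (XT.nd (nat_lit 78) (nat_lit 152) (nat_lit 0) (XT.lf (nat_lit 0) (nat_lit 304853569094) (nat_lit 76)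 (nat_lit 70057898397) (nat_lit 76) (nat_lit 36457066872) (nat_lit 142) (nat_lit 4) (nat_lit 143) (nat_lit 5) (nat_lit 143) (nat_lit 4) (nat_lit 427) (nat_lit 355) (nat_lit 238)) (XT.lf (nat_lit 0) (nat_lit 186648231862) (nat_lit 152) (nat_lit 91647271233) (nat_lit 0) (nat_lit 154647148659) (nat_lit 140) (nat_lit 5) (nat_lit 142) (nat_lit 4) (nat_lit 140) (nat_lit 4) (nat_lit 428) (nat_lit 355) (nat_lit 237))))) (XT.nd (nat_lit 312) (nat_lit 532) (nat_lit 0) (XT.nd (nat_lit 156) (nat_lit 228) (nat_lit 0) (XT.nd (nat_lit 78) (nat_lit 152) (nat_lit 0) (XT.lf (nat_lit 0) (nat_lit 383008211151) (nat_lit 76) (nat_lit 52376478395) (nat_lit 76) (nat_lit 20375125496) (nat_lit 139) (nat_lit 4) (nat_lit 140) (nat_lit 5) (nat_lit 140) (nat_lit 4) (nat_lit 429) (nat_lit 355) (nat_lit 236)) (XT.lf (nat_lit 0) (nat_lit 227958942605) (nat_lit 152) (nat_lit 54212698330) (nat_lit 0) (nat_lit 197481225824) (nat_lit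 137) (nat_lit 5) (nat_lit 139) (nat_lit 4) (nat_lit 137) (nat_lit 4) (nat_lit 430) (nat_lit 355) (nat_lit 235))) (XT.nd (nat_lit 78) (nat_lit 76) (nat_lit 0) (XT.lf (nat_lit 0) (nat_lit 69502335) (nat_lit 152) (nat_lit 30335457204) (nat_lit 76) (nat_lit 474556285575) (nat_lit 135) (nat_lit 5) (nat_lit 137) (nat_lit 5) (nat_lit 136) (nat_lit 4) (nat_lit 431) (nat_lit 355) (nat_lit 234)) (XT.lf (nat_lit 0) (nat_lit 276465890527) (nat_lit 152) (nat_lit 7517506206) (nat_lit 0) (nat_lit 247439089677) (nat_lit 134) (nat_lit 5) (nat_lit 136) (nat_lit 4) (nat_lit 134) (nat_lit 4) (nat_lit 432) (nat_lit 355) (nat_lit 233)))) (XT.nd (nat_lit 156) (nat_lit 228) (nat_lit 0) (XT.nd (nat_lit 78) (nat_lit 76) (nat_lit 0) (XT.lf (nat_lit 0) (nat_lit 22508868625) (nat_lit 76) (nat_lit 2630570047) (nat_lit 152) (nat_lit 534317233678) (nat_lit 131) (nat_lit 5) (nat_lit 132) (nat_lit 5) (nat_lit 133) (nat_lit 4)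 (nat_lit 433) (nat_lit 355) (nat_lit 232)) (XT.lf (nat_lit 0) (nat_lit 51630301588) (nat_lit 76) (nat_lit 282386943251) (nat_lit 76) (nat_lit 254742041211) (nat_lit 130) (nat_lit 4) (nat_lit 131) (nat_lit 5) (nat_lit 131) (nat_lit 4) (nat_lit 434) (nat_lit 355) (nat_lit 231))) (XT.nd (nat_lit 78) (nat_lit 76) (nat_lit 0) (XT.lf (nat_lit 0) (nat_lit 57112877412) (nat_lit 152) (nat_lit 531900907468) (nat_lit 0) (nat_lit 30784259456) (nat_lit 128) (nat_lit 5) (nat_lit 130) (nat_lit 4) (nat_lit 128) (nat_lit 4) (nat_lit 435) (nat_lit 355) (nat_lit 230)) (XT.lf (nat_lit 0) (nat_lit 124005456492) (nat_lit 76) (nat_lit 277309112149) (nat_lit 76) (nat_lit 250980364728) (nat_lit 127) (nat_lit 4) (nat_lit 128) (nat_lit 5) (nat_lit 128) (nat_lit 4) (nat_lit 436) (nat_lit 355) (nat_lit 229)))))))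
noncomputable def xc137 : XT := (XT.nd (nat_lit 47268) (nat_lit 0) (nat_lit 8968) (XT.nd (nat_lit 624) (nat_lit 228) (nat_lit 0) (XT.nd (nat_lit 312) (nat_lit 456) (nat_lit 0) (XT.nd (nat_lit 156) (nat_lit 228) (nat_lit 0) (XT.nd (nat_lit 78) (nat_lit 76) (nat_lit 0) (XT.lf (nat_lit 0) (nat_lit 96106987430) (nat_lit 152) (nat_lit 519526447749) (nat_lit 0) (nat_lit 71031875719) (nat_lit 125) (nat_lit 5) (nat_lit 127) (nat_lit 4) (nat_lit 125) (nat_lit 4) (nat_lit 437) (nat_lit 355) (nat_lit 228)) (XT.lf (nat_lit 0) (nat_lit 211443329367) (nat_lit 76) (nat_lit 268169623669) (nat_lit 76) (nat_lit 243094406248) (nat_lit 124) (nat_lit 4) (nat_lit 125) (nat_lit 5) (nat_lit 125) (nat_lit 4) (nat_lit 438) (nat_lit 355) (nat_lit 227))) (XT.nd (nat_lit 78) (nat_lit 76) (nat_lit 0) (XT.lf (nat_lit 0) (nat_lit 143185453796) (nat_lit 152) (nat_lit 498277492706) (nat_lit 0) (nat_lit 119304201128) (nat_lit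 122) (nat_lit 5) (nat_lit 124) (nat_lit 4) (nat_lit 122) (nat_lit 4) (nat_lit 439) (nat_lit 355) (nat_lit 226)) (XT.lf (nat_lit 0) (nat_lit 316325484289) (nat_lit 76) (nat_lit 254148577928) (nat_lit 76) (nat_lit 230267238946) (nat_lit 121) (nat_lit 4) (nat_lit 122) (nat_lit 5) (nat_lit 122) (nat_lit 4) (nat_lit 440) (nat_lit 355) (nat_lit 225)))) (XT.nd (nat_lit 156) (nat_lit 228) (nat_lit 0) (XT.nd (nat_lit 78) (nat_lit 76) (nat_lit 0) (XT.lf (nat_lit 0) (nat_lit 199610408635) (nat_lit 152) (nat_lit 466410180246) (nat_lit 0) (nat_lit 176866200157) (nat_lit 119) (nat_lit 5) (nat_lit 121) (nat_lit 4) (nat_lit 119) (nat_lit 4) (nat_lit 441) (nat_lit 355) (nat_lit 224)) (XT.lf (nat_lit 0) (nat_lit 441370914962) (nat_lit 76) (nat_lit 234297820406) (nat_lit 76) (nat_lit 211553541452) (nat_lit 118) (nat_lit 4) (nat_lit 119) (nat_lit 5) (nat_lit 119) (nat_lit 4) (nat_lit 442) (nat_lit 355) (nat_lit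 223))) (XT.nd (nat_lit 78) (nat_lit 76) (nat_lit 0) (XT.lf (nat_lit 0) (nat_lit 266822338681) (nat_lit 152) (nat_lit 421909000223) (nat_lit 0) (nat_lit 245161058481) (nat_lit 116) (nat_lit 5) (nat_lit 118) (nat_lit 4) (nat_lit 116) (nat_lit 4) (nat_lit 443) (nat_lit 355) (nat_lit 222)) (XT.lf (nat_lit 0) (nat_lit 589680954463) (nat_lit 76) (nat_lit 207522869657) (nat_lit 76) (nat_lit 185861531912) (nat_lit 115) (nat_lit 4) (nat_lit 116) (nat_lit 5) (nat_lit 116) (nat_lit 4) (nat_lit 444) (nat_lit 355) (nat_lit 221))))) (XT.nd (nat_lit 46332) (nat_lit 0) (nat_lit 13756) (XT.nd (nat_lit 46176) (nat_lit 0) (nat_lit 13680) (XT.nd (nat_lit 78) (nat_lit 76) (nat_lit 0) (XT.lf (nat_lit 0) (nat_lit 346463753117) (nat_lit 152) (nat_lit 362448671649) (nat_lit 0) (nat_lit 325833856900) (nat_lit 113) (nat_lit 5) (nat_lit 115) (nat_lit 4) (nat_lit 113) (nat_lit 4) (nat_lit 445) (nat_lit 355) (nat_lit 220))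 (XT.lf (nat_lit 0) (nat_lit 764789933708) (nat_lit 76) (nat_lit 172562447588) (nat_lit 76) (nat_lit 151932504385) (nat_lit 112) (nat_lit 4) (nat_lit 113) (nat_lit 5) (nat_lit 113) (nat_lit 4) (nat_lit 446) (nat_lit 355) (nat_lit 219))) (XT.nd (nat_lit 78) (nat_lit 0) (nat_lit 76) (XT.lf (nat_lit 0) (nat_lit 971634206) (nat_lit 836) (nat_lit 3046758214) (nat_lit 836) (nat_lit 3046758214) (nat_lit 292) (nat_lit 3) (nat_lit 303) (nat_lit 3) (nat_lit 303) (nat_lit 5) (nat_lit 356) (nat_lit 356) (nat_lit 308)) (XT.lf (nat_lit 0) (nat_lit 2671904571) (nat_lit 760) (nat_lit 9330287834) (nat_lit 836) (nat_lit 2660775643) (nat_lit 293) (nat_lit 5) (nat_lit 303) (nat_lit 5) (nat_lit 304) (nat_lit 5) (nat_lit 357) (nat_lit 356) (nat_lit 307)))) (XT.nd (nat_lit 156) (nat_lit 0) (nat_lit 152) (XT.nd (nat_lit 78) (nat_lit 0) (nat_lit 76) (XT.lf (nat_lit 76) (nat_lit 2571209042) (nat_lit 0) (nat_lit 1118676016)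 (nat_lit 836) (nat_lit 11536810441) (nat_lit 294) (nat_lit 5) (nat_lit 293) (nat_lit 5) (nat_lit 304) (nat_lit 5) (nat_lit 358) (nat_lit 356) (nat_lit 306)) (XT.lf (nat_lit 0) (nat_lit 5071770507) (nat_lit 760) (nat_lit 270944857) (nat_lit 836) (nat_lit 10478682455) (nat_lit 294) (nat_lit 5) (nat_lit 304) (nat_lit 5) (nat_lit 305) (nat_lit 5) (nat_lit 359) (nat_lit 356) (nat_lit 305))) (XT.nd (nat_lit 78) (nat_lit 0) (nat_lit 76) (XT.lf (nat_lit 0) (nat_lit 6853676247) (nat_lit 760) (nat_lit 3072918931) (nat_lit 836) (nat_lit 6522607673) (nat_lit 295) (nat_lit 5) (nat_lit 305) (nat_lit 5) (nat_lit 306) (nat_lit 5) (nat_lit 360) (nat_lit 356) (nat_lit 304)) (XT.lf (nat_lit 0) (nat_lit 9041190465) (nat_lit 760) (nat_lit 5914611103) (nat_lit 836) (nat_lit 2158277918) (nat_lit 296) (nat_lit 5) (nat_lit 306) (nat_lit 5) (nat_lit 307) (nat_lit 5) (nat_lit 361) (nat_lit 356) (nat_lit 303)))))) (XT.nd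 (nat_lit 624) (nat_lit 2356) (nat_lit 0) (XT.nd (nat_lit 312) (nat_lit 1064) (nat_lit 0) (XT.nd (nat_lit 156) (nat_lit 912) (nat_lit 0) (XT.nd (nat_lit 78) (nat_lit 684) (nat_lit 0) (XT.lf (nat_lit 76) (nat_lit 8980937778) (nat_lit 0) (nat_lit 2745499591) (nat_lit 836) (nat_lit 6089572305) (nat_lit 297) (nat_lit 5) (nat_lit 296) (nat_lit 5) (nat_lit 307) (nat_lit 5) (nat_lit 362) (nat_lit 356) (nat_lit 302)) (XT.lf (nat_lit 0) (nat_lit 6728333680) (nat_lit 760) (nat_lit 8234210606) (nat_lit 836) (nat_lit 3594747978) (nat_lit 287) (nat_lit 5) (nat_lit 297) (nat_lit 5) (nat_lit 298) (nat_lit 5) (nat_lit 363) (nat_lit 356) (nat_lit 301))) (XT.nd (nat_lit 78) (nat_lit 456) (nat_lit 0) (XT.lf (nat_lit 0) (nat_lit 4486762246) (nat_lit 456) (nat_lit 14286179656) (nat_lit 532) (nat_lit 569165452) (nat_lit 281) (nat_lit 5) (nat_lit 287) (nat_lit 5) (nat_lit 288) (nat_lit 5) (nat_lit 364) (nat_lit 356)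 (nat_lit 300)) (XT.lf (nat_lit 0) (nat_lit 2204233699) (nat_lit 380) (nat_lit 757614823) (nat_lit 456) (nat_lit 17208264974) (nat_lit 275) (nat_lit 5) (nat_lit 280) (nat_lit 5) (nat_lit 281) (nat_lit 5) (nat_lit 365) (nat_lit 356) (nat_lit 299)))) (XT.nd (nat_lit 156) (nat_lit 684) (nat_lit 0) (XT.nd (nat_lit 78) (nat_lit 380) (nat_lit 0) (XT.lf (nat_lit 0) (nat_lit 7203980179) (nat_lit 456) (nat_lit 155320726) (nat_lit 76) (nat_lit 13682163826) (nat_lit 275) (nat_lit 5) (nat_lit 281) (nat_lit 5) (nat_lit 276) (nat_lit 5) (nat_lit 366) (nat_lit 356) (nat_lit 298)) (XT.lf (nat_lit 0) (nat_lit 12195107082) (nat_lit 456) (nat_lit 2420108892) (nat_lit 76) (nat_lit 7346826857) (nat_lit 270) (nat_lit 5) (nat_lit 276) (nat_lit 5) (nat_lit 271) (nat_lit 5) (nat_lit 367) (nat_lit 356) (nat_lit 297))) (XT.nd (nat_lit 78) (nat_lit 380) (nat_lit 0) (XT.lf (nat_lit 0) (nat_lit 17976019160) (nat_lit 380) (nat_lit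 4646642423) (nat_lit 76) (nat_lit 314080844) (nat_lit 266) (nat_lit 5) (nat_lit 271) (nat_lit 5) (nat_lit 267) (nat_lit 5) (nat_lit 368) (nat_lit 356) (nat_lit 296)) (XT.lf (nat_lit 0) (nat_lit 760819718) (nat_lit 380) (nat_lit 6951538183) (nat_lit 76) (nat_lit 16249970829) (nat_lit 261) (nat_lit 5) (nat_lit 266) (nat_lit 5) (nat_lit 262) (nat_lit 5) (nat_lit 369) (nat_lit 356) (nat_lit 295))))) (XT.nd (nat_lit 312) (nat_lit 1140) (nat_lit 0) (XT.nd (nat_lit 156) (nat_lit 608) (nat_lit 0) (XT.nd (nat_lit 78) (nat_lit 304) (nat_lit 0) (XT.lf (nat_lit 0) (nat_lit 7212235318) (nat_lit 380) (nat_lit 9293389390) (nat_lit 76) (nat_lit 8537973625) (nat_lit 257) (nat_lit 5) (nat_lit 262) (nat_lit 5) (nat_lit 258) (nat_lit 5) (nat_lit 370) (nat_lit 356) (nat_lit 294)) (XT.lf (nat_lit 0) (nat_lit 14617264268) (nat_lit 304) (nat_lit 20609840) (nat_lit 380) (nat_lit 11550589897) (nat_lit 253) (nat_lit 5)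 (nat_lit 257) (nat_lit 5) (nat_lit 258) (nat_lit 5) (nat_lit 371) (nat_lit 356) (nat_lit 293))) (XT.nd (nat_lit 78) (nat_lit 380) (nat_lit 0) (XT.lf (nat_lit 0) (nat_lit 13477595612) (nat_lit 228) (nat_lit 9810528508) (nat_lit 304) (nat_lit 4105266807) (nat_lit 250) (nat_lit 5) (nat_lit 253) (nat_lit 5) (nat_lit 254) (nat_lit 5) (nat_lit 372) (nat_lit 356) (nat_lit 292)) (XT.lf (nat_lit 0) (nat_lit 4320741421) (nat_lit 380) (nat_lit 16236134189) (nat_lit 76) (nat_lit 8109212755) (nat_lit 245) (nat_lit 5) (nat_lit 250) (nat_lit 5) (nat_lit 246) (nat_lit 5) (nat_lit 373) (nat_lit 356) (nat_lit 291)))) (XT.nd (nat_lit 156) (nat_lit 684) (nat_lit 0) (XT.nd (nat_lit 78) (nat_lit 228) (nat_lit 0) (XT.lf (nat_lit 0) (nat_lit 11451357195) (nat_lit 228) (nat_lit 2397988755) (nat_lit 304) (nat_lit 16159273467) (nat_lit 242) (nat_lit 5) (nat_lit 245) (nat_lit 5) (nat_lit 246) (nat_lit 5) (nat_lit 374) (nat_lit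 356) (nat_lit 290)) (XT.lf (nat_lit 0) (nat_lit 10524745022) (nat_lit 228) (nat_lit 14316804150) (nat_lit 304) (nat_lit 6581938263) (nat_lit 239) (nat_lit 5) (nat_lit 242) (nat_lit 5) (nat_lit 243) (nat_lit 5) (nat_lit 375) (nat_lit 356) (nat_lit 289))) (XT.nd (nat_lit 78) (nat_lit 380) (nat_lit 0) (XT.lf (nat_lit 0) (nat_lit 4234324199) (nat_lit 304) (nat_lit 23168507115) (nat_lit 76) (nat_lit 5516120408) (nat_lit 235) (nat_lit 5) (nat_lit 239) (nat_lit 5) (nat_lit 236) (nat_lit 5) (nat_lit 376) (nat_lit 356) (nat_lit 288)) (XT.nd (nat_lit 78) (nat_lit 152) (nat_lit 0) (XT.lf (nat_lit 0) (nat_lit 8984298528) (nat_lit 228) (nat_lit 7438075138) (nat_lit 304) (nat_lit 18069430200) (nat_lit 232) (nat_lit 5) (nat_lit 235) (nat_lit 5) (nat_lit 236) (nat_lit 5) (nat_lit 377) (nat_lit 356) (nat_lit 287)) (XT.lf (nat_lit 0) (nat_lit 8381050951) (nat_lit 152) (nat_lit 21949060100) (nat_lit 228) (nat_lit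 5823140934) (nat_lit 230) (nat_lit 5) (nat_lit 232) (nat_lit 5) (nat_lit 233) (nat_lit 5) (nat_lit 378) (nat_lit 356) (nat_lit 286))))))))
noncomputable def xc138 : XT := (XT.nd (nat_lit 1248) (nat_lit 1900) (nat_lit 0) (XT.nd (nat_lit 624) (nat_lit 1140) (nat_lit 0) (XT.nd (nat_lit 312) (nat_lit 684) (nat_lit 0) (XT.nd (nat_lit 156) (nat_lit 380) (nat_lit 0) (XT.nd (nat_lit 78) (nat_lit 152) (nat_lit 0) (XT.lf (nat_lit 0) (nat_lit 7852179244) (nat_lit 304) (nat_lit 29962704960) (nat_lit 76) (nat_lit 92639524) (nat_lit 226) (nat_lit 5) (nat_lit 230) (nat_lit 5) (nat_lit 227) (nat_lit 5) (nat_lit 379) (nat_lit 356) (nat_lit 285)) (XT.lf (nat_lit 0) (nat_lit 7470541658) (nat_lit 152) (nat_lit 15912495901) (nat_lit 228) (nat_lit 16366050233) (nat_lit 224) (nat_lit 5) (nat_lit 226) (nat_lit 5) (nat_lit 227) (nat_lit 5) (nat_lit 380) (nat_lit 356) (nat_lit 284))) (XT.nd (nat_lit 78) (nat_lit 228)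 (nat_lit 0) (XT.lf (nat_lit 0) (nat_lit 7337101702) (nat_lit 152) (nat_lit 33570170250) (nat_lit 228) (nat_lit 793159660) (nat_lit 222) (nat_lit 5) (nat_lit 224) (nat_lit 5) (nat_lit 225) (nat_lit 5) (nat_lit 381) (nat_lit 356) (nat_lit 283)) (XT.lf (nat_lit 0) (nat_lit 7172491553) (nat_lit 152) (nat_lit 9277436900) (nat_lit 228) (nat_lit 27298580068) (nat_lit 219) (nat_lit 5) (nat_lit 221) (nat_lit 5) (nat_lit 222) (nat_lit 5) (nat_lit 382) (nat_lit 356) (nat_lit 282)))) (XT.nd (nat_lit 156) (nat_lit 304) (nat_lit 0) (XT.nd (nat_lit 78) (nat_lit 228) (nat_lit 0) (XT.lf (nat_lit 0) (nat_lit 7248087639) (nat_lit 152) (nat_lit 28769359746) (nat_lit 228) (nat_lit 9893695458) (nat_lit 217) (nat_lit 5) (nat_lit 219) (nat_lit 5) (nat_lit 220) (nat_lit 5) (nat_lit 383) (nat_lit 356) (nat_lit 281)) (XT.lf (nat_lit 0) (nat_lit 7582989787) (nat_lit 152) (nat_lit 1944547079) (nat_lit 228) (nat_lit 38666854197)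 (nat_lit 214) (nat_lit 5) (nat_lit 216) (nat_lit 5) (nat_lit 217) (nat_lit 5) (nat_lit 384) (nat_lit 356) (nat_lit 280))) (XT.nd (nat_lit 78) (nat_lit 152) (nat_lit 0) (XT.lf (nat_lit 0) (nat_lit 7913578956) (nat_lit 152) (nat_lit 23463963730) (nat_lit 228) (nat_lit 19213561776) (nat_lit 212) (nat_lit 5) (nat_lit 214) (nat_lit 5) (nat_lit 215) (nat_lit 5) (nat_lit 385) (nat_lit 356) (nat_lit 279)) (XT.lf (nat_lit 0) (nat_lit 2712170292) (nat_lit 152) (nat_lit 44416865715) (nat_lit 76) (nat_lit 6000433939) (nat_lit 210) (nat_lit 5) (nat_lit 212) (nat_lit 5) (nat_lit 211) (nat_lit 5) (nat_lit 386) (nat_lit 356) (nat_lit 278))))) (XT.nd (nat_lit 312) (nat_lit 608) (nat_lit 0) (XT.nd (nat_lit 156) (nat_lit 304) (nat_lit 0) (XT.nd (nat_lit 78) (nat_lit 76) (nat_lit 0) (XT.lf (nat_lit 0) (nat_lit 9453421935) (nat_lit 152) (nat_lit 17561140901) (nat_lit 228) (nat_lit 28775805434) (nat_lit 208) (nat_lit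 5) (nat_lit 210) (nat_lit 5) (nat_lit 211) (nat_lit 5) (nat_lit 387) (nat_lit 356) (nat_lit 277)) (XT.lf (nat_lit 0) (nat_lit 10677621616) (nat_lit 76) (nat_lit 43749361905) (nat_lit 152) (nat_lit 4178863103) (nat_lit 207) (nat_lit 5) (nat_lit 208) (nat_lit 5) (nat_lit 209) (nat_lit 4) (nat_lit 388) (nat_lit 356) (nat_lit 276))) (XT.nd (nat_lit 78) (nat_lit 76) (nat_lit 0) (XT.lf (nat_lit 0) (nat_lit 12006762439) (nat_lit 152) (nat_lit 10955258821) (nat_lit 228) (nat_lit 38602433048) (nat_lit 204) (nat_lit 5) (nat_lit 206) (nat_lit 5) (nat_lit 207) (nat_lit 5) (nat_lit 389) (nat_lit 356) (nat_lit 275)) (XT.lf (nat_lit 0) (nat_lit 13681858492) (nat_lit 76) (nat_lit 39881072914) (nat_lit 152) (nat_lit 11121635801) (nat_lit 203) (nat_lit 5) (nat_lit 204) (nat_lit 5) (nat_lit 205) (nat_lit 4) (nat_lit 390) (nat_lit 356) (nat_lit 274)))) (XT.nd (nat_lit 156) (nat_lit 304) (nat_lit 0) (XT.nd (nat_lit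 78) (nat_lit 76) (nat_lit 0) (XT.lf (nat_lit 0) (nat_lit 15734635109) (nat_lit 152) (nat_lit 3526271694) (nat_lit 228) (nat_lit 48714033433) (nat_lit 200) (nat_lit 5) (nat_lit 202) (nat_lit 5) (nat_lit 203) (nat_lit 5) (nat_lit 391) (nat_lit 356) (nat_lit 273)) (XT.lf (nat_lit 0) (nat_lit 17943370350) (nat_lit 76) (nat_lit 35477138606) (nat_lit 152) (nat_lit 18012112853) (nat_lit 199) (nat_lit 5) (nat_lit 200) (nat_lit 5) (nat_lit 201) (nat_lit 4) (nat_lit 392) (nat_lit 356) (nat_lit 272))) (XT.nd (nat_lit 78) (nat_lit 76) (nat_lit 0) (XT.lf (nat_lit 0) (nat_lit 16036689757) (nat_lit 228) (nat_lit 54343122406) (nat_lit 76) (nat_lit 4706507514) (nat_lit 196) (nat_lit 5) (nat_lit 199) (nat_lit 5) (nat_lit 197) (nat_lit 4) (nat_lit 393) (nat_lit 356) (nat_lit 271)) (XT.lf (nat_lit 0) (nat_lit 23660632425) (nat_lit 76) (nat_lit 30431220662) (nat_lit 152) (nat_lit 24830020597) (nat_lit 195) (nat_lit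 5) (nat_lit 196) (nat_lit 5) (nat_lit 197) (nat_lit 4) (nat_lit 394) (nat_lit 356) (nat_lit 270)))))) (XT.nd (nat_lit 624) (nat_lit 912) (nat_lit 0) (XT.nd (nat_lit 312) (nat_lit 456) (nat_lit 0) (XT.nd (nat_lit 156) (nat_lit 228) (nat_lit 0) (XT.nd (nat_lit 78) (nat_lit 76) (nat_lit 0) (XT.lf (nat_lit 0) (nat_lit 13345276926) (nat_lit 228) (nat_lit 55724377818) (nat_lit 76) (nat_lit 13904837114) (nat_lit 192) (nat_lit 5) (nat_lit 195) (nat_lit 5) (nat_lit 193) (nat_lit 4) (nat_lit 395) (nat_lit 356) (nat_lit 269)) (XT.lf (nat_lit 0) (nat_lit 31062011645) (nat_lit 76) (nat_lit 24621805539) (nat_lit 152) (nat_lit 31548192729) (nat_lit 191) (nat_lit 5) (nat_lit 192) (nat_lit 5) (nat_lit 193) (nat_lit 4) (nat_lit 396) (nat_lit 356) (nat_lit 268))) (XT.nd (nat_lit 78) (nat_lit 76) (nat_lit 0) (XT.lf (nat_lit 0) (nat_lit 11204938529) (nat_lit 152) (nat_lit 56169749678) (nat_lit 76) (nat_lit 24351351957)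 (nat_lit 189) (nat_lit 5) (nat_lit 191) (nat_lit 5) (nat_lit 190) (nat_lit 4) (nat_lit 397) (nat_lit 356) (nat_lit 267)) (XT.lf (nat_lit 0) (nat_lit 40409774777) (nat_lit 76) (nat_lit 17910161170) (nat_lit 152) (nat_lit 38131452183) (nat_lit 188) (nat_lit 5) (nat_lit 189) (nat_lit 5) (nat_lit 190) (nat_lit 4) (nat_lit 398) (nat_lit 356) (nat_lit 266)))) (XT.nd (nat_lit 156) (nat_lit 228) (nat_lit 0) (XT.nd (nat_lit 78) (nat_lit 76) (nat_lit 0) (XT.lf (nat_lit 0) (nat_lit 9702178530) (nat_lit 152) (nat_lit 55493251544) (nat_lit 76) (nat_lit 36238480609) (nat_lit 186) (nat_lit 5) (nat_lit 188) (nat_lit 5) (nat_lit 187) (nat_lit 4) (nat_lit 399) (nat_lit 356) (nat_lit 265)) (XT.lf (nat_lit 0) (nat_lit 52004622598) (nat_lit 76) (nat_lit 10138020838) (nat_lit 152) (nat_lit 44535332111) (nat_lit 185) (nat_lit 5) (nat_lit 186) (nat_lit 5) (nat_lit 187) (nat_lit 4) (nat_lit 400) (nat_lit 356) (nat_lit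 264))) (XT.nd (nat_lit 78) (nat_lit 76) (nat_lit 0) (XT.lf (nat_lit 0) (nat_lit 8938537067) (nat_lit 152) (nat_lit 53478379153) (nat_lit 76) (nat_lit 49784235858) (nat_lit 183) (nat_lit 5) (nat_lit 185) (nat_lit 5) (nat_lit 184) (nat_lit 4) (nat_lit 401) (nat_lit 356) (nat_lit 263)) (XT.lf (nat_lit 0) (nat_lit 66190815338) (nat_lit 76) (nat_lit 1124961482) (nat_lit 152) (nat_lit 50704613434) (nat_lit 182) (nat_lit 5) (nat_lit 183) (nat_lit 5) (nat_lit 184) (nat_lit 4) (nat_lit 402) (nat_lit 356) (nat_lit 262))))) (XT.nd (nat_lit 312) (nat_lit 456) (nat_lit 0) (XT.nd (nat_lit 156) (nat_lit 228) (nat_lit 0) (XT.nd (nat_lit 78) (nat_lit 76) (nat_lit 0) (XT.lf (nat_lit 0) (nat_lit 9032696600) (nat_lit 152) (nat_lit 49873797647) (nat_lit 76) (nat_lit 65235515944) (nat_lit 180) (nat_lit 5) (nat_lit 182) (nat_lit 5) (nat_lit 181) (nat_lit 4) (nat_lit 403) (nat_lit 356) (nat_lit 261)) (XT.lf (nat_lit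 0) (nat_lit 74173140889) (nat_lit 152) (nat_lit 47382831713) (nat_lit 0) (nat_lit 9035796355) (nat_lit 179) (nat_lit 5) (nat_lit 181) (nat_lit 4) (nat_lit 179) (nat_lit 4) (nat_lit 404) (nat_lit 356) (nat_lit 260))) (XT.nd (nat_lit 78) (nat_lit 76) (nat_lit 0) (XT.lf (nat_lit 0) (nat_lit 10122869269) (nat_lit 152) (nat_lit 44388448493) (nat_lit 76) (nat_lit 82871823976) (nat_lit 177) (nat_lit 5) (nat_lit 179) (nat_lit 5) (nat_lit 178) (nat_lit 4) (nat_lit 405) (nat_lit 356) (nat_lit 259)) (XT.lf (nat_lit 0) (nat_lit 82828281561) (nat_lit 152) (nat_lit 40915198111) (nat_lit 0) (nat_lit 20787238440) (nat_lit 176) (nat_lit 5) (nat_lit 178) (nat_lit 4) (nat_lit 176) (nat_lit 4) (nat_lit 406) (nat_lit 356) (nat_lit 258)))) (XT.nd (nat_lit 156) (nat_lit 228) (nat_lit 0) (XT.nd (nat_lit 78) (nat_lit 76) (nat_lit 0) (XT.lf (nat_lit 0) (nat_lit 12369501983) (nat_lit 152) (nat_lit 36686002132) (nat_lit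 76) (nat_lit 103009455963) (nat_lit 174) (nat_lit 5) (nat_lit 176) (nat_lit 5) (nat_lit 175) (nat_lit 4) (nat_lit 407) (nat_lit 356) (nat_lit 257)) (XT.lf (nat_lit 0) (nat_lit 93514290889) (nat_lit 152) (nat_lit 32048521145) (nat_lit 0) (nat_lit 34423111195) (nat_lit 173) (nat_lit 5) (nat_lit 175) (nat_lit 4) (nat_lit 173) (nat_lit 4) (nat_lit 408) (nat_lit 356) (nat_lit 256))) (XT.nd (nat_lit 78) (nat_lit 76) (nat_lit 0) (XT.lf (nat_lit 0) (nat_lit 15958340151) (nat_lit 152) (nat_lit 26378573106) (nat_lit 76) (nat_lit 126006214095) (nat_lit 171) (nat_lit 5) (nat_lit 173) (nat_lit 5) (nat_lit 172) (nat_lit 4) (nat_lit 409) (nat_lit 356) (nat_lit 255)) (XT.lf (nat_lit 0) (nat_lit 106517466625) (nat_lit 152) (nat_lit 20367275099) (nat_lit 0) (nat_lit 50236501217) (nat_lit 170) (nat_lit 5) (nat_lit 172) (nat_lit 4) (nat_lit 170) (nat_lit 4) (nat_lit 410) (nat_lit 356) (nat_lit 254)))))))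
noncomputable def xc139 : XT := (XT.nd (nat_lit 1248) (nat_lit 2052) (nat_lit 0) (XT.nd (nat_lit 624) (nat_lit 912) (nat_lit 0) (XT.nd (nat_lit 312) (nat_lit 456) (nat_lit 0) (XT.nd (nat_lit 156) (nat_lit 304) (nat_lit 0) (XT.nd (nat_lit 78) (nat_lit 76) (nat_lit 0) (XT.lf (nat_lit 0) (nat_lit 21103896059) (nat_lit 152) (nat_lit 13019603939) (nat_lit 76) (nat_lit 152266708951) (nat_lit 168) (nat_lit 5) (nat_lit 170) (nat_lit 5) (nat_lit 169) (nat_lit 4) (nat_lit 411) (nat_lit 356) (nat_lit 253)) (XT.lf (nat_lit 0) (nat_lit 122164397401) (nat_lit 152) (nat_lit 5393434972) (nat_lit 0) (nat_lit 68560496536) (nat_lit 167) (nat_lit 5) (nat_lit 169) (nat_lit 4) (nat_lit 167) (nat_lit 4) (nat_lit 412) (nat_lit 356) (nat_lit 252))) (XT.nd (nat_lit 78) (nat_lit 76) (nat_lit 0) (XT.lf (nat_lit 0) (nat_lit 4033277721) (nat_lit 76) (nat_lit 24083066565) (nat_lit 152) (nat_lit 178278015079) (nat_lit 164)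 (nat_lit 5) (nat_lit 165) (nat_lit 5) (nat_lit 166) (nat_lit 4) (nat_lit 413) (nat_lit 356) (nat_lit 251)) (XT.lf (nat_lit 0) (nat_lit 13865874163) (nat_lit 76) (nat_lit 127177813548) (nat_lit 76) (nat_lit 76124045017) (nat_lit 163) (nat_lit 4) (nat_lit 164) (nat_lit 5) (nat_lit 164) (nat_lit 4) (nat_lit 414) (nat_lit 356) (nat_lit 250)))) (XT.nd (nat_lit 156) (nat_lit 228) (nat_lit 0) (XT.nd (nat_lit 78) (nat_lit 76) (nat_lit 0) (XT.lf (nat_lit 0) (nat_lit 25807931717) (nat_lit 76) (nat_lit 11686109222) (nat_lit 152) (nat_lit 191062911195) (nat_lit 161) (nat_lit 5) (nat_lit 162) (nat_lit 5) (nat_lit 163) (nat_lit 4) (nat_lit 415) (nat_lit 356) (nat_lit 249)) (XT.lf (nat_lit 0) (nat_lit 37922847283) (nat_lit 76) (nat_lit 125598670724) (nat_lit 76) (nat_lit 76974046328) (nat_lit 160) (nat_lit 4) (nat_lit 161) (nat_lit 5) (nat_lit 161) (nat_lit 4) (nat_lit 416) (nat_lit 356) (nat_lit 248))) (XT.nd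 (nat_lit 78) (nat_lit 76) (nat_lit 0) (XT.lf (nat_lit 0) (nat_lit 49414437956) (nat_lit 152) (nat_lit 200601673057) (nat_lit 0) (nat_lit 3104429162) (nat_lit 158) (nat_lit 5) (nat_lit 160) (nat_lit 4) (nat_lit 158) (nat_lit 4) (nat_lit 417) (nat_lit 356) (nat_lit 247)) (XT.lf (nat_lit 0) (nat_lit 67344484578) (nat_lit 76) (nat_lit 122659688359) (nat_lit 76) (nat_lit 76348899285) (nat_lit 157) (nat_lit 4) (nat_lit 158) (nat_lit 5) (nat_lit 158) (nat_lit 4) (nat_lit 418) (nat_lit 356) (nat_lit 246))))) (XT.nd (nat_lit 312) (nat_lit 456) (nat_lit 0) (XT.nd (nat_lit 156) (nat_lit 228) (nat_lit 0) (XT.nd (nat_lit 78) (nat_lit 76) (nat_lit 0) (XT.lf (nat_lit 0) (nat_lit 64442089913) (nat_lit 152) (nat_lit 195558261129) (nat_lit 0) (nat_lit 20335888431) (nat_lit 155) (nat_lit 5) (nat_lit 157) (nat_lit 4) (nat_lit 155) (nat_lit 4) (nat_lit 419) (nat_lit 356) (nat_lit 245)) (XT.lf (nat_lit 0) (nat_lit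 102983576290) (nat_lit 76) (nat_lit 118068602811) (nat_lit 76) (nat_lit 73961764221) (nat_lit 154) (nat_lit 4) (nat_lit 155) (nat_lit 5) (nat_lit 155) (nat_lit 4) (nat_lit 420) (nat_lit 356) (nat_lit 244))) (XT.nd (nat_lit 78) (nat_lit 76) (nat_lit 0) (XT.lf (nat_lit 0) (nat_lit 82844672351) (nat_lit 152) (nat_lit 186818750972) (nat_lit 0) (nat_lit 40837597583) (nat_lit 152) (nat_lit 5) (nat_lit 154) (nat_lit 4) (nat_lit 152) (nat_lit 4) (nat_lit 421) (nat_lit 356) (nat_lit 243)) (XT.lf (nat_lit 0) (nat_lit 145814783480) (nat_lit 76) (nat_lit 111487185764) (nat_lit 76) (nat_lit 69479590789) (nat_lit 151) (nat_lit 4) (nat_lit 152) (nat_lit 5) (nat_lit 152) (nat_lit 4) (nat_lit 422) (nat_lit 356) (nat_lit 242)))) (XT.nd (nat_lit 156) (nat_lit 228) (nat_lit 0) (XT.nd (nat_lit 78) (nat_lit 76) (nat_lit 0) (XT.lf (nat_lit 0) (nat_lit 105136836809) (nat_lit 152) (nat_lit 173667971621) (nat_lit 0) (nat_lit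 65129144762) (nat_lit 149) (nat_lit 5) (nat_lit 151) (nat_lit 4) (nat_lit 149) (nat_lit 4) (nat_lit 423) (nat_lit 356) (nat_lit 241)) (XT.lf (nat_lit 0) (nat_lit 196950906582) (nat_lit 76) (nat_lit 102524716987) (nat_lit 76) (nat_lit 62516600183) (nat_lit 148) (nat_lit 4) (nat_lit 149) (nat_lit 5) (nat_lit 149) (nat_lit 4) (nat_lit 424) (nat_lit 356) (nat_lit 240))) (XT.nd (nat_lit 78) (nat_lit 76) (nat_lit 0) (XT.lf (nat_lit 0) (nat_lit 131906329626) (nat_lit 152) (nat_lit 155279397330) (nat_lit 0) (nat_lit 93802986677) (nat_lit 146) (nat_lit 5) (nat_lit 148) (nat_lit 4) (nat_lit 146) (nat_lit 4) (nat_lit 425) (nat_lit 356) (nat_lit 239)) (XT.lf (nat_lit 0) (nat_lit 257661242552) (nat_lit 76) (nat_lit 90730588055) (nat_lit 76) (nat_lit 52626898286) (nat_lit 145) (nat_lit 4) (nat_lit 146) (nat_lit 5) (nat_lit 146) (nat_lit 4) (nat_lit 426) (nat_lit 356) (nat_lit 238)))))) (XT.nd (nat_lit 624)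 (nat_lit 988) (nat_lit 0) (XT.nd (nat_lit 312) (nat_lit 608) (nat_lit 0) (XT.nd (nat_lit 156) (nat_lit 228) (nat_lit 0) (XT.nd (nat_lit 78) (nat_lit 76) (nat_lit 0) (XT.lf (nat_lit 0) (nat_lit 163823662824) (nat_lit 152) (nat_lit 130699552978) (nat_lit 0) (nat_lit 127534128636) (nat_lit 143) (nat_lit 5) (nat_lit 145) (nat_lit 4) (nat_lit 143) (nat_lit 4) (nat_lit 427) (nat_lit 356) (nat_lit 237)) (XT.lf (nat_lit 0) (nat_lit 329392291204) (nat_lit 76) (nat_lit 75585925836) (nat_lit 76) (nat_lit 39296108465) (nat_lit 142) (nat_lit 4) (nat_lit 143) (nat_lit 5) (nat_lit 143) (nat_lit 4) (nat_lit 428) (nat_lit 356) (nat_lit 236))) (XT.nd (nat_lit 78) (nat_lit 76) (nat_lit 0) (XT.lf (nat_lit 0) (nat_lit 201653021164) (nat_lit 152) (nat_lit 98830355578) (nat_lit 0) (nat_lit 167091040615) (nat_lit 140) (nat_lit 5) (nat_lit 142) (nat_lit 4) (nat_lit 140) (nat_lit 4) (nat_lit 429) (nat_lit 356) (nat_lit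 235)) (XT.lf (nat_lit 0) (nat_lit 413791103191) (nat_lit 76) (nat_lit 56494110684) (nat_lit 76) (nat_lit 21931898912) (nat_lit 139) (nat_lit 4) (nat_lit 140) (nat_lit 5) (nat_lit 140) (nat_lit 4) (nat_lit 430) (nat_lit 356) (nat_lit 234)))) (XT.nd (nat_lit 156) (nat_lit 304) (nat_lit 0) (XT.nd (nat_lit 78) (nat_lit 152) (nat_lit 0) (XT.lf (nat_lit 0) (nat_lit 246264559123) (nat_lit 152) (nat_lit 58409128862) (nat_lit 0) (nat_lit 213347963060) (nat_lit 137) (nat_lit 5) (nat_lit 139) (nat_lit 4) (nat_lit 137) (nat_lit 4) (nat_lit 431) (nat_lit 356) (nat_lit 233)) (XT.lf (nat_lit 0) (nat_lit 142039664) (nat_lit 152) (nat_lit 32625603546) (nat_lit 76) (nat_lit 512587152656) (nat_lit 135) (nat_lit 5) (nat_lit 137) (nat_lit 5) (nat_lit 136) (nat_lit 4) (nat_lit 432) (nat_lit 356) (nat_lit 232))) (XT.nd (nat_lit 78) (nat_lit 228) (nat_lit 0) (XT.lf (nat_lit 0) (nat_lit 298648260272) (nat_lit 152) (nat_lit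 7985995255) (nat_lit 0) (nat_lit 267298774871) (nat_lit 134) (nat_lit 5) (nat_lit 136) (nat_lit 4) (nat_lit 134) (nat_lit 4) (nat_lit 433) (nat_lit 356) (nat_lit 231)) (XT.lf (nat_lit 0) (nat_lit 24443078632) (nat_lit 76) (nat_lit 2772881458) (nat_lit 152) (nat_lit 576993977732) (nat_lit 131) (nat_lit 5) (nat_lit 132) (nat_lit 5) (nat_lit 133) (nat_lit 4) (nat_lit 434) (nat_lit 356) (nat_lit 230))))) (XT.nd (nat_lit 312) (nat_lit 532) (nat_lit 0) (XT.nd (nat_lit 156) (nat_lit 228) (nat_lit 0) (XT.nd (nat_lit 78) (nat_lit 152) (nat_lit 0) (XT.lf (nat_lit 0) (nat_lit 55890533205) (nat_lit 76) (nat_lit 304911627221) (nat_lit 76) (nat_lit 275054691707) (nat_lit 130) (nat_lit 4) (nat_lit 131) (nat_lit 5) (nat_lit 131) (nat_lit 4) (nat_lit 435) (nat_lit 356) (nat_lit 229)) (XT.lf (nat_lit 0) (nat_lit 61744678280) (nat_lit 152) (nat_lit 574324689346) (nat_lit 0) (nat_lit 33309381724) (nat_lit 128) (nat_lit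 5) (nat_lit 130) (nat_lit 4) (nat_lit 128) (nat_lit 4) (nat_lit 436) (nat_lit 356) (nat_lit 228))) (XT.nd (nat_lit 78) (nat_lit 152) (nat_lit 0) (XT.lf (nat_lit 0) (nat_lit 134048608373) (nat_lit 76) (nat_lit 299431162686) (nat_lit 76) (nat_lit 270995755134) (nat_lit 127) (nat_lit 4) (nat_lit 128) (nat_lit 5) (nat_lit 128) (nat_lit 4) (nat_lit 437) (nat_lit 356) (nat_lit 227)) (XT.lf (nat_lit 0) (nat_lit 103854861852) (nat_lit 152) (nat_lit 560967284699) (nat_lit 0) (nat_lit 76773423447) (nat_lit 125) (nat_lit 5) (nat_lit 127) (nat_lit 4) (nat_lit 125) (nat_lit 4) (nat_lit 438) (nat_lit 356) (nat_lit 226)))) (XT.nd (nat_lit 156) (nat_lit 304) (nat_lit 0) (XT.nd (nat_lit 78) (nat_lit 152) (nat_lit 0) (XT.lf (nat_lit 0) (nat_lit 228474803954) (nat_lit 76) (nat_lit 289563918231) (nat_lit 76) (nat_lit 262482389197) (nat_lit 124) (nat_lit 4) (nat_lit 125) (nat_lit 5) (nat_lit 125) (nat_lit 4) (nat_lit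 439) (nat_lit 356) (nat_lit 225)) (XT.lf (nat_lit 0) (nat_lit 154696342585) (nat_lit 152) (nat_lit 538025043980) (nat_lit 0) (nat_lit 128904330251) (nat_lit 122) (nat_lit 5) (nat_lit 124) (nat_lit 4) (nat_lit 122) (nat_lit 4) (nat_lit 440) (nat_lit 356) (nat_lit 224))) (XT.nd (nat_lit 78) (nat_lit 228) (nat_lit 0) (XT.lf (nat_lit 0) (nat_lit 341741188705) (nat_lit 76) (nat_lit 274424411126) (nat_lit 76) (nat_lit 248632324792) (nat_lit 121) (nat_lit 4) (nat_lit 122) (nat_lit 5) (nat_lit 122) (nat_lit 4) (nat_lit 441) (nat_lit 356) (nat_lit 223)) (XT.nd (nat_lit 78) (nat_lit 76) (nat_lit 0) (XT.lf (nat_lit 0) (nat_lit 215632212087) (nat_lit 152) (nat_lit 503614616453) (nat_lit 0) (nat_lit 191068255084) (nat_lit 119) (nat_lit 5) (nat_lit 121) (nat_lit 4) (nat_lit 119) (nat_lit 4) (nat_lit 442) (nat_lit 356) (nat_lit 222)) (XT.lf (nat_lit 0) (nat_lit 476784256386) (nat_lit 76) (nat_lit 252988643363)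 (nat_lit 76) (nat_lit 228424625938) (nat_lit 118) (nat_lit 4) (nat_lit 119) (nat_lit 5) (nat_lit 119) (nat_lit 4) (nat_lit 443) (nat_lit 356) (nat_lit 221))))))))
noncomputable def xc140 : XT := (XT.nd (nat_lit 47346) (nat_lit 0) (nat_lit 7676) (XT.nd (nat_lit 46722) (nat_lit 0) (nat_lit 11628) (XT.nd (nat_lit 46410) (nat_lit 0) (nat_lit 13680) (XT.nd (nat_lit 156) (nat_lit 152) (nat_lit 0) (XT.nd (nat_lit 78) (nat_lit 76) (nat_lit 0) (XT.lf (nat_lit 0) (nat_lit 288218185649) (nat_lit 152) (nat_lit 455559270476) (nat_lit 0) (nat_lit 264823830058) (nat_lit 116) (nat_lit 5) (nat_lit 118) (nat_lit 4) (nat_lit 116) (nat_lit 4) (nat_lit 444) (nat_lit 356) (nat_lit 220)) (XT.lf (nat_lit 0) (nat_lit 636953428244) (nat_lit 76) (nat_lit 224074583555) (nat_lit 76) (nat_lit 200680178628) (nat_lit 115) (nat_lit 4) (nat_lit 116) (nat_lit 5) (nat_lit 116) (nat_lit 4) (nat_lit 445) (nat_lit 356) (nat_lit 219)))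 (XT.nd (nat_lit 46176) (nat_lit 0) (nat_lit 13604) (XT.lf (nat_lit 0) (nat_lit 374228163463) (nat_lit 152) (nat_lit 391347720920) (nat_lit 0) (nat_lit 351947734312) (nat_lit 113) (nat_lit 5) (nat_lit 115) (nat_lit 4) (nat_lit 113) (nat_lit 4) (nat_lit 446) (nat_lit 356) (nat_lit 218)) (XT.lf (nat_lit 0) (nat_lit 1560790122) (nat_lit 836) (nat_lit 3022000652) (nat_lit 836) (nat_lit 3022000652) (nat_lit 292) (nat_lit 3) (nat_lit 303) (nat_lit 3) (nat_lit 303) (nat_lit 5) (nat_lit 357) (nat_lit 357) (nat_lit 306)))) (XT.nd (nat_lit 156) (nat_lit 0) (nat_lit 76) (XT.nd (nat_lit 78) (nat_lit 0) (nat_lit 0) (XT.lf (nat_lit 0) (nat_lit 3833868084) (nat_lit 760) (nat_lit 9508404287) (nat_lit 836) (nat_lit 2446322564) (nat_lit 293) (nat_lit 5) (nat_lit 303) (nat_lit 5) (nat_lit 304) (nat_lit 5) (nat_lit 358) (nat_lit 357) (nat_lit 305)) (XT.lf (nat_lit 76) (nat_lit 3320514428) (nat_lit 0) (nat_lit 1551021973)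 (nat_lit 836) (nat_lit 11528971711) (nat_lit 294) (nat_lit 5) (nat_lit 293) (nat_lit 5) (nat_lit 304) (nat_lit 5) (nat_lit 359) (nat_lit 357) (nat_lit 304))) (XT.nd (nat_lit 78) (nat_lit 0) (nat_lit 76) (XT.lf (nat_lit 76) (nat_lit 265205343) (nat_lit 0) (nat_lit 6032287828) (nat_lit 836) (nat_lit 10748617422) (nat_lit 295) (nat_lit 5) (nat_lit 294) (nat_lit 5) (nat_lit 305) (nat_lit 5) (nat_lit 360) (nat_lit 357) (nat_lit 303)) (XT.lf (nat_lit 0) (nat_lit 8161863961) (nat_lit 760) (nat_lit 2751389681) (nat_lit 836) (nat_lit 6813890757) (nat_lit 295) (nat_lit 5) (nat_lit 305) (nat_lit 5) (nat_lit 306) (nat_lit 5) (nat_lit 361) (nat_lit 357) (nat_lit 302))))) (XT.nd (nat_lit 312) (nat_lit 1140) (nat_lit 0) (XT.nd (nat_lit 156) (nat_lit 1140) (nat_lit 0) (XT.nd (nat_lit 78) (nat_lit 0) (nat_lit 0) (XT.lf (nat_lit 0) (nat_lit 10473919680) (nat_lit 760) (nat_lit 5806825825) (nat_lit 836) (nat_lit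 2166988641) (nat_lit 296) (nat_lit 5) (nat_lit 306) (nat_lit 5) (nat_lit 307) (nat_lit 5) (nat_lit 362) (nat_lit 357) (nat_lit 301)) (XT.lf (nat_lit 76) (nat_lit 10255119407) (nat_lit 0) (nat_lit 3074992402) (nat_lit 836) (nat_lit 5877900666) (nat_lit 297) (nat_lit 5) (nat_lit 296) (nat_lit 5) (nat_lit 307) (nat_lit 5) (nat_lit 363) (nat_lit 357) (nat_lit 300))) (XT.nd (nat_lit 78) (nat_lit 456) (nat_lit 0) (XT.lf (nat_lit 0) (nat_lit 7831628976) (nat_lit 760) (nat_lit 8951411218) (nat_lit 836) (nat_lit 3227660833) (nat_lit 287) (nat_lit 5) (nat_lit 297) (nat_lit 5) (nat_lit 298) (nat_lit 5) (nat_lit 364) (nat_lit 357) (nat_lit 299)) (XT.lf (nat_lit 0) (nat_lit 5416869295) (nat_lit 456) (nat_lit 15443288038) (nat_lit 532) (nat_lit 49606) (nat_lit 281) (nat_lit 5) (nat_lit 287) (nat_lit 5) (nat_lit 288) (nat_lit 5) (nat_lit 365) (nat_lit 357) (nat_lit 298)))) (XT.nd (nat_lit 156) (nat_lit 304)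 (nat_lit 0) (XT.nd (nat_lit 78) (nat_lit 380) (nat_lit 0) (XT.lf (nat_lit 0) (nat_lit 2945733944) (nat_lit 380) (nat_lit 812790357) (nat_lit 456) (nat_lit 17997211879) (nat_lit 275) (nat_lit 5) (nat_lit 280) (nat_lit 5) (nat_lit 281) (nat_lit 5) (nat_lit 366) (nat_lit 357) (nat_lit 297)) (XT.lf (nat_lit 0) (nat_lit 393996471) (nat_lit 380) (nat_lit 7910798634) (nat_lit 456) (nat_lit 14393761980) (nat_lit 270) (nat_lit 5) (nat_lit 275) (nat_lit 5) (nat_lit 276) (nat_lit 5) (nat_lit 367) (nat_lit 357) (nat_lit 296))) (XT.nd (nat_lit 78) (nat_lit 304) (nat_lit 0) (XT.lf (nat_lit 0) (nat_lit 13659445253) (nat_lit 456) (nat_lit 2064621732) (nat_lit 76) (nat_lit 7970502792) (nat_lit 270) (nat_lit 5) (nat_lit 276) (nat_lit 5) (nat_lit 271) (nat_lit 5) (nat_lit 368) (nat_lit 357) (nat_lit 295)) (XT.lf (nat_lit 0) (nat_lit 19875835565) (nat_lit 380) (nat_lit 4471111700) (nat_lit 76) (nat_lit 401647813)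 (nat_lit 266) (nat_lit 5) (nat_lit 271) (nat_lit 5) (nat_lit 267) (nat_lit 5) (nat_lit 369) (nat_lit 357) (nat_lit 294)))))) (XT.nd (nat_lit 624) (nat_lit 1596) (nat_lit 0) (XT.nd (nat_lit 312) (nat_lit 1140) (nat_lit 0) (XT.nd (nat_lit 156) (nat_lit 532) (nat_lit 0) (XT.nd (nat_lit 78) (nat_lit 304) (nat_lit 0) (XT.lf (nat_lit 0) (nat_lit 1264533264) (nat_lit 380) (nat_lit 6969539912) (nat_lit 76) (nat_lit 17623099454) (nat_lit 261) (nat_lit 5) (nat_lit 266) (nat_lit 5) (nat_lit 262) (nat_lit 5) (nat_lit 370) (nat_lit 357) (nat_lit 293)) (XT.lf (nat_lit 0) (nat_lit 8208804064) (nat_lit 380) (nat_lit 9502730313) (nat_lit 76) (nat_lit 9314572326) (nat_lit 257) (nat_lit 5) (nat_lit 262) (nat_lit 5) (nat_lit 258) (nat_lit 5) (nat_lit 371) (nat_lit 357) (nat_lit 292))) (XT.nd (nat_lit 78) (nat_lit 228) (nat_lit 0) (XT.lf (nat_lit 0) (nat_lit 16206829157) (nat_lit 380) (nat_lit 11967592913) (nat_lit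 76) (nat_lit 89222801) (nat_lit 253) (nat_lit 5) (nat_lit 258) (nat_lit 5) (nat_lit 254) (nat_lit 5) (nat_lit 372) (nat_lit 357) (nat_lit 291)) (XT.lf (nat_lit 0) (nat_lit 15061770793) (nat_lit 228) (nat_lit 10466073789) (nat_lit 304) (nat_lit 4038184092) (nat_lit 250) (nat_lit 5) (nat_lit 253) (nat_lit 5) (nat_lit 254) (nat_lit 5) (nat_lit 373) (nat_lit 357) (nat_lit 290)))) (XT.nd (nat_lit 156) (nat_lit 532) (nat_lit 0) (XT.nd (nat_lit 78) (nat_lit 228) (nat_lit 0) (XT.lf (nat_lit 0) (nat_lit 5030722442) (nat_lit 380) (nat_lit 17022915918) (nat_lit 76) (nat_lit 8887520990) (nat_lit 245) (nat_lit 5) (nat_lit 250) (nat_lit 5) (nat_lit 246) (nat_lit 5) (nat_lit 374) (nat_lit 357) (nat_lit 289)) (XT.lf (nat_lit 0) (nat_lit 12857319143) (nat_lit 228) (nat_lit 2444957380) (nat_lit 304) (nat_lit 17089783302) (nat_lit 242) (nat_lit 5) (nat_lit 245) (nat_lit 5) (nat_lit 246) (nat_lit 5) (nat_lit 375)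 (nat_lit 357) (nat_lit 288))) (XT.nd (nat_lit 78) (nat_lit 304) (nat_lit 0) (XT.lf (nat_lit 0) (nat_lit 11849625547) (nat_lit 228) (nat_lit 15308309896) (nat_lit 304) (nat_lit 6762977871) (nat_lit 239) (nat_lit 5) (nat_lit 242) (nat_lit 5) (nat_lit 243) (nat_lit 5) (nat_lit 376) (nat_lit 357) (nat_lit 287)) (XT.lf (nat_lit 0) (nat_lit 4892556047) (nat_lit 304) (nat_lit 24536068785) (nat_lit 76) (nat_lit 6107868732) (nat_lit 235) (nat_lit 5) (nat_lit 239) (nat_lit 5) (nat_lit 236) (nat_lit 5) (nat_lit 377) (nat_lit 357) (nat_lit 286))))) (XT.nd (nat_lit 312) (nat_lit 760) (nat_lit 0) (XT.nd (nat_lit 156) (nat_lit 456) (nat_lit 0) (XT.nd (nat_lit 78) (nat_lit 152) (nat_lit 0) (XT.lf (nat_lit 0) (nat_lit 10167843866) (nat_lit 228) (nat_lit 7871396835) (nat_lit 304) (nat_lit 19196753617) (nat_lit 232) (nat_lit 5) (nat_lit 235) (nat_lit 5) (nat_lit 236) (nat_lit 5) (nat_lit 378) (nat_lit 357) (nat_lit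 285)) (XT.lf (nat_lit 0) (nat_lit 9508216830) (nat_lit 152) (nat_lit 23538398107) (nat_lit 228) (nat_lit 5984392458) (nat_lit 230) (nat_lit 5) (nat_lit 232) (nat_lit 5) (nat_lit 233) (nat_lit 5) (nat_lit 379) (nat_lit 357) (nat_lit 284))) (XT.nd (nat_lit 78) (nat_lit 152) (nat_lit 0) (XT.lf (nat_lit 0) (nat_lit 8762923874) (nat_lit 304) (nat_lit 31902156803) (nat_lit 76) (nat_lit 260916434) (nat_lit 226) (nat_lit 5) (nat_lit 230) (nat_lit 5) (nat_lit 227) (nat_lit 5) (nat_lit 380) (nat_lit 357) (nat_lit 283)) (XT.lf (nat_lit 0) (nat_lit 8505864347) (nat_lit 152) (nat_lit 17016288777) (nat_lit 228) (nat_lit 17393438065) (nat_lit 224) (nat_lit 5) (nat_lit 226) (nat_lit 5) (nat_lit 227) (nat_lit 5) (nat_lit 381) (nat_lit 357) (nat_lit 282)))) (XT.nd (nat_lit 156) (nat_lit 380) (nat_lit 0) (XT.nd (nat_lit 78) (nat_lit 228) (nat_lit 0) (XT.lf (nat_lit 0) (nat_lit 8353041452) (nat_lit 152) (nat_lit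 36084541512) (nat_lit 228) (nat_lit 585996714) (nat_lit 222) (nat_lit 5) (nat_lit 224) (nat_lit 5) (nat_lit 225) (nat_lit 5) (nat_lit 382) (nat_lit 357) (nat_lit 281)) (XT.lf (nat_lit 0) (nat_lit 8164904888) (nat_lit 152) (nat_lit 9850103881) (nat_lit 228) (nat_lit 29220926132) (nat_lit 219) (nat_lit 5) (nat_lit 221) (nat_lit 5) (nat_lit 222) (nat_lit 5) (nat_lit 383) (nat_lit 357) (nat_lit 280))) (XT.nd (nat_lit 78) (nat_lit 228) (nat_lit 0) (XT.lf (nat_lit 0) (nat_lit 8237737479) (nat_lit 152) (nat_lit 30900589836) (nat_lit 228) (nat_lit 10433732748) (nat_lit 217) (nat_lit 5) (nat_lit 219) (nat_lit 5) (nat_lit 220) (nat_lit 5) (nat_lit 384) (nat_lit 357) (nat_lit 279)) (XT.lf (nat_lit 0) (nat_lit 8589320738) (nat_lit 152) (nat_lit 1932039116) (nat_lit 228) (nat_lit 41517001492) (nat_lit 214) (nat_lit 5) (nat_lit 216) (nat_lit 5) (nat_lit 217) (nat_lit 5) (nat_lit 385) (nat_lit 357) (nat_lit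 278)))))))
noncomputable def xc141 : XT := (XT.nd (nat_lit 1248) (nat_lit 2052) (nat_lit 0) (XT.nd (nat_lit 624) (nat_lit 1064) (nat_lit 0) (XT.nd (nat_lit 312) (nat_lit 608) (nat_lit 0) (XT.nd (nat_lit 156) (nat_lit 228) (nat_lit 0) (XT.nd (nat_lit 78) (nat_lit 152) (nat_lit 0) (XT.lf (nat_lit 0) (nat_lit 8937554597) (nat_lit 152) (nat_lit 25173187076) (nat_lit 228) (nat_lit 20516501368) (nat_lit 212) (nat_lit 5) (nat_lit 214) (nat_lit 5) (nat_lit 215) (nat_lit 5) (nat_lit 386) (nat_lit 357) (nat_lit 277)) (XT.lf (nat_lit 0) (nat_lit 3147535891) (nat_lit 152) (nat_lit 47580934347) (nat_lit 76) (nat_lit 6640437704) (nat_lit 210) (nat_lit 5) (nat_lit 212) (nat_lit 5) (nat_lit 211) (nat_lit 5) (nat_lit 387) (nat_lit 357) (nat_lit 276))) (XT.nd (nat_lit 78) (nat_lit 76) (nat_lit 0) (XT.lf (nat_lit 0) (nat_lit 10582058654) (nat_lit 152) (nat_lit 18801697632) (nat_lit 228) (nat_lit 30859440025) (nat_lit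 208) (nat_lit 5) (nat_lit 210) (nat_lit 5) (nat_lit 211) (nat_lit 5) (nat_lit 388) (nat_lit 357) (nat_lit 275)) (XT.lf (nat_lit 0) (nat_lit 11895507037) (nat_lit 76) (nat_lit 47086307742) (nat_lit 152) (nat_lit 4302465947) (nat_lit 207) (nat_lit 5) (nat_lit 208) (nat_lit 5) (nat_lit 209) (nat_lit 4) (nat_lit 389) (nat_lit 357) (nat_lit 274)))) (XT.nd (nat_lit 156) (nat_lit 304) (nat_lit 0) (XT.nd (nat_lit 78) (nat_lit 76) (nat_lit 0) (XT.lf (nat_lit 0) (nat_lit 13321625055) (nat_lit 152) (nat_lit 11671743831) (nat_lit 228) (nat_lit 41486522470) (nat_lit 204) (nat_lit 5) (nat_lit 206) (nat_lit 5) (nat_lit 207) (nat_lit 5) (nat_lit 390) (nat_lit 357) (nat_lit 273)) (XT.lf (nat_lit 0) (nat_lit 15122238788) (nat_lit 76) (nat_lit 42913425577) (nat_lit 152) (nat_lit 11814283296) (nat_lit 203) (nat_lit 5) (nat_lit 204) (nat_lit 5) (nat_lit 205) (nat_lit 4) (nat_lit 391) (nat_lit 357) (nat_lit 272)))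 (XT.nd (nat_lit 78) (nat_lit 76) (nat_lit 0) (XT.lf (nat_lit 0) (nat_lit 17330241879) (nat_lit 152) (nat_lit 3653440376) (nat_lit 228) (nat_lit 52420158055) (nat_lit 200) (nat_lit 5) (nat_lit 202) (nat_lit 5) (nat_lit 203) (nat_lit 5) (nat_lit 392) (nat_lit 357) (nat_lit 271)) (XT.lf (nat_lit 0) (nat_lit 19707423526) (nat_lit 76) (nat_lit 38162524634) (nat_lit 152) (nat_lit 19268493470) (nat_lit 199) (nat_lit 5) (nat_lit 200) (nat_lit 5) (nat_lit 201) (nat_lit 4) (nat_lit 393) (nat_lit 357) (nat_lit 270))))) (XT.nd (nat_lit 312) (nat_lit 456) (nat_lit 0) (XT.nd (nat_lit 156) (nat_lit 304) (nat_lit 0) (XT.nd (nat_lit 78) (nat_lit 76) (nat_lit 0) (XT.lf (nat_lit 0) (nat_lit 17492399516) (nat_lit 228) (nat_lit 58364429595) (nat_lit 76) (nat_lit 5227757411) (nat_lit 196) (nat_lit 5) (nat_lit 199) (nat_lit 5) (nat_lit 197) (nat_lit 4) (nat_lit 394) (nat_lit 357) (nat_lit 269)) (XT.lf (nat_lit 0) (nat_lit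 25865451863) (nat_lit 76) (nat_lit 32718596642) (nat_lit 152) (nat_lit 26643332717) (nat_lit 195) (nat_lit 5) (nat_lit 196) (nat_lit 5) (nat_lit 197) (nat_lit 4) (nat_lit 395) (nat_lit 357) (nat_lit 268))) (XT.nd (nat_lit 78) (nat_lit 76) (nat_lit 0) (XT.lf (nat_lit 0) (nat_lit 14575024939) (nat_lit 228) (nat_lit 59872869375) (nat_lit 76) (nat_lit 15156450600) (nat_lit 192) (nat_lit 5) (nat_lit 195) (nat_lit 5) (nat_lit 193) (nat_lit 4) (nat_lit 396) (nat_lit 357) (nat_lit 267)) (XT.lf (nat_lit 0) (nat_lit 33842982548) (nat_lit 76) (nat_lit 26450278091) (nat_lit 152) (nat_lit 33909573162) (nat_lit 191) (nat_lit 5) (nat_lit 192) (nat_lit 5) (nat_lit 193) (nat_lit 4) (nat_lit 397) (nat_lit 357) (nat_lit 266)))) (XT.nd (nat_lit 156) (nat_lit 228) (nat_lit 0) (XT.nd (nat_lit 78) (nat_lit 76) (nat_lit 0) (XT.lf (nat_lit 0) (nat_lit 12253611277) (nat_lit 152) (nat_lit 60369858053) (nat_lit 76) (nat_lit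 26433040164) (nat_lit 189) (nat_lit 5) (nat_lit 191) (nat_lit 5) (nat_lit 190) (nat_lit 4) (nat_lit 398) (nat_lit 357) (nat_lit 265)) (XT.lf (nat_lit 0) (nat_lit 43923274440) (nat_lit 76) (nat_lit 19207637011) (nat_lit 152) (nat_lit 41029318698) (nat_lit 188) (nat_lit 5) (nat_lit 189) (nat_lit 5) (nat_lit 190) (nat_lit 4) (nat_lit 399) (nat_lit 357) (nat_lit 264))) (XT.nd (nat_lit 78) (nat_lit 76) (nat_lit 0) (XT.lf (nat_lit 0) (nat_lit 10621499109) (nat_lit 152) (nat_lit 59654528607) (nat_lit 76) (nat_lit 39265438506) (nat_lit 186) (nat_lit 5) (nat_lit 188) (nat_lit 5) (nat_lit 187) (nat_lit 4) (nat_lit 400) (nat_lit 357) (nat_lit 263)) (XT.lf (nat_lit 0) (nat_lit 56431085970) (nat_lit 76) (nat_lit 10819666275) (nat_lit 152) (nat_lit 47954626479) (nat_lit 185) (nat_lit 5) (nat_lit 186) (nat_lit 5) (nat_lit 187) (nat_lit 4) (nat_lit 401) (nat_lit 357) (nat_lit 262)))))) (XT.nd (nat_lit 624) (nat_lit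 1140) (nat_lit 0) (XT.nd (nat_lit 312) (nat_lit 456) (nat_lit 0) (XT.nd (nat_lit 156) (nat_lit 228) (nat_lit 0) (XT.nd (nat_lit 78) (nat_lit 76) (nat_lit 0) (XT.lf (nat_lit 0) (nat_lit 9788279985) (nat_lit 152) (nat_lit 57493062166) (nat_lit 76) (nat_lit 53889169096) (nat_lit 183) (nat_lit 5) (nat_lit 185) (nat_lit 5) (nat_lit 184) (nat_lit 4) (nat_lit 402) (nat_lit 357) (nat_lit 261)) (XT.lf (nat_lit 0) (nat_lit 71738212700) (nat_lit 76) (nat_lit 1091447895) (nat_lit 152) (nat_lit 54625929797) (nat_lit 182) (nat_lit 5) (nat_lit 183) (nat_lit 5) (nat_lit 184) (nat_lit 4) (nat_lit 403) (nat_lit 357) (nat_lit 260))) (XT.nd (nat_lit 78) (nat_lit 76) (nat_lit 0) (XT.lf (nat_lit 0) (nat_lit 9882069057) (nat_lit 152) (nat_lit 53614028476) (nat_lit 76) (nat_lit 70570935636) (nat_lit 180) (nat_lit 5) (nat_lit 182) (nat_lit 5) (nat_lit 181) (nat_lit 4) (nat_lit 404) (nat_lit 357) (nat_lit 259)) (XT.lf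 (nat_lit 0) (nat_lit 80229926230) (nat_lit 152) (nat_lit 50930418990) (nat_lit 0) (nat_lit 9872618551) (nat_lit 179) (nat_lit 5) (nat_lit 181) (nat_lit 4) (nat_lit 179) (nat_lit 4) (nat_lit 405) (nat_lit 357) (nat_lit 258)))) (XT.nd (nat_lit 156) (nat_lit 228) (nat_lit 0) (XT.nd (nat_lit 78) (nat_lit 76) (nat_lit 0) (XT.lf (nat_lit 0) (nat_lit 11052081805) (nat_lit 152) (nat_lit 47703099961) (nat_lit 76) (nat_lit 89612642162) (nat_lit 177) (nat_lit 5) (nat_lit 179) (nat_lit 5) (nat_lit 178) (nat_lit 4) (nat_lit 406) (nat_lit 357) (nat_lit 257)) (XT.lf (nat_lit 0) (nat_lit 89570364593) (nat_lit 152) (nat_lit 43958310601) (nat_lit 0) (nat_lit 22558709340) (nat_lit 176) (nat_lit 5) (nat_lit 178) (nat_lit 4) (nat_lit 176) (nat_lit 4) (nat_lit 407) (nat_lit 357) (nat_lit 256))) (XT.nd (nat_lit 78) (nat_lit 76) (nat_lit 0) (XT.lf (nat_lit 0) (nat_lit 13471554171) (nat_lit 152) (nat_lit 39397059461)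 (nat_lit 76) (nat_lit 111355918651) (nat_lit 174) (nat_lit 5) (nat_lit 176) (nat_lit 5) (nat_lit 175) (nat_lit 4) (nat_lit 408) (nat_lit 357) (nat_lit 255)) (XT.lf (nat_lit 0) (nat_lit 101104600310) (nat_lit 152) (nat_lit 34394596196) (nat_lit 0) (nat_lit 37280142274) (nat_lit 173) (nat_lit 5) (nat_lit 175) (nat_lit 4) (nat_lit 173) (nat_lit 4) (nat_lit 409) (nat_lit 357) (nat_lit 254))))) (XT.nd (nat_lit 312) (nat_lit 684) (nat_lit 0) (XT.nd (nat_lit 156) (nat_lit 228) (nat_lit 0) (XT.nd (nat_lit 78) (nat_lit 76) (nat_lit 0) (XT.lf (nat_lit 0) (nat_lit 17341050289) (nat_lit 152) (nat_lit 28277011666) (nat_lit 76) (nat_lit 136187213439) (nat_lit 171) (nat_lit 5) (nat_lit 173) (nat_lit 5) (nat_lit 172) (nat_lit 4) (nat_lit 410) (nat_lit 357) (nat_lit 253)) (XT.lf (nat_lit 0) (nat_lit 115141797043) (nat_lit 152) (nat_lit 21790530265) (nat_lit 0) (nat_lit 54353468415) (nat_lit 170) (nat_lit 5) (nat_lit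 172) (nat_lit 4) (nat_lit 170) (nat_lit 4) (nat_lit 411) (nat_lit 357) (nat_lit 252))) (XT.nd (nat_lit 78) (nat_lit 76) (nat_lit 0) (XT.lf (nat_lit 0) (nat_lit 22892207413) (nat_lit 152) (nat_lit 13860696992) (nat_lit 76) (nat_lit 164543521275) (nat_lit 168) (nat_lit 5) (nat_lit 170) (nat_lit 5) (nat_lit 169) (nat_lit 4) (nat_lit 412) (nat_lit 357) (nat_lit 251)) (XT.lf (nat_lit 0) (nat_lit 132034637022) (nat_lit 152) (nat_lit 5629869193) (nat_lit 0) (nat_lit 74138434616) (nat_lit 167) (nat_lit 5) (nat_lit 169) (nat_lit 4) (nat_lit 167) (nat_lit 4) (nat_lit 413) (nat_lit 357) (nat_lit 250)))) (XT.nd (nat_lit 156) (nat_lit 380) (nat_lit 0) (XT.nd (nat_lit 78) (nat_lit 76) (nat_lit 0) (XT.lf (nat_lit 0) (nat_lit 4551895066) (nat_lit 76) (nat_lit 25911146560) (nat_lit 152) (nat_lit 192437996999) (nat_lit 164) (nat_lit 5) (nat_lit 165) (nat_lit 5) (nat_lit 166) (nat_lit 4) (nat_lit 414) (nat_lit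 357) (nat_lit 249)) (XT.lf (nat_lit 0) (nat_lit 15165769117) (nat_lit 76) (nat_lit 137255990430) (nat_lit 76) (nat_lit 82114662959) (nat_lit 163) (nat_lit 4) (nat_lit 164) (nat_lit 5) (nat_lit 164) (nat_lit 4) (nat_lit 415) (nat_lit 357) (nat_lit 248))) (XT.nd (nat_lit 78) (nat_lit 228) (nat_lit 0) (XT.lf (nat_lit 0) (nat_lit 28057947216) (nat_lit 76) (nat_lit 12527518035) (nat_lit 152) (nat_lit 206251448002) (nat_lit 161) (nat_lit 5) (nat_lit 162) (nat_lit 5) (nat_lit 163) (nat_lit 4) (nat_lit 416) (nat_lit 357) (nat_lit 247)) (XT.nd (nat_lit 78) (nat_lit 152) (nat_lit 0) (XT.lf (nat_lit 0) (nat_lit 41136998897) (nat_lit 76) (nat_lit 135555500838) (nat_lit 76) (nat_lit 83038246734) (nat_lit 160) (nat_lit 4) (nat_lit 161) (nat_lit 5) (nat_lit 161) (nat_lit 4) (nat_lit 417) (nat_lit 357) (nat_lit 246)) (XT.lf (nat_lit 0) (nat_lit 53455717641) (nat_lit 152) (nat_lit 216471496837) (nat_lit 0) (nat_lit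 3438562679) (nat_lit 158) (nat_lit 5) (nat_lit 160) (nat_lit 4) (nat_lit 158) (nat_lit 4) (nat_lit 418) (nat_lit 357) (nat_lit 245))))))))
noncomputable def xc142 : XT := (XT.nd (nat_lit 1248) (nat_lit 1444) (nat_lit 0) (XT.nd (nat_lit 624) (nat_lit 912) (nat_lit 0) (XT.nd (nat_lit 312) (nat_lit 456) (nat_lit 0) (XT.nd (nat_lit 156) (nat_lit 228) (nat_lit 0) (XT.nd (nat_lit 78) (nat_lit 152) (nat_lit 0) (XT.lf (nat_lit 0) (nat_lit 72902604271) (nat_lit 76) (nat_lit 132386162332) (nat_lit 76) (nat_lit 82368338406) (nat_lit 157) (nat_lit 4) (nat_lit 158) (nat_lit 5) (nat_lit 158) (nat_lit 4) (nat_lit 419) (nat_lit 357) (nat_lit 244)) (XT.lf (nat_lit 0) (nat_lit 69680654964) (nat_lit 152) (nat_lit 211034281512) (nat_lit 0) (nat_lit 22044042262) (nat_lit 155) (nat_lit 5) (nat_lit 157) (nat_lit 4) (nat_lit 155) (nat_lit 4) (nat_lit 420) (nat_lit 357) (nat_lit 243))) (XT.nd (nat_lit 78) (nat_lit 152)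 (nat_lit 0) (XT.lf (nat_lit 0) (nat_lit 111383573990) (nat_lit 76) (nat_lit 127432333020) (nat_lit 76) (nat_lit 79795174099) (nat_lit 154) (nat_lit 4) (nat_lit 155) (nat_lit 5) (nat_lit 155) (nat_lit 4) (nat_lit 421) (nat_lit 357) (nat_lit 242)) (XT.lf (nat_lit 0) (nat_lit 89550805277) (nat_lit 152) (nat_lit 201604768523) (nat_lit 0) (nat_lit 44181600821) (nat_lit 152) (nat_lit 5) (nat_lit 154) (nat_lit 4) (nat_lit 152) (nat_lit 4) (nat_lit 422) (nat_lit 357) (nat_lit 241)))) (XT.nd (nat_lit 156) (nat_lit 228) (nat_lit 0) (XT.nd (nat_lit 78) (nat_lit 152) (nat_lit 0) (XT.lf (nat_lit 0) (nat_lit 157632517769) (nat_lit 76) (nat_lit 120328730716) (nat_lit 76) (nat_lit 74959080266) (nat_lit 151) (nat_lit 4) (nat_lit 152) (nat_lit 5) (nat_lit 152) (nat_lit 4) (nat_lit 423) (nat_lit 357) (nat_lit 240)) (XT.lf (nat_lit 0) (nat_lit 113621973127) (nat_lit 152) (nat_lit 187410597922) (nat_lit 0) (nat_lit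 70412388930) (nat_lit 149) (nat_lit 5) (nat_lit 151) (nat_lit 4) (nat_lit 149) (nat_lit 4) (nat_lit 424) (nat_lit 357) (nat_lit 239))) (XT.nd (nat_lit 78) (nat_lit 152) (nat_lit 0) (XT.lf (nat_lit 0) (nat_lit 212851236456) (nat_lit 76) (nat_lit 110653383124) (nat_lit 76) (nat_lit 67443434766) (nat_lit 148) (nat_lit 4) (nat_lit 149) (nat_lit 5) (nat_lit 149) (nat_lit 4) (nat_lit 425) (nat_lit 357) (nat_lit 238)) (XT.lf (nat_lit 0) (nat_lit 142528907106) (nat_lit 152) (nat_lit 167559145856) (nat_lit 0) (nat_lit 101376254207) (nat_lit 146) (nat_lit 5) (nat_lit 148) (nat_lit 4) (nat_lit 146) (nat_lit 4) (nat_lit 426) (nat_lit 357) (nat_lit 237))))) (XT.nd (nat_lit 312) (nat_lit 456) (nat_lit 0) (XT.nd (nat_lit 156) (nat_lit 228) (nat_lit 0) (XT.nd (nat_lit 78) (nat_lit 152) (nat_lit 0) (XT.lf (nat_lit 0) (nat_lit 278410547852) (nat_lit 76) (nat_lit 97919639538) (nat_lit 76) (nat_lit 56766689298)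 (nat_lit 145) (nat_lit 4) (nat_lit 146) (nat_lit 5) (nat_lit 146) (nat_lit 4) (nat_lit 427) (nat_lit 357) (nat_lit 236)) (XT.lf (nat_lit 0) (nat_lit 176995744195) (nat_lit 152) (nat_lit 141020682334) (nat_lit 0) (nat_lit 137802196046) (nat_lit 143) (nat_lit 5) (nat_lit 145) (nat_lit 4) (nat_lit 143) (nat_lit 4) (nat_lit 428) (nat_lit 357) (nat_lit 235))) (XT.nd (nat_lit 78) (nat_lit 152) (nat_lit 0) (XT.lf (nat_lit 0) (nat_lit 355872649623) (nat_lit 76) (nat_lit 81567123948) (nat_lit 76) (nat_lit 42373333016) (nat_lit 142) (nat_lit 4) (nat_lit 143) (nat_lit 5) (nat_lit 143) (nat_lit 4) (nat_lit 429) (nat_lit 357) (nat_lit 234)) (XT.lf (nat_lit 0) (nat_lit 217847789224) (nat_lit 152) (nat_lit 106609300010) (nat_lit 0) (nat_lit 180520155194) (nat_lit 140) (nat_lit 5) (nat_lit 142) (nat_lit 4) (nat_lit 140) (nat_lit 4) (nat_lit 430) (nat_lit 357) (nat_lit 233)))) (XT.nd (nat_lit 156) (nat_lit 228)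 (nat_lit 0) (XT.nd (nat_lit 78) (nat_lit 152) (nat_lit 0) (XT.lf (nat_lit 0) (nat_lit 447016335161) (nat_lit 76) (nat_lit 60951494491) (nat_lit 76) (nat_lit 23623662225) (nat_lit 139) (nat_lit 4) (nat_lit 140) (nat_lit 5) (nat_lit 140) (nat_lit 4) (nat_lit 431) (nat_lit 357) (nat_lit 232)) (XT.lf (nat_lit 0) (nat_lit 266024795449) (nat_lit 152) (nat_lit 62961329905) (nat_lit 0) (nat_lit 230474304194) (nat_lit 137) (nat_lit 5) (nat_lit 139) (nat_lit 4) (nat_lit 137) (nat_lit 4) (nat_lit 432) (nat_lit 357) (nat_lit 231))) (XT.nd (nat_lit 78) (nat_lit 76) (nat_lit 0) (XT.lf (nat_lit 0) (nat_lit 210824942) (nat_lit 152) (nat_lit 35118461985) (nat_lit 76) (nat_lit 553651021503) (nat_lit 135) (nat_lit 5) (nat_lit 137) (nat_lit 5) (nat_lit 136) (nat_lit 4) (nat_lit 433) (nat_lit 357) (nat_lit 230)) (XT.lf (nat_lit 0) (nat_lit 322595932567) (nat_lit 152) (nat_lit 8510924732) (nat_lit 0) (nat_lit 288738024957)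 (nat_lit 134) (nat_lit 5) (nat_lit 136) (nat_lit 4) (nat_lit 134) (nat_lit 4) (nat_lit 434) (nat_lit 357) (nat_lit 229)))))) (XT.nd (nat_lit 624) (nat_lit 456) (nat_lit 0) (XT.nd (nat_lit 312) (nat_lit 456) (nat_lit 0) (XT.nd (nat_lit 156) (nat_lit 228) (nat_lit 0) (XT.nd (nat_lit 78) (nat_lit 76) (nat_lit 0) (XT.lf (nat_lit 0) (nat_lit 26512980099) (nat_lit 76) (nat_lit 2936297886) (nat_lit 152) (nat_lit 623094652809) (nat_lit 131) (nat_lit 5) (nat_lit 132) (nat_lit 5) (nat_lit 133) (nat_lit 4) (nat_lit 435) (nat_lit 357) (nat_lit 228)) (XT.lf (nat_lit 0) (nat_lit 60473064863) (nat_lit 76) (nat_lit 329247740278) (nat_lit 76) (nat_lit 297001871569) (nat_lit 130) (nat_lit 4) (nat_lit 131) (nat_lit 5) (nat_lit 131) (nat_lit 4) (nat_lit 436) (nat_lit 357) (nat_lit 227))) (XT.nd (nat_lit 78) (nat_lit 76) (nat_lit 0) (XT.lf (nat_lit 0) (nat_lit 66738068279) (nat_lit 152) (nat_lit 620160675879) (nat_lit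 0) (nat_lit 36027614354) (nat_lit 128) (nat_lit 5) (nat_lit 130) (nat_lit 4) (nat_lit 128) (nat_lit 4) (nat_lit 437) (nat_lit 357) (nat_lit 226)) (XT.lf (nat_lit 0) (nat_lit 144877705686) (nat_lit 76) (nat_lit 323331919045) (nat_lit 76) (nat_lit 292621369958) (nat_lit 127) (nat_lit 4) (nat_lit 128) (nat_lit 5) (nat_lit 128) (nat_lit 4) (nat_lit 438) (nat_lit 357) (nat_lit 225)))) (XT.nd (nat_lit 156) (nat_lit 228) (nat_lit 0) (XT.nd (nat_lit 78) (nat_lit 76) (nat_lit 0) (XT.lf (nat_lit 0) (nat_lit 112214104219) (nat_lit 152) (nat_lit 605740690393) (nat_lit 0) (nat_lit 82965878316) (nat_lit 125) (nat_lit 5) (nat_lit 127) (nat_lit 4) (nat_lit 125) (nat_lit 4) (nat_lit 439) (nat_lit 357) (nat_lit 224)) (XT.lf (nat_lit 0) (nat_lit 246852246635) (nat_lit 76) (nat_lit 312678212647) (nat_lit 76) (nat_lit 283429909044) (nat_lit 124) (nat_lit 4) (nat_lit 125) (nat_lit 5) (nat_lit 125) (nat_lit 4) (nat_lit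 440) (nat_lit 357) (nat_lit 223))) (XT.nd (nat_lit 78) (nat_lit 76) (nat_lit 0) (XT.lf (nat_lit 0) (nat_lit 167120105964) (nat_lit 152) (nat_lit 580968755195) (nat_lit 0) (nat_lit 139264510204) (nat_lit 122) (nat_lit 5) (nat_lit 124) (nat_lit 4) (nat_lit 122) (nat_lit 4) (nat_lit 441) (nat_lit 357) (nat_lit 222)) (XT.lf (nat_lit 0) (nat_lit 369174504441) (nat_lit 76) (nat_lit 296330307573) (nat_lit 76) (nat_lit 268474648370) (nat_lit 121) (nat_lit 4) (nat_lit 122) (nat_lit 5) (nat_lit 122) (nat_lit 4) (nat_lit 442) (nat_lit 357) (nat_lit 221))))) (XT.nd (nat_lit 46488) (nat_lit 0) (nat_lit 13452) (XT.nd (nat_lit 156) (nat_lit 228) (nat_lit 0) (XT.nd (nat_lit 78) (nat_lit 76) (nat_lit 0) (XT.lf (nat_lit 0) (nat_lit 232928202943) (nat_lit 152) (nat_lit 543810868921) (nat_lit 0) (nat_lit 206398947756) (nat_lit 119) (nat_lit 5) (nat_lit 121) (nat_lit 4) (nat_lit 119) (nat_lit 4) (nat_lit 443) (nat_lit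 357) (nat_lit 220)) (XT.lf (nat_lit 0) (nat_lit 515015875693) (nat_lit 76) (nat_lit 273182293581) (nat_lit 76) (nat_lit 246652986592) (nat_lit 118) (nat_lit 4) (nat_lit 119) (nat_lit 5) (nat_lit 119) (nat_lit 4) (nat_lit 444) (nat_lit 357) (nat_lit 219))) (XT.nd (nat_lit 78) (nat_lit 76) (nat_lit 0) (XT.lf (nat_lit 0) (nat_lit 311318558774) (nat_lit 152) (nat_lit 491916177954) (nat_lit 0) (nat_lit 286052506437) (nat_lit 116) (nat_lit 5) (nat_lit 118) (nat_lit 4) (nat_lit 116) (nat_lit 4) (nat_lit 445) (nat_lit 357) (nat_lit 218)) (XT.lf (nat_lit 0) (nat_lit 687993719499) (nat_lit 76) (nat_lit 241957584127) (nat_lit 76) (nat_lit 216691489492) (nat_lit 115) (nat_lit 4) (nat_lit 116) (nat_lit 5) (nat_lit 116) (nat_lit 4) (nat_lit 446) (nat_lit 357) (nat_lit 217)))) (XT.nd (nat_lit 156) (nat_lit 0) (nat_lit 76) (XT.nd (nat_lit 78) (nat_lit 0) (nat_lit 76) (XT.lf (nat_lit 0) (nat_lit 2124117992) (nat_lit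 836) (nat_lit 3033566757) (nat_lit 836) (nat_lit 3033566757) (nat_lit 292) (nat_lit 3) (nat_lit 303) (nat_lit 3) (nat_lit 303) (nat_lit 5) (nat_lit 358) (nat_lit 358) (nat_lit 304)) (XT.lf (nat_lit 0) (nat_lit 4953515756) (nat_lit 760) (nat_lit 9781845343) (nat_lit 836) (nat_lit 2275674519) (nat_lit 293) (nat_lit 5) (nat_lit 303) (nat_lit 5) (nat_lit 304) (nat_lit 5) (nat_lit 359) (nat_lit 358) (nat_lit 303))) (XT.nd (nat_lit 78) (nat_lit 0) (nat_lit 76) (XT.lf (nat_lit 76) (nat_lit 4052212391) (nat_lit 0) (nat_lit 1969043954) (nat_lit 836) (nat_lit 11653292564) (nat_lit 294) (nat_lit 5) (nat_lit 293) (nat_lit 5) (nat_lit 304) (nat_lit 5) (nat_lit 360) (nat_lit 358) (nat_lit 302)) (XT.nd (nat_lit 78) (nat_lit 0) (nat_lit 76) (XT.lf (nat_lit 76) (nat_lit 772962532) (nat_lit 0) (nat_lit 6735378026) (nat_lit 836) (nat_lit 10866106486) (nat_lit 295) (nat_lit 5) (nat_lit 294) (nat_lit 5) (nat_lit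 305) (nat_lit 5) (nat_lit 361) (nat_lit 358) (nat_lit 301)) (XT.lf (nat_lit 0) (nat_lit 9466299373) (nat_lit 760) (nat_lit 2485078733) (nat_lit 836) (nat_lit 7161363531) (nat_lit 295) (nat_lit 5) (nat_lit 305) (nat_lit 5) (nat_lit 306) (nat_lit 5) (nat_lit 362) (nat_lit 358) (nat_lit 300))))))))
noncomputable def xc143 : XT := (XT.nd (nat_lit 1248) (nat_lit 2964) (nat_lit 0) (XT.nd (nat_lit 624) (nat_lit 2356) (nat_lit 0) (XT.nd (nat_lit 312) (nat_lit 1064) (nat_lit 0) (XT.nd (nat_lit 156) (nat_lit 1216) (nat_lit 0) (XT.nd (nat_lit 78) (nat_lit 0) (nat_lit 0) (XT.lf (nat_lit 0) (nat_lit 11920058545) (nat_lit 760) (nat_lit 5773297331) (nat_lit 836) (nat_lit 2199785738) (nat_lit 296) (nat_lit 5) (nat_lit 306) (nat_lit 5) (nat_lit 307) (nat_lit 5) (nat_lit 363) (nat_lit 358) (nat_lit 299)) (XT.lf (nat_lit 76) (nat_lit 11551957807) (nat_lit 0) (nat_lit 3415172902) (nat_lit 836) (nat_lit 5748992267)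 (nat_lit 297) (nat_lit 5) (nat_lit 296) (nat_lit 5) (nat_lit 307) (nat_lit 5) (nat_lit 364) (nat_lit 358) (nat_lit 298))) (XT.nd (nat_lit 78) (nat_lit 532) (nat_lit 0) (XT.lf (nat_lit 0) (nat_lit 8942580249) (nat_lit 760) (nat_lit 9717647370) (nat_lit 836) (nat_lit 2924602280) (nat_lit 287) (nat_lit 5) (nat_lit 297) (nat_lit 5) (nat_lit 298) (nat_lit 5) (nat_lit 365) (nat_lit 358) (nat_lit 297)) (XT.lf (nat_lit 0) (nat_lit 510044568) (nat_lit 532) (nat_lit 16172254884) (nat_lit 76) (nat_lit 5821219263) (nat_lit 280) (nat_lit 5) (nat_lit 287) (nat_lit 5) (nat_lit 281) (nat_lit 5) (nat_lit 366) (nat_lit 358) (nat_lit 296)))) (XT.nd (nat_lit 156) (nat_lit 304) (nat_lit 0) (XT.nd (nat_lit 78) (nat_lit 380) (nat_lit 0) (XT.lf (nat_lit 0) (nat_lit 3665927596) (nat_lit 380) (nat_lit 873155106) (nat_lit 456) (nat_lit 18933118551) (nat_lit 275) (nat_lit 5) (nat_lit 280) (nat_lit 5) (nat_lit 281) (nat_lit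 5) (nat_lit 367) (nat_lit 358) (nat_lit 295)) (XT.lf (nat_lit 0) (nat_lit 911875337) (nat_lit 380) (nat_lit 8509294202) (nat_lit 456) (nat_lit 15070672572) (nat_lit 270) (nat_lit 5) (nat_lit 275) (nat_lit 5) (nat_lit 276) (nat_lit 5) (nat_lit 368) (nat_lit 358) (nat_lit 294))) (XT.nd (nat_lit 78) (nat_lit 304) (nat_lit 0) (XT.lf (nat_lit 0) (nat_lit 15171207736) (nat_lit 456) (nat_lit 1759030264) (nat_lit 76) (nat_lit 8638947017) (nat_lit 270) (nat_lit 5) (nat_lit 276) (nat_lit 5) (nat_lit 271) (nat_lit 5) (nat_lit 369) (nat_lit 358) (nat_lit 293)) (XT.lf (nat_lit 0) (nat_lit 21861765641) (nat_lit 380) (nat_lit 4359611578) (nat_lit 76) (nat_lit 487312304) (nat_lit 266) (nat_lit 5) (nat_lit 271) (nat_lit 5) (nat_lit 267) (nat_lit 5) (nat_lit 370) (nat_lit 358) (nat_lit 292))))) (XT.nd (nat_lit 312) (nat_lit 1140) (nat_lit 0) (XT.nd (nat_lit 156) (nat_lit 532) (nat_lit 0) (XT.nd (nat_lit 78) (nat_lit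 304) (nat_lit 0) (XT.lf (nat_lit 0) (nat_lit 1745366681) (nat_lit 380) (nat_lit 7065750802) (nat_lit 76) (nat_lit 19095645420) (nat_lit 261) (nat_lit 5) (nat_lit 266) (nat_lit 5) (nat_lit 262) (nat_lit 5) (nat_lit 371) (nat_lit 358) (nat_lit 291)) (XT.lf (nat_lit 0) (nat_lit 9225239117) (nat_lit 380) (nat_lit 9805018159) (nat_lit 76) (nat_lit 10139951427) (nat_lit 257) (nat_lit 5) (nat_lit 262) (nat_lit 5) (nat_lit 258) (nat_lit 5) (nat_lit 372) (nat_lit 358) (nat_lit 290))) (XT.nd (nat_lit 78) (nat_lit 228) (nat_lit 0) (XT.lf (nat_lit 0) (nat_lit 17844830083) (nat_lit 380) (nat_lit 12471506447) (nat_lit 76) (nat_lit 191327200) (nat_lit 253) (nat_lit 5) (nat_lit 258) (nat_lit 5) (nat_lit 254) (nat_lit 5) (nat_lit 373) (nat_lit 358) (nat_lit 289)) (XT.lf (nat_lit 0) (nat_lit 16700498063) (nat_lit 228) (nat_lit 11192508355) (nat_lit 304) (nat_lit 4022157836) (nat_lit 250) (nat_lit 5) (nat_lit 253)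 (nat_lit 5) (nat_lit 254) (nat_lit 5) (nat_lit 374) (nat_lit 358) (nat_lit 288)))) (XT.nd (nat_lit 156) (nat_lit 532) (nat_lit 0) (XT.nd (nat_lit 78) (nat_lit 228) (nat_lit 0) (XT.lf (nat_lit 0) (nat_lit 5745527380) (nat_lit 380) (nat_lit 17945698260) (nat_lit 76) (nat_lit 9709609100) (nat_lit 245) (nat_lit 5) (nat_lit 250) (nat_lit 5) (nat_lit 246) (nat_lit 5) (nat_lit 375) (nat_lit 358) (nat_lit 287)) (XT.lf (nat_lit 0) (nat_lit 14305874988) (nat_lit 228) (nat_lit 2516350888) (nat_lit 304) (nat_lit 18146410373) (nat_lit 242) (nat_lit 5) (nat_lit 245) (nat_lit 5) (nat_lit 246) (nat_lit 5) (nat_lit 376) (nat_lit 358) (nat_lit 286))) (XT.nd (nat_lit 78) (nat_lit 304) (nat_lit 0) (XT.lf (nat_lit 0) (nat_lit 13211605298) (nat_lit 228) (nat_lit 16401082896) (nat_lit 304) (nat_lit 7007792289) (nat_lit 239) (nat_lit 5) (nat_lit 242) (nat_lit 5) (nat_lit 243) (nat_lit 5) (nat_lit 377) (nat_lit 358)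 (nat_lit 285)) (XT.lf (nat_lit 0) (nat_lit 5557868205) (nat_lit 304) (nat_lit 26082357153) (nat_lit 76) (nat_lit 6725492308) (nat_lit 235) (nat_lit 5) (nat_lit 239) (nat_lit 5) (nat_lit 236) (nat_lit 5) (nat_lit 378) (nat_lit 358) (nat_lit 284)))))) (XT.nd (nat_lit 624) (nat_lit 1368) (nat_lit 0) (XT.nd (nat_lit 312) (nat_lit 760) (nat_lit 0) (XT.nd (nat_lit 156) (nat_lit 456) (nat_lit 0) (XT.nd (nat_lit 78) (nat_lit 152) (nat_lit 0) (XT.lf (nat_lit 0) (nat_lit 11379763707) (nat_lit 228) (nat_lit 8362456050) (nat_lit 304) (nat_lit 20459662117) (nat_lit 232) (nat_lit 5) (nat_lit 235) (nat_lit 5) (nat_lit 236) (nat_lit 5) (nat_lit 379) (nat_lit 358) (nat_lit 283)) (XT.lf (nat_lit 0) (nat_lit 10660405213) (nat_lit 152) (nat_lit 25278648624) (nat_lit 228) (nat_lit 6201998663) (nat_lit 230) (nat_lit 5) (nat_lit 232) (nat_lit 5) (nat_lit 233) (nat_lit 5) (nat_lit 380) (nat_lit 358) (nat_lit 282)))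 (XT.nd (nat_lit 78) (nat_lit 152) (nat_lit 0) (XT.lf (nat_lit 0) (nat_lit 9706216263) (nat_lit 304) (nat_lit 34062041493) (nat_lit 76) (nat_lit 419706200) (nat_lit 226) (nat_lit 5) (nat_lit 230) (nat_lit 5) (nat_lit 227) (nat_lit 5) (nat_lit 381) (nat_lit 358) (nat_lit 281)) (XT.lf (nat_lit 0) (nat_lit 9561572997) (nat_lit 152) (nat_lit 18232524323) (nat_lit 228) (nat_lit 18543232566) (nat_lit 224) (nat_lit 5) (nat_lit 226) (nat_lit 5) (nat_lit 227) (nat_lit 5) (nat_lit 382) (nat_lit 358) (nat_lit 280)))) (XT.nd (nat_lit 156) (nat_lit 380) (nat_lit 0) (XT.nd (nat_lit 78) (nat_lit 228) (nat_lit 0) (XT.lf (nat_lit 0) (nat_lit 9389058786) (nat_lit 152) (nat_lit 38824492111) (nat_lit 228) (nat_lit 400867091) (nat_lit 222) (nat_lit 5) (nat_lit 224) (nat_lit 5) (nat_lit 225) (nat_lit 5) (nat_lit 383) (nat_lit 358) (nat_lit 279)) (XT.lf (nat_lit 0) (nat_lit 9176991320) (nat_lit 152) (nat_lit 10492769281)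 (nat_lit 228) (nat_lit 31334371535) (nat_lit 219) (nat_lit 5) (nat_lit 221) (nat_lit 5) (nat_lit 222) (nat_lit 5) (nat_lit 384) (nat_lit 358) (nat_lit 278))) (XT.nd (nat_lit 78) (nat_lit 228) (nat_lit 0) (XT.lf (nat_lit 0) (nat_lit 9248096351) (nat_lit 152) (nat_lit 33226616199) (nat_lit 228) (nat_lit 11052846366) (nat_lit 217) (nat_lit 5) (nat_lit 219) (nat_lit 5) (nat_lit 220) (nat_lit 5) (nat_lit 385) (nat_lit 358) (nat_lit 277)) (XT.lf (nat_lit 0) (nat_lit 9619137666) (nat_lit 152) (nat_lit 1942507827) (nat_lit 228) (nat_lit 44629855918) (nat_lit 214) (nat_lit 5) (nat_lit 216) (nat_lit 5) (nat_lit 217) (nat_lit 5) (nat_lit 386) (nat_lit 358) (nat_lit 276))))) (XT.nd (nat_lit 312) (nat_lit 836) (nat_lit 0) (XT.nd (nat_lit 156) (nat_lit 228) (nat_lit 0) (XT.nd (nat_lit 78) (nat_lit 152) (nat_lit 0) (XT.lf (nat_lit 0) (nat_lit 9987683557) (nat_lit 152) (nat_lit 27043100210) (nat_lit 228) (nat_lit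 21957079579) (nat_lit 212) (nat_lit 5) (nat_lit 214) (nat_lit 5) (nat_lit 215) (nat_lit 5) (nat_lit 387) (nat_lit 358) (nat_lit 275)) (XT.lf (nat_lit 0) (nat_lit 3586574681) (nat_lit 152) (nat_lit 51053663703) (nat_lit 76) (nat_lit 7308820398) (nat_lit 210) (nat_lit 5) (nat_lit 212) (nat_lit 5) (nat_lit 211) (nat_lit 5) (nat_lit 388) (nat_lit 358) (nat_lit 274))) (XT.nd (nat_lit 78) (nat_lit 76) (nat_lit 0) (XT.lf (nat_lit 0) (nat_lit 11747864570) (nat_lit 152) (nat_lit 20164943061) (nat_lit 228) (nat_lit 33140926843) (nat_lit 208) (nat_lit 5) (nat_lit 210) (nat_lit 5) (nat_lit 211) (nat_lit 5) (nat_lit 389) (nat_lit 358) (nat_lit 273)) (XT.lf (nat_lit 0) (nat_lit 13158940888) (nat_lit 76) (nat_lit 50713463462) (nat_lit 152) (nat_lit 4466016615) (nat_lit 207) (nat_lit 5) (nat_lit 208) (nat_lit 5) (nat_lit 209) (nat_lit 4) (nat_lit 390) (nat_lit 358) (nat_lit 272)))) (XT.nd (nat_lit 156) (nat_lit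 532) (nat_lit 0) (XT.nd (nat_lit 78) (nat_lit 76) (nat_lit 0) (XT.lf (nat_lit 0) (nat_lit 14691128740) (nat_lit 152) (nat_lit 12468364257) (nat_lit 228) (nat_lit 44630456938) (nat_lit 204) (nat_lit 5) (nat_lit 206) (nat_lit 5) (nat_lit 207) (nat_lit 5) (nat_lit 391) (nat_lit 358) (nat_lit 271)) (XT.lf (nat_lit 0) (nat_lit 16628512761) (nat_lit 76) (nat_lit 46210925918) (nat_lit 152) (nat_lit 12590458736) (nat_lit 203) (nat_lit 5) (nat_lit 204) (nat_lit 5) (nat_lit 205) (nat_lit 4) (nat_lit 392) (nat_lit 358) (nat_lit 270))) (XT.nd (nat_lit 78) (nat_lit 304) (nat_lit 0) (XT.lf (nat_lit 0) (nat_lit 19005443775) (nat_lit 152) (nat_lit 3812885484) (nat_lit 228) (nat_lit 56450020654) (nat_lit 200) (nat_lit 5) (nat_lit 202) (nat_lit 5) (nat_lit 203) (nat_lit 5) (nat_lit 393) (nat_lit 358) (nat_lit 269)) (XT.nd (nat_lit 78) (nat_lit 228) (nat_lit 0) (XT.lf (nat_lit 0) (nat_lit 21565724839) (nat_lit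 76) (nat_lit 41084538041) (nat_lit 152) (nat_lit 20651718138) (nat_lit 199) (nat_lit 5) (nat_lit 200) (nat_lit 5) (nat_lit 201) (nat_lit 4) (nat_lit 394) (nat_lit 358) (nat_lit 268)) (XT.lf (nat_lit 0) (nat_lit 19039917830) (nat_lit 228) (nat_lit 62753969248) (nat_lit 76) (nat_lit 5770060048) (nat_lit 196) (nat_lit 5) (nat_lit 199) (nat_lit 5) (nat_lit 197) (nat_lit 4) (nat_lit 395) (nat_lit 358) (nat_lit 267))))))))
noncomputable def xc144 : XT := (XT.nd (nat_lit 1248) (nat_lit 1900) (nat_lit 0) (XT.nd (nat_lit 624) (nat_lit 912) (nat_lit 0) (XT.nd (nat_lit 312) (nat_lit 456) (nat_lit 0) (XT.nd (nat_lit 156) (nat_lit 228) (nat_lit 0) (XT.nd (nat_lit 78) (nat_lit 228) (nat_lit 0) (XT.lf (nat_lit 0) (nat_lit 28202151012) (nat_lit 76) (nat_lit 35209951251) (nat_lit 152) (nat_lit 28626402963) (nat_lit 195) (nat_lit 5) (nat_lit 196) (nat_lit 5) (nat_lit 197) (nat_lit 4) (nat_lit 396) (nat_lit 358)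 (nat_lit 266)) (XT.lf (nat_lit 0) (nat_lit 15880023726) (nat_lit 228) (nat_lit 64397387995) (nat_lit 76) (nat_lit 16488330945) (nat_lit 192) (nat_lit 5) (nat_lit 195) (nat_lit 5) (nat_lit 193) (nat_lit 4) (nat_lit 397) (nat_lit 358) (nat_lit 265))) (XT.nd (nat_lit 78) (nat_lit 152) (nat_lit 0) (XT.lf (nat_lit 0) (nat_lit 36804201992) (nat_lit 76) (nat_lit 28445182462) (nat_lit 152) (nat_lit 36483042903) (nat_lit 191) (nat_lit 5) (nat_lit 192) (nat_lit 5) (nat_lit 193) (nat_lit 4) (nat_lit 398) (nat_lit 358) (nat_lit 264)) (XT.lf (nat_lit 0) (nat_lit 13364453732) (nat_lit 152) (nat_lit 64947842103) (nat_lit 76) (nat_lit 28662206741) (nat_lit 189) (nat_lit 5) (nat_lit 191) (nat_lit 5) (nat_lit 190) (nat_lit 4) (nat_lit 399) (nat_lit 358) (nat_lit 263)))) (XT.nd (nat_lit 156) (nat_lit 228) (nat_lit 0) (XT.nd (nat_lit 78) (nat_lit 152) (nat_lit 0) (XT.lf (nat_lit 0) (nat_lit 47677806560) (nat_lit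 76) (nat_lit 20628218262) (nat_lit 152) (nat_lit 44180791716) (nat_lit 188) (nat_lit 5) (nat_lit 189) (nat_lit 5) (nat_lit 190) (nat_lit 4) (nat_lit 400) (nat_lit 358) (nat_lit 262)) (XT.lf (nat_lit 0) (nat_lit 11593943915) (nat_lit 152) (nat_lit 64188393758) (nat_lit 76) (nat_lit 42516309603) (nat_lit 186) (nat_lit 5) (nat_lit 188) (nat_lit 5) (nat_lit 187) (nat_lit 4) (nat_lit 401) (nat_lit 358) (nat_lit 261))) (XT.nd (nat_lit 78) (nat_lit 152) (nat_lit 0) (XT.lf (nat_lit 0) (nat_lit 61173705190) (nat_lit 76) (nat_lit 11574303166) (nat_lit 152) (nat_lit 51667940870) (nat_lit 185) (nat_lit 5) (nat_lit 186) (nat_lit 5) (nat_lit 187) (nat_lit 4) (nat_lit 402) (nat_lit 358) (nat_lit 260)) (XT.lf (nat_lit 0) (nat_lit 10686791588) (nat_lit 152) (nat_lit 61866523497) (nat_lit 76) (nat_lit 58305064601) (nat_lit 183) (nat_lit 5) (nat_lit 185) (nat_lit 5) (nat_lit 184) (nat_lit 4) (nat_lit 403) (nat_lit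 358) (nat_lit 259))))) (XT.nd (nat_lit 312) (nat_lit 456) (nat_lit 0) (XT.nd (nat_lit 156) (nat_lit 228) (nat_lit 0) (XT.nd (nat_lit 78) (nat_lit 152) (nat_lit 0) (XT.lf (nat_lit 0) (nat_lit 77693432384) (nat_lit 76) (nat_lit 1072873376) (nat_lit 152) (nat_lit 58880218249) (nat_lit 182) (nat_lit 5) (nat_lit 183) (nat_lit 5) (nat_lit 184) (nat_lit 4) (nat_lit 404) (nat_lit 358) (nat_lit 258)) (XT.lf (nat_lit 0) (nat_lit 10781308046) (nat_lit 152) (nat_lit 57689096413) (nat_lit 76) (nat_lit 76316557690) (nat_lit 180) (nat_lit 5) (nat_lit 182) (nat_lit 5) (nat_lit 181) (nat_lit 4) (nat_lit 405) (nat_lit 358) (nat_lit 257))) (XT.nd (nat_lit 78) (nat_lit 152) (nat_lit 0) (XT.lf (nat_lit 0) (nat_lit 86753716480) (nat_lit 152) (nat_lit 54796485516) (nat_lit 0) (nat_lit 10760129069) (nat_lit 179) (nat_lit 5) (nat_lit 181) (nat_lit 4) (nat_lit 179) (nat_lit 4) (nat_lit 406) (nat_lit 358) (nat_lit 256))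 (XT.lf (nat_lit 0) (nat_lit 12038600024) (nat_lit 152) (nat_lit 51316652131) (nat_lit 76) (nat_lit 96876880103) (nat_lit 177) (nat_lit 5) (nat_lit 179) (nat_lit 5) (nat_lit 178) (nat_lit 4) (nat_lit 407) (nat_lit 358) (nat_lit 255)))) (XT.nd (nat_lit 156) (nat_lit 228) (nat_lit 0) (XT.nd (nat_lit 78) (nat_lit 152) (nat_lit 0) (XT.lf (nat_lit 0) (nat_lit 96835291178) (nat_lit 152) (nat_lit 47277698907) (nat_lit 0) (nat_lit 24456420341) (nat_lit 176) (nat_lit 5) (nat_lit 178) (nat_lit 4) (nat_lit 176) (nat_lit 4) (nat_lit 408) (nat_lit 358) (nat_lit 254)) (XT.lf (nat_lit 0) (nat_lit 14645722287) (nat_lit 152) (nat_lit 42356932207) (nat_lit 76) (nat_lit 120355018182) (nat_lit 174) (nat_lit 5) (nat_lit 176) (nat_lit 5) (nat_lit 175) (nat_lit 4) (nat_lit 409) (nat_lit 358) (nat_lit 253))) (XT.nd (nat_lit 78) (nat_lit 152) (nat_lit 0) (XT.lf (nat_lit 0) (nat_lit 109286560713) (nat_lit 152) (nat_lit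 36959429803) (nat_lit 0) (nat_lit 40351015748) (nat_lit 173) (nat_lit 5) (nat_lit 175) (nat_lit 4) (nat_lit 173) (nat_lit 4) (nat_lit 410) (nat_lit 358) (nat_lit 252)) (XT.lf (nat_lit 0) (nat_lit 18819249028) (nat_lit 152) (nat_lit 30357547696) (nat_lit 76) (nat_lit 147168354966) (nat_lit 171) (nat_lit 5) (nat_lit 173) (nat_lit 5) (nat_lit 172) (nat_lit 4) (nat_lit 411) (nat_lit 358) (nat_lit 251)))))) (XT.nd (nat_lit 624) (nat_lit 912) (nat_lit 0) (XT.nd (nat_lit 312) (nat_lit 456) (nat_lit 0) (XT.nd (nat_lit 156) (nat_lit 304) (nat_lit 0) (XT.nd (nat_lit 78) (nat_lit 152) (nat_lit 0) (XT.lf (nat_lit 0) (nat_lit 124441389338) (nat_lit 152) (nat_lit 23357052142) (nat_lit 0) (nat_lit 58785805473) (nat_lit 170) (nat_lit 5) (nat_lit 172) (nat_lit 4) (nat_lit 170) (nat_lit 4) (nat_lit 412) (nat_lit 358) (nat_lit 250)) (XT.lf (nat_lit 0) (nat_lit 24809317605) (nat_lit 152) (nat_lit 14797677527) (nat_lit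 76) (nat_lit 177788857922) (nat_lit 168) (nat_lit 5) (nat_lit 170) (nat_lit 5) (nat_lit 169) (nat_lit 4) (nat_lit 413) (nat_lit 358) (nat_lit 249))) (XT.nd (nat_lit 78) (nat_lit 228) (nat_lit 0) (XT.lf (nat_lit 0) (nat_lit 142680645148) (nat_lit 152) (nat_lit 5913042870) (nat_lit 0) (nat_lit 80149326220) (nat_lit 167) (nat_lit 5) (nat_lit 169) (nat_lit 4) (nat_lit 167) (nat_lit 4) (nat_lit 414) (nat_lit 358) (nat_lit 248)) (XT.lf (nat_lit 0) (nat_lit 5084046609) (nat_lit 76) (nat_lit 27899534400) (nat_lit 152) (nat_lit 207745365903) (nat_lit 164) (nat_lit 5) (nat_lit 165) (nat_lit 5) (nat_lit 166) (nat_lit 4) (nat_lit 415) (nat_lit 358) (nat_lit 247)))) (XT.nd (nat_lit 156) (nat_lit 228) (nat_lit 0) (XT.nd (nat_lit 78) (nat_lit 152) (nat_lit 0) (XT.lf (nat_lit 0) (nat_lit 16542460876) (nat_lit 76) (nat_lit 148154123812) (nat_lit 76) (nat_lit 88598697399) (nat_lit 163) (nat_lit 4) (nat_lit 164)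 (nat_lit 5) (nat_lit 164) (nat_lit 4) (nat_lit 416) (nat_lit 358) (nat_lit 246)) (XT.lf (nat_lit 0) (nat_lit 30461517288) (nat_lit 76) (nat_lit 13449575510) (nat_lit 152) (nat_lit 222668833999) (nat_lit 161) (nat_lit 5) (nat_lit 162) (nat_lit 5) (nat_lit 163) (nat_lit 4) (nat_lit 417) (nat_lit 358) (nat_lit 245))) (XT.nd (nat_lit 78) (nat_lit 152) (nat_lit 0) (XT.lf (nat_lit 0) (nat_lit 44582557430) (nat_lit 76) (nat_lit 146321868593) (nat_lit 76) (nat_lit 89600953848) (nat_lit 160) (nat_lit 4) (nat_lit 161) (nat_lit 5) (nat_lit 161) (nat_lit 4) (nat_lit 418) (nat_lit 358) (nat_lit 244)) (XT.lf (nat_lit 0) (nat_lit 57807727734) (nat_lit 152) (nat_lit 233636344444) (nat_lit 0) (nat_lit 3787189518) (nat_lit 158) (nat_lit 5) (nat_lit 160) (nat_lit 4) (nat_lit 158) (nat_lit 4) (nat_lit 419) (nat_lit 358) (nat_lit 243))))) (XT.nd (nat_lit 312) (nat_lit 456) (nat_lit 0) (XT.nd (nat_lit 156) (nat_lit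 228) (nat_lit 0) (XT.nd (nat_lit 78) (nat_lit 152) (nat_lit 0) (XT.lf (nat_lit 0) (nat_lit 78881041115) (nat_lit 76) (nat_lit 142903066039) (nat_lit 76) (nat_lit 88881954294) (nat_lit 157) (nat_lit 4) (nat_lit 158) (nat_lit 5) (nat_lit 158) (nat_lit 4) (nat_lit 420) (nat_lit 358) (nat_lit 242)) (XT.lf (nat_lit 0) (nat_lit 75326436115) (nat_lit 152) (nat_lit 227772441980) (nat_lit 0) (nat_lit 23877252505) (nat_lit 155) (nat_lit 5) (nat_lit 157) (nat_lit 4) (nat_lit 155) (nat_lit 4) (nat_lit 421) (nat_lit 358) (nat_lit 241))) (XT.nd (nat_lit 78) (nat_lit 152) (nat_lit 0) (XT.lf (nat_lit 0) (nat_lit 120432558603) (nat_lit 76) (nat_lit 137556825340) (nat_lit 76) (nat_lit 86107173436) (nat_lit 154) (nat_lit 4) (nat_lit 155) (nat_lit 5) (nat_lit 155) (nat_lit 4) (nat_lit 422) (nat_lit 358) (nat_lit 240)) (XT.lf (nat_lit 0) (nat_lit 96782221498) (nat_lit 152) (nat_lit 217596419443) (nat_lit 0) (nat_lit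 47782140060) (nat_lit 152) (nat_lit 5) (nat_lit 154) (nat_lit 4) (nat_lit 152) (nat_lit 4) (nat_lit 423) (nat_lit 358) (nat_lit 239)))) (XT.nd (nat_lit 156) (nat_lit 228) (nat_lit 0) (XT.nd (nat_lit 78) (nat_lit 152) (nat_lit 0) (XT.lf (nat_lit 0) (nat_lit 170373907609) (nat_lit 76) (nat_lit 129888645505) (nat_lit 76) (nat_lit 80888181699) (nat_lit 151) (nat_lit 4) (nat_lit 152) (nat_lit 5) (nat_lit 152) (nat_lit 4) (nat_lit 424) (nat_lit 358) (nat_lit 238)) (XT.lf (nat_lit 0) (nat_lit 122775336407) (nat_lit 152) (nat_lit 202274149264) (nat_lit 0) (nat_lit 76107890835) (nat_lit 149) (nat_lit 5) (nat_lit 151) (nat_lit 4) (nat_lit 149) (nat_lit 4) (nat_lit 425) (nat_lit 358) (nat_lit 237))) (XT.nd (nat_lit 78) (nat_lit 152) (nat_lit 0) (XT.lf (nat_lit 0) (nat_lit 230003012797) (nat_lit 76) (nat_lit 119442801217) (nat_lit 76) (nat_lit 72775043436) (nat_lit 148) (nat_lit 4) (nat_lit 149) (nat_lit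 5) (nat_lit 149) (nat_lit 4) (nat_lit 426) (nat_lit 358) (nat_lit 236)) (XT.lf (nat_lit 0) (nat_lit 153991294356) (nat_lit 152) (nat_lit 180841618213) (nat_lit 0) (nat_lit 109545535439) (nat_lit 146) (nat_lit 5) (nat_lit 148) (nat_lit 4) (nat_lit 146) (nat_lit 4) (nat_lit 427) (nat_lit 358) (nat_lit 235)))))))
noncomputable def xc145 : XT := (XT.nd (nat_lit 1248) (nat_lit 380) (nat_lit 0) (XT.nd (nat_lit 624) (nat_lit 988) (nat_lit 0) (XT.nd (nat_lit 312) (nat_lit 456) (nat_lit 0) (XT.nd (nat_lit 156) (nat_lit 228) (nat_lit 0) (XT.nd (nat_lit 78) (nat_lit 152) (nat_lit 0) (XT.lf (nat_lit 0) (nat_lit 300800337751) (nat_lit 76) (nat_lit 105693715192) (nat_lit 76) (nat_lit 61247701352) (nat_lit 145) (nat_lit 4) (nat_lit 146) (nat_lit 5) (nat_lit 146) (nat_lit 4) (nat_lit 428) (nat_lit 358) (nat_lit 234)) (XT.lf (nat_lit 0) (nat_lit 191212149569) (nat_lit 152) (nat_lit 152186737742) (nat_lit 0) (nat_lit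 148882387779) (nat_lit 143) (nat_lit 5) (nat_lit 145) (nat_lit 4) (nat_lit 143) (nat_lit 4) (nat_lit 429) (nat_lit 358) (nat_lit 233))) (XT.nd (nat_lit 78) (nat_lit 152) (nat_lit 0) (XT.lf (nat_lit 0) (nat_lit 384453036972) (nat_lit 76) (nat_lit 88036187319) (nat_lit 76) (nat_lit 45706217381) (nat_lit 142) (nat_lit 4) (nat_lit 143) (nat_lit 5) (nat_lit 143) (nat_lit 4) (nat_lit 430) (nat_lit 358) (nat_lit 232)) (XT.lf (nat_lit 0) (nat_lit 235329218643) (nat_lit 152) (nat_lit 115028747016) (nat_lit 0) (nat_lit 195014778008) (nat_lit 140) (nat_lit 5) (nat_lit 142) (nat_lit 4) (nat_lit 140) (nat_lit 4) (nat_lit 431) (nat_lit 358) (nat_lit 231)))) (XT.nd (nat_lit 156) (nat_lit 228) (nat_lit 0) (XT.nd (nat_lit 78) (nat_lit 152) (nat_lit 0) (XT.lf (nat_lit 0) (nat_lit 482882189054) (nat_lit 76) (nat_lit 65774334689) (nat_lit 76) (nat_lit 25459724098) (nat_lit 139) (nat_lit 4) (nat_lit 140) (nat_lit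 5) (nat_lit 140) (nat_lit 4) (nat_lit 432) (nat_lit 358) (nat_lit 230)) (XT.lf (nat_lit 0) (nat_lit 287357423458) (nat_lit 152) (nat_lit 67894901880) (nat_lit 0) (nat_lit 248962406357) (nat_lit 137) (nat_lit 5) (nat_lit 139) (nat_lit 4) (nat_lit 137) (nat_lit 4) (nat_lit 433) (nat_lit 358) (nat_lit 229))) (XT.nd (nat_lit 78) (nat_lit 76) (nat_lit 0) (XT.lf (nat_lit 0) (nat_lit 276921136) (nat_lit 152) (nat_lit 37827467541) (nat_lit 76) (nat_lit 597991882917) (nat_lit 135) (nat_lit 5) (nat_lit 137) (nat_lit 5) (nat_lit 136) (nat_lit 4) (nat_lit 434) (nat_lit 358) (nat_lit 228)) (XT.lf (nat_lit 0) (nat_lit 348451456515) (nat_lit 152) (nat_lit 9094104829) (nat_lit 0) (nat_lit 311884519026) (nat_lit 134) (nat_lit 5) (nat_lit 136) (nat_lit 4) (nat_lit 134) (nat_lit 4) (nat_lit 435) (nat_lit 358) (nat_lit 227))))) (XT.nd (nat_lit 312) (nat_lit 456) (nat_lit 0) (XT.nd (nat_lit 156) (nat_lit 228) (nat_lit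 0) (XT.nd (nat_lit 78) (nat_lit 76) (nat_lit 0) (XT.lf (nat_lit 0) (nat_lit 28732145372) (nat_lit 76) (nat_lit 3121121051) (nat_lit 152) (nat_lit 672891776525) (nat_lit 131) (nat_lit 5) (nat_lit 132) (nat_lit 5) (nat_lit 133) (nat_lit 4) (nat_lit 436) (nat_lit 358) (nat_lit 226)) (XT.lf (nat_lit 0) (nat_lit 65406322432) (nat_lit 76) (nat_lit 355538847977) (nat_lit 76) (nat_lit 320712985394) (nat_lit 130) (nat_lit 4) (nat_lit 131) (nat_lit 5) (nat_lit 131) (nat_lit 4) (nat_lit 437) (nat_lit 358) (nat_lit 225))) (XT.nd (nat_lit 78) (nat_lit 76) (nat_lit 0) (XT.lf (nat_lit 0) (nat_lit 72123252061) (nat_lit 152) (nat_lit 669679232441) (nat_lit 0) (nat_lit 38955675775) (nat_lit 128) (nat_lit 5) (nat_lit 130) (nat_lit 4) (nat_lit 128) (nat_lit 4) (nat_lit 438) (nat_lit 358) (nat_lit 224)) (XT.lf (nat_lit 0) (nat_lit 156558121595) (nat_lit 76) (nat_lit 349152402047) (nat_lit 76) (nat_lit 315984744176)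 (nat_lit 127) (nat_lit 4) (nat_lit 128) (nat_lit 5) (nat_lit 128) (nat_lit 4) (nat_lit 439) (nat_lit 358) (nat_lit 223)))) (XT.nd (nat_lit 156) (nat_lit 228) (nat_lit 0) (XT.nd (nat_lit 78) (nat_lit 76) (nat_lit 0) (XT.lf (nat_lit 0) (nat_lit 121234831166) (nat_lit 152) (nat_lit 654110802035) (nat_lit 0) (nat_lit 89646513630) (nat_lit 125) (nat_lit 5) (nat_lit 127) (nat_lit 4) (nat_lit 125) (nat_lit 4) (nat_lit 440) (nat_lit 358) (nat_lit 222)) (XT.lf (nat_lit 0) (nat_lit 266685695884) (nat_lit 76) (nat_lit 337648900521) (nat_lit 76) (nat_lit 306060516369) (nat_lit 124) (nat_lit 4) (nat_lit 125) (nat_lit 5) (nat_lit 125) (nat_lit 4) (nat_lit 441) (nat_lit 358) (nat_lit 221))) (XT.nd (nat_lit 78) (nat_lit 76) (nat_lit 0) (XT.lf (nat_lit 0) (nat_lit 180530914691) (nat_lit 152) (nat_lit 627361985804) (nat_lit 0) (nat_lit 150446680565) (nat_lit 122) (nat_lit 5) (nat_lit 124) (nat_lit 4) (nat_lit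 122) (nat_lit 4) (nat_lit 442) (nat_lit 358) (nat_lit 220)) (XT.lf (nat_lit 0) (nat_lit 398789072340) (nat_lit 76) (nat_lit 319995531524) (nat_lit 76) (nat_lit 289911243006) (nat_lit 121) (nat_lit 4) (nat_lit 122) (nat_lit 5) (nat_lit 122) (nat_lit 4) (nat_lit 443) (nat_lit 358) (nat_lit 219)))))) (XT.nd (nat_lit 46878) (nat_lit 0) (nat_lit 11020) (XT.nd (nat_lit 46566) (nat_lit 0) (nat_lit 13452) (XT.nd (nat_lit 156) (nat_lit 152) (nat_lit 0) (XT.nd (nat_lit 78) (nat_lit 76) (nat_lit 0) (XT.lf (nat_lit 0) (nat_lit 251601394269) (nat_lit 152) (nat_lit 587236077213) (nat_lit 0) (nat_lit 222949642953) (nat_lit 119) (nat_lit 5) (nat_lit 121) (nat_lit 4) (nat_lit 119) (nat_lit 4) (nat_lit 444) (nat_lit 358) (nat_lit 218)) (XT.lf (nat_lit 0) (nat_lit 556293344990) (nat_lit 76) (nat_lit 294997918519) (nat_lit 76) (nat_lit 266346122791) (nat_lit 118) (nat_lit 4) (nat_lit 119) (nat_lit 5) (nat_lit 119)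 (nat_lit 4) (nat_lit 445) (nat_lit 358) (nat_lit 217))) (XT.nd (nat_lit 46332) (nat_lit 0) (nat_lit 13376) (XT.lf (nat_lit 0) (nat_lit 336260838978) (nat_lit 152) (nat_lit 531194168554) (nat_lit 0) (nat_lit 308973375311) (nat_lit 116) (nat_lit 5) (nat_lit 118) (nat_lit 4) (nat_lit 116) (nat_lit 4) (nat_lit 446) (nat_lit 358) (nat_lit 216)) (XT.lf (nat_lit 0) (nat_lit 2669960206) (nat_lit 836) (nat_lit 3078897891) (nat_lit 836) (nat_lit 3078897891) (nat_lit 292) (nat_lit 3) (nat_lit 303) (nat_lit 3) (nat_lit 303) (nat_lit 5) (nat_lit 359) (nat_lit 359) (nat_lit 302)))) (XT.nd (nat_lit 156) (nat_lit 0) (nat_lit 76) (XT.nd (nat_lit 78) (nat_lit 0) (nat_lit 0) (XT.lf (nat_lit 0) (nat_lit 6046760516) (nat_lit 760) (nat_lit 10146670673) (nat_lit 836) (nat_lit 2143639103) (nat_lit 293) (nat_lit 5) (nat_lit 303) (nat_lit 5) (nat_lit 304) (nat_lit 5) (nat_lit 360) (nat_lit 359) (nat_lit 301)) (XT.lf (nat_lit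 76) (nat_lit 4775957978) (nat_lit 0) (nat_lit 2378573834) (nat_lit 836) (nat_lit 11901402262) (nat_lit 294) (nat_lit 5) (nat_lit 293) (nat_lit 5) (nat_lit 304) (nat_lit 5) (nat_lit 361) (nat_lit 359) (nat_lit 300))) (XT.nd (nat_lit 78) (nat_lit 0) (nat_lit 76) (XT.lf (nat_lit 76) (nat_lit 1251929817) (nat_lit 0) (nat_lit 7463257627) (nat_lit 836) (nat_lit 11098906382) (nat_lit 295) (nat_lit 5) (nat_lit 294) (nat_lit 5) (nat_lit 305) (nat_lit 5) (nat_lit 362) (nat_lit 359) (nat_lit 299)) (XT.lf (nat_lit 0) (nat_lit 10782147814) (nat_lit 760) (nat_lit 2266856463) (nat_lit 836) (nat_lit 7564829466) (nat_lit 295) (nat_lit 5) (nat_lit 305) (nat_lit 5) (nat_lit 306) (nat_lit 5) (nat_lit 363) (nat_lit 359) (nat_lit 298))))) (XT.nd (nat_lit 312) (nat_lit 1444) (nat_lit 0) (XT.nd (nat_lit 156) (nat_lit 1216) (nat_lit 0) (XT.nd (nat_lit 78) (nat_lit 0) (nat_lit 0) (XT.lf (nat_lit 0) (nat_lit 13395118382)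 (nat_lit 760) (nat_lit 5808142462) (nat_lit 836) (nat_lit 2255259342) (nat_lit 296) (nat_lit 5) (nat_lit 306) (nat_lit 5) (nat_lit 307) (nat_lit 5) (nat_lit 364) (nat_lit 359) (nat_lit 297)) (XT.lf (nat_lit 76) (nat_lit 12884575377) (nat_lit 0) (nat_lit 3769131854) (nat_lit 836) (nat_lit 5695245280) (nat_lit 297) (nat_lit 5) (nat_lit 296) (nat_lit 5) (nat_lit 307) (nat_lit 5) (nat_lit 365) (nat_lit 359) (nat_lit 296))) (XT.nd (nat_lit 78) (nat_lit 532) (nat_lit 0) (XT.lf (nat_lit 0) (nat_lit 10073299559) (nat_lit 760) (nat_lit 10538031772) (nat_lit 836) (nat_lit 2677370686) (nat_lit 287) (nat_lit 5) (nat_lit 297) (nat_lit 5) (nat_lit 298) (nat_lit 5) (nat_lit 366) (nat_lit 359) (nat_lit 295)) (XT.lf (nat_lit 0) (nat_lit 988173603) (nat_lit 532) (nat_lit 17031751208) (nat_lit 76) (nat_lit 6262009127) (nat_lit 280) (nat_lit 5) (nat_lit 287) (nat_lit 5) (nat_lit 281) (nat_lit 5) (nat_lit 367) (nat_lit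 359) (nat_lit 294)))) (XT.nd (nat_lit 156) (nat_lit 684) (nat_lit 0) (XT.nd (nat_lit 78) (nat_lit 380) (nat_lit 0) (XT.lf (nat_lit 0) (nat_lit 4374612414) (nat_lit 380) (nat_lit 939013618) (nat_lit 456) (nat_lit 20015780485) (nat_lit 275) (nat_lit 5) (nat_lit 280) (nat_lit 5) (nat_lit 281) (nat_lit 5) (nat_lit 368) (nat_lit 359) (nat_lit 293)) (XT.lf (nat_lit 0) (nat_lit 1401799941) (nat_lit 380) (nat_lit 9160572442) (nat_lit 456) (nat_lit 15869441632) (nat_lit 270) (nat_lit 5) (nat_lit 275) (nat_lit 5) (nat_lit 276) (nat_lit 5) (nat_lit 369) (nat_lit 359) (nat_lit 292))) (XT.nd (nat_lit 78) (nat_lit 684) (nat_lit 0) (XT.lf (nat_lit 0) (nat_lit 16744135204) (nat_lit 456) (nat_lit 1496150828) (nat_lit 76) (nat_lit 9356472244) (nat_lit 270) (nat_lit 5) (nat_lit 276) (nat_lit 5) (nat_lit 271) (nat_lit 5) (nat_lit 370) (nat_lit 359) (nat_lit 291)) (XT.nd (nat_lit 78) (nat_lit 380) (nat_lit 0) (XT.lf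 (nat_lit 0) (nat_lit 23950095808) (nat_lit 380) (nat_lit 4306126511) (nat_lit 76) (nat_lit 572192920) (nat_lit 266) (nat_lit 5) (nat_lit 271) (nat_lit 5) (nat_lit 267) (nat_lit 5) (nat_lit 371) (nat_lit 359) (nat_lit 290)) (XT.lf (nat_lit 0) (nat_lit 2210502493) (nat_lit 380) (nat_lit 7235475626) (nat_lit 76) (nat_lit 20677050491) (nat_lit 261) (nat_lit 5) (nat_lit 266) (nat_lit 5) (nat_lit 262) (nat_lit 5) (nat_lit 372) (nat_lit 359) (nat_lit 289))))))))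
noncomputable def xc146 : XT := (XT.nd (nat_lit 1248) (nat_lit 2204) (nat_lit 0) (XT.nd (nat_lit 624) (nat_lit 1520) (nat_lit 0) (XT.nd (nat_lit 312) (nat_lit 988) (nat_lit 0) (XT.nd (nat_lit 156) (nat_lit 608) (nat_lit 0) (XT.nd (nat_lit 78) (nat_lit 304) (nat_lit 0) (XT.lf (nat_lit 0) (nat_lit 10271669364) (nat_lit 380) (nat_lit 10196817949) (nat_lit 76) (nat_lit 11019917530) (nat_lit 257) (nat_lit 5) (nat_lit 262) (nat_lit 5) (nat_lit 258) (nat_lit 5) (nat_lit 373) (nat_lit 359) (nat_lit 288)) (XT.lf (nat_lit 0) (nat_lit 19565158768) (nat_lit 380) (nat_lit 13080429038) (nat_lit 76) (nat_lit 288051909) (nat_lit 253) (nat_lit 5) (nat_lit 258) (nat_lit 5) (nat_lit 254) (nat_lit 5) (nat_lit 374) (nat_lit 359) (nat_lit 287))) (XT.nd (nat_lit 78) (nat_lit 380) (nat_lit 0) (XT.lf (nat_lit 0) (nat_lit 18408439149) (nat_lit 228) (nat_lit 11992871869) (nat_lit 304) (nat_lit 4053223173) (nat_lit 250)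 (nat_lit 5) (nat_lit 253) (nat_lit 5) (nat_lit 254) (nat_lit 5) (nat_lit 375) (nat_lit 359) (nat_lit 286)) (XT.lf (nat_lit 0) (nat_lit 6472956901) (nat_lit 380) (nat_lit 19004938713) (nat_lit 76) (nat_lit 10581616539) (nat_lit 245) (nat_lit 5) (nat_lit 250) (nat_lit 5) (nat_lit 246) (nat_lit 5) (nat_lit 376) (nat_lit 359) (nat_lit 285)))) (XT.nd (nat_lit 156) (nat_lit 532) (nat_lit 0) (XT.nd (nat_lit 78) (nat_lit 228) (nat_lit 0) (XT.lf (nat_lit 0) (nat_lit 15810401840) (nat_lit 228) (nat_lit 2611174836) (nat_lit 304) (nat_lit 19331871838) (nat_lit 242) (nat_lit 5) (nat_lit 245) (nat_lit 5) (nat_lit 246) (nat_lit 5) (nat_lit 377) (nat_lit 359) (nat_lit 284)) (XT.lf (nat_lit 0) (nat_lit 14623480316) (nat_lit 228) (nat_lit 17600093574) (nat_lit 304) (nat_lit 7314451499) (nat_lit 239) (nat_lit 5) (nat_lit 242) (nat_lit 5) (nat_lit 243) (nat_lit 5) (nat_lit 378) (nat_lit 359) (nat_lit 283))) (XT.nd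 (nat_lit 78) (nat_lit 228) (nat_lit 0) (XT.lf (nat_lit 0) (nat_lit 6237329345) (nat_lit 304) (nat_lit 27811780828) (nat_lit 76) (nat_lit 7374123322) (nat_lit 235) (nat_lit 5) (nat_lit 239) (nat_lit 5) (nat_lit 236) (nat_lit 5) (nat_lit 379) (nat_lit 359) (nat_lit 282)) (XT.lf (nat_lit 0) (nat_lit 12631787750) (nat_lit 228) (nat_lit 8912580335) (nat_lit 304) (nat_lit 21862525802) (nat_lit 232) (nat_lit 5) (nat_lit 235) (nat_lit 5) (nat_lit 236) (nat_lit 5) (nat_lit 380) (nat_lit 359) (nat_lit 281))))) (XT.nd (nat_lit 312) (nat_lit 760) (nat_lit 0) (XT.nd (nat_lit 156) (nat_lit 304) (nat_lit 0) (XT.nd (nat_lit 78) (nat_lit 304) (nat_lit 0) (XT.lf (nat_lit 0) (nat_lit 11848912388) (nat_lit 152) (nat_lit 27178494242) (nat_lit 228) (nat_lit 6474268646) (nat_lit 230) (nat_lit 5) (nat_lit 232) (nat_lit 5) (nat_lit 233) (nat_lit 5) (nat_lit 381) (nat_lit 359) (nat_lit 280)) (XT.lf (nat_lit 0) (nat_lit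 10690411163) (nat_lit 304) (nat_lit 36450681206) (nat_lit 76) (nat_lit 571523824) (nat_lit 226) (nat_lit 5) (nat_lit 230) (nat_lit 5) (nat_lit 227) (nat_lit 5) (nat_lit 382) (nat_lit 359) (nat_lit 279))) (XT.nd (nat_lit 78) (nat_lit 152) (nat_lit 0) (XT.lf (nat_lit 0) (nat_lit 10648206229) (nat_lit 152) (nat_lit 19566754222) (nat_lit 228) (nat_lit 19819489059) (nat_lit 224) (nat_lit 5) (nat_lit 226) (nat_lit 5) (nat_lit 227) (nat_lit 5) (nat_lit 383) (nat_lit 359) (nat_lit 278)) (XT.lf (nat_lit 0) (nat_lit 10455490432) (nat_lit 152) (nat_lit 41804583234) (nat_lit 228) (nat_lit 234025826) (nat_lit 222) (nat_lit 5) (nat_lit 224) (nat_lit 5) (nat_lit 225) (nat_lit 5) (nat_lit 384) (nat_lit 359) (nat_lit 277)))) (XT.nd (nat_lit 156) (nat_lit 380) (nat_lit 0) (XT.nd (nat_lit 78) (nat_lit 152) (nat_lit 0) (XT.lf (nat_lit 0) (nat_lit 10218844420) (nat_lit 152) (nat_lit 11207582705) (nat_lit 228) (nat_lit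 33648881300) (nat_lit 219) (nat_lit 5) (nat_lit 221) (nat_lit 5) (nat_lit 222) (nat_lit 5) (nat_lit 385) (nat_lit 359) (nat_lit 276)) (XT.lf (nat_lit 0) (nat_lit 10289161372) (nat_lit 152) (nat_lit 35759556173) (nat_lit 228) (nat_lit 11752244685) (nat_lit 217) (nat_lit 5) (nat_lit 219) (nat_lit 5) (nat_lit 220) (nat_lit 5) (nat_lit 386) (nat_lit 359) (nat_lit 275))) (XT.nd (nat_lit 78) (nat_lit 152) (nat_lit 0) (XT.lf (nat_lit 0) (nat_lit 10682454061) (nat_lit 152) (nat_lit 1974370715) (nat_lit 228) (nat_lit 48021484366) (nat_lit 214) (nat_lit 5) (nat_lit 216) (nat_lit 5) (nat_lit 217) (nat_lit 5) (nat_lit 387) (nat_lit 359) (nat_lit 274)) (XT.lf (nat_lit 0) (nat_lit 11074013565) (nat_lit 152) (nat_lit 29083141306) (nat_lit 228) (nat_lit 23541542123) (nat_lit 212) (nat_lit 5) (nat_lit 214) (nat_lit 5) (nat_lit 215) (nat_lit 5) (nat_lit 388) (nat_lit 359) (nat_lit 273)))))) (XT.nd (nat_lit 624)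 (nat_lit 988) (nat_lit 0) (XT.nd (nat_lit 312) (nat_lit 608) (nat_lit 0) (XT.nd (nat_lit 156) (nat_lit 304) (nat_lit 0) (XT.nd (nat_lit 78) (nat_lit 152) (nat_lit 0) (XT.lf (nat_lit 0) (nat_lit 4034025277) (nat_lit 152) (nat_lit 54851823919) (nat_lit 76) (nat_lit 8011108057) (nat_lit 210) (nat_lit 5) (nat_lit 212) (nat_lit 5) (nat_lit 211) (nat_lit 5) (nat_lit 389) (nat_lit 359) (nat_lit 272)) (XT.lf (nat_lit 0) (nat_lit 12961391630) (nat_lit 152) (nat_lit 21657347711) (nat_lit 228) (nat_lit 35631648536) (nat_lit 208) (nat_lit 5) (nat_lit 210) (nat_lit 5) (nat_lit 211) (nat_lit 5) (nat_lit 390) (nat_lit 359) (nat_lit 271))) (XT.nd (nat_lit 78) (nat_lit 228) (nat_lit 0) (XT.lf (nat_lit 0) (nat_lit 14478968649) (nat_lit 76) (nat_lit 54650728382) (nat_lit 152) (nat_lit 4668422594) (nat_lit 207) (nat_lit 5) (nat_lit 208) (nat_lit 5) (nat_lit 209) (nat_lit 4) (nat_lit 391) (nat_lit 359) (nat_lit 270))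 (XT.lf (nat_lit 0) (nat_lit 16126856008) (nat_lit 152) (nat_lit 13348275886) (nat_lit 228) (nat_lit 48050870062) (nat_lit 204) (nat_lit 5) (nat_lit 206) (nat_lit 5) (nat_lit 207) (nat_lit 5) (nat_lit 392) (nat_lit 359) (nat_lit 269)))) (XT.nd (nat_lit 156) (nat_lit 304) (nat_lit 0) (XT.nd (nat_lit 78) (nat_lit 228) (nat_lit 0) (XT.lf (nat_lit 0) (nat_lit 18212990345) (nat_lit 76) (nat_lit 49791567390) (nat_lit 152) (nat_lit 13452833276) (nat_lit 203) (nat_lit 5) (nat_lit 204) (nat_lit 5) (nat_lit 205) (nat_lit 4) (nat_lit 393) (nat_lit 359) (nat_lit 268)) (XT.lf (nat_lit 0) (nat_lit 20773463764) (nat_lit 152) (nat_lit 4004035904) (nat_lit 228) (nat_lit 60825633036) (nat_lit 200) (nat_lit 5) (nat_lit 202) (nat_lit 5) (nat_lit 203) (nat_lit 5) (nat_lit 394) (nat_lit 359) (nat_lit 267))) (XT.nd (nat_lit 78) (nat_lit 228) (nat_lit 0) (XT.lf (nat_lit 0) (nat_lit 23532501542) (nat_lit 76) (nat_lit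 44258999503) (nat_lit 152) (nat_lit 22168177596) (nat_lit 199) (nat_lit 5) (nat_lit 200) (nat_lit 5) (nat_lit 201) (nat_lit 4) (nat_lit 395) (nat_lit 359) (nat_lit 266)) (XT.lf (nat_lit 0) (nat_lit 20690105729) (nat_lit 228) (nat_lit 67534562238) (nat_lit 76) (nat_lit 6338045205) (nat_lit 196) (nat_lit 5) (nat_lit 199) (nat_lit 5) (nat_lit 197) (nat_lit 4) (nat_lit 396) (nat_lit 359) (nat_lit 265))))) (XT.nd (nat_lit 312) (nat_lit 456) (nat_lit 0) (XT.nd (nat_lit 156) (nat_lit 228) (nat_lit 0) (XT.nd (nat_lit 78) (nat_lit 228) (nat_lit 0) (XT.lf (nat_lit 0) (nat_lit 30687629505) (nat_lit 76) (nat_lit 37918608529) (nat_lit 152) (nat_lit 30789289230) (nat_lit 195) (nat_lit 5) (nat_lit 196) (nat_lit 5) (nat_lit 197) (nat_lit 4) (nat_lit 397) (nat_lit 359) (nat_lit 264)) (XT.lf (nat_lit 0) (nat_lit 17269592971) (nat_lit 228) (nat_lit 69321717675) (nat_lit 76) (nat_lit 17909733067) (nat_lit 192) (nat_lit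 5) (nat_lit 195) (nat_lit 5) (nat_lit 193) (nat_lit 4) (nat_lit 398) (nat_lit 359) (nat_lit 263))) (XT.nd (nat_lit 78) (nat_lit 152) (nat_lit 0) (XT.lf (nat_lit 0) (nat_lit 39966114318) (nat_lit 76) (nat_lit 30616958003) (nat_lit 152) (nat_lit 39282262371) (nat_lit 191) (nat_lit 5) (nat_lit 192) (nat_lit 5) (nat_lit 193) (nat_lit 4) (nat_lit 399) (nat_lit 359) (nat_lit 262)) (XT.lf (nat_lit 0) (nat_lit 14545538661) (nat_lit 152) (nat_lit 69927959086) (nat_lit 76) (nat_lit 31053368605) (nat_lit 189) (nat_lit 5) (nat_lit 191) (nat_lit 5) (nat_lit 190) (nat_lit 4) (nat_lit 400) (nat_lit 359) (nat_lit 261)))) (XT.nd (nat_lit 156) (nat_lit 228) (nat_lit 0) (XT.nd (nat_lit 78) (nat_lit 152) (nat_lit 0) (XT.lf (nat_lit 0) (nat_lit 51698366961) (nat_lit 76) (nat_lit 22178998949) (nat_lit 152) (nat_lit 47603052996) (nat_lit 188) (nat_lit 5) (nat_lit 189) (nat_lit 5) (nat_lit 190) (nat_lit 4) (nat_lit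 401) (nat_lit 359) (nat_lit 260)) (XT.lf (nat_lit 0) (nat_lit 12626676230) (nat_lit 152) (nat_lit 69118992404) (nat_lit 76) (nat_lit 46011609584) (nat_lit 186) (nat_lit 5) (nat_lit 188) (nat_lit 5) (nat_lit 187) (nat_lit 4) (nat_lit 402) (nat_lit 359) (nat_lit 259))) (XT.nd (nat_lit 78) (nat_lit 152) (nat_lit 0) (XT.lf (nat_lit 0) (nat_lit 66263188318) (nat_lit 76) (nat_lit 12405137327) (nat_lit 152) (nat_lit 55695875687) (nat_lit 185) (nat_lit 5) (nat_lit 186) (nat_lit 5) (nat_lit 187) (nat_lit 4) (nat_lit 403) (nat_lit 359) (nat_lit 258)) (XT.lf (nat_lit 0) (nat_lit 11640714000) (nat_lit 152) (nat_lit 66622100829) (nat_lit 76) (nat_lit 63059286279) (nat_lit 183) (nat_lit 5) (nat_lit 185) (nat_lit 5) (nat_lit 184) (nat_lit 4) (nat_lit 404) (nat_lit 359) (nat_lit 257)))))))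
noncomputable def xc147 : XT := (XT.nd (nat_lit 1248) (nat_lit 2052) (nat_lit 0) (XT.nd (nat_lit 624) (nat_lit 988) (nat_lit 0) (XT.nd (nat_lit 312) (nat_lit 456) (nat_lit 0) (XT.nd (nat_lit 156) (nat_lit 228) (nat_lit 0) (XT.nd (nat_lit 78) (nat_lit 152) (nat_lit 0) (XT.lf (nat_lit 0) (nat_lit 84094231621) (nat_lit 76) (nat_lit 1067919337) (nat_lit 152) (nat_lit 63491367934) (nat_lit 182) (nat_lit 5) (nat_lit 183) (nat_lit 5) (nat_lit 184) (nat_lit 4) (nat_lit 405) (nat_lit 359) (nat_lit 256)) (XT.lf (nat_lit 0) (nat_lit 11736982670) (nat_lit 152) (nat_lit 62120707030) (nat_lit 76) (nat_lit 82507570922) (nat_lit 180) (nat_lit 5) (nat_lit 182) (nat_lit 5) (nat_lit 181) (nat_lit 4) (nat_lit 406) (nat_lit 359) (nat_lit 255))) (XT.nd (nat_lit 78) (nat_lit 152) (nat_lit 0) (XT.lf (nat_lit 0) (nat_lit 93784374010) (nat_lit 152) (nat_lit 59001563245) (nat_lit 0) (nat_lit 11704702285) (nat_lit 179)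 (nat_lit 5) (nat_lit 181) (nat_lit 4) (nat_lit 179) (nat_lit 4) (nat_lit 407) (nat_lit 359) (nat_lit 254)) (XT.lf (nat_lit 0) (nat_lit 13089438091) (nat_lit 152) (nat_lit 55248205301) (nat_lit 76) (nat_lit 104708671944) (nat_lit 177) (nat_lit 5) (nat_lit 179) (nat_lit 5) (nat_lit 178) (nat_lit 4) (nat_lit 408) (nat_lit 359) (nat_lit 253)))) (XT.nd (nat_lit 156) (nat_lit 228) (nat_lit 0) (XT.nd (nat_lit 78) (nat_lit 152) (nat_lit 0) (XT.lf (nat_lit 0) (nat_lit 104667246004) (nat_lit 152) (nat_lit 50890781982) (nat_lit 0) (nat_lit 26492678699) (nat_lit 176) (nat_lit 5) (nat_lit 178) (nat_lit 4) (nat_lit 176) (nat_lit 4) (nat_lit 409) (nat_lit 359) (nat_lit 252)) (XT.lf (nat_lit 0) (nat_lit 15900065070) (nat_lit 152) (nat_lit 45580970313) (nat_lit 76) (nat_lit 130061116858) (nat_lit 174) (nat_lit 5) (nat_lit 176) (nat_lit 5) (nat_lit 175) (nat_lit 4) (nat_lit 410) (nat_lit 359) (nat_lit 251))) (XT.nd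 (nat_lit 78) (nat_lit 152) (nat_lit 0) (XT.lf (nat_lit 0) (nat_lit 118109725948) (nat_lit 152) (nat_lit 39756089804) (nat_lit 0) (nat_lit 43654938994) (nat_lit 173) (nat_lit 5) (nat_lit 175) (nat_lit 4) (nat_lit 173) (nat_lit 4) (nat_lit 411) (nat_lit 359) (nat_lit 250)) (XT.lf (nat_lit 0) (nat_lit 20402733666) (nat_lit 152) (nat_lit 32630437430) (nat_lit 76) (nat_lit 159015695493) (nat_lit 171) (nat_lit 5) (nat_lit 173) (nat_lit 5) (nat_lit 172) (nat_lit 4) (nat_lit 412) (nat_lit 359) (nat_lit 249))))) (XT.nd (nat_lit 312) (nat_lit 456) (nat_lit 0) (XT.nd (nat_lit 156) (nat_lit 304) (nat_lit 0) (XT.nd (nat_lit 78) (nat_lit 152) (nat_lit 0) (XT.lf (nat_lit 0) (nat_lit 134472359377) (nat_lit 152) (nat_lit 25074106931) (nat_lit 0) (nat_lit 63560737457) (nat_lit 170) (nat_lit 5) (nat_lit 172) (nat_lit 4) (nat_lit 170) (nat_lit 4) (nat_lit 413) (nat_lit 359) (nat_lit 248)) (XT.lf (nat_lit 0) (nat_lit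 26867565756) (nat_lit 152) (nat_lit 15834136428) (nat_lit 76) (nat_lit 192082143978) (nat_lit 168) (nat_lit 5) (nat_lit 170) (nat_lit 5) (nat_lit 169) (nat_lit 4) (nat_lit 414) (nat_lit 359) (nat_lit 247))) (XT.nd (nat_lit 78) (nat_lit 228) (nat_lit 0) (XT.lf (nat_lit 0) (nat_lit 154166459213) (nat_lit 152) (nat_lit 6242725653) (nat_lit 0) (nat_lit 86629702389) (nat_lit 167) (nat_lit 5) (nat_lit 169) (nat_lit 4) (nat_lit 167) (nat_lit 4) (nat_lit 415) (nat_lit 359) (nat_lit 246)) (XT.lf (nat_lit 0) (nat_lit 5634803206) (nat_lit 76) (nat_lit 30059048692) (nat_lit 152) (nat_lit 224289831547) (nat_lit 164) (nat_lit 5) (nat_lit 165) (nat_lit 5) (nat_lit 166) (nat_lit 4) (nat_lit 416) (nat_lit 359) (nat_lit 245)))) (XT.nd (nat_lit 156) (nat_lit 228) (nat_lit 0) (XT.nd (nat_lit 78) (nat_lit 152) (nat_lit 0) (XT.lf (nat_lit 0) (nat_lit 18005972828) (nat_lit 76) (nat_lit 159935855420) (nat_lit 76) (nat_lit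 95613600567) (nat_lit 163) (nat_lit 4) (nat_lit 164) (nat_lit 5) (nat_lit 164) (nat_lit 4) (nat_lit 417) (nat_lit 359) (nat_lit 244)) (XT.lf (nat_lit 0) (nat_lit 33034699212) (nat_lit 76) (nat_lit 14456831015) (nat_lit 152) (nat_lit 240411413213) (nat_lit 161) (nat_lit 5) (nat_lit 162) (nat_lit 5) (nat_lit 163) (nat_lit 4) (nat_lit 418) (nat_lit 359) (nat_lit 243))) (XT.nd (nat_lit 78) (nat_lit 152) (nat_lit 0) (XT.lf (nat_lit 0) (nat_lit 48281705423) (nat_lit 76) (nat_lit 157960683657) (nat_lit 76) (nat_lit 96700140732) (nat_lit 160) (nat_lit 4) (nat_lit 161) (nat_lit 5) (nat_lit 161) (nat_lit 4) (nat_lit 419) (nat_lit 359) (nat_lit 242)) (XT.lf (nat_lit 0) (nat_lit 62497120199) (nat_lit 152) (nat_lit 252196188780) (nat_lit 0) (nat_lit 4153214940) (nat_lit 158) (nat_lit 5) (nat_lit 160) (nat_lit 4) (nat_lit 158) (nat_lit 4) (nat_lit 420) (nat_lit 359) (nat_lit 241)))))) (XT.nd (nat_lit 624)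 (nat_lit 1140) (nat_lit 0) (XT.nd (nat_lit 312) (nat_lit 456) (nat_lit 0) (XT.nd (nat_lit 156) (nat_lit 228) (nat_lit 0) (XT.nd (nat_lit 78) (nat_lit 152) (nat_lit 0) (XT.lf (nat_lit 0) (nat_lit 85316891777) (nat_lit 76) (nat_lit 154271877440) (nat_lit 76) (nat_lit 95927480472) (nat_lit 157) (nat_lit 4) (nat_lit 158) (nat_lit 5) (nat_lit 158) (nat_lit 4) (nat_lit 421) (nat_lit 359) (nat_lit 240)) (XT.lf (nat_lit 0) (nat_lit 81413703914) (nat_lit 152) (nat_lit 245870281531) (nat_lit 0) (nat_lit 25847177958) (nat_lit 155) (nat_lit 5) (nat_lit 157) (nat_lit 4) (nat_lit 155) (nat_lit 4) (nat_lit 422) (nat_lit 359) (nat_lit 239))) (XT.nd (nat_lit 78) (nat_lit 152) (nat_lit 0) (XT.lf (nat_lit 0) (nat_lit 130185732130) (nat_lit 76) (nat_lit 148501276785) (nat_lit 76) (nat_lit 92934349342) (nat_lit 154) (nat_lit 4) (nat_lit 155) (nat_lit 5) (nat_lit 155) (nat_lit 4) (nat_lit 423) (nat_lit 359) (nat_lit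 238)) (XT.lf (nat_lit 0) (nat_lit 104582542530) (nat_lit 152) (nat_lit 234886908581) (nat_lit 0) (nat_lit 51661305206) (nat_lit 152) (nat_lit 5) (nat_lit 154) (nat_lit 4) (nat_lit 152) (nat_lit 4) (nat_lit 424) (nat_lit 359) (nat_lit 237)))) (XT.nd (nat_lit 156) (nat_lit 228) (nat_lit 0) (XT.nd (nat_lit 78) (nat_lit 152) (nat_lit 0) (XT.lf (nat_lit 0) (nat_lit 184115950206) (nat_lit 76) (nat_lit 140222823851) (nat_lit 76) (nat_lit 87301258708) (nat_lit 151) (nat_lit 4) (nat_lit 152) (nat_lit 5) (nat_lit 152) (nat_lit 4) (nat_lit 425) (nat_lit 359) (nat_lit 236)) (XT.lf (nat_lit 0) (nat_lit 132651894724) (nat_lit 152) (nat_lit 218345230302) (nat_lit 0) (nat_lit 82250115030) (nat_lit 149) (nat_lit 5) (nat_lit 151) (nat_lit 4) (nat_lit 149) (nat_lit 4) (nat_lit 426) (nat_lit 359) (nat_lit 235))) (XT.nd (nat_lit 78) (nat_lit 152) (nat_lit 0) (XT.lf (nat_lit 0) (nat_lit 248509287278) (nat_lit 76)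 (nat_lit 128944339378) (nat_lit 76) (nat_lit 78542292015) (nat_lit 148) (nat_lit 4) (nat_lit 149) (nat_lit 5) (nat_lit 149) (nat_lit 4) (nat_lit 427) (nat_lit 359) (nat_lit 234)) (XT.lf (nat_lit 0) (nat_lit 166362102262) (nat_lit 152) (nat_lit 195204130017) (nat_lit 0) (nat_lit 118359916352) (nat_lit 146) (nat_lit 5) (nat_lit 148) (nat_lit 4) (nat_lit 146) (nat_lit 4) (nat_lit 428) (nat_lit 359) (nat_lit 233))))) (XT.nd (nat_lit 312) (nat_lit 684) (nat_lit 0) (XT.nd (nat_lit 156) (nat_lit 228) (nat_lit 0) (XT.nd (nat_lit 78) (nat_lit 152) (nat_lit 0) (XT.lf (nat_lit 0) (nat_lit 324964627177) (nat_lit 76) (nat_lit 114098204598) (nat_lit 76) (nat_lit 66095800134) (nat_lit 145) (nat_lit 4) (nat_lit 146) (nat_lit 5) (nat_lit 146) (nat_lit 4) (nat_lit 429) (nat_lit 359) (nat_lit 232)) (XT.lf (nat_lit 0) (nat_lit 206557771944) (nat_lit 152) (nat_lit 164262569098) (nat_lit 0) (nat_lit 160841003535)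 (nat_lit 143) (nat_lit 5) (nat_lit 145) (nat_lit 4) (nat_lit 143) (nat_lit 4) (nat_lit 430) (nat_lit 359) (nat_lit 231))) (XT.nd (nat_lit 78) (nat_lit 152) (nat_lit 0) (XT.lf (nat_lit 0) (nat_lit 415304080495) (nat_lit 76) (nat_lit 95030808517) (nat_lit 76) (nat_lit 49313861655) (nat_lit 142) (nat_lit 4) (nat_lit 143) (nat_lit 5) (nat_lit 143) (nat_lit 4) (nat_lit 431) (nat_lit 359) (nat_lit 230)) (XT.lf (nat_lit 0) (nat_lit 254201514881) (nat_lit 152) (nat_lit 124137342221) (nat_lit 0) (nat_lit 210661408122) (nat_lit 140) (nat_lit 5) (nat_lit 142) (nat_lit 4) (nat_lit 140) (nat_lit 4) (nat_lit 432) (nat_lit 359) (nat_lit 229)))) (XT.nd (nat_lit 156) (nat_lit 456) (nat_lit 0) (XT.nd (nat_lit 78) (nat_lit 152) (nat_lit 0) (XT.lf (nat_lit 0) (nat_lit 521602396449) (nat_lit 76) (nat_lit 70990602999) (nat_lit 76) (nat_lit 27450350531) (nat_lit 139) (nat_lit 4) (nat_lit 140) (nat_lit 5) (nat_lit 140)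 (nat_lit 4) (nat_lit 433) (nat_lit 359) (nat_lit 228)) (XT.lf (nat_lit 0) (nat_lit 310389436721) (nat_lit 152) (nat_lit 73237901422) (nat_lit 0) (nat_lit 268922401117) (nat_lit 137) (nat_lit 5) (nat_lit 139) (nat_lit 4) (nat_lit 137) (nat_lit 4) (nat_lit 434) (nat_lit 359) (nat_lit 227))) (XT.nd (nat_lit 78) (nat_lit 304) (nat_lit 0) (XT.lf (nat_lit 0) (nat_lit 341281788) (nat_lit 152) (nat_lit 40767526910) (nat_lit 76) (nat_lit 645873054276) (nat_lit 135) (nat_lit 5) (nat_lit 137) (nat_lit 5) (nat_lit 136) (nat_lit 4) (nat_lit 435) (nat_lit 359) (nat_lit 226)) (XT.nd (nat_lit 78) (nat_lit 228) (nat_lit 0) (XT.lf (nat_lit 0) (nat_lit 376368596135) (nat_lit 152) (nat_lit 9737876458) (nat_lit 0) (nat_lit 336875963051) (nat_lit 134) (nat_lit 5) (nat_lit 136) (nat_lit 4) (nat_lit 134) (nat_lit 4) (nat_lit 436) (nat_lit 359) (nat_lit 225)) (XT.lf (nat_lit 0) (nat_lit 31114844973) (nat_lit 76) (nat_lit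 3327874636) (nat_lit 152) (nat_lit 726679867181) (nat_lit 131) (nat_lit 5) (nat_lit 132) (nat_lit 5) (nat_lit 133) (nat_lit 4) (nat_lit 437) (nat_lit 359) (nat_lit 224))))))))
noncomputable def xc148 : XT := (XT.nd (nat_lit 47580) (nat_lit 0) (nat_lit 8512) (XT.nd (nat_lit 624) (nat_lit 76) (nat_lit 0) (XT.nd (nat_lit 312) (nat_lit 456) (nat_lit 0) (XT.nd (nat_lit 156) (nat_lit 228) (nat_lit 0) (XT.nd (nat_lit 78) (nat_lit 152) (nat_lit 0) (XT.lf (nat_lit 0) (nat_lit 70720628965) (nat_lit 76) (nat_lit 383940193535) (nat_lit 76) (nat_lit 346327983845) (nat_lit 130) (nat_lit 4) (nat_lit 131) (nat_lit 5) (nat_lit 131) (nat_lit 4) (nat_lit 438) (nat_lit 359) (nat_lit 223)) (XT.lf (nat_lit 0) (nat_lit 77932668399) (nat_lit 152) (nat_lit 723172726121) (nat_lit 0) (nat_lit 42111440771) (nat_lit 128) (nat_lit 5) (nat_lit 130) (nat_lit 4) (nat_lit 128) (nat_lit 4) (nat_lit 439) (nat_lit 359) (nat_lit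 222))) (XT.nd (nat_lit 78) (nat_lit 152) (nat_lit 0) (XT.lf (nat_lit 0) (nat_lit 169160102816) (nat_lit 76) (nat_lit 377045096164) (nat_lit 76) (nat_lit 341223798590) (nat_lit 127) (nat_lit 4) (nat_lit 128) (nat_lit 5) (nat_lit 128) (nat_lit 4) (nat_lit 440) (nat_lit 359) (nat_lit 221)) (XT.lf (nat_lit 0) (nat_lit 130970996440) (nat_lit 152) (nat_lit 706363239938) (nat_lit 0) (nat_lit 96855413261) (nat_lit 125) (nat_lit 5) (nat_lit 127) (nat_lit 4) (nat_lit 125) (nat_lit 4) (nat_lit 441) (nat_lit 359) (nat_lit 220)))) (XT.nd (nat_lit 156) (nat_lit 228) (nat_lit 0) (XT.nd (nat_lit 78) (nat_lit 152) (nat_lit 0) (XT.lf (nat_lit 0) (nat_lit 288093656422) (nat_lit 76) (nat_lit 364623459049) (nat_lit 76) (nat_lit 330507818757) (nat_lit 124) (nat_lit 4) (nat_lit 125) (nat_lit 5) (nat_lit 125) (nat_lit 4) (nat_lit 442) (nat_lit 359) (nat_lit 219)) (XT.lf (nat_lit 0) (nat_lit 195008710440) (nat_lit 152)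 (nat_lit 677478696891) (nat_lit 0) (nat_lit 162517574084) (nat_lit 122) (nat_lit 5) (nat_lit 124) (nat_lit 4) (nat_lit 122) (nat_lit 4) (nat_lit 443) (nat_lit 359) (nat_lit 218))) (XT.nd (nat_lit 78) (nat_lit 152) (nat_lit 0) (XT.lf (nat_lit 0) (nat_lit 430761306104) (nat_lit 76) (nat_lit 345559851126) (nat_lit 76) (nat_lit 313068668138) (nat_lit 121) (nat_lit 4) (nat_lit 122) (nat_lit 5) (nat_lit 122) (nat_lit 4) (nat_lit 444) (nat_lit 359) (nat_lit 217)) (XT.lf (nat_lit 0) (nat_lit 271762886375) (nat_lit 152) (nat_lit 634146666732) (nat_lit 0) (nat_lit 240818861454) (nat_lit 119) (nat_lit 5) (nat_lit 121) (nat_lit 4) (nat_lit 119) (nat_lit 4) (nat_lit 445) (nat_lit 359) (nat_lit 216))))) (XT.nd (nat_lit 46644) (nat_lit 0) (nat_lit 13376) (XT.nd (nat_lit 46488) (nat_lit 0) (nat_lit 13300) (XT.nd (nat_lit 46410) (nat_lit 0) (nat_lit 13224) (XT.lf (nat_lit 0) (nat_lit 600862141158) (nat_lit 76)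 (nat_lit 318564351325) (nat_lit 76) (nat_lit 287620288328) (nat_lit 118) (nat_lit 4) (nat_lit 119) (nat_lit 5) (nat_lit 119) (nat_lit 4) (nat_lit 446) (nat_lit 359) (nat_lit 215)) (XT.lf (nat_lit 0) (nat_lit 3205841637) (nat_lit 836) (nat_lit 3156010300) (nat_lit 836) (nat_lit 3156010300) (nat_lit 292) (nat_lit 3) (nat_lit 303) (nat_lit 3) (nat_lit 303) (nat_lit 5) (nat_lit 360) (nat_lit 360) (nat_lit 300))) (XT.nd (nat_lit 78) (nat_lit 0) (nat_lit 0) (XT.lf (nat_lit 0) (nat_lit 7128035222) (nat_lit 760) (nat_lit 10600274786) (nat_lit 836) (nat_lit 2045849216) (nat_lit 293) (nat_lit 5) (nat_lit 303) (nat_lit 5) (nat_lit 304) (nat_lit 5) (nat_lit 361) (nat_lit 360) (nat_lit 299)) (XT.lf (nat_lit 76) (nat_lit 5500600284) (nat_lit 0) (nat_lit 2784914580) (nat_lit 836) (nat_lit 12266962911) (nat_lit 294) (nat_lit 5) (nat_lit 293) (nat_lit 5) (nat_lit 304) (nat_lit 5) (nat_lit 362) (nat_lit 360) (nat_lit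 298)))) (XT.nd (nat_lit 156) (nat_lit 0) (nat_lit 152) (XT.nd (nat_lit 78) (nat_lit 0) (nat_lit 76) (XT.lf (nat_lit 76) (nat_lit 1709706186) (nat_lit 0) (nat_lit 8222397591) (nat_lit 836) (nat_lit 11441132487) (nat_lit 295) (nat_lit 5) (nat_lit 294) (nat_lit 5) (nat_lit 305) (nat_lit 5) (nat_lit 363) (nat_lit 360) (nat_lit 297)) (XT.lf (nat_lit 0) (nat_lit 12123581514) (nat_lit 760) (nat_lit 2090670198) (nat_lit 836) (nat_lit 8024745636) (nat_lit 295) (nat_lit 5) (nat_lit 305) (nat_lit 5) (nat_lit 306) (nat_lit 5) (nat_lit 364) (nat_lit 360) (nat_lit 296))) (XT.nd (nat_lit 78) (nat_lit 0) (nat_lit 0) (XT.lf (nat_lit 0) (nat_lit 14913791598) (nat_lit 760) (nat_lit 5906694188) (nat_lit 836) (nat_lit 2332362827) (nat_lit 296) (nat_lit 5) (nat_lit 306) (nat_lit 5) (nat_lit 307) (nat_lit 5) (nat_lit 365) (nat_lit 360) (nat_lit 295)) (XT.lf (nat_lit 76) (nat_lit 14265530832) (nat_lit 0) (nat_lit 4139888329)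 (nat_lit 836) (nat_lit 5710478784) (nat_lit 297) (nat_lit 5) (nat_lit 296) (nat_lit 5) (nat_lit 307) (nat_lit 5) (nat_lit 366) (nat_lit 360) (nat_lit 294)))))) (XT.nd (nat_lit 624) (nat_lit 2052) (nat_lit 0) (XT.nd (nat_lit 312) (nat_lit 988) (nat_lit 0) (XT.nd (nat_lit 156) (nat_lit 760) (nat_lit 0) (XT.nd (nat_lit 78) (nat_lit 532) (nat_lit 0) (XT.lf (nat_lit 0) (nat_lit 11235227386) (nat_lit 760) (nat_lit 11417916402) (nat_lit 836) (nat_lit 2479009092) (nat_lit 287) (nat_lit 5) (nat_lit 297) (nat_lit 5) (nat_lit 298) (nat_lit 5) (nat_lit 367) (nat_lit 360) (nat_lit 293)) (XT.lf (nat_lit 0) (nat_lit 1442163594) (nat_lit 532) (nat_lit 18021962716) (nat_lit 76) (nat_lit 6741615539) (nat_lit 280) (nat_lit 5) (nat_lit 287) (nat_lit 5) (nat_lit 281) (nat_lit 5) (nat_lit 368) (nat_lit 360) (nat_lit 292))) (XT.nd (nat_lit 78) (nat_lit 380) (nat_lit 0) (XT.lf (nat_lit 0) (nat_lit 5080729050) (nat_lit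 380) (nat_lit 1010710586) (nat_lit 456) (nat_lit 21246683227) (nat_lit 275) (nat_lit 5) (nat_lit 280) (nat_lit 5) (nat_lit 281) (nat_lit 5) (nat_lit 369) (nat_lit 360) (nat_lit 291)) (XT.lf (nat_lit 0) (nat_lit 1871432429) (nat_lit 380) (nat_lit 9868156494) (nat_lit 456) (nat_lit 16790158876) (nat_lit 270) (nat_lit 5) (nat_lit 275) (nat_lit 5) (nat_lit 276) (nat_lit 5) (nat_lit 370) (nat_lit 360) (nat_lit 290)))) (XT.nd (nat_lit 156) (nat_lit 684) (nat_lit 0) (XT.nd (nat_lit 78) (nat_lit 304) (nat_lit 0) (XT.lf (nat_lit 0) (nat_lit 18391648572) (nat_lit 456) (nat_lit 1269819354) (nat_lit 76) (nat_lit 10127631884) (nat_lit 270) (nat_lit 5) (nat_lit 276) (nat_lit 5) (nat_lit 271) (nat_lit 5) (nat_lit 371) (nat_lit 360) (nat_lit 289)) (XT.lf (nat_lit 0) (nat_lit 26157074765) (nat_lit 380) (nat_lit 4305748667) (nat_lit 76) (nat_lit 657316461) (nat_lit 266) (nat_lit 5) (nat_lit 271) (nat_lit 5) (nat_lit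 267) (nat_lit 5) (nat_lit 372) (nat_lit 360) (nat_lit 288))) (XT.nd (nat_lit 78) (nat_lit 304) (nat_lit 0) (XT.lf (nat_lit 0) (nat_lit 2666412033) (nat_lit 380) (nat_lit 7475205961) (nat_lit 76) (nat_lit 22377299440) (nat_lit 261) (nat_lit 5) (nat_lit 266) (nat_lit 5) (nat_lit 262) (nat_lit 5) (nat_lit 373) (nat_lit 360) (nat_lit 287)) (XT.lf (nat_lit 0) (nat_lit 11357815737) (nat_lit 380) (nat_lit 10675970738) (nat_lit 76) (nat_lit 11960470114) (nat_lit 257) (nat_lit 5) (nat_lit 262) (nat_lit 5) (nat_lit 258) (nat_lit 5) (nat_lit 374) (nat_lit 360) (nat_lit 286))))) (XT.nd (nat_lit 312) (nat_lit 912) (nat_lit 0) (XT.nd (nat_lit 156) (nat_lit 608) (nat_lit 0) (XT.nd (nat_lit 78) (nat_lit 228) (nat_lit 0) (XT.lf (nat_lit 0) (nat_lit 21381350790) (nat_lit 380) (nat_lit 13793531807) (nat_lit 76) (nat_lit 380899330) (nat_lit 253) (nat_lit 5) (nat_lit 258) (nat_lit 5) (nat_lit 254) (nat_lit 5) (nat_lit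 375) (nat_lit 360) (nat_lit 285)) (XT.lf (nat_lit 0) (nat_lit 20199959652) (nat_lit 228) (nat_lit 12870822577) (nat_lit 304) (nat_lit 4128246381) (nat_lit 250) (nat_lit 5) (nat_lit 253) (nat_lit 5) (nat_lit 254) (nat_lit 5) (nat_lit 376) (nat_lit 360) (nat_lit 284))) (XT.nd (nat_lit 78) (nat_lit 228) (nat_lit 0) (XT.lf (nat_lit 0) (nat_lit 7220377927) (nat_lit 380) (nat_lit 20202618269) (nat_lit 76) (nat_lit 11509797705) (nat_lit 245) (nat_lit 5) (nat_lit 250) (nat_lit 5) (nat_lit 246) (nat_lit 5) (nat_lit 377) (nat_lit 360) (nat_lit 283)) (XT.lf (nat_lit 0) (nat_lit 17383924704) (nat_lit 228) (nat_lit 2728775849) (nat_lit 304) (nat_lit 20650153954) (nat_lit 242) (nat_lit 5) (nat_lit 245) (nat_lit 5) (nat_lit 246) (nat_lit 5) (nat_lit 378) (nat_lit 360) (nat_lit 282)))) (XT.nd (nat_lit 156) (nat_lit 380) (nat_lit 0) (XT.nd (nat_lit 78) (nat_lit 304) (nat_lit 0) (XT.lf (nat_lit 0) (nat_lit 16097668236)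 (nat_lit 228) (nat_lit 18911156656) (nat_lit 304) (nat_lit 7681874274) (nat_lit 239) (nat_lit 5) (nat_lit 242) (nat_lit 5) (nat_lit 243) (nat_lit 5) (nat_lit 379) (nat_lit 360) (nat_lit 281)) (XT.lf (nat_lit 0) (nat_lit 6937646010) (nat_lit 304) (nat_lit 29730511963) (nat_lit 76) (nat_lit 8058867685) (nat_lit 235) (nat_lit 5) (nat_lit 239) (nat_lit 5) (nat_lit 236) (nat_lit 5) (nat_lit 380) (nat_lit 360) (nat_lit 280))) (XT.nd (nat_lit 78) (nat_lit 152) (nat_lit 0) (XT.lf (nat_lit 0) (nat_lit 13935234530) (nat_lit 228) (nat_lit 9523673012) (nat_lit 304) (nat_lit 23410988357) (nat_lit 232) (nat_lit 5) (nat_lit 235) (nat_lit 5) (nat_lit 236) (nat_lit 5) (nat_lit 381) (nat_lit 360) (nat_lit 279)) (XT.lf (nat_lit 0) (nat_lit 13084612380) (nat_lit 152) (nat_lit 29247795839) (nat_lit 228) (nat_lit 6800260626) (nat_lit 230) (nat_lit 5) (nat_lit 232) (nat_lit 5) (nat_lit 233) (nat_lit 5) (nat_lit 382)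 (nat_lit 360) (nat_lit 278)))))))
noncomputable def xc149 : XT := (XT.nd (nat_lit 1248) (nat_lit 2052) (nat_lit 0) (XT.nd (nat_lit 624) (nat_lit 1140) (nat_lit 0) (XT.nd (nat_lit 312) (nat_lit 684) (nat_lit 0) (XT.nd (nat_lit 156) (nat_lit 380) (nat_lit 0) (XT.nd (nat_lit 78) (nat_lit 152) (nat_lit 0) (XT.lf (nat_lit 0) (nat_lit 11723711270) (nat_lit 304) (nat_lit 39078392419) (nat_lit 76) (nat_lit 718618439) (nat_lit 226) (nat_lit 5) (nat_lit 230) (nat_lit 5) (nat_lit 227) (nat_lit 5) (nat_lit 383) (nat_lit 360) (nat_lit 277)) (XT.lf (nat_lit 0) (nat_lit 11775874963) (nat_lit 152) (nat_lit 21025465576) (nat_lit 228) (nat_lit 21227405768) (nat_lit 224) (nat_lit 5) (nat_lit 226) (nat_lit 5) (nat_lit 227) (nat_lit 5) (nat_lit 384) (nat_lit 360) (nat_lit 276))) (XT.nd (nat_lit 78) (nat_lit 228) (nat_lit 0) (XT.lf (nat_lit 0) (nat_lit 11562254548) (nat_lit 152) (nat_lit 45041038160) (nat_lit 228)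 (nat_lit 82214086) (nat_lit 222) (nat_lit 5) (nat_lit 224) (nat_lit 5) (nat_lit 225) (nat_lit 5) (nat_lit 385) (nat_lit 360) (nat_lit 275)) (XT.lf (nat_lit 0) (nat_lit 11300149808) (nat_lit 152) (nat_lit 11997357943) (nat_lit 228) (nat_lit 36175977025) (nat_lit 219) (nat_lit 5) (nat_lit 221) (nat_lit 5) (nat_lit 222) (nat_lit 5) (nat_lit 386) (nat_lit 360) (nat_lit 274)))) (XT.nd (nat_lit 156) (nat_lit 304) (nat_lit 0) (XT.nd (nat_lit 78) (nat_lit 228) (nat_lit 0) (XT.lf (nat_lit 0) (nat_lit 11370539577) (nat_lit 152) (nat_lit 38512991002) (nat_lit 228) (nat_lit 12533962847) (nat_lit 217) (nat_lit 5) (nat_lit 219) (nat_lit 5) (nat_lit 220) (nat_lit 5) (nat_lit 387) (nat_lit 360) (nat_lit 273)) (XT.lf (nat_lit 0) (nat_lit 11788923998) (nat_lit 152) (nat_lit 2026406673) (nat_lit 228) (nat_lit 51709945206) (nat_lit 214) (nat_lit 5) (nat_lit 216) (nat_lit 5) (nat_lit 217) (nat_lit 5) (nat_lit 388)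 (nat_lit 360) (nat_lit 272))) (XT.nd (nat_lit 78) (nat_lit 152) (nat_lit 0) (XT.lf (nat_lit 0) (nat_lit 12206261230) (nat_lit 152) (nat_lit 31303991067) (nat_lit 228) (nat_lit 25277314205) (nat_lit 212) (nat_lit 5) (nat_lit 214) (nat_lit 5) (nat_lit 215) (nat_lit 5) (nat_lit 389) (nat_lit 360) (nat_lit 271)) (XT.lf (nat_lit 0) (nat_lit 4494371290) (nat_lit 152) (nat_lit 58994657006) (nat_lit 76) (nat_lit 8752804338) (nat_lit 210) (nat_lit 5) (nat_lit 212) (nat_lit 5) (nat_lit 211) (nat_lit 5) (nat_lit 390) (nat_lit 360) (nat_lit 270))))) (XT.nd (nat_lit 312) (nat_lit 608) (nat_lit 0) (XT.nd (nat_lit 156) (nat_lit 304) (nat_lit 0) (XT.nd (nat_lit 78) (nat_lit 76) (nat_lit 0) (XT.lf (nat_lit 0) (nat_lit 14232954790) (nat_lit 152) (nat_lit 23286376892) (nat_lit 228) (nat_lit 38344532566) (nat_lit 208) (nat_lit 5) (nat_lit 210) (nat_lit 5) (nat_lit 211) (nat_lit 5) (nat_lit 391) (nat_lit 360) (nat_lit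 269)) (XT.lf (nat_lit 0) (nat_lit 15866463515) (nat_lit 76) (nat_lit 58920067040) (nat_lit 152) (nat_lit 4909115751) (nat_lit 207) (nat_lit 5) (nat_lit 208) (nat_lit 5) (nat_lit 209) (nat_lit 4) (nat_lit 392) (nat_lit 360) (nat_lit 268))) (XT.nd (nat_lit 78) (nat_lit 76) (nat_lit 0) (XT.lf (nat_lit 0) (nat_lit 17640287213) (nat_lit 152) (nat_lit 14315351339) (nat_lit 228) (nat_lit 51766318756) (nat_lit 204) (nat_lit 5) (nat_lit 206) (nat_lit 5) (nat_lit 207) (nat_lit 5) (nat_lit 393) (nat_lit 360) (nat_lit 267)) (XT.lf (nat_lit 0) (nat_lit 19887962153) (nat_lit 76) (nat_lit 53675242061) (nat_lit 152) (nat_lit 14404863985) (nat_lit 203) (nat_lit 5) (nat_lit 204) (nat_lit 5) (nat_lit 205) (nat_lit 4) (nat_lit 394) (nat_lit 360) (nat_lit 266)))) (XT.nd (nat_lit 156) (nat_lit 304) (nat_lit 0) (XT.nd (nat_lit 78) (nat_lit 76) (nat_lit 0) (XT.lf (nat_lit 0) (nat_lit 22647604657) (nat_lit 152) (nat_lit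 4226724671) (nat_lit 228) (nat_lit 65571322507) (nat_lit 200) (nat_lit 5) (nat_lit 202) (nat_lit 5) (nat_lit 203) (nat_lit 5) (nat_lit 395) (nat_lit 360) (nat_lit 265)) (XT.lf (nat_lit 0) (nat_lit 25622165037) (nat_lit 76) (nat_lit 47703438959) (nat_lit 152) (nat_lit 23825309794) (nat_lit 199) (nat_lit 5) (nat_lit 200) (nat_lit 5) (nat_lit 201) (nat_lit 4) (nat_lit 396) (nat_lit 360) (nat_lit 264))) (XT.nd (nat_lit 78) (nat_lit 76) (nat_lit 0) (XT.lf (nat_lit 0) (nat_lit 22454191479) (nat_lit 228) (nat_lit 72731802055) (nat_lit 76) (nat_lit 6936292827) (nat_lit 196) (nat_lit 5) (nat_lit 199) (nat_lit 5) (nat_lit 197) (nat_lit 4) (nat_lit 397) (nat_lit 360) (nat_lit 263)) (XT.lf (nat_lit 0) (nat_lit 33339233155) (nat_lit 76) (nat_lit 40859385601) (nat_lit 152) (nat_lit 33143356605) (nat_lit 195) (nat_lit 5) (nat_lit 196) (nat_lit 5) (nat_lit 197) (nat_lit 4) (nat_lit 398) (nat_lit 360) (nat_lit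 262)))))) (XT.nd (nat_lit 624) (nat_lit 1064) (nat_lit 0) (XT.nd (nat_lit 312) (nat_lit 456) (nat_lit 0) (XT.nd (nat_lit 156) (nat_lit 228) (nat_lit 0) (XT.nd (nat_lit 78) (nat_lit 76) (nat_lit 0) (XT.lf (nat_lit 0) (nat_lit 18753327200) (nat_lit 228) (nat_lit 74672443636) (nat_lit 76) (nat_lit 19430248035) (nat_lit 192) (nat_lit 5) (nat_lit 195) (nat_lit 5) (nat_lit 193) (nat_lit 4) (nat_lit 399) (nat_lit 360) (nat_lit 261)) (XT.lf (nat_lit 0) (nat_lit 43349939957) (nat_lit 76) (nat_lit 32977289388) (nat_lit 152) (nat_lit 42322456560) (nat_lit 191) (nat_lit 5) (nat_lit 192) (nat_lit 5) (nat_lit 193) (nat_lit 4) (nat_lit 400) (nat_lit 360) (nat_lit 260))) (XT.nd (nat_lit 78) (nat_lit 76) (nat_lit 0) (XT.lf (nat_lit 0) (nat_lit 15805142513) (nat_lit 152) (nat_lit 75337258925) (nat_lit 76) (nat_lit 33621816184) (nat_lit 189) (nat_lit 5) (nat_lit 191) (nat_lit 5) (nat_lit 190) (nat_lit 4) (nat_lit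 401) (nat_lit 360) (nat_lit 259)) (XT.lf (nat_lit 0) (nat_lit 56011136074) (nat_lit 76) (nat_lit 23868033564) (nat_lit 152) (nat_lit 51315102058) (nat_lit 188) (nat_lit 5) (nat_lit 189) (nat_lit 5) (nat_lit 190) (nat_lit 4) (nat_lit 402) (nat_lit 360) (nat_lit 258)))) (XT.nd (nat_lit 156) (nat_lit 228) (nat_lit 0) (XT.nd (nat_lit 78) (nat_lit 76) (nat_lit 0) (XT.lf (nat_lit 0) (nat_lit 13727016777) (nat_lit 152) (nat_lit 74473209281) (nat_lit 76) (nat_lit 49773124095) (nat_lit 186) (nat_lit 5) (nat_lit 188) (nat_lit 5) (nat_lit 187) (nat_lit 4) (nat_lit 403) (nat_lit 360) (nat_lit 257)) (XT.lf (nat_lit 0) (nat_lit 71731927466) (nat_lit 76) (nat_lit 13316006740) (nat_lit 152) (nat_lit 60061096109) (nat_lit 185) (nat_lit 5) (nat_lit 186) (nat_lit 5) (nat_lit 187) (nat_lit 4) (nat_lit 404) (nat_lit 360) (nat_lit 256))) (XT.nd (nat_lit 78) (nat_lit 76) (nat_lit 0) (XT.lf (nat_lit 0) (nat_lit 12656829732)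 (nat_lit 152) (nat_lit 71785764173) (nat_lit 76) (nat_lit 68181032361) (nat_lit 183) (nat_lit 5) (nat_lit 185) (nat_lit 5) (nat_lit 184) (nat_lit 4) (nat_lit 405) (nat_lit 360) (nat_lit 255)) (XT.lf (nat_lit 0) (nat_lit 90980656165) (nat_lit 76) (nat_lit 1075520315) (nat_lit 152) (nat_lit 68485571252) (nat_lit 182) (nat_lit 5) (nat_lit 183) (nat_lit 5) (nat_lit 184) (nat_lit 4) (nat_lit 406) (nat_lit 360) (nat_lit 254))))) (XT.nd (nat_lit 312) (nat_lit 608) (nat_lit 0) (XT.nd (nat_lit 156) (nat_lit 228) (nat_lit 0) (XT.nd (nat_lit 78) (nat_lit 76) (nat_lit 0) (XT.lf (nat_lit 0) (nat_lit 12755819525) (nat_lit 152) (nat_lit 66933027262) (nat_lit 76) (nat_lit 89181640774) (nat_lit 180) (nat_lit 5) (nat_lit 182) (nat_lit 5) (nat_lit 181) (nat_lit 4) (nat_lit 407) (nat_lit 360) (nat_lit 253)) (XT.lf (nat_lit 0) (nat_lit 101364593249) (nat_lit 152) (nat_lit 63568532344) (nat_lit 0) (nat_lit 12712891645)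 (nat_lit 179) (nat_lit 5) (nat_lit 181) (nat_lit 4) (nat_lit 179) (nat_lit 4) (nat_lit 408) (nat_lit 360) (nat_lit 252))) (XT.nd (nat_lit 78) (nat_lit 76) (nat_lit 0) (XT.lf (nat_lit 0) (nat_lit 14211824675) (nat_lit 152) (nat_lit 59519074242) (nat_lit 76) (nat_lit 113155360069) (nat_lit 177) (nat_lit 5) (nat_lit 179) (nat_lit 5) (nat_lit 178) (nat_lit 4) (nat_lit 409) (nat_lit 360) (nat_lit 251)) (XT.lf (nat_lit 0) (nat_lit 113113612250) (nat_lit 152) (nat_lit 54817040393) (nat_lit 0) (nat_lit 28680461248) (nat_lit 176) (nat_lit 5) (nat_lit 178) (nat_lit 4) (nat_lit 176) (nat_lit 4) (nat_lit 410) (nat_lit 360) (nat_lit 250)))) (XT.nd (nat_lit 156) (nat_lit 380) (nat_lit 0) (XT.nd (nat_lit 78) (nat_lit 76) (nat_lit 0) (XT.lf (nat_lit 0) (nat_lit 17242959335) (nat_lit 152) (nat_lit 49086401581) (nat_lit 76) (nat_lit 140532619051) (nat_lit 174) (nat_lit 5) (nat_lit 176) (nat_lit 5) (nat_lit 175)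 (nat_lit 4) (nat_lit 411) (nat_lit 360) (nat_lit 249)) (XT.lf (nat_lit 0) (nat_lit 127627297216) (nat_lit 152) (nat_lit 42799321858) (nat_lit 0) (nat_lit 47212356392) (nat_lit 173) (nat_lit 5) (nat_lit 175) (nat_lit 4) (nat_lit 173) (nat_lit 4) (nat_lit 412) (nat_lit 360) (nat_lit 248))) (XT.nd (nat_lit 78) (nat_lit 228) (nat_lit 0) (XT.lf (nat_lit 0) (nat_lit 22101777390) (nat_lit 152) (nat_lit 35107372699) (nat_lit 76) (nat_lit 171800284576) (nat_lit 171) (nat_lit 5) (nat_lit 173) (nat_lit 5) (nat_lit 172) (nat_lit 4) (nat_lit 413) (nat_lit 360) (nat_lit 247)) (XT.nd (nat_lit 78) (nat_lit 152) (nat_lit 0) (XT.lf (nat_lit 0) (nat_lit 145295013432) (nat_lit 152) (nat_lit 26950140611) (nat_lit 0) (nat_lit 68707382759) (nat_lit 170) (nat_lit 5) (nat_lit 172) (nat_lit 4) (nat_lit 170) (nat_lit 4) (nat_lit 414) (nat_lit 360) (nat_lit 246)) (XT.lf (nat_lit 0) (nat_lit 29079987772) (nat_lit 152) (nat_lit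 16974533921) (nat_lit 76) (nat_lit 207508881325) (nat_lit 168) (nat_lit 5) (nat_lit 170) (nat_lit 5) (nat_lit 169) (nat_lit 4) (nat_lit 415) (nat_lit 360) (nat_lit 245))))))))
noncomputable def xc150 : XT := (XT.nd (nat_lit 1248) (nat_lit 1824) (nat_lit 0) (XT.nd (nat_lit 624) (nat_lit 912) (nat_lit 0) (XT.nd (nat_lit 312) (nat_lit 456) (nat_lit 0) (XT.nd (nat_lit 156) (nat_lit 228) (nat_lit 0) (XT.nd (nat_lit 78) (nat_lit 228) (nat_lit 0) (XT.lf (nat_lit 0) (nat_lit 166560957751) (nat_lit 152) (nat_lit 6619235058) (nat_lit 0) (nat_lit 93618746336) (nat_lit 167) (nat_lit 5) (nat_lit 169) (nat_lit 4) (nat_lit 167) (nat_lit 4) (nat_lit 416) (nat_lit 360) (nat_lit 244)) (XT.lf (nat_lit 0) (nat_lit 6209072432) (nat_lit 76) (nat_lit 32401659710) (nat_lit 152) (nat_lit 242168577374) (nat_lit 164) (nat_lit 5) (nat_lit 165) (nat_lit 5) (nat_lit 166) (nat_lit 4) (nat_lit 417) (nat_lit 360) (nat_lit 243)))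 (XT.nd (nat_lit 78) (nat_lit 152) (nat_lit 0) (XT.lf (nat_lit 0) (nat_lit 19566576752) (nat_lit 76) (nat_lit 172670197194) (nat_lit 76) (nat_lit 103200109202) (nat_lit 163) (nat_lit 4) (nat_lit 164) (nat_lit 5) (nat_lit 164) (nat_lit 4) (nat_lit 418) (nat_lit 360) (nat_lit 242)) (XT.lf (nat_lit 0) (nat_lit 35794296600) (nat_lit 76) (nat_lit 15554469287) (nat_lit 152) (nat_lit 259583517366) (nat_lit 161) (nat_lit 5) (nat_lit 162) (nat_lit 5) (nat_lit 163) (nat_lit 4) (nat_lit 419) (nat_lit 360) (nat_lit 241)))) (XT.nd (nat_lit 156) (nat_lit 228) (nat_lit 0) (XT.nd (nat_lit 78) (nat_lit 152) (nat_lit 0) (XT.lf (nat_lit 0) (nat_lit 52257876459) (nat_lit 76) (nat_lit 170540152869) (nat_lit 76) (nat_lit 104377090413) (nat_lit 160) (nat_lit 4) (nat_lit 161) (nat_lit 5) (nat_lit 161) (nat_lit 4) (nat_lit 420) (nat_lit 360) (nat_lit 240)) (XT.lf (nat_lit 0) (nat_lit 67552423292) (nat_lit 152) (nat_lit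 272259518296) (nat_lit 0) (nat_lit 4539527571) (nat_lit 158) (nat_lit 5) (nat_lit 160) (nat_lit 4) (nat_lit 158) (nat_lit 4) (nat_lit 421) (nat_lit 360) (nat_lit 239))) (XT.nd (nat_lit 78) (nat_lit 152) (nat_lit 0) (XT.lf (nat_lit 0) (nat_lit 92249725434) (nat_lit 76) (nat_lit 166559243306) (nat_lit 76) (nat_lit 103545926025) (nat_lit 157) (nat_lit 4) (nat_lit 158) (nat_lit 5) (nat_lit 158) (nat_lit 4) (nat_lit 422) (nat_lit 360) (nat_lit 238)) (XT.lf (nat_lit 0) (nat_lit 87979228991) (nat_lit 152) (nat_lit 265433631928) (nat_lit 0) (nat_lit 27966174119) (nat_lit 155) (nat_lit 5) (nat_lit 157) (nat_lit 4) (nat_lit 155) (nat_lit 4) (nat_lit 423) (nat_lit 360) (nat_lit 237))))) (XT.nd (nat_lit 312) (nat_lit 456) (nat_lit 0) (XT.nd (nat_lit 156) (nat_lit 228) (nat_lit 0) (XT.nd (nat_lit 78) (nat_lit 152) (nat_lit 0) (XT.lf (nat_lit 0) (nat_lit 140702244369) (nat_lit 76) (nat_lit 160329857509) (nat_lit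 76) (nat_lit 100316458427) (nat_lit 154) (nat_lit 4) (nat_lit 155) (nat_lit 5) (nat_lit 155) (nat_lit 4) (nat_lit 424) (nat_lit 360) (nat_lit 236)) (XT.lf (nat_lit 0) (nat_lit 112998651515) (nat_lit 152) (nat_lit 253577360223) (nat_lit 0) (nat_lit 55842729805) (nat_lit 152) (nat_lit 5) (nat_lit 154) (nat_lit 4) (nat_lit 152) (nat_lit 4) (nat_lit 425) (nat_lit 360) (nat_lit 235))) (XT.nd (nat_lit 78) (nat_lit 152) (nat_lit 0) (XT.lf (nat_lit 0) (nat_lit 198941359614) (nat_lit 76) (nat_lit 151391855781) (nat_lit 76) (nat_lit 94235653019) (nat_lit 151) (nat_lit 4) (nat_lit 152) (nat_lit 5) (nat_lit 152) (nat_lit 4) (nat_lit 426) (nat_lit 360) (nat_lit 234)) (XT.lf (nat_lit 0) (nat_lit 143310798192) (nat_lit 152) (nat_lit 235717811945) (nat_lit 0) (nat_lit 88876071530) (nat_lit 149) (nat_lit 5) (nat_lit 151) (nat_lit 4) (nat_lit 149) (nat_lit 4) (nat_lit 427) (nat_lit 360) (nat_lit 233)))) (XT.nd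 (nat_lit 156) (nat_lit 228) (nat_lit 0) (XT.nd (nat_lit 78) (nat_lit 152) (nat_lit 0) (XT.lf (nat_lit 0) (nat_lit 268480936860) (nat_lit 76) (nat_lit 139213688023) (nat_lit 76) (nat_lit 84778731878) (nat_lit 148) (nat_lit 4) (nat_lit 149) (nat_lit 5) (nat_lit 149) (nat_lit 4) (nat_lit 428) (nat_lit 360) (nat_lit 232)) (XT.lf (nat_lit 0) (nat_lit 179715227127) (nat_lit 152) (nat_lit 210730596175) (nat_lit 0) (nat_lit 127872209385) (nat_lit 146) (nat_lit 5) (nat_lit 148) (nat_lit 4) (nat_lit 146) (nat_lit 4) (nat_lit 429) (nat_lit 360) (nat_lit 231))) (XT.nd (nat_lit 78) (nat_lit 152) (nat_lit 0) (XT.lf (nat_lit 0) (nat_lit 351047756204) (nat_lit 76) (nat_lit 123182329991) (nat_lit 76) (nat_lit 71339124873) (nat_lit 145) (nat_lit 4) (nat_lit 146) (nat_lit 5) (nat_lit 146) (nat_lit 4) (nat_lit 430) (nat_lit 360) (nat_lit 230)) (XT.lf (nat_lit 0) (nat_lit 223124103584) (nat_lit 152) (nat_lit 177318605778)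 (nat_lit 0) (nat_lit 173749457286) (nat_lit 143) (nat_lit 5) (nat_lit 145) (nat_lit 4) (nat_lit 143) (nat_lit 4) (nat_lit 431) (nat_lit 360) (nat_lit 229)))))) (XT.nd (nat_lit 624) (nat_lit 836) (nat_lit 0) (XT.nd (nat_lit 312) (nat_lit 532) (nat_lit 0) (XT.nd (nat_lit 156) (nat_lit 228) (nat_lit 0) (XT.nd (nat_lit 78) (nat_lit 152) (nat_lit 0) (XT.lf (nat_lit 0) (nat_lit 448609683139) (nat_lit 76) (nat_lit 102591886207) (nat_lit 76) (nat_lit 53217086913) (nat_lit 142) (nat_lit 4) (nat_lit 143) (nat_lit 5) (nat_lit 143) (nat_lit 4) (nat_lit 432) (nat_lit 360) (nat_lit 228)) (XT.lf (nat_lit 0) (nat_lit 274577038288) (nat_lit 152) (nat_lit 133987993045) (nat_lit 0) (nat_lit 227553284998) (nat_lit 140) (nat_lit 5) (nat_lit 142) (nat_lit 4) (nat_lit 140) (nat_lit 4) (nat_lit 433) (nat_lit 360) (nat_lit 227))) (XT.nd (nat_lit 78) (nat_lit 152) (nat_lit 0) (XT.lf (nat_lit 0) (nat_lit 563407433390)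 (nat_lit 76) (nat_lit 76630689317) (nat_lit 76) (nat_lit 29606811104) (nat_lit 139) (nat_lit 4) (nat_lit 140) (nat_lit 5) (nat_lit 140) (nat_lit 4) (nat_lit 434) (nat_lit 360) (nat_lit 226)) (XT.lf (nat_lit 0) (nat_lit 335257816785) (nat_lit 152) (nat_lit 79020979653) (nat_lit 0) (nat_lit 290473060707) (nat_lit 137) (nat_lit 5) (nat_lit 139) (nat_lit 4) (nat_lit 137) (nat_lit 4) (nat_lit 435) (nat_lit 360) (nat_lit 225)))) (XT.nd (nat_lit 156) (nat_lit 304) (nat_lit 0) (XT.nd (nat_lit 78) (nat_lit 76) (nat_lit 0) (XT.lf (nat_lit 0) (nat_lit 404769997) (nat_lit 152) (nat_lit 43955079583) (nat_lit 76) (nat_lit 697578753149) (nat_lit 135) (nat_lit 5) (nat_lit 137) (nat_lit 5) (nat_lit 136) (nat_lit 4) (nat_lit 436) (nat_lit 360) (nat_lit 224)) (XT.lf (nat_lit 0) (nat_lit 406513254521) (nat_lit 152) (nat_lit 10445098656) (nat_lit 0) (nat_lit 363860918785) (nat_lit 134) (nat_lit 5) (nat_lit 136) (nat_lit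 4) (nat_lit 134) (nat_lit 4) (nat_lit 437) (nat_lit 360) (nat_lit 223))) (XT.nd (nat_lit 78) (nat_lit 76) (nat_lit 0) (XT.lf (nat_lit 0) (nat_lit 33676158746) (nat_lit 76) (nat_lit 3557293823) (nat_lit 152) (nat_lit 784777175395) (nat_lit 131) (nat_lit 5) (nat_lit 132) (nat_lit 5) (nat_lit 133) (nat_lit 4) (nat_lit 438) (nat_lit 360) (nat_lit 222)) (XT.lf (nat_lit 0) (nat_lit 76448410230) (nat_lit 76) (nat_lit 414619604594) (nat_lit 76) (nat_lit 373998179702) (nat_lit 130) (nat_lit 4) (nat_lit 131) (nat_lit 5) (nat_lit 131) (nat_lit 4) (nat_lit 439) (nat_lit 360) (nat_lit 221))))) (XT.nd (nat_lit 312) (nat_lit 380) (nat_lit 0) (XT.nd (nat_lit 156) (nat_lit 228) (nat_lit 0) (XT.nd (nat_lit 78) (nat_lit 76) (nat_lit 0) (XT.lf (nat_lit 0) (nat_lit 84201194913) (nat_lit 152) (nat_lit 780957232727) (nat_lit 0) (nat_lit 45514058822) (nat_lit 128) (nat_lit 5) (nat_lit 130) (nat_lit 4) (nat_lit 128)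 (nat_lit 4) (nat_lit 440) (nat_lit 360) (nat_lit 220)) (XT.lf (nat_lit 0) (nat_lit 182759210333) (nat_lit 76) (nat_lit 407174840649) (nat_lit 76) (nat_lit 368487644590) (nat_lit 127) (nat_lit 4) (nat_lit 128) (nat_lit 5) (nat_lit 128) (nat_lit 4) (nat_lit 441) (nat_lit 360) (nat_lit 219))) (XT.nd (nat_lit 78) (nat_lit 76) (nat_lit 0) (XT.lf (nat_lit 0) (nat_lit 141480722436) (nat_lit 152) (nat_lit 762806775934) (nat_lit 0) (nat_lit 104635720927) (nat_lit 125) (nat_lit 5) (nat_lit 127) (nat_lit 4) (nat_lit 125) (nat_lit 4) (nat_lit 442) (nat_lit 360) (nat_lit 218)) (XT.lf (nat_lit 0) (nat_lit 311203824577) (nat_lit 76) (nat_lit 393761311155) (nat_lit 76) (nat_lit 356916260683) (nat_lit 124) (nat_lit 4) (nat_lit 125) (nat_lit 5) (nat_lit 125) (nat_lit 4) (nat_lit 443) (nat_lit 360) (nat_lit 217)))) (XT.nd (nat_lit 156) (nat_lit 152) (nat_lit 0) (XT.nd (nat_lit 78) (nat_lit 76) (nat_lit 0) (XT.lf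 (nat_lit 0) (nat_lit 210639690689) (nat_lit 152) (nat_lit 731615051819) (nat_lit 0) (nat_lit 175549123251) (nat_lit 122) (nat_lit 5) (nat_lit 124) (nat_lit 4) (nat_lit 122) (nat_lit 4) (nat_lit 444) (nat_lit 360) (nat_lit 216)) (XT.lf (nat_lit 0) (nat_lit 465281459544) (nat_lit 76) (nat_lit 373174355505) (nat_lit 76) (nat_lit 338083748086) (nat_lit 121) (nat_lit 4) (nat_lit 122) (nat_lit 5) (nat_lit 122) (nat_lit 4) (nat_lit 445) (nat_lit 360) (nat_lit 215))) (XT.nd (nat_lit 46488) (nat_lit 0) (nat_lit 13148) (XT.lf (nat_lit 0) (nat_lit 293532535738) (nat_lit 152) (nat_lit 684819846695) (nat_lit 0) (nat_lit 260112874370) (nat_lit 119) (nat_lit 5) (nat_lit 121) (nat_lit 4) (nat_lit 119) (nat_lit 4) (nat_lit 446) (nat_lit 360) (nat_lit 214)) (XT.nd (nat_lit 78) (nat_lit 0) (nat_lit 76) (XT.lf (nat_lit 0) (nat_lit 3738616079) (nat_lit 836) (nat_lit 3263429891) (nat_lit 836) (nat_lit 3263429891)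 (nat_lit 292) (nat_lit 3) (nat_lit 303) (nat_lit 3) (nat_lit 303) (nat_lit 5) (nat_lit 361) (nat_lit 361) (nat_lit 298)) (XT.lf (nat_lit 0) (nat_lit 8210567018) (nat_lit 760) (nat_lit 11141258410) (nat_lit 836) (nat_lit 1978652084) (nat_lit 293) (nat_lit 5) (nat_lit 303) (nat_lit 5) (nat_lit 304) (nat_lit 5) (nat_lit 362) (nat_lit 361) (nat_lit 297))))))))
noncomputable def xc151 : XT := (XT.nd (nat_lit 1248) (nat_lit 3192) (nat_lit 0) (XT.nd (nat_lit 624) (nat_lit 2280) (nat_lit 0) (XT.nd (nat_lit 312) (nat_lit 1368) (nat_lit 0) (XT.nd (nat_lit 156) (nat_lit 0) (nat_lit 152) (XT.nd (nat_lit 78) (nat_lit 0) (nat_lit 76) (XT.lf (nat_lit 76) (nat_lit 6234343153) (nat_lit 0) (nat_lit 3192939947) (nat_lit 836) (nat_lit 12745446545) (nat_lit 294) (nat_lit 5) (nat_lit 293) (nat_lit 5) (nat_lit 304) (nat_lit 5) (nat_lit 363) (nat_lit 361) (nat_lit 296)) (XT.lf (nat_lit 76) (nat_lit 2153085891) (nat_lit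 0) (nat_lit 9019146321) (nat_lit 836) (nat_lit 11888584948) (nat_lit 295) (nat_lit 5) (nat_lit 294) (nat_lit 5) (nat_lit 305) (nat_lit 5) (nat_lit 364) (nat_lit 361) (nat_lit 295))) (XT.nd (nat_lit 78) (nat_lit 0) (nat_lit 76) (XT.lf (nat_lit 0) (nat_lit 13504014911) (nat_lit 760) (nat_lit 1951395366) (nat_lit 836) (nat_lit 8542179516) (nat_lit 295) (nat_lit 5) (nat_lit 305) (nat_lit 5) (nat_lit 306) (nat_lit 5) (nat_lit 365) (nat_lit 361) (nat_lit 294)) (XT.lf (nat_lit 0) (nat_lit 16490180030) (nat_lit 760) (nat_lit 6065358263) (nat_lit 836) (nat_lit 2430373954) (nat_lit 296) (nat_lit 5) (nat_lit 306) (nat_lit 5) (nat_lit 307) (nat_lit 5) (nat_lit 366) (nat_lit 361) (nat_lit 293)))) (XT.nd (nat_lit 156) (nat_lit 912) (nat_lit 0) (XT.nd (nat_lit 78) (nat_lit 684) (nat_lit 0) (XT.lf (nat_lit 76) (nat_lit 15707004287) (nat_lit 0) (nat_lit 4530429469) (nat_lit 836) (nat_lit 5789756972) (nat_lit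 297) (nat_lit 5) (nat_lit 296) (nat_lit 5) (nat_lit 307) (nat_lit 5) (nat_lit 367) (nat_lit 361) (nat_lit 292)) (XT.lf (nat_lit 0) (nat_lit 12439312949) (nat_lit 760) (nat_lit 12362935866) (nat_lit 836) (nat_lit 2323633619) (nat_lit 287) (nat_lit 5) (nat_lit 297) (nat_lit 5) (nat_lit 298) (nat_lit 5) (nat_lit 368) (nat_lit 361) (nat_lit 291))) (XT.nd (nat_lit 78) (nat_lit 380) (nat_lit 0) (XT.lf (nat_lit 0) (nat_lit 1878983957) (nat_lit 532) (nat_lit 19144507979) (nat_lit 76) (nat_lit 7262636896) (nat_lit 280) (nat_lit 5) (nat_lit 287) (nat_lit 5) (nat_lit 281) (nat_lit 5) (nat_lit 369) (nat_lit 361) (nat_lit 290)) (XT.lf (nat_lit 0) (nat_lit 5792526573) (nat_lit 380) (nat_lit 1088631800) (nat_lit 456) (nat_lit 22628894140) (nat_lit 275) (nat_lit 5) (nat_lit 280) (nat_lit 5) (nat_lit 281) (nat_lit 5) (nat_lit 370) (nat_lit 361) (nat_lit 289))))) (XT.nd (nat_lit 312) (nat_lit 1216) (nat_lit 0)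 (XT.nd (nat_lit 156) (nat_lit 684) (nat_lit 0) (XT.nd (nat_lit 78) (nat_lit 0) (nat_lit 0) (XT.lf (nat_lit 0) (nat_lit 2327635786) (nat_lit 380) (nat_lit 10635951141) (nat_lit 456) (nat_lit 17834299151) (nat_lit 270) (nat_lit 5) (nat_lit 275) (nat_lit 5) (nat_lit 276) (nat_lit 5) (nat_lit 371) (nat_lit 361) (nat_lit 288)) (XT.lf (nat_lit 0) (nat_lit 20127025856) (nat_lit 456) (nat_lit 1074745489) (nat_lit 76) (nat_lit 10957254181) (nat_lit 270) (nat_lit 5) (nat_lit 276) (nat_lit 5) (nat_lit 271) (nat_lit 5) (nat_lit 372) (nat_lit 361) (nat_lit 287))) (XT.nd (nat_lit 78) (nat_lit 380) (nat_lit 0) (XT.lf (nat_lit 0) (nat_lit 28499101731) (nat_lit 380) (nat_lit 4354539867) (nat_lit 76) (nat_lit 743636438) (nat_lit 266) (nat_lit 5) (nat_lit 271) (nat_lit 5) (nat_lit 267) (nat_lit 5) (nat_lit 373) (nat_lit 361) (nat_lit 286)) (XT.lf (nat_lit 0) (nat_lit 3118981974) (nat_lit 380) (nat_lit 7782492229)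 (nat_lit 76) (nat_lit 24206993776) (nat_lit 261) (nat_lit 5) (nat_lit 266) (nat_lit 5) (nat_lit 262) (nat_lit 5) (nat_lit 374) (nat_lit 361) (nat_lit 285)))) (XT.nd (nat_lit 156) (nat_lit 608) (nat_lit 0) (XT.nd (nat_lit 78) (nat_lit 304) (nat_lit 0) (XT.lf (nat_lit 0) (nat_lit 12493132375) (nat_lit 380) (nat_lit 11241474455) (nat_lit 76) (nat_lit 12967855718) (nat_lit 257) (nat_lit 5) (nat_lit 262) (nat_lit 5) (nat_lit 258) (nat_lit 5) (nat_lit 375) (nat_lit 361) (nat_lit 284)) (XT.lf (nat_lit 0) (nat_lit 23307033167) (nat_lit 380) (nat_lit 14611236270) (nat_lit 76) (nat_lit 471216328) (nat_lit 253) (nat_lit 5) (nat_lit 258) (nat_lit 5) (nat_lit 254) (nat_lit 5) (nat_lit 376) (nat_lit 361) (nat_lit 283))) (XT.nd (nat_lit 78) (nat_lit 380) (nat_lit 0) (XT.lf (nat_lit 0) (nat_lit 22089314938) (nat_lit 228) (nat_lit 13830633237) (nat_lit 304) (nat_lit 4244827555) (nat_lit 250) (nat_lit 5) (nat_lit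 253) (nat_lit 5) (nat_lit 254) (nat_lit 5) (nat_lit 377) (nat_lit 361) (nat_lit 282)) (XT.lf (nat_lit 0) (nat_lit 7994839844) (nat_lit 380) (nat_lit 21542151169) (nat_lit 76) (nat_lit 12500584817) (nat_lit 245) (nat_lit 5) (nat_lit 250) (nat_lit 5) (nat_lit 246) (nat_lit 5) (nat_lit 378) (nat_lit 361) (nat_lit 281)))))) (XT.nd (nat_lit 624) (nat_lit 1368) (nat_lit 0) (XT.nd (nat_lit 312) (nat_lit 836) (nat_lit 0) (XT.nd (nat_lit 156) (nat_lit 532) (nat_lit 0) (XT.nd (nat_lit 78) (nat_lit 228) (nat_lit 0) (XT.lf (nat_lit 0) (nat_lit 19039291216) (nat_lit 228) (nat_lit 2868808907) (nat_lit 304) (nat_lit 22106463568) (nat_lit 242) (nat_lit 5) (nat_lit 245) (nat_lit 5) (nat_lit 246) (nat_lit 5) (nat_lit 379) (nat_lit 361) (nat_lit 280)) (XT.lf (nat_lit 0) (nat_lit 17646378038) (nat_lit 228) (nat_lit 20340934987) (nat_lit 304) (nat_lit 8109752967) (nat_lit 239) (nat_lit 5) (nat_lit 242) (nat_lit 5)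 (nat_lit 243) (nat_lit 5) (nat_lit 380) (nat_lit 361) (nat_lit 279))) (XT.nd (nat_lit 78) (nat_lit 228) (nat_lit 0) (XT.lf (nat_lit 0) (nat_lit 7665265988) (nat_lit 304) (nat_lit 31846426059) (nat_lit 76) (nat_lit 8784865250) (nat_lit 235) (nat_lit 5) (nat_lit 239) (nat_lit 5) (nat_lit 236) (nat_lit 5) (nat_lit 381) (nat_lit 361) (nat_lit 278)) (XT.lf (nat_lit 0) (nat_lit 15301171056) (nat_lit 228) (nat_lit 10198192238) (nat_lit 304) (nat_lit 25111937118) (nat_lit 232) (nat_lit 5) (nat_lit 235) (nat_lit 5) (nat_lit 236) (nat_lit 5) (nat_lit 382) (nat_lit 361) (nat_lit 277)))) (XT.nd (nat_lit 156) (nat_lit 380) (nat_lit 0) (XT.nd (nat_lit 78) (nat_lit 304) (nat_lit 0) (XT.lf (nat_lit 0) (nat_lit 14378112339) (nat_lit 152) (nat_lit 31497617841) (nat_lit 228) (nat_lit 7179715708) (nat_lit 230) (nat_lit 5) (nat_lit 232) (nat_lit 5) (nat_lit 233) (nat_lit 5) (nat_lit 383) (nat_lit 361) (nat_lit 276))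 (XT.lf (nat_lit 0) (nat_lit 12814272107) (nat_lit 304) (nat_lit 41957455922) (nat_lit 76) (nat_lit 863018672) (nat_lit 226) (nat_lit 5) (nat_lit 230) (nat_lit 5) (nat_lit 227) (nat_lit 5) (nat_lit 384) (nat_lit 361) (nat_lit 275))) (XT.nd (nat_lit 78) (nat_lit 228) (nat_lit 0) (XT.lf (nat_lit 0) (nat_lit 12954409497) (nat_lit 152) (nat_lit 22616085655) (nat_lit 228) (nat_lit 22773298492) (nat_lit 224) (nat_lit 5) (nat_lit 226) (nat_lit 5) (nat_lit 227) (nat_lit 5) (nat_lit 385) (nat_lit 361) (nat_lit 274)) (XT.lf (nat_lit 0) (nat_lit 55576431) (nat_lit 228) (nat_lit 48495286650) (nat_lit 76) (nat_lit 12662477283) (nat_lit 221) (nat_lit 5) (nat_lit 224) (nat_lit 5) (nat_lit 222) (nat_lit 5) (nat_lit 386) (nat_lit 361) (nat_lit 273))))) (XT.nd (nat_lit 312) (nat_lit 684) (nat_lit 0) (XT.nd (nat_lit 156) (nat_lit 380) (nat_lit 0) (XT.nd (nat_lit 78) (nat_lit 152) (nat_lit 0) (XT.lf (nat_lit 0) (nat_lit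 12430325917) (nat_lit 152) (nat_lit 12865555891) (nat_lit 228) (nat_lit 38928753078) (nat_lit 219) (nat_lit 5) (nat_lit 221) (nat_lit 5) (nat_lit 222) (nat_lit 5) (nat_lit 387) (nat_lit 361) (nat_lit 272)) (XT.lf (nat_lit 0) (nat_lit 12501586461) (nat_lit 152) (nat_lit 41502012394) (nat_lit 228) (nat_lit 13400824755) (nat_lit 217) (nat_lit 5) (nat_lit 219) (nat_lit 5) (nat_lit 220) (nat_lit 5) (nat_lit 388) (nat_lit 361) (nat_lit 271))) (XT.nd (nat_lit 78) (nat_lit 152) (nat_lit 0) (XT.lf (nat_lit 0) (nat_lit 12947978943) (nat_lit 152) (nat_lit 2097715281) (nat_lit 228) (nat_lit 55715346868) (nat_lit 214) (nat_lit 5) (nat_lit 216) (nat_lit 5) (nat_lit 217) (nat_lit 5) (nat_lit 389) (nat_lit 361) (nat_lit 270)) (XT.lf (nat_lit 0) (nat_lit 13393947468) (nat_lit 152) (nat_lit 33717602581) (nat_lit 228) (nat_lit 27172997894) (nat_lit 212) (nat_lit 5) (nat_lit 214) (nat_lit 5) (nat_lit 215) (nat_lit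 5) (nat_lit 390) (nat_lit 361) (nat_lit 269)))) (XT.nd (nat_lit 156) (nat_lit 380) (nat_lit 0) (XT.nd (nat_lit 78) (nat_lit 152) (nat_lit 0) (XT.lf (nat_lit 0) (nat_lit 4971911382) (nat_lit 152) (nat_lit 63503913358) (nat_lit 76) (nat_lit 9539454986) (nat_lit 210) (nat_lit 5) (nat_lit 212) (nat_lit 5) (nat_lit 211) (nat_lit 5) (nat_lit 391) (nat_lit 361) (nat_lit 268)) (XT.lf (nat_lit 0) (nat_lit 15572767296) (nat_lit 152) (nat_lit 25060502203) (nat_lit 228) (nat_lit 41294084324) (nat_lit 208) (nat_lit 5) (nat_lit 210) (nat_lit 5) (nat_lit 211) (nat_lit 5) (nat_lit 392) (nat_lit 361) (nat_lit 267))) (XT.nd (nat_lit 78) (nat_lit 304) (nat_lit 0) (XT.lf (nat_lit 0) (nat_lit 17332263257) (nat_lit 76) (nat_lit 63545606891) (nat_lit 152) (nat_lit 5188007006) (nat_lit 207) (nat_lit 5) (nat_lit 208) (nat_lit 5) (nat_lit 209) (nat_lit 4) (nat_lit 393) (nat_lit 361) (nat_lit 266)) (XT.nd (nat_lit 78)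 (nat_lit 76) (nat_lit 0) (XT.lf (nat_lit 0) (nat_lit 19242939137) (nat_lit 152) (nat_lit 15374171166) (nat_lit 228) (nat_lit 55797352556) (nat_lit 204) (nat_lit 5) (nat_lit 206) (nat_lit 5) (nat_lit 207) (nat_lit 5) (nat_lit 394) (nat_lit 361) (nat_lit 265)) (XT.lf (nat_lit 0) (nat_lit 21665841188) (nat_lit 76) (nat_lit 57883826994) (nat_lit 152) (nat_lit 15450775091) (nat_lit 203) (nat_lit 5) (nat_lit 204) (nat_lit 5) (nat_lit 205) (nat_lit 4) (nat_lit 395) (nat_lit 361) (nat_lit 264))))))))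
noncomputable def xc152 : XT := (XT.nd (nat_lit 1248) (nat_lit 1900) (nat_lit 0) (XT.nd (nat_lit 624) (nat_lit 912) (nat_lit 0) (XT.nd (nat_lit 312) (nat_lit 532) (nat_lit 0) (XT.nd (nat_lit 156) (nat_lit 304) (nat_lit 0) (XT.nd (nat_lit 78) (nat_lit 76) (nat_lit 0) (XT.lf (nat_lit 0) (nat_lit 24641395018) (nat_lit 152) (nat_lit 4481157137) (nat_lit 228) (nat_lit 70713838003) (nat_lit 200) (nat_lit 5) (nat_lit 202) (nat_lit 5) (nat_lit 203) (nat_lit 5) (nat_lit 396) (nat_lit 361) (nat_lit 263)) (XT.lf (nat_lit 0) (nat_lit 27849461706) (nat_lit 76) (nat_lit 51437169061) (nat_lit 152) (nat_lit 25631607203) (nat_lit 199) (nat_lit 5) (nat_lit 200) (nat_lit 5) (nat_lit 201) (nat_lit 4) (nat_lit 397) (nat_lit 361) (nat_lit 262))) (XT.nd (nat_lit 78) (nat_lit 76) (nat_lit 0) (XT.lf (nat_lit 0) (nat_lit 24343871526) (nat_lit 228) (nat_lit 78374141519) (nat_lit 76) (nat_lit 7569388989) (nat_lit 196) (nat_lit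 5) (nat_lit 199) (nat_lit 5) (nat_lit 197) (nat_lit 4) (nat_lit 398) (nat_lit 361) (nat_lit 261)) (XT.lf (nat_lit 0) (nat_lit 36174918867) (nat_lit 76) (nat_lit 44048651186) (nat_lit 152) (nat_lit 35701310248) (nat_lit 195) (nat_lit 5) (nat_lit 196) (nat_lit 5) (nat_lit 197) (nat_lit 4) (nat_lit 399) (nat_lit 361) (nat_lit 260)))) (XT.nd (nat_lit 156) (nat_lit 228) (nat_lit 0) (XT.nd (nat_lit 78) (nat_lit 76) (nat_lit 0) (XT.lf (nat_lit 0) (nat_lit 20341184933) (nat_lit 228) (nat_lit 80479048237) (nat_lit 76) (nat_lit 21059887632) (nat_lit 192) (nat_lit 5) (nat_lit 195) (nat_lit 5) (nat_lit 193) (nat_lit 4) (nat_lit 400) (nat_lit 361) (nat_lit 259)) (XT.lf (nat_lit 0) (nat_lit 46977860131) (nat_lit 76) (nat_lit 35539147732) (nat_lit 152) (nat_lit 45620472906) (nat_lit 191) (nat_lit 5) (nat_lit 192) (nat_lit 5) (nat_lit 193) (nat_lit 4) (nat_lit 401) (nat_lit 361) (nat_lit 258))) (XT.nd (nat_lit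 78) (nat_lit 76) (nat_lit 0) (XT.lf (nat_lit 0) (nat_lit 17151824798) (nat_lit 152) (nat_lit 81205686065) (nat_lit 76) (nat_lit 36383730624) (nat_lit 189) (nat_lit 5) (nat_lit 191) (nat_lit 5) (nat_lit 190) (nat_lit 4) (nat_lit 402) (nat_lit 361) (nat_lit 257)) (XT.lf (nat_lit 0) (nat_lit 60643689988) (nat_lit 76) (nat_lit 25704357851) (nat_lit 152) (nat_lit 55337838361) (nat_lit 188) (nat_lit 5) (nat_lit 189) (nat_lit 5) (nat_lit 190) (nat_lit 4) (nat_lit 403) (nat_lit 361) (nat_lit 256))))) (XT.nd (nat_lit 312) (nat_lit 456) (nat_lit 0) (XT.nd (nat_lit 156) (nat_lit 228) (nat_lit 0) (XT.nd (nat_lit 78) (nat_lit 76) (nat_lit 0) (XT.lf (nat_lit 0) (nat_lit 14902515610) (nat_lit 152) (nat_lit 80280772371) (nat_lit 76) (nat_lit 53824063310) (nat_lit 186) (nat_lit 5) (nat_lit 188) (nat_lit 5) (nat_lit 187) (nat_lit 4) (nat_lit 404) (nat_lit 361) (nat_lit 255)) (XT.lf (nat_lit 0) (nat_lit 77614243736)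 (nat_lit 76) (nat_lit 14311378522) (nat_lit 152) (nat_lit 64788437816) (nat_lit 185) (nat_lit 5) (nat_lit 186) (nat_lit 5) (nat_lit 187) (nat_lit 4) (nat_lit 405) (nat_lit 361) (nat_lit 254))) (XT.nd (nat_lit 78) (nat_lit 76) (nat_lit 0) (XT.lf (nat_lit 0) (nat_lit 13742128692) (nat_lit 152) (nat_lit 77386217279) (nat_lit 76) (nat_lit 73701532766) (nat_lit 183) (nat_lit 5) (nat_lit 185) (nat_lit 5) (nat_lit 184) (nat_lit 4) (nat_lit 406) (nat_lit 361) (nat_lit 253)) (XT.lf (nat_lit 0) (nat_lit 98395327806) (nat_lit 76) (nat_lit 1094833057) (nat_lit 152) (nat_lit 73891452174) (nat_lit 182) (nat_lit 5) (nat_lit 183) (nat_lit 5) (nat_lit 184) (nat_lit 4) (nat_lit 407) (nat_lit 361) (nat_lit 252)))) (XT.nd (nat_lit 156) (nat_lit 228) (nat_lit 0) (XT.nd (nat_lit 78) (nat_lit 76) (nat_lit 0) (XT.lf (nat_lit 0) (nat_lit 13844767804) (nat_lit 152) (nat_lit 72152778899) (nat_lit 76) (nat_lit 96379155727)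 (nat_lit 180) (nat_lit 5) (nat_lit 182) (nat_lit 5) (nat_lit 181) (nat_lit 4) (nat_lit 408) (nat_lit 361) (nat_lit 251)) (XT.lf (nat_lit 0) (nat_lit 109540178162) (nat_lit 152) (nat_lit 68522708381) (nat_lit 0) (nat_lit 13791491201) (nat_lit 179) (nat_lit 5) (nat_lit 181) (nat_lit 4) (nat_lit 179) (nat_lit 4) (nat_lit 409) (nat_lit 361) (nat_lit 250))) (XT.nd (nat_lit 78) (nat_lit 76) (nat_lit 0) (XT.lf (nat_lit 0) (nat_lit 15413269566) (nat_lit 152) (nat_lit 64152867428) (nat_lit 76) (nat_lit 122267797765) (nat_lit 177) (nat_lit 5) (nat_lit 179) (nat_lit 5) (nat_lit 178) (nat_lit 4) (nat_lit 410) (nat_lit 361) (nat_lit 249)) (XT.lf (nat_lit 0) (nat_lit 122225275447) (nat_lit 152) (nat_lit 59078085939) (nat_lit 0) (nat_lit 31033512906) (nat_lit 176) (nat_lit 5) (nat_lit 178) (nat_lit 4) (nat_lit 176) (nat_lit 4) (nat_lit 411) (nat_lit 361) (nat_lit 248)))))) (XT.nd (nat_lit 624) (nat_lit 912)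 (nat_lit 0) (XT.nd (nat_lit 312) (nat_lit 532) (nat_lit 0) (XT.nd (nat_lit 156) (nat_lit 228) (nat_lit 0) (XT.nd (nat_lit 78) (nat_lit 76) (nat_lit 0) (XT.lf (nat_lit 0) (nat_lit 18683172025) (nat_lit 152) (nat_lit 52892389191) (nat_lit 76) (nat_lit 151832338352) (nat_lit 174) (nat_lit 5) (nat_lit 176) (nat_lit 5) (nat_lit 175) (nat_lit 4) (nat_lit 412) (nat_lit 361) (nat_lit 247)) (XT.lf (nat_lit 0) (nat_lit 137896460067) (nat_lit 152) (nat_lit 46105593456) (nat_lit 0) (nat_lit 51045091026) (nat_lit 173) (nat_lit 5) (nat_lit 175) (nat_lit 4) (nat_lit 173) (nat_lit 4) (nat_lit 413) (nat_lit 361) (nat_lit 246))) (XT.nd (nat_lit 78) (nat_lit 76) (nat_lit 0) (XT.lf (nat_lit 0) (nat_lit 23927211274) (nat_lit 152) (nat_lit 37801508017) (nat_lit 76) (nat_lit 185598605563) (nat_lit 171) (nat_lit 5) (nat_lit 173) (nat_lit 5) (nat_lit 172) (nat_lit 4) (nat_lit 414) (nat_lit 361) (nat_lit 245)) (XT.lf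 (nat_lit 0) (nat_lit 156974226051) (nat_lit 152) (nat_lit 28994787940) (nat_lit 0) (nat_lit 74256945177) (nat_lit 170) (nat_lit 5) (nat_lit 172) (nat_lit 4) (nat_lit 170) (nat_lit 4) (nat_lit 415) (nat_lit 361) (nat_lit 244)))) (XT.nd (nat_lit 156) (nat_lit 304) (nat_lit 0) (XT.nd (nat_lit 78) (nat_lit 76) (nat_lit 0) (XT.lf (nat_lit 0) (nat_lit 31460413503) (nat_lit 152) (nat_lit 18224186089) (nat_lit 76) (nat_lit 224161174331) (nat_lit 168) (nat_lit 5) (nat_lit 170) (nat_lit 5) (nat_lit 169) (nat_lit 4) (nat_lit 416) (nat_lit 361) (nat_lit 243)) (XT.lf (nat_lit 0) (nat_lit 179938287904) (nat_lit 152) (nat_lit 7043399508) (nat_lit 0) (nat_lit 101158544189) (nat_lit 167) (nat_lit 5) (nat_lit 169) (nat_lit 4) (nat_lit 167) (nat_lit 4) (nat_lit 417) (nat_lit 361) (nat_lit 242))) (XT.nd (nat_lit 78) (nat_lit 76) (nat_lit 0) (XT.lf (nat_lit 0) (nat_lit 6811666685) (nat_lit 76) (nat_lit 34940540705)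 (nat_lit 152) (nat_lit 261486816053) (nat_lit 164) (nat_lit 5) (nat_lit 165) (nat_lit 5) (nat_lit 166) (nat_lit 4) (nat_lit 418) (nat_lit 361) (nat_lit 241)) (XT.lf (nat_lit 0) (nat_lit 21234891660) (nat_lit 76) (nat_lit 186431921114) (nat_lit 76) (nat_lit 111402466180) (nat_lit 163) (nat_lit 4) (nat_lit 164) (nat_lit 5) (nat_lit 164) (nat_lit 4) (nat_lit 419) (nat_lit 361) (nat_lit 240))))) (XT.nd (nat_lit 312) (nat_lit 456) (nat_lit 0) (XT.nd (nat_lit 156) (nat_lit 228) (nat_lit 0) (XT.nd (nat_lit 78) (nat_lit 76) (nat_lit 0) (XT.lf (nat_lit 0) (nat_lit 38757995894) (nat_lit 76) (nat_lit 16748322535) (nat_lit 152) (nat_lit 280298064921) (nat_lit 161) (nat_lit 5) (nat_lit 162) (nat_lit 5) (nat_lit 163) (nat_lit 4) (nat_lit 420) (nat_lit 361) (nat_lit 239)) (XT.lf (nat_lit 0) (nat_lit 56535929931) (nat_lit 76) (nat_lit 184134166299) (nat_lit 76) (nat_lit 112676621863) (nat_lit 160) (nat_lit 4)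 (nat_lit 161) (nat_lit 5) (nat_lit 161) (nat_lit 4) (nat_lit 421) (nat_lit 361) (nat_lit 238))) (XT.nd (nat_lit 78) (nat_lit 76) (nat_lit 0) (XT.lf (nat_lit 0) (nat_lit 73004228160) (nat_lit 152) (nat_lit 293943944380) (nat_lit 0) (nat_lit 4949033601) (nat_lit 158) (nat_lit 5) (nat_lit 160) (nat_lit 4) (nat_lit 158) (nat_lit 4) (nat_lit 422) (nat_lit 361) (nat_lit 237)) (XT.lf (nat_lit 0) (nat_lit 99721852230) (nat_lit 76) (nat_lit 179837356974) (nat_lit 76) (nat_lit 111781800994) (nat_lit 157) (nat_lit 4) (nat_lit 158) (nat_lit 5) (nat_lit 158) (nat_lit 4) (nat_lit 423) (nat_lit 361) (nat_lit 236)))) (XT.nd (nat_lit 156) (nat_lit 228) (nat_lit 0) (XT.nd (nat_lit 78) (nat_lit 76) (nat_lit 0) (XT.lf (nat_lit 0) (nat_lit 95062516524) (nat_lit 152) (nat_lit 286577211263) (nat_lit 0) (nat_lit 30247382592) (nat_lit 155) (nat_lit 5) (nat_lit 157) (nat_lit 4) (nat_lit 155) (nat_lit 4) (nat_lit 424)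 (nat_lit 361) (nat_lit 235)) (XT.lf (nat_lit 0) (nat_lit 152045575555) (nat_lit 76) (nat_lit 173112074798) (nat_lit 76) (nat_lit 108296645761) (nat_lit 154) (nat_lit 4) (nat_lit 155) (nat_lit 5) (nat_lit 155) (nat_lit 4) (nat_lit 425) (nat_lit 361) (nat_lit 234))) (XT.nd (nat_lit 78) (nat_lit 76) (nat_lit 0) (XT.lf (nat_lit 0) (nat_lit 122080986694) (nat_lit 152) (nat_lit 273777385594) (nat_lit 0) (nat_lit 60351746425) (nat_lit 152) (nat_lit 5) (nat_lit 154) (nat_lit 4) (nat_lit 152) (nat_lit 4) (nat_lit 426) (nat_lit 361) (nat_lit 233)) (XT.lf (nat_lit 0) (nat_lit 214939087271) (nat_lit 76) (nat_lit 163461371273) (nat_lit 76) (nat_lit 101731890047) (nat_lit 151) (nat_lit 4) (nat_lit 152) (nat_lit 5) (nat_lit 152) (nat_lit 4) (nat_lit 427) (nat_lit 361) (nat_lit 232)))))))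
noncomputable def xc153 : XT := (XT.nd (nat_lit 1248) (nat_lit 304) (nat_lit 0) (XT.nd (nat_lit 624) (nat_lit 1064) (nat_lit 0) (XT.nd (nat_lit 312) (nat_lit 456) (nat_lit 0) (XT.nd (nat_lit 156) (nat_lit 228) (nat_lit 0) (XT.nd (nat_lit 78) (nat_lit 76) (nat_lit 0) (XT.lf (nat_lit 0) (nat_lit 154815744258) (nat_lit 152) (nat_lit 254493758178) (nat_lit 0) (nat_lit 96025549654) (nat_lit 149) (nat_lit 5) (nat_lit 151) (nat_lit 4) (nat_lit 149) (nat_lit 4) (nat_lit 428) (nat_lit 361) (nat_lit 231)) (XT.lf (nat_lit 0) (nat_lit 290037349565) (nat_lit 76) (nat_lit 150311175292) (nat_lit 76) (nat_lit 91520783944) (nat_lit 148) (nat_lit 4) (nat_lit 149) (nat_lit 5) (nat_lit 149) (nat_lit 4) (nat_lit 429) (nat_lit 361) (nat_lit 230))) (XT.nd (nat_lit 78) (nat_lit 76) (nat_lit 0) (XT.lf (nat_lit 0) (nat_lit 194130302537) (nat_lit 152) (nat_lit 227511999764) (nat_lit 0) (nat_lit 138139280138) (nat_lit 146)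 (nat_lit 5) (nat_lit 148) (nat_lit 4) (nat_lit 146) (nat_lit 4) (nat_lit 430) (nat_lit 361) (nat_lit 229)) (XT.lf (nat_lit 0) (nat_lit 379205272562) (nat_lit 76) (nat_lit 132999424127) (nat_lit 76) (nat_lit 77008241084) (nat_lit 145) (nat_lit 4) (nat_lit 146) (nat_lit 5) (nat_lit 146) (nat_lit 4) (nat_lit 431) (nat_lit 361) (nat_lit 228)))) (XT.nd (nat_lit 156) (nat_lit 228) (nat_lit 0) (XT.nd (nat_lit 78) (nat_lit 76) (nat_lit 0) (XT.lf (nat_lit 0) (nat_lit 241009791375) (nat_lit 152) (nat_lit 191431247149) (nat_lit 0) (nat_lit 187684713481) (nat_lit 143) (nat_lit 5) (nat_lit 145) (nat_lit 4) (nat_lit 143) (nat_lit 4) (nat_lit 432) (nat_lit 361) (nat_lit 227)) (XT.lf (nat_lit 0) (nat_lit 484568139036) (nat_lit 76) (nat_lit 110763754429) (nat_lit 76) (nat_lit 57438545367) (nat_lit 142) (nat_lit 4) (nat_lit 143) (nat_lit 5) (nat_lit 143) (nat_lit 4) (nat_lit 433) (nat_lit 361) (nat_lit 226)))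 (XT.nd (nat_lit 78) (nat_lit 76) (nat_lit 0) (XT.lf (nat_lit 0) (nat_lit 296576982402) (nat_lit 152) (nat_lit 144638156843) (nat_lit 0) (nat_lit 245790953341) (nat_lit 140) (nat_lit 5) (nat_lit 142) (nat_lit 4) (nat_lit 140) (nat_lit 4) (nat_lit 434) (nat_lit 361) (nat_lit 225)) (XT.lf (nat_lit 0) (nat_lit 608545910455) (nat_lit 76) (nat_lit 82727569427) (nat_lit 76) (nat_lit 31941433266) (nat_lit 139) (nat_lit 4) (nat_lit 140) (nat_lit 5) (nat_lit 140) (nat_lit 4) (nat_lit 435) (nat_lit 361) (nat_lit 224))))) (XT.nd (nat_lit 312) (nat_lit 456) (nat_lit 0) (XT.nd (nat_lit 156) (nat_lit 304) (nat_lit 0) (XT.nd (nat_lit 78) (nat_lit 152) (nat_lit 0) (XT.lf (nat_lit 0) (nat_lit 362110356673) (nat_lit 152) (nat_lit 85277539814) (nat_lit 0) (nat_lit 313742513502) (nat_lit 137) (nat_lit 5) (nat_lit 139) (nat_lit 4) (nat_lit 137) (nat_lit 4) (nat_lit 436) (nat_lit 361) (nat_lit 223)) (XT.lf (nat_lit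 0) (nat_lit 468174973) (nat_lit 152) (nat_lit 47408171923) (nat_lit 76) (nat_lit 753415792883) (nat_lit 135) (nat_lit 5) (nat_lit 137) (nat_lit 5) (nat_lit 136) (nat_lit 4) (nat_lit 437) (nat_lit 361) (nat_lit 222))) (XT.nd (nat_lit 78) (nat_lit 228) (nat_lit 0) (XT.lf (nat_lit 0) (nat_lit 439064468085) (nat_lit 152) (nat_lit 11219142831) (nat_lit 0) (nat_lit 392999695142) (nat_lit 134) (nat_lit 5) (nat_lit 136) (nat_lit 4) (nat_lit 134) (nat_lit 4) (nat_lit 438) (nat_lit 361) (nat_lit 221)) (XT.lf (nat_lit 0) (nat_lit 36432088016) (nat_lit 76) (nat_lit 3810318014) (nat_lit 152) (nat_lit 847527558308) (nat_lit 131) (nat_lit 5) (nat_lit 132) (nat_lit 5) (nat_lit 133) (nat_lit 4) (nat_lit 439) (nat_lit 361) (nat_lit 220)))) (XT.nd (nat_lit 156) (nat_lit 228) (nat_lit 0) (XT.nd (nat_lit 78) (nat_lit 152) (nat_lit 0) (XT.lf (nat_lit 0) (nat_lit 82624409033) (nat_lit 76) (nat_lit 447758476440) (nat_lit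 76) (nat_lit 403887133143) (nat_lit 130) (nat_lit 4) (nat_lit 131) (nat_lit 5) (nat_lit 131) (nat_lit 4) (nat_lit 440) (nat_lit 361) (nat_lit 219)) (XT.lf (nat_lit 0) (nat_lit 90966365474) (nat_lit 152) (nat_lit 843374387919) (nat_lit 0) (nat_lit 49184078238) (nat_lit 128) (nat_lit 5) (nat_lit 130) (nat_lit 4) (nat_lit 128) (nat_lit 4) (nat_lit 441) (nat_lit 361) (nat_lit 218))) (XT.nd (nat_lit 78) (nat_lit 152) (nat_lit 0) (XT.lf (nat_lit 0) (nat_lit 197436788116) (nat_lit 76) (nat_lit 439719795658) (nat_lit 76) (nat_lit 397937457009) (nat_lit 127) (nat_lit 4) (nat_lit 128) (nat_lit 5) (nat_lit 128) (nat_lit 4) (nat_lit 442) (nat_lit 361) (nat_lit 217)) (XT.lf (nat_lit 0) (nat_lit 152826654750) (nat_lit 152) (nat_lit 823775142426) (nat_lit 0) (nat_lit 113033905938) (nat_lit 125) (nat_lit 5) (nat_lit 127) (nat_lit 4) (nat_lit 125) (nat_lit 4) (nat_lit 443) (nat_lit 361) (nat_lit 216)))))) (XT.nd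 (nat_lit 47112) (nat_lit 0) (nat_lit 10640) (XT.nd (nat_lit 46800) (nat_lit 0) (nat_lit 13072) (XT.nd (nat_lit 156) (nat_lit 76) (nat_lit 0) (XT.nd (nat_lit 78) (nat_lit 152) (nat_lit 0) (XT.lf (nat_lit 0) (nat_lit 336153864803) (nat_lit 76) (nat_lit 425234760100) (nat_lit 76) (nat_lit 385441969309) (nat_lit 124) (nat_lit 4) (nat_lit 125) (nat_lit 5) (nat_lit 125) (nat_lit 4) (nat_lit 444) (nat_lit 361) (nat_lit 215)) (XT.lf (nat_lit 0) (nat_lit 227516829090) (nat_lit 152) (nat_lit 790091151691) (nat_lit 0) (nat_lit 189618896080) (nat_lit 122) (nat_lit 5) (nat_lit 124) (nat_lit 4) (nat_lit 122) (nat_lit 4) (nat_lit 445) (nat_lit 361) (nat_lit 214))) (XT.nd (nat_lit 46566) (nat_lit 0) (nat_lit 12996) (XT.lf (nat_lit 0) (nat_lit 502554772733) (nat_lit 76) (nat_lit 403002340544) (nat_lit 76) (nat_lit 365104373257) (nat_lit 121) (nat_lit 4) (nat_lit 122) (nat_lit 5) (nat_lit 122) (nat_lit 4) (nat_lit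 446) (nat_lit 361) (nat_lit 213)) (XT.lf (nat_lit 0) (nat_lit 4274594178) (nat_lit 836) (nat_lit 3400137655) (nat_lit 836) (nat_lit 3400137655) (nat_lit 292) (nat_lit 3) (nat_lit 303) (nat_lit 3) (nat_lit 303) (nat_lit 5) (nat_lit 362) (nat_lit 362) (nat_lit 296)))) (XT.nd (nat_lit 156) (nat_lit 0) (nat_lit 76) (XT.nd (nat_lit 78) (nat_lit 0) (nat_lit 0) (XT.lf (nat_lit 0) (nat_lit 9306617608) (nat_lit 760) (nat_lit 11769323179) (nat_lit 836) (nat_lit 1939014665) (nat_lit 293) (nat_lit 5) (nat_lit 303) (nat_lit 5) (nat_lit 304) (nat_lit 5) (nat_lit 363) (nat_lit 362) (nat_lit 295)) (XT.lf (nat_lit 76) (nat_lit 6984886597) (nat_lit 0) (nat_lit 3607181899) (nat_lit 836) (nat_lit 13333949382) (nat_lit 294) (nat_lit 5) (nat_lit 293) (nat_lit 5) (nat_lit 304) (nat_lit 5) (nat_lit 364) (nat_lit 362) (nat_lit 294))) (XT.nd (nat_lit 78) (nat_lit 0) (nat_lit 76) (XT.lf (nat_lit 76) (nat_lit 2588195597)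 (nat_lit 0) (nat_lit 9859811190) (nat_lit 836) (nat_lit 12438575945) (nat_lit 295) (nat_lit 5) (nat_lit 294) (nat_lit 5) (nat_lit 305) (nat_lit 5) (nat_lit 365) (nat_lit 362) (nat_lit 293)) (XT.lf (nat_lit 0) (nat_lit 14936313877) (nat_lit 760) (nat_lit 1844708258) (nat_lit 836) (nat_lit 9118775952) (nat_lit 295) (nat_lit 5) (nat_lit 305) (nat_lit 5) (nat_lit 306) (nat_lit 5) (nat_lit 366) (nat_lit 362) (nat_lit 292))))) (XT.nd (nat_lit 312) (nat_lit 1444) (nat_lit 0) (XT.nd (nat_lit 156) (nat_lit 1216) (nat_lit 0) (XT.nd (nat_lit 78) (nat_lit 0) (nat_lit 0) (XT.lf (nat_lit 0) (nat_lit 18137999631) (nat_lit 760) (nat_lit 6281492737) (nat_lit 836) (nat_lit 2548862598) (nat_lit 296) (nat_lit 5) (nat_lit 306) (nat_lit 5) (nat_lit 307) (nat_lit 5) (nat_lit 367) (nat_lit 362) (nat_lit 291)) (XT.lf (nat_lit 76) (nat_lit 17220964311) (nat_lit 0) (nat_lit 4943746948) (nat_lit 836) (nat_lit 5929240586)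 (nat_lit 297) (nat_lit 5) (nat_lit 296) (nat_lit 5) (nat_lit 307) (nat_lit 5) (nat_lit 368) (nat_lit 362) (nat_lit 290))) (XT.nd (nat_lit 78) (nat_lit 532) (nat_lit 0) (XT.lf (nat_lit 0) (nat_lit 13696175554) (nat_lit 760) (nat_lit 13379050770) (nat_lit 836) (nat_lit 2206286825) (nat_lit 287) (nat_lit 5) (nat_lit 297) (nat_lit 5) (nat_lit 298) (nat_lit 5) (nat_lit 369) (nat_lit 362) (nat_lit 289)) (XT.lf (nat_lit 0) (nat_lit 2304891902) (nat_lit 532) (nat_lit 20402395989) (nat_lit 76) (nat_lit 7827951786) (nat_lit 280) (nat_lit 5) (nat_lit 287) (nat_lit 5) (nat_lit 281) (nat_lit 5) (nat_lit 370) (nat_lit 362) (nat_lit 288)))) (XT.nd (nat_lit 156) (nat_lit 684) (nat_lit 0) (XT.nd (nat_lit 78) (nat_lit 380) (nat_lit 0) (XT.lf (nat_lit 0) (nat_lit 6517707849) (nat_lit 380) (nat_lit 1173205512) (nat_lit 456) (nat_lit 24166980237) (nat_lit 275) (nat_lit 5) (nat_lit 280) (nat_lit 5) (nat_lit 281) (nat_lit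 5) (nat_lit 371) (nat_lit 362) (nat_lit 287)) (XT.lf (nat_lit 0) (nat_lit 2776611363) (nat_lit 380) (nat_lit 11468259098) (nat_lit 456) (nat_lit 19004636676) (nat_lit 270) (nat_lit 5) (nat_lit 275) (nat_lit 5) (nat_lit 276) (nat_lit 5) (nat_lit 372) (nat_lit 362) (nat_lit 286))) (XT.nd (nat_lit 78) (nat_lit 684) (nat_lit 0) (XT.lf (nat_lit 0) (nat_lit 21963564295) (nat_lit 456) (nat_lit 906387496) (nat_lit 76) (nat_lit 11850476959) (nat_lit 270) (nat_lit 5) (nat_lit 276) (nat_lit 5) (nat_lit 271) (nat_lit 5) (nat_lit 373) (nat_lit 362) (nat_lit 285)) (XT.nd (nat_lit 78) (nat_lit 380) (nat_lit 0) (XT.lf (nat_lit 0) (nat_lit 30992902456) (nat_lit 380) (nat_lit 4449414807) (nat_lit 76) (nat_lit 832049387) (nat_lit 266) (nat_lit 5) (nat_lit 271) (nat_lit 5) (nat_lit 267) (nat_lit 5) (nat_lit 374) (nat_lit 362) (nat_lit 284)) (XT.lf (nat_lit 0) (nat_lit 3573624827) (nat_lit 380) (nat_lit 8155837313)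 (nat_lit 76) (nat_lit 26177427062) (nat_lit 261) (nat_lit 5) (nat_lit 266) (nat_lit 5) (nat_lit 262) (nat_lit 5) (nat_lit 375) (nat_lit 362) (nat_lit 283))))))))
noncomputable def xc154 : XT := (XT.nd (nat_lit 1248) (nat_lit 2280) (nat_lit 0) (XT.nd (nat_lit 624) (nat_lit 1520) (nat_lit 0) (XT.nd (nat_lit 312) (nat_lit 988) (nat_lit 0) (XT.nd (nat_lit 156) (nat_lit 608) (nat_lit 0) (XT.nd (nat_lit 78) (nat_lit 304) (nat_lit 0) (XT.lf (nat_lit 0) (nat_lit 13686934284) (nat_lit 380) (nat_lit 11893386768) (nat_lit 76) (nat_lit 14048620934) (nat_lit 257) (nat_lit 5) (nat_lit 262) (nat_lit 5) (nat_lit 258) (nat_lit 5) (nat_lit 376) (nat_lit 362) (nat_lit 282)) (XT.lf (nat_lit 0) (nat_lit 25356073113) (nat_lit 380) (nat_lit 15535126529) (nat_lit 76) (nat_lit 560221120) (nat_lit 253) (nat_lit 5) (nat_lit 258) (nat_lit 5) (nat_lit 254) (nat_lit 5) (nat_lit 377) (nat_lit 362) (nat_lit 281))) (XT.nd (nat_lit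 78) (nat_lit 380) (nat_lit 0) (XT.lf (nat_lit 0) (nat_lit 24090820999) (nat_lit 228) (nat_lit 14877194368) (nat_lit 304) (nat_lit 4401218855) (nat_lit 250) (nat_lit 5) (nat_lit 253) (nat_lit 5) (nat_lit 254) (nat_lit 5) (nat_lit 378) (nat_lit 362) (nat_lit 280)) (XT.lf (nat_lit 0) (nat_lit 8803178474) (nat_lit 380) (nat_lit 23028317706) (nat_lit 76) (nat_lit 13560648145) (nat_lit 245) (nat_lit 5) (nat_lit 250) (nat_lit 5) (nat_lit 246) (nat_lit 5) (nat_lit 379) (nat_lit 362) (nat_lit 279)))) (XT.nd (nat_lit 156) (nat_lit 532) (nat_lit 0) (XT.nd (nat_lit 78) (nat_lit 228) (nat_lit 0) (XT.lf (nat_lit 0) (nat_lit 20789331406) (nat_lit 228) (nat_lit 3031210559) (nat_lit 304) (nat_lit 23707197131) (nat_lit 242) (nat_lit 5) (nat_lit 245) (nat_lit 5) (nat_lit 246) (nat_lit 5) (nat_lit 380) (nat_lit 362) (nat_lit 278)) (XT.lf (nat_lit 0) (nat_lit 19281764844) (nat_lit 228) (nat_lit 21896952755) (nat_lit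 304) (nat_lit 8598492697) (nat_lit 239) (nat_lit 5) (nat_lit 242) (nat_lit 5) (nat_lit 243) (nat_lit 5) (nat_lit 381) (nat_lit 362) (nat_lit 277))) (XT.nd (nat_lit 78) (nat_lit 228) (nat_lit 0) (XT.lf (nat_lit 0) (nat_lit 8426471061) (nat_lit 304) (nat_lit 34169065674) (nat_lit 76) (nat_lit 9557345956) (nat_lit 235) (nat_lit 5) (nat_lit 239) (nat_lit 5) (nat_lit 236) (nat_lit 5) (nat_lit 382) (nat_lit 362) (nat_lit 276)) (XT.lf (nat_lit 0) (nat_lit 16740557748) (nat_lit 228) (nat_lit 10939137968) (nat_lit 304) (nat_lit 26973489561) (nat_lit 232) (nat_lit 5) (nat_lit 235) (nat_lit 5) (nat_lit 236) (nat_lit 5) (nat_lit 383) (nat_lit 362) (nat_lit 275))))) (XT.nd (nat_lit 312) (nat_lit 684) (nat_lit 0) (XT.nd (nat_lit 156) (nat_lit 380) (nat_lit 0) (XT.nd (nat_lit 78) (nat_lit 304) (nat_lit 0) (XT.lf (nat_lit 0) (nat_lit 15739893363) (nat_lit 152) (nat_lit 33940265347) (nat_lit 228) (nat_lit 7613004344)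 (nat_lit 230) (nat_lit 5) (nat_lit 232) (nat_lit 5) (nat_lit 233) (nat_lit 5) (nat_lit 384) (nat_lit 362) (nat_lit 274)) (XT.lf (nat_lit 0) (nat_lit 13970298594) (nat_lit 304) (nat_lit 45102111474) (nat_lit 76) (nat_lit 1006572134) (nat_lit 226) (nat_lit 5) (nat_lit 230) (nat_lit 5) (nat_lit 227) (nat_lit 5) (nat_lit 385) (nat_lit 362) (nat_lit 273))) (XT.nd (nat_lit 78) (nat_lit 228) (nat_lit 0) (XT.lf (nat_lit 0) (nat_lit 14193492484) (nat_lit 152) (nat_lit 24346997022) (nat_lit 228) (nat_lit 24464589893) (nat_lit 224) (nat_lit 5) (nat_lit 226) (nat_lit 5) (nat_lit 227) (nat_lit 5) (nat_lit 386) (nat_lit 362) (nat_lit 272)) (XT.lf (nat_lit 0) (nat_lit 181358083) (nat_lit 228) (nat_lit 52172200823) (nat_lit 76) (nat_lit 13750781910) (nat_lit 221) (nat_lit 5) (nat_lit 224) (nat_lit 5) (nat_lit 222) (nat_lit 5) (nat_lit 387) (nat_lit 362) (nat_lit 271)))) (XT.nd (nat_lit 156) (nat_lit 380) (nat_lit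 0) (XT.nd (nat_lit 78) (nat_lit 152) (nat_lit 0) (XT.lf (nat_lit 0) (nat_lit 13618651274) (nat_lit 152) (nat_lit 13816276110) (nat_lit 228) (nat_lit 41921909542) (nat_lit 219) (nat_lit 5) (nat_lit 221) (nat_lit 5) (nat_lit 222) (nat_lit 5) (nat_lit 388) (nat_lit 362) (nat_lit 270)) (XT.lf (nat_lit 0) (nat_lit 13691531379) (nat_lit 152) (nat_lit 44743282877) (nat_lit 228) (nat_lit 14356416867) (nat_lit 217) (nat_lit 5) (nat_lit 219) (nat_lit 5) (nat_lit 220) (nat_lit 5) (nat_lit 389) (nat_lit 362) (nat_lit 269))) (XT.nd (nat_lit 78) (nat_lit 152) (nat_lit 0) (XT.lf (nat_lit 0) (nat_lit 14168951883) (nat_lit 152) (nat_lit 2187682773) (nat_lit 228) (nat_lit 60059925479) (nat_lit 214) (nat_lit 5) (nat_lit 216) (nat_lit 5) (nat_lit 217) (nat_lit 5) (nat_lit 390) (nat_lit 362) (nat_lit 268)) (XT.lf (nat_lit 0) (nat_lit 14646520655) (nat_lit 152) (nat_lit 36337243495) (nat_lit 228) (nat_lit 29238383124)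 (nat_lit 212) (nat_lit 5) (nat_lit 214) (nat_lit 5) (nat_lit 215) (nat_lit 5) (nat_lit 391) (nat_lit 362) (nat_lit 267)))))) (XT.nd (nat_lit 624) (nat_lit 1064) (nat_lit 0) (XT.nd (nat_lit 312) (nat_lit 608) (nat_lit 0) (XT.nd (nat_lit 156) (nat_lit 304) (nat_lit 0) (XT.nd (nat_lit 78) (nat_lit 152) (nat_lit 0) (XT.lf (nat_lit 0) (nat_lit 5470822034) (nat_lit 152) (nat_lit 68403914176) (nat_lit 76) (nat_lit 10376708007) (nat_lit 210) (nat_lit 5) (nat_lit 212) (nat_lit 5) (nat_lit 211) (nat_lit 5) (nat_lit 392) (nat_lit 362) (nat_lit 266)) (XT.lf (nat_lit 0) (nat_lit 16991064780) (nat_lit 152) (nat_lit 26989223690) (nat_lit 228) (nat_lit 44496435789) (nat_lit 208) (nat_lit 5) (nat_lit 210) (nat_lit 5) (nat_lit 211) (nat_lit 5) (nat_lit 393) (nat_lit 362) (nat_lit 265))) (XT.nd (nat_lit 78) (nat_lit 228) (nat_lit 0) (XT.lf (nat_lit 0) (nat_lit 18887296529) (nat_lit 76) (nat_lit 68553753460) (nat_lit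 152) (nat_lit 5505449825) (nat_lit 207) (nat_lit 5) (nat_lit 208) (nat_lit 5) (nat_lit 209) (nat_lit 4) (nat_lit 394) (nat_lit 362) (nat_lit 264)) (XT.lf (nat_lit 0) (nat_lit 20946493735) (nat_lit 152) (nat_lit 16530023687) (nat_lit 228) (nat_lit 60166600551) (nat_lit 204) (nat_lit 5) (nat_lit 206) (nat_lit 5) (nat_lit 207) (nat_lit 5) (nat_lit 395) (nat_lit 362) (nat_lit 263)))) (XT.nd (nat_lit 156) (nat_lit 304) (nat_lit 0) (XT.nd (nat_lit 78) (nat_lit 228) (nat_lit 0) (XT.lf (nat_lit 0) (nat_lit 23559295435) (nat_lit 76) (nat_lit 62441286899) (nat_lit 152) (nat_lit 16595549366) (nat_lit 203) (nat_lit 5) (nat_lit 204) (nat_lit 5) (nat_lit 205) (nat_lit 4) (nat_lit 396) (nat_lit 362) (nat_lit 262)) (XT.lf (nat_lit 0) (nat_lit 26768726844) (nat_lit 152) (nat_lit 4767885726) (nat_lit 228) (nat_lit 76282475989) (nat_lit 200) (nat_lit 5) (nat_lit 202) (nat_lit 5) (nat_lit 203) (nat_lit 5) (nat_lit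 397) (nat_lit 362) (nat_lit 261))) (XT.nd (nat_lit 78) (nat_lit 228) (nat_lit 0) (XT.lf (nat_lit 0) (nat_lit 30229616402) (nat_lit 76) (nat_lit 55481373541) (nat_lit 152) (nat_lit 27596635629) (nat_lit 199) (nat_lit 5) (nat_lit 200) (nat_lit 5) (nat_lit 201) (nat_lit 4) (nat_lit 398) (nat_lit 362) (nat_lit 260)) (XT.lf (nat_lit 0) (nat_lit 26371409308) (nat_lit 228) (nat_lit 84493005710) (nat_lit 76) (nat_lit 8241977776) (nat_lit 196) (nat_lit 5) (nat_lit 199) (nat_lit 5) (nat_lit 197) (nat_lit 4) (nat_lit 399) (nat_lit 362) (nat_lit 259))))) (XT.nd (nat_lit 312) (nat_lit 532) (nat_lit 0) (XT.nd (nat_lit 156) (nat_lit 228) (nat_lit 0) (XT.nd (nat_lit 78) (nat_lit 228) (nat_lit 0) (XT.lf (nat_lit 0) (nat_lit 39213414313) (nat_lit 76) (nat_lit 47504397480) (nat_lit 152) (nat_lit 38477241126) (nat_lit 195) (nat_lit 5) (nat_lit 196) (nat_lit 5) (nat_lit 197) (nat_lit 4) (nat_lit 400) (nat_lit 362)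 (nat_lit 258)) (XT.lf (nat_lit 0) (nat_lit 22043575370) (nat_lit 228) (nat_lit 86774032856) (nat_lit 76) (nat_lit 22809167459) (nat_lit 192) (nat_lit 5) (nat_lit 195) (nat_lit 5) (nat_lit 193) (nat_lit 4) (nat_lit 401) (nat_lit 362) (nat_lit 257))) (XT.nd (nat_lit 78) (nat_lit 152) (nat_lit 0) (XT.lf (nat_lit 0) (nat_lit 50873198832) (nat_lit 76) (nat_lit 38316843331) (nat_lit 152) (nat_lit 49194853383) (nat_lit 191) (nat_lit 5) (nat_lit 192) (nat_lit 5) (nat_lit 193) (nat_lit 4) (nat_lit 402) (nat_lit 362) (nat_lit 256)) (XT.lf (nat_lit 0) (nat_lit 18594504805) (nat_lit 152) (nat_lit 87566206817) (nat_lit 76) (nat_lit 39356302484) (nat_lit 189) (nat_lit 5) (nat_lit 191) (nat_lit 5) (nat_lit 190) (nat_lit 4) (nat_lit 403) (nat_lit 362) (nat_lit 255)))) (XT.nd (nat_lit 156) (nat_lit 304) (nat_lit 0) (XT.nd (nat_lit 78) (nat_lit 152) (nat_lit 0) (XT.lf (nat_lit 0) (nat_lit 65625211789) (nat_lit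 76) (nat_lit 27698019237) (nat_lit 152) (nat_lit 59694159102) (nat_lit 188) (nat_lit 5) (nat_lit 189) (nat_lit 5) (nat_lit 190) (nat_lit 4) (nat_lit 404) (nat_lit 362) (nat_lit 254)) (XT.lf (nat_lit 0) (nat_lit 16161021291) (nat_lit 152) (nat_lit 86574381579) (nat_lit 76) (nat_lit 58189221303) (nat_lit 186) (nat_lit 5) (nat_lit 188) (nat_lit 5) (nat_lit 187) (nat_lit 4) (nat_lit 405) (nat_lit 362) (nat_lit 253))) (XT.nd (nat_lit 78) (nat_lit 228) (nat_lit 0) (XT.lf (nat_lit 0) (nat_lit 83946636041) (nat_lit 76) (nat_lit 15396353312) (nat_lit 152) (nat_lit 69905029660) (nat_lit 185) (nat_lit 5) (nat_lit 186) (nat_lit 5) (nat_lit 187) (nat_lit 4) (nat_lit 406) (nat_lit 362) (nat_lit 252)) (XT.nd (nat_lit 78) (nat_lit 76) (nat_lit 0) (XT.lf (nat_lit 0) (nat_lit 14903872601) (nat_lit 152) (nat_lit 83455022732) (nat_lit 76) (nat_lit 79654255024) (nat_lit 183) (nat_lit 5) (nat_lit 185) (nat_lit 5)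 (nat_lit 184) (nat_lit 4) (nat_lit 407) (nat_lit 362) (nat_lit 251)) (XT.lf (nat_lit 0) (nat_lit 106383739994) (nat_lit 76) (nat_lit 1125210440) (nat_lit 152) (nat_lit 79740212812) (nat_lit 182) (nat_lit 5) (nat_lit 183) (nat_lit 5) (nat_lit 184) (nat_lit 4) (nat_lit 408) (nat_lit 362) (nat_lit 250))))))))
noncomputable def xc155 : XT := (XT.nd (nat_lit 1248) (nat_lit 2052) (nat_lit 0) (XT.nd (nat_lit 624) (nat_lit 988) (nat_lit 0) (XT.nd (nat_lit 312) (nat_lit 456) (nat_lit 0) (XT.nd (nat_lit 156) (nat_lit 228) (nat_lit 0) (XT.nd (nat_lit 78) (nat_lit 76) (nat_lit 0) (XT.lf (nat_lit 0) (nat_lit 15011062120) (nat_lit 152) (nat_lit 77809354311) (nat_lit 76) (nat_lit 104143486549) (nat_lit 180) (nat_lit 5) (nat_lit 182) (nat_lit 5) (nat_lit 181) (nat_lit 4) (nat_lit 409) (nat_lit 362) (nat_lit 249)) (XT.lf (nat_lit 0) (nat_lit 118360334676) (nat_lit 152) (nat_lit 73891950848) (nat_lit 0) (nat_lit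 14947595326) (nat_lit 179) (nat_lit 5) (nat_lit 181) (nat_lit 4) (nat_lit 179) (nat_lit 4) (nat_lit 410) (nat_lit 362) (nat_lit 248))) (XT.nd (nat_lit 78) (nat_lit 76) (nat_lit 0) (XT.lf (nat_lit 0) (nat_lit 16701628556) (nat_lit 152) (nat_lit 69175586575) (nat_lit 76) (nat_lit 132100669538) (nat_lit 177) (nat_lit 5) (nat_lit 179) (nat_lit 5) (nat_lit 178) (nat_lit 4) (nat_lit 411) (nat_lit 362) (nat_lit 247)) (XT.lf (nat_lit 0) (nat_lit 132056944788) (nat_lit 152) (nat_lit 63697750437) (nat_lit 0) (nat_lit 33566446645) (nat_lit 176) (nat_lit 5) (nat_lit 178) (nat_lit 4) (nat_lit 176) (nat_lit 4) (nat_lit 412) (nat_lit 362) (nat_lit 246)))) (XT.nd (nat_lit 156) (nat_lit 228) (nat_lit 0) (XT.nd (nat_lit 78) (nat_lit 76) (nat_lit 0) (XT.lf (nat_lit 0) (nat_lit 20229931362) (nat_lit 152) (nat_lit 57020107043) (nat_lit 76) (nat_lit 164027887849) (nat_lit 174) (nat_lit 5) (nat_lit 176) (nat_lit 5)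 (nat_lit 175) (nat_lit 4) (nat_lit 413) (nat_lit 362) (nat_lit 245)) (XT.lf (nat_lit 0) (nat_lit 148978741922) (nat_lit 152) (nat_lit 49693154315) (nat_lit 0) (nat_lit 55176491624) (nat_lit 173) (nat_lit 5) (nat_lit 175) (nat_lit 4) (nat_lit 173) (nat_lit 4) (nat_lit 414) (nat_lit 362) (nat_lit 244))) (XT.nd (nat_lit 78) (nat_lit 76) (nat_lit 0) (XT.lf (nat_lit 0) (nat_lit 25890506569) (nat_lit 152) (nat_lit 40727502374) (nat_lit 76) (nat_lit 200493045980) (nat_lit 171) (nat_lit 5) (nat_lit 173) (nat_lit 5) (nat_lit 172) (nat_lit 4) (nat_lit 415) (nat_lit 362) (nat_lit 243)) (XT.lf (nat_lit 0) (nat_lit 169579842071) (nat_lit 152) (nat_lit 31218894365) (nat_lit 0) (nat_lit 80242915570) (nat_lit 170) (nat_lit 5) (nat_lit 172) (nat_lit 4) (nat_lit 170) (nat_lit 4) (nat_lit 416) (nat_lit 362) (nat_lit 242))))) (XT.nd (nat_lit 312) (nat_lit 456) (nat_lit 0) (XT.nd (nat_lit 156) (nat_lit 304) (nat_lit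 0) (XT.nd (nat_lit 78) (nat_lit 76) (nat_lit 0) (XT.lf (nat_lit 0) (nat_lit 34023565780) (nat_lit 152) (nat_lit 19589262141) (nat_lit 76) (nat_lit 242138291958) (nat_lit 168) (nat_lit 5) (nat_lit 170) (nat_lit 5) (nat_lit 169) (nat_lit 4) (nat_lit 417) (nat_lit 362) (nat_lit 241)) (XT.lf (nat_lit 0) (nat_lit 194378321386) (nat_lit 152) (nat_lit 7516529944) (nat_lit 0) (nat_lit 109294350276) (nat_lit 167) (nat_lit 5) (nat_lit 169) (nat_lit 4) (nat_lit 167) (nat_lit 4) (nat_lit 418) (nat_lit 362) (nat_lit 240))) (XT.nd (nat_lit 78) (nat_lit 76) (nat_lit 0) (XT.lf (nat_lit 0) (nat_lit 7447365159) (nat_lit 76) (nat_lit 37690129142) (nat_lit 152) (nat_lit 282358395502) (nat_lit 164) (nat_lit 5) (nat_lit 165) (nat_lit 5) (nat_lit 166) (nat_lit 4) (nat_lit 419) (nat_lit 362) (nat_lit 239)) (XT.lf (nat_lit 0) (nat_lit 23021979261) (nat_lit 76) (nat_lit 201301985902) (nat_lit 76) (nat_lit 120268665740)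 (nat_lit 163) (nat_lit 4) (nat_lit 164) (nat_lit 5) (nat_lit 164) (nat_lit 4) (nat_lit 420) (nat_lit 362) (nat_lit 238)))) (XT.nd (nat_lit 156) (nat_lit 228) (nat_lit 0) (XT.nd (nat_lit 78) (nat_lit 76) (nat_lit 0) (XT.lf (nat_lit 0) (nat_lit 41944502820) (nat_lit 76) (nat_lit 18044889045) (nat_lit 152) (nat_lit 302677213755) (nat_lit 161) (nat_lit 5) (nat_lit 162) (nat_lit 5) (nat_lit 163) (nat_lit 4) (nat_lit 421) (nat_lit 362) (nat_lit 237)) (XT.lf (nat_lit 0) (nat_lit 61142329149) (nat_lit 76) (nat_lit 198822719562) (nat_lit 76) (nat_lit 121647339589) (nat_lit 160) (nat_lit 4) (nat_lit 161) (nat_lit 5) (nat_lit 161) (nat_lit 4) (nat_lit 422) (nat_lit 362) (nat_lit 236))) (XT.nd (nat_lit 78) (nat_lit 76) (nat_lit 0) (XT.lf (nat_lit 0) (nat_lit 78885385176) (nat_lit 152) (nat_lit 317376867870) (nat_lit 0) (nat_lit 5384688648) (nat_lit 158) (nat_lit 5) (nat_lit 160) (nat_lit 4) (nat_lit 158)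 (nat_lit 4) (nat_lit 423) (nat_lit 362) (nat_lit 235)) (XT.lf (nat_lit 0) (nat_lit 107778603119) (nat_lit 76) (nat_lit 194184371426) (nat_lit 76) (nat_lit 120683365039) (nat_lit 157) (nat_lit 4) (nat_lit 158) (nat_lit 5) (nat_lit 158) (nat_lit 4) (nat_lit 424) (nat_lit 362) (nat_lit 234)))))) (XT.nd (nat_lit 624) (nat_lit 1140) (nat_lit 0) (XT.nd (nat_lit 312) (nat_lit 456) (nat_lit 0) (XT.nd (nat_lit 156) (nat_lit 228) (nat_lit 0) (XT.nd (nat_lit 78) (nat_lit 76) (nat_lit 0) (XT.lf (nat_lit 0) (nat_lit 102706054552) (nat_lit 152) (nat_lit 309425274980) (nat_lit 0) (nat_lit 32704822843) (nat_lit 155) (nat_lit 5) (nat_lit 157) (nat_lit 4) (nat_lit 155) (nat_lit 4) (nat_lit 425) (nat_lit 362) (nat_lit 233)) (XT.lf (nat_lit 0) (nat_lit 164283940081) (nat_lit 76) (nat_lit 186923171001) (nat_lit 76) (nat_lit 116921686286) (nat_lit 154) (nat_lit 4) (nat_lit 155) (nat_lit 5) (nat_lit 155) (nat_lit 4)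 (nat_lit 426) (nat_lit 362) (nat_lit 232))) (XT.nd (nat_lit 78) (nat_lit 76) (nat_lit 0) (XT.lf (nat_lit 0) (nat_lit 131883853711) (nat_lit 152) (nat_lit 295605705173) (nat_lit 0) (nat_lit 65215549922) (nat_lit 152) (nat_lit 5) (nat_lit 154) (nat_lit 4) (nat_lit 152) (nat_lit 4) (nat_lit 427) (nat_lit 362) (nat_lit 231)) (XT.lf (nat_lit 0) (nat_lit 232204875166) (nat_lit 76) (nat_lit 176502415945) (nat_lit 76) (nat_lit 109833905574) (nat_lit 151) (nat_lit 4) (nat_lit 152) (nat_lit 5) (nat_lit 152) (nat_lit 4) (nat_lit 428) (nat_lit 362) (nat_lit 230)))) (XT.nd (nat_lit 156) (nat_lit 228) (nat_lit 0) (XT.nd (nat_lit 78) (nat_lit 76) (nat_lit 0) (XT.lf (nat_lit 0) (nat_lit 167235367833) (nat_lit 152) (nat_lit 274783403961) (nat_lit 0) (nat_lit 103741366262) (nat_lit 149) (nat_lit 5) (nat_lit 151) (nat_lit 4) (nat_lit 149) (nat_lit 4) (nat_lit 429) (nat_lit 362) (nat_lit 229)) (XT.lf (nat_lit 0)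 (nat_lit 313307156594) (nat_lit 76) (nat_lit 162302112035) (nat_lit 76) (nat_lit 98807941787) (nat_lit 148) (nat_lit 4) (nat_lit 149) (nat_lit 5) (nat_lit 149) (nat_lit 4) (nat_lit 430) (nat_lit 362) (nat_lit 228))) (XT.nd (nat_lit 78) (nat_lit 76) (nat_lit 0) (XT.lf (nat_lit 0) (nat_lit 209693183222) (nat_lit 152) (nat_lit 245646906844) (nat_lit 0) (nat_lit 149222396146) (nat_lit 146) (nat_lit 5) (nat_lit 148) (nat_lit 4) (nat_lit 146) (nat_lit 4) (nat_lit 431) (nat_lit 362) (nat_lit 227)) (XT.lf (nat_lit 0) (nat_lit 409604876690) (nat_lit 76) (nat_lit 143607234485) (nat_lit 76) (nat_lit 83136309683) (nat_lit 145) (nat_lit 4) (nat_lit 146) (nat_lit 5) (nat_lit 146) (nat_lit 4) (nat_lit 432) (nat_lit 362) (nat_lit 226))))) (XT.nd (nat_lit 312) (nat_lit 684) (nat_lit 0) (XT.nd (nat_lit 156) (nat_lit 228) (nat_lit 0) (XT.nd (nat_lit 78) (nat_lit 76) (nat_lit 0) (XT.lf (nat_lit 0) (nat_lit 260321232695)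 (nat_lit 152) (nat_lit 206683292282) (nat_lit 0) (nat_lit 202729754288) (nat_lit 143) (nat_lit 5) (nat_lit 145) (nat_lit 4) (nat_lit 143) (nat_lit 4) (nat_lit 433) (nat_lit 362) (nat_lit 225)) (XT.lf (nat_lit 0) (nat_lit 523393330596) (nat_lit 76) (nat_lit 119594434109) (nat_lit 76) (nat_lit 62002843246) (nat_lit 142) (nat_lit 4) (nat_lit 143) (nat_lit 5) (nat_lit 143) (nat_lit 4) (nat_lit 434) (nat_lit 362) (nat_lit 224))) (XT.nd (nat_lit 78) (nat_lit 76) (nat_lit 0) (XT.lf (nat_lit 0) (nat_lit 320332102800) (nat_lit 152) (nat_lit 156150159625) (nat_lit 0) (nat_lit 265482869477) (nat_lit 140) (nat_lit 5) (nat_lit 142) (nat_lit 4) (nat_lit 140) (nat_lit 4) (nat_lit 435) (nat_lit 362) (nat_lit 223)) (XT.lf (nat_lit 0) (nat_lit 657286066826) (nat_lit 76) (nat_lit 89316989800) (nat_lit 76) (nat_lit 34467664656) (nat_lit 139) (nat_lit 4) (nat_lit 140) (nat_lit 5) (nat_lit 140) (nat_lit 4) (nat_lit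 436) (nat_lit 362) (nat_lit 222)))) (XT.nd (nat_lit 156) (nat_lit 380) (nat_lit 0) (XT.nd (nat_lit 78) (nat_lit 152) (nat_lit 0) (XT.lf (nat_lit 0) (nat_lit 391106546785) (nat_lit 152) (nat_lit 92043914628) (nat_lit 0) (nat_lit 338869013296) (nat_lit 137) (nat_lit 5) (nat_lit 139) (nat_lit 4) (nat_lit 137) (nat_lit 4) (nat_lit 437) (nat_lit 362) (nat_lit 221)) (XT.lf (nat_lit 0) (nat_lit 532226516) (nat_lit 152) (nat_lit 51146544104) (nat_lit 76) (nat_lit 813715410464) (nat_lit 135) (nat_lit 5) (nat_lit 137) (nat_lit 5) (nat_lit 136) (nat_lit 4) (nat_lit 438) (nat_lit 362) (nat_lit 220))) (XT.nd (nat_lit 78) (nat_lit 304) (nat_lit 0) (XT.lf (nat_lit 0) (nat_lit 474215477043) (nat_lit 152) (nat_lit 12063893293) (nat_lit 0) (nat_lit 424465307631) (nat_lit 134) (nat_lit 5) (nat_lit 136) (nat_lit 4) (nat_lit 134) (nat_lit 4) (nat_lit 439) (nat_lit 362) (nat_lit 219)) (XT.nd (nat_lit 78) (nat_lit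 76) (nat_lit 0) (XT.lf (nat_lit 0) (nat_lit 39399669949) (nat_lit 76) (nat_lit 4088086430) (nat_lit 152) (nat_lit 915302507213) (nat_lit 131) (nat_lit 5) (nat_lit 132) (nat_lit 5) (nat_lit 133) (nat_lit 4) (nat_lit 440) (nat_lit 362) (nat_lit 218)) (XT.lf (nat_lit 0) (nat_lit 89285910096) (nat_lit 76) (nat_lit 483552837234) (nat_lit 76) (nat_lit 436171611224) (nat_lit 130) (nat_lit 4) (nat_lit 131) (nat_lit 5) (nat_lit 131) (nat_lit 4) (nat_lit 441) (nat_lit 362) (nat_lit 217))))))))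
noncomputable def xc156 : XT := (XT.nd (nat_lit 47814) (nat_lit 0) (nat_lit 7372) (XT.nd (nat_lit 47190) (nat_lit 0) (nat_lit 11248) (XT.nd (nat_lit 312) (nat_lit 152) (nat_lit 0) (XT.nd (nat_lit 156) (nat_lit 228) (nat_lit 0) (XT.nd (nat_lit 78) (nat_lit 76) (nat_lit 0) (XT.lf (nat_lit 0) (nat_lit 98268601810) (nat_lit 152) (nat_lit 910793392943) (nat_lit 0) (nat_lit 53143577053) (nat_lit 128) (nat_lit 5) (nat_lit 130) (nat_lit 4) (nat_lit 128) (nat_lit 4) (nat_lit 442) (nat_lit 362) (nat_lit 216)) (XT.lf (nat_lit 0) (nat_lit 213280463124) (nat_lit 76) (nat_lit 474872488841) (nat_lit 76) (nat_lit 429747420006) (nat_lit 127) (nat_lit 4) (nat_lit 128) (nat_lit 5) (nat_lit 128) (nat_lit 4) (nat_lit 443) (nat_lit 362) (nat_lit 215))) (XT.nd (nat_lit 78) (nat_lit 76) (nat_lit 0) (XT.lf (nat_lit 0) (nat_lit 165076342103) (nat_lit 152) (nat_lit 889628992312) (nat_lit 0) (nat_lit 122100047200) (nat_lit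 125) (nat_lit 5) (nat_lit 127) (nat_lit 4) (nat_lit 125) (nat_lit 4) (nat_lit 444) (nat_lit 362) (nat_lit 214)) (XT.lf (nat_lit 0) (nat_lit 363092242454) (nat_lit 76) (nat_lit 459230001859) (nat_lit 76) (nat_lit 416253670966) (nat_lit 124) (nat_lit 4) (nat_lit 125) (nat_lit 5) (nat_lit 125) (nat_lit 4) (nat_lit 445) (nat_lit 362) (nat_lit 213)))) (XT.nd (nat_lit 46722) (nat_lit 0) (nat_lit 12996) (XT.nd (nat_lit 46644) (nat_lit 0) (nat_lit 12920) (XT.lf (nat_lit 0) (nat_lit 245740434631) (nat_lit 152) (nat_lit 853252915472) (nat_lit 0) (nat_lit 204810563947) (nat_lit 122) (nat_lit 5) (nat_lit 124) (nat_lit 4) (nat_lit 122) (nat_lit 4) (nat_lit 446) (nat_lit 362) (nat_lit 212)) (XT.lf (nat_lit 0) (nat_lit 4819655688) (nat_lit 836) (nat_lit 3565524331) (nat_lit 836) (nat_lit 3565524331) (nat_lit 292) (nat_lit 3) (nat_lit 303) (nat_lit 3) (nat_lit 303) (nat_lit 5) (nat_lit 363) (nat_lit 363) (nat_lit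 294))) (XT.nd (nat_lit 78) (nat_lit 0) (nat_lit 0) (XT.lf (nat_lit 0) (nat_lit 10427694709) (nat_lit 760) (nat_lit 12485186673) (nat_lit 836) (nat_lit 1924443121) (nat_lit 293) (nat_lit 5) (nat_lit 303) (nat_lit 5) (nat_lit 304) (nat_lit 5) (nat_lit 364) (nat_lit 363) (nat_lit 293)) (XT.lf (nat_lit 76) (nat_lit 7759552005) (nat_lit 0) (nat_lit 4031907648) (nat_lit 836) (nat_lit 14031038372) (nat_lit 294) (nat_lit 5) (nat_lit 293) (nat_lit 5) (nat_lit 304) (nat_lit 5) (nat_lit 365) (nat_lit 363) (nat_lit 292))))) (XT.nd (nat_lit 312) (nat_lit 1824) (nat_lit 0) (XT.nd (nat_lit 156) (nat_lit 0) (nat_lit 152) (XT.nd (nat_lit 78) (nat_lit 0) (nat_lit 76) (XT.lf (nat_lit 76) (nat_lit 3020613757) (nat_lit 0) (nat_lit 10750733572) (nat_lit 836) (nat_lit 13089787023) (nat_lit 295) (nat_lit 5) (nat_lit 294) (nat_lit 5) (nat_lit 305) (nat_lit 5) (nat_lit 366) (nat_lit 363) (nat_lit 291)) (XT.lf (nat_lit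 0) (nat_lit 16432983197) (nat_lit 760) (nat_lit 1766977359) (nat_lit 836) (nat_lit 9756733169) (nat_lit 295) (nat_lit 5) (nat_lit 305) (nat_lit 5) (nat_lit 306) (nat_lit 5) (nat_lit 367) (nat_lit 363) (nat_lit 290))) (XT.nd (nat_lit 78) (nat_lit 0) (nat_lit 0) (XT.lf (nat_lit 0) (nat_lit 19870765596) (nat_lit 760) (nat_lit 6553307264) (nat_lit 836) (nat_lit 2687664205) (nat_lit 296) (nat_lit 5) (nat_lit 306) (nat_lit 5) (nat_lit 307) (nat_lit 5) (nat_lit 368) (nat_lit 363) (nat_lit 289)) (XT.lf (nat_lit 76) (nat_lit 18819320196) (nat_lit 0) (nat_lit 5382870780) (nat_lit 836) (nat_lit 6126061877) (nat_lit 297) (nat_lit 5) (nat_lit 296) (nat_lit 5) (nat_lit 307) (nat_lit 5) (nat_lit 369) (nat_lit 363) (nat_lit 288)))) (XT.nd (nat_lit 156) (nat_lit 760) (nat_lit 0) (XT.nd (nat_lit 78) (nat_lit 532) (nat_lit 0) (XT.lf (nat_lit 0) (nat_lit 15016250230) (nat_lit 760) (nat_lit 14472591597) (nat_lit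 836) (nat_lit 2122812504) (nat_lit 287) (nat_lit 5) (nat_lit 297) (nat_lit 5) (nat_lit 298) (nat_lit 5) (nat_lit 370) (nat_lit 363) (nat_lit 287)) (XT.lf (nat_lit 0) (nat_lit 2725556598) (nat_lit 532) (nat_lit 21799957500) (nat_lit 76) (nat_lit 8440731086) (nat_lit 280) (nat_lit 5) (nat_lit 287) (nat_lit 5) (nat_lit 281) (nat_lit 5) (nat_lit 371) (nat_lit 363) (nat_lit 286))) (XT.nd (nat_lit 78) (nat_lit 380) (nat_lit 0) (XT.lf (nat_lit 0) (nat_lit 7263557904) (nat_lit 380) (nat_lit 1264904176) (nat_lit 456) (nat_lit 25866949225) (nat_lit 275) (nat_lit 5) (nat_lit 280) (nat_lit 5) (nat_lit 281) (nat_lit 5) (nat_lit 372) (nat_lit 363) (nat_lit 285)) (XT.lf (nat_lit 0) (nat_lit 3224018663) (nat_lit 380) (nat_lit 12369800642) (nat_lit 456) (nat_lit 20305180442) (nat_lit 270) (nat_lit 5) (nat_lit 275) (nat_lit 5) (nat_lit 276) (nat_lit 5) (nat_lit 373) (nat_lit 363) (nat_lit 284)))))) (XT.nd (nat_lit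 624) (nat_lit 1748) (nat_lit 0) (XT.nd (nat_lit 312) (nat_lit 1140) (nat_lit 0) (XT.nd (nat_lit 156) (nat_lit 684) (nat_lit 0) (XT.nd (nat_lit 78) (nat_lit 304) (nat_lit 0) (XT.lf (nat_lit 0) (nat_lit 23914730688) (nat_lit 456) (nat_lit 760844970) (nat_lit 76) (nat_lit 12812783328) (nat_lit 270) (nat_lit 5) (nat_lit 276) (nat_lit 5) (nat_lit 271) (nat_lit 5) (nat_lit 374) (nat_lit 363) (nat_lit 283)) (XT.lf (nat_lit 0) (nat_lit 33655695923) (nat_lit 380) (nat_lit 4588042676) (nat_lit 76) (nat_lit 923409320) (nat_lit 266) (nat_lit 5) (nat_lit 271) (nat_lit 5) (nat_lit 267) (nat_lit 5) (nat_lit 375) (nat_lit 363) (nat_lit 282))) (XT.nd (nat_lit 78) (nat_lit 304) (nat_lit 0) (XT.lf (nat_lit 0) (nat_lit 4035375835) (nat_lit 380) (nat_lit 8594608916) (nat_lit 76) (nat_lit 28300662537) (nat_lit 261) (nat_lit 5) (nat_lit 266) (nat_lit 5) (nat_lit 262) (nat_lit 5) (nat_lit 376) (nat_lit 363) (nat_lit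 281)) (XT.lf (nat_lit 0) (nat_lit 14948513957) (nat_lit 380) (nat_lit 12632747247) (nat_lit 76) (nat_lit 15209664894) (nat_lit 257) (nat_lit 5) (nat_lit 262) (nat_lit 5) (nat_lit 258) (nat_lit 5) (nat_lit 377) (nat_lit 363) (nat_lit 280)))) (XT.nd (nat_lit 156) (nat_lit 608) (nat_lit 0) (XT.nd (nat_lit 78) (nat_lit 228) (nat_lit 0) (XT.lf (nat_lit 0) (nat_lit 27542718506) (nat_lit 380) (nat_lit 16567881230) (nat_lit 76) (nat_lit 649026709) (nat_lit 253) (nat_lit 5) (nat_lit 258) (nat_lit 5) (nat_lit 254) (nat_lit 5) (nat_lit 378) (nat_lit 363) (nat_lit 279)) (XT.lf (nat_lit 0) (nat_lit 26219013348) (nat_lit 228) (nat_lit 16016024300) (nat_lit 304) (nat_lit 4596256260) (nat_lit 250) (nat_lit 5) (nat_lit 253) (nat_lit 5) (nat_lit 254) (nat_lit 5) (nat_lit 379) (nat_lit 363) (nat_lit 278))) (XT.nd (nat_lit 78) (nat_lit 228) (nat_lit 0) (XT.lf (nat_lit 0) (nat_lit 9652109914) (nat_lit 380) (nat_lit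 24667217590) (nat_lit 76) (nat_lit 14696954508) (nat_lit 245) (nat_lit 5) (nat_lit 250) (nat_lit 5) (nat_lit 246) (nat_lit 5) (nat_lit 380) (nat_lit 363) (nat_lit 277)) (XT.lf (nat_lit 0) (nat_lit 22647005432) (nat_lit 228) (nat_lit 3216177345) (nat_lit 304) (nat_lit 25459925573) (nat_lit 242) (nat_lit 5) (nat_lit 245) (nat_lit 5) (nat_lit 246) (nat_lit 5) (nat_lit 381) (nat_lit 363) (nat_lit 276))))) (XT.nd (nat_lit 312) (nat_lit 836) (nat_lit 0) (XT.nd (nat_lit 156) (nat_lit 380) (nat_lit 0) (XT.nd (nat_lit 78) (nat_lit 304) (nat_lit 0) (XT.lf (nat_lit 0) (nat_lit 21016072632) (nat_lit 228) (nat_lit 23587617556) (nat_lit 304) (nat_lit 9149163172) (nat_lit 239) (nat_lit 5) (nat_lit 242) (nat_lit 5) (nat_lit 243) (nat_lit 5) (nat_lit 382) (nat_lit 363) (nat_lit 275)) (XT.lf (nat_lit 0) (nat_lit 9227460997) (nat_lit 304) (nat_lit 36709625848) (nat_lit 76) (nat_lit 10381682849) (nat_lit 235) (nat_lit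 5) (nat_lit 239) (nat_lit 5) (nat_lit 236) (nat_lit 5) (nat_lit 383) (nat_lit 363) (nat_lit 274))) (XT.nd (nat_lit 78) (nat_lit 152) (nat_lit 0) (XT.lf (nat_lit 0) (nat_lit 18264381421) (nat_lit 228) (nat_lit 11750046056) (nat_lit 304) (nat_lit 29004994818) (nat_lit 232) (nat_lit 5) (nat_lit 235) (nat_lit 5) (nat_lit 236) (nat_lit 5) (nat_lit 384) (nat_lit 363) (nat_lit 273)) (XT.lf (nat_lit 0) (nat_lit 17180439459) (nat_lit 152) (nat_lit 36589332664) (nat_lit 228) (nat_lit 8101083939) (nat_lit 230) (nat_lit 5) (nat_lit 232) (nat_lit 5) (nat_lit 233) (nat_lit 5) (nat_lit 385) (nat_lit 363) (nat_lit 272)))) (XT.nd (nat_lit 156) (nat_lit 380) (nat_lit 0) (XT.nd (nat_lit 78) (nat_lit 152) (nat_lit 0) (XT.lf (nat_lit 0) (nat_lit 15200135032) (nat_lit 304) (nat_lit 48528575212) (nat_lit 76) (nat_lit 1150979906) (nat_lit 226) (nat_lit 5) (nat_lit 230) (nat_lit 5) (nat_lit 227) (nat_lit 5) (nat_lit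 386) (nat_lit 363) (nat_lit 271)) (XT.lf (nat_lit 0) (nat_lit 15502780377) (nat_lit 152) (nat_lit 26227562436) (nat_lit 228) (nat_lit 26309812230) (nat_lit 224) (nat_lit 5) (nat_lit 226) (nat_lit 5) (nat_lit 227) (nat_lit 5) (nat_lit 387) (nat_lit 363) (nat_lit 270))) (XT.nd (nat_lit 78) (nat_lit 152) (nat_lit 0) (XT.lf (nat_lit 0) (nat_lit 299892396) (nat_lit 228) (nat_lit 56172186800) (nat_lit 76) (nat_lit 14915407601) (nat_lit 221) (nat_lit 5) (nat_lit 224) (nat_lit 5) (nat_lit 222) (nat_lit 5) (nat_lit 388) (nat_lit 363) (nat_lit 269)) (XT.lf (nat_lit 0) (nat_lit 14874380759) (nat_lit 152) (nat_lit 14854256309) (nat_lit 228) (nat_lit 45171801037) (nat_lit 219) (nat_lit 5) (nat_lit 221) (nat_lit 5) (nat_lit 222) (nat_lit 5) (nat_lit 389) (nat_lit 363) (nat_lit 268)))))))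
noncomputable def xc157 : XT := (XT.nd (nat_lit 1248) (nat_lit 2052) (nat_lit 0) (XT.nd (nat_lit 624) (nat_lit 1140) (nat_lit 0) (XT.nd (nat_lit 312) (nat_lit 532) (nat_lit 0) (XT.nd (nat_lit 156) (nat_lit 304) (nat_lit 0) (XT.nd (nat_lit 78) (nat_lit 228) (nat_lit 0) (XT.lf (nat_lit 0) (nat_lit 14949592231) (nat_lit 152) (nat_lit 48255109612) (nat_lit 228) (nat_lit 15405072647) (nat_lit 217) (nat_lit 5) (nat_lit 219) (nat_lit 5) (nat_lit 220) (nat_lit 5) (nat_lit 390) (nat_lit 363) (nat_lit 267)) (XT.lf (nat_lit 0) (nat_lit 15461191134) (nat_lit 152) (nat_lit 2295953799) (nat_lit 228) (nat_lit 64768141038) (nat_lit 214) (nat_lit 5) (nat_lit 216) (nat_lit 5) (nat_lit 217) (nat_lit 5) (nat_lit 391) (nat_lit 363) (nat_lit 266))) (XT.nd (nat_lit 78) (nat_lit 152) (nat_lit 0) (XT.lf (nat_lit 0) (nat_lit 15973469837) (nat_lit 152) (nat_lit 39177550055) (nat_lit 228) (nat_lit 31484471434) (nat_lit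 212) (nat_lit 5) (nat_lit 214) (nat_lit 5) (nat_lit 215) (nat_lit 5) (nat_lit 392) (nat_lit 363) (nat_lit 265)) (XT.lf (nat_lit 0) (nat_lit 5995214255) (nat_lit 152) (nat_lit 73721638618) (nat_lit 76) (nat_lit 11270370559) (nat_lit 210) (nat_lit 5) (nat_lit 212) (nat_lit 5) (nat_lit 211) (nat_lit 5) (nat_lit 393) (nat_lit 363) (nat_lit 264)))) (XT.nd (nat_lit 156) (nat_lit 304) (nat_lit 0) (XT.nd (nat_lit 78) (nat_lit 76) (nat_lit 0) (XT.lf (nat_lit 0) (nat_lit 18498220418) (nat_lit 152) (nat_lit 29083102078) (nat_lit 228) (nat_lit 47969409156) (nat_lit 208) (nat_lit 5) (nat_lit 210) (nat_lit 5) (nat_lit 211) (nat_lit 5) (nat_lit 394) (nat_lit 363) (nat_lit 263)) (XT.lf (nat_lit 0) (nat_lit 20542700873) (nat_lit 76) (nat_lit 73973322957) (nat_lit 152) (nat_lit 5862211478) (nat_lit 207) (nat_lit 5) (nat_lit 208) (nat_lit 5) (nat_lit 209) (nat_lit 4) (nat_lit 395) (nat_lit 363) (nat_lit 262)))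 (XT.nd (nat_lit 78) (nat_lit 76) (nat_lit 0) (XT.lf (nat_lit 0) (nat_lit 22762919225) (nat_lit 152) (nat_lit 17788912916) (nat_lit 228) (nat_lit 64898875604) (nat_lit 204) (nat_lit 5) (nat_lit 206) (nat_lit 5) (nat_lit 207) (nat_lit 5) (nat_lit 396) (nat_lit 363) (nat_lit 261)) (XT.lf (nat_lit 0) (nat_lit 25581373564) (nat_lit 76) (nat_lit 67373792993) (nat_lit 152) (nat_lit 17844928797) (nat_lit 203) (nat_lit 5) (nat_lit 204) (nat_lit 5) (nat_lit 205) (nat_lit 4) (nat_lit 397) (nat_lit 363) (nat_lit 260))))) (XT.nd (nat_lit 312) (nat_lit 532) (nat_lit 0) (XT.nd (nat_lit 156) (nat_lit 304) (nat_lit 0) (XT.nd (nat_lit 78) (nat_lit 76) (nat_lit 0) (XT.lf (nat_lit 0) (nat_lit 29043987186) (nat_lit 152) (nat_lit 5087790537) (nat_lit 228) (nat_lit 82309226114) (nat_lit 200) (nat_lit 5) (nat_lit 202) (nat_lit 5) (nat_lit 203) (nat_lit 5) (nat_lit 398) (nat_lit 363) (nat_lit 259)) (XT.lf (nat_lit 0)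 (nat_lit 32778470762) (nat_lit 76) (nat_lit 59859210374) (nat_lit 152) (nat_lit 29731063882) (nat_lit 199) (nat_lit 5) (nat_lit 200) (nat_lit 5) (nat_lit 201) (nat_lit 4) (nat_lit 399) (nat_lit 363) (nat_lit 258))) (XT.nd (nat_lit 78) (nat_lit 76) (nat_lit 0) (XT.lf (nat_lit 0) (nat_lit 28549733215) (nat_lit 228) (nat_lit 91122930452) (nat_lit 76) (nat_lit 8958809992) (nat_lit 196) (nat_lit 5) (nat_lit 199) (nat_lit 5) (nat_lit 197) (nat_lit 4) (nat_lit 400) (nat_lit 363) (nat_lit 257)) (XT.lf (nat_lit 0) (nat_lit 42474374578) (nat_lit 76) (nat_lit 51246325237) (nat_lit 152) (nat_lit 41486684183) (nat_lit 195) (nat_lit 5) (nat_lit 196) (nat_lit 5) (nat_lit 197) (nat_lit 4) (nat_lit 401) (nat_lit 363) (nat_lit 256)))) (XT.nd (nat_lit 156) (nat_lit 228) (nat_lit 0) (XT.nd (nat_lit 78) (nat_lit 76) (nat_lit 0) (XT.lf (nat_lit 0) (nat_lit 23871443809) (nat_lit 228) (nat_lit 93593065189) (nat_lit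 76) (nat_lit 24689189621) (nat_lit 192) (nat_lit 5) (nat_lit 195) (nat_lit 5) (nat_lit 193) (nat_lit 4) (nat_lit 402) (nat_lit 363) (nat_lit 255)) (XT.lf (nat_lit 0) (nat_lit 55060604372) (nat_lit 76) (nat_lit 41326089786) (nat_lit 152) (nat_lit 53065920602) (nat_lit 191) (nat_lit 5) (nat_lit 192) (nat_lit 5) (nat_lit 193) (nat_lit 4) (nat_lit 403) (nat_lit 363) (nat_lit 254))) (XT.nd (nat_lit 78) (nat_lit 76) (nat_lit 0) (XT.lf (nat_lit 0) (nat_lit 20142536745) (nat_lit 152) (nat_lit 94454961753) (nat_lit 76) (nat_lit 42557853158) (nat_lit 189) (nat_lit 5) (nat_lit 191) (nat_lit 5) (nat_lit 190) (nat_lit 4) (nat_lit 404) (nat_lit 363) (nat_lit 253)) (XT.lf (nat_lit 0) (nat_lit 70986705585) (nat_lit 76) (nat_lit 29860116570) (nat_lit 152) (nat_lit 64409072551) (nat_lit 188) (nat_lit 5) (nat_lit 189) (nat_lit 5) (nat_lit 190) (nat_lit 4) (nat_lit 405) (nat_lit 363) (nat_lit 252)))))) (XT.nd (nat_lit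 624) (nat_lit 1140) (nat_lit 0) (XT.nd (nat_lit 312) (nat_lit 456) (nat_lit 0) (XT.nd (nat_lit 156) (nat_lit 228) (nat_lit 0) (XT.nd (nat_lit 78) (nat_lit 76) (nat_lit 0) (XT.lf (nat_lit 0) (nat_lit 17510748359) (nat_lit 152) (nat_lit 93389861784) (nat_lit 76) (nat_lit 62895141696) (nat_lit 186) (nat_lit 5) (nat_lit 188) (nat_lit 5) (nat_lit 187) (nat_lit 4) (nat_lit 406) (nat_lit 363) (nat_lit 251)) (XT.lf (nat_lit 0) (nat_lit 90768036340) (nat_lit 76) (nat_lit 16576676554) (nat_lit 152) (nat_lit 75440433421) (nat_lit 185) (nat_lit 5) (nat_lit 186) (nat_lit 5) (nat_lit 187) (nat_lit 4) (nat_lit 407) (nat_lit 363) (nat_lit 250))) (XT.nd (nat_lit 78) (nat_lit 76) (nat_lit 0) (XT.lf (nat_lit 0) (nat_lit 16149657728) (nat_lit 152) (nat_lit 90026750399) (nat_lit 76) (nat_lit 86075120491) (nat_lit 183) (nat_lit 5) (nat_lit 185) (nat_lit 5) (nat_lit 184) (nat_lit 4) (nat_lit 408) (nat_lit 363) (nat_lit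 249)) (XT.lf (nat_lit 0) (nat_lit 114994564333) (nat_lit 76) (nat_lit 1166179554) (nat_lit 152) (nat_lit 86065798547) (nat_lit 182) (nat_lit 5) (nat_lit 183) (nat_lit 5) (nat_lit 184) (nat_lit 4) (nat_lit 409) (nat_lit 363) (nat_lit 248)))) (XT.nd (nat_lit 156) (nat_lit 228) (nat_lit 0) (XT.nd (nat_lit 78) (nat_lit 76) (nat_lit 0) (XT.lf (nat_lit 0) (nat_lit 16262283930) (nat_lit 152) (nat_lit 83934954079) (nat_lit 76) (nat_lit 112521260367) (nat_lit 180) (nat_lit 5) (nat_lit 182) (nat_lit 5) (nat_lit 181) (nat_lit 4) (nat_lit 410) (nat_lit 363) (nat_lit 247)) (XT.lf (nat_lit 0) (nat_lit 127877980261) (nat_lit 152) (nat_lit 79706792682) (nat_lit 0) (nat_lit 16188657435) (nat_lit 179) (nat_lit 5) (nat_lit 181) (nat_lit 4) (nat_lit 179) (nat_lit 4) (nat_lit 411) (nat_lit 363) (nat_lit 246))) (XT.nd (nat_lit 78) (nat_lit 76) (nat_lit 0) (XT.lf (nat_lit 0) (nat_lit 18085167470) (nat_lit 152) (nat_lit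 74615746114) (nat_lit 76) (nat_lit 142712831427) (nat_lit 177) (nat_lit 5) (nat_lit 179) (nat_lit 5) (nat_lit 178) (nat_lit 4) (nat_lit 412) (nat_lit 363) (nat_lit 245)) (XT.lf (nat_lit 0) (nat_lit 142667494288) (nat_lit 152) (nat_lit 68702193262) (nat_lit 0) (nat_lit 36294845974) (nat_lit 176) (nat_lit 5) (nat_lit 178) (nat_lit 4) (nat_lit 176) (nat_lit 4) (nat_lit 413) (nat_lit 363) (nat_lit 244))))) (XT.nd (nat_lit 312) (nat_lit 684) (nat_lit 0) (XT.nd (nat_lit 156) (nat_lit 228) (nat_lit 0) (XT.nd (nat_lit 78) (nat_lit 76) (nat_lit 0) (XT.lf (nat_lit 0) (nat_lit 21892998003) (nat_lit 152) (nat_lit 61492832477) (nat_lit 76) (nat_lit 177192096268) (nat_lit 174) (nat_lit 5) (nat_lit 176) (nat_lit 5) (nat_lit 175) (nat_lit 4) (nat_lit 414) (nat_lit 363) (nat_lit 243)) (XT.lf (nat_lit 0) (nat_lit 160940392656) (nat_lit 152) (nat_lit 53582112646) (nat_lit 0) (nat_lit 59631586019) (nat_lit 173)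 (nat_lit 5) (nat_lit 175) (nat_lit 4) (nat_lit 173) (nat_lit 4) (nat_lit 415) (nat_lit 363) (nat_lit 242))) (XT.nd (nat_lit 78) (nat_lit 76) (nat_lit 0) (XT.lf (nat_lit 0) (nat_lit 28003858199) (nat_lit 152) (nat_lit 43901575091) (nat_lit 76) (nat_lit 216572400471) (nat_lit 171) (nat_lit 5) (nat_lit 173) (nat_lit 5) (nat_lit 172) (nat_lit 4) (nat_lit 416) (nat_lit 363) (nat_lit 241)) (XT.lf (nat_lit 0) (nat_lit 183187105582) (nat_lit 152) (nat_lit 33634550109) (nat_lit 0) (nat_lit 86701284668) (nat_lit 170) (nat_lit 5) (nat_lit 172) (nat_lit 4) (nat_lit 170) (nat_lit 4) (nat_lit 417) (nat_lit 363) (nat_lit 240)))) (XT.nd (nat_lit 156) (nat_lit 456) (nat_lit 0) (XT.nd (nat_lit 78) (nat_lit 76) (nat_lit 0) (XT.lf (nat_lit 0) (nat_lit 36785162287) (nat_lit 152) (nat_lit 21076791627) (nat_lit 76) (nat_lit 261547269992) (nat_lit 168) (nat_lit 5) (nat_lit 170) (nat_lit 5) (nat_lit 169) (nat_lit 4)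 (nat_lit 418) (nat_lit 363) (nat_lit 239)) (XT.lf (nat_lit 0) (nat_lit 209967142010) (nat_lit 152) (nat_lit 8040399043) (nat_lit 0) (nat_lit 118074868936) (nat_lit 167) (nat_lit 5) (nat_lit 169) (nat_lit 4) (nat_lit 167) (nat_lit 4) (nat_lit 419) (nat_lit 363) (nat_lit 238))) (XT.nd (nat_lit 78) (nat_lit 228) (nat_lit 0) (XT.lf (nat_lit 0) (nat_lit 8120970849) (nat_lit 76) (nat_lit 40666197825) (nat_lit 152) (nat_lit 304906458573) (nat_lit 164) (nat_lit 5) (nat_lit 165) (nat_lit 5) (nat_lit 166) (nat_lit 4) (nat_lit 420) (nat_lit 363) (nat_lit 237)) (XT.nd (nat_lit 78) (nat_lit 152) (nat_lit 0) (XT.lf (nat_lit 0) (nat_lit 24939437421) (nat_lit 76) (nat_lit 217368002711) (nat_lit 76) (nat_lit 129850723355) (nat_lit 163) (nat_lit 4) (nat_lit 164) (nat_lit 5) (nat_lit 164) (nat_lit 4) (nat_lit 421) (nat_lit 363) (nat_lit 236)) (XT.lf (nat_lit 0) (nat_lit 45373680376) (nat_lit 76) (nat_lit 19451358005)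 (nat_lit 152) (nat_lit 326853070931) (nat_lit 161) (nat_lit 5) (nat_lit 162) (nat_lit 5) (nat_lit 163) (nat_lit 4) (nat_lit 422) (nat_lit 363) (nat_lit 235))))))))
noncomputable def xc158 : XT := (XT.nd (nat_lit 1248) (nat_lit 988) (nat_lit 0) (XT.nd (nat_lit 624) (nat_lit 912) (nat_lit 0) (XT.nd (nat_lit 312) (nat_lit 456) (nat_lit 0) (XT.nd (nat_lit 156) (nat_lit 228) (nat_lit 0) (XT.nd (nat_lit 78) (nat_lit 152) (nat_lit 0) (XT.lf (nat_lit 0) (nat_lit 66105324556) (nat_lit 76) (nat_lit 214692374541) (nat_lit 76) (nat_lit 131341907944) (nat_lit 160) (nat_lit 4) (nat_lit 161) (nat_lit 5) (nat_lit 161) (nat_lit 4) (nat_lit 423) (nat_lit 363) (nat_lit 234)) (XT.lf (nat_lit 0) (nat_lit 85231211500) (nat_lit 152) (nat_lit 342696207920) (nat_lit 0) (nat_lit 5849527834) (nat_lit 158) (nat_lit 5) (nat_lit 160) (nat_lit 4) (nat_lit 158) (nat_lit 4) (nat_lit 424) (nat_lit 363) (nat_lit 233))) (XT.nd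 (nat_lit 78) (nat_lit 152) (nat_lit 0) (XT.lf (nat_lit 0) (nat_lit 116468623459) (nat_lit 76) (nat_lit 209684849788) (nat_lit 76) (nat_lit 130302900467) (nat_lit 157) (nat_lit 4) (nat_lit 158) (nat_lit 5) (nat_lit 158) (nat_lit 4) (nat_lit 425) (nat_lit 363) (nat_lit 232)) (XT.lf (nat_lit 0) (nat_lit 110955577931) (nat_lit 152) (nat_lit 334112327512) (nat_lit 0) (nat_lit 35353487171) (nat_lit 155) (nat_lit 5) (nat_lit 157) (nat_lit 4) (nat_lit 155) (nat_lit 4) (nat_lit 426) (nat_lit 363) (nat_lit 231)))) (XT.nd (nat_lit 156) (nat_lit 228) (nat_lit 0) (XT.nd (nat_lit 78) (nat_lit 152) (nat_lit 0) (XT.lf (nat_lit 0) (nat_lit 177490714342) (nat_lit 76) (nat_lit 201844557448) (nat_lit 76) (nat_lit 126242249777) (nat_lit 154) (nat_lit 4) (nat_lit 155) (nat_lit 5) (nat_lit 155) (nat_lit 4) (nat_lit 427) (nat_lit 363) (nat_lit 230)) (XT.lf (nat_lit 0) (nat_lit 142465758922) (nat_lit 152) (nat_lit 319190828881)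 (nat_lit 0) (nat_lit 70463369861) (nat_lit 152) (nat_lit 5) (nat_lit 154) (nat_lit 4) (nat_lit 152) (nat_lit 4) (nat_lit 428) (nat_lit 363) (nat_lit 229))) (XT.nd (nat_lit 78) (nat_lit 152) (nat_lit 0) (XT.lf (nat_lit 0) (nat_lit 250841845523) (nat_lit 76) (nat_lit 190591860738) (nat_lit 76) (nat_lit 118589294566) (nat_lit 151) (nat_lit 4) (nat_lit 152) (nat_lit 5) (nat_lit 152) (nat_lit 4) (nat_lit 429) (nat_lit 363) (nat_lit 228)) (XT.lf (nat_lit 0) (nat_lit 180643658881) (nat_lit 152) (nat_lit 296706186984) (nat_lit 0) (nat_lit 112069630154) (nat_lit 149) (nat_lit 5) (nat_lit 151) (nat_lit 4) (nat_lit 149) (nat_lit 4) (nat_lit 430) (nat_lit 363) (nat_lit 227))))) (XT.nd (nat_lit 312) (nat_lit 456) (nat_lit 0) (XT.nd (nat_lit 156) (nat_lit 228) (nat_lit 0) (XT.nd (nat_lit 78) (nat_lit 152) (nat_lit 0) (XT.lf (nat_lit 0) (nat_lit 338429015699) (nat_lit 76) (nat_lit 175257168103) (nat_lit 76)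 (nat_lit 106682994763) (nat_lit 148) (nat_lit 4) (nat_lit 149) (nat_lit 5) (nat_lit 149) (nat_lit 4) (nat_lit 431) (nat_lit 363) (nat_lit 226)) (XT.lf (nat_lit 0) (nat_lit 226496464081) (nat_lit 152) (nat_lit 265242029675) (nat_lit 0) (nat_lit 161187600043) (nat_lit 146) (nat_lit 5) (nat_lit 148) (nat_lit 4) (nat_lit 146) (nat_lit 4) (nat_lit 432) (nat_lit 363) (nat_lit 225))) (XT.nd (nat_lit 78) (nat_lit 152) (nat_lit 0) (XT.lf (nat_lit 0) (nat_lit 442427435484) (nat_lit 76) (nat_lit 155068255312) (nat_lit 76) (nat_lit 89759273195) (nat_lit 145) (nat_lit 4) (nat_lit 146) (nat_lit 5) (nat_lit 146) (nat_lit 4) (nat_lit 433) (nat_lit 363) (nat_lit 224)) (XT.lf (nat_lit 0) (nat_lit 281173215613) (nat_lit 152) (nat_lit 223164410877) (nat_lit 0) (nat_lit 218974080900) (nat_lit 143) (nat_lit 5) (nat_lit 145) (nat_lit 4) (nat_lit 143) (nat_lit 4) (nat_lit 434) (nat_lit 363) (nat_lit 223)))) (XT.nd (nat_lit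 156) (nat_lit 228) (nat_lit 0) (XT.nd (nat_lit 78) (nat_lit 152) (nat_lit 0) (XT.lf (nat_lit 0) (nat_lit 565316014839) (nat_lit 76) (nat_lit 129135908012) (nat_lit 76) (nat_lit 66936676887) (nat_lit 142) (nat_lit 4) (nat_lit 143) (nat_lit 5) (nat_lit 143) (nat_lit 4) (nat_lit 435) (nat_lit 363) (nat_lit 222)) (XT.lf (nat_lit 0) (nat_lit 345983501104) (nat_lit 152) (nat_lit 168591546739) (nat_lit 0) (nat_lit 286746053107) (nat_lit 140) (nat_lit 5) (nat_lit 142) (nat_lit 4) (nat_lit 140) (nat_lit 4) (nat_lit 436) (nat_lit 363) (nat_lit 221))) (XT.nd (nat_lit 78) (nat_lit 152) (nat_lit 0) (XT.lf (nat_lit 0) (nat_lit 709917377699) (nat_lit 76) (nat_lit 96437670331) (nat_lit 76) (nat_lit 37200143612) (nat_lit 139) (nat_lit 4) (nat_lit 140) (nat_lit 5) (nat_lit 140) (nat_lit 4) (nat_lit 437) (nat_lit 363) (nat_lit 220)) (XT.lf (nat_lit 0) (nat_lit 422418528672) (nat_lit 152) (nat_lit 99359563969) (nat_lit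 0) (nat_lit 366001767138) (nat_lit 137) (nat_lit 5) (nat_lit 139) (nat_lit 4) (nat_lit 137) (nat_lit 4) (nat_lit 438) (nat_lit 363) (nat_lit 219)))))) (XT.nd (nat_lit 47268) (nat_lit 0) (nat_lit 11856) (XT.nd (nat_lit 312) (nat_lit 456) (nat_lit 0) (XT.nd (nat_lit 156) (nat_lit 304) (nat_lit 0) (XT.nd (nat_lit 78) (nat_lit 76) (nat_lit 0) (XT.lf (nat_lit 0) (nat_lit 597607745) (nat_lit 152) (nat_lit 55191729933) (nat_lit 76) (nat_lit 878835237738) (nat_lit 135) (nat_lit 5) (nat_lit 137) (nat_lit 5) (nat_lit 136) (nat_lit 4) (nat_lit 439) (nat_lit 363) (nat_lit 218)) (XT.lf (nat_lit 0) (nat_lit 512174878711) (nat_lit 152) (nat_lit 12983753587) (nat_lit 0) (nat_lit 458444511732) (nat_lit 134) (nat_lit 5) (nat_lit 136) (nat_lit 4) (nat_lit 134) (nat_lit 4) (nat_lit 440) (nat_lit 363) (nat_lit 217))) (XT.nd (nat_lit 78) (nat_lit 76) (nat_lit 0) (XT.lf (nat_lit 0) (nat_lit 42597095270) (nat_lit 76)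 (nat_lit 4391936306) (nat_lit 152) (nat_lit 988503340369) (nat_lit 131) (nat_lit 5) (nat_lit 132) (nat_lit 5) (nat_lit 133) (nat_lit 4) (nat_lit 441) (nat_lit 363) (nat_lit 216)) (XT.lf (nat_lit 0) (nat_lit 96472977297) (nat_lit 76) (nat_lit 522214501353) (nat_lit 76) (nat_lit 471042627012) (nat_lit 130) (nat_lit 4) (nat_lit 131) (nat_lit 5) (nat_lit 131) (nat_lit 4) (nat_lit 442) (nat_lit 363) (nat_lit 215)))) (XT.nd (nat_lit 156) (nat_lit 228) (nat_lit 0) (XT.nd (nat_lit 78) (nat_lit 76) (nat_lit 0) (XT.lf (nat_lit 0) (nat_lit 106151460925) (nat_lit 152) (nat_lit 983613186386) (nat_lit 0) (nat_lit 57416301692) (nat_lit 128) (nat_lit 5) (nat_lit 130) (nat_lit 4) (nat_lit 128) (nat_lit 4) (nat_lit 443) (nat_lit 363) (nat_lit 214)) (XT.lf (nat_lit 0) (nat_lit 230384679974) (nat_lit 76) (nat_lit 512840948383) (nat_lit 76) (nat_lit 464105751360) (nat_lit 127) (nat_lit 4) (nat_lit 128) (nat_lit 5)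 (nat_lit 128) (nat_lit 4) (nat_lit 444) (nat_lit 363) (nat_lit 213))) (XT.nd (nat_lit 78) (nat_lit 76) (nat_lit 0) (XT.lf (nat_lit 0) (nat_lit 178302644063) (nat_lit 152) (nat_lit 960758020967) (nat_lit 0) (nat_lit 131888137384) (nat_lit 125) (nat_lit 5) (nat_lit 127) (nat_lit 4) (nat_lit 125) (nat_lit 4) (nat_lit 445) (nat_lit 363) (nat_lit 212)) (XT.lf (nat_lit 0) (nat_lit 392179118136) (nat_lit 76) (nat_lit 495948221066) (nat_lit 76) (nat_lit 449533683531) (nat_lit 124) (nat_lit 4) (nat_lit 125) (nat_lit 5) (nat_lit 125) (nat_lit 4) (nat_lit 446) (nat_lit 363) (nat_lit 211))))) (XT.nd (nat_lit 312) (nat_lit 912) (nat_lit 0) (XT.nd (nat_lit 156) (nat_lit 0) (nat_lit 76) (XT.nd (nat_lit 78) (nat_lit 0) (nat_lit 76) (XT.lf (nat_lit 0) (nat_lit 5379348492) (nat_lit 836) (nat_lit 3759353094) (nat_lit 836) (nat_lit 3759353094) (nat_lit 292) (nat_lit 3) (nat_lit 303) (nat_lit 3) (nat_lit 303) (nat_lit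 5) (nat_lit 364) (nat_lit 364) (nat_lit 292)) (XT.lf (nat_lit 0) (nat_lit 11584739241) (nat_lit 760) (nat_lit 13290515360) (nat_lit 836) (nat_lit 1932914416) (nat_lit 293) (nat_lit 5) (nat_lit 303) (nat_lit 5) (nat_lit 304) (nat_lit 5) (nat_lit 365) (nat_lit 364) (nat_lit 291))) (XT.nd (nat_lit 78) (nat_lit 0) (nat_lit 76) (XT.lf (nat_lit 76) (nat_lit 8565393736) (nat_lit 0) (nat_lit 4471187967) (nat_lit 836) (nat_lit 14836625900) (nat_lit 294) (nat_lit 5) (nat_lit 293) (nat_lit 5) (nat_lit 304) (nat_lit 5) (nat_lit 366) (nat_lit 364) (nat_lit 290)) (XT.lf (nat_lit 76) (nat_lit 3455474888) (nat_lit 0) (nat_lit 11698358690) (nat_lit 836) (nat_lit 13842152599) (nat_lit 295) (nat_lit 5) (nat_lit 294) (nat_lit 5) (nat_lit 305) (nat_lit 5) (nat_lit 367) (nat_lit 364) (nat_lit 289)))) (XT.nd (nat_lit 156) (nat_lit 1140) (nat_lit 0) (XT.nd (nat_lit 78) (nat_lit 0) (nat_lit 76) (XT.lf (nat_lit 0) (nat_lit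 18006336024) (nat_lit 760) (nat_lit 1715170630) (nat_lit 836) (nat_lit 10458786860) (nat_lit 295) (nat_lit 5) (nat_lit 305) (nat_lit 5) (nat_lit 306) (nat_lit 5) (nat_lit 368) (nat_lit 364) (nat_lit 288)) (XT.lf (nat_lit 0) (nat_lit 21701961474) (nat_lit 760) (nat_lit 6879779584) (nat_lit 836) (nat_lit 2846858240) (nat_lit 296) (nat_lit 5) (nat_lit 306) (nat_lit 5) (nat_lit 307) (nat_lit 5) (nat_lit 369) (nat_lit 364) (nat_lit 287))) (XT.nd (nat_lit 78) (nat_lit 1216) (nat_lit 0) (XT.lf (nat_lit 76) (nat_lit 20514062261) (nat_lit 0) (nat_lit 5850901056) (nat_lit 836) (nat_lit 6378219910) (nat_lit 297) (nat_lit 5) (nat_lit 296) (nat_lit 5) (nat_lit 307) (nat_lit 5) (nat_lit 370) (nat_lit 364) (nat_lit 286)) (XT.nd (nat_lit 78) (nat_lit 532) (nat_lit 0) (XT.lf (nat_lit 0) (nat_lit 16409920475) (nat_lit 760) (nat_lit 15650303559) (nat_lit 836) (nat_lit 2069748901) (nat_lit 287) (nat_lit 5) (nat_lit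 297) (nat_lit 5) (nat_lit 298) (nat_lit 5) (nat_lit 371) (nat_lit 364) (nat_lit 285)) (XT.lf (nat_lit 0) (nat_lit 3146167436) (nat_lit 532) (nat_lit 23342796549) (nat_lit 76) (nat_lit 9104452500) (nat_lit 280) (nat_lit 5) (nat_lit 287) (nat_lit 5) (nat_lit 281) (nat_lit 5) (nat_lit 372) (nat_lit 364) (nat_lit 284))))))))
noncomputable def xc159 : XT := (XT.nd (nat_lit 1248) (nat_lit 2660) (nat_lit 0) (XT.nd (nat_lit 624) (nat_lit 1976) (nat_lit 0) (XT.nd (nat_lit 312) (nat_lit 1216) (nat_lit 0) (XT.nd (nat_lit 156) (nat_lit 304) (nat_lit 0) (XT.nd (nat_lit 78) (nat_lit 380) (nat_lit 0) (XT.lf (nat_lit 0) (nat_lit 8037058026) (nat_lit 380) (nat_lit 1364246563) (nat_lit 456) (nat_lit 27736211342) (nat_lit 275) (nat_lit 5) (nat_lit 280) (nat_lit 5) (nat_lit 281) (nat_lit 5) (nat_lit 373) (nat_lit 364) (nat_lit 283)) (XT.lf (nat_lit 0) (nat_lit 3675080065) (nat_lit 380) (nat_lit 13345736560) (nat_lit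 456) (nat_lit 21741128513) (nat_lit 270) (nat_lit 5) (nat_lit 275) (nat_lit 5) (nat_lit 276) (nat_lit 5) (nat_lit 374) (nat_lit 364) (nat_lit 282))) (XT.nd (nat_lit 78) (nat_lit 304) (nat_lit 0) (XT.lf (nat_lit 0) (nat_lit 25994302533) (nat_lit 456) (nat_lit 634766816) (nat_lit 76) (nat_lit 13850038687) (nat_lit 270) (nat_lit 5) (nat_lit 276) (nat_lit 5) (nat_lit 271) (nat_lit 5) (nat_lit 375) (nat_lit 364) (nat_lit 281)) (XT.lf (nat_lit 0) (nat_lit 36505354333) (nat_lit 380) (nat_lit 4768764659) (nat_lit 76) (nat_lit 1018540624) (nat_lit 266) (nat_lit 5) (nat_lit 271) (nat_lit 5) (nat_lit 267) (nat_lit 5) (nat_lit 376) (nat_lit 364) (nat_lit 280)))) (XT.nd (nat_lit 156) (nat_lit 532) (nat_lit 0) (XT.nd (nat_lit 78) (nat_lit 304) (nat_lit 0) (XT.lf (nat_lit 0) (nat_lit 4508978382) (nat_lit 380) (nat_lit 9098968282) (nat_lit 76) (nat_lit 30589613783) (nat_lit 261) (nat_lit 5) (nat_lit 266) (nat_lit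 5) (nat_lit 262) (nat_lit 5) (nat_lit 377) (nat_lit 364) (nat_lit 279)) (XT.lf (nat_lit 0) (nat_lit 16287249095) (nat_lit 380) (nat_lit 13461516493) (nat_lit 76) (nat_lit 16458291897) (nat_lit 257) (nat_lit 5) (nat_lit 262) (nat_lit 5) (nat_lit 258) (nat_lit 5) (nat_lit 378) (nat_lit 364) (nat_lit 278))) (XT.nd (nat_lit 78) (nat_lit 228) (nat_lit 0) (XT.lf (nat_lit 0) (nat_lit 29881732304) (nat_lit 380) (nat_lit 17713223062) (nat_lit 76) (nat_lit 738661379) (nat_lit 253) (nat_lit 5) (nat_lit 258) (nat_lit 5) (nat_lit 254) (nat_lit 5) (nat_lit 379) (nat_lit 364) (nat_lit 277)) (XT.lf (nat_lit 0) (nat_lit 28488796648) (nat_lit 228) (nat_lit 17253285653) (nat_lit 304) (nat_lit 4829303037) (nat_lit 250) (nat_lit 5) (nat_lit 253) (nat_lit 5) (nat_lit 254) (nat_lit 5) (nat_lit 380) (nat_lit 364) (nat_lit 276))))) (XT.nd (nat_lit 312) (nat_lit 836) (nat_lit 0) (XT.nd (nat_lit 156) (nat_lit 532) (nat_lit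 0) (XT.nd (nat_lit 78) (nat_lit 228) (nat_lit 0) (XT.lf (nat_lit 0) (nat_lit 10548316055) (nat_lit 380) (nat_lit 26466241831) (nat_lit 76) (nat_lit 15916824819) (nat_lit 245) (nat_lit 5) (nat_lit 250) (nat_lit 5) (nat_lit 246) (nat_lit 5) (nat_lit 381) (nat_lit 364) (nat_lit 275)) (XT.lf (nat_lit 0) (nat_lit 24625541857) (nat_lit 228) (nat_lit 3424148780) (nat_lit 304) (nat_lit 27373393720) (nat_lit 242) (nat_lit 5) (nat_lit 245) (nat_lit 5) (nat_lit 246) (nat_lit 5) (nat_lit 382) (nat_lit 364) (nat_lit 274))) (XT.nd (nat_lit 78) (nat_lit 304) (nat_lit 0) (XT.lf (nat_lit 0) (nat_lit 22861767394) (nat_lit 228) (nat_lit 25422250916) (nat_lit 304) (nat_lit 9763461675) (nat_lit 239) (nat_lit 5) (nat_lit 242) (nat_lit 5) (nat_lit 243) (nat_lit 5) (nat_lit 383) (nat_lit 364) (nat_lit 273)) (XT.lf (nat_lit 0) (nat_lit 10074430383) (nat_lit 304) (nat_lit 39480959461) (nat_lit 76) (nat_lit 11263442800)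 (nat_lit 235) (nat_lit 5) (nat_lit 239) (nat_lit 5) (nat_lit 236) (nat_lit 5) (nat_lit 384) (nat_lit 364) (nat_lit 272)))) (XT.nd (nat_lit 156) (nat_lit 456) (nat_lit 0) (XT.nd (nat_lit 78) (nat_lit 152) (nat_lit 0) (XT.lf (nat_lit 0) (nat_lit 19883778722) (nat_lit 228) (nat_lit 12634988912) (nat_lit 304) (nat_lit 31217049146) (nat_lit 232) (nat_lit 5) (nat_lit 235) (nat_lit 5) (nat_lit 236) (nat_lit 5) (nat_lit 385) (nat_lit 364) (nat_lit 271)) (XT.lf (nat_lit 0) (nat_lit 18710356977) (nat_lit 152) (nat_lit 39459762961) (nat_lit 228) (nat_lit 8645466306) (nat_lit 230) (nat_lit 5) (nat_lit 232) (nat_lit 5) (nat_lit 233) (nat_lit 5) (nat_lit 386) (nat_lit 364) (nat_lit 270))) (XT.nd (nat_lit 78) (nat_lit 152) (nat_lit 0) (XT.lf (nat_lit 0) (nat_lit 16512350010) (nat_lit 304) (nat_lit 52255078325) (nat_lit 76) (nat_lit 1297826819) (nat_lit 226) (nat_lit 5) (nat_lit 230) (nat_lit 5) (nat_lit 227)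 (nat_lit 5) (nat_lit 387) (nat_lit 364) (nat_lit 269)) (XT.lf (nat_lit 0) (nat_lit 16892015576) (nat_lit 152) (nat_lit 28268159109) (nat_lit 228) (nat_lit 28318622539) (nat_lit 224) (nat_lit 5) (nat_lit 226) (nat_lit 5) (nat_lit 227) (nat_lit 5) (nat_lit 388) (nat_lit 364) (nat_lit 268)))))) (XT.nd (nat_lit 624) (nat_lit 1368) (nat_lit 0) (XT.nd (nat_lit 312) (nat_lit 532) (nat_lit 0) (XT.nd (nat_lit 156) (nat_lit 380) (nat_lit 0) (XT.nd (nat_lit 78) (nat_lit 152) (nat_lit 0) (XT.lf (nat_lit 0) (nat_lit 413069031) (nat_lit 228) (nat_lit 60516964755) (nat_lit 76) (nat_lit 16163992694) (nat_lit 221) (nat_lit 5) (nat_lit 224) (nat_lit 5) (nat_lit 222) (nat_lit 5) (nat_lit 389) (nat_lit 364) (nat_lit 267)) (XT.lf (nat_lit 0) (nat_lit 16206852982) (nat_lit 152) (nat_lit 15984879144) (nat_lit 228) (nat_lit 48696500823) (nat_lit 219) (nat_lit 5) (nat_lit 221) (nat_lit 5) (nat_lit 222) (nat_lit 5) (nat_lit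 390) (nat_lit 364) (nat_lit 266))) (XT.nd (nat_lit 78) (nat_lit 228) (nat_lit 0) (XT.lf (nat_lit 0) (nat_lit 16285081508) (nat_lit 152) (nat_lit 52057531503) (nat_lit 228) (nat_lit 16551866689) (nat_lit 217) (nat_lit 5) (nat_lit 219) (nat_lit 5) (nat_lit 220) (nat_lit 5) (nat_lit 391) (nat_lit 364) (nat_lit 265)) (XT.lf (nat_lit 0) (nat_lit 16834165900) (nat_lit 152) (nat_lit 2422408227) (nat_lit 228) (nat_lit 69866791841) (nat_lit 214) (nat_lit 5) (nat_lit 216) (nat_lit 5) (nat_lit 217) (nat_lit 5) (nat_lit 392) (nat_lit 364) (nat_lit 264)))) (XT.nd (nat_lit 156) (nat_lit 228) (nat_lit 0) (XT.nd (nat_lit 78) (nat_lit 152) (nat_lit 0) (XT.lf (nat_lit 0) (nat_lit 17384430010) (nat_lit 152) (nat_lit 42254592778) (nat_lit 228) (nat_lit 33923511779) (nat_lit 212) (nat_lit 5) (nat_lit 214) (nat_lit 5) (nat_lit 215) (nat_lit 5) (nat_lit 393) (nat_lit 364) (nat_lit 263)) (XT.lf (nat_lit 0) (nat_lit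 6549185355) (nat_lit 152) (nat_lit 79486834820) (nat_lit 76) (nat_lit 12226463433) (nat_lit 210) (nat_lit 5) (nat_lit 212) (nat_lit 5) (nat_lit 211) (nat_lit 5) (nat_lit 394) (nat_lit 364) (nat_lit 262))) (XT.nd (nat_lit 78) (nat_lit 76) (nat_lit 0) (XT.lf (nat_lit 0) (nat_lit 20104853134) (nat_lit 152) (nat_lit 31353800735) (nat_lit 228) (nat_lit 51732595036) (nat_lit 208) (nat_lit 5) (nat_lit 210) (nat_lit 5) (nat_lit 211) (nat_lit 5) (nat_lit 395) (nat_lit 364) (nat_lit 261)) (XT.lf (nat_lit 0) (nat_lit 22309934347) (nat_lit 76) (nat_lit 79835692583) (nat_lit 152) (nat_lit 6259451143) (nat_lit 207) (nat_lit 5) (nat_lit 208) (nat_lit 5) (nat_lit 209) (nat_lit 4) (nat_lit 396) (nat_lit 364) (nat_lit 260))))) (XT.nd (nat_lit 312) (nat_lit 760) (nat_lit 0) (XT.nd (nat_lit 156) (nat_lit 304) (nat_lit 0) (XT.nd (nat_lit 78) (nat_lit 76) (nat_lit 0) (XT.lf (nat_lit 0) (nat_lit 24704585471) (nat_lit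 152) (nat_lit 19157574076) (nat_lit 228) (nat_lit 70021295776) (nat_lit 204) (nat_lit 5) (nat_lit 206) (nat_lit 5) (nat_lit 207) (nat_lit 5) (nat_lit 397) (nat_lit 364) (nat_lit 259)) (XT.lf (nat_lit 0) (nat_lit 27745625641) (nat_lit 76) (nat_lit 72709858249) (nat_lit 152) (nat_lit 19205423892) (nat_lit 203) (nat_lit 5) (nat_lit 204) (nat_lit 5) (nat_lit 205) (nat_lit 4) (nat_lit 398) (nat_lit 364) (nat_lit 258))) (XT.nd (nat_lit 78) (nat_lit 76) (nat_lit 0) (XT.lf (nat_lit 0) (nat_lit 31482185683) (nat_lit 152) (nat_lit 5442065111) (nat_lit 228) (nat_lit 88828936807) (nat_lit 200) (nat_lit 5) (nat_lit 202) (nat_lit 5) (nat_lit 203) (nat_lit 5) (nat_lit 399) (nat_lit 364) (nat_lit 257)) (XT.lf (nat_lit 0) (nat_lit 35512618320) (nat_lit 76) (nat_lit 64595929843) (nat_lit 152) (nat_lit 32046703830) (nat_lit 199) (nat_lit 5) (nat_lit 200) (nat_lit 5) (nat_lit 201) (nat_lit 4) (nat_lit 400) (nat_lit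 364) (nat_lit 256)))) (XT.nd (nat_lit 156) (nat_lit 456) (nat_lit 0) (XT.nd (nat_lit 78) (nat_lit 76) (nat_lit 0) (XT.lf (nat_lit 0) (nat_lit 30892534885) (nat_lit 228) (nat_lit 98301726038) (nat_lit 76) (nat_lit 9724789479) (nat_lit 196) (nat_lit 5) (nat_lit 199) (nat_lit 5) (nat_lit 197) (nat_lit 4) (nat_lit 401) (nat_lit 364) (nat_lit 255)) (XT.lf (nat_lit 0) (nat_lit 45978537781) (nat_lit 76) (nat_lit 55295942058) (nat_lit 152) (nat_lit 44746688676) (nat_lit 195) (nat_lit 5) (nat_lit 196) (nat_lit 5) (nat_lit 197) (nat_lit 4) (nat_lit 402) (nat_lit 364) (nat_lit 254))) (XT.nd (nat_lit 78) (nat_lit 228) (nat_lit 0) (XT.lf (nat_lit 0) (nat_lit 25836356852) (nat_lit 228) (nat_lit 100975151784) (nat_lit 76) (nat_lit 26711725996) (nat_lit 192) (nat_lit 5) (nat_lit 195) (nat_lit 5) (nat_lit 193) (nat_lit 4) (nat_lit 403) (nat_lit 364) (nat_lit 253)) (XT.nd (nat_lit 78) (nat_lit 152) (nat_lit 0)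 (XT.lf (nat_lit 0) (nat_lit 59566232585) (nat_lit 76) (nat_lit 44584079394) (nat_lit 152) (nat_lit 57255877847) (nat_lit 191) (nat_lit 5) (nat_lit 192) (nat_lit 5) (nat_lit 193) (nat_lit 4) (nat_lit 404) (nat_lit 364) (nat_lit 252)) (XT.lf (nat_lit 0) (nat_lit 21805784297) (nat_lit 152) (nat_lit 101911443047) (nat_lit 76) (nat_lit 46007960214) (nat_lit 189) (nat_lit 5) (nat_lit 191) (nat_lit 5) (nat_lit 190) (nat_lit 4) (nat_lit 405) (nat_lit 364) (nat_lit 251))))))))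
noncomputable def xc160 : XT := (XT.nd (nat_lit 1248) (nat_lit 1824) (nat_lit 0) (XT.nd (nat_lit 624) (nat_lit 988) (nat_lit 0) (XT.nd (nat_lit 312) (nat_lit 456) (nat_lit 0) (XT.nd (nat_lit 156) (nat_lit 228) (nat_lit 0) (XT.nd (nat_lit 78) (nat_lit 152) (nat_lit 0) (XT.lf (nat_lit 0) (nat_lit 76761215466) (nat_lit 76) (nat_lit 32202848902) (nat_lit 152) (nat_lit 69509827093) (nat_lit 188) (nat_lit 5) (nat_lit 189) (nat_lit 5) (nat_lit 190) (nat_lit 4) (nat_lit 406) (nat_lit 364) (nat_lit 250)) (XT.lf (nat_lit 0) (nat_lit 18960343965) (nat_lit 152) (nat_lit 100766340232) (nat_lit 76) (nat_lit 67970291002) (nat_lit 186) (nat_lit 5) (nat_lit 188) (nat_lit 5) (nat_lit 187) (nat_lit 4) (nat_lit 407) (nat_lit 364) (nat_lit 249))) (XT.nd (nat_lit 78) (nat_lit 152) (nat_lit 0) (XT.lf (nat_lit 0) (nat_lit 98120073739) (nat_lit 76) (nat_lit 17858756303) (nat_lit 152) (nat_lit 81426800973) (nat_lit 185)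 (nat_lit 5) (nat_lit 186) (nat_lit 5) (nat_lit 187) (nat_lit 4) (nat_lit 408) (nat_lit 364) (nat_lit 248)) (XT.lf (nat_lit 0) (nat_lit 17487476814) (nat_lit 152) (nat_lit 97139149218) (nat_lit 76) (nat_lit 93002732553) (nat_lit 183) (nat_lit 5) (nat_lit 185) (nat_lit 5) (nat_lit 184) (nat_lit 4) (nat_lit 409) (nat_lit 364) (nat_lit 247)))) (XT.nd (nat_lit 156) (nat_lit 228) (nat_lit 0) (XT.nd (nat_lit 78) (nat_lit 152) (nat_lit 0) (XT.lf (nat_lit 0) (nat_lit 124279970649) (nat_lit 76) (nat_lit 1217423403) (nat_lit 152) (nat_lit 92905082244) (nat_lit 182) (nat_lit 5) (nat_lit 183) (nat_lit 5) (nat_lit 184) (nat_lit 4) (nat_lit 410) (nat_lit 364) (nat_lit 246)) (XT.lf (nat_lit 0) (nat_lit 17606422373) (nat_lit 152) (nat_lit 90564746482) (nat_lit 76) (nat_lit 121562651605) (nat_lit 180) (nat_lit 5) (nat_lit 182) (nat_lit 5) (nat_lit 181) (nat_lit 4) (nat_lit 411) (nat_lit 364) (nat_lit 245))) (XT.nd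 (nat_lit 78) (nat_lit 152) (nat_lit 0) (XT.lf (nat_lit 0) (nat_lit 138150072943) (nat_lit 152) (nat_lit 86000590697) (nat_lit 0) (nat_lit 17522548455) (nat_lit 179) (nat_lit 5) (nat_lit 181) (nat_lit 4) (nat_lit 179) (nat_lit 4) (nat_lit 412) (nat_lit 364) (nat_lit 244)) (XT.lf (nat_lit 0) (nat_lit 19572626127) (nat_lit 152) (nat_lit 80504512502) (nat_lit 76) (nat_lit 154167673721) (nat_lit 177) (nat_lit 5) (nat_lit 179) (nat_lit 5) (nat_lit 178) (nat_lit 4) (nat_lit 413) (nat_lit 364) (nat_lit 243))))) (XT.nd (nat_lit 312) (nat_lit 532) (nat_lit 0) (XT.nd (nat_lit 156) (nat_lit 228) (nat_lit 0) (XT.nd (nat_lit 78) (nat_lit 152) (nat_lit 0) (XT.lf (nat_lit 0) (nat_lit 154120326202) (nat_lit 152) (nat_lit 74120027494) (nat_lit 0) (nat_lit 39235370892) (nat_lit 176) (nat_lit 5) (nat_lit 178) (nat_lit 4) (nat_lit 176) (nat_lit 4) (nat_lit 414) (nat_lit 364) (nat_lit 242)) (XT.lf (nat_lit 0) (nat_lit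 23682736997) (nat_lit 152) (nat_lit 66336056117) (nat_lit 76) (nat_lit 191403452816) (nat_lit 174) (nat_lit 5) (nat_lit 176) (nat_lit 5) (nat_lit 175) (nat_lit 4) (nat_lit 415) (nat_lit 364) (nat_lit 241))) (XT.nd (nat_lit 78) (nat_lit 152) (nat_lit 0) (XT.lf (nat_lit 0) (nat_lit 173852790890) (nat_lit 152) (nat_lit 57794526982) (nat_lit 0) (nat_lit 64437242415) (nat_lit 173) (nat_lit 5) (nat_lit 175) (nat_lit 4) (nat_lit 173) (nat_lit 4) (nat_lit 416) (nat_lit 364) (nat_lit 240)) (XT.lf (nat_lit 0) (nat_lit 30280270340) (nat_lit 152) (nat_lit 47341575350) (nat_lit 76) (nat_lit 233932409598) (nat_lit 171) (nat_lit 5) (nat_lit 173) (nat_lit 5) (nat_lit 172) (nat_lit 4) (nat_lit 417) (nat_lit 364) (nat_lit 239)))) (XT.nd (nat_lit 156) (nat_lit 304) (nat_lit 0) (XT.nd (nat_lit 78) (nat_lit 152) (nat_lit 0) (XT.lf (nat_lit 0) (nat_lit 197877118734) (nat_lit 152) (nat_lit 36255135958) (nat_lit 0)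 (nat_lit 93670768659) (nat_lit 170) (nat_lit 5) (nat_lit 172) (nat_lit 4) (nat_lit 170) (nat_lit 4) (nat_lit 418) (nat_lit 364) (nat_lit 238)) (XT.lf (nat_lit 0) (nat_lit 39762021262) (nat_lit 152) (nat_lit 22694680941) (nat_lit 76) (nat_lit 282503557317) (nat_lit 168) (nat_lit 5) (nat_lit 170) (nat_lit 5) (nat_lit 169) (nat_lit 4) (nat_lit 419) (nat_lit 364) (nat_lit 237))) (XT.nd (nat_lit 78) (nat_lit 228) (nat_lit 0) (XT.lf (nat_lit 0) (nat_lit 226797567994) (nat_lit 152) (nat_lit 8617227249) (nat_lit 0) (nat_lit 127552554815) (nat_lit 167) (nat_lit 5) (nat_lit 169) (nat_lit 4) (nat_lit 167) (nat_lit 4) (nat_lit 420) (nat_lit 364) (nat_lit 236)) (XT.lf (nat_lit 0) (nat_lit 8837363603) (nat_lit 76) (nat_lit 43885935996) (nat_lit 152) (nat_lit 329264159955) (nat_lit 164) (nat_lit 5) (nat_lit 165) (nat_lit 5) (nat_lit 166) (nat_lit 4) (nat_lit 421) (nat_lit 364) (nat_lit 235)))))) (XT.nd (nat_lit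 624) (nat_lit 912) (nat_lit 0) (XT.nd (nat_lit 312) (nat_lit 456) (nat_lit 0) (XT.nd (nat_lit 156) (nat_lit 228) (nat_lit 0) (XT.nd (nat_lit 78) (nat_lit 152) (nat_lit 0) (XT.lf (nat_lit 0) (nat_lit 26999492807) (nat_lit 76) (nat_lit 234724742257) (nat_lit 76) (nat_lit 140204971516) (nat_lit 163) (nat_lit 4) (nat_lit 164) (nat_lit 5) (nat_lit 164) (nat_lit 4) (nat_lit 422) (nat_lit 364) (nat_lit 234)) (XT.lf (nat_lit 0) (nat_lit 49066689801) (nat_lit 76) (nat_lit 20975640373) (nat_lit 152) (nat_lit 352968463447) (nat_lit 161) (nat_lit 5) (nat_lit 162) (nat_lit 5) (nat_lit 163) (nat_lit 4) (nat_lit 423) (nat_lit 364) (nat_lit 233))) (XT.nd (nat_lit 78) (nat_lit 152) (nat_lit 0) (XT.lf (nat_lit 0) (nat_lit 71455143760) (nat_lit 76) (nat_lit 231836760915) (nat_lit 76) (nat_lit 141817351447) (nat_lit 160) (nat_lit 4) (nat_lit 161) (nat_lit 5) (nat_lit 161) (nat_lit 4) (nat_lit 424) (nat_lit 364)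 (nat_lit 232)) (XT.lf (nat_lit 0) (nat_lit 92079711430) (nat_lit 152) (nat_lit 370051196923) (nat_lit 0) (nat_lit 6346694531) (nat_lit 158) (nat_lit 5) (nat_lit 160) (nat_lit 4) (nat_lit 158) (nat_lit 4) (nat_lit 425) (nat_lit 364) (nat_lit 231)))) (XT.nd (nat_lit 156) (nat_lit 228) (nat_lit 0) (XT.nd (nat_lit 78) (nat_lit 152) (nat_lit 0) (XT.lf (nat_lit 0) (nat_lit 125844182686) (nat_lit 76) (nat_lit 226430255610) (nat_lit 76) (nat_lit 140697010955) (nat_lit 157) (nat_lit 4) (nat_lit 158) (nat_lit 5) (nat_lit 158) (nat_lit 4) (nat_lit 426) (nat_lit 364) (nat_lit 230)) (XT.lf (nat_lit 0) (nat_lit 119860349795) (nat_lit 152) (nat_lit 360783898191) (nat_lit 0) (nat_lit 38209439756) (nat_lit 155) (nat_lit 5) (nat_lit 157) (nat_lit 4) (nat_lit 155) (nat_lit 4) (nat_lit 427) (nat_lit 364) (nat_lit 229))) (XT.nd (nat_lit 78) (nat_lit 152) (nat_lit 0) (XT.lf (nat_lit 0) (nat_lit 191744891803) (nat_lit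 76) (nat_lit 217964286624) (nat_lit 76) (nat_lit 136313190620) (nat_lit 154) (nat_lit 4) (nat_lit 155) (nat_lit 5) (nat_lit 155) (nat_lit 4) (nat_lit 428) (nat_lit 364) (nat_lit 228)) (XT.lf (nat_lit 0) (nat_lit 153889765962) (nat_lit 152) (nat_lit 344671797605) (nat_lit 0) (nat_lit 76126653395) (nat_lit 152) (nat_lit 5) (nat_lit 154) (nat_lit 4) (nat_lit 152) (nat_lit 4) (nat_lit 429) (nat_lit 364) (nat_lit 227))))) (XT.nd (nat_lit 312) (nat_lit 456) (nat_lit 0) (XT.nd (nat_lit 156) (nat_lit 228) (nat_lit 0) (XT.nd (nat_lit 78) (nat_lit 152) (nat_lit 0) (XT.lf (nat_lit 0) (nat_lit 270961131045) (nat_lit 76) (nat_lit 205812847729) (nat_lit 76) (nat_lit 128049583319) (nat_lit 151) (nat_lit 4) (nat_lit 152) (nat_lit 5) (nat_lit 152) (nat_lit 4) (nat_lit 430) (nat_lit 364) (nat_lit 226)) (XT.lf (nat_lit 0) (nat_lit 195120410182) (nat_lit 152) (nat_lit 320391336527) (nat_lit 0) (nat_lit 121060024462)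 (nat_lit 149) (nat_lit 5) (nat_lit 151) (nat_lit 4) (nat_lit 149) (nat_lit 4) (nat_lit 431) (nat_lit 364) (nat_lit 225))) (XT.nd (nat_lit 78) (nat_lit 152) (nat_lit 0) (XT.lf (nat_lit 0) (nat_lit 365552450962) (nat_lit 76) (nat_lit 189252781936) (nat_lit 76) (nat_lit 115192272233) (nat_lit 148) (nat_lit 4) (nat_lit 149) (nat_lit 5) (nat_lit 149) (nat_lit 4) (nat_lit 432) (nat_lit 364) (nat_lit 224)) (XT.lf (nat_lit 0) (nat_lit 244640037690) (nat_lit 152) (nat_lit 286412841194) (nat_lit 0) (nat_lit 174106109594) (nat_lit 146) (nat_lit 5) (nat_lit 148) (nat_lit 4) (nat_lit 146) (nat_lit 4) (nat_lit 433) (nat_lit 364) (nat_lit 223)))) (XT.nd (nat_lit 156) (nat_lit 228) (nat_lit 0) (XT.nd (nat_lit 78) (nat_lit 152) (nat_lit 0) (XT.lf (nat_lit 0) (nat_lit 477868071216) (nat_lit 76) (nat_lit 167450089252) (nat_lit 76) (nat_lit 96916059922) (nat_lit 145) (nat_lit 4) (nat_lit 146) (nat_lit 5) (nat_lit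 146) (nat_lit 4) (nat_lit 434) (nat_lit 364) (nat_lit 222)) (XT.lf (nat_lit 0) (nat_lit 303689607415) (nat_lit 152) (nat_lit 240971657723) (nat_lit 0) (nat_lit 236514252116) (nat_lit 143) (nat_lit 5) (nat_lit 145) (nat_lit 4) (nat_lit 143) (nat_lit 4) (nat_lit 435) (nat_lit 364) (nat_lit 221))) (XT.nd (nat_lit 78) (nat_lit 152) (nat_lit 0) (XT.lf (nat_lit 0) (nat_lit 610585207031) (nat_lit 76) (nat_lit 139444420550) (nat_lit 76) (nat_lit 72268982592) (nat_lit 142) (nat_lit 4) (nat_lit 143) (nat_lit 5) (nat_lit 143) (nat_lit 4) (nat_lit 436) (nat_lit 364) (nat_lit 220)) (XT.lf (nat_lit 0) (nat_lit 373683468984) (nat_lit 152) (nat_lit 182035467138) (nat_lit 0) (nat_lit 309706788515) (nat_lit 140) (nat_lit 5) (nat_lit 142) (nat_lit 4) (nat_lit 140) (nat_lit 4) (nat_lit 437) (nat_lit 364) (nat_lit 219)))))))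
noncomputable def xc161 : XT := (XT.nd (nat_lit 47970) (nat_lit 0) (nat_lit 7676) (XT.nd (nat_lit 624) (nat_lit 152) (nat_lit 0) (XT.nd (nat_lit 312) (nat_lit 532) (nat_lit 0) (XT.nd (nat_lit 156) (nat_lit 228) (nat_lit 0) (XT.nd (nat_lit 78) (nat_lit 152) (nat_lit 0) (XT.lf (nat_lit 0) (nat_lit 766752284999) (nat_lit 76) (nat_lit 104131525990) (nat_lit 76) (nat_lit 40154778028) (nat_lit 139) (nat_lit 4) (nat_lit 140) (nat_lit 5) (nat_lit 140) (nat_lit 4) (nat_lit 438) (nat_lit 364) (nat_lit 218)) (XT.lf (nat_lit 0) (nat_lit 456232122543) (nat_lit 152) (nat_lit 107267293568) (nat_lit 0) (nat_lit 395301826873) (nat_lit 137) (nat_lit 5) (nat_lit 139) (nat_lit 4) (nat_lit 137) (nat_lit 4) (nat_lit 439) (nat_lit 364) (nat_lit 217))) (XT.nd (nat_lit 78) (nat_lit 76) (nat_lit 0) (XT.lf (nat_lit 0) (nat_lit 664966354) (nat_lit 152) (nat_lit 59567169751) (nat_lit 76) (nat_lit 949161427845) (nat_lit 135)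 (nat_lit 5) (nat_lit 137) (nat_lit 5) (nat_lit 136) (nat_lit 4) (nat_lit 440) (nat_lit 364) (nat_lit 216)) (XT.lf (nat_lit 0) (nat_lit 553167870640) (nat_lit 152) (nat_lit 13983658290) (nat_lit 0) (nat_lit 495138916541) (nat_lit 134) (nat_lit 5) (nat_lit 136) (nat_lit 4) (nat_lit 134) (nat_lit 4) (nat_lit 441) (nat_lit 364) (nat_lit 215)))) (XT.nd (nat_lit 156) (nat_lit 228) (nat_lit 0) (XT.nd (nat_lit 78) (nat_lit 76) (nat_lit 0) (XT.lf (nat_lit 0) (nat_lit 46043830420) (nat_lit 76) (nat_lit 4723403489) (nat_lit 152) (nat_lit 1067563573802) (nat_lit 131) (nat_lit 5) (nat_lit 132) (nat_lit 5) (nat_lit 133) (nat_lit 4) (nat_lit 442) (nat_lit 364) (nat_lit 214)) (XT.lf (nat_lit 0) (nat_lit 104228705050) (nat_lit 76) (nat_lit 563972317445) (nat_lit 76) (nat_lit 508706564342) (nat_lit 130) (nat_lit 4) (nat_lit 131) (nat_lit 5) (nat_lit 131) (nat_lit 4) (nat_lit 443) (nat_lit 364) (nat_lit 213)))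 (XT.nd (nat_lit 78) (nat_lit 76) (nat_lit 0) (XT.lf (nat_lit 0) (nat_lit 114661899960) (nat_lit 152) (nat_lit 1062264794459) (nat_lit 0) (nat_lit 62027814396) (nat_lit 128) (nat_lit 5) (nat_lit 130) (nat_lit 4) (nat_lit 128) (nat_lit 4) (nat_lit 444) (nat_lit 364) (nat_lit 212)) (XT.lf (nat_lit 0) (nat_lit 248851273816) (nat_lit 76) (nat_lit 553849929016) (nat_lit 76) (nat_lit 501215811053) (nat_lit 127) (nat_lit 4) (nat_lit 128) (nat_lit 5) (nat_lit 128) (nat_lit 4) (nat_lit 445) (nat_lit 364) (nat_lit 211))))) (XT.nd (nat_lit 47034) (nat_lit 0) (nat_lit 12844) (XT.nd (nat_lit 46878) (nat_lit 0) (nat_lit 12768) (XT.nd (nat_lit 46800) (nat_lit 0) (nat_lit 12692) (XT.lf (nat_lit 0) (nat_lit 192584169196) (nat_lit 152) (nat_lit 1037583262499) (nat_lit 0) (nat_lit 142456409232) (nat_lit 125) (nat_lit 5) (nat_lit 127) (nat_lit 4) (nat_lit 125) (nat_lit 4) (nat_lit 446) (nat_lit 364) (nat_lit 210))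 (XT.lf (nat_lit 0) (nat_lit 5958976507) (nat_lit 836) (nat_lit 3981729270) (nat_lit 836) (nat_lit 3981729270) (nat_lit 292) (nat_lit 3) (nat_lit 303) (nat_lit 3) (nat_lit 303) (nat_lit 5) (nat_lit 365) (nat_lit 365) (nat_lit 290))) (XT.nd (nat_lit 78) (nat_lit 0) (nat_lit 0) (XT.lf (nat_lit 0) (nat_lit 12788292175) (nat_lit 760) (nat_lit 14187873317) (nat_lit 836) (nat_lit 1962818357) (nat_lit 293) (nat_lit 5) (nat_lit 303) (nat_lit 5) (nat_lit 304) (nat_lit 5) (nat_lit 366) (nat_lit 365) (nat_lit 289)) (XT.lf (nat_lit 76) (nat_lit 9409299422) (nat_lit 0) (nat_lit 4928958199) (nat_lit 836) (nat_lit 15751869122) (nat_lit 294) (nat_lit 5) (nat_lit 293) (nat_lit 5) (nat_lit 304) (nat_lit 5) (nat_lit 367) (nat_lit 365) (nat_lit 288)))) (XT.nd (nat_lit 156) (nat_lit 0) (nat_lit 152) (XT.nd (nat_lit 78) (nat_lit 0) (nat_lit 76) (XT.lf (nat_lit 76) (nat_lit 3897561053) (nat_lit 0) (nat_lit 12709301486)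 (nat_lit 836) (nat_lit 14696766418) (nat_lit 295) (nat_lit 5) (nat_lit 294) (nat_lit 5) (nat_lit 305) (nat_lit 5) (nat_lit 368) (nat_lit 365) (nat_lit 287)) (XT.lf (nat_lit 0) (nat_lit 19668648608) (nat_lit 760) (nat_lit 1686776498) (nat_lit 836) (nat_lit 11228201604) (nat_lit 295) (nat_lit 5) (nat_lit 305) (nat_lit 5) (nat_lit 306) (nat_lit 5) (nat_lit 369) (nat_lit 365) (nat_lit 286))) (XT.nd (nat_lit 78) (nat_lit 0) (nat_lit 0) (XT.lf (nat_lit 0) (nat_lit 23645195408) (nat_lit 760) (nat_lit 7260586967) (nat_lit 836) (nat_lit 3026751016) (nat_lit 296) (nat_lit 5) (nat_lit 306) (nat_lit 5) (nat_lit 307) (nat_lit 5) (nat_lit 370) (nat_lit 365) (nat_lit 285)) (XT.lf (nat_lit 76) (nat_lit 22317392704) (nat_lit 0) (nat_lit 6351038139) (nat_lit 836) (nat_lit 6684493521) (nat_lit 297) (nat_lit 5) (nat_lit 296) (nat_lit 5) (nat_lit 307) (nat_lit 5) (nat_lit 371) (nat_lit 365) (nat_lit 284)))))) (XT.nd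 (nat_lit 624) (nat_lit 2356) (nat_lit 0) (XT.nd (nat_lit 312) (nat_lit 988) (nat_lit 0) (XT.nd (nat_lit 156) (nat_lit 760) (nat_lit 0) (XT.nd (nat_lit 78) (nat_lit 532) (nat_lit 0) (XT.lf (nat_lit 0) (nat_lit 17887640575) (nat_lit 760) (nat_lit 16919392859) (nat_lit 836) (nat_lit 2044237762) (nat_lit 287) (nat_lit 5) (nat_lit 297) (nat_lit 5) (nat_lit 298) (nat_lit 5) (nat_lit 372) (nat_lit 365) (nat_lit 283)) (XT.lf (nat_lit 0) (nat_lit 3571528792) (nat_lit 532) (nat_lit 25037760095) (nat_lit 76) (nat_lit 9822917519) (nat_lit 280) (nat_lit 5) (nat_lit 287) (nat_lit 5) (nat_lit 281) (nat_lit 5) (nat_lit 373) (nat_lit 365) (nat_lit 282))) (XT.nd (nat_lit 78) (nat_lit 380) (nat_lit 0) (XT.lf (nat_lit 0) (nat_lit 8844987937) (nat_lit 380) (nat_lit 1471800257) (nat_lit 456) (nat_lit 29783560050) (nat_lit 275) (nat_lit 5) (nat_lit 280) (nat_lit 5) (nat_lit 281) (nat_lit 5) (nat_lit 374) (nat_lit 365)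 (nat_lit 281)) (XT.lf (nat_lit 0) (nat_lit 4134672812) (nat_lit 380) (nat_lit 14401694410) (nat_lit 456) (nat_lit 23318839264) (nat_lit 270) (nat_lit 5) (nat_lit 275) (nat_lit 5) (nat_lit 276) (nat_lit 5) (nat_lit 375) (nat_lit 365) (nat_lit 280)))) (XT.nd (nat_lit 156) (nat_lit 684) (nat_lit 0) (XT.nd (nat_lit 78) (nat_lit 304) (nat_lit 0) (XT.lf (nat_lit 0) (nat_lit 28216502249) (nat_lit 456) (nat_lit 525272310) (nat_lit 76) (nat_lit 14968529345) (nat_lit 270) (nat_lit 5) (nat_lit 276) (nat_lit 5) (nat_lit 271) (nat_lit 5) (nat_lit 376) (nat_lit 365) (nat_lit 279)) (XT.lf (nat_lit 0) (nat_lit 39560558687) (nat_lit 380) (nat_lit 4990525237) (nat_lit 76) (nat_lit 1118249661) (nat_lit 266) (nat_lit 5) (nat_lit 271) (nat_lit 5) (nat_lit 267) (nat_lit 5) (nat_lit 377) (nat_lit 365) (nat_lit 278))) (XT.nd (nat_lit 78) (nat_lit 304) (nat_lit 0) (XT.lf (nat_lit 0) (nat_lit 4998959754) (nat_lit 380)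 (nat_lit 9669813259) (nat_lit 76) (nat_lit 33058129115) (nat_lit 261) (nat_lit 5) (nat_lit 266) (nat_lit 5) (nat_lit 262) (nat_lit 5) (nat_lit 378) (nat_lit 365) (nat_lit 277)) (XT.lf (nat_lit 0) (nat_lit 17712703321) (nat_lit 380) (nat_lit 14382530291) (nat_lit 76) (nat_lit 17802264758) (nat_lit 257) (nat_lit 5) (nat_lit 262) (nat_lit 5) (nat_lit 258) (nat_lit 5) (nat_lit 379) (nat_lit 365) (nat_lit 276))))) (XT.nd (nat_lit 312) (nat_lit 1216) (nat_lit 0) (XT.nd (nat_lit 156) (nat_lit 608) (nat_lit 0) (XT.nd (nat_lit 78) (nat_lit 228) (nat_lit 0) (XT.lf (nat_lit 0) (nat_lit 32388522874) (nat_lit 380) (nat_lit 18975883901) (nat_lit 76) (nat_lit 830086709) (nat_lit 253) (nat_lit 5) (nat_lit 258) (nat_lit 5) (nat_lit 254) (nat_lit 5) (nat_lit 380) (nat_lit 365) (nat_lit 275)) (XT.lf (nat_lit 0) (nat_lit 30915587480) (nat_lit 228) (nat_lit 18595807944) (nat_lit 304) (nat_lit 5100203415) (nat_lit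 250) (nat_lit 5) (nat_lit 253) (nat_lit 5) (nat_lit 254) (nat_lit 5) (nat_lit 381) (nat_lit 365) (nat_lit 274))) (XT.nd (nat_lit 78) (nat_lit 228) (nat_lit 0) (XT.lf (nat_lit 0) (nat_lit 11498523373) (nat_lit 380) (nat_lit 28434061440) (nat_lit 76) (nat_lit 17227991407) (nat_lit 245) (nat_lit 5) (nat_lit 250) (nat_lit 5) (nat_lit 246) (nat_lit 5) (nat_lit 382) (nat_lit 365) (nat_lit 273)) (XT.lf (nat_lit 0) (nat_lit 26738568735) (nat_lit 228) (nat_lit 3655794372) (nat_lit 304) (nat_lit 29457533138) (nat_lit 242) (nat_lit 5) (nat_lit 245) (nat_lit 5) (nat_lit 246) (nat_lit 5) (nat_lit 383) (nat_lit 365) (nat_lit 272)))) (XT.nd (nat_lit 156) (nat_lit 684) (nat_lit 0) (XT.nd (nat_lit 78) (nat_lit 304) (nat_lit 0) (XT.lf (nat_lit 0) (nat_lit 24831662962) (nat_lit 228) (nat_lit 27411126972) (nat_lit 304) (nat_lit 10443685941) (nat_lit 239) (nat_lit 5) (nat_lit 242) (nat_lit 5) (nat_lit 243) (nat_lit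 5) (nat_lit 384) (nat_lit 365) (nat_lit 271)) (XT.lf (nat_lit 0) (nat_lit 10973639706) (nat_lit 304) (nat_lit 42497601123) (nat_lit 76) (nat_lit 12208435682) (nat_lit 235) (nat_lit 5) (nat_lit 239) (nat_lit 5) (nat_lit 236) (nat_lit 5) (nat_lit 385) (nat_lit 365) (nat_lit 270))) (XT.nd (nat_lit 78) (nat_lit 456) (nat_lit 0) (XT.lf (nat_lit 0) (nat_lit 21610152134) (nat_lit 228) (nat_lit 13598582239) (nat_lit 304) (nat_lit 33621524483) (nat_lit 232) (nat_lit 5) (nat_lit 235) (nat_lit 5) (nat_lit 236) (nat_lit 5) (nat_lit 386) (nat_lit 365) (nat_lit 269)) (XT.nd (nat_lit 78) (nat_lit 304) (nat_lit 0) (XT.lf (nat_lit 0) (nat_lit 20340486600) (nat_lit 152) (nat_lit 42567918899) (nat_lit 228) (nat_lit 9248193847) (nat_lit 230) (nat_lit 5) (nat_lit 232) (nat_lit 5) (nat_lit 233) (nat_lit 5) (nat_lit 387) (nat_lit 365) (nat_lit 268)) (XT.lf (nat_lit 0) (nat_lit 17915817585) (nat_lit 304) (nat_lit 56301925860)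 (nat_lit 76) (nat_lit 1448608143) (nat_lit 226) (nat_lit 5) (nat_lit 230) (nat_lit 5) (nat_lit 227) (nat_lit 5) (nat_lit 388) (nat_lit 365) (nat_lit 267))))))))
noncomputable def xc162 : XT := (XT.nd (nat_lit 1248) (nat_lit 1824) (nat_lit 0) (XT.nd (nat_lit 624) (nat_lit 1216) (nat_lit 0) (XT.nd (nat_lit 312) (nat_lit 684) (nat_lit 0) (XT.nd (nat_lit 156) (nat_lit 304) (nat_lit 0) (XT.nd (nat_lit 78) (nat_lit 228) (nat_lit 0) (XT.lf (nat_lit 0) (nat_lit 18371131254) (nat_lit 152) (nat_lit 30480221987) (nat_lit 228) (nat_lit 30501829533) (nat_lit 224) (nat_lit 5) (nat_lit 226) (nat_lit 5) (nat_lit 227) (nat_lit 5) (nat_lit 389) (nat_lit 365) (nat_lit 266)) (XT.lf (nat_lit 0) (nat_lit 522576524) (nat_lit 228) (nat_lit 65230581032) (nat_lit 76) (nat_lit 17504567943) (nat_lit 221) (nat_lit 5) (nat_lit 224) (nat_lit 5) (nat_lit 222) (nat_lit 5) (nat_lit 390) (nat_lit 365) (nat_lit 265))) (XT.nd (nat_lit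 78) (nat_lit 152) (nat_lit 0) (XT.lf (nat_lit 0) (nat_lit 17625590660) (nat_lit 152) (nat_lit 17214185877) (nat_lit 228) (nat_lit 52515879757) (nat_lit 219) (nat_lit 5) (nat_lit 221) (nat_lit 5) (nat_lit 222) (nat_lit 5) (nat_lit 391) (nat_lit 365) (nat_lit 264)) (XT.lf (nat_lit 0) (nat_lit 17707505568) (nat_lit 152) (nat_lit 56172419621) (nat_lit 228) (nat_lit 17802617730) (nat_lit 217) (nat_lit 5) (nat_lit 219) (nat_lit 5) (nat_lit 220) (nat_lit 5) (nat_lit 392) (nat_lit 365) (nat_lit 263)))) (XT.nd (nat_lit 156) (nat_lit 304) (nat_lit 0) (XT.nd (nat_lit 78) (nat_lit 152) (nat_lit 0) (XT.lf (nat_lit 0) (nat_lit 18297565390) (nat_lit 152) (nat_lit 2567142349) (nat_lit 228) (nat_lit 75385147123) (nat_lit 214) (nat_lit 5) (nat_lit 216) (nat_lit 5) (nat_lit 217) (nat_lit 5) (nat_lit 393) (nat_lit 365) (nat_lit 262)) (XT.lf (nat_lit 0) (nat_lit 18889281279) (nat_lit 152) (nat_lit 45585953614) (nat_lit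 228) (nat_lit 36569047925) (nat_lit 212) (nat_lit 5) (nat_lit 214) (nat_lit 5) (nat_lit 215) (nat_lit 5) (nat_lit 394) (nat_lit 365) (nat_lit 261))) (XT.nd (nat_lit 78) (nat_lit 152) (nat_lit 0) (XT.lf (nat_lit 0) (nat_lit 7136866719) (nat_lit 152) (nat_lit 85732154302) (nat_lit 76) (nat_lit 13251273949) (nat_lit 210) (nat_lit 5) (nat_lit 212) (nat_lit 5) (nat_lit 211) (nat_lit 5) (nat_lit 395) (nat_lit 365) (nat_lit 260)) (XT.lf (nat_lit 0) (nat_lit 21821930584) (nat_lit 152) (nat_lit 33814137108) (nat_lit 228) (nat_lit 55807445050) (nat_lit 208) (nat_lit 5) (nat_lit 210) (nat_lit 5) (nat_lit 211) (nat_lit 5) (nat_lit 396) (nat_lit 365) (nat_lit 259))))) (XT.nd (nat_lit 312) (nat_lit 608) (nat_lit 0) (XT.nd (nat_lit 156) (nat_lit 304) (nat_lit 0) (XT.nd (nat_lit 78) (nat_lit 228) (nat_lit 0) (XT.lf (nat_lit 0) (nat_lit 24200882562) (nat_lit 76) (nat_lit 86174968934) (nat_lit 152) (nat_lit 6698704102)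 (nat_lit 207) (nat_lit 5) (nat_lit 208) (nat_lit 5) (nat_lit 209) (nat_lit 4) (nat_lit 397) (nat_lit 365) (nat_lit 258)) (XT.lf (nat_lit 0) (nat_lit 26784375413) (nat_lit 152) (nat_lit 20643496297) (nat_lit 228) (nat_lit 75563423070) (nat_lit 204) (nat_lit 5) (nat_lit 206) (nat_lit 5) (nat_lit 207) (nat_lit 5) (nat_lit 398) (nat_lit 365) (nat_lit 257))) (XT.nd (nat_lit 78) (nat_lit 228) (nat_lit 0) (XT.lf (nat_lit 0) (nat_lit 30066220645) (nat_lit 76) (nat_lit 78480489344) (nat_lit 152) (nat_lit 20684331047) (nat_lit 203) (nat_lit 5) (nat_lit 204) (nat_lit 5) (nat_lit 205) (nat_lit 4) (nat_lit 399) (nat_lit 365) (nat_lit 256)) (XT.lf (nat_lit 0) (nat_lit 34099079744) (nat_lit 152) (nat_lit 5832206838) (nat_lit 228) (nat_lit 95879501240) (nat_lit 200) (nat_lit 5) (nat_lit 202) (nat_lit 5) (nat_lit 203) (nat_lit 5) (nat_lit 400) (nat_lit 365) (nat_lit 255)))) (XT.nd (nat_lit 156) (nat_lit 304)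 (nat_lit 0) (XT.nd (nat_lit 78) (nat_lit 228) (nat_lit 0) (XT.lf (nat_lit 0) (nat_lit 38449538191) (nat_lit 76) (nat_lit 69719007728) (nat_lit 152) (nat_lit 34556560539) (nat_lit 199) (nat_lit 5) (nat_lit 200) (nat_lit 5) (nat_lit 201) (nat_lit 4) (nat_lit 401) (nat_lit 365) (nat_lit 254)) (XT.lf (nat_lit 0) (nat_lit 33414368928) (nat_lit 228) (nat_lit 106070666204) (nat_lit 76) (nat_lit 10545017739) (nat_lit 196) (nat_lit 5) (nat_lit 199) (nat_lit 5) (nat_lit 197) (nat_lit 4) (nat_lit 402) (nat_lit 365) (nat_lit 253))) (XT.nd (nat_lit 78) (nat_lit 228) (nat_lit 0) (XT.lf (nat_lit 0) (nat_lit 49747881535) (nat_lit 76) (nat_lit 59676674009) (nat_lit 152) (nat_lit 48275900587) (nat_lit 195) (nat_lit 5) (nat_lit 196) (nat_lit 5) (nat_lit 197) (nat_lit 4) (nat_lit 403) (nat_lit 365) (nat_lit 252)) (XT.lf (nat_lit 0) (nat_lit 27950588393) (nat_lit 228) (nat_lit 108962835891) (nat_lit 76) (nat_lit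 28889302968) (nat_lit 192) (nat_lit 5) (nat_lit 195) (nat_lit 5) (nat_lit 193) (nat_lit 4) (nat_lit 404) (nat_lit 365) (nat_lit 251)))))) (XT.nd (nat_lit 624) (nat_lit 912) (nat_lit 0) (XT.nd (nat_lit 312) (nat_lit 456) (nat_lit 0) (XT.nd (nat_lit 156) (nat_lit 228) (nat_lit 0) (XT.nd (nat_lit 78) (nat_lit 152) (nat_lit 0) (XT.lf (nat_lit 0) (nat_lit 64417933681) (nat_lit 76) (nat_lit 48109569828) (nat_lit 152) (nat_lit 61788923176) (nat_lit 191) (nat_lit 5) (nat_lit 192) (nat_lit 5) (nat_lit 193) (nat_lit 4) (nat_lit 405) (nat_lit 365) (nat_lit 250)) (XT.lf (nat_lit 0) (nat_lit 23594695440) (nat_lit 152) (nat_lit 109978696928) (nat_lit 76) (nat_lit 49727587775) (nat_lit 189) (nat_lit 5) (nat_lit 191) (nat_lit 5) (nat_lit 190) (nat_lit 4) (nat_lit 406) (nat_lit 365) (nat_lit 249))) (XT.nd (nat_lit 78) (nat_lit 152) (nat_lit 0) (XT.lf (nat_lit 0) (nat_lit 82984051519) (nat_lit 76) (nat_lit 34739573218)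 (nat_lit 152) (nat_lit 75026056280) (nat_lit 188) (nat_lit 5) (nat_lit 189) (nat_lit 5) (nat_lit 190) (nat_lit 4) (nat_lit 407) (nat_lit 365) (nat_lit 248)) (XT.lf (nat_lit 0) (nat_lit 20518954522) (nat_lit 152) (nat_lit 108746448467) (nat_lit 76) (nat_lit 73445241075) (nat_lit 186) (nat_lit 5) (nat_lit 188) (nat_lit 5) (nat_lit 187) (nat_lit 4) (nat_lit 408) (nat_lit 365) (nat_lit 247)))) (XT.nd (nat_lit 156) (nat_lit 228) (nat_lit 0) (XT.nd (nat_lit 78) (nat_lit 152) (nat_lit 0) (XT.lf (nat_lit 0) (nat_lit 106047349813) (nat_lit 76) (nat_lit 19249687281) (nat_lit 152) (nat_lit 87899049369) (nat_lit 185) (nat_lit 5) (nat_lit 186) (nat_lit 5) (nat_lit 187) (nat_lit 4) (nat_lit 409) (nat_lit 365) (nat_lit 246)) (XT.lf (nat_lit 0) (nat_lit 18925780916) (nat_lit 152) (nat_lit 104833342530) (nat_lit 76) (nat_lit 100478618528) (nat_lit 183) (nat_lit 5) (nat_lit 185) (nat_lit 5) (nat_lit 184) (nat_lit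 4) (nat_lit 410) (nat_lit 365) (nat_lit 245))) (XT.nd (nat_lit 78) (nat_lit 152) (nat_lit 0) (XT.lf (nat_lit 0) (nat_lit 134295963268) (nat_lit 76) (nat_lit 1278765736) (nat_lit 152) (nat_lit 100298068224) (nat_lit 182) (nat_lit 5) (nat_lit 183) (nat_lit 5) (nat_lit 184) (nat_lit 4) (nat_lit 411) (nat_lit 365) (nat_lit 244)) (XT.lf (nat_lit 0) (nat_lit 19051935244) (nat_lit 152) (nat_lit 97737049036) (nat_lit 76) (nat_lit 131321691862) (nat_lit 180) (nat_lit 5) (nat_lit 182) (nat_lit 5) (nat_lit 181) (nat_lit 4) (nat_lit 412) (nat_lit 365) (nat_lit 243))))) (XT.nd (nat_lit 312) (nat_lit 456) (nat_lit 0) (XT.nd (nat_lit 156) (nat_lit 228) (nat_lit 0) (XT.nd (nat_lit 78) (nat_lit 152) (nat_lit 0) (XT.lf (nat_lit 0) (nat_lit 149237962062) (nat_lit 152) (nat_lit 92809697109) (nat_lit 0) (nat_lit 18957615727) (nat_lit 179) (nat_lit 5) (nat_lit 181) (nat_lit 4) (nat_lit 179) (nat_lit 4) (nat_lit 413)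 (nat_lit 365) (nat_lit 242)) (XT.lf (nat_lit 0) (nat_lit 21173282975) (nat_lit 152) (nat_lit 86875863470) (nat_lit 76) (nat_lit 166533508555) (nat_lit 177) (nat_lit 5) (nat_lit 179) (nat_lit 5) (nat_lit 178) (nat_lit 4) (nat_lit 414) (nat_lit 365) (nat_lit 241))) (XT.nd (nat_lit 78) (nat_lit 152) (nat_lit 0) (XT.lf (nat_lit 0) (nat_lit 166483759200) (nat_lit 152) (nat_lit 79982464717) (nat_lit 0) (nat_lit 42405868293) (nat_lit 176) (nat_lit 5) (nat_lit 178) (nat_lit 4) (nat_lit 176) (nat_lit 4) (nat_lit 415) (nat_lit 365) (nat_lit 240)) (XT.lf (nat_lit 0) (nat_lit 25610191307) (nat_lit 152) (nat_lit 71577608853) (nat_lit 76) (nat_lit 206746583677) (nat_lit 174) (nat_lit 5) (nat_lit 176) (nat_lit 5) (nat_lit 175) (nat_lit 4) (nat_lit 416) (nat_lit 365) (nat_lit 239)))) (XT.nd (nat_lit 156) (nat_lit 228) (nat_lit 0) (XT.nd (nat_lit 78) (nat_lit 152) (nat_lit 0) (XT.lf (nat_lit 0) (nat_lit 187792878719)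 (nat_lit 152) (nat_lit 62354513458) (nat_lit 0) (nat_lit 69622339704) (nat_lit 173) (nat_lit 5) (nat_lit 175) (nat_lit 4) (nat_lit 173) (nat_lit 4) (nat_lit 417) (nat_lit 365) (nat_lit 238)) (XT.lf (nat_lit 0) (nat_lit 32733644886) (nat_lit 152) (nat_lit 51067065174) (nat_lit 76) (nat_lit 252676338005) (nat_lit 171) (nat_lit 5) (nat_lit 173) (nat_lit 5) (nat_lit 172) (nat_lit 4) (nat_lit 418) (nat_lit 365) (nat_lit 237))) (XT.nd (nat_lit 78) (nat_lit 152) (nat_lit 0) (XT.lf (nat_lit 0) (nat_lit 213737333420) (nat_lit 152) (nat_lit 39095380375) (nat_lit 0) (nat_lit 101193049166) (nat_lit 170) (nat_lit 5) (nat_lit 172) (nat_lit 4) (nat_lit 170) (nat_lit 4) (nat_lit 419) (nat_lit 365) (nat_lit 236)) (XT.lf (nat_lit 0) (nat_lit 42972171913) (nat_lit 152) (nat_lit 24451738599) (nat_lit 76) (nat_lit 305131710322) (nat_lit 168) (nat_lit 5) (nat_lit 170) (nat_lit 5) (nat_lit 169) (nat_lit 4) (nat_lit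 420) (nat_lit 365) (nat_lit 235)))))))
noncomputable def xc163 : XT := (XT.nd (nat_lit 1248) (nat_lit 1216) (nat_lit 0) (XT.nd (nat_lit 624) (nat_lit 912) (nat_lit 0) (XT.nd (nat_lit 312) (nat_lit 456) (nat_lit 0) (XT.nd (nat_lit 156) (nat_lit 228) (nat_lit 0) (XT.nd (nat_lit 78) (nat_lit 228) (nat_lit 0) (XT.lf (nat_lit 0) (nat_lit 244969712445) (nat_lit 152) (nat_lit 9249674943) (nat_lit 0) (nat_lit 137783933723) (nat_lit 167) (nat_lit 5) (nat_lit 169) (nat_lit 4) (nat_lit 167) (nat_lit 4) (nat_lit 421) (nat_lit 365) (nat_lit 234)) (XT.lf (nat_lit 0) (nat_lit 9601550125) (nat_lit 76) (nat_lit 47368040595) (nat_lit 152) (nat_lit 355575444241) (nat_lit 164) (nat_lit 5) (nat_lit 165) (nat_lit 5) (nat_lit 166) (nat_lit 4) (nat_lit 422) (nat_lit 365) (nat_lit 233))) (XT.nd (nat_lit 78) (nat_lit 152) (nat_lit 0) (XT.lf (nat_lit 0) (nat_lit 29215093859) (nat_lit 76) (nat_lit 253474686083) (nat_lit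 76) (nat_lit 151392382862) (nat_lit 163) (nat_lit 4) (nat_lit 164) (nat_lit 5) (nat_lit 164) (nat_lit 4) (nat_lit 423) (nat_lit 365) (nat_lit 232)) (XT.lf (nat_lit 0) (nat_lit 53046135921) (nat_lit 76) (nat_lit 22626405704) (nat_lit 152) (nat_lit 381177774234) (nat_lit 161) (nat_lit 5) (nat_lit 162) (nat_lit 5) (nat_lit 163) (nat_lit 4) (nat_lit 424) (nat_lit 365) (nat_lit 231)))) (XT.nd (nat_lit 156) (nat_lit 228) (nat_lit 0) (XT.nd (nat_lit 78) (nat_lit 152) (nat_lit 0) (XT.lf (nat_lit 0) (nat_lit 77224190068) (nat_lit 76) (nat_lit 250357121207) (nat_lit 76) (nat_lit 153135382625) (nat_lit 160) (nat_lit 4) (nat_lit 161) (nat_lit 5) (nat_lit 161) (nat_lit 4) (nat_lit 425) (nat_lit 365) (nat_lit 230)) (XT.lf (nat_lit 0) (nat_lit 99471811089) (nat_lit 152) (nat_lit 399603245669) (nat_lit 0) (nat_lit 6879468220) (nat_lit 158) (nat_lit 5) (nat_lit 160) (nat_lit 4) (nat_lit 158) (nat_lit 4) (nat_lit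 426) (nat_lit 365) (nat_lit 229))) (XT.nd (nat_lit 78) (nat_lit 152) (nat_lit 0) (XT.lf (nat_lit 0) (nat_lit 135961502409) (nat_lit 76) (nat_lit 244519485592) (nat_lit 76) (nat_lit 151926947459) (nat_lit 157) (nat_lit 4) (nat_lit 158) (nat_lit 5) (nat_lit 158) (nat_lit 4) (nat_lit 427) (nat_lit 365) (nat_lit 228)) (XT.lf (nat_lit 0) (nat_lit 129473462440) (nat_lit 152) (nat_lit 389597385489) (nat_lit 0) (nat_lit 41289920599) (nat_lit 155) (nat_lit 5) (nat_lit 157) (nat_lit 4) (nat_lit 155) (nat_lit 4) (nat_lit 428) (nat_lit 365) (nat_lit 227))))) (XT.nd (nat_lit 312) (nat_lit 456) (nat_lit 0) (XT.nd (nat_lit 156) (nat_lit 228) (nat_lit 0) (XT.nd (nat_lit 78) (nat_lit 152) (nat_lit 0) (XT.lf (nat_lit 0) (nat_lit 207131568465) (nat_lit 76) (nat_lit 235377565168) (nat_lit 76) (nat_lit 147193863891) (nat_lit 154) (nat_lit 4) (nat_lit 155) (nat_lit 5) (nat_lit 155) (nat_lit 4) (nat_lit 429) (nat_lit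 365) (nat_lit 226)) (XT.lf (nat_lit 0) (nat_lit 166223877903) (nat_lit 152) (nat_lit 372198989984) (nat_lit 0) (nat_lit 82239259900) (nat_lit 152) (nat_lit 5) (nat_lit 154) (nat_lit 4) (nat_lit 152) (nat_lit 4) (nat_lit 430) (nat_lit 365) (nat_lit 225))) (XT.nd (nat_lit 78) (nat_lit 152) (nat_lit 0) (XT.lf (nat_lit 0) (nat_lit 292682549889) (nat_lit 76) (nat_lit 222255274495) (nat_lit 76) (nat_lit 138270526310) (nat_lit 151) (nat_lit 4) (nat_lit 152) (nat_lit 5) (nat_lit 152) (nat_lit 4) (nat_lit 431) (nat_lit 365) (nat_lit 224)) (XT.lf (nat_lit 0) (nat_lit 210751698168) (nat_lit 152) (nat_lit 345978623030) (nat_lit 0) (nat_lit 130766108908) (nat_lit 149) (nat_lit 5) (nat_lit 151) (nat_lit 4) (nat_lit 149) (nat_lit 4) (nat_lit 432) (nat_lit 365) (nat_lit 223)))) (XT.nd (nat_lit 156) (nat_lit 228) (nat_lit 0) (XT.nd (nat_lit 78) (nat_lit 152) (nat_lit 0) (XT.lf (nat_lit 0) (nat_lit 394838754384)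 (nat_lit 76) (nat_lit 204371605644) (nat_lit 76) (nat_lit 124385910089) (nat_lit 148) (nat_lit 4) (nat_lit 149) (nat_lit 5) (nat_lit 149) (nat_lit 4) (nat_lit 433) (nat_lit 365) (nat_lit 222)) (XT.lf (nat_lit 0) (nat_lit 264231693794) (nat_lit 152) (nat_lit 309284243957) (nat_lit 0) (nat_lit 188054747150) (nat_lit 146) (nat_lit 5) (nat_lit 148) (nat_lit 4) (nat_lit 146) (nat_lit 4) (nat_lit 434) (nat_lit 365) (nat_lit 221))) (XT.nd (nat_lit 78) (nat_lit 152) (nat_lit 0) (XT.lf (nat_lit 0) (nat_lit 516137332494) (nat_lit 76) (nat_lit 180825840489) (nat_lit 76) (nat_lit 104648807054) (nat_lit 145) (nat_lit 4) (nat_lit 146) (nat_lit 5) (nat_lit 146) (nat_lit 4) (nat_lit 435) (nat_lit 365) (nat_lit 220)) (XT.lf (nat_lit 0) (nat_lit 328004095756) (nat_lit 152) (nat_lit 260210033325) (nat_lit 0) (nat_lit 255454463568) (nat_lit 143) (nat_lit 5) (nat_lit 145) (nat_lit 4) (nat_lit 143) (nat_lit 4) (nat_lit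 436) (nat_lit 365) (nat_lit 219)))))) (XT.nd (nat_lit 624) (nat_lit 228) (nat_lit 0) (XT.nd (nat_lit 312) (nat_lit 532) (nat_lit 0) (XT.nd (nat_lit 156) (nat_lit 228) (nat_lit 0) (XT.nd (nat_lit 78) (nat_lit 152) (nat_lit 0) (XT.lf (nat_lit 0) (nat_lit 659469670202) (nat_lit 76) (nat_lit 150580804009) (nat_lit 76) (nat_lit 78031100954) (nat_lit 142) (nat_lit 4) (nat_lit 143) (nat_lit 5) (nat_lit 143) (nat_lit 4) (nat_lit 437) (nat_lit 365) (nat_lit 218)) (XT.lf (nat_lit 0) (nat_lit 403596397353) (nat_lit 152) (nat_lit 196561093140) (nat_lit 0) (nat_lit 334501379572) (nat_lit 140) (nat_lit 5) (nat_lit 142) (nat_lit 4) (nat_lit 140) (nat_lit 4) (nat_lit 438) (nat_lit 365) (nat_lit 217))) (XT.nd (nat_lit 78) (nat_lit 152) (nat_lit 0) (XT.lf (nat_lit 0) (nat_lit 828128062007) (nat_lit 76) (nat_lit 112443908522) (nat_lit 76) (nat_lit 43348832877) (nat_lit 139) (nat_lit 4) (nat_lit 140) (nat_lit 5)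 (nat_lit 140) (nat_lit 4) (nat_lit 439) (nat_lit 365) (nat_lit 216)) (XT.lf (nat_lit 0) (nat_lit 492747934782) (nat_lit 152) (nat_lit 115813495709) (nat_lit 0) (nat_lit 426943049809) (nat_lit 137) (nat_lit 5) (nat_lit 139) (nat_lit 4) (nat_lit 137) (nat_lit 4) (nat_lit 440) (nat_lit 365) (nat_lit 215)))) (XT.nd (nat_lit 156) (nat_lit 304) (nat_lit 0) (XT.nd (nat_lit 78) (nat_lit 76) (nat_lit 0) (XT.lf (nat_lit 0) (nat_lit 734924627) (nat_lit 152) (nat_lit 64298336733) (nat_lit 76) (nat_lit 1025110949658) (nat_lit 135) (nat_lit 5) (nat_lit 137) (nat_lit 5) (nat_lit 136) (nat_lit 4) (nat_lit 441) (nat_lit 365) (nat_lit 214)) (XT.lf (nat_lit 0) (nat_lit 597437591128) (nat_lit 152) (nat_lit 15069089992) (nat_lit 0) (nat_lit 534766185446) (nat_lit 134) (nat_lit 5) (nat_lit 136) (nat_lit 4) (nat_lit 134) (nat_lit 4) (nat_lit 442) (nat_lit 365) (nat_lit 213))) (XT.nd (nat_lit 78) (nat_lit 76) (nat_lit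 0) (XT.lf (nat_lit 0) (nat_lit 49760745229) (nat_lit 76) (nat_lit 5084225252) (nat_lit 152) (nat_lit 1152951483954) (nat_lit 131) (nat_lit 5) (nat_lit 132) (nat_lit 5) (nat_lit 133) (nat_lit 4) (nat_lit 443) (nat_lit 365) (nat_lit 212)) (XT.lf (nat_lit 0) (nat_lit 112599485653) (nat_lit 76) (nat_lit 609073518465) (nat_lit 76) (nat_lit 549386394676) (nat_lit 130) (nat_lit 4) (nat_lit 131) (nat_lit 5) (nat_lit 131) (nat_lit 4) (nat_lit 444) (nat_lit 365) (nat_lit 211))))) (XT.nd (nat_lit 47112) (nat_lit 0) (nat_lit 12616) (XT.nd (nat_lit 46956) (nat_lit 0) (nat_lit 12540) (XT.nd (nat_lit 78) (nat_lit 76) (nat_lit 0) (XT.lf (nat_lit 0) (nat_lit 123850560257) (nat_lit 152) (nat_lit 1147213873387) (nat_lit 0) (nat_lit 67005650460) (nat_lit 128) (nat_lit 5) (nat_lit 130) (nat_lit 4) (nat_lit 128) (nat_lit 4) (nat_lit 445) (nat_lit 365) (nat_lit 210)) (XT.lf (nat_lit 0) (nat_lit 268790085122) (nat_lit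 76) (nat_lit 598142238119) (nat_lit 76) (nat_lit 541297300545) (nat_lit 127) (nat_lit 4) (nat_lit 128) (nat_lit 5) (nat_lit 128) (nat_lit 4) (nat_lit 446) (nat_lit 365) (nat_lit 209))) (XT.nd (nat_lit 78) (nat_lit 0) (nat_lit 76) (XT.lf (nat_lit 0) (nat_lit 6563678282) (nat_lit 836) (nat_lit 4233076193) (nat_lit 836) (nat_lit 4233076193) (nat_lit 292) (nat_lit 3) (nat_lit 303) (nat_lit 3) (nat_lit 303) (nat_lit 5) (nat_lit 366) (nat_lit 366) (nat_lit 288)) (XT.lf (nat_lit 0) (nat_lit 14048644468) (nat_lit 760) (nat_lit 15180685014) (nat_lit 836) (nat_lit 2012908629) (nat_lit 293) (nat_lit 5) (nat_lit 303) (nat_lit 5) (nat_lit 304) (nat_lit 5) (nat_lit 367) (nat_lit 366) (nat_lit 287)))) (XT.nd (nat_lit 156) (nat_lit 0) (nat_lit 152) (XT.nd (nat_lit 78) (nat_lit 0) (nat_lit 76) (XT.lf (nat_lit 76) (nat_lit 10298080916) (nat_lit 0) (nat_lit 5409073204) (nat_lit 836) (nat_lit 16779090968) (nat_lit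 294) (nat_lit 5) (nat_lit 293) (nat_lit 5) (nat_lit 304) (nat_lit 5) (nat_lit 368) (nat_lit 366) (nat_lit 286)) (XT.lf (nat_lit 76) (nat_lit 4351382547) (nat_lit 0) (nat_lit 13790409547) (nat_lit 836) (nat_lit 15655808152) (nat_lit 295) (nat_lit 5) (nat_lit 294) (nat_lit 5) (nat_lit 305) (nat_lit 5) (nat_lit 369) (nat_lit 366) (nat_lit 285))) (XT.nd (nat_lit 78) (nat_lit 0) (nat_lit 76) (XT.lf (nat_lit 0) (nat_lit 21432303136) (nat_lit 760) (nat_lit 1679736637) (nat_lit 836) (nat_lit 12068768942) (nat_lit 295) (nat_lit 5) (nat_lit 305) (nat_lit 5) (nat_lit 306) (nat_lit 5) (nat_lit 370) (nat_lit 366) (nat_lit 284)) (XT.nd (nat_lit 78) (nat_lit 0) (nat_lit 0) (XT.lf (nat_lit 0) (nat_lit 25714346205) (nat_lit 760) (nat_lit 7696050709) (nat_lit 836) (nat_lit 3227862391) (nat_lit 296) (nat_lit 5) (nat_lit 306) (nat_lit 5) (nat_lit 307) (nat_lit 5) (nat_lit 371) (nat_lit 366) (nat_lit 283)) (XT.lf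 (nat_lit 76) (nat_lit 24241849159) (nat_lit 0) (nat_lit 6886611758) (nat_lit 836) (nat_lit 7044369616) (nat_lit 297) (nat_lit 5) (nat_lit 296) (nat_lit 5) (nat_lit 307) (nat_lit 5) (nat_lit 372) (nat_lit 366) (nat_lit 282))))))))
noncomputable def xc164 : XT := (XT.nd (nat_lit 1248) (nat_lit 2660) (nat_lit 0) (XT.nd (nat_lit 624) (nat_lit 2052) (nat_lit 0) (XT.nd (nat_lit 312) (nat_lit 988) (nat_lit 0) (XT.nd (nat_lit 156) (nat_lit 760) (nat_lit 0) (XT.nd (nat_lit 78) (nat_lit 532) (nat_lit 0) (XT.lf (nat_lit 0) (nat_lit 19460049680) (nat_lit 760) (nat_lit 18287574788) (nat_lit 836) (nat_lit 2043947006) (nat_lit 287) (nat_lit 5) (nat_lit 297) (nat_lit 5) (nat_lit 298) (nat_lit 5) (nat_lit 373) (nat_lit 366) (nat_lit 281)) (XT.lf (nat_lit 0) (nat_lit 4006143380) (nat_lit 532) (nat_lit 26892924097) (nat_lit 76) (nat_lit 10600270827) (nat_lit 280) (nat_lit 5) (nat_lit 287) (nat_lit 5) (nat_lit 281)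 (nat_lit 5) (nat_lit 374) (nat_lit 366) (nat_lit 280))) (XT.nd (nat_lit 78) (nat_lit 380) (nat_lit 0) (XT.lf (nat_lit 0) (nat_lit 9694018101) (nat_lit 380) (nat_lit 1588184512) (nat_lit 456) (nat_lit 32019169923) (nat_lit 275) (nat_lit 5) (nat_lit 280) (nat_lit 5) (nat_lit 281) (nat_lit 5) (nat_lit 375) (nat_lit 366) (nat_lit 279)) (XT.lf (nat_lit 0) (nat_lit 4607410236) (nat_lit 380) (nat_lit 15543798178) (nat_lit 456) (nat_lit 25045818001) (nat_lit 270) (nat_lit 5) (nat_lit 275) (nat_lit 5) (nat_lit 276) (nat_lit 5) (nat_lit 376) (nat_lit 366) (nat_lit 278)))) (XT.nd (nat_lit 156) (nat_lit 684) (nat_lit 0) (XT.nd (nat_lit 78) (nat_lit 304) (nat_lit 0) (XT.lf (nat_lit 0) (nat_lit 30596126538) (nat_lit 456) (nat_lit 429883387) (nat_lit 76) (nat_lit 16175003086) (nat_lit 270) (nat_lit 5) (nat_lit 276) (nat_lit 5) (nat_lit 271) (nat_lit 5) (nat_lit 377) (nat_lit 366) (nat_lit 277)) (XT.lf (nat_lit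 0) (nat_lit 42840952086) (nat_lit 380) (nat_lit 5252815442) (nat_lit 76) (nat_lit 1223335308) (nat_lit 266) (nat_lit 5) (nat_lit 271) (nat_lit 5) (nat_lit 267) (nat_lit 5) (nat_lit 378) (nat_lit 366) (nat_lit 276))) (XT.nd (nat_lit 78) (nat_lit 304) (nat_lit 0) (XT.lf (nat_lit 0) (nat_lit 5509698809) (nat_lit 380) (nat_lit 10308733980) (nat_lit 76) (nat_lit 35721080396) (nat_lit 261) (nat_lit 5) (nat_lit 266) (nat_lit 5) (nat_lit 262) (nat_lit 5) (nat_lit 379) (nat_lit 366) (nat_lit 275)) (XT.lf (nat_lit 0) (nat_lit 19234721557) (nat_lit 380) (nat_lit 15399467143) (nat_lit 76) (nat_lit 19249859440) (nat_lit 257) (nat_lit 5) (nat_lit 262) (nat_lit 5) (nat_lit 258) (nat_lit 5) (nat_lit 380) (nat_lit 366) (nat_lit 274))))) (XT.nd (nat_lit 312) (nat_lit 912) (nat_lit 0) (XT.nd (nat_lit 156) (nat_lit 608) (nat_lit 0) (XT.nd (nat_lit 78) (nat_lit 228) (nat_lit 0) (XT.lf (nat_lit 0) (nat_lit 35079272046)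 (nat_lit 380) (nat_lit 20361584067) (nat_lit 76) (nat_lit 924213484) (nat_lit 253) (nat_lit 5) (nat_lit 258) (nat_lit 5) (nat_lit 254) (nat_lit 5) (nat_lit 381) (nat_lit 366) (nat_lit 273)) (XT.lf (nat_lit 0) (nat_lit 33515452362) (nat_lit 228) (nat_lit 20051116131) (nat_lit 304) (nat_lit 5409245181) (nat_lit 250) (nat_lit 5) (nat_lit 253) (nat_lit 5) (nat_lit 254) (nat_lit 5) (nat_lit 382) (nat_lit 366) (nat_lit 272))) (XT.nd (nat_lit 78) (nat_lit 228) (nat_lit 0) (XT.lf (nat_lit 0) (nat_lit 12509576397) (nat_lit 380) (nat_lit 30580631574) (nat_lit 76) (nat_lit 18638655790) (nat_lit 245) (nat_lit 5) (nat_lit 250) (nat_lit 5) (nat_lit 246) (nat_lit 5) (nat_lit 383) (nat_lit 366) (nat_lit 271)) (XT.lf (nat_lit 0) (nat_lit 29000239565) (nat_lit 228) (nat_lit 3912004226) (nat_lit 304) (nat_lit 31723487572) (nat_lit 242) (nat_lit 5) (nat_lit 245) (nat_lit 5) (nat_lit 246) (nat_lit 5) (nat_lit 384)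 (nat_lit 366) (nat_lit 270)))) (XT.nd (nat_lit 156) (nat_lit 380) (nat_lit 0) (XT.nd (nat_lit 78) (nat_lit 304) (nat_lit 0) (XT.lf (nat_lit 0) (nat_lit 26939041486) (nat_lit 228) (nat_lit 29565519173) (nat_lit 304) (nat_lit 11192715910) (nat_lit 239) (nat_lit 5) (nat_lit 242) (nat_lit 5) (nat_lit 243) (nat_lit 5) (nat_lit 385) (nat_lit 366) (nat_lit 269)) (XT.lf (nat_lit 0) (nat_lit 11931481922) (nat_lit 304) (nat_lit 45775808481) (nat_lit 76) (nat_lit 13222762678) (nat_lit 235) (nat_lit 5) (nat_lit 239) (nat_lit 5) (nat_lit 236) (nat_lit 5) (nat_lit 386) (nat_lit 366) (nat_lit 268))) (XT.nd (nat_lit 78) (nat_lit 152) (nat_lit 0) (XT.lf (nat_lit 0) (nat_lit 23455280418) (nat_lit 228) (nat_lit 14645997466) (nat_lit 304) (nat_lit 36231609443) (nat_lit 232) (nat_lit 5) (nat_lit 235) (nat_lit 5) (nat_lit 236) (nat_lit 5) (nat_lit 387) (nat_lit 366) (nat_lit 267)) (XT.lf (nat_lit 0) (nat_lit 22082009706)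 (nat_lit 152) (nat_lit 45931664226) (nat_lit 228) (nat_lit 9911823563) (nat_lit 230) (nat_lit 5) (nat_lit 232) (nat_lit 5) (nat_lit 233) (nat_lit 5) (nat_lit 388) (nat_lit 366) (nat_lit 266)))))) (XT.nd (nat_lit 624) (nat_lit 1140) (nat_lit 0) (XT.nd (nat_lit 312) (nat_lit 684) (nat_lit 0) (XT.nd (nat_lit 156) (nat_lit 380) (nat_lit 0) (XT.nd (nat_lit 78) (nat_lit 152) (nat_lit 0) (XT.lf (nat_lit 0) (nat_lit 19419795932) (nat_lit 304) (nat_lit 60691574843) (nat_lit 76) (nat_lit 1604753292) (nat_lit 226) (nat_lit 5) (nat_lit 230) (nat_lit 5) (nat_lit 227) (nat_lit 5) (nat_lit 389) (nat_lit 366) (nat_lit 265)) (XT.lf (nat_lit 0) (nat_lit 19950350588) (nat_lit 152) (nat_lit 32876295909) (nat_lit 228) (nat_lit 32871431648) (nat_lit 224) (nat_lit 5) (nat_lit 226) (nat_lit 5) (nat_lit 227) (nat_lit 5) (nat_lit 390) (nat_lit 366) (nat_lit 264))) (XT.nd (nat_lit 78) (nat_lit 152) (nat_lit 0) (XT.lf (nat_lit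 0) (nat_lit 629936461) (nat_lit 228) (nat_lit 70339510279) (nat_lit 76) (nat_lit 18945619108) (nat_lit 221) (nat_lit 5) (nat_lit 224) (nat_lit 5) (nat_lit 222) (nat_lit 5) (nat_lit 391) (nat_lit 366) (nat_lit 263)) (XT.lf (nat_lit 0) (nat_lit 19140395662) (nat_lit 152) (nat_lit 18548896537) (nat_lit 228) (nat_lit 56651699921) (nat_lit 219) (nat_lit 5) (nat_lit 221) (nat_lit 5) (nat_lit 222) (nat_lit 5) (nat_lit 392) (nat_lit 366) (nat_lit 262)))) (XT.nd (nat_lit 156) (nat_lit 304) (nat_lit 0) (XT.nd (nat_lit 78) (nat_lit 228) (nat_lit 0) (XT.lf (nat_lit 0) (nat_lit 19226658773) (nat_lit 152) (nat_lit 60623591104) (nat_lit 228) (nat_lit 19163899941) (nat_lit 217) (nat_lit 5) (nat_lit 219) (nat_lit 5) (nat_lit 220) (nat_lit 5) (nat_lit 393) (nat_lit 366) (nat_lit 261)) (XT.lf (nat_lit 0) (nat_lit 19861393098) (nat_lit 152) (nat_lit 2730453950) (nat_lit 228) (nat_lit 81355098069) (nat_lit 214) (nat_lit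 5) (nat_lit 216) (nat_lit 5) (nat_lit 217) (nat_lit 5) (nat_lit 394) (nat_lit 366) (nat_lit 260))) (XT.nd (nat_lit 78) (nat_lit 152) (nat_lit 0) (XT.lf (nat_lit 0) (nat_lit 20498243455) (nat_lit 152) (nat_lit 49190814654) (nat_lit 228) (nat_lit 39435977112) (nat_lit 212) (nat_lit 5) (nat_lit 214) (nat_lit 5) (nat_lit 215) (nat_lit 5) (nat_lit 395) (nat_lit 366) (nat_lit 259)) (XT.lf (nat_lit 0) (nat_lit 7762468437) (nat_lit 152) (nat_lit 92493309548) (nat_lit 76) (nat_lit 14351407964) (nat_lit 210) (nat_lit 5) (nat_lit 212) (nat_lit 5) (nat_lit 211) (nat_lit 5) (nat_lit 396) (nat_lit 366) (nat_lit 258))))) (XT.nd (nat_lit 312) (nat_lit 608) (nat_lit 0) (XT.nd (nat_lit 156) (nat_lit 304) (nat_lit 0) (XT.nd (nat_lit 78) (nat_lit 76) (nat_lit 0) (XT.lf (nat_lit 0) (nat_lit 23660868501) (nat_lit 152) (nat_lit 36478143517) (nat_lit 228) (nat_lit 60217378798) (nat_lit 208) (nat_lit 5) (nat_lit 210)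 (nat_lit 5) (nat_lit 211) (nat_lit 5) (nat_lit 397) (nat_lit 366) (nat_lit 257)) (XT.lf (nat_lit 0) (nat_lit 26227962656) (nat_lit 76) (nat_lit 93028175077) (nat_lit 152) (nat_lit 7181871407) (nat_lit 207) (nat_lit 5) (nat_lit 208) (nat_lit 5) (nat_lit 209) (nat_lit 4) (nat_lit 398) (nat_lit 366) (nat_lit 256))) (XT.nd (nat_lit 78) (nat_lit 76) (nat_lit 0) (XT.lf (nat_lit 0) (nat_lit 29015794087) (nat_lit 152) (nat_lit 22254952248) (nat_lit 228) (nat_lit 81557419782) (nat_lit 204) (nat_lit 5) (nat_lit 206) (nat_lit 5) (nat_lit 207) (nat_lit 5) (nat_lit 399) (nat_lit 366) (nat_lit 255)) (XT.lf (nat_lit 0) (nat_lit 32558062323) (nat_lit 76) (nat_lit 84719355819) (nat_lit 152) (nat_lit 22289757609) (nat_lit 203) (nat_lit 5) (nat_lit 204) (nat_lit 5) (nat_lit 205) (nat_lit 4) (nat_lit 400) (nat_lit 366) (nat_lit 254)))) (XT.nd (nat_lit 156) (nat_lit 304) (nat_lit 0) (XT.nd (nat_lit 78) (nat_lit 76)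 (nat_lit 0) (XT.lf (nat_lit 0) (nat_lit 36911298995) (nat_lit 152) (nat_lit 6260011539) (nat_lit 228) (nat_lit 103502064262) (nat_lit 200) (nat_lit 5) (nat_lit 202) (nat_lit 5) (nat_lit 203) (nat_lit 5) (nat_lit 401) (nat_lit 366) (nat_lit 253)) (XT.lf (nat_lit 0) (nat_lit 41607728960) (nat_lit 76) (nat_lit 75258294033) (nat_lit 152) (nat_lit 37274892311) (nat_lit 199) (nat_lit 5) (nat_lit 200) (nat_lit 5) (nat_lit 201) (nat_lit 4) (nat_lit 402) (nat_lit 366) (nat_lit 252))) (XT.nd (nat_lit 78) (nat_lit 76) (nat_lit 0) (XT.lf (nat_lit 0) (nat_lit 36130755113) (nat_lit 228) (nat_lit 114474702631) (nat_lit 76) (nat_lit 11424837524) (nat_lit 196) (nat_lit 5) (nat_lit 199) (nat_lit 5) (nat_lit 197) (nat_lit 4) (nat_lit 403) (nat_lit 366) (nat_lit 251)) (XT.lf (nat_lit 0) (nat_lit 53805781958) (nat_lit 76) (nat_lit 64413990873) (nat_lit 152) (nat_lit 52094657148) (nat_lit 195) (nat_lit 5) (nat_lit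 196) (nat_lit 5) (nat_lit 197) (nat_lit 4) (nat_lit 404) (nat_lit 366) (nat_lit 250)))))))
noncomputable def xc165 : XT := (XT.nd (nat_lit 1248) (nat_lit 2052) (nat_lit 0) (XT.nd (nat_lit 624) (nat_lit 912) (nat_lit 0) (XT.nd (nat_lit 312) (nat_lit 456) (nat_lit 0) (XT.nd (nat_lit 156) (nat_lit 228) (nat_lit 0) (XT.nd (nat_lit 78) (nat_lit 76) (nat_lit 0) (XT.lf (nat_lit 0) (nat_lit 30227207304) (nat_lit 228) (nat_lit 117602421031) (nat_lit 76) (nat_lit 31235288506) (nat_lit 192) (nat_lit 5) (nat_lit 195) (nat_lit 5) (nat_lit 193) (nat_lit 4) (nat_lit 405) (nat_lit 366) (nat_lit 249)) (XT.lf (nat_lit 0) (nat_lit 69645444583) (nat_lit 76) (nat_lit 51922982260) (nat_lit 152) (nat_lit 66691377822) (nat_lit 191) (nat_lit 5) (nat_lit 192) (nat_lit 5) (nat_lit 193) (nat_lit 4) (nat_lit 406) (nat_lit 366) (nat_lit 248))) (XT.nd (nat_lit 78) (nat_lit 76) (nat_lit 0) (XT.lf (nat_lit 0) (nat_lit 25520378413)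 (nat_lit 152) (nat_lit 118703551700) (nat_lit 76) (nat_lit 53739223075) (nat_lit 189) (nat_lit 5) (nat_lit 191) (nat_lit 5) (nat_lit 190) (nat_lit 4) (nat_lit 407) (nat_lit 366) (nat_lit 247)) (XT.lf (nat_lit 0) (nat_lit 89693024967) (nat_lit 76) (nat_lit 37484871109) (nat_lit 152) (nat_lit 80989940353) (nat_lit 188) (nat_lit 5) (nat_lit 189) (nat_lit 5) (nat_lit 190) (nat_lit 4) (nat_lit 408) (nat_lit 366) (nat_lit 246)))) (XT.nd (nat_lit 156) (nat_lit 228) (nat_lit 0) (XT.nd (nat_lit 78) (nat_lit 76) (nat_lit 0) (XT.lf (nat_lit 0) (nat_lit 22196293105) (nat_lit 152) (nat_lit 117376549304) (nat_lit 76) (nat_lit 79352862068) (nat_lit 186) (nat_lit 5) (nat_lit 188) (nat_lit 5) (nat_lit 187) (nat_lit 4) (nat_lit 409) (nat_lit 366) (nat_lit 245)) (XT.lf (nat_lit 0) (nat_lit 114597727455) (nat_lit 76) (nat_lit 20757280983) (nat_lit 152) (nat_lit 94895054525) (nat_lit 185) (nat_lit 5) (nat_lit 186)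 (nat_lit 5) (nat_lit 187) (nat_lit 4) (nat_lit 410) (nat_lit 366) (nat_lit 244))) (XT.nd (nat_lit 78) (nat_lit 76) (nat_lit 0) (XT.lf (nat_lit 0) (nat_lit 20473541911) (nat_lit 152) (nat_lit 113154047462) (nat_lit 76) (nat_lit 108547487033) (nat_lit 183) (nat_lit 5) (nat_lit 185) (nat_lit 5) (nat_lit 184) (nat_lit 4) (nat_lit 411) (nat_lit 366) (nat_lit 243)) (XT.lf (nat_lit 0) (nat_lit 145102736152) (nat_lit 76) (nat_lit 1350158611) (nat_lit 152) (nat_lit 108288116872) (nat_lit 182) (nat_lit 5) (nat_lit 183) (nat_lit 5) (nat_lit 184) (nat_lit 4) (nat_lit 412) (nat_lit 366) (nat_lit 242))))) (XT.nd (nat_lit 312) (nat_lit 456) (nat_lit 0) (XT.nd (nat_lit 156) (nat_lit 228) (nat_lit 0) (XT.nd (nat_lit 78) (nat_lit 76) (nat_lit 0) (XT.lf (nat_lit 0) (nat_lit 20607810812) (nat_lit 152) (nat_lit 105493532538) (nat_lit 76) (nat_lit 141856600847) (nat_lit 180) (nat_lit 5) (nat_lit 182) (nat_lit 5) (nat_lit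 181) (nat_lit 4) (nat_lit 413) (nat_lit 366) (nat_lit 241)) (XT.lf (nat_lit 0) (nat_lit 161207763159) (nat_lit 152) (nat_lit 100173652539) (nat_lit 0) (nat_lit 20502742986) (nat_lit 179) (nat_lit 5) (nat_lit 181) (nat_lit 4) (nat_lit 179) (nat_lit 4) (nat_lit 414) (nat_lit 366) (nat_lit 240))) (XT.nd (nat_lit 78) (nat_lit 76) (nat_lit 0) (XT.lf (nat_lit 0) (nat_lit 22897021091) (nat_lit 152) (nat_lit 93766767568) (nat_lit 76) (nat_lit 179883984967) (nat_lit 177) (nat_lit 5) (nat_lit 179) (nat_lit 5) (nat_lit 178) (nat_lit 4) (nat_lit 415) (nat_lit 366) (nat_lit 239)) (XT.lf (nat_lit 0) (nat_lit 179831443906) (nat_lit 152) (nat_lit 86323478752) (nat_lit 0) (nat_lit 45825487730) (nat_lit 176) (nat_lit 5) (nat_lit 178) (nat_lit 4) (nat_lit 176) (nat_lit 4) (nat_lit 416) (nat_lit 366) (nat_lit 238)))) (XT.nd (nat_lit 156) (nat_lit 228) (nat_lit 0) (XT.nd (nat_lit 78) (nat_lit 76) (nat_lit 0) (XT.lf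 (nat_lit 0) (nat_lit 27687157633) (nat_lit 152) (nat_lit 77247806112) (nat_lit 76) (nat_lit 223312763248) (nat_lit 174) (nat_lit 5) (nat_lit 176) (nat_lit 5) (nat_lit 175) (nat_lit 4) (nat_lit 417) (nat_lit 366) (nat_lit 237)) (XT.lf (nat_lit 0) (nat_lit 202843627740) (nat_lit 152) (nat_lit 67288368635) (nat_lit 0) (nat_lit 75217948121) (nat_lit 173) (nat_lit 5) (nat_lit 175) (nat_lit 4) (nat_lit 173) (nat_lit 4) (nat_lit 418) (nat_lit 366) (nat_lit 236))) (XT.nd (nat_lit 78) (nat_lit 76) (nat_lit 0) (XT.lf (nat_lit 0) (nat_lit 35378873616) (nat_lit 152) (nat_lit 55099415810) (nat_lit 76) (nat_lit 272915595628) (nat_lit 171) (nat_lit 5) (nat_lit 173) (nat_lit 5) (nat_lit 172) (nat_lit 4) (nat_lit 419) (nat_lit 366) (nat_lit 235)) (XT.lf (nat_lit 0) (nat_lit 230862078999) (nat_lit 152) (nat_lit 42171427763) (nat_lit 0) (nat_lit 109313029291) (nat_lit 170) (nat_lit 5) (nat_lit 172) (nat_lit 4)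 (nat_lit 170) (nat_lit 4) (nat_lit 420) (nat_lit 366) (nat_lit 234)))))) (XT.nd (nat_lit 624) (nat_lit 1064) (nat_lit 0) (XT.nd (nat_lit 312) (nat_lit 456) (nat_lit 0) (XT.nd (nat_lit 156) (nat_lit 304) (nat_lit 0) (XT.nd (nat_lit 78) (nat_lit 76) (nat_lit 0) (XT.lf (nat_lit 0) (nat_lit 46434970486) (nat_lit 152) (nat_lit 26357708947) (nat_lit 76) (nat_lit 329566139826) (nat_lit 168) (nat_lit 5) (nat_lit 170) (nat_lit 5) (nat_lit 169) (nat_lit 4) (nat_lit 421) (nat_lit 366) (nat_lit 233)) (XT.lf (nat_lit 0) (nat_lit 264591585576) (nat_lit 152) (nat_lit 9940840224) (nat_lit 0) (nat_lit 148829946194) (nat_lit 167) (nat_lit 5) (nat_lit 169) (nat_lit 4) (nat_lit 167) (nat_lit 4) (nat_lit 422) (nat_lit 366) (nat_lit 232))) (XT.nd (nat_lit 78) (nat_lit 76) (nat_lit 0) (XT.lf (nat_lit 0) (nat_lit 10418711716) (nat_lit 76) (nat_lit 51132817964) (nat_lit 152) (nat_lit 383995889493) (nat_lit 164) (nat_lit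 5) (nat_lit 165) (nat_lit 5) (nat_lit 166) (nat_lit 4) (nat_lit 423) (nat_lit 366) (nat_lit 231)) (XT.lf (nat_lit 0) (nat_lit 31600005094) (nat_lit 76) (nat_lit 273728625000) (nat_lit 76) (nat_lit 163478922346) (nat_lit 163) (nat_lit 4) (nat_lit 164) (nat_lit 5) (nat_lit 164) (nat_lit 4) (nat_lit 424) (nat_lit 366) (nat_lit 230)))) (XT.nd (nat_lit 156) (nat_lit 228) (nat_lit 0) (XT.nd (nat_lit 78) (nat_lit 76) (nat_lit 0) (XT.lf (nat_lit 0) (nat_lit 57336218200) (nat_lit 76) (nat_lit 24413124899) (nat_lit 152) (nat_lit 411647848121) (nat_lit 161) (nat_lit 5) (nat_lit 162) (nat_lit 5) (nat_lit 163) (nat_lit 4) (nat_lit 425) (nat_lit 366) (nat_lit 229)) (XT.lf (nat_lit 0) (nat_lit 83447251137) (nat_lit 76) (nat_lit 270362902340) (nat_lit 76) (nat_lit 165362759070) (nat_lit 160) (nat_lit 4) (nat_lit 161) (nat_lit 5) (nat_lit 161) (nat_lit 4) (nat_lit 426) (nat_lit 366) (nat_lit 228))) (XT.nd (nat_lit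 78) (nat_lit 76) (nat_lit 0) (XT.lf (nat_lit 0) (nat_lit 107451609084) (nat_lit 152) (nat_lit 431526883402) (nat_lit 0) (nat_lit 7451291835) (nat_lit 158) (nat_lit 5) (nat_lit 160) (nat_lit 4) (nat_lit 158) (nat_lit 4) (nat_lit 427) (nat_lit 366) (nat_lit 227)) (XT.lf (nat_lit 0) (nat_lit 146881105308) (nat_lit 76) (nat_lit 264059447674) (nat_lit 76) (nat_lit 164058963018) (nat_lit 157) (nat_lit 4) (nat_lit 158) (nat_lit 5) (nat_lit 158) (nat_lit 4) (nat_lit 428) (nat_lit 366) (nat_lit 226))))) (XT.nd (nat_lit 312) (nat_lit 608) (nat_lit 0) (XT.nd (nat_lit 156) (nat_lit 228) (nat_lit 0) (XT.nd (nat_lit 78) (nat_lit 76) (nat_lit 0) (XT.lf (nat_lit 0) (nat_lit 139852159619) (nat_lit 152) (nat_lit 420722974205) (nat_lit 0) (nat_lit 44613455177) (nat_lit 155) (nat_lit 5) (nat_lit 157) (nat_lit 4) (nat_lit 155) (nat_lit 4) (nat_lit 429) (nat_lit 366) (nat_lit 225)) (XT.lf (nat_lit 0) (nat_lit 223742462012)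 (nat_lit 76) (nat_lit 254187310518) (nat_lit 76) (nat_lit 158948469386) (nat_lit 154) (nat_lit 4) (nat_lit 155) (nat_lit 5) (nat_lit 155) (nat_lit 4) (nat_lit 430) (nat_lit 366) (nat_lit 224))) (XT.nd (nat_lit 78) (nat_lit 76) (nat_lit 0) (XT.lf (nat_lit 0) (nat_lit 179541447483) (nat_lit 152) (nat_lit 401934998835) (nat_lit 0) (nat_lit 88837668724) (nat_lit 152) (nat_lit 5) (nat_lit 154) (nat_lit 4) (nat_lit 152) (nat_lit 4) (nat_lit 431) (nat_lit 366) (nat_lit 223)) (XT.lf (nat_lit 0) (nat_lit 316135329773) (nat_lit 76) (nat_lit 240016319695) (nat_lit 76) (nat_lit 149312429326) (nat_lit 151) (nat_lit 4) (nat_lit 152) (nat_lit 5) (nat_lit 152) (nat_lit 4) (nat_lit 432) (nat_lit 366) (nat_lit 222)))) (XT.nd (nat_lit 156) (nat_lit 380) (nat_lit 0) (XT.nd (nat_lit 78) (nat_lit 76) (nat_lit 0) (XT.lf (nat_lit 0) (nat_lit 227630399840) (nat_lit 152) (nat_lit 373619172459) (nat_lit 0) (nat_lit 141245643924)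 (nat_lit 149) (nat_lit 5) (nat_lit 151) (nat_lit 4) (nat_lit 149) (nat_lit 4) (nat_lit 433) (nat_lit 366) (nat_lit 221)) (XT.lf (nat_lit 0) (nat_lit 426461954996) (nat_lit 76) (nat_lit 220702988034) (nat_lit 76) (nat_lit 134318140987) (nat_lit 148) (nat_lit 4) (nat_lit 149) (nat_lit 5) (nat_lit 149) (nat_lit 4) (nat_lit 434) (nat_lit 366) (nat_lit 220))) (XT.nd (nat_lit 78) (nat_lit 228) (nat_lit 0) (XT.lf (nat_lit 0) (nat_lit 285387764525) (nat_lit 152) (nat_lit 333991297146) (nat_lit 0) (nat_lit 203116401262) (nat_lit 146) (nat_lit 5) (nat_lit 148) (nat_lit 4) (nat_lit 146) (nat_lit 4) (nat_lit 435) (nat_lit 366) (nat_lit 219)) (XT.nd (nat_lit 78) (nat_lit 152) (nat_lit 0) (XT.lf (nat_lit 0) (nat_lit 557462454537) (nat_lit 76) (nat_lit 195274541556) (nat_lit 76) (nat_lit 113003103883) (nat_lit 145) (nat_lit 4) (nat_lit 146) (nat_lit 5) (nat_lit 146) (nat_lit 4) (nat_lit 436) (nat_lit 366) (nat_lit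 218)) (XT.lf (nat_lit 0) (nat_lit 354260986985) (nat_lit 152) (nat_lit 280993093692) (nat_lit 0) (nat_lit 275907171204) (nat_lit 143) (nat_lit 5) (nat_lit 145) (nat_lit 4) (nat_lit 143) (nat_lit 4) (nat_lit 437) (nat_lit 366) (nat_lit 217))))))))
noncomputable def xc166 : XT := (XT.nd (nat_lit 48126) (nat_lit 0) (nat_lit 7448) (XT.nd (nat_lit 624) (nat_lit 152) (nat_lit 0) (XT.nd (nat_lit 312) (nat_lit 532) (nat_lit 0) (XT.nd (nat_lit 156) (nat_lit 228) (nat_lit 0) (XT.nd (nat_lit 78) (nat_lit 152) (nat_lit 0) (XT.lf (nat_lit 0) (nat_lit 712259519717) (nat_lit 76) (nat_lit 162610832985) (nat_lit 76) (nat_lit 84256956448) (nat_lit 142) (nat_lit 4) (nat_lit 143) (nat_lit 5) (nat_lit 143) (nat_lit 4) (nat_lit 438) (nat_lit 366) (nat_lit 216)) (XT.lf (nat_lit 0) (nat_lit 435899756304) (nat_lit 152) (nat_lit 212254077841) (nat_lit 0) (nat_lit 361276963167) (nat_lit 140) (nat_lit 5) (nat_lit 142) (nat_lit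 4) (nat_lit 140) (nat_lit 4) (nat_lit 439) (nat_lit 366) (nat_lit 215))) (XT.nd (nat_lit 78) (nat_lit 152) (nat_lit 0) (XT.lf (nat_lit 0) (nat_lit 894408823264) (nat_lit 76) (nat_lit 121423869466) (nat_lit 76) (nat_lit 46801026721) (nat_lit 139) (nat_lit 4) (nat_lit 140) (nat_lit 5) (nat_lit 140) (nat_lit 4) (nat_lit 440) (nat_lit 366) (nat_lit 214)) (XT.lf (nat_lit 0) (nat_lit 532182552174) (nat_lit 152) (nat_lit 125048413035) (nat_lit 0) (nat_lit 461113134385) (nat_lit 137) (nat_lit 5) (nat_lit 139) (nat_lit 4) (nat_lit 137) (nat_lit 4) (nat_lit 441) (nat_lit 366) (nat_lit 213)))) (XT.nd (nat_lit 156) (nat_lit 304) (nat_lit 0) (XT.nd (nat_lit 78) (nat_lit 76) (nat_lit 0) (XT.lf (nat_lit 0) (nat_lit 808088423) (nat_lit 152) (nat_lit 69412877026) (nat_lit 76) (nat_lit 1107134063958) (nat_lit 135) (nat_lit 5) (nat_lit 137) (nat_lit 5) (nat_lit 136) (nat_lit 4) (nat_lit 442) (nat_lit 366) (nat_lit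 212)) (XT.lf (nat_lit 0) (nat_lit 645246565185) (nat_lit 152) (nat_lit 16246101279) (nat_lit 0) (nat_lit 577561331089) (nat_lit 134) (nat_lit 5) (nat_lit 136) (nat_lit 4) (nat_lit 134) (nat_lit 4) (nat_lit 443) (nat_lit 366) (nat_lit 211))) (XT.nd (nat_lit 78) (nat_lit 76) (nat_lit 0) (XT.lf (nat_lit 0) (nat_lit 53770247143) (nat_lit 76) (nat_lit 5476345203) (nat_lit 152) (nat_lit 1245172877231) (nat_lit 131) (nat_lit 5) (nat_lit 132) (nat_lit 5) (nat_lit 133) (nat_lit 4) (nat_lit 444) (nat_lit 366) (nat_lit 210)) (XT.lf (nat_lit 0) (nat_lit 121635294470) (nat_lit 76) (nat_lit 657785181513) (nat_lit 76) (nat_lit 593322993138) (nat_lit 130) (nat_lit 4) (nat_lit 131) (nat_lit 5) (nat_lit 131) (nat_lit 4) (nat_lit 445) (nat_lit 366) (nat_lit 209))))) (XT.nd (nat_lit 47190) (nat_lit 0) (nat_lit 12616) (XT.nd (nat_lit 47034) (nat_lit 0) (nat_lit 12540) (XT.nd (nat_lit 46956) (nat_lit 0) (nat_lit 12464)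 (XT.lf (nat_lit 0) (nat_lit 133772072414) (nat_lit 152) (nat_lit 1238963458714) (nat_lit 0) (nat_lit 72379486338) (nat_lit 128) (nat_lit 5) (nat_lit 130) (nat_lit 4) (nat_lit 128) (nat_lit 4) (nat_lit 446) (nat_lit 366) (nat_lit 208)) (XT.lf (nat_lit 0) (nat_lit 7198497900) (nat_lit 836) (nat_lit 4514116477) (nat_lit 836) (nat_lit 4514116477) (nat_lit 292) (nat_lit 3) (nat_lit 303) (nat_lit 3) (nat_lit 303) (nat_lit 5) (nat_lit 367) (nat_lit 367) (nat_lit 286))) (XT.nd (nat_lit 78) (nat_lit 0) (nat_lit 0) (XT.lf (nat_lit 0) (nat_lit 15375973027) (nat_lit 760) (nat_lit 16273210658) (nat_lit 836) (nat_lit 2082261624) (nat_lit 293) (nat_lit 5) (nat_lit 303) (nat_lit 5) (nat_lit 304) (nat_lit 5) (nat_lit 368) (nat_lit 367) (nat_lit 285)) (XT.lf (nat_lit 76) (nat_lit 11238557653) (nat_lit 0) (nat_lit 5915357315) (nat_lit 836) (nat_lit 17921720300) (nat_lit 294) (nat_lit 5) (nat_lit 293) (nat_lit 5)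 (nat_lit 304) (nat_lit 5) (nat_lit 369) (nat_lit 367) (nat_lit 284)))) (XT.nd (nat_lit 156) (nat_lit 0) (nat_lit 152) (XT.nd (nat_lit 78) (nat_lit 0) (nat_lit 76) (XT.lf (nat_lit 76) (nat_lit 4821249504) (nat_lit 0) (nat_lit 14948824016) (nat_lit 836) (nat_lit 16722487842) (nat_lit 295) (nat_lit 5) (nat_lit 294) (nat_lit 5) (nat_lit 305) (nat_lit 5) (nat_lit 370) (nat_lit 367) (nat_lit 283)) (XT.lf (nat_lit 0) (nat_lit 23309921199) (nat_lit 760) (nat_lit 1692388904) (nat_lit 836) (nat_lit 12984811618) (nat_lit 295) (nat_lit 5) (nat_lit 305) (nat_lit 5) (nat_lit 306) (nat_lit 5) (nat_lit 371) (nat_lit 367) (nat_lit 282))) (XT.nd (nat_lit 78) (nat_lit 0) (nat_lit 0) (XT.lf (nat_lit 0) (nat_lit 27923701690) (nat_lit 760) (nat_lit 8187092090) (nat_lit 836) (nat_lit 3450915880) (nat_lit 296) (nat_lit 5) (nat_lit 306) (nat_lit 5) (nat_lit 307) (nat_lit 5) (nat_lit 372) (nat_lit 367) (nat_lit 281))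 (XT.lf (nat_lit 76) (nat_lit 26300422948) (nat_lit 0) (nat_lit 7461109429) (nat_lit 836) (nat_lit 7457984868) (nat_lit 297) (nat_lit 5) (nat_lit 296) (nat_lit 5) (nat_lit 307) (nat_lit 5) (nat_lit 373) (nat_lit 367) (nat_lit 280)))))) (XT.nd (nat_lit 624) (nat_lit 2356) (nat_lit 0) (XT.nd (nat_lit 312) (nat_lit 988) (nat_lit 0) (XT.nd (nat_lit 156) (nat_lit 760) (nat_lit 0) (XT.nd (nat_lit 78) (nat_lit 532) (nat_lit 0) (XT.lf (nat_lit 0) (nat_lit 21138079528) (nat_lit 760) (nat_lit 19763124067) (nat_lit 836) (nat_lit 2067005138) (nat_lit 287) (nat_lit 5) (nat_lit 297) (nat_lit 5) (nat_lit 298) (nat_lit 5) (nat_lit 374) (nat_lit 367) (nat_lit 279)) (XT.lf (nat_lit 0) (nat_lit 4454285987) (nat_lit 532) (nat_lit 28917594645) (nat_lit 76) (nat_lit 11441022179) (nat_lit 280) (nat_lit 5) (nat_lit 287) (nat_lit 5) (nat_lit 281) (nat_lit 5) (nat_lit 375) (nat_lit 367) (nat_lit 278))) (XT.nd (nat_lit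 78) (nat_lit 380) (nat_lit 0) (XT.lf (nat_lit 0) (nat_lit 10590793946) (nat_lit 380) (nat_lit 1714073493) (nat_lit 456) (nat_lit 34454610469) (nat_lit 275) (nat_lit 5) (nat_lit 280) (nat_lit 5) (nat_lit 281) (nat_lit 5) (nat_lit 376) (nat_lit 367) (nat_lit 277)) (XT.lf (nat_lit 0) (nat_lit 5097713959) (nat_lit 380) (nat_lit 16778701393) (nat_lit 456) (nat_lit 26930717663) (nat_lit 270) (nat_lit 5) (nat_lit 275) (nat_lit 5) (nat_lit 276) (nat_lit 5) (nat_lit 377) (nat_lit 367) (nat_lit 276)))) (XT.nd (nat_lit 156) (nat_lit 684) (nat_lit 0) (XT.nd (nat_lit 78) (nat_lit 304) (nat_lit 0) (XT.lf (nat_lit 0) (nat_lit 33148672721) (nat_lit 456) (nat_lit 346466523) (nat_lit 76) (nat_lit 17476712005) (nat_lit 270) (nat_lit 5) (nat_lit 276) (nat_lit 5) (nat_lit 271) (nat_lit 5) (nat_lit 378) (nat_lit 367) (nat_lit 275)) (XT.lf (nat_lit 0) (nat_lit 46367292642) (nat_lit 380) (nat_lit 5555626571) (nat_lit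 76) (nat_lit 1334598630) (nat_lit 266) (nat_lit 5) (nat_lit 271) (nat_lit 5) (nat_lit 267) (nat_lit 5) (nat_lit 379) (nat_lit 367) (nat_lit 274))) (XT.nd (nat_lit 78) (nat_lit 304) (nat_lit 0) (XT.lf (nat_lit 0) (nat_lit 6045486951) (nat_lit 380) (nat_lit 11017979733) (nat_lit 76) (nat_lit 38594456943) (nat_lit 261) (nat_lit 5) (nat_lit 266) (nat_lit 5) (nat_lit 262) (nat_lit 5) (nat_lit 380) (nat_lit 367) (nat_lit 273)) (XT.lf (nat_lit 0) (nat_lit 20863521547) (nat_lit 380) (nat_lit 16516827832) (nat_lit 76) (nat_lit 20809921500) (nat_lit 257) (nat_lit 5) (nat_lit 262) (nat_lit 5) (nat_lit 258) (nat_lit 5) (nat_lit 381) (nat_lit 367) (nat_lit 272))))) (XT.nd (nat_lit 312) (nat_lit 1216) (nat_lit 0) (XT.nd (nat_lit 156) (nat_lit 608) (nat_lit 0) (XT.nd (nat_lit 78) (nat_lit 228) (nat_lit 0) (XT.lf (nat_lit 0) (nat_lit 37971062490) (nat_lit 380) (nat_lit 21877024385) (nat_lit 76) (nat_lit 1021915856)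 (nat_lit 253) (nat_lit 5) (nat_lit 258) (nat_lit 5) (nat_lit 254) (nat_lit 5) (nat_lit 382) (nat_lit 367) (nat_lit 271)) (XT.lf (nat_lit 0) (nat_lit 36305242978) (nat_lit 228) (nat_lit 21627464982) (nat_lit 304) (nat_lit 5757130109) (nat_lit 250) (nat_lit 5) (nat_lit 253) (nat_lit 5) (nat_lit 254) (nat_lit 5) (nat_lit 383) (nat_lit 367) (nat_lit 270))) (XT.nd (nat_lit 78) (nat_lit 228) (nat_lit 0) (XT.lf (nat_lit 0) (nat_lit 13588507078) (nat_lit 380) (nat_lit 32917210031) (nat_lit 76) (nat_lit 20157547525) (nat_lit 245) (nat_lit 5) (nat_lit 250) (nat_lit 5) (nat_lit 246) (nat_lit 5) (nat_lit 384) (nat_lit 367) (nat_lit 269)) (XT.lf (nat_lit 0) (nat_lit 31425355893) (nat_lit 228) (nat_lit 4193882863) (nat_lit 304) (nat_lit 34183650342) (nat_lit 242) (nat_lit 5) (nat_lit 245) (nat_lit 5) (nat_lit 246) (nat_lit 5) (nat_lit 385) (nat_lit 367) (nat_lit 268)))) (XT.nd (nat_lit 156) (nat_lit 684) (nat_lit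 0) (XT.nd (nat_lit 78) (nat_lit 304) (nat_lit 0) (XT.lf (nat_lit 0) (nat_lit 29197770332) (nat_lit 228) (nat_lit 31897754914) (nat_lit 304) (nat_lit 12014003461) (nat_lit 239) (nat_lit 5) (nat_lit 242) (nat_lit 5) (nat_lit 243) (nat_lit 5) (nat_lit 386) (nat_lit 367) (nat_lit 267)) (XT.lf (nat_lit 0) (nat_lit 12954545605) (nat_lit 304) (nat_lit 49333620130) (nat_lit 76) (nat_lit 14312864335) (nat_lit 235) (nat_lit 5) (nat_lit 239) (nat_lit 5) (nat_lit 236) (nat_lit 5) (nat_lit 387) (nat_lit 367) (nat_lit 266))) (XT.nd (nat_lit 78) (nat_lit 456) (nat_lit 0) (XT.lf (nat_lit 0) (nat_lit 25431425171) (nat_lit 228) (nat_lit 15782979602) (nat_lit 304) (nat_lit 39061862308) (nat_lit 232) (nat_lit 5) (nat_lit 235) (nat_lit 5) (nat_lit 236) (nat_lit 5) (nat_lit 388) (nat_lit 367) (nat_lit 265)) (XT.nd (nat_lit 78) (nat_lit 304) (nat_lit 0) (XT.lf (nat_lit 0) (nat_lit 23946550744) (nat_lit 152) (nat_lit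 49570456464) (nat_lit 228) (nat_lit 10639418117) (nat_lit 230) (nat_lit 5) (nat_lit 232) (nat_lit 5) (nat_lit 233) (nat_lit 5) (nat_lit 389) (nat_lit 367) (nat_lit 264)) (XT.lf (nat_lit 0) (nat_lit 21034004556) (nat_lit 304) (nat_lit 65448731176) (nat_lit 76) (nat_lit 1767647014) (nat_lit 226) (nat_lit 5) (nat_lit 230) (nat_lit 5) (nat_lit 227) (nat_lit 5) (nat_lit 390) (nat_lit 367) (nat_lit 263))))))))
noncomputable def xc167 : XT := (XT.nd (nat_lit 1248) (nat_lit 1900) (nat_lit 0) (XT.nd (nat_lit 624) (nat_lit 1216) (nat_lit 0) (XT.nd (nat_lit 312) (nat_lit 684) (nat_lit 0) (XT.nd (nat_lit 156) (nat_lit 304) (nat_lit 0) (XT.nd (nat_lit 78) (nat_lit 228) (nat_lit 0) (XT.lf (nat_lit 0) (nat_lit 21640281957) (nat_lit 152) (nat_lit 35470096567) (nat_lit 228) (nat_lit 35440665858) (nat_lit 224) (nat_lit 5) (nat_lit 226) (nat_lit 5) (nat_lit 227) (nat_lit 5) (nat_lit 391) (nat_lit 367) (nat_lit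 262)) (XT.lf (nat_lit 0) (nat_lit 736533209) (nat_lit 228) (nat_lit 75872777725) (nat_lit 76) (nat_lit 20496150091) (nat_lit 221) (nat_lit 5) (nat_lit 224) (nat_lit 5) (nat_lit 222) (nat_lit 5) (nat_lit 392) (nat_lit 367) (nat_lit 261))) (XT.nd (nat_lit 78) (nat_lit 152) (nat_lit 0) (XT.lf (nat_lit 0) (nat_lit 20761440201) (nat_lit 152) (nat_lit 19996436338) (nat_lit 228) (nat_lit 61127722903) (nat_lit 219) (nat_lit 5) (nat_lit 221) (nat_lit 5) (nat_lit 222) (nat_lit 5) (nat_lit 393) (nat_lit 367) (nat_lit 260)) (XT.lf (nat_lit 0) (nat_lit 20852713937) (nat_lit 152) (nat_lit 65436936823) (nat_lit 228) (nat_lit 20643061999) (nat_lit 217) (nat_lit 5) (nat_lit 219) (nat_lit 5) (nat_lit 220) (nat_lit 5) (nat_lit 394) (nat_lit 367) (nat_lit 259)))) (XT.nd (nat_lit 156) (nat_lit 304) (nat_lit 0) (XT.nd (nat_lit 78) (nat_lit 152) (nat_lit 0) (XT.lf (nat_lit 0) (nat_lit 21536057698) (nat_lit 152) (nat_lit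 2912830778) (nat_lit 228) (nat_lit 87811327567) (nat_lit 214) (nat_lit 5) (nat_lit 216) (nat_lit 5) (nat_lit 217) (nat_lit 5) (nat_lit 395) (nat_lit 367) (nat_lit 258)) (XT.lf (nat_lit 0) (nat_lit 22221967536) (nat_lit 152) (nat_lit 53090058523) (nat_lit 228) (nat_lit 42540619816) (nat_lit 212) (nat_lit 5) (nat_lit 214) (nat_lit 5) (nat_lit 215) (nat_lit 5) (nat_lit 396) (nat_lit 367) (nat_lit 257))) (XT.nd (nat_lit 78) (nat_lit 152) (nat_lit 0) (XT.lf (nat_lit 0) (nat_lit 8430321519) (nat_lit 152) (nat_lit 99809254852) (nat_lit 76) (nat_lit 15533841674) (nat_lit 210) (nat_lit 5) (nat_lit 212) (nat_lit 5) (nat_lit 211) (nat_lit 5) (nat_lit 397) (nat_lit 367) (nat_lit 256)) (XT.lf (nat_lit 0) (nat_lit 25633627788) (nat_lit 152) (nat_lit 39361137317) (nat_lit 228) (nat_lit 64987905371) (nat_lit 208) (nat_lit 5) (nat_lit 210) (nat_lit 5) (nat_lit 211) (nat_lit 5) (nat_lit 398) (nat_lit 367) (nat_lit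 255))))) (XT.nd (nat_lit 312) (nat_lit 608) (nat_lit 0) (XT.nd (nat_lit 156) (nat_lit 304) (nat_lit 0) (XT.nd (nat_lit 78) (nat_lit 228) (nat_lit 0) (XT.lf (nat_lit 0) (nat_lit 28404225636) (nat_lit 76) (nat_lit 100435457057) (nat_lit 152) (nat_lit 7711214482) (nat_lit 207) (nat_lit 5) (nat_lit 208) (nat_lit 5) (nat_lit 209) (nat_lit 4) (nat_lit 399) (nat_lit 367) (nat_lit 254)) (XT.lf (nat_lit 0) (nat_lit 31413076683) (nat_lit 152) (nat_lit 24001034512) (nat_lit 228) (nat_lit 88038222955) (nat_lit 204) (nat_lit 5) (nat_lit 206) (nat_lit 5) (nat_lit 207) (nat_lit 5) (nat_lit 400) (nat_lit 367) (nat_lit 253))) (XT.nd (nat_lit 78) (nat_lit 228) (nat_lit 0) (XT.lf (nat_lit 0) (nat_lit 35236904862) (nat_lit 76) (nat_lit 91462977097) (nat_lit 152) (nat_lit 24030654334) (nat_lit 203) (nat_lit 5) (nat_lit 204) (nat_lit 5) (nat_lit 205) (nat_lit 4) (nat_lit 401) (nat_lit 367) (nat_lit 252)) (XT.lf (nat_lit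 0) (nat_lit 39936470467) (nat_lit 152) (nat_lit 6727571853) (nat_lit 228) (nat_lit 111741251114) (nat_lit 200) (nat_lit 5) (nat_lit 202) (nat_lit 5) (nat_lit 203) (nat_lit 5) (nat_lit 402) (nat_lit 367) (nat_lit 251)))) (XT.nd (nat_lit 156) (nat_lit 304) (nat_lit 0) (XT.nd (nat_lit 78) (nat_lit 228) (nat_lit 0) (XT.lf (nat_lit 0) (nat_lit 45006844287) (nat_lit 76) (nat_lit 81246177795) (nat_lit 152) (nat_lit 40217280584) (nat_lit 199) (nat_lit 5) (nat_lit 200) (nat_lit 5) (nat_lit 201) (nat_lit 4) (nat_lit 403) (nat_lit 367) (nat_lit 250)) (XT.lf (nat_lit 0) (nat_lit 39058283998) (nat_lit 228) (nat_lit 123562705530) (nat_lit 76) (nat_lit 12369875937) (nat_lit 196) (nat_lit 5) (nat_lit 199) (nat_lit 5) (nat_lit 197) (nat_lit 4) (nat_lit 404) (nat_lit 367) (nat_lit 249))) (XT.nd (nat_lit 78) (nat_lit 228) (nat_lit 0) (XT.lf (nat_lit 0) (nat_lit 58177176871) (nat_lit 76) (nat_lit 69535545452) (nat_lit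 152) (nat_lit 56225093672) (nat_lit 195) (nat_lit 5) (nat_lit 196) (nat_lit 5) (nat_lit 197) (nat_lit 4) (nat_lit 405) (nat_lit 367) (nat_lit 248)) (XT.lf (nat_lit 0) (nat_lit 32680167700) (nat_lit 228) (nat_lit 126944220911) (nat_lit 76) (nat_lit 33763982387) (nat_lit 192) (nat_lit 5) (nat_lit 195) (nat_lit 5) (nat_lit 193) (nat_lit 4) (nat_lit 406) (nat_lit 367) (nat_lit 247)))))) (XT.nd (nat_lit 624) (nat_lit 988) (nat_lit 0) (XT.nd (nat_lit 312) (nat_lit 456) (nat_lit 0) (XT.nd (nat_lit 156) (nat_lit 228) (nat_lit 0) (XT.nd (nat_lit 78) (nat_lit 152) (nat_lit 0) (XT.lf (nat_lit 0) (nat_lit 75280588559) (nat_lit 76) (nat_lit 56046511210) (nat_lit 152) (nat_lit 71991829331) (nat_lit 191) (nat_lit 5) (nat_lit 192) (nat_lit 5) (nat_lit 193) (nat_lit 4) (nat_lit 407) (nat_lit 367) (nat_lit 246)) (XT.lf (nat_lit 0) (nat_lit 27594679586) (nat_lit 152) (nat_lit 128136872030) (nat_lit 76) (nat_lit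 58067020281) (nat_lit 189) (nat_lit 5) (nat_lit 191) (nat_lit 5) (nat_lit 190) (nat_lit 4) (nat_lit 408) (nat_lit 367) (nat_lit 245))) (XT.nd (nat_lit 78) (nat_lit 152) (nat_lit 0) (XT.lf (nat_lit 0) (nat_lit 96928694440) (nat_lit 76) (nat_lit 40454624476) (nat_lit 152) (nat_lit 87436384871) (nat_lit 188) (nat_lit 5) (nat_lit 189) (nat_lit 5) (nat_lit 190) (nat_lit 4) (nat_lit 409) (nat_lit 367) (nat_lit 244)) (XT.lf (nat_lit 0) (nat_lit 24002708335) (nat_lit 152) (nat_lit 126706989571) (nat_lit 76) (nat_lit 85728527341) (nat_lit 186) (nat_lit 5) (nat_lit 188) (nat_lit 5) (nat_lit 187) (nat_lit 4) (nat_lit 410) (nat_lit 367) (nat_lit 243)))) (XT.nd (nat_lit 156) (nat_lit 228) (nat_lit 0) (XT.nd (nat_lit 78) (nat_lit 152) (nat_lit 0) (XT.lf (nat_lit 0) (nat_lit 123822635548) (nat_lit 76) (nat_lit 22390101732) (nat_lit 152) (nat_lit 102455864311) (nat_lit 185) (nat_lit 5) (nat_lit 186) (nat_lit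 5) (nat_lit 187) (nat_lit 4) (nat_lit 411) (nat_lit 367) (nat_lit 242)) (XT.lf (nat_lit 0) (nat_lit 22140316315) (nat_lit 152) (nat_lit 122149819072) (nat_lit 76) (nat_lit 117257502579) (nat_lit 183) (nat_lit 5) (nat_lit 185) (nat_lit 5) (nat_lit 184) (nat_lit 4) (nat_lit 412) (nat_lit 367) (nat_lit 241))) (XT.nd (nat_lit 78) (nat_lit 152) (nat_lit 0) (XT.lf (nat_lit 0) (nat_lit 156765049542) (nat_lit 76) (nat_lit 1431672342) (nat_lit 152) (nat_lit 116922190905) (nat_lit 182) (nat_lit 5) (nat_lit 183) (nat_lit 5) (nat_lit 184) (nat_lit 4) (nat_lit 413) (nat_lit 367) (nat_lit 240)) (XT.lf (nat_lit 0) (nat_lit 22283631106) (nat_lit 152) (nat_lit 113879448250) (nat_lit 76) (nat_lit 153230140605) (nat_lit 180) (nat_lit 5) (nat_lit 182) (nat_lit 5) (nat_lit 181) (nat_lit 4) (nat_lit 414) (nat_lit 367) (nat_lit 239))))) (XT.nd (nat_lit 312) (nat_lit 532) (nat_lit 0) (XT.nd (nat_lit 156) (nat_lit 228)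 (nat_lit 0) (XT.nd (nat_lit 78) (nat_lit 152) (nat_lit 0) (XT.lf (nat_lit 0) (nat_lit 174130759496) (nat_lit 152) (nat_lit 108135401104) (nat_lit 0) (nat_lit 22167412014) (nat_lit 179) (nat_lit 5) (nat_lit 181) (nat_lit 4) (nat_lit 179) (nat_lit 4) (nat_lit 415) (nat_lit 367) (nat_lit 238)) (XT.lf (nat_lit 0) (nat_lit 24754396186) (nat_lit 152) (nat_lit 101217384540) (nat_lit 76) (nat_lit 194298534120) (nat_lit 177) (nat_lit 5) (nat_lit 179) (nat_lit 5) (nat_lit 178) (nat_lit 4) (nat_lit 416) (nat_lit 367) (nat_lit 237))) (XT.nd (nat_lit 78) (nat_lit 152) (nat_lit 0) (XT.lf (nat_lit 0) (nat_lit 194242808501) (nat_lit 152) (nat_lit 93179988789) (nat_lit 0) (nat_lit 49514803475) (nat_lit 176) (nat_lit 5) (nat_lit 178) (nat_lit 4) (nat_lit 176) (nat_lit 4) (nat_lit 417) (nat_lit 367) (nat_lit 236)) (XT.lf (nat_lit 0) (nat_lit 29926265207) (nat_lit 152) (nat_lit 83379609812) (nat_lit 76) (nat_lit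 241200463387) (nat_lit 174) (nat_lit 5) (nat_lit 176) (nat_lit 5) (nat_lit 175) (nat_lit 4) (nat_lit 418) (nat_lit 367) (nat_lit 235)))) (XT.nd (nat_lit 156) (nat_lit 304) (nat_lit 0) (XT.nd (nat_lit 78) (nat_lit 152) (nat_lit 0) (XT.lf (nat_lit 0) (nat_lit 219094539361) (nat_lit 152) (nat_lit 72624708101) (nat_lit 0) (nat_lit 81257521524) (nat_lit 173) (nat_lit 5) (nat_lit 175) (nat_lit 4) (nat_lit 173) (nat_lit 4) (nat_lit 419) (nat_lit 367) (nat_lit 234)) (XT.lf (nat_lit 0) (nat_lit 38231934825) (nat_lit 152) (nat_lit 59461917619) (nat_lit 76) (nat_lit 294770405848) (nat_lit 171) (nat_lit 5) (nat_lit 173) (nat_lit 5) (nat_lit 172) (nat_lit 4) (nat_lit 420) (nat_lit 367) (nat_lit 233))) (XT.nd (nat_lit 78) (nat_lit 228) (nat_lit 0) (XT.lf (nat_lit 0) (nat_lit 249353129428) (nat_lit 152) (nat_lit 45500917839) (nat_lit 0) (nat_lit 118079107464) (nat_lit 170) (nat_lit 5) (nat_lit 172) (nat_lit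 4) (nat_lit 170) (nat_lit 4) (nat_lit 421) (nat_lit 367) (nat_lit 232)) (XT.nd (nat_lit 78) (nat_lit 76) (nat_lit 0) (XT.lf (nat_lit 0) (nat_lit 50171222875) (nat_lit 152) (nat_lit 28423314055) (nat_lit 76) (nat_lit 355951915132) (nat_lit 168) (nat_lit 5) (nat_lit 170) (nat_lit 5) (nat_lit 169) (nat_lit 4) (nat_lit 422) (nat_lit 367) (nat_lit 231)) (XT.lf (nat_lit 0) (nat_lit 285779742441) (nat_lit 152) (nat_lit 10694261836) (nat_lit 0) (nat_lit 160756315975) (nat_lit 167) (nat_lit 5) (nat_lit 169) (nat_lit 4) (nat_lit 167) (nat_lit 4) (nat_lit 423) (nat_lit 367) (nat_lit 230))))))))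
noncomputable def xc168 : XT := (XT.nd (nat_lit 1248) (nat_lit 912) (nat_lit 0) (XT.nd (nat_lit 624) (nat_lit 912) (nat_lit 0) (XT.nd (nat_lit 312) (nat_lit 456) (nat_lit 0) (XT.nd (nat_lit 156) (nat_lit 228) (nat_lit 0) (XT.nd (nat_lit 78) (nat_lit 76) (nat_lit 0) (XT.lf (nat_lit 0) (nat_lit 11294250475) (nat_lit 76) (nat_lit 55202296387) (nat_lit 152) (nat_lit 414693621106) (nat_lit 164) (nat_lit 5) (nat_lit 165) (nat_lit 5) (nat_lit 166) (nat_lit 4) (nat_lit 424) (nat_lit 367) (nat_lit 229)) (XT.lf (nat_lit 0) (nat_lit 34168903758) (nat_lit 76) (nat_lit 295606308030) (nat_lit 76) (nat_lit 176535930282) (nat_lit 163) (nat_lit 4) (nat_lit 164) (nat_lit 5) (nat_lit 164) (nat_lit 4) (nat_lit 425) (nat_lit 367) (nat_lit 228))) (XT.nd (nat_lit 78) (nat_lit 76) (nat_lit 0) (XT.lf (nat_lit 0) (nat_lit 61962888809) (nat_lit 76) (nat_lit 26346118941) (nat_lit 152) (nat_lit 444558972908) (nat_lit 161)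 (nat_lit 5) (nat_lit 162) (nat_lit 5) (nat_lit 163) (nat_lit 4) (nat_lit 426) (nat_lit 367) (nat_lit 227)) (XT.lf (nat_lit 0) (nat_lit 90161719383) (nat_lit 76) (nat_lit 291972397007) (nat_lit 76) (nat_lit 178571671629) (nat_lit 160) (nat_lit 4) (nat_lit 161) (nat_lit 5) (nat_lit 161) (nat_lit 4) (nat_lit 427) (nat_lit 367) (nat_lit 226)))) (XT.nd (nat_lit 156) (nat_lit 228) (nat_lit 0) (XT.nd (nat_lit 78) (nat_lit 76) (nat_lit 0) (XT.lf (nat_lit 0) (nat_lit 116066644796) (nat_lit 152) (nat_lit 466010777970) (nat_lit 0) (nat_lit 8065798952) (nat_lit 158) (nat_lit 5) (nat_lit 160) (nat_lit 4) (nat_lit 158) (nat_lit 4) (nat_lit 428) (nat_lit 367) (nat_lit 225)) (XT.lf (nat_lit 0) (nat_lit 158668187274) (nat_lit 76) (nat_lit 285165687743) (nat_lit 76) (nat_lit 177164698374) (nat_lit 157) (nat_lit 4) (nat_lit 158) (nat_lit 5) (nat_lit 158) (nat_lit 4) (nat_lit 429) (nat_lit 367) (nat_lit 224))) (XT.nd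 (nat_lit 78) (nat_lit 76) (nat_lit 0) (XT.lf (nat_lit 0) (nat_lit 151058182340) (nat_lit 152) (nat_lit 454344630623) (nat_lit 0) (nat_lit 48199970661) (nat_lit 155) (nat_lit 5) (nat_lit 157) (nat_lit 4) (nat_lit 155) (nat_lit 4) (nat_lit 430) (nat_lit 367) (nat_lit 223)) (XT.lf (nat_lit 0) (nat_lit 241676468087) (nat_lit 76) (nat_lit 274504754323) (nat_lit 76) (nat_lit 171646425455) (nat_lit 154) (nat_lit 4) (nat_lit 155) (nat_lit 5) (nat_lit 155) (nat_lit 4) (nat_lit 431) (nat_lit 367) (nat_lit 222))))) (XT.nd (nat_lit 312) (nat_lit 456) (nat_lit 0) (XT.nd (nat_lit 156) (nat_lit 228) (nat_lit 0) (XT.nd (nat_lit 78) (nat_lit 76) (nat_lit 0) (XT.lf (nat_lit 0) (nat_lit 193921618004) (nat_lit 152) (nat_lit 434055582051) (nat_lit 0) (nat_lit 95961201453) (nat_lit 152) (nat_lit 5) (nat_lit 154) (nat_lit 4) (nat_lit 152) (nat_lit 4) (nat_lit 432) (nat_lit 367) (nat_lit 221)) (XT.lf (nat_lit 0) (nat_lit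 341458885829) (nat_lit 76) (nat_lit 259201012822) (nat_lit 76) (nat_lit 161240500584) (nat_lit 151) (nat_lit 4) (nat_lit 152) (nat_lit 5) (nat_lit 152) (nat_lit 4) (nat_lit 433) (nat_lit 367) (nat_lit 220))) (XT.nd (nat_lit 78) (nat_lit 76) (nat_lit 0) (XT.lf (nat_lit 0) (nat_lit 245856749024) (nat_lit 152) (nat_lit 403476349934) (nat_lit 0) (nat_lit 152560938703) (nat_lit 149) (nat_lit 5) (nat_lit 151) (nat_lit 4) (nat_lit 149) (nat_lit 4) (nat_lit 434) (nat_lit 367) (nat_lit 219)) (XT.lf (nat_lit 0) (nat_lit 460609861551) (nat_lit 76) (nat_lit 238343498285) (nat_lit 76) (nat_lit 145047609834) (nat_lit 148) (nat_lit 4) (nat_lit 149) (nat_lit 5) (nat_lit 149) (nat_lit 4) (nat_lit 435) (nat_lit 367) (nat_lit 218)))) (XT.nd (nat_lit 156) (nat_lit 228) (nat_lit 0) (XT.nd (nat_lit 78) (nat_lit 76) (nat_lit 0) (XT.lf (nat_lit 0) (nat_lit 308233819318) (nat_lit 152) (nat_lit 360680005644) (nat_lit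 0) (nat_lit 219380523324) (nat_lit 146) (nat_lit 5) (nat_lit 148) (nat_lit 4) (nat_lit 146) (nat_lit 4) (nat_lit 436) (nat_lit 367) (nat_lit 217)) (XT.lf (nat_lit 0) (nat_lit 602088716540) (nat_lit 76) (nat_lit 210881616187) (nat_lit 76) (nat_lit 122028256399) (nat_lit 145) (nat_lit 4) (nat_lit 146) (nat_lit 5) (nat_lit 146) (nat_lit 4) (nat_lit 437) (nat_lit 367) (nat_lit 216))) (XT.nd (nat_lit 78) (nat_lit 76) (nat_lit 0) (XT.lf (nat_lit 0) (nat_lit 382616066535) (nat_lit 152) (nat_lit 303443612605) (nat_lit 0) (nat_lit 297993762862) (nat_lit 143) (nat_lit 5) (nat_lit 145) (nat_lit 4) (nat_lit 143) (nat_lit 4) (nat_lit 438) (nat_lit 367) (nat_lit 215)) (XT.lf (nat_lit 0) (nat_lit 769267952676) (nat_lit 76) (nat_lit 175605608966) (nat_lit 76) (nat_lit 90983253204) (nat_lit 142) (nat_lit 4) (nat_lit 143) (nat_lit 5) (nat_lit 143) (nat_lit 4) (nat_lit 439) (nat_lit 367) (nat_lit 214)))))) (XT.nd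 (nat_lit 47580) (nat_lit 0) (nat_lit 11400) (XT.nd (nat_lit 312) (nat_lit 380) (nat_lit 0) (XT.nd (nat_lit 156) (nat_lit 304) (nat_lit 0) (XT.nd (nat_lit 78) (nat_lit 76) (nat_lit 0) (XT.lf (nat_lit 0) (nat_lit 470785151729) (nat_lit 152) (nat_lit 229207052602) (nat_lit 0) (nat_lit 390192386022) (nat_lit 140) (nat_lit 5) (nat_lit 142) (nat_lit 4) (nat_lit 140) (nat_lit 4) (nat_lit 440) (nat_lit 367) (nat_lit 213)) (XT.lf (nat_lit 0) (nat_lit 965987691930) (nat_lit 76) (nat_lit 131124445915) (nat_lit 76) (nat_lit 50531637677) (nat_lit 139) (nat_lit 4) (nat_lit 140) (nat_lit 5) (nat_lit 140) (nat_lit 4) (nat_lit 441) (nat_lit 367) (nat_lit 212))) (XT.nd (nat_lit 78) (nat_lit 152) (nat_lit 0) (XT.lf (nat_lit 0) (nat_lit 574769830053) (nat_lit 152) (nat_lit 135026426740) (nat_lit 0) (nat_lit 498014737083) (nat_lit 137) (nat_lit 5) (nat_lit 139) (nat_lit 4) (nat_lit 137) (nat_lit 4) (nat_lit 442)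 (nat_lit 367) (nat_lit 211)) (XT.lf (nat_lit 0) (nat_lit 885055306) (nat_lit 152) (nat_lit 74940764318) (nat_lit 76) (nat_lit 1195716996146) (nat_lit 135) (nat_lit 5) (nat_lit 137) (nat_lit 5) (nat_lit 136) (nat_lit 4) (nat_lit 443) (nat_lit 367) (nat_lit 210)))) (XT.nd (nat_lit 156) (nat_lit 76) (nat_lit 0) (XT.nd (nat_lit 78) (nat_lit 228) (nat_lit 0) (XT.lf (nat_lit 0) (nat_lit 696878264652) (nat_lit 152) (nat_lit 17521341582) (nat_lit 0) (nat_lit 623778112412) (nat_lit 134) (nat_lit 5) (nat_lit 136) (nat_lit 4) (nat_lit 134) (nat_lit 4) (nat_lit 444) (nat_lit 367) (nat_lit 209)) (XT.lf (nat_lit 0) (nat_lit 58096423068) (nat_lit 76) (nat_lit 5901920182) (nat_lit 152) (nat_lit 1344774082719) (nat_lit 131) (nat_lit 5) (nat_lit 132) (nat_lit 5) (nat_lit 133) (nat_lit 4) (nat_lit 445) (nat_lit 367) (nat_lit 208))) (XT.nd (nat_lit 47034) (nat_lit 0) (nat_lit 12312) (XT.lf (nat_lit 0) (nat_lit 131389994883)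 (nat_lit 76) (nat_lit 710395806022) (nat_lit 76) (nat_lit 640776561403) (nat_lit 130) (nat_lit 4) (nat_lit 131) (nat_lit 5) (nat_lit 131) (nat_lit 4) (nat_lit 446) (nat_lit 367) (nat_lit 207)) (XT.lf (nat_lit 0) (nat_lit 7868449539) (nat_lit 836) (nat_lit 4825858097) (nat_lit 836) (nat_lit 4825858097) (nat_lit 292) (nat_lit 3) (nat_lit 303) (nat_lit 3) (nat_lit 303) (nat_lit 5) (nat_lit 368) (nat_lit 368) (nat_lit 284))))) (XT.nd (nat_lit 312) (nat_lit 988) (nat_lit 0) (XT.nd (nat_lit 156) (nat_lit 0) (nat_lit 76) (XT.nd (nat_lit 78) (nat_lit 0) (nat_lit 0) (XT.lf (nat_lit 0) (nat_lit 16780465308) (nat_lit 760) (nat_lit 17470532912) (nat_lit 836) (nat_lit 2170241992) (nat_lit 293) (nat_lit 5) (nat_lit 303) (nat_lit 5) (nat_lit 304) (nat_lit 5) (nat_lit 369) (nat_lit 368) (nat_lit 283)) (XT.lf (nat_lit 76) (nat_lit 12237633918) (nat_lit 0) (nat_lit 6451650249) (nat_lit 836) (nat_lit 19184249123)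 (nat_lit 294) (nat_lit 5) (nat_lit 293) (nat_lit 5) (nat_lit 304) (nat_lit 5) (nat_lit 370) (nat_lit 368) (nat_lit 282))) (XT.nd (nat_lit 78) (nat_lit 0) (nat_lit 76) (XT.lf (nat_lit 76) (nat_lit 5311335913) (nat_lit 0) (nat_lit 16192039356) (nat_lit 836) (nat_lit 17901006210) (nat_lit 295) (nat_lit 5) (nat_lit 294) (nat_lit 5) (nat_lit 305) (nat_lit 5) (nat_lit 371) (nat_lit 368) (nat_lit 281)) (XT.lf (nat_lit 0) (nat_lit 25314490112) (nat_lit 760) (nat_lit 1723419022) (nat_lit 836) (nat_lit 13981193565) (nat_lit 295) (nat_lit 5) (nat_lit 305) (nat_lit 5) (nat_lit 306) (nat_lit 5) (nat_lit 372) (nat_lit 368) (nat_lit 280)))) (XT.nd (nat_lit 156) (nat_lit 1216) (nat_lit 0) (XT.nd (nat_lit 78) (nat_lit 0) (nat_lit 0) (XT.lf (nat_lit 0) (nat_lit 30288091471) (nat_lit 760) (nat_lit 8735198454) (nat_lit 836) (nat_lit 3696831826) (nat_lit 296) (nat_lit 5) (nat_lit 306) (nat_lit 5) (nat_lit 307) (nat_lit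 5) (nat_lit 373) (nat_lit 368) (nat_lit 279)) (XT.lf (nat_lit 76) (nat_lit 28506673739) (nat_lit 0) (nat_lit 8078204571) (nat_lit 836) (nat_lit 7926079148) (nat_lit 297) (nat_lit 5) (nat_lit 296) (nat_lit 5) (nat_lit 307) (nat_lit 5) (nat_lit 374) (nat_lit 368) (nat_lit 278))) (XT.nd (nat_lit 78) (nat_lit 532) (nat_lit 0) (XT.lf (nat_lit 0) (nat_lit 22933057538) (nat_lit 760) (nat_lit 21354927847) (nat_lit 836) (nat_lit 2111945773) (nat_lit 287) (nat_lit 5) (nat_lit 297) (nat_lit 5) (nat_lit 298) (nat_lit 5) (nat_lit 375) (nat_lit 368) (nat_lit 277)) (XT.lf (nat_lit 0) (nat_lit 4920069140) (nat_lit 532) (nat_lit 31122323051) (nat_lit 76) (nat_lit 12350070832) (nat_lit 280) (nat_lit 5) (nat_lit 287) (nat_lit 5) (nat_lit 281) (nat_lit 5) (nat_lit 376) (nat_lit 368) (nat_lit 276)))))))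
noncomputable def xc169 : XT := (XT.nd (nat_lit 1248) (nat_lit 2660) (nat_lit 0) (XT.nd (nat_lit 624) (nat_lit 1976) (nat_lit 0) (XT.nd (nat_lit 312) (nat_lit 1216) (nat_lit 0) (XT.nd (nat_lit 156) (nat_lit 304) (nat_lit 0) (XT.nd (nat_lit 78) (nat_lit 380) (nat_lit 0) (XT.lf (nat_lit 0) (nat_lit 11542013564) (nat_lit 380) (nat_lit 1850199904) (nat_lit 456) (nat_lit 37102874841) (nat_lit 275) (nat_lit 5) (nat_lit 280) (nat_lit 5) (nat_lit 281) (nat_lit 5) (nat_lit 377) (nat_lit 368) (nat_lit 275)) (XT.lf (nat_lit 0) (nat_lit 5609878559) (nat_lit 380) (nat_lit 18113623842) (nat_lit 456) (nat_lit 28983352563) (nat_lit 270) (nat_lit 5) (nat_lit 275) (nat_lit 5) (nat_lit 276) (nat_lit 5) (nat_lit 378) (nat_lit 368) (nat_lit 274))) (XT.nd (nat_lit 78) (nat_lit 304) (nat_lit 0) (XT.lf (nat_lit 0) (nat_lit 35890463710) (nat_lit 456) (nat_lit 273182872) (nat_lit 76) (nat_lit 18881457908) (nat_lit 270)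 (nat_lit 5) (nat_lit 276) (nat_lit 5) (nat_lit 271) (nat_lit 5) (nat_lit 379) (nat_lit 368) (nat_lit 273)) (XT.lf (nat_lit 0) (nat_lit 50161607800) (nat_lit 380) (nat_lit 5899413026) (nat_lit 76) (nat_lit 1452851858) (nat_lit 266) (nat_lit 5) (nat_lit 271) (nat_lit 5) (nat_lit 267) (nat_lit 5) (nat_lit 380) (nat_lit 368) (nat_lit 272)))) (XT.nd (nat_lit 156) (nat_lit 532) (nat_lit 0) (XT.nd (nat_lit 78) (nat_lit 304) (nat_lit 0) (XT.lf (nat_lit 0) (nat_lit 6610583587) (nat_lit 380) (nat_lit 11800435802) (nat_lit 76) (nat_lit 41695465244) (nat_lit 261) (nat_lit 5) (nat_lit 266) (nat_lit 5) (nat_lit 262) (nat_lit 5) (nat_lit 381) (nat_lit 368) (nat_lit 271)) (XT.lf (nat_lit 0) (nat_lit 22609782853) (nat_lit 380) (nat_lit 17739925873) (nat_lit 76) (nat_lit 22491924843) (nat_lit 257) (nat_lit 5) (nat_lit 262) (nat_lit 5) (nat_lit 258) (nat_lit 5) (nat_lit 382) (nat_lit 368) (nat_lit 270))) (XT.nd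 (nat_lit 78) (nat_lit 228) (nat_lit 0) (XT.lf (nat_lit 0) (nat_lit 41082005960) (nat_lit 380) (nat_lit 23529890032) (nat_lit 76) (nat_lit 1124044033) (nat_lit 253) (nat_lit 5) (nat_lit 258) (nat_lit 5) (nat_lit 254) (nat_lit 5) (nat_lit 383) (nat_lit 368) (nat_lit 269)) (XT.lf (nat_lit 0) (nat_lit 39302730341) (nat_lit 228) (nat_lit 23333879225) (nat_lit 304) (nat_lit 6144951300) (nat_lit 250) (nat_lit 5) (nat_lit 253) (nat_lit 5) (nat_lit 254) (nat_lit 5) (nat_lit 384) (nat_lit 368) (nat_lit 268))))) (XT.nd (nat_lit 312) (nat_lit 836) (nat_lit 0) (XT.nd (nat_lit 156) (nat_lit 532) (nat_lit 0) (XT.nd (nat_lit 78) (nat_lit 228) (nat_lit 0) (XT.lf (nat_lit 0) (nat_lit 14742601163) (nat_lit 380) (nat_lit 35456389243) (nat_lit 76) (nat_lit 21793984722) (nat_lit 245) (nat_lit 5) (nat_lit 250) (nat_lit 5) (nat_lit 246) (nat_lit 5) (nat_lit 385) (nat_lit 368) (nat_lit 267)) (XT.lf (nat_lit 0) (nat_lit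 34029488243) (nat_lit 228) (nat_lit 4502745944) (nat_lit 304) (nat_lit 36851713224) (nat_lit 242) (nat_lit 5) (nat_lit 245) (nat_lit 5) (nat_lit 246) (nat_lit 5) (nat_lit 386) (nat_lit 368) (nat_lit 266))) (XT.nd (nat_lit 78) (nat_lit 304) (nat_lit 0) (XT.lf (nat_lit 0) (nat_lit 31622416999) (nat_lit 228) (nat_lit 34421278160) (nat_lit 304) (nat_lit 12911569451) (nat_lit 239) (nat_lit 5) (nat_lit 242) (nat_lit 5) (nat_lit 243) (nat_lit 5) (nat_lit 387) (nat_lit 368) (nat_lit 265)) (XT.lf (nat_lit 0) (nat_lit 14049675654) (nat_lit 304) (nat_lit 53190929572) (nat_lit 76) (nat_lit 15485568929) (nat_lit 235) (nat_lit 5) (nat_lit 239) (nat_lit 5) (nat_lit 236) (nat_lit 5) (nat_lit 388) (nat_lit 368) (nat_lit 264)))) (XT.nd (nat_lit 156) (nat_lit 456) (nat_lit 0) (XT.nd (nat_lit 78) (nat_lit 152) (nat_lit 0) (XT.lf (nat_lit 0) (nat_lit 27551435000) (nat_lit 228) (nat_lit 17015870318) (nat_lit 304)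 (nat_lit 42128275722) (nat_lit 232) (nat_lit 5) (nat_lit 235) (nat_lit 5) (nat_lit 236) (nat_lit 5) (nat_lit 389) (nat_lit 368) (nat_lit 263)) (XT.lf (nat_lit 0) (nat_lit 25946277086) (nat_lit 152) (nat_lit 53505450921) (nat_lit 228) (nat_lit 11434543334) (nat_lit 230) (nat_lit 5) (nat_lit 232) (nat_lit 5) (nat_lit 233) (nat_lit 5) (nat_lit 390) (nat_lit 368) (nat_lit 262))) (XT.nd (nat_lit 78) (nat_lit 152) (nat_lit 0) (XT.lf (nat_lit 0) (nat_lit 22768701043) (nat_lit 304) (nat_lit 70600465014) (nat_lit 76) (nat_lit 1938648502) (nat_lit 226) (nat_lit 5) (nat_lit 230) (nat_lit 5) (nat_lit 227) (nat_lit 5) (nat_lit 391) (nat_lit 368) (nat_lit 261)) (XT.lf (nat_lit 0) (nat_lit 23452011476) (nat_lit 152) (nat_lit 38276580309) (nat_lit 228) (nat_lit 38224067000) (nat_lit 224) (nat_lit 5) (nat_lit 226) (nat_lit 5) (nat_lit 227) (nat_lit 5) (nat_lit 392) (nat_lit 368) (nat_lit 260)))))) (XT.nd (nat_lit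 624) (nat_lit 1368) (nat_lit 0) (XT.nd (nat_lit 312) (nat_lit 532) (nat_lit 0) (XT.nd (nat_lit 156) (nat_lit 380) (nat_lit 0) (XT.nd (nat_lit 78) (nat_lit 152) (nat_lit 0) (XT.lf (nat_lit 0) (nat_lit 843639877) (nat_lit 228) (nat_lit 81862101505) (nat_lit 76) (nat_lit 22165747324) (nat_lit 221) (nat_lit 5) (nat_lit 224) (nat_lit 5) (nat_lit 222) (nat_lit 5) (nat_lit 393) (nat_lit 368) (nat_lit 259)) (XT.lf (nat_lit 0) (nat_lit 22499355490) (nat_lit 152) (nat_lit 21564968184) (nat_lit 228) (nat_lit 65969832872) (nat_lit 219) (nat_lit 5) (nat_lit 221) (nat_lit 5) (nat_lit 222) (nat_lit 5) (nat_lit 394) (nat_lit 368) (nat_lit 258))) (XT.nd (nat_lit 78) (nat_lit 228) (nat_lit 0) (XT.lf (nat_lit 0) (nat_lit 22596310393) (nat_lit 152) (nat_lit 70640563263) (nat_lit 228) (nat_lit 22248253584) (nat_lit 217) (nat_lit 5) (nat_lit 219) (nat_lit 5) (nat_lit 220) (nat_lit 5) (nat_lit 395) (nat_lit 368) (nat_lit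 257)) (XT.lf (nat_lit 0) (nat_lit 23332461820) (nat_lit 152) (nat_lit 3114942041) (nat_lit 228) (nat_lit 94791499249) (nat_lit 214) (nat_lit 5) (nat_lit 216) (nat_lit 5) (nat_lit 217) (nat_lit 5) (nat_lit 396) (nat_lit 368) (nat_lit 256)))) (XT.nd (nat_lit 156) (nat_lit 228) (nat_lit 0) (XT.nd (nat_lit 78) (nat_lit 152) (nat_lit 0) (XT.lf (nat_lit 0) (nat_lit 24071625319) (nat_lit 152) (nat_lit 57306380743) (nat_lit 228) (nat_lit 45900800587) (nat_lit 212) (nat_lit 5) (nat_lit 214) (nat_lit 5) (nat_lit 215) (nat_lit 5) (nat_lit 397) (nat_lit 368) (nat_lit 255)) (XT.lf (nat_lit 0) (nat_lit 9144918371) (nat_lit 152) (nat_lit 107722390764) (nat_lit 76) (nat_lit 16805973797) (nat_lit 210) (nat_lit 5) (nat_lit 212) (nat_lit 5) (nat_lit 211) (nat_lit 5) (nat_lit 398) (nat_lit 368) (nat_lit 254))) (XT.nd (nat_lit 78) (nat_lit 76) (nat_lit 0) (XT.lf (nat_lit 0) (nat_lit 27752810643) (nat_lit 152) (nat_lit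 42479800523) (nat_lit 228) (nat_lit 70146759705) (nat_lit 208) (nat_lit 5) (nat_lit 210) (nat_lit 5) (nat_lit 211) (nat_lit 5) (nat_lit 399) (nat_lit 368) (nat_lit 253)) (XT.lf (nat_lit 0) (nat_lit 30743458378) (nat_lit 76) (nat_lit 108440310746) (nat_lit 152) (nat_lit 8289354234) (nat_lit 207) (nat_lit 5) (nat_lit 208) (nat_lit 5) (nat_lit 209) (nat_lit 4) (nat_lit 400) (nat_lit 368) (nat_lit 252))))) (XT.nd (nat_lit 312) (nat_lit 760) (nat_lit 0) (XT.nd (nat_lit 156) (nat_lit 304) (nat_lit 0) (XT.nd (nat_lit 78) (nat_lit 76) (nat_lit 0) (XT.lf (nat_lit 0) (nat_lit 33991296916) (nat_lit 152) (nat_lit 25891698620) (nat_lit 228) (nat_lit 95043737573) (nat_lit 204) (nat_lit 5) (nat_lit 206) (nat_lit 5) (nat_lit 207) (nat_lit 5) (nat_lit 401) (nat_lit 368) (nat_lit 251)) (XT.lf (nat_lit 0) (nat_lit 38119469694) (nat_lit 76) (nat_lit 98750928169) (nat_lit 152) (nat_lit 25916855066) (nat_lit 203)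 (nat_lit 5) (nat_lit 204) (nat_lit 5) (nat_lit 205) (nat_lit 4) (nat_lit 402) (nat_lit 368) (nat_lit 250))) (XT.nd (nat_lit 78) (nat_lit 76) (nat_lit 0) (XT.lf (nat_lit 0) (nat_lit 43193345882) (nat_lit 152) (nat_lit 7237279137) (nat_lit 228) (nat_lit 120645418924) (nat_lit 200) (nat_lit 5) (nat_lit 202) (nat_lit 5) (nat_lit 203) (nat_lit 5) (nat_lit 403) (nat_lit 368) (nat_lit 249)) (XT.lf (nat_lit 0) (nat_lit 48667831655) (nat_lit 76) (nat_lit 87717768657) (nat_lit 152) (nat_lit 43400709745) (nat_lit 199) (nat_lit 5) (nat_lit 200) (nat_lit 5) (nat_lit 201) (nat_lit 4) (nat_lit 404) (nat_lit 368) (nat_lit 248)))) (XT.nd (nat_lit 156) (nat_lit 456) (nat_lit 0) (XT.nd (nat_lit 78) (nat_lit 76) (nat_lit 0) (XT.lf (nat_lit 0) (nat_lit 42214726961) (nat_lit 228) (nat_lit 133387731137) (nat_lit 76) (nat_lit 13386087592) (nat_lit 196) (nat_lit 5) (nat_lit 199) (nat_lit 5) (nat_lit 197) (nat_lit 4)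 (nat_lit 405) (nat_lit 368) (nat_lit 247)) (XT.lf (nat_lit 0) (nat_lit 62888734727) (nat_lit 76) (nat_lit 75071327453) (nat_lit 152) (nat_lit 60691262991) (nat_lit 195) (nat_lit 5) (nat_lit 196) (nat_lit 5) (nat_lit 197) (nat_lit 4) (nat_lit 406) (nat_lit 368) (nat_lit 246))) (XT.nd (nat_lit 78) (nat_lit 228) (nat_lit 0) (XT.lf (nat_lit 0) (nat_lit 35324402629) (nat_lit 228) (nat_lit 137042836600) (nat_lit 76) (nat_lit 36490710374) (nat_lit 192) (nat_lit 5) (nat_lit 195) (nat_lit 5) (nat_lit 193) (nat_lit 4) (nat_lit 407) (nat_lit 368) (nat_lit 245)) (XT.nd (nat_lit 78) (nat_lit 152) (nat_lit 0) (XT.lf (nat_lit 0) (nat_lit 81357483868) (nat_lit 76) (nat_lit 60504246484) (nat_lit 152) (nat_lit 77721289947) (nat_lit 191) (nat_lit 5) (nat_lit 192) (nat_lit 5) (nat_lit 193) (nat_lit 4) (nat_lit 408) (nat_lit 368) (nat_lit 244)) (XT.lf (nat_lit 0) (nat_lit 29830263984) (nat_lit 152) (nat_lit 138333840478)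 (nat_lit 76) (nat_lit 62736952686) (nat_lit 189) (nat_lit 5) (nat_lit 191) (nat_lit 5) (nat_lit 190) (nat_lit 4) (nat_lit 409) (nat_lit 368) (nat_lit 243))))))))
noncomputable def xc170 : XT := (XT.nd (nat_lit 1248) (nat_lit 1900) (nat_lit 0) (XT.nd (nat_lit 624) (nat_lit 988) (nat_lit 0) (XT.nd (nat_lit 312) (nat_lit 456) (nat_lit 0) (XT.nd (nat_lit 156) (nat_lit 228) (nat_lit 0) (XT.nd (nat_lit 78) (nat_lit 152) (nat_lit 0) (XT.lf (nat_lit 0) (nat_lit 104734625348) (nat_lit 76) (nat_lit 43666100468) (nat_lit 152) (nat_lit 94403217205) (nat_lit 188) (nat_lit 5) (nat_lit 189) (nat_lit 5) (nat_lit 190) (nat_lit 4) (nat_lit 410) (nat_lit 368) (nat_lit 242)) (XT.lf (nat_lit 0) (nat_lit 25949255405) (nat_lit 152) (nat_lit 136792379603) (nat_lit 76) (nat_lit 92610331739) (nat_lit 186) (nat_lit 5) (nat_lit 188) (nat_lit 5) (nat_lit 187) (nat_lit 4) (nat_lit 411) (nat_lit 368) (nat_lit 241))) (XT.nd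 (nat_lit 78) (nat_lit 152) (nat_lit 0) (XT.lf (nat_lit 0) (nat_lit 133777391777) (nat_lit 76) (nat_lit 24157508663) (nat_lit 152) (nat_lit 110625932070) (nat_lit 185) (nat_lit 5) (nat_lit 186) (nat_lit 5) (nat_lit 187) (nat_lit 4) (nat_lit 412) (nat_lit 368) (nat_lit 240)) (XT.lf (nat_lit 0) (nat_lit 23936311041) (nat_lit 152) (nat_lit 131873320212) (nat_lit 76) (nat_lit 126660579279) (nat_lit 183) (nat_lit 5) (nat_lit 185) (nat_lit 5) (nat_lit 184) (nat_lit 4) (nat_lit 413) (nat_lit 368) (nat_lit 239)))) (XT.nd (nat_lit 156) (nat_lit 228) (nat_lit 0) (XT.nd (nat_lit 78) (nat_lit 152) (nat_lit 0) (XT.lf (nat_lit 0) (nat_lit 169352630818) (nat_lit 76) (nat_lit 1523487544) (nat_lit 152) (nat_lit 126251124513) (nat_lit 182) (nat_lit 5) (nat_lit 183) (nat_lit 5) (nat_lit 184) (nat_lit 4) (nat_lit 414) (nat_lit 368) (nat_lit 238)) (XT.lf (nat_lit 0) (nat_lit 24089637292) (nat_lit 152) (nat_lit 122943879135)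 (nat_lit 76) (nat_lit 165509995347) (nat_lit 180) (nat_lit 5) (nat_lit 182) (nat_lit 5) (nat_lit 181) (nat_lit 4) (nat_lit 415) (nat_lit 368) (nat_lit 237))) (XT.nd (nat_lit 78) (nat_lit 152) (nat_lit 0) (XT.lf (nat_lit 0) (nat_lit 188083832811) (nat_lit 152) (nat_lit 116741528427) (nat_lit 0) (nat_lit 23961766557) (nat_lit 179) (nat_lit 5) (nat_lit 181) (nat_lit 4) (nat_lit 179) (nat_lit 4) (nat_lit 416) (nat_lit 368) (nat_lit 236)) (XT.lf (nat_lit 0) (nat_lit 26756707249) (nat_lit 152) (nat_lit 109271287277) (nat_lit 76) (nat_lit 209862847539) (nat_lit 177) (nat_lit 5) (nat_lit 179) (nat_lit 5) (nat_lit 178) (nat_lit 4) (nat_lit 417) (nat_lit 368) (nat_lit 235))))) (XT.nd (nat_lit 312) (nat_lit 532) (nat_lit 0) (XT.nd (nat_lit 156) (nat_lit 228) (nat_lit 0) (XT.nd (nat_lit 78) (nat_lit 152) (nat_lit 0) (XT.lf (nat_lit 0) (nat_lit 209803537264) (nat_lit 152) (nat_lit 100592062564) (nat_lit 0)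 (nat_lit 53495943795) (nat_lit 176) (nat_lit 5) (nat_lit 178) (nat_lit 4) (nat_lit 176) (nat_lit 4) (nat_lit 418) (nat_lit 368) (nat_lit 234)) (XT.lf (nat_lit 0) (nat_lit 32341058264) (nat_lit 152) (nat_lit 90008808509) (nat_lit 76) (nat_lit 260515944112) (nat_lit 174) (nat_lit 5) (nat_lit 176) (nat_lit 5) (nat_lit 175) (nat_lit 4) (nat_lit 419) (nat_lit 368) (nat_lit 233))) (XT.nd (nat_lit 78) (nat_lit 152) (nat_lit 0) (XT.lf (nat_lit 0) (nat_lit 236642182587) (nat_lit 152) (nat_lit 78394621285) (nat_lit 0) (nat_lit 87777102629) (nat_lit 173) (nat_lit 5) (nat_lit 175) (nat_lit 4) (nat_lit 173) (nat_lit 4) (nat_lit 420) (nat_lit 368) (nat_lit 232)) (XT.lf (nat_lit 0) (nat_lit 41309995200) (nat_lit 152) (nat_lit 64179903731) (nat_lit 76) (nat_lit 318370524745) (nat_lit 171) (nat_lit 5) (nat_lit 173) (nat_lit 5) (nat_lit 172) (nat_lit 4) (nat_lit 421) (nat_lit 368) (nat_lit 231)))) (XT.nd (nat_lit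 156) (nat_lit 304) (nat_lit 0) (XT.nd (nat_lit 78) (nat_lit 152) (nat_lit 0) (XT.lf (nat_lit 0) (nat_lit 269320313347) (nat_lit 152) (nat_lit 49103076190) (nat_lit 0) (nat_lit 127543470895) (nat_lit 170) (nat_lit 5) (nat_lit 172) (nat_lit 4) (nat_lit 170) (nat_lit 4) (nat_lit 422) (nat_lit 368) (nat_lit 230)) (XT.lf (nat_lit 0) (nat_lit 54203314695) (nat_lit 152) (nat_lit 30660303658) (nat_lit 76) (nat_lit 384445630175) (nat_lit 168) (nat_lit 5) (nat_lit 170) (nat_lit 5) (nat_lit 169) (nat_lit 4) (nat_lit 423) (nat_lit 368) (nat_lit 229))) (XT.nd (nat_lit 78) (nat_lit 228) (nat_lit 0) (XT.lf (nat_lit 0) (nat_lit 308659980221) (nat_lit 152) (nat_lit 11513926920) (nat_lit 0) (nat_lit 173633945812) (nat_lit 167) (nat_lit 5) (nat_lit 169) (nat_lit 4) (nat_lit 167) (nat_lit 4) (nat_lit 424) (nat_lit 368) (nat_lit 228)) (XT.lf (nat_lit 0) (nat_lit 12233834598) (nat_lit 76) (nat_lit 59600349941) (nat_lit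 152) (nat_lit 447850301169) (nat_lit 164) (nat_lit 5) (nat_lit 165) (nat_lit 5) (nat_lit 166) (nat_lit 4) (nat_lit 425) (nat_lit 368) (nat_lit 227)))))) (XT.nd (nat_lit 624) (nat_lit 988) (nat_lit 0) (XT.nd (nat_lit 312) (nat_lit 456) (nat_lit 0) (XT.nd (nat_lit 156) (nat_lit 228) (nat_lit 0) (XT.nd (nat_lit 78) (nat_lit 152) (nat_lit 0) (XT.lf (nat_lit 0) (nat_lit 36937479721) (nat_lit 76) (nat_lit 319237145518) (nat_lit 76) (nat_lit 190640538372) (nat_lit 163) (nat_lit 4) (nat_lit 164) (nat_lit 5) (nat_lit 164) (nat_lit 4) (nat_lit 426) (nat_lit 368) (nat_lit 226)) (XT.lf (nat_lit 0) (nat_lit 66954018982) (nat_lit 76) (nat_lit 28436613712) (nat_lit 152) (nat_lit 480105941201) (nat_lit 161) (nat_lit 5) (nat_lit 162) (nat_lit 5) (nat_lit 163) (nat_lit 4) (nat_lit 427) (nat_lit 368) (nat_lit 225))) (XT.nd (nat_lit 78) (nat_lit 152) (nat_lit 0) (XT.lf (nat_lit 0) (nat_lit 97407825790) (nat_lit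 76) (nat_lit 315313438494) (nat_lit 76) (nat_lit 192840165848) (nat_lit 160) (nat_lit 4) (nat_lit 161) (nat_lit 5) (nat_lit 161) (nat_lit 4) (nat_lit 428) (nat_lit 368) (nat_lit 224)) (XT.lf (nat_lit 0) (nat_lit 125368186072) (nat_lit 152) (nat_lit 503258841764) (nat_lit 0) (nat_lit 8726841135) (nat_lit 158) (nat_lit 5) (nat_lit 160) (nat_lit 4) (nat_lit 158) (nat_lit 4) (nat_lit 429) (nat_lit 368) (nat_lit 223)))) (XT.nd (nat_lit 156) (nat_lit 228) (nat_lit 0) (XT.nd (nat_lit 78) (nat_lit 152) (nat_lit 0) (XT.lf (nat_lit 0) (nat_lit 171393015319) (nat_lit 76) (nat_lit 307963068495) (nat_lit 76) (nat_lit 191321600508) (nat_lit 157) (nat_lit 4) (nat_lit 158) (nat_lit 5) (nat_lit 158) (nat_lit 4) (nat_lit 430) (nat_lit 368) (nat_lit 222)) (XT.lf (nat_lit 0) (nat_lit 163158140383) (nat_lit 152) (nat_lit 490661181253) (nat_lit 0) (nat_lit 52070919506) (nat_lit 155) (nat_lit 5) (nat_lit 157) (nat_lit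 4) (nat_lit 155) (nat_lit 4) (nat_lit 431) (nat_lit 368) (nat_lit 221))) (XT.nd (nat_lit 78) (nat_lit 152) (nat_lit 0) (XT.lf (nat_lit 0) (nat_lit 261040257271) (nat_lit 76) (nat_lit 296450096058) (nat_lit 76) (nat_lit 185362774709) (nat_lit 154) (nat_lit 4) (nat_lit 155) (nat_lit 5) (nat_lit 155) (nat_lit 4) (nat_lit 432) (nat_lit 368) (nat_lit 220)) (XT.lf (nat_lit 0) (nat_lit 209449797652) (nat_lit 152) (nat_lit 468750693319) (nat_lit 0) (nat_lit 103652260149) (nat_lit 152) (nat_lit 5) (nat_lit 154) (nat_lit 4) (nat_lit 152) (nat_lit 4) (nat_lit 433) (nat_lit 368) (nat_lit 219))))) (XT.nd (nat_lit 312) (nat_lit 532) (nat_lit 0) (XT.nd (nat_lit 156) (nat_lit 228) (nat_lit 0) (XT.nd (nat_lit 78) (nat_lit 152) (nat_lit 0) (XT.lf (nat_lit 0) (nat_lit 368803657117) (nat_lit 76) (nat_lit 279922851351) (nat_lit 76) (nat_lit 174125231811) (nat_lit 151) (nat_lit 4) (nat_lit 152) (nat_lit 5) (nat_lit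 152) (nat_lit 4) (nat_lit 434) (nat_lit 368) (nat_lit 218)) (XT.lf (nat_lit 0) (nat_lit 265538935377) (nat_lit 152) (nat_lit 435726717598) (nat_lit 0) (nat_lit 164779225378) (nat_lit 149) (nat_lit 5) (nat_lit 151) (nat_lit 4) (nat_lit 149) (nat_lit 4) (nat_lit 435) (nat_lit 368) (nat_lit 217))) (XT.nd (nat_lit 78) (nat_lit 152) (nat_lit 0) (XT.lf (nat_lit 0) (nat_lit 497485185245) (nat_lit 76) (nat_lit 257397493244) (nat_lit 76) (nat_lit 156637716261) (nat_lit 148) (nat_lit 4) (nat_lit 149) (nat_lit 5) (nat_lit 149) (nat_lit 4) (nat_lit 436) (nat_lit 368) (nat_lit 216)) (XT.lf (nat_lit 0) (nat_lit 332905413779) (nat_lit 152) (nat_lit 389508175580) (nat_lit 0) (nat_lit 236943662345) (nat_lit 146) (nat_lit 5) (nat_lit 148) (nat_lit 4) (nat_lit 146) (nat_lit 4) (nat_lit 437) (nat_lit 368) (nat_lit 215)))) (XT.nd (nat_lit 156) (nat_lit 304) (nat_lit 0) (XT.nd (nat_lit 78) (nat_lit 152) (nat_lit 0)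 (XT.lf (nat_lit 0) (nat_lit 650280904433) (nat_lit 76) (nat_lit 227739380828) (nat_lit 76) (nat_lit 131777574701) (nat_lit 145) (nat_lit 4) (nat_lit 146) (nat_lit 5) (nat_lit 146) (nat_lit 4) (nat_lit 438) (nat_lit 368) (nat_lit 214)) (XT.lf (nat_lit 0) (nat_lit 413237526576) (nat_lit 152) (nat_lit 327694300017) (nat_lit 0) (nat_lit 321845282034) (nat_lit 143) (nat_lit 5) (nat_lit 145) (nat_lit 4) (nat_lit 143) (nat_lit 4) (nat_lit 439) (nat_lit 368) (nat_lit 213))) (XT.nd (nat_lit 78) (nat_lit 228) (nat_lit 0) (XT.lf (nat_lit 0) (nat_lit 830833112639) (nat_lit 76) (nat_lit 189641977215) (nat_lit 76) (nat_lit 98249688016) (nat_lit 142) (nat_lit 4) (nat_lit 143) (nat_lit 5) (nat_lit 143) (nat_lit 4) (nat_lit 440) (nat_lit 368) (nat_lit 212)) (XT.nd (nat_lit 78) (nat_lit 76) (nat_lit 0) (XT.lf (nat_lit 0) (nat_lit 508459464998) (nat_lit 152) (nat_lit 247520167335) (nat_lit 0) (nat_lit 421419150190)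 (nat_lit 140) (nat_lit 5) (nat_lit 142) (nat_lit 4) (nat_lit 140) (nat_lit 4) (nat_lit 441) (nat_lit 368) (nat_lit 211)) (XT.lf (nat_lit 0) (nat_lit 1043289137673) (nat_lit 76) (nat_lit 141602970596) (nat_lit 76) (nat_lit 54562619324) (nat_lit 139) (nat_lit 4) (nat_lit 140) (nat_lit 5) (nat_lit 140) (nat_lit 4) (nat_lit 442) (nat_lit 368) (nat_lit 210))))))))
noncomputable def xc171 : XT := (XT.nd (nat_lit 48282) (nat_lit 0) (nat_lit 6308) (XT.nd (nat_lit 47658) (nat_lit 0) (nat_lit 10564) (XT.nd (nat_lit 47346) (nat_lit 0) (nat_lit 12236) (XT.nd (nat_lit 156) (nat_lit 304) (nat_lit 0) (XT.nd (nat_lit 78) (nat_lit 152) (nat_lit 0) (XT.lf (nat_lit 0) (nat_lit 620762282117) (nat_lit 152) (nat_lit 145806370665) (nat_lit 0) (nat_lit 537866677322) (nat_lit 137) (nat_lit 5) (nat_lit 139) (nat_lit 4) (nat_lit 137) (nat_lit 4) (nat_lit 443) (nat_lit 368) (nat_lit 209)) (XT.lf (nat_lit 0) (nat_lit 966421982)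 (nat_lit 152) (nat_lit 80914469504) (nat_lit 76) (nat_lit 1291384821433) (nat_lit 135) (nat_lit 5) (nat_lit 137) (nat_lit 5) (nat_lit 136) (nat_lit 4) (nat_lit 444) (nat_lit 368) (nat_lit 208))) (XT.nd (nat_lit 78) (nat_lit 228) (nat_lit 0) (XT.lf (nat_lit 0) (nat_lit 752638791815) (nat_lit 152) (nat_lit 18902088862) (nat_lit 0) (nat_lit 673690542161) (nat_lit 134) (nat_lit 5) (nat_lit 136) (nat_lit 4) (nat_lit 134) (nat_lit 4) (nat_lit 445) (nat_lit 368) (nat_lit 207)) (XT.lf (nat_lit 0) (nat_lit 62765189856) (nat_lit 76) (nat_lit 6363329079) (nat_lit 152) (nat_lit 1452345185700) (nat_lit 131) (nat_lit 5) (nat_lit 132) (nat_lit 5) (nat_lit 133) (nat_lit 4) (nat_lit 446) (nat_lit 368) (nat_lit 206)))) (XT.nd (nat_lit 156) (nat_lit 0) (nat_lit 76) (XT.nd (nat_lit 78) (nat_lit 0) (nat_lit 76) (XT.lf (nat_lit 0) (nat_lit 8578576914) (nat_lit 836) (nat_lit 5169584753) (nat_lit 836) (nat_lit 5169584753)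 (nat_lit 292) (nat_lit 3) (nat_lit 303) (nat_lit 3) (nat_lit 303) (nat_lit 5) (nat_lit 369) (nat_lit 369) (nat_lit 282)) (XT.lf (nat_lit 0) (nat_lit 18272434802) (nat_lit 760) (nat_lit 18778553975) (nat_lit 836) (nat_lit 2276474038) (nat_lit 293) (nat_lit 5) (nat_lit 303) (nat_lit 5) (nat_lit 304) (nat_lit 5) (nat_lit 370) (nat_lit 369) (nat_lit 281))) (XT.nd (nat_lit 78) (nat_lit 0) (nat_lit 76) (XT.lf (nat_lit 76) (nat_lit 13302371358) (nat_lit 0) (nat_lit 7021849782) (nat_lit 836) (nat_lit 20572205102) (nat_lit 294) (nat_lit 5) (nat_lit 293) (nat_lit 5) (nat_lit 304) (nat_lit 5) (nat_lit 371) (nat_lit 369) (nat_lit 280)) (XT.lf (nat_lit 76) (nat_lit 5825737340) (nat_lit 0) (nat_lit 17527962705) (nat_lit 836) (nat_lit 19196529214) (nat_lit 295) (nat_lit 5) (nat_lit 294) (nat_lit 5) (nat_lit 305) (nat_lit 5) (nat_lit 372) (nat_lit 369) (nat_lit 279))))) (XT.nd (nat_lit 312) (nat_lit 1292) (nat_lit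 0) (XT.nd (nat_lit 156) (nat_lit 608) (nat_lit 0) (XT.nd (nat_lit 78) (nat_lit 0) (nat_lit 76) (XT.lf (nat_lit 0) (nat_lit 27459484041) (nat_lit 760) (nat_lit 1771819812) (nat_lit 836) (nat_lit 15063335327) (nat_lit 295) (nat_lit 5) (nat_lit 305) (nat_lit 5) (nat_lit 306) (nat_lit 5) (nat_lit 373) (nat_lit 369) (nat_lit 278)) (XT.lf (nat_lit 0) (nat_lit 32823016057) (nat_lit 760) (nat_lit 9342398243) (nat_lit 836) (nat_lit 3966723328) (nat_lit 296) (nat_lit 5) (nat_lit 306) (nat_lit 5) (nat_lit 307) (nat_lit 5) (nat_lit 374) (nat_lit 369) (nat_lit 277))) (XT.nd (nat_lit 78) (nat_lit 684) (nat_lit 0) (XT.lf (nat_lit 76) (nat_lit 30874842202) (nat_lit 0) (nat_lit 8741784658) (nat_lit 836) (nat_lit 8449959281) (nat_lit 297) (nat_lit 5) (nat_lit 296) (nat_lit 5) (nat_lit 307) (nat_lit 5) (nat_lit 375) (nat_lit 369) (nat_lit 276)) (XT.lf (nat_lit 0) (nat_lit 24856806777) (nat_lit 760) (nat_lit 23072541771)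 (nat_lit 836) (nat_lit 2177660885) (nat_lit 287) (nat_lit 5) (nat_lit 297) (nat_lit 5) (nat_lit 298) (nat_lit 5) (nat_lit 376) (nat_lit 369) (nat_lit 275)))) (XT.nd (nat_lit 156) (nat_lit 380) (nat_lit 0) (XT.nd (nat_lit 78) (nat_lit 380) (nat_lit 0) (XT.lf (nat_lit 0) (nat_lit 5407502067) (nat_lit 532) (nat_lit 33518934027) (nat_lit 76) (nat_lit 13332732601) (nat_lit 280) (nat_lit 5) (nat_lit 287) (nat_lit 5) (nat_lit 281) (nat_lit 5) (nat_lit 377) (nat_lit 369) (nat_lit 274)) (XT.lf (nat_lit 0) (nat_lit 12554500251) (nat_lit 380) (nat_lit 1997359013) (nat_lit 456) (nat_lit 39978422674) (nat_lit 275) (nat_lit 5) (nat_lit 280) (nat_lit 5) (nat_lit 281) (nat_lit 5) (nat_lit 378) (nat_lit 369) (nat_lit 273))) (XT.nd (nat_lit 78) (nat_lit 0) (nat_lit 0) (XT.lf (nat_lit 0) (nat_lit 6148129992) (nat_lit 380) (nat_lit 19556392023) (nat_lit 456) (nat_lit 31214724376) (nat_lit 270) (nat_lit 5) (nat_lit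 275) (nat_lit 5) (nat_lit 276) (nat_lit 5) (nat_lit 379) (nat_lit 369) (nat_lit 272)) (XT.lf (nat_lit 0) (nat_lit 38838773142) (nat_lit 456) (nat_lit 208445446) (nat_lit 76) (nat_lit 20397640645) (nat_lit 270) (nat_lit 5) (nat_lit 276) (nat_lit 5) (nat_lit 271) (nat_lit 5) (nat_lit 380) (nat_lit 369) (nat_lit 271)))))) (XT.nd (nat_lit 624) (nat_lit 1900) (nat_lit 0) (XT.nd (nat_lit 312) (nat_lit 1064) (nat_lit 0) (XT.nd (nat_lit 156) (nat_lit 608) (nat_lit 0) (XT.nd (nat_lit 78) (nat_lit 380) (nat_lit 0) (XT.lf (nat_lit 0) (nat_lit 54247351707) (nat_lit 380) (nat_lit 6285063195) (nat_lit 76) (nat_lit 1578926833) (nat_lit 266) (nat_lit 5) (nat_lit 271) (nat_lit 5) (nat_lit 267) (nat_lit 5) (nat_lit 381) (nat_lit 369) (nat_lit 270)) (XT.lf (nat_lit 0) (nat_lit 7209267106) (nat_lit 380) (nat_lit 12659609289) (nat_lit 76) (nat_lit 45042635168) (nat_lit 261) (nat_lit 5) (nat_lit 266) (nat_lit 5) (nat_lit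 262) (nat_lit 5) (nat_lit 382) (nat_lit 369) (nat_lit 269))) (XT.nd (nat_lit 78) (nat_lit 304) (nat_lit 0) (XT.lf (nat_lit 0) (nat_lit 24484734534) (nat_lit 380) (nat_lit 19074887960) (nat_lit 76) (nat_lit 24306033308) (nat_lit 257) (nat_lit 5) (nat_lit 262) (nat_lit 5) (nat_lit 258) (nat_lit 5) (nat_lit 383) (nat_lit 369) (nat_lit 268)) (XT.lf (nat_lit 0) (nat_lit 44431373768) (nat_lit 380) (nat_lit 25328865337) (nat_lit 76) (nat_lit 1231435756) (nat_lit 253) (nat_lit 5) (nat_lit 258) (nat_lit 5) (nat_lit 254) (nat_lit 5) (nat_lit 384) (nat_lit 369) (nat_lit 267)))) (XT.nd (nat_lit 156) (nat_lit 456) (nat_lit 0) (XT.nd (nat_lit 78) (nat_lit 380) (nat_lit 0) (XT.lf (nat_lit 0) (nat_lit 42526739512) (nat_lit 228) (nat_lit 25180199511) (nat_lit 304) (nat_lit 6574176676) (nat_lit 250) (nat_lit 5) (nat_lit 253) (nat_lit 5) (nat_lit 254) (nat_lit 5) (nat_lit 385) (nat_lit 369) (nat_lit 266)) (XT.lf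 (nat_lit 0) (nat_lit 15979462548) (nat_lit 380) (nat_lit 38212141131) (nat_lit 76) (nat_lit 23557936794) (nat_lit 245) (nat_lit 5) (nat_lit 250) (nat_lit 5) (nat_lit 246) (nat_lit 5) (nat_lit 386) (nat_lit 369) (nat_lit 265))) (XT.nd (nat_lit 78) (nat_lit 228) (nat_lit 0) (XT.lf (nat_lit 0) (nat_lit 36829096855) (nat_lit 228) (nat_lit 4840119642) (nat_lit 304) (nat_lit 39742726528) (nat_lit 242) (nat_lit 5) (nat_lit 245) (nat_lit 5) (nat_lit 246) (nat_lit 5) (nat_lit 387) (nat_lit 369) (nat_lit 264)) (XT.lf (nat_lit 0) (nat_lit 34228363515) (nat_lit 228) (nat_lit 37150720170) (nat_lit 304) (nat_lit 13890007449) (nat_lit 239) (nat_lit 5) (nat_lit 242) (nat_lit 5) (nat_lit 243) (nat_lit 5) (nat_lit 388) (nat_lit 369) (nat_lit 263))))) (XT.nd (nat_lit 312) (nat_lit 912) (nat_lit 0) (XT.nd (nat_lit 156) (nat_lit 456) (nat_lit 0) (XT.nd (nat_lit 78) (nat_lit 228) (nat_lit 0) (XT.lf (nat_lit 0) (nat_lit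 15224032423) (nat_lit 304) (nat_lit 57369574850) (nat_lit 76) (nat_lit 16748141680) (nat_lit 235) (nat_lit 5) (nat_lit 239) (nat_lit 5) (nat_lit 236) (nat_lit 5) (nat_lit 389) (nat_lit 369) (nat_lit 262)) (XT.lf (nat_lit 0) (nat_lit 29828848682) (nat_lit 228) (nat_lit 18351636126) (nat_lit 304) (nat_lit 45448352962) (nat_lit 232) (nat_lit 5) (nat_lit 235) (nat_lit 5) (nat_lit 236) (nat_lit 5) (nat_lit 390) (nat_lit 369) (nat_lit 261))) (XT.nd (nat_lit 78) (nat_lit 304) (nat_lit 0) (XT.lf (nat_lit 0) (nat_lit 28093997671) (nat_lit 152) (nat_lit 57759616367) (nat_lit 228) (nat_lit 12301271622) (nat_lit 230) (nat_lit 5) (nat_lit 232) (nat_lit 5) (nat_lit 233) (nat_lit 5) (nat_lit 391) (nat_lit 369) (nat_lit 260)) (XT.lf (nat_lit 0) (nat_lit 24634758274) (nat_lit 304) (nat_lit 76176344589) (nat_lit 76) (nat_lit 2119108804) (nat_lit 226) (nat_lit 5) (nat_lit 230) (nat_lit 5) (nat_lit 227) (nat_lit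 5) (nat_lit 392) (nat_lit 369) (nat_lit 259)))) (XT.nd (nat_lit 156) (nat_lit 532) (nat_lit 0) (XT.nd (nat_lit 78) (nat_lit 228) (nat_lit 0) (XT.lf (nat_lit 0) (nat_lit 25397194138) (nat_lit 152) (nat_lit 41312022934) (nat_lit 228) (nat_lit 41237537518) (nat_lit 224) (nat_lit 5) (nat_lit 226) (nat_lit 5) (nat_lit 227) (nat_lit 5) (nat_lit 393) (nat_lit 369) (nat_lit 258)) (XT.lf (nat_lit 0) (nat_lit 952441091) (nat_lit 228) (nat_lit 88342055191) (nat_lit 76) (nat_lit 23964646020) (nat_lit 221) (nat_lit 5) (nat_lit 224) (nat_lit 5) (nat_lit 222) (nat_lit 5) (nat_lit 394) (nat_lit 369) (nat_lit 257))) (XT.nd (nat_lit 78) (nat_lit 380) (nat_lit 0) (XT.lf (nat_lit 0) (nat_lit 24365319081) (nat_lit 152) (nat_lit 23263431190) (nat_lit 228) (nat_lit 71206174764) (nat_lit 219) (nat_lit 5) (nat_lit 221) (nat_lit 5) (nat_lit 222) (nat_lit 5) (nat_lit 395) (nat_lit 369) (nat_lit 256)) (XT.nd (nat_lit 78)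 (nat_lit 228) (nat_lit 0) (XT.lf (nat_lit 0) (nat_lit 24468640859) (nat_lit 152) (nat_lit 76264949179) (nat_lit 228) (nat_lit 23988459056) (nat_lit 217) (nat_lit 5) (nat_lit 219) (nat_lit 5) (nat_lit 220) (nat_lit 5) (nat_lit 396) (nat_lit 369) (nat_lit 255)) (XT.lf (nat_lit 0) (nat_lit 25262089893) (nat_lit 152) (nat_lit 3337632604) (nat_lit 228) (nat_lit 102336466546) (nat_lit 214) (nat_lit 5) (nat_lit 216) (nat_lit 5) (nat_lit 217) (nat_lit 5) (nat_lit 397) (nat_lit 369) (nat_lit 254))))))))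
noncomputable def xc172 : XT := (XT.nd (nat_lit 1248) (nat_lit 1900) (nat_lit 0) (XT.nd (nat_lit 624) (nat_lit 1064) (nat_lit 0) (XT.nd (nat_lit 312) (nat_lit 608) (nat_lit 0) (XT.nd (nat_lit 156) (nat_lit 228) (nat_lit 0) (XT.nd (nat_lit 78) (nat_lit 152) (nat_lit 0) (XT.lf (nat_lit 0) (nat_lit 26058998332) (nat_lit 152) (nat_lit 61864414469) (nat_lit 228) (nat_lit 49535940068) (nat_lit 212) (nat_lit 5) (nat_lit 214) (nat_lit 5) (nat_lit 215) (nat_lit 5) (nat_lit 398) (nat_lit 369) (nat_lit 253)) (XT.lf (nat_lit 0) (nat_lit 9910952110) (nat_lit 152) (nat_lit 116278792729) (nat_lit 76) (nat_lit 18175678714) (nat_lit 210) (nat_lit 5) (nat_lit 212) (nat_lit 5) (nat_lit 211) (nat_lit 5) (nat_lit 399) (nat_lit 369) (nat_lit 252))) (XT.nd (nat_lit 78) (nat_lit 76) (nat_lit 0) (XT.lf (nat_lit 0) (nat_lit 30031756887) (nat_lit 152) (nat_lit 45852269117) (nat_lit 228) (nat_lit 75724054240) (nat_lit 208)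 (nat_lit 5) (nat_lit 210) (nat_lit 5) (nat_lit 211) (nat_lit 5) (nat_lit 400) (nat_lit 369) (nat_lit 251)) (XT.lf (nat_lit 0) (nat_lit 33260286464) (nat_lit 76) (nat_lit 117089830122) (nat_lit 152) (nat_lit 8919274344) (nat_lit 207) (nat_lit 5) (nat_lit 208) (nat_lit 5) (nat_lit 209) (nat_lit 4) (nat_lit 401) (nat_lit 369) (nat_lit 250)))) (XT.nd (nat_lit 156) (nat_lit 304) (nat_lit 0) (XT.nd (nat_lit 78) (nat_lit 76) (nat_lit 0) (XT.lf (nat_lit 0) (nat_lit 36766476955) (nat_lit 152) (nat_lit 27937812756) (nat_lit 228) (nat_lit 102615049321) (nat_lit 204) (nat_lit 5) (nat_lit 206) (nat_lit 5) (nat_lit 207) (nat_lit 5) (nat_lit 402) (nat_lit 369) (nat_lit 249)) (XT.lf (nat_lit 0) (nat_lit 41223564686) (nat_lit 76) (nat_lit 106626064927) (nat_lit 152) (nat_lit 27959123555) (nat_lit 203) (nat_lit 5) (nat_lit 204) (nat_lit 5) (nat_lit 205) (nat_lit 4) (nat_lit 403) (nat_lit 369) (nat_lit 248))) (XT.nd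 (nat_lit 78) (nat_lit 76) (nat_lit 0) (XT.lf (nat_lit 0) (nat_lit 46701932360) (nat_lit 152) (nat_lit 7791828628) (nat_lit 228) (nat_lit 130266932172) (nat_lit 200) (nat_lit 5) (nat_lit 202) (nat_lit 5) (nat_lit 203) (nat_lit 5) (nat_lit 404) (nat_lit 369) (nat_lit 247)) (XT.lf (nat_lit 0) (nat_lit 52613075595) (nat_lit 76) (nat_lit 94711096047) (nat_lit 152) (nat_lit 46843657054) (nat_lit 199) (nat_lit 5) (nat_lit 200) (nat_lit 5) (nat_lit 201) (nat_lit 4) (nat_lit 405) (nat_lit 369) (nat_lit 246))))) (XT.nd (nat_lit 312) (nat_lit 456) (nat_lit 0) (XT.nd (nat_lit 156) (nat_lit 304) (nat_lit 0) (XT.nd (nat_lit 78) (nat_lit 76) (nat_lit 0) (XT.lf (nat_lit 0) (nat_lit 45619151555) (nat_lit 228) (nat_lit 144007317156) (nat_lit 76) (nat_lit 14479798313) (nat_lit 196) (nat_lit 5) (nat_lit 199) (nat_lit 5) (nat_lit 197) (nat_lit 4) (nat_lit 406) (nat_lit 369) (nat_lit 245)) (XT.lf (nat_lit 0) (nat_lit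 67969030786) (nat_lit 76) (nat_lit 81053832659) (nat_lit 152) (nat_lit 65519267926) (nat_lit 195) (nat_lit 5) (nat_lit 196) (nat_lit 5) (nat_lit 197) (nat_lit 4) (nat_lit 407) (nat_lit 369) (nat_lit 244))) (XT.nd (nat_lit 78) (nat_lit 76) (nat_lit 0) (XT.lf (nat_lit 0) (nat_lit 38175921980) (nat_lit 228) (nat_lit 147957462101) (nat_lit 76) (nat_lit 39431923133) (nat_lit 192) (nat_lit 5) (nat_lit 195) (nat_lit 5) (nat_lit 193) (nat_lit 4) (nat_lit 408) (nat_lit 369) (nat_lit 243)) (XT.lf (nat_lit 0) (nat_lit 87912763153) (nat_lit 76) (nat_lit 65322307719) (nat_lit 152) (nat_lit 83913370945) (nat_lit 191) (nat_lit 5) (nat_lit 192) (nat_lit 5) (nat_lit 193) (nat_lit 4) (nat_lit 409) (nat_lit 369) (nat_lit 242)))) (XT.nd (nat_lit 156) (nat_lit 228) (nat_lit 0) (XT.nd (nat_lit 78) (nat_lit 76) (nat_lit 0) (XT.lf (nat_lit 0) (nat_lit 32240699189) (nat_lit 152) (nat_lit 149354267440) (nat_lit 76) (nat_lit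 67776974386) (nat_lit 189) (nat_lit 5) (nat_lit 191) (nat_lit 5) (nat_lit 190) (nat_lit 4) (nat_lit 410) (nat_lit 369) (nat_lit 241)) (XT.lf (nat_lit 0) (nat_lit 113157664368) (nat_lit 76) (nat_lit 47138045942) (nat_lit 152) (nat_lit 101931401831) (nat_lit 188) (nat_lit 5) (nat_lit 189) (nat_lit 5) (nat_lit 190) (nat_lit 4) (nat_lit 411) (nat_lit 369) (nat_lit 240))) (XT.nd (nat_lit 78) (nat_lit 76) (nat_lit 0) (XT.lf (nat_lit 0) (nat_lit 28047769913) (nat_lit 152) (nat_lit 147691900687) (nat_lit 76) (nat_lit 100039324782) (nat_lit 186) (nat_lit 5) (nat_lit 188) (nat_lit 5) (nat_lit 187) (nat_lit 4) (nat_lit 412) (nat_lit 369) (nat_lit 239)) (XT.lf (nat_lit 0) (nat_lit 144521545898) (nat_lit 76) (nat_lit 26069703656) (nat_lit 152) (nat_lit 119453371703) (nat_lit 185) (nat_lit 5) (nat_lit 186) (nat_lit 5) (nat_lit 187) (nat_lit 4) (nat_lit 413) (nat_lit 369) (nat_lit 238)))))) (XT.nd (nat_lit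 624) (nat_lit 988) (nat_lit 0) (XT.nd (nat_lit 312) (nat_lit 456) (nat_lit 0) (XT.nd (nat_lit 156) (nat_lit 228) (nat_lit 0) (XT.nd (nat_lit 78) (nat_lit 76) (nat_lit 0) (XT.lf (nat_lit 0) (nat_lit 25872451709) (nat_lit 152) (nat_lit 142381618284) (nat_lit 76) (nat_lit 136812695593) (nat_lit 183) (nat_lit 5) (nat_lit 185) (nat_lit 5) (nat_lit 184) (nat_lit 4) (nat_lit 414) (nat_lit 369) (nat_lit 237)) (XT.lf (nat_lit 0) (nat_lit 182940602354) (nat_lit 76) (nat_lit 1625889023) (nat_lit 152) (nat_lit 136329916751) (nat_lit 182) (nat_lit 5) (nat_lit 183) (nat_lit 5) (nat_lit 184) (nat_lit 4) (nat_lit 415) (nat_lit 369) (nat_lit 236))) (XT.nd (nat_lit 78) (nat_lit 76) (nat_lit 0) (XT.lf (nat_lit 0) (nat_lit 26036797727) (nat_lit 152) (nat_lit 132740016201) (nat_lit 76) (nat_lit 178769179314) (nat_lit 180) (nat_lit 5) (nat_lit 182) (nat_lit 5) (nat_lit 181) (nat_lit 4) (nat_lit 416) (nat_lit 369)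 (nat_lit 235)) (XT.lf (nat_lit 0) (nat_lit 203149926058) (nat_lit 152) (nat_lit 126042523571) (nat_lit 0) (nat_lit 25896679060) (nat_lit 179) (nat_lit 5) (nat_lit 181) (nat_lit 4) (nat_lit 179) (nat_lit 4) (nat_lit 417) (nat_lit 369) (nat_lit 234)))) (XT.nd (nat_lit 156) (nat_lit 228) (nat_lit 0) (XT.nd (nat_lit 78) (nat_lit 76) (nat_lit 0) (XT.lf (nat_lit 0) (nat_lit 28916070448) (nat_lit 152) (nat_lit 117975706286) (nat_lit 76) (nat_lit 226669391365) (nat_lit 177) (nat_lit 5) (nat_lit 179) (nat_lit 5) (nat_lit 178) (nat_lit 4) (nat_lit 418) (nat_lit 369) (nat_lit 233)) (XT.lf (nat_lit 0) (nat_lit 226606085062) (nat_lit 152) (nat_lit 108603140422) (nat_lit 0) (nat_lit 57792728387) (nat_lit 176) (nat_lit 5) (nat_lit 178) (nat_lit 4) (nat_lit 176) (nat_lit 4) (nat_lit 419) (nat_lit 369) (nat_lit 232))) (XT.nd (nat_lit 78) (nat_lit 76) (nat_lit 0) (XT.lf (nat_lit 0) (nat_lit 34946082844) (nat_lit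 152) (nat_lit 97174216476) (nat_lit 76) (nat_lit 281373889440) (nat_lit 174) (nat_lit 5) (nat_lit 176) (nat_lit 5) (nat_lit 175) (nat_lit 4) (nat_lit 420) (nat_lit 369) (nat_lit 231)) (XT.lf (nat_lit 0) (nat_lit 255590772623) (nat_lit 152) (nat_lit 84631843025) (nat_lit 0) (nat_lit 94815542601) (nat_lit 173) (nat_lit 5) (nat_lit 175) (nat_lit 4) (nat_lit 173) (nat_lit 4) (nat_lit 421) (nat_lit 369) (nat_lit 230))))) (XT.nd (nat_lit 312) (nat_lit 532) (nat_lit 0) (XT.nd (nat_lit 156) (nat_lit 228) (nat_lit 0) (XT.nd (nat_lit 78) (nat_lit 76) (nat_lit 0) (XT.lf (nat_lit 0) (nat_lit 44631517715) (nat_lit 152) (nat_lit 69280887853) (nat_lit 76) (nat_lit 343856015857) (nat_lit 171) (nat_lit 5) (nat_lit 173) (nat_lit 5) (nat_lit 172) (nat_lit 4) (nat_lit 422) (nat_lit 369) (nat_lit 229)) (XT.lf (nat_lit 0) (nat_lit 290882170894) (nat_lit 152) (nat_lit 52998816219) (nat_lit 0) (nat_lit 137762410529)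 (nat_lit 170) (nat_lit 5) (nat_lit 172) (nat_lit 4) (nat_lit 170) (nat_lit 4) (nat_lit 423) (nat_lit 369) (nat_lit 228))) (XT.nd (nat_lit 78) (nat_lit 76) (nat_lit 0) (XT.lf (nat_lit 0) (nat_lit 58555349752) (nat_lit 152) (nat_lit 33081513135) (nat_lit 76) (nat_lit 415216337029) (nat_lit 168) (nat_lit 5) (nat_lit 170) (nat_lit 5) (nat_lit 169) (nat_lit 4) (nat_lit 424) (nat_lit 369) (nat_lit 227)) (XT.lf (nat_lit 0) (nat_lit 333368089325) (nat_lit 152) (nat_lit 12404283304) (nat_lit 0) (nat_lit 187539343026) (nat_lit 167) (nat_lit 5) (nat_lit 169) (nat_lit 4) (nat_lit 167) (nat_lit 4) (nat_lit 425) (nat_lit 369) (nat_lit 226)))) (XT.nd (nat_lit 156) (nat_lit 228) (nat_lit 0) (XT.nd (nat_lit 78) (nat_lit 76) (nat_lit 0) (XT.lf (nat_lit 0) (nat_lit 13243443360) (nat_lit 76) (nat_lit 64352834249) (nat_lit 152) (nat_lit 483662199041) (nat_lit 164) (nat_lit 5) (nat_lit 165) (nat_lit 5) (nat_lit 166)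 (nat_lit 4) (nat_lit 426) (nat_lit 369) (nat_lit 225)) (XT.lf (nat_lit 0) (nat_lit 39922539539) (nat_lit 76) (nat_lit 344760970421) (nat_lit 76) (nat_lit 205876121005) (nat_lit 163) (nat_lit 4) (nat_lit 164) (nat_lit 5) (nat_lit 164) (nat_lit 4) (nat_lit 427) (nat_lit 369) (nat_lit 224))) (XT.nd (nat_lit 78) (nat_lit 76) (nat_lit 0) (XT.lf (nat_lit 0) (nat_lit 72339574955) (nat_lit 76) (nat_lit 30696801086) (nat_lit 152) (nat_lit 518499199128) (nat_lit 161) (nat_lit 5) (nat_lit 162) (nat_lit 5) (nat_lit 163) (nat_lit 4) (nat_lit 428) (nat_lit 369) (nat_lit 223)) (XT.lf (nat_lit 0) (nat_lit 105228888802) (nat_lit 76) (nat_lit 340524152912) (nat_lit 76) (nat_lit 208252599013) (nat_lit 160) (nat_lit 4) (nat_lit 161) (nat_lit 5) (nat_lit 161) (nat_lit 4) (nat_lit 429) (nat_lit 369) (nat_lit 222)))))))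
noncomputable def xc173 : XT := (XT.nd (nat_lit 1248) (nat_lit 76) (nat_lit 0) (XT.nd (nat_lit 624) (nat_lit 988) (nat_lit 0) (XT.nd (nat_lit 312) (nat_lit 456) (nat_lit 0) (XT.nd (nat_lit 156) (nat_lit 228) (nat_lit 0) (XT.nd (nat_lit 78) (nat_lit 76) (nat_lit 0) (XT.lf (nat_lit 0) (nat_lit 135411538156) (nat_lit 152) (nat_lit 543491429726) (nat_lit 0) (nat_lit 9438515746) (nat_lit 158) (nat_lit 5) (nat_lit 160) (nat_lit 4) (nat_lit 158) (nat_lit 4) (nat_lit 430) (nat_lit 369) (nat_lit 221)) (XT.lf (nat_lit 0) (nat_lit 185131353889) (nat_lit 76) (nat_lit 332586504349) (nat_lit 76) (nat_lit 206613376443) (nat_lit 157) (nat_lit 4) (nat_lit 158) (nat_lit 5) (nat_lit 158) (nat_lit 4) (nat_lit 431) (nat_lit 369) (nat_lit 220))) (XT.nd (nat_lit 78) (nat_lit 76) (nat_lit 0) (XT.lf (nat_lit 0) (nat_lit 176223911861) (nat_lit 152) (nat_lit 529887481257) (nat_lit 0) (nat_lit 56249411303) (nat_lit 155)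 (nat_lit 5) (nat_lit 157) (nat_lit 4) (nat_lit 155) (nat_lit 4) (nat_lit 432) (nat_lit 369) (nat_lit 219)) (XT.lf (nat_lit 0) (nat_lit 281948916584) (nat_lit 76) (nat_lit 320153210558) (nat_lit 76) (nat_lit 200178623861) (nat_lit 154) (nat_lit 4) (nat_lit 155) (nat_lit 5) (nat_lit 155) (nat_lit 4) (nat_lit 433) (nat_lit 369) (nat_lit 218)))) (XT.nd (nat_lit 156) (nat_lit 228) (nat_lit 0) (XT.nd (nat_lit 78) (nat_lit 76) (nat_lit 0) (XT.lf (nat_lit 0) (nat_lit 226218170188) (nat_lit 152) (nat_lit 506225598495) (nat_lit 0) (nat_lit 111956583089) (nat_lit 152) (nat_lit 5) (nat_lit 154) (nat_lit 4) (nat_lit 152) (nat_lit 4) (nat_lit 434) (nat_lit 369) (nat_lit 217)) (XT.lf (nat_lit 0) (nat_lit 398332006974) (nat_lit 76) (nat_lit 302304468814) (nat_lit 76) (nat_lit 188042811382) (nat_lit 151) (nat_lit 4) (nat_lit 152) (nat_lit 5) (nat_lit 152) (nat_lit 4) (nat_lit 435) (nat_lit 369) (nat_lit 216)))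 (XT.nd (nat_lit 78) (nat_lit 76) (nat_lit 0) (XT.lf (nat_lit 0) (nat_lit 286793749823) (nat_lit 152) (nat_lit 470561072144) (nat_lit 0) (nat_lit 177973061675) (nat_lit 149) (nat_lit 5) (nat_lit 151) (nat_lit 4) (nat_lit 149) (nat_lit 4) (nat_lit 436) (nat_lit 369) (nat_lit 215)) (XT.lf (nat_lit 0) (nat_lit 537306749353) (nat_lit 76) (nat_lit 277977731573) (nat_lit 76) (nat_lit 169156985997) (nat_lit 148) (nat_lit 4) (nat_lit 149) (nat_lit 5) (nat_lit 149) (nat_lit 4) (nat_lit 437) (nat_lit 369) (nat_lit 214))))) (XT.nd (nat_lit 312) (nat_lit 532) (nat_lit 0) (XT.nd (nat_lit 156) (nat_lit 228) (nat_lit 0) (XT.nd (nat_lit 78) (nat_lit 76) (nat_lit 0) (XT.lf (nat_lit 0) (nat_lit 359548897048) (nat_lit 152) (nat_lit 420646341187) (nat_lit 0) (nat_lit 255910041096) (nat_lit 146) (nat_lit 5) (nat_lit 148) (nat_lit 4) (nat_lit 146) (nat_lit 4) (nat_lit 438) (nat_lit 369) (nat_lit 213)) (XT.lf (nat_lit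 0) (nat_lit 702324887908) (nat_lit 76) (nat_lit 245947587660) (nat_lit 76) (nat_lit 142308684817) (nat_lit 145) (nat_lit 4) (nat_lit 146) (nat_lit 5) (nat_lit 146) (nat_lit 4) (nat_lit 439) (nat_lit 369) (nat_lit 212))) (XT.nd (nat_lit 78) (nat_lit 76) (nat_lit 0) (XT.lf (nat_lit 0) (nat_lit 446306966560) (nat_lit 152) (nat_lit 353888580647) (nat_lit 0) (nat_lit 347603208217) (nat_lit 143) (nat_lit 5) (nat_lit 145) (nat_lit 4) (nat_lit 143) (nat_lit 4) (nat_lit 440) (nat_lit 369) (nat_lit 211)) (XT.lf (nat_lit 0) (nat_lit 897320100942) (nat_lit 76) (nat_lit 204802978338) (nat_lit 76) (nat_lit 106099181708) (nat_lit 142) (nat_lit 4) (nat_lit 143) (nat_lit 5) (nat_lit 143) (nat_lit 4) (nat_lit 441) (nat_lit 369) (nat_lit 210)))) (XT.nd (nat_lit 156) (nat_lit 304) (nat_lit 0) (XT.nd (nat_lit 78) (nat_lit 76) (nat_lit 0) (XT.lf (nat_lit 0) (nat_lit 549146082565) (nat_lit 152) (nat_lit 267301676578)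 (nat_lit 0) (nat_lit 455142432965) (nat_lit 140) (nat_lit 5) (nat_lit 142) (nat_lit 4) (nat_lit 140) (nat_lit 4) (nat_lit 442) (nat_lit 369) (nat_lit 209)) (XT.lf (nat_lit 0) (nat_lit 1126771499130) (nat_lit 76) (nat_lit 152921408011) (nat_lit 76) (nat_lit 58917727149) (nat_lit 139) (nat_lit 4) (nat_lit 140) (nat_lit 5) (nat_lit 140) (nat_lit 4) (nat_lit 443) (nat_lit 369) (nat_lit 208))) (XT.nd (nat_lit 78) (nat_lit 152) (nat_lit 0) (XT.lf (nat_lit 0) (nat_lit 670432580238) (nat_lit 152) (nat_lit 157451872933) (nat_lit 0) (nat_lit 580905237564) (nat_lit 137) (nat_lit 5) (nat_lit 139) (nat_lit 4) (nat_lit 137) (nat_lit 4) (nat_lit 444) (nat_lit 369) (nat_lit 207)) (XT.lf (nat_lit 0) (nat_lit 1052791168) (nat_lit 152) (nat_lit 87369146303) (nat_lit 76) (nat_lit 1394704579710) (nat_lit 135) (nat_lit 5) (nat_lit 137) (nat_lit 5) (nat_lit 136) (nat_lit 4) (nat_lit 445) (nat_lit 369) (nat_lit 206))))))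 (XT.nd (nat_lit 47736) (nat_lit 0) (nat_lit 9044) (XT.nd (nat_lit 47424) (nat_lit 0) (nat_lit 12160) (XT.nd (nat_lit 47268) (nat_lit 0) (nat_lit 12084) (XT.nd (nat_lit 47190) (nat_lit 0) (nat_lit 12008) (XT.lf (nat_lit 0) (nat_lit 812858696592) (nat_lit 152) (nat_lit 20396286108) (nat_lit 0) (nat_lit 727594513893) (nat_lit 134) (nat_lit 5) (nat_lit 136) (nat_lit 4) (nat_lit 134) (nat_lit 4) (nat_lit 446) (nat_lit 369) (nat_lit 205)) (XT.lf (nat_lit 0) (nat_lit 9334008653) (nat_lit 836) (nat_lit 5546850101) (nat_lit 836) (nat_lit 5546850101) (nat_lit 292) (nat_lit 3) (nat_lit 303) (nat_lit 3) (nat_lit 303) (nat_lit 5) (nat_lit 370) (nat_lit 370) (nat_lit 280))) (XT.nd (nat_lit 78) (nat_lit 0) (nat_lit 0) (XT.lf (nat_lit 0) (nat_lit 19862429406) (nat_lit 760) (nat_lit 20204002242) (nat_lit 836) (nat_lit 2400818202) (nat_lit 293) (nat_lit 5) (nat_lit 303) (nat_lit 5) (nat_lit 304) (nat_lit 5) (nat_lit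 371) (nat_lit 370) (nat_lit 279)) (XT.lf (nat_lit 76) (nat_lit 14440057916) (nat_lit 0) (nat_lit 7629951943) (nat_lit 836) (nat_lit 22092137930) (nat_lit 294) (nat_lit 5) (nat_lit 293) (nat_lit 5) (nat_lit 304) (nat_lit 5) (nat_lit 372) (nat_lit 370) (nat_lit 278)))) (XT.nd (nat_lit 156) (nat_lit 0) (nat_lit 152) (XT.nd (nat_lit 78) (nat_lit 0) (nat_lit 76) (XT.lf (nat_lit 76) (nat_lit 6368523483) (nat_lit 0) (nat_lit 18964973557) (nat_lit 836) (nat_lit 20615175511) (nat_lit 295) (nat_lit 5) (nat_lit 294) (nat_lit 5) (nat_lit 305) (nat_lit 5) (nat_lit 373) (nat_lit 370) (nat_lit 277)) (XT.lf (nat_lit 0) (nat_lit 29758981721) (nat_lit 760) (nat_lit 1836856951) (nat_lit 836) (nat_lit 16237234694) (nat_lit 295) (nat_lit 5) (nat_lit 305) (nat_lit 5) (nat_lit 306) (nat_lit 5) (nat_lit 374) (nat_lit 370) (nat_lit 276))) (XT.nd (nat_lit 78) (nat_lit 0) (nat_lit 0) (XT.lf (nat_lit 0) (nat_lit 35544774067)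 (nat_lit 760) (nat_lit 10011244074) (nat_lit 836) (nat_lit 4261894660) (nat_lit 296) (nat_lit 5) (nat_lit 306) (nat_lit 5) (nat_lit 307) (nat_lit 5) (nat_lit 375) (nat_lit 370) (nat_lit 275)) (XT.lf (nat_lit 76) (nat_lit 33419962091) (nat_lit 0) (nat_lit 9455979729) (nat_lit 836) (nat_lit 9031471971) (nat_lit 297) (nat_lit 5) (nat_lit 296) (nat_lit 5) (nat_lit 307) (nat_lit 5) (nat_lit 376) (nat_lit 370) (nat_lit 274))))) (XT.nd (nat_lit 312) (nat_lit 1292) (nat_lit 0) (XT.nd (nat_lit 156) (nat_lit 760) (nat_lit 0) (XT.nd (nat_lit 78) (nat_lit 532) (nat_lit 0) (XT.lf (nat_lit 0) (nat_lit 26921744183) (nat_lit 760) (nat_lit 24926249517) (nat_lit 836) (nat_lit 2263361625) (nat_lit 287) (nat_lit 5) (nat_lit 297) (nat_lit 5) (nat_lit 298) (nat_lit 5) (nat_lit 377) (nat_lit 370) (nat_lit 273)) (XT.lf (nat_lit 0) (nat_lit 5920544101) (nat_lit 532) (nat_lit 36120566318) (nat_lit 76) (nat_lit 14394769678)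 (nat_lit 280) (nat_lit 5) (nat_lit 287) (nat_lit 5) (nat_lit 281) (nat_lit 5) (nat_lit 378) (nat_lit 370) (nat_lit 272))) (XT.nd (nat_lit 78) (nat_lit 380) (nat_lit 0) (XT.lf (nat_lit 0) (nat_lit 13635271109) (nat_lit 380) (nat_lit 2156413095) (nat_lit 456) (nat_lit 43097236479) (nat_lit 275) (nat_lit 5) (nat_lit 280) (nat_lit 5) (nat_lit 281) (nat_lit 5) (nat_lit 379) (nat_lit 370) (nat_lit 271)) (XT.lf (nat_lit 0) (nat_lit 6716678907) (nat_lit 380) (nat_lit 21115483523) (nat_lit 456) (nat_lit 33637059740) (nat_lit 270) (nat_lit 5) (nat_lit 275) (nat_lit 5) (nat_lit 276) (nat_lit 5) (nat_lit 380) (nat_lit 370) (nat_lit 270)))) (XT.nd (nat_lit 156) (nat_lit 988) (nat_lit 0) (XT.nd (nat_lit 78) (nat_lit 304) (nat_lit 0) (XT.lf (nat_lit 0) (nat_lit 42011952098) (nat_lit 456) (nat_lit 150882352) (nat_lit 76) (nat_lit 22034309667) (nat_lit 270) (nat_lit 5) (nat_lit 276) (nat_lit 5) (nat_lit 271)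 (nat_lit 5) (nat_lit 381) (nat_lit 370) (nat_lit 269)) (XT.lf (nat_lit 0) (nat_lit 58649567213) (nat_lit 380) (nat_lit 6713877447) (nat_lit 76) (nat_lit 1713683045) (nat_lit 266) (nat_lit 5) (nat_lit 271) (nat_lit 5) (nat_lit 267) (nat_lit 5) (nat_lit 382) (nat_lit 370) (nat_lit 268))) (XT.nd (nat_lit 78) (nat_lit 608) (nat_lit 0) (XT.lf (nat_lit 0) (nat_lit 7845882301) (nat_lit 380) (nat_lit 13599623080) (nat_lit 76) (nat_lit 48655933416) (nat_lit 261) (nat_lit 5) (nat_lit 266) (nat_lit 5) (nat_lit 262) (nat_lit 5) (nat_lit 383) (nat_lit 370) (nat_lit 267)) (XT.nd (nat_lit 78) (nat_lit 304) (nat_lit 0) (XT.lf (nat_lit 0) (nat_lit 26500242594) (nat_lit 380) (nat_lit 20528663648) (nat_lit 76) (nat_lit 26263165560) (nat_lit 257) (nat_lit 5) (nat_lit 262) (nat_lit 5) (nat_lit 258) (nat_lit 5) (nat_lit 384) (nat_lit 370) (nat_lit 266)) (XT.lf (nat_lit 0) (nat_lit 48039730833) (nat_lit 380) (nat_lit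 27283658877) (nat_lit 76) (nat_lit 1344926783) (nat_lit 253) (nat_lit 5) (nat_lit 258) (nat_lit 5) (nat_lit 254) (nat_lit 5) (nat_lit 385) (nat_lit 370) (nat_lit 265))))))))
noncomputable def xc174 : XT := (XT.nd (nat_lit 1248) (nat_lit 2204) (nat_lit 0) (XT.nd (nat_lit 624) (nat_lit 1368) (nat_lit 0) (XT.nd (nat_lit 312) (nat_lit 988) (nat_lit 0) (XT.nd (nat_lit 156) (nat_lit 456) (nat_lit 0) (XT.nd (nat_lit 78) (nat_lit 380) (nat_lit 0) (XT.lf (nat_lit 0) (nat_lit 45997286376) (nat_lit 228) (nat_lit 27177134290) (nat_lit 304) (nat_lit 7046637964) (nat_lit 250) (nat_lit 5) (nat_lit 253) (nat_lit 5) (nat_lit 254) (nat_lit 5) (nat_lit 386) (nat_lit 370) (nat_lit 264)) (XT.lf (nat_lit 0) (nat_lit 17307076490) (nat_lit 380) (nat_lit 41199874381) (nat_lit 76) (nat_lit 25460089994) (nat_lit 245) (nat_lit 5) (nat_lit 250) (nat_lit 5) (nat_lit 246) (nat_lit 5) (nat_lit 387) (nat_lit 370) (nat_lit 263)))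 (XT.nd (nat_lit 78) (nat_lit 228) (nat_lit 0) (XT.lf (nat_lit 0) (nat_lit 39841653643) (nat_lit 228) (nat_lit 5207742469) (nat_lit 304) (nat_lit 42873170240) (nat_lit 242) (nat_lit 5) (nat_lit 245) (nat_lit 5) (nat_lit 246) (nat_lit 5) (nat_lit 388) (nat_lit 370) (nat_lit 262)) (XT.lf (nat_lit 0) (nat_lit 37031921653) (nat_lit 228) (nat_lit 40101978535) (nat_lit 304) (nat_lit 14954493746) (nat_lit 239) (nat_lit 5) (nat_lit 242) (nat_lit 5) (nat_lit 243) (nat_lit 5) (nat_lit 389) (nat_lit 370) (nat_lit 261)))) (XT.nd (nat_lit 156) (nat_lit 456) (nat_lit 0) (XT.nd (nat_lit 78) (nat_lit 228) (nat_lit 0) (XT.lf (nat_lit 0) (nat_lit 16485150076) (nat_lit 304) (nat_lit 61893443745) (nat_lit 76) (nat_lit 18108335295) (nat_lit 235) (nat_lit 5) (nat_lit 239) (nat_lit 5) (nat_lit 236) (nat_lit 5) (nat_lit 390) (nat_lit 370) (nat_lit 260)) (XT.lf (nat_lit 0) (nat_lit 32277998553) (nat_lit 228) (nat_lit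 19797901604) (nat_lit 304) (nat_lit 49041195806) (nat_lit 232) (nat_lit 5) (nat_lit 235) (nat_lit 5) (nat_lit 236) (nat_lit 5) (nat_lit 391) (nat_lit 370) (nat_lit 259))) (XT.nd (nat_lit 78) (nat_lit 304) (nat_lit 0) (XT.lf (nat_lit 0) (nat_lit 30403261670) (nat_lit 152) (nat_lit 62357862847) (nat_lit 228) (nat_lit 13244190928) (nat_lit 230) (nat_lit 5) (nat_lit 232) (nat_lit 5) (nat_lit 233) (nat_lit 5) (nat_lit 392) (nat_lit 370) (nat_lit 258)) (XT.lf (nat_lit 0) (nat_lit 26643742938) (nat_lit 304) (nat_lit 82208588621) (nat_lit 76) (nat_lit 2310386842) (nat_lit 226) (nat_lit 5) (nat_lit 230) (nat_lit 5) (nat_lit 227) (nat_lit 5) (nat_lit 393) (nat_lit 370) (nat_lit 257))))) (XT.nd (nat_lit 312) (nat_lit 684) (nat_lit 0) (XT.nd (nat_lit 156) (nat_lit 304) (nat_lit 0) (XT.nd (nat_lit 78) (nat_lit 228) (nat_lit 0) (XT.lf (nat_lit 0) (nat_lit 27488144690) (nat_lit 152) (nat_lit 44594107711) (nat_lit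 228) (nat_lit 44498427658) (nat_lit 224) (nat_lit 5) (nat_lit 226) (nat_lit 5) (nat_lit 227) (nat_lit 5) (nat_lit 394) (nat_lit 370) (nat_lit 256)) (XT.lf (nat_lit 0) (nat_lit 1064053065) (nat_lit 228) (nat_lit 95350250852) (nat_lit 76) (nat_lit 25903798935) (nat_lit 221) (nat_lit 5) (nat_lit 224) (nat_lit 5) (nat_lit 222) (nat_lit 5) (nat_lit 395) (nat_lit 370) (nat_lit 255))) (XT.nd (nat_lit 78) (nat_lit 152) (nat_lit 0) (XT.lf (nat_lit 0) (nat_lit 26371141960) (nat_lit 152) (nat_lit 25101585205) (nat_lit 228) (nat_lit 76867308029) (nat_lit 219) (nat_lit 5) (nat_lit 221) (nat_lit 5) (nat_lit 222) (nat_lit 5) (nat_lit 396) (nat_lit 370) (nat_lit 254)) (XT.lf (nat_lit 0) (nat_lit 26481538193) (nat_lit 152) (nat_lit 82343117727) (nat_lit 228) (nat_lit 25873538168) (nat_lit 217) (nat_lit 5) (nat_lit 219) (nat_lit 5) (nat_lit 220) (nat_lit 5) (nat_lit 397) (nat_lit 370) (nat_lit 253)))) (XT.nd (nat_lit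 156) (nat_lit 304) (nat_lit 0) (XT.nd (nat_lit 78) (nat_lit 152) (nat_lit 0) (XT.lf (nat_lit 0) (nat_lit 27337096116) (nat_lit 152) (nat_lit 3581919618) (nat_lit 228) (nat_lit 110490502661) (nat_lit 214) (nat_lit 5) (nat_lit 216) (nat_lit 5) (nat_lit 217) (nat_lit 5) (nat_lit 398) (nat_lit 370) (nat_lit 252)) (XT.lf (nat_lit 0) (nat_lit 28196567125) (nat_lit 152) (nat_lit 66790868095) (nat_lit 228) (nat_lit 53467158409) (nat_lit 212) (nat_lit 5) (nat_lit 214) (nat_lit 5) (nat_lit 215) (nat_lit 5) (nat_lit 399) (nat_lit 370) (nat_lit 251))) (XT.nd (nat_lit 78) (nat_lit 152) (nat_lit 0) (XT.lf (nat_lit 0) (nat_lit 10733355260) (nat_lit 152) (nat_lit 125528464720) (nat_lit 76) (nat_lit 19651361109) (nat_lit 210) (nat_lit 5) (nat_lit 212) (nat_lit 5) (nat_lit 211) (nat_lit 5) (nat_lit 400) (nat_lit 370) (nat_lit 250)) (XT.lf (nat_lit 0) (nat_lit 32484641567) (nat_lit 152) (nat_lit 49498232327) (nat_lit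 228) (nat_lit 81752446479) (nat_lit 208) (nat_lit 5) (nat_lit 210) (nat_lit 5) (nat_lit 211) (nat_lit 5) (nat_lit 401) (nat_lit 370) (nat_lit 249)))))) (XT.nd (nat_lit 624) (nat_lit 988) (nat_lit 0) (XT.nd (nat_lit 312) (nat_lit 608) (nat_lit 0) (XT.nd (nat_lit 156) (nat_lit 304) (nat_lit 0) (XT.nd (nat_lit 78) (nat_lit 228) (nat_lit 0) (XT.lf (nat_lit 0) (nat_lit 35970278976) (nat_lit 76) (nat_lit 126434978223) (nat_lit 152) (nat_lit 9604328442) (nat_lit 207) (nat_lit 5) (nat_lit 208) (nat_lit 5) (nat_lit 209) (nat_lit 4) (nat_lit 402) (nat_lit 370) (nat_lit 248)) (XT.lf (nat_lit 0) (nat_lit 39755700019) (nat_lit 152) (nat_lit 30151214188) (nat_lit 228) (nat_lit 110796657881) (nat_lit 204) (nat_lit 5) (nat_lit 206) (nat_lit 5) (nat_lit 207) (nat_lit 5) (nat_lit 403) (nat_lit 370) (nat_lit 247))) (XT.nd (nat_lit 78) (nat_lit 228) (nat_lit 0) (XT.lf (nat_lit 0) (nat_lit 44568206906) (nat_lit 76)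 (nat_lit 115134770237) (nat_lit 152) (nat_lit 30169207420) (nat_lit 203) (nat_lit 5) (nat_lit 204) (nat_lit 5) (nat_lit 205) (nat_lit 4) (nat_lit 404) (nat_lit 370) (nat_lit 246)) (XT.lf (nat_lit 0) (nat_lit 50483627765) (nat_lit 152) (nat_lit 8394227697) (nat_lit 228) (nat_lit 140662463472) (nat_lit 200) (nat_lit 5) (nat_lit 202) (nat_lit 5) (nat_lit 203) (nat_lit 5) (nat_lit 405) (nat_lit 370) (nat_lit 245)))) (XT.nd (nat_lit 156) (nat_lit 304) (nat_lit 0) (XT.nd (nat_lit 78) (nat_lit 228) (nat_lit 0) (XT.lf (nat_lit 0) (nat_lit 56866546718) (nat_lit 76) (nat_lit 102267326921) (nat_lit 152) (nat_lit 50566192940) (nat_lit 199) (nat_lit 5) (nat_lit 200) (nat_lit 5) (nat_lit 201) (nat_lit 4) (nat_lit 406) (nat_lit 370) (nat_lit 244)) (XT.lf (nat_lit 0) (nat_lit 49292043107) (nat_lit 228) (nat_lit 155483807473) (nat_lit 76) (nat_lit 15657749835) (nat_lit 196) (nat_lit 5) (nat_lit 199) (nat_lit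 5) (nat_lit 197) (nat_lit 4) (nat_lit 407) (nat_lit 370) (nat_lit 243))) (XT.nd (nat_lit 78) (nat_lit 228) (nat_lit 0) (XT.lf (nat_lit 0) (nat_lit 73448731986) (nat_lit 76) (nat_lit 87518248161) (nat_lit 152) (nat_lit 70737407351) (nat_lit 195) (nat_lit 5) (nat_lit 196) (nat_lit 5) (nat_lit 197) (nat_lit 4) (nat_lit 408) (nat_lit 370) (nat_lit 242)) (XT.lf (nat_lit 0) (nat_lit 41251915440) (nat_lit 228) (nat_lit 159752219711) (nat_lit 76) (nat_lit 42605300654) (nat_lit 192) (nat_lit 5) (nat_lit 195) (nat_lit 5) (nat_lit 193) (nat_lit 4) (nat_lit 409) (nat_lit 370) (nat_lit 241))))) (XT.nd (nat_lit 312) (nat_lit 532) (nat_lit 0) (XT.nd (nat_lit 156) (nat_lit 228) (nat_lit 0) (XT.nd (nat_lit 78) (nat_lit 152) (nat_lit 0) (XT.lf (nat_lit 0) (nat_lit 94985805276) (nat_lit 76) (nat_lit 70528992128) (nat_lit 152) (nat_lit 90604473716) (nat_lit 191) (nat_lit 5) (nat_lit 192) (nat_lit 5) (nat_lit 193)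 (nat_lit 4) (nat_lit 410) (nat_lit 370) (nat_lit 240)) (XT.lf (nat_lit 0) (nat_lit 34840543333) (nat_lit 152) (nat_lit 161262930957) (nat_lit 76) (nat_lit 73217192596) (nat_lit 189) (nat_lit 5) (nat_lit 191) (nat_lit 5) (nat_lit 190) (nat_lit 4) (nat_lit 411) (nat_lit 370) (nat_lit 239))) (XT.nd (nat_lit 78) (nat_lit 152) (nat_lit 0) (XT.lf (nat_lit 0) (nat_lit 122248231043) (nat_lit 76) (nat_lit 50890791809) (nat_lit 152) (nat_lit 110065275475) (nat_lit 188) (nat_lit 5) (nat_lit 189) (nat_lit 5) (nat_lit 190) (nat_lit 4) (nat_lit 412) (nat_lit 370) (nat_lit 238)) (XT.lf (nat_lit 0) (nat_lit 30310945138) (nat_lit 152) (nat_lit 159469641902) (nat_lit 76) (nat_lit 108059760292) (nat_lit 186) (nat_lit 5) (nat_lit 188) (nat_lit 5) (nat_lit 187) (nat_lit 4) (nat_lit 413) (nat_lit 370) (nat_lit 237)))) (XT.nd (nat_lit 156) (nat_lit 304) (nat_lit 0) (XT.nd (nat_lit 78) (nat_lit 152) (nat_lit 0) (XT.lf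 (nat_lit 0) (nat_lit 156119245889) (nat_lit 76) (nat_lit 28137785350) (nat_lit 152) (nat_lit 128990235632) (nat_lit 185) (nat_lit 5) (nat_lit 186) (nat_lit 5) (nat_lit 187) (nat_lit 4) (nat_lit 414) (nat_lit 370) (nat_lit 236)) (XT.lf (nat_lit 0) (nat_lit 27960454109) (nat_lit 152) (nat_lit 153736510276) (nat_lit 76) (nat_lit 147774232135) (nat_lit 183) (nat_lit 5) (nat_lit 185) (nat_lit 5) (nat_lit 184) (nat_lit 4) (nat_lit 415) (nat_lit 370) (nat_lit 235))) (XT.nd (nat_lit 78) (nat_lit 228) (nat_lit 0) (XT.lf (nat_lit 0) (nat_lit 197609939252) (nat_lit 76) (nat_lit 1739261307) (nat_lit 152) (nat_lit 147218050726) (nat_lit 182) (nat_lit 5) (nat_lit 183) (nat_lit 5) (nat_lit 184) (nat_lit 4) (nat_lit 416) (nat_lit 370) (nat_lit 234)) (XT.nd (nat_lit 78) (nat_lit 76) (nat_lit 0) (XT.lf (nat_lit 0) (nat_lit 28136879279) (nat_lit 152) (nat_lit 143325461270) (nat_lit 76) (nat_lit 193086475267) (nat_lit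 180) (nat_lit 5) (nat_lit 182) (nat_lit 5) (nat_lit 181) (nat_lit 4) (nat_lit 417) (nat_lit 370) (nat_lit 233)) (XT.lf (nat_lit 0) (nat_lit 219418541045) (nat_lit 152) (nat_lit 136093066120) (nat_lit 0) (nat_lit 27983820773) (nat_lit 179) (nat_lit 5) (nat_lit 181) (nat_lit 4) (nat_lit 179) (nat_lit 4) (nat_lit 418) (nat_lit 370) (nat_lit 232))))))))
noncomputable def xc175 : XT := (XT.nd (nat_lit 1248) (nat_lit 1444) (nat_lit 0) (XT.nd (nat_lit 624) (nat_lit 988) (nat_lit 0) (XT.nd (nat_lit 312) (nat_lit 456) (nat_lit 0) (XT.nd (nat_lit 156) (nat_lit 228) (nat_lit 0) (XT.nd (nat_lit 78) (nat_lit 76) (nat_lit 0) (XT.lf (nat_lit 0) (nat_lit 31245496875) (nat_lit 152) (nat_lit 127381797791) (nat_lit 76) (nat_lit 244817959841) (nat_lit 177) (nat_lit 5) (nat_lit 179) (nat_lit 5) (nat_lit 178) (nat_lit 4) (nat_lit 419) (nat_lit 370) (nat_lit 231)) (XT.lf (nat_lit 0) (nat_lit 244750231004) (nat_lit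 152) (nat_lit 117260281276) (nat_lit 0) (nat_lit 62430814944) (nat_lit 176) (nat_lit 5) (nat_lit 178) (nat_lit 4) (nat_lit 176) (nat_lit 4) (nat_lit 420) (nat_lit 370) (nat_lit 230))) (XT.nd (nat_lit 78) (nat_lit 76) (nat_lit 0) (XT.lf (nat_lit 0) (nat_lit 37756978592) (nat_lit 152) (nat_lit 104917892552) (nat_lit 76) (nat_lit 303898092262) (nat_lit 174) (nat_lit 5) (nat_lit 176) (nat_lit 5) (nat_lit 175) (nat_lit 4) (nat_lit 421) (nat_lit 370) (nat_lit 229)) (XT.lf (nat_lit 0) (nat_lit 276052793889) (nat_lit 152) (nat_lit 91372942625) (nat_lit 0) (nat_lit 102414736423) (nat_lit 173) (nat_lit 5) (nat_lit 175) (nat_lit 4) (nat_lit 173) (nat_lit 4) (nat_lit 422) (nat_lit 370) (nat_lit 228)))) (XT.nd (nat_lit 156) (nat_lit 228) (nat_lit 0) (XT.nd (nat_lit 78) (nat_lit 76) (nat_lit 0) (XT.lf (nat_lit 0) (nat_lit 48216376323) (nat_lit 152) (nat_lit 74794716754) (nat_lit 76) (nat_lit 371378085203)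 (nat_lit 171) (nat_lit 5) (nat_lit 173) (nat_lit 5) (nat_lit 172) (nat_lit 4) (nat_lit 423) (nat_lit 370) (nat_lit 227)) (XT.lf (nat_lit 0) (nat_lit 314166661301) (nat_lit 152) (nat_lit 57210852804) (nat_lit 0) (nat_lit 148796659513) (nat_lit 170) (nat_lit 5) (nat_lit 172) (nat_lit 4) (nat_lit 170) (nat_lit 4) (nat_lit 424) (nat_lit 370) (nat_lit 226))) (XT.nd (nat_lit 78) (nat_lit 76) (nat_lit 0) (XT.lf (nat_lit 0) (nat_lit 63253297864) (nat_lit 152) (nat_lit 35700929577) (nat_lit 76) (nat_lit 448446552462) (nat_lit 168) (nat_lit 5) (nat_lit 170) (nat_lit 5) (nat_lit 169) (nat_lit 4) (nat_lit 425) (nat_lit 370) (nat_lit 225)) (XT.lf (nat_lit 0) (nat_lit 360050662917) (nat_lit 152) (nat_lit 13370256138) (nat_lit 0) (nat_lit 202555077530) (nat_lit 167) (nat_lit 5) (nat_lit 169) (nat_lit 4) (nat_lit 167) (nat_lit 4) (nat_lit 426) (nat_lit 370) (nat_lit 224))))) (XT.nd (nat_lit 312) (nat_lit 456)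 (nat_lit 0) (XT.nd (nat_lit 156) (nat_lit 228) (nat_lit 0) (XT.nd (nat_lit 78) (nat_lit 76) (nat_lit 0) (XT.lf (nat_lit 0) (nat_lit 14329412307) (nat_lit 76) (nat_lit 69487734782) (nat_lit 152) (nat_lit 522341349328) (nat_lit 164) (nat_lit 5) (nat_lit 165) (nat_lit 5) (nat_lit 166) (nat_lit 4) (nat_lit 427) (nat_lit 370) (nat_lit 223)) (XT.lf (nat_lit 0) (nat_lit 43142115541) (nat_lit 76) (nat_lit 372328862169) (nat_lit 76) (nat_lit 222332784385) (nat_lit 163) (nat_lit 4) (nat_lit 164) (nat_lit 5) (nat_lit 164) (nat_lit 4) (nat_lit 428) (nat_lit 370) (nat_lit 222))) (XT.nd (nat_lit 78) (nat_lit 76) (nat_lit 0) (XT.lf (nat_lit 0) (nat_lit 78151804785) (nat_lit 76) (nat_lit 33139906523) (nat_lit 152) (nat_lit 559966088617) (nat_lit 161) (nat_lit 5) (nat_lit 162) (nat_lit 5) (nat_lit 163) (nat_lit 4) (nat_lit 429) (nat_lit 370) (nat_lit 221)) (XT.lf (nat_lit 0) (nat_lit 113671580007) (nat_lit 76)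 (nat_lit 367753773194) (nat_lit 76) (nat_lit 224900135379) (nat_lit 160) (nat_lit 4) (nat_lit 161) (nat_lit 5) (nat_lit 161) (nat_lit 4) (nat_lit 430) (nat_lit 370) (nat_lit 220)))) (XT.nd (nat_lit 156) (nat_lit 228) (nat_lit 0) (XT.nd (nat_lit 78) (nat_lit 76) (nat_lit 0) (XT.lf (nat_lit 0) (nat_lit 146256375817) (nat_lit 152) (nat_lit 586946636269) (nat_lit 0) (nat_lit 10205194503) (nat_lit 158) (nat_lit 5) (nat_lit 160) (nat_lit 4) (nat_lit 158) (nat_lit 4) (nat_lit 431) (nat_lit 370) (nat_lit 219)) (XT.lf (nat_lit 0) (nat_lit 199964922338) (nat_lit 76) (nat_lit 359181756636) (nat_lit 76) (nat_lit 223130484877) (nat_lit 157) (nat_lit 4) (nat_lit 158) (nat_lit 5) (nat_lit 158) (nat_lit 4) (nat_lit 432) (nat_lit 370) (nat_lit 218))) (XT.nd (nat_lit 78) (nat_lit 76) (nat_lit 0) (XT.lf (nat_lit 0) (nat_lit 190333073307) (nat_lit 152) (nat_lit 572255679263) (nat_lit 0) (nat_lit 60760353779) (nat_lit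 155) (nat_lit 5) (nat_lit 157) (nat_lit 4) (nat_lit 155) (nat_lit 4) (nat_lit 433) (nat_lit 370) (nat_lit 217)) (XT.lf (nat_lit 0) (nat_lit 304526639524) (nat_lit 76) (nat_lit 345754413575) (nat_lit 76) (nat_lit 216181620197) (nat_lit 154) (nat_lit 4) (nat_lit 155) (nat_lit 5) (nat_lit 155) (nat_lit 4) (nat_lit 434) (nat_lit 370) (nat_lit 216)))))) (XT.nd (nat_lit 624) (nat_lit 532) (nat_lit 0) (XT.nd (nat_lit 312) (nat_lit 456) (nat_lit 0) (XT.nd (nat_lit 156) (nat_lit 228) (nat_lit 0) (XT.nd (nat_lit 78) (nat_lit 76) (nat_lit 0) (XT.lf (nat_lit 0) (nat_lit 244326245137) (nat_lit 152) (nat_lit 546702084056) (nat_lit 0) (nat_lit 120923519654) (nat_lit 152) (nat_lit 5) (nat_lit 154) (nat_lit 4) (nat_lit 152) (nat_lit 4) (nat_lit 435) (nat_lit 370) (nat_lit 215)) (XT.lf (nat_lit 0) (nat_lit 430219192779) (nat_lit 76) (nat_lit 326478357659) (nat_lit 76) (nat_lit 203075571876) (nat_lit 151) (nat_lit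 4) (nat_lit 152) (nat_lit 5) (nat_lit 152) (nat_lit 4) (nat_lit 436) (nat_lit 370) (nat_lit 214))) (XT.nd (nat_lit 78) (nat_lit 76) (nat_lit 0) (XT.lf (nat_lit 0) (nat_lit 309747280343) (nat_lit 152) (nat_lit 508185567944) (nat_lit 0) (nat_lit 192220764519) (nat_lit 149) (nat_lit 5) (nat_lit 151) (nat_lit 4) (nat_lit 149) (nat_lit 4) (nat_lit 437) (nat_lit 370) (nat_lit 213)) (XT.lf (nat_lit 0) (nat_lit 580310793149) (nat_lit 76) (nat_lit 300206038292) (nat_lit 76) (nat_lit 182679473233) (nat_lit 148) (nat_lit 4) (nat_lit 149) (nat_lit 5) (nat_lit 149) (nat_lit 4) (nat_lit 438) (nat_lit 370) (nat_lit 212)))) (XT.nd (nat_lit 156) (nat_lit 228) (nat_lit 0) (XT.nd (nat_lit 78) (nat_lit 76) (nat_lit 0) (XT.lf (nat_lit 0) (nat_lit 388322282550) (nat_lit 152) (nat_lit 454278768269) (nat_lit 0) (nat_lit 276392177172) (nat_lit 146) (nat_lit 5) (nat_lit 148) (nat_lit 4) (nat_lit 146) (nat_lit 4) (nat_lit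 439) (nat_lit 370) (nat_lit 211)) (XT.lf (nat_lit 0) (nat_lit 758529321258) (nat_lit 76) (nat_lit 265614012270) (nat_lit 76) (nat_lit 153683866691) (nat_lit 145) (nat_lit 4) (nat_lit 146) (nat_lit 5) (nat_lit 146) (nat_lit 4) (nat_lit 440) (nat_lit 370) (nat_lit 210))) (XT.nd (nat_lit 78) (nat_lit 76) (nat_lit 0) (XT.lf (nat_lit 0) (nat_lit 482020472666) (nat_lit 152) (nat_lit 382181437185) (nat_lit 0) (nat_lit 375420298568) (nat_lit 143) (nat_lit 5) (nat_lit 145) (nat_lit 4) (nat_lit 143) (nat_lit 4) (nat_lit 441) (nat_lit 370) (nat_lit 209)) (XT.lf (nat_lit 0) (nat_lit 969123146681) (nat_lit 76) (nat_lit 221178337100) (nat_lit 76) (nat_lit 114578130178) (nat_lit 142) (nat_lit 4) (nat_lit 143) (nat_lit 5) (nat_lit 143) (nat_lit 4) (nat_lit 442) (nat_lit 370) (nat_lit 208))))) (XT.nd (nat_lit 47502) (nat_lit 0) (nat_lit 11932) (XT.nd (nat_lit 156) (nat_lit 304) (nat_lit 0) (XT.nd (nat_lit 78)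 (nat_lit 76) (nat_lit 0) (XT.lf (nat_lit 0) (nat_lit 593086222845) (nat_lit 152) (nat_lit 288668574640) (nat_lit 0) (nat_lit 491562187307) (nat_lit 140) (nat_lit 5) (nat_lit 142) (nat_lit 4) (nat_lit 140) (nat_lit 4) (nat_lit 443) (nat_lit 370) (nat_lit 207)) (XT.lf (nat_lit 0) (nat_lit 1216929706066) (nat_lit 76) (nat_lit 165146718532) (nat_lit 76) (nat_lit 63622656192) (nat_lit 139) (nat_lit 4) (nat_lit 140) (nat_lit 5) (nat_lit 140) (nat_lit 4) (nat_lit 444) (nat_lit 370) (nat_lit 206))) (XT.nd (nat_lit 78) (nat_lit 152) (nat_lit 0) (XT.lf (nat_lit 0) (nat_lit 724075173241) (nat_lit 152) (nat_lit 170031726998) (nat_lit 0) (nat_lit 627385566425) (nat_lit 137) (nat_lit 5) (nat_lit 139) (nat_lit 4) (nat_lit 137) (nat_lit 4) (nat_lit 445) (nat_lit 370) (nat_lit 205)) (XT.lf (nat_lit 0) (nat_lit 1144778032) (nat_lit 152) (nat_lit 94342833734) (nat_lit 76) (nat_lit 1506288638612) (nat_lit 135) (nat_lit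 5) (nat_lit 137) (nat_lit 5) (nat_lit 136) (nat_lit 4) (nat_lit 446) (nat_lit 370) (nat_lit 204)))) (XT.nd (nat_lit 156) (nat_lit 0) (nat_lit 76) (XT.nd (nat_lit 78) (nat_lit 0) (nat_lit 76) (XT.lf (nat_lit 0) (nat_lit 10140010541) (nat_lit 836) (nat_lit 5959475481) (nat_lit 836) (nat_lit 5959475481) (nat_lit 292) (nat_lit 3) (nat_lit 303) (nat_lit 3) (nat_lit 303) (nat_lit 5) (nat_lit 371) (nat_lit 371) (nat_lit 278)) (XT.lf (nat_lit 0) (nat_lit 21561334441) (nat_lit 760) (nat_lit 21754447892) (nat_lit 836) (nat_lit 2543351972) (nat_lit 293) (nat_lit 5) (nat_lit 303) (nat_lit 5) (nat_lit 304) (nat_lit 5) (nat_lit 372) (nat_lit 371) (nat_lit 277))) (XT.nd (nat_lit 78) (nat_lit 0) (nat_lit 76) (XT.lf (nat_lit 76) (nat_lit 15658274252) (nat_lit 0) (nat_lit 8280089335) (nat_lit 836) (nat_lit 23751618379) (nat_lit 294) (nat_lit 5) (nat_lit 293) (nat_lit 5) (nat_lit 304) (nat_lit 5) (nat_lit 373)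 (nat_lit 371) (nat_lit 276)) (XT.nd (nat_lit 78) (nat_lit 0) (nat_lit 76) (XT.lf (nat_lit 76) (nat_lit 6943786531) (nat_lit 0) (nat_lit 20511984400) (nat_lit 836) (nat_lit 22164015717) (nat_lit 295) (nat_lit 5) (nat_lit 294) (nat_lit 5) (nat_lit 305) (nat_lit 5) (nat_lit 374) (nat_lit 371) (nat_lit 275)) (XT.lf (nat_lit 0) (nat_lit 32227782355) (nat_lit 760) (nat_lit 1918040378) (nat_lit 836) (nat_lit 17509492398) (nat_lit 295) (nat_lit 5) (nat_lit 305) (nat_lit 5) (nat_lit 306) (nat_lit 5) (nat_lit 375) (nat_lit 371) (nat_lit 274))))))))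
noncomputable def xc176 : XT := (XT.nd (nat_lit 1248) (nat_lit 2736) (nat_lit 0) (XT.nd (nat_lit 624) (nat_lit 2356) (nat_lit 0) (XT.nd (nat_lit 312) (nat_lit 1064) (nat_lit 0) (XT.nd (nat_lit 156) (nat_lit 1216) (nat_lit 0) (XT.nd (nat_lit 78) (nat_lit 0) (nat_lit 0) (XT.lf (nat_lit 0) (nat_lit 38470589124) (nat_lit 760) (nat_lit 10744803041) (nat_lit 836) (nat_lit 4583842004) (nat_lit 296) (nat_lit 5) (nat_lit 306) (nat_lit 5) (nat_lit 307) (nat_lit 5) (nat_lit 376) (nat_lit 371) (nat_lit 273)) (XT.lf (nat_lit 76) (nat_lit 36157973079) (nat_lit 0) (nat_lit 10225191559) (nat_lit 836) (nat_lit 9672984883) (nat_lit 297) (nat_lit 5) (nat_lit 296) (nat_lit 5) (nat_lit 307) (nat_lit 5) (nat_lit 377) (nat_lit 371) (nat_lit 272))) (XT.nd (nat_lit 78) (nat_lit 532) (nat_lit 0) (XT.lf (nat_lit 0) (nat_lit 29140978285) (nat_lit 760) (nat_lit 26927126231) (nat_lit 836) (nat_lit 2368545669) (nat_lit 287)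 (nat_lit 5) (nat_lit 297) (nat_lit 5) (nat_lit 298) (nat_lit 5) (nat_lit 378) (nat_lit 371) (nat_lit 271)) (XT.lf (nat_lit 0) (nat_lit 6463153566) (nat_lit 532) (nat_lit 38941725314) (nat_lit 76) (nat_lit 15542423329) (nat_lit 280) (nat_lit 5) (nat_lit 287) (nat_lit 5) (nat_lit 281) (nat_lit 5) (nat_lit 379) (nat_lit 371) (nat_lit 270)))) (XT.nd (nat_lit 156) (nat_lit 304) (nat_lit 0) (XT.nd (nat_lit 78) (nat_lit 380) (nat_lit 0) (XT.lf (nat_lit 0) (nat_lit 14791602776) (nat_lit 380) (nat_lit 2328296308) (nat_lit 456) (nat_lit 46476891247) (nat_lit 275) (nat_lit 5) (nat_lit 280) (nat_lit 5) (nat_lit 281) (nat_lit 5) (nat_lit 380) (nat_lit 371) (nat_lit 269)) (XT.lf (nat_lit 0) (nat_lit 7319769834) (nat_lit 380) (nat_lit 22800075547) (nat_lit 456) (nat_lit 36263859064) (nat_lit 270) (nat_lit 5) (nat_lit 275) (nat_lit 5) (nat_lit 276) (nat_lit 5) (nat_lit 381) (nat_lit 371) (nat_lit 268))) (XT.nd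 (nat_lit 78) (nat_lit 304) (nat_lit 0) (XT.lf (nat_lit 0) (nat_lit 45429558732) (nat_lit 456) (nat_lit 99305195) (nat_lit 76) (nat_lit 23801219196) (nat_lit 270) (nat_lit 5) (nat_lit 276) (nat_lit 5) (nat_lit 271) (nat_lit 5) (nat_lit 382) (nat_lit 371) (nat_lit 267)) (XT.lf (nat_lit 0) (nat_lit 63395053997) (nat_lit 380) (nat_lit 7187552454) (nat_lit 76) (nat_lit 1858015400) (nat_lit 266) (nat_lit 5) (nat_lit 271) (nat_lit 5) (nat_lit 267) (nat_lit 5) (nat_lit 383) (nat_lit 371) (nat_lit 266))))) (XT.nd (nat_lit 312) (nat_lit 1140) (nat_lit 0) (XT.nd (nat_lit 156) (nat_lit 532) (nat_lit 0) (XT.nd (nat_lit 78) (nat_lit 304) (nat_lit 0) (XT.lf (nat_lit 0) (nat_lit 8524885041) (nat_lit 380) (nat_lit 14625217281) (nat_lit 76) (nat_lit 52556884971) (nat_lit 261) (nat_lit 5) (nat_lit 266) (nat_lit 5) (nat_lit 262) (nat_lit 5) (nat_lit 384) (nat_lit 371) (nat_lit 265)) (XT.lf (nat_lit 0) (nat_lit 28668898231)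 (nat_lit 380) (nat_lit 22109043718) (nat_lit 76) (nat_lit 28375063786) (nat_lit 257) (nat_lit 5) (nat_lit 262) (nat_lit 5) (nat_lit 258) (nat_lit 5) (nat_lit 385) (nat_lit 371) (nat_lit 264))) (XT.nd (nat_lit 78) (nat_lit 228) (nat_lit 0) (XT.lf (nat_lit 0) (nat_lit 51929074563) (nat_lit 380) (nat_lit 29405038412) (nat_lit 76) (nat_lit 1465360574) (nat_lit 253) (nat_lit 5) (nat_lit 258) (nat_lit 5) (nat_lit 254) (nat_lit 5) (nat_lit 386) (nat_lit 371) (nat_lit 263)) (XT.lf (nat_lit 0) (nat_lit 49735717866) (nat_lit 228) (nat_lit 29336317737) (nat_lit 304) (nat_lit 7564524654) (nat_lit 250) (nat_lit 5) (nat_lit 253) (nat_lit 5) (nat_lit 254) (nat_lit 5) (nat_lit 387) (nat_lit 371) (nat_lit 262)))) (XT.nd (nat_lit 156) (nat_lit 532) (nat_lit 0) (XT.nd (nat_lit 78) (nat_lit 228) (nat_lit 0) (XT.lf (nat_lit 0) (nat_lit 18733872493) (nat_lit 380) (nat_lit 44436503871) (nat_lit 76) (nat_lit 27511916275)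 (nat_lit 245) (nat_lit 5) (nat_lit 250) (nat_lit 5) (nat_lit 246) (nat_lit 5) (nat_lit 388) (nat_lit 371) (nat_lit 261)) (XT.lf (nat_lit 0) (nat_lit 43085766662) (nat_lit 228) (nat_lit 5607569391) (nat_lit 304) (nat_lit 46261036195) (nat_lit 242) (nat_lit 5) (nat_lit 245) (nat_lit 5) (nat_lit 246) (nat_lit 5) (nat_lit 389) (nat_lit 371) (nat_lit 260))) (XT.nd (nat_lit 78) (nat_lit 304) (nat_lit 0) (XT.lf (nat_lit 0) (nat_lit 40050450228) (nat_lit 228) (nat_lit 43292304815) (nat_lit 304) (nat_lit 16110803264) (nat_lit 239) (nat_lit 5) (nat_lit 242) (nat_lit 5) (nat_lit 243) (nat_lit 5) (nat_lit 390) (nat_lit 371) (nat_lit 259)) (XT.lf (nat_lit 0) (nat_lit 17840994883) (nat_lit 304) (nat_lit 66788594578) (nat_lit 76) (nat_lit 19574442345) (nat_lit 235) (nat_lit 5) (nat_lit 239) (nat_lit 5) (nat_lit 236) (nat_lit 5) (nat_lit 391) (nat_lit 371) (nat_lit 258)))))) (XT.nd (nat_lit 624) (nat_lit 1140)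 (nat_lit 0) (XT.nd (nat_lit 312) (nat_lit 760) (nat_lit 0) (XT.nd (nat_lit 156) (nat_lit 456) (nat_lit 0) (XT.nd (nat_lit 78) (nat_lit 152) (nat_lit 0) (XT.lf (nat_lit 0) (nat_lit 34914115303) (nat_lit 228) (nat_lit 21362987665) (nat_lit 304) (nat_lit 52927604132) (nat_lit 232) (nat_lit 5) (nat_lit 235) (nat_lit 5) (nat_lit 236) (nat_lit 5) (nat_lit 392) (nat_lit 371) (nat_lit 257)) (XT.lf (nat_lit 0) (nat_lit 32888458290) (nat_lit 152) (nat_lit 67327182178) (nat_lit 228) (nat_lit 14268418912) (nat_lit 230) (nat_lit 5) (nat_lit 232) (nat_lit 5) (nat_lit 233) (nat_lit 5) (nat_lit 393) (nat_lit 371) (nat_lit 256))) (XT.nd (nat_lit 78) (nat_lit 152) (nat_lit 0) (XT.lf (nat_lit 0) (nat_lit 28807996147) (nat_lit 304) (nat_lit 88732237701) (nat_lit 76) (nat_lit 2513864337) (nat_lit 226) (nat_lit 5) (nat_lit 230) (nat_lit 5) (nat_lit 227) (nat_lit 5) (nat_lit 394) (nat_lit 371) (nat_lit 255)) (XT.lf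 (nat_lit 0) (nat_lit 29737929308) (nat_lit 152) (nat_lit 48142022939) (nat_lit 228) (nat_lit 48025626234) (nat_lit 224) (nat_lit 5) (nat_lit 226) (nat_lit 5) (nat_lit 227) (nat_lit 5) (nat_lit 395) (nat_lit 371) (nat_lit 254)))) (XT.nd (nat_lit 156) (nat_lit 380) (nat_lit 0) (XT.nd (nat_lit 78) (nat_lit 152) (nat_lit 0) (XT.lf (nat_lit 0) (nat_lit 1179541411) (nat_lit 228) (nat_lit 102927543250) (nat_lit 76) (nat_lit 27994948214) (nat_lit 221) (nat_lit 5) (nat_lit 224) (nat_lit 5) (nat_lit 222) (nat_lit 5) (nat_lit 396) (nat_lit 371) (nat_lit 253)) (XT.lf (nat_lit 0) (nat_lit 28529356424) (nat_lit 152) (nat_lit 27090061403) (nat_lit 228) (nat_lit 82986376558) (nat_lit 219) (nat_lit 5) (nat_lit 221) (nat_lit 5) (nat_lit 222) (nat_lit 5) (nat_lit 397) (nat_lit 371) (nat_lit 252))) (XT.nd (nat_lit 78) (nat_lit 228) (nat_lit 0) (XT.lf (nat_lit 0) (nat_lit 28647563019) (nat_lit 152) (nat_lit 88910824872)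 (nat_lit 228) (nat_lit 27914273749) (nat_lit 217) (nat_lit 5) (nat_lit 219) (nat_lit 5) (nat_lit 220) (nat_lit 5) (nat_lit 398) (nat_lit 371) (nat_lit 251)) (XT.lf (nat_lit 0) (nat_lit 29570393566) (nat_lit 152) (nat_lit 3848991368) (nat_lit 228) (nat_lit 119301552536) (nat_lit 214) (nat_lit 5) (nat_lit 216) (nat_lit 5) (nat_lit 217) (nat_lit 5) (nat_lit 399) (nat_lit 371) (nat_lit 250))))) (XT.nd (nat_lit 312) (nat_lit 608) (nat_lit 0) (XT.nd (nat_lit 156) (nat_lit 228) (nat_lit 0) (XT.nd (nat_lit 78) (nat_lit 152) (nat_lit 0) (XT.lf (nat_lit 0) (nat_lit 30497601931) (nat_lit 152) (nat_lit 72114676353) (nat_lit 228) (nat_lit 57717390423) (nat_lit 212) (nat_lit 5) (nat_lit 214) (nat_lit 5) (nat_lit 215) (nat_lit 5) (nat_lit 400) (nat_lit 371) (nat_lit 249)) (XT.lf (nat_lit 0) (nat_lit 11617338307) (nat_lit 152) (nat_lit 135525618932) (nat_lit 76) (nat_lit 21242012605) (nat_lit 210) (nat_lit 5)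 (nat_lit 212) (nat_lit 5) (nat_lit 211) (nat_lit 5) (nat_lit 401) (nat_lit 371) (nat_lit 248))) (XT.nd (nat_lit 78) (nat_lit 76) (nat_lit 0) (XT.lf (nat_lit 0) (nat_lit 35126574869) (nat_lit 152) (nat_lit 53439042285) (nat_lit 228) (nat_lit 88267323181) (nat_lit 208) (nat_lit 5) (nat_lit 210) (nat_lit 5) (nat_lit 211) (nat_lit 5) (nat_lit 402) (nat_lit 371) (nat_lit 247)) (XT.lf (nat_lit 0) (nat_lit 38890056297) (nat_lit 76) (nat_lit 136530882183) (nat_lit 152) (nat_lit 10348250977) (nat_lit 207) (nat_lit 5) (nat_lit 208) (nat_lit 5) (nat_lit 209) (nat_lit 4) (nat_lit 403) (nat_lit 371) (nat_lit 246)))) (XT.nd (nat_lit 156) (nat_lit 304) (nat_lit 0) (XT.nd (nat_lit 78) (nat_lit 76) (nat_lit 0) (XT.lf (nat_lit 0) (nat_lit 42977226758) (nat_lit 152) (nat_lit 32544772582) (nat_lit 228) (nat_lit 119636731916) (nat_lit 204) (nat_lit 5) (nat_lit 206) (nat_lit 5) (nat_lit 207) (nat_lit 5) (nat_lit 404)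 (nat_lit 371) (nat_lit 245)) (XT.lf (nat_lit 0) (nat_lit 48173750088) (nat_lit 76) (nat_lit 124327222052) (nat_lit 152) (nat_lit 32559899347) (nat_lit 203) (nat_lit 5) (nat_lit 204) (nat_lit 5) (nat_lit 205) (nat_lit 4) (nat_lit 405) (nat_lit 371) (nat_lit 244))) (XT.nd (nat_lit 78) (nat_lit 76) (nat_lit 0) (XT.lf (nat_lit 0) (nat_lit 54561361896) (nat_lit 152) (nat_lit 9047807046) (nat_lit 228) (nat_lit 151893321255) (nat_lit 200) (nat_lit 5) (nat_lit 202) (nat_lit 5) (nat_lit 203) (nat_lit 5) (nat_lit 406) (nat_lit 371) (nat_lit 243)) (XT.lf (nat_lit 0) (nat_lit 61453957796) (nat_lit 76) (nat_lit 110431003190) (nat_lit 152) (nat_lit 54590092045) (nat_lit 199) (nat_lit 5) (nat_lit 200) (nat_lit 5) (nat_lit 201) (nat_lit 4) (nat_lit 407) (nat_lit 371) (nat_lit 242)))))))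
noncomputable def xc177 : XT := (XT.nd (nat_lit 1248) (nat_lit 2052) (nat_lit 0) (XT.nd (nat_lit 624) (nat_lit 912) (nat_lit 0) (XT.nd (nat_lit 312) (nat_lit 456) (nat_lit 0) (XT.nd (nat_lit 156) (nat_lit 304) (nat_lit 0) (XT.nd (nat_lit 78) (nat_lit 76) (nat_lit 0) (XT.lf (nat_lit 0) (nat_lit 53255433500) (nat_lit 228) (nat_lit 167884707668) (nat_lit 76) (nat_lit 16927145933) (nat_lit 196) (nat_lit 5) (nat_lit 199) (nat_lit 5) (nat_lit 197) (nat_lit 4) (nat_lit 408) (nat_lit 371) (nat_lit 241)) (XT.lf (nat_lit 0) (nat_lit 79360792015) (nat_lit 76) (nat_lit 94502654594) (nat_lit 152) (nat_lit 76376336488) (nat_lit 195) (nat_lit 5) (nat_lit 196) (nat_lit 5) (nat_lit 197) (nat_lit 4) (nat_lit 409) (nat_lit 371) (nat_lit 240))) (XT.nd (nat_lit 78) (nat_lit 76) (nat_lit 0) (XT.lf (nat_lit 0) (nat_lit 44570861287) (nat_lit 228) (nat_lit 172496526783) (nat_lit 76) (nat_lit 46029862970) (nat_lit 192)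 (nat_lit 5) (nat_lit 195) (nat_lit 5) (nat_lit 193) (nat_lit 4) (nat_lit 410) (nat_lit 371) (nat_lit 239)) (XT.lf (nat_lit 0) (nat_lit 102618981315) (nat_lit 76) (nat_lit 76154936148) (nat_lit 152) (nat_lit 97833998533) (nat_lit 191) (nat_lit 5) (nat_lit 192) (nat_lit 5) (nat_lit 193) (nat_lit 4) (nat_lit 411) (nat_lit 371) (nat_lit 238)))) (XT.nd (nat_lit 156) (nat_lit 228) (nat_lit 0) (XT.nd (nat_lit 78) (nat_lit 76) (nat_lit 0) (XT.lf (nat_lit 0) (nat_lit 37645437871) (nat_lit 152) (nat_lit 174129948049) (nat_lit 76) (nat_lit 79090051764) (nat_lit 189) (nat_lit 5) (nat_lit 191) (nat_lit 5) (nat_lit 190) (nat_lit 4) (nat_lit 412) (nat_lit 371) (nat_lit 237)) (XT.lf (nat_lit 0) (nat_lit 132060628557) (nat_lit 76) (nat_lit 54946367732) (nat_lit 152) (nat_lit 118852803323) (nat_lit 188) (nat_lit 5) (nat_lit 189) (nat_lit 5) (nat_lit 190) (nat_lit 4) (nat_lit 413) (nat_lit 371) (nat_lit 236)))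 (XT.nd (nat_lit 78) (nat_lit 76) (nat_lit 0) (XT.lf (nat_lit 0) (nat_lit 32752413369) (nat_lit 152) (nat_lit 172194968021) (nat_lit 76) (nat_lit 116719364098) (nat_lit 186) (nat_lit 5) (nat_lit 188) (nat_lit 5) (nat_lit 187) (nat_lit 4) (nat_lit 414) (nat_lit 371) (nat_lit 235)) (XT.lf (nat_lit 0) (nat_lit 168639629456) (nat_lit 76) (nat_lit 30373809380) (nat_lit 152) (nat_lit 139292817131) (nat_lit 185) (nat_lit 5) (nat_lit 186) (nat_lit 5) (nat_lit 187) (nat_lit 4) (nat_lit 415) (nat_lit 371) (nat_lit 234))))) (XT.nd (nat_lit 312) (nat_lit 456) (nat_lit 0) (XT.nd (nat_lit 156) (nat_lit 228) (nat_lit 0) (XT.nd (nat_lit 78) (nat_lit 76) (nat_lit 0) (XT.lf (nat_lit 0) (nat_lit 30212899374) (nat_lit 152) (nat_lit 166004877711) (nat_lit 76) (nat_lit 159610334710) (nat_lit 183) (nat_lit 5) (nat_lit 185) (nat_lit 5) (nat_lit 184) (nat_lit 4) (nat_lit 416) (nat_lit 371) (nat_lit 233)) (XT.lf (nat_lit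 0) (nat_lit 213447959966) (nat_lit 76) (nat_lit 1864085649) (nat_lit 152) (nat_lit 158979840322) (nat_lit 182) (nat_lit 5) (nat_lit 183) (nat_lit 5) (nat_lit 184) (nat_lit 4) (nat_lit 417) (nat_lit 371) (nat_lit 232))) (XT.nd (nat_lit 78) (nat_lit 76) (nat_lit 0) (XT.lf (nat_lit 0) (nat_lit 30402522465) (nat_lit 152) (nat_lit 154762557647) (nat_lit 76) (nat_lit 208546906326) (nat_lit 180) (nat_lit 5) (nat_lit 182) (nat_lit 5) (nat_lit 181) (nat_lit 4) (nat_lit 418) (nat_lit 371) (nat_lit 231)) (XT.lf (nat_lit 0) (nat_lit 236986274075) (nat_lit 152) (nat_lit 146952339825) (nat_lit 0) (nat_lit 30235735787) (nat_lit 179) (nat_lit 5) (nat_lit 181) (nat_lit 4) (nat_lit 179) (nat_lit 4) (nat_lit 419) (nat_lit 371) (nat_lit 230)))) (XT.nd (nat_lit 156) (nat_lit 228) (nat_lit 0) (XT.nd (nat_lit 78) (nat_lit 76) (nat_lit 0) (XT.lf (nat_lit 0) (nat_lit 33758974752) (nat_lit 152) (nat_lit 137544936781)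 (nat_lit 76) (nat_lit 264416271428) (nat_lit 177) (nat_lit 5) (nat_lit 179) (nat_lit 5) (nat_lit 178) (nat_lit 4) (nat_lit 420) (nat_lit 371) (nat_lit 229)) (XT.lf (nat_lit 0) (nat_lit 264343674671) (nat_lit 152) (nat_lit 126614431641) (nat_lit 0) (nat_lit 67437855831) (nat_lit 176) (nat_lit 5) (nat_lit 178) (nat_lit 4) (nat_lit 176) (nat_lit 4) (nat_lit 421) (nat_lit 371) (nat_lit 228))) (XT.nd (nat_lit 78) (nat_lit 76) (nat_lit 0) (XT.lf (nat_lit 0) (nat_lit 40790576249) (nat_lit 152) (nat_lit 113285379817) (nat_lit 76) (nat_lit 328222192443) (nat_lit 174) (nat_lit 5) (nat_lit 176) (nat_lit 5) (nat_lit 175) (nat_lit 4) (nat_lit 422) (nat_lit 371) (nat_lit 227)) (XT.lf (nat_lit 0) (nat_lit 298149671255) (nat_lit 152) (nat_lit 98657531257) (nat_lit 0) (nat_lit 110619875567) (nat_lit 173) (nat_lit 5) (nat_lit 175) (nat_lit 4) (nat_lit 173) (nat_lit 4) (nat_lit 423) (nat_lit 371) (nat_lit 226))))))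 (XT.nd (nat_lit 624) (nat_lit 1064) (nat_lit 0) (XT.nd (nat_lit 312) (nat_lit 532) (nat_lit 0) (XT.nd (nat_lit 156) (nat_lit 228) (nat_lit 0) (XT.nd (nat_lit 78) (nat_lit 76) (nat_lit 0) (XT.lf (nat_lit 0) (nat_lit 52085978259) (nat_lit 152) (nat_lit 80753738087) (nat_lit 76) (nat_lit 401099981605) (nat_lit 171) (nat_lit 5) (nat_lit 173) (nat_lit 5) (nat_lit 172) (nat_lit 4) (nat_lit 424) (nat_lit 371) (nat_lit 225)) (XT.lf (nat_lit 0) (nat_lit 339311925562) (nat_lit 152) (nat_lit 61763828099) (nat_lit 0) (nat_lit 160711757278) (nat_lit 170) (nat_lit 5) (nat_lit 172) (nat_lit 4) (nat_lit 170) (nat_lit 4) (nat_lit 425) (nat_lit 371) (nat_lit 224))) (XT.nd (nat_lit 78) (nat_lit 76) (nat_lit 0) (XT.lf (nat_lit 0) (nat_lit 68325153027) (nat_lit 152) (nat_lit 38533766109) (nat_lit 76) (nat_lit 484333343592) (nat_lit 168) (nat_lit 5) (nat_lit 170) (nat_lit 5) (nat_lit 169) (nat_lit 4) (nat_lit 426)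 (nat_lit 371) (nat_lit 223)) (XT.lf (nat_lit 0) (nat_lit 388865969762) (nat_lit 152) (nat_lit 14417268751) (nat_lit 0) (nat_lit 218770275109) (nat_lit 167) (nat_lit 5) (nat_lit 169) (nat_lit 4) (nat_lit 167) (nat_lit 4) (nat_lit 427) (nat_lit 371) (nat_lit 222)))) (XT.nd (nat_lit 156) (nat_lit 228) (nat_lit 0) (XT.nd (nat_lit 78) (nat_lit 76) (nat_lit 0) (XT.lf (nat_lit 0) (nat_lit 15498479180) (nat_lit 76) (nat_lit 75035328491) (nat_lit 152) (nat_lit 564116804020) (nat_lit 164) (nat_lit 5) (nat_lit 165) (nat_lit 5) (nat_lit 166) (nat_lit 4) (nat_lit 428) (nat_lit 371) (nat_lit 221)) (XT.lf (nat_lit 0) (nat_lit 46615580840) (nat_lit 76) (nat_lit 402104037838) (nat_lit 76) (nat_lit 240107896247) (nat_lit 163) (nat_lit 4) (nat_lit 164) (nat_lit 5) (nat_lit 164) (nat_lit 4) (nat_lit 429) (nat_lit 371) (nat_lit 220))) (XT.nd (nat_lit 78) (nat_lit 76) (nat_lit 0) (XT.lf (nat_lit 0) (nat_lit 84425437365)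 (nat_lit 76) (nat_lit 35780263439) (nat_lit 152) (nat_lit 604752190485) (nat_lit 161) (nat_lit 5) (nat_lit 162) (nat_lit 5) (nat_lit 163) (nat_lit 4) (nat_lit 430) (nat_lit 371) (nat_lit 219)) (XT.lf (nat_lit 0) (nat_lit 122786208413) (nat_lit 76) (nat_lit 397163519535) (nat_lit 76) (nat_lit 242881282393) (nat_lit 160) (nat_lit 4) (nat_lit 161) (nat_lit 5) (nat_lit 161) (nat_lit 4) (nat_lit 431) (nat_lit 371) (nat_lit 218))))) (XT.nd (nat_lit 312) (nat_lit 608) (nat_lit 0) (XT.nd (nat_lit 156) (nat_lit 228) (nat_lit 0) (XT.nd (nat_lit 78) (nat_lit 76) (nat_lit 0) (XT.lf (nat_lit 0) (nat_lit 157967100738) (nat_lit 152) (nat_lit 633881698588) (nat_lit 0) (nat_lit 11031553047) (nat_lit 158) (nat_lit 5) (nat_lit 160) (nat_lit 4) (nat_lit 158) (nat_lit 4) (nat_lit 432) (nat_lit 371) (nat_lit 217)) (XT.lf (nat_lit 0) (nat_lit 215981886477) (nat_lit 76) (nat_lit 387906293686) (nat_lit 76) (nat_lit 240970668453)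 (nat_lit 157) (nat_lit 4) (nat_lit 158) (nat_lit 5) (nat_lit 158) (nat_lit 4) (nat_lit 433) (nat_lit 371) (nat_lit 216))) (XT.nd (nat_lit 78) (nat_lit 76) (nat_lit 0) (XT.lf (nat_lit 0) (nat_lit 205569362945) (nat_lit 152) (nat_lit 618016585856) (nat_lit 0) (nat_lit 65630603868) (nat_lit 155) (nat_lit 5) (nat_lit 157) (nat_lit 4) (nat_lit 155) (nat_lit 4) (nat_lit 434) (nat_lit 371) (nat_lit 215)) (XT.lf (nat_lit 0) (nat_lit 328907468913) (nat_lit 76) (nat_lit 373405289785) (nat_lit 76) (nat_lit 233466467394) (nat_lit 154) (nat_lit 4) (nat_lit 155) (nat_lit 5) (nat_lit 155) (nat_lit 4) (nat_lit 435) (nat_lit 371) (nat_lit 214)))) (XT.nd (nat_lit 156) (nat_lit 380) (nat_lit 0) (XT.nd (nat_lit 78) (nat_lit 76) (nat_lit 0) (XT.lf (nat_lit 0) (nat_lit 263881450831) (nat_lit 152) (nat_lit 590419764567) (nat_lit 0) (nat_lit 130606326054) (nat_lit 152) (nat_lit 5) (nat_lit 154) (nat_lit 4) (nat_lit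 152) (nat_lit 4) (nat_lit 436) (nat_lit 371) (nat_lit 213)) (XT.lf (nat_lit 0) (nat_lit 464654411026) (nat_lit 76) (nat_lit 352587651082) (nat_lit 76) (nat_lit 219312474609) (nat_lit 151) (nat_lit 4) (nat_lit 152) (nat_lit 5) (nat_lit 152) (nat_lit 4) (nat_lit 437) (nat_lit 371) (nat_lit 212))) (XT.nd (nat_lit 78) (nat_lit 228) (nat_lit 0) (XT.lf (nat_lit 0) (nat_lit 334535662336) (nat_lit 152) (nat_lit 548822932266) (nat_lit 0) (nat_lit 207606877250) (nat_lit 149) (nat_lit 5) (nat_lit 151) (nat_lit 4) (nat_lit 149) (nat_lit 4) (nat_lit 438) (nat_lit 371) (nat_lit 211)) (XT.nd (nat_lit 78) (nat_lit 152) (nat_lit 0) (XT.lf (nat_lit 0) (nat_lit 626752378007) (nat_lit 76) (nat_lit 324214023579) (nat_lit 76) (nat_lit 197285196281) (nat_lit 148) (nat_lit 4) (nat_lit 149) (nat_lit 5) (nat_lit 149) (nat_lit 4) (nat_lit 439) (nat_lit 371) (nat_lit 210)) (XT.lf (nat_lit 0) (nat_lit 419396187357) (nat_lit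 152) (nat_lit 490604540056) (nat_lit 0) (nat_lit 298511552707) (nat_lit 146) (nat_lit 5) (nat_lit 148) (nat_lit 4) (nat_lit 146) (nat_lit 4) (nat_lit 440) (nat_lit 371) (nat_lit 209))))))))
noncomputable def xc178 : XT := (XT.nd (nat_lit 48516) (nat_lit 0) (nat_lit 6384) (XT.nd (nat_lit 47892) (nat_lit 0) (nat_lit 10488) (XT.nd (nat_lit 312) (nat_lit 228) (nat_lit 0) (XT.nd (nat_lit 156) (nat_lit 228) (nat_lit 0) (XT.nd (nat_lit 78) (nat_lit 152) (nat_lit 0) (XT.lf (nat_lit 0) (nat_lit 819227478274) (nat_lit 76) (nat_lit 286855089354) (nat_lit 76) (nat_lit 165970420238) (nat_lit 145) (nat_lit 4) (nat_lit 146) (nat_lit 5) (nat_lit 146) (nat_lit 4) (nat_lit 441) (nat_lit 371) (nat_lit 208)) (XT.lf (nat_lit 0) (nat_lit 520589782617) (nat_lit 152) (nat_lit 412740322947) (nat_lit 0) (nat_lit 405461495923) (nat_lit 143) (nat_lit 5) (nat_lit 145) (nat_lit 4) (nat_lit 143) (nat_lit 4) (nat_lit 442) (nat_lit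 371) (nat_lit 207))) (XT.nd (nat_lit 78) (nat_lit 152) (nat_lit 0) (XT.lf (nat_lit 0) (nat_lit 1046667948402) (nat_lit 76) (nat_lit 238864991324) (nat_lit 76) (nat_lit 123736676488) (nat_lit 142) (nat_lit 4) (nat_lit 143) (nat_lit 5) (nat_lit 143) (nat_lit 4) (nat_lit 443) (nat_lit 371) (nat_lit 206)) (XT.lf (nat_lit 0) (nat_lit 640540368337) (nat_lit 152) (nat_lit 311747283465) (nat_lit 0) (nat_lit 530894329391) (nat_lit 140) (nat_lit 5) (nat_lit 142) (nat_lit 4) (nat_lit 140) (nat_lit 4) (nat_lit 444) (nat_lit 371) (nat_lit 205)))) (XT.nd (nat_lit 47424) (nat_lit 0) (nat_lit 11780) (XT.nd (nat_lit 78) (nat_lit 152) (nat_lit 0) (XT.lf (nat_lit 0) (nat_lit 1314298217501) (nat_lit 76) (nat_lit 178351252551) (nat_lit 76) (nat_lit 68705190627) (nat_lit 139) (nat_lit 4) (nat_lit 140) (nat_lit 5) (nat_lit 140) (nat_lit 4) (nat_lit 445) (nat_lit 371) (nat_lit 204)) (XT.lf (nat_lit 0) (nat_lit 782008034309)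 (nat_lit 152) (nat_lit 183620294162) (nat_lit 0) (nat_lit 677583193165) (nat_lit 137) (nat_lit 5) (nat_lit 139) (nat_lit 4) (nat_lit 137) (nat_lit 4) (nat_lit 446) (nat_lit 371) (nat_lit 203))) (XT.nd (nat_lit 78) (nat_lit 0) (nat_lit 76) (XT.lf (nat_lit 0) (nat_lit 11002035455) (nat_lit 836) (nat_lit 6409550883) (nat_lit 836) (nat_lit 6409550883) (nat_lit 292) (nat_lit 3) (nat_lit 303) (nat_lit 3) (nat_lit 303) (nat_lit 5) (nat_lit 372) (nat_lit 372) (nat_lit 276)) (XT.lf (nat_lit 0) (nat_lit 23380471890) (nat_lit 760) (nat_lit 23438326932) (nat_lit 836) (nat_lit 2704354692) (nat_lit 293) (nat_lit 5) (nat_lit 303) (nat_lit 5) (nat_lit 304) (nat_lit 5) (nat_lit 373) (nat_lit 372) (nat_lit 275))))) (XT.nd (nat_lit 312) (nat_lit 1368) (nat_lit 0) (XT.nd (nat_lit 156) (nat_lit 0) (nat_lit 152) (XT.nd (nat_lit 78) (nat_lit 0) (nat_lit 76) (XT.lf (nat_lit 76) (nat_lit 16964958571) (nat_lit 0) (nat_lit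 8976568187) (nat_lit 836) (nat_lit 25559249061) (nat_lit 294) (nat_lit 5) (nat_lit 293) (nat_lit 5) (nat_lit 304) (nat_lit 5) (nat_lit 374) (nat_lit 372) (nat_lit 274)) (XT.lf (nat_lit 76) (nat_lit 7555686203) (nat_lit 0) (nat_lit 22178502959) (nat_lit 836) (nat_lit 23851082590) (nat_lit 295) (nat_lit 5) (nat_lit 294) (nat_lit 5) (nat_lit 305) (nat_lit 5) (nat_lit 375) (nat_lit 372) (nat_lit 273))) (XT.nd (nat_lit 78) (nat_lit 0) (nat_lit 76) (XT.lf (nat_lit 0) (nat_lit 34881521143) (nat_lit 760) (nat_lit 2015100610) (nat_lit 836) (nat_lit 18887342778) (nat_lit 295) (nat_lit 5) (nat_lit 305) (nat_lit 5) (nat_lit 306) (nat_lit 5) (nat_lit 376) (nat_lit 372) (nat_lit 272)) (XT.lf (nat_lit 0) (nat_lit 41618737911) (nat_lit 760) (nat_lit 11546653609) (nat_lit 836) (nat_lit 4934256300) (nat_lit 296) (nat_lit 5) (nat_lit 306) (nat_lit 5) (nat_lit 307) (nat_lit 5) (nat_lit 377) (nat_lit 372) (nat_lit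 271)))) (XT.nd (nat_lit 156) (nat_lit 912) (nat_lit 0) (XT.nd (nat_lit 78) (nat_lit 684) (nat_lit 0) (XT.lf (nat_lit 76) (nat_lit 39105835566) (nat_lit 0) (nat_lit 11054123766) (nat_lit 836) (nat_lit 10377375075) (nat_lit 297) (nat_lit 5) (nat_lit 296) (nat_lit 5) (nat_lit 307) (nat_lit 5) (nat_lit 378) (nat_lit 372) (nat_lit 270)) (XT.lf (nat_lit 0) (nat_lit 31528407583) (nat_lit 760) (nat_lit 29087106302) (nat_lit 836) (nat_lit 2492970264) (nat_lit 287) (nat_lit 5) (nat_lit 297) (nat_lit 5) (nat_lit 298) (nat_lit 5) (nat_lit 379) (nat_lit 372) (nat_lit 269))) (XT.nd (nat_lit 78) (nat_lit 380) (nat_lit 0) (XT.lf (nat_lit 0) (nat_lit 7039333026) (nat_lit 532) (nat_lit 41998347367) (nat_lit 76) (nat_lit 16782449633) (nat_lit 280) (nat_lit 5) (nat_lit 287) (nat_lit 5) (nat_lit 281) (nat_lit 5) (nat_lit 380) (nat_lit 372) (nat_lit 268)) (XT.lf (nat_lit 0) (nat_lit 16031095245) (nat_lit 380) (nat_lit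 2514020031) (nat_lit 456) (nat_lit 50136637068) (nat_lit 275) (nat_lit 5) (nat_lit 280) (nat_lit 5) (nat_lit 281) (nat_lit 5) (nat_lit 381) (nat_lit 372) (nat_lit 267)))))) (XT.nd (nat_lit 624) (nat_lit 1824) (nat_lit 0) (XT.nd (nat_lit 312) (nat_lit 1216) (nat_lit 0) (XT.nd (nat_lit 156) (nat_lit 684) (nat_lit 0) (XT.nd (nat_lit 78) (nat_lit 0) (nat_lit 0) (XT.lf (nat_lit 0) (nat_lit 7961727119) (nat_lit 380) (nat_lit 24620097831) (nat_lit 456) (nat_lit 39109956254) (nat_lit 270) (nat_lit 5) (nat_lit 275) (nat_lit 5) (nat_lit 276) (nat_lit 5) (nat_lit 382) (nat_lit 372) (nat_lit 266)) (XT.lf (nat_lit 0) (nat_lit 49112492075) (nat_lit 456) (nat_lit 52681927) (nat_lit 76) (nat_lit 25708887338) (nat_lit 270) (nat_lit 5) (nat_lit 276) (nat_lit 5) (nat_lit 271) (nat_lit 5) (nat_lit 383) (nat_lit 372) (nat_lit 265))) (XT.nd (nat_lit 78) (nat_lit 380) (nat_lit 0) (XT.lf (nat_lit 0) (nat_lit 68512544297)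 (nat_lit 380) (nat_lit 7708171201) (nat_lit 76) (nat_lit 2012861802) (nat_lit 266) (nat_lit 5) (nat_lit 271) (nat_lit 5) (nat_lit 267) (nat_lit 5) (nat_lit 384) (nat_lit 372) (nat_lit 264)) (XT.lf (nat_lit 0) (nat_lit 9250884894) (nat_lit 380) (nat_lit 15741757602) (nat_lit 76) (nat_lit 56768703328) (nat_lit 261) (nat_lit 5) (nat_lit 266) (nat_lit 5) (nat_lit 262) (nat_lit 5) (nat_lit 385) (nat_lit 372) (nat_lit 263)))) (XT.nd (nat_lit 156) (nat_lit 608) (nat_lit 0) (XT.nd (nat_lit 78) (nat_lit 304) (nat_lit 0) (XT.lf (nat_lit 0) (nat_lit 31004107816) (nat_lit 380) (nat_lit 23824686778) (nat_lit 76) (nat_lit 30654366713) (nat_lit 257) (nat_lit 5) (nat_lit 262) (nat_lit 5) (nat_lit 258) (nat_lit 5) (nat_lit 386) (nat_lit 372) (nat_lit 262)) (XT.lf (nat_lit 0) (nat_lit 56122979800) (nat_lit 380) (nat_lit 31704875320) (nat_lit 76) (nat_lit 1593597349) (nat_lit 253) (nat_lit 5) (nat_lit 258) (nat_lit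 5) (nat_lit 254) (nat_lit 5) (nat_lit 387) (nat_lit 372) (nat_lit 261))) (XT.nd (nat_lit 78) (nat_lit 380) (nat_lit 0) (XT.lf (nat_lit 0) (nat_lit 53764856999) (nat_lit 228) (nat_lit 31670373965) (nat_lit 304) (nat_lit 8130382488) (nat_lit 250) (nat_lit 5) (nat_lit 253) (nat_lit 5) (nat_lit 254) (nat_lit 5) (nat_lit 388) (nat_lit 372) (nat_lit 260)) (XT.lf (nat_lit 0) (nat_lit 20268787612) (nat_lit 380) (nat_lit 47940532154) (nat_lit 76) (nat_lit 29725746019) (nat_lit 245) (nat_lit 5) (nat_lit 250) (nat_lit 5) (nat_lit 246) (nat_lit 5) (nat_lit 389) (nat_lit 372) (nat_lit 259))))) (XT.nd (nat_lit 312) (nat_lit 836) (nat_lit 0) (XT.nd (nat_lit 156) (nat_lit 532) (nat_lit 0) (XT.nd (nat_lit 78) (nat_lit 228) (nat_lit 0) (XT.lf (nat_lit 0) (nat_lit 46581308316) (nat_lit 228) (nat_lit 6041778101) (nat_lit 304) (nat_lit 49925921436) (nat_lit 242) (nat_lit 5) (nat_lit 245) (nat_lit 5) (nat_lit 246)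 (nat_lit 5) (nat_lit 390) (nat_lit 372) (nat_lit 258)) (XT.lf (nat_lit 0) (nat_lit 43302475651) (nat_lit 228) (nat_lit 46740401132) (nat_lit 304) (nat_lit 17365331121) (nat_lit 239) (nat_lit 5) (nat_lit 242) (nat_lit 5) (nat_lit 243) (nat_lit 5) (nat_lit 391) (nat_lit 372) (nat_lit 257))) (XT.nd (nat_lit 78) (nat_lit 228) (nat_lit 0) (XT.lf (nat_lit 0) (nat_lit 19300024131) (nat_lit 304) (nat_lit 72083392820) (nat_lit 76) (nat_lit 21155349916) (nat_lit 235) (nat_lit 5) (nat_lit 239) (nat_lit 5) (nat_lit 236) (nat_lit 5) (nat_lit 392) (nat_lit 372) (nat_lit 256)) (XT.lf (nat_lit 0) (nat_lit 37753435256) (nat_lit 228) (nat_lit 23055954948) (nat_lit 304) (nat_lit 57130187515) (nat_lit 232) (nat_lit 5) (nat_lit 235) (nat_lit 5) (nat_lit 236) (nat_lit 5) (nat_lit 393) (nat_lit 372) (nat_lit 255)))) (XT.nd (nat_lit 156) (nat_lit 380) (nat_lit 0) (XT.nd (nat_lit 78) (nat_lit 304) (nat_lit 0) (XT.lf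 (nat_lit 0) (nat_lit 35564918773) (nat_lit 152) (nat_lit 72696801801) (nat_lit 228) (nat_lit 15379622114) (nat_lit 230) (nat_lit 5) (nat_lit 232) (nat_lit 5) (nat_lit 233) (nat_lit 5) (nat_lit 394) (nat_lit 372) (nat_lit 254)) (XT.lf (nat_lit 0) (nat_lit 31140716920) (nat_lit 304) (nat_lit 95785345173) (nat_lit 76) (nat_lit 2730959893) (nat_lit 226) (nat_lit 5) (nat_lit 230) (nat_lit 5) (nat_lit 227) (nat_lit 5) (nat_lit 395) (nat_lit 372) (nat_lit 253))) (XT.nd (nat_lit 78) (nat_lit 228) (nat_lit 0) (XT.lf (nat_lit 0) (nat_lit 32160459059) (nat_lit 152) (nat_lit 51976569454) (nat_lit 228) (nat_lit 51839662242) (nat_lit 224) (nat_lit 5) (nat_lit 226) (nat_lit 5) (nat_lit 227) (nat_lit 5) (nat_lit 396) (nat_lit 372) (nat_lit 252)) (XT.lf (nat_lit 0) (nat_lit 1299937046) (nat_lit 228) (nat_lit 111118255909) (nat_lit 76) (nat_lit 30250700934) (nat_lit 221) (nat_lit 5) (nat_lit 224) (nat_lit 5) (nat_lit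 222) (nat_lit 5) (nat_lit 397) (nat_lit 372) (nat_lit 251)))))))
noncomputable def xc179 : XT := (XT.nd (nat_lit 1248) (nat_lit 1976) (nat_lit 0) (XT.nd (nat_lit 624) (nat_lit 1140) (nat_lit 0) (XT.nd (nat_lit 312) (nat_lit 608) (nat_lit 0) (XT.nd (nat_lit 156) (nat_lit 380) (nat_lit 0) (XT.nd (nat_lit 78) (nat_lit 152) (nat_lit 0) (XT.lf (nat_lit 0) (nat_lit 30853305682) (nat_lit 152) (nat_lit 29240419078) (nat_lit 228) (nat_lit 89599295501) (nat_lit 219) (nat_lit 5) (nat_lit 221) (nat_lit 5) (nat_lit 222) (nat_lit 5) (nat_lit 398) (nat_lit 372) (nat_lit 250)) (XT.lf (nat_lit 0) (nat_lit 30980093172) (nat_lit 152) (nat_lit 96006765044) (nat_lit 228) (nat_lit 30122426390) (nat_lit 217) (nat_lit 5) (nat_lit 219) (nat_lit 5) (nat_lit 220) (nat_lit 5) (nat_lit 399) (nat_lit 372) (nat_lit 249))) (XT.nd (nat_lit 78) (nat_lit 152) (nat_lit 0) (XT.lf (nat_lit 0) (nat_lit 31975745353) (nat_lit 152) (nat_lit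 4140208158) (nat_lit 228) (nat_lit 128821508068) (nat_lit 214) (nat_lit 5) (nat_lit 216) (nat_lit 5) (nat_lit 217) (nat_lit 5) (nat_lit 400) (nat_lit 372) (nat_lit 248)) (XT.lf (nat_lit 0) (nat_lit 32976255624) (nat_lit 152) (nat_lit 77867165628) (nat_lit 228) (nat_lit 62311512916) (nat_lit 212) (nat_lit 5) (nat_lit 214) (nat_lit 5) (nat_lit 215) (nat_lit 5) (nat_lit 401) (nat_lit 372) (nat_lit 247)))) (XT.nd (nat_lit 156) (nat_lit 304) (nat_lit 0) (XT.nd (nat_lit 78) (nat_lit 152) (nat_lit 0) (XT.lf (nat_lit 0) (nat_lit 12568428584) (nat_lit 152) (nat_lit 146328982777) (nat_lit 76) (nat_lit 22957270911) (nat_lit 210) (nat_lit 5) (nat_lit 212) (nat_lit 5) (nat_lit 211) (nat_lit 5) (nat_lit 402) (nat_lit 372) (nat_lit 246)) (XT.lf (nat_lit 0) (nat_lit 37973705297) (nat_lit 152) (nat_lit 57697834539) (nat_lit 228) (nat_lit 95307002061) (nat_lit 208) (nat_lit 5) (nat_lit 210) (nat_lit 5) (nat_lit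 211) (nat_lit 5) (nat_lit 403) (nat_lit 372) (nat_lit 245))) (XT.nd (nat_lit 78) (nat_lit 228) (nat_lit 0) (XT.lf (nat_lit 0) (nat_lit 42037401921) (nat_lit 76) (nat_lit 147437153943) (nat_lit 152) (nat_lit 11155171634) (nat_lit 207) (nat_lit 5) (nat_lit 208) (nat_lit 5) (nat_lit 209) (nat_lit 4) (nat_lit 404) (nat_lit 372) (nat_lit 244)) (XT.lf (nat_lit 0) (nat_lit 46450616436) (nat_lit 152) (nat_lit 35132460405) (nat_lit 228) (nat_lit 129187387037) (nat_lit 204) (nat_lit 5) (nat_lit 206) (nat_lit 5) (nat_lit 207) (nat_lit 5) (nat_lit 405) (nat_lit 372) (nat_lit 243))))) (XT.nd (nat_lit 312) (nat_lit 532) (nat_lit 0) (XT.nd (nat_lit 156) (nat_lit 304) (nat_lit 0) (XT.nd (nat_lit 78) (nat_lit 228) (nat_lit 0) (XT.lf (nat_lit 0) (nat_lit 52062017918) (nat_lit 76) (nat_lit 134257684964) (nat_lit 152) (nat_lit 35145105676) (nat_lit 203) (nat_lit 5) (nat_lit 204) (nat_lit 5) (nat_lit 205) (nat_lit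 4) (nat_lit 406) (nat_lit 372) (nat_lit 242)) (XT.lf (nat_lit 0) (nat_lit 58959744707) (nat_lit 152) (nat_lit 9756234776) (nat_lit 228) (nat_lit 164025806078) (nat_lit 200) (nat_lit 5) (nat_lit 202) (nat_lit 5) (nat_lit 203) (nat_lit 5) (nat_lit 407) (nat_lit 372) (nat_lit 241))) (XT.nd (nat_lit 78) (nat_lit 228) (nat_lit 0) (XT.lf (nat_lit 0) (nat_lit 66402928177) (nat_lit 76) (nat_lit 119250300073) (nat_lit 152) (nat_lit 58938955505) (nat_lit 199) (nat_lit 5) (nat_lit 200) (nat_lit 5) (nat_lit 201) (nat_lit 4) (nat_lit 408) (nat_lit 372) (nat_lit 240)) (XT.lf (nat_lit 0) (nat_lit 57533038056) (nat_lit 228) (nat_lit 181283073100) (nat_lit 76) (nat_lit 18295700419) (nat_lit 196) (nat_lit 5) (nat_lit 199) (nat_lit 5) (nat_lit 197) (nat_lit 4) (nat_lit 409) (nat_lit 372) (nat_lit 239)))) (XT.nd (nat_lit 156) (nat_lit 228) (nat_lit 0) (XT.nd (nat_lit 78) (nat_lit 228) (nat_lit 0) (XT.lf (nat_lit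 0) (nat_lit 85740658007) (nat_lit 76) (nat_lit 102048246402) (nat_lit 152) (nat_lit 82469242231) (nat_lit 195) (nat_lit 5) (nat_lit 196) (nat_lit 5) (nat_lit 197) (nat_lit 4) (nat_lit 410) (nat_lit 372) (nat_lit 238)) (XT.lf (nat_lit 0) (nat_lit 48152641825) (nat_lit 228) (nat_lit 186265495748) (nat_lit 76) (nat_lit 49726087968) (nat_lit 192) (nat_lit 5) (nat_lit 195) (nat_lit 5) (nat_lit 193) (nat_lit 4) (nat_lit 411) (nat_lit 372) (nat_lit 237))) (XT.nd (nat_lit 78) (nat_lit 152) (nat_lit 0) (XT.lf (nat_lit 0) (nat_lit 110857916502) (nat_lit 76) (nat_lit 82233291816) (nat_lit 152) (nat_lit 105644572085) (nat_lit 191) (nat_lit 5) (nat_lit 192) (nat_lit 5) (nat_lit 193) (nat_lit 4) (nat_lit 412) (nat_lit 372) (nat_lit 236)) (XT.lf (nat_lit 0) (nat_lit 40672205849) (nat_lit 152) (nat_lit 188031179468) (nat_lit 76) (nat_lit 85430530734) (nat_lit 189) (nat_lit 5) (nat_lit 191) (nat_lit 5) (nat_lit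 190) (nat_lit 4) (nat_lit 413) (nat_lit 372) (nat_lit 235)))))) (XT.nd (nat_lit 624) (nat_lit 1064) (nat_lit 0) (XT.nd (nat_lit 312) (nat_lit 456) (nat_lit 0) (XT.nd (nat_lit 156) (nat_lit 228) (nat_lit 0) (XT.nd (nat_lit 78) (nat_lit 152) (nat_lit 0) (XT.lf (nat_lit 0) (nat_lit 142653375816) (nat_lit 76) (nat_lit 59328627716) (nat_lit 152) (nat_lit 128345857673) (nat_lit 188) (nat_lit 5) (nat_lit 189) (nat_lit 5) (nat_lit 190) (nat_lit 4) (nat_lit 414) (nat_lit 372) (nat_lit 234)) (XT.lf (nat_lit 0) (nat_lit 35386831936) (nat_lit 152) (nat_lit 185942920372) (nat_lit 76) (nat_lit 126069621544) (nat_lit 186) (nat_lit 5) (nat_lit 188) (nat_lit 5) (nat_lit 187) (nat_lit 4) (nat_lit 415) (nat_lit 372) (nat_lit 233))) (XT.nd (nat_lit 78) (nat_lit 152) (nat_lit 0) (XT.lf (nat_lit 0) (nat_lit 182157243481) (nat_lit 76) (nat_lit 32790855078) (nat_lit 152) (nat_lit 150421978655) (nat_lit 185) (nat_lit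 5) (nat_lit 186) (nat_lit 5) (nat_lit 187) (nat_lit 4) (nat_lit 416) (nat_lit 372) (nat_lit 232)) (XT.lf (nat_lit 0) (nat_lit 32643313470) (nat_lit 152) (nat_lit 179259073323) (nat_lit 76) (nat_lit 172391304837) (nat_lit 183) (nat_lit 5) (nat_lit 185) (nat_lit 5) (nat_lit 184) (nat_lit 4) (nat_lit 417) (nat_lit 372) (nat_lit 231)))) (XT.nd (nat_lit 156) (nat_lit 228) (nat_lit 0) (XT.nd (nat_lit 78) (nat_lit 152) (nat_lit 0) (XT.lf (nat_lit 0) (nat_lit 230548852983) (nat_lit 76) (nat_lit 2000938357) (nat_lit 152) (nat_lit 171684806370) (nat_lit 182) (nat_lit 5) (nat_lit 183) (nat_lit 5) (nat_lit 184) (nat_lit 4) (nat_lit 418) (nat_lit 372) (nat_lit 230)) (XT.lf (nat_lit 0) (nat_lit 32847321008) (nat_lit 152) (nat_lit 167118750424) (nat_lit 76) (nat_lit 225242244085) (nat_lit 180) (nat_lit 5) (nat_lit 182) (nat_lit 5) (nat_lit 181) (nat_lit 4) (nat_lit 419) (nat_lit 372) (nat_lit 229))) (XT.nd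 (nat_lit 78) (nat_lit 152) (nat_lit 0) (XT.lf (nat_lit 0) (nat_lit 255957392861) (nat_lit 152) (nat_lit 158684374418) (nat_lit 0) (nat_lit 32665919540) (nat_lit 179) (nat_lit 5) (nat_lit 181) (nat_lit 4) (nat_lit 179) (nat_lit 4) (nat_lit 420) (nat_lit 372) (nat_lit 228)) (XT.lf (nat_lit 0) (nat_lit 36471556696) (nat_lit 152) (nat_lit 148525036496) (nat_lit 76) (nat_lit 285580611208) (nat_lit 177) (nat_lit 5) (nat_lit 179) (nat_lit 5) (nat_lit 178) (nat_lit 4) (nat_lit 421) (nat_lit 372) (nat_lit 227))))) (XT.nd (nat_lit 312) (nat_lit 608) (nat_lit 0) (XT.nd (nat_lit 156) (nat_lit 228) (nat_lit 0) (XT.nd (nat_lit 78) (nat_lit 152) (nat_lit 0) (XT.lf (nat_lit 0) (nat_lit 285502678577) (nat_lit 152) (nat_lit 136720719115) (nat_lit 0) (nat_lit 72843665926) (nat_lit 176) (nat_lit 5) (nat_lit 178) (nat_lit 4) (nat_lit 176) (nat_lit 4) (nat_lit 422) (nat_lit 372) (nat_lit 226)) (XT.lf (nat_lit 0) (nat_lit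 44065001507) (nat_lit 152) (nat_lit 122325967286) (nat_lit 76) (nat_lit 354490472640) (nat_lit 174) (nat_lit 5) (nat_lit 176) (nat_lit 5) (nat_lit 175) (nat_lit 4) (nat_lit 423) (nat_lit 372) (nat_lit 225))) (XT.nd (nat_lit 78) (nat_lit 152) (nat_lit 0) (XT.lf (nat_lit 0) (nat_lit 322012493596) (nat_lit 152) (nat_lit 106528488715) (nat_lit 0) (nat_lit 119479719583) (nat_lit 173) (nat_lit 5) (nat_lit 175) (nat_lit 4) (nat_lit 173) (nat_lit 4) (nat_lit 424) (nat_lit 372) (nat_lit 224)) (XT.lf (nat_lit 0) (nat_lit 56263394783) (nat_lit 152) (nat_lit 87192984316) (nat_lit 76) (nat_lit 433197967776) (nat_lit 171) (nat_lit 5) (nat_lit 173) (nat_lit 5) (nat_lit 172) (nat_lit 4) (nat_lit 425) (nat_lit 372) (nat_lit 223)))) (XT.nd (nat_lit 156) (nat_lit 380) (nat_lit 0) (XT.nd (nat_lit 78) (nat_lit 152) (nat_lit 0) (XT.lf (nat_lit 0) (nat_lit 366467108823) (nat_lit 152) (nat_lit 66684450012) (nat_lit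 0) (nat_lit 173578441520) (nat_lit 170) (nat_lit 5) (nat_lit 172) (nat_lit 4) (nat_lit 170) (nat_lit 4) (nat_lit 426) (nat_lit 372) (nat_lit 222)) (XT.lf (nat_lit 0) (nat_lit 73801102970) (nat_lit 152) (nat_lit 41596544701) (nat_lit 76) (nat_lit 523089499191) (nat_lit 168) (nat_lit 5) (nat_lit 170) (nat_lit 5) (nat_lit 169) (nat_lit 4) (nat_lit 427) (nat_lit 372) (nat_lit 221))) (XT.nd (nat_lit 78) (nat_lit 304) (nat_lit 0) (XT.lf (nat_lit 0) (nat_lit 419984895672) (nat_lit 152) (nat_lit 15551267638) (nat_lit 0) (nat_lit 236281148985) (nat_lit 167) (nat_lit 5) (nat_lit 169) (nat_lit 4) (nat_lit 167) (nat_lit 4) (nat_lit 428) (nat_lit 372) (nat_lit 220)) (XT.nd (nat_lit 78) (nat_lit 76) (nat_lit 0) (XT.lf (nat_lit 0) (nat_lit 16757831012) (nat_lit 76) (nat_lit 81028359610) (nat_lit 152) (nat_lit 609235986087) (nat_lit 164) (nat_lit 5) (nat_lit 165) (nat_lit 5) (nat_lit 166) (nat_lit 4) (nat_lit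 429) (nat_lit 372) (nat_lit 219)) (XT.lf (nat_lit 0) (nat_lit 50363771113) (nat_lit 76) (nat_lit 434262815851) (nat_lit 76) (nat_lit 259306659216) (nat_lit 163) (nat_lit 4) (nat_lit 164) (nat_lit 5) (nat_lit 164) (nat_lit 4) (nat_lit 430) (nat_lit 372) (nat_lit 218))))))))
noncomputable def xc180 : XT := (XT.nd (nat_lit 48594) (nat_lit 0) (nat_lit 8664) (XT.nd (nat_lit 624) (nat_lit 912) (nat_lit 0) (XT.nd (nat_lit 312) (nat_lit 456) (nat_lit 0) (XT.nd (nat_lit 156) (nat_lit 228) (nat_lit 0) (XT.nd (nat_lit 78) (nat_lit 76) (nat_lit 0) (XT.lf (nat_lit 0) (nat_lit 91197895019) (nat_lit 76) (nat_lit 38633394728) (nat_lit 152) (nat_lit 653122776200) (nat_lit 161) (nat_lit 5) (nat_lit 162) (nat_lit 5) (nat_lit 163) (nat_lit 4) (nat_lit 431) (nat_lit 372) (nat_lit 217)) (XT.lf (nat_lit 0) (nat_lit 132627025188) (nat_lit 76) (nat_lit 428927551445) (nat_lit 76) (nat_lit 262302471012) (nat_lit 160) (nat_lit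 4) (nat_lit 161) (nat_lit 5) (nat_lit 161) (nat_lit 4) (nat_lit 432) (nat_lit 372) (nat_lit 216))) (XT.nd (nat_lit 78) (nat_lit 76) (nat_lit 0) (XT.lf (nat_lit 0) (nat_lit 170613226389) (nat_lit 152) (nat_lit 684574514497) (nat_lit 0) (nat_lit 11922601798) (nat_lit 158) (nat_lit 5) (nat_lit 160) (nat_lit 4) (nat_lit 158) (nat_lit 4) (nat_lit 433) (nat_lit 372) (nat_lit 215)) (XT.lf (nat_lit 0) (nat_lit 233277387285) (nat_lit 76) (nat_lit 418930220808) (nat_lit 76) (nat_lit 260239529737) (nat_lit 157) (nat_lit 4) (nat_lit 158) (nat_lit 5) (nat_lit 158) (nat_lit 4) (nat_lit 434) (nat_lit 372) (nat_lit 214)))) (XT.nd (nat_lit 156) (nat_lit 228) (nat_lit 0) (XT.nd (nat_lit 78) (nat_lit 76) (nat_lit 0) (XT.lf (nat_lit 0) (nat_lit 222023179962) (nat_lit 152) (nat_lit 667441153680) (nat_lit 0) (nat_lit 70889129841) (nat_lit 155) (nat_lit 5) (nat_lit 157) (nat_lit 4) (nat_lit 155) (nat_lit 4) (nat_lit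 435) (nat_lit 372) (nat_lit 213)) (XT.lf (nat_lit 0) (nat_lit 355236097142) (nat_lit 76) (nat_lit 403269588074) (nat_lit 76) (nat_lit 252135483671) (nat_lit 154) (nat_lit 4) (nat_lit 155) (nat_lit 5) (nat_lit 155) (nat_lit 4) (nat_lit 436) (nat_lit 372) (nat_lit 212))) (XT.nd (nat_lit 78) (nat_lit 76) (nat_lit 0) (XT.lf (nat_lit 0) (nat_lit 284999773895) (nat_lit 152) (nat_lit 637637496785) (nat_lit 0) (nat_lit 141062483739) (nat_lit 152) (nat_lit 5) (nat_lit 154) (nat_lit 4) (nat_lit 152) (nat_lit 4) (nat_lit 437) (nat_lit 372) (nat_lit 211)) (XT.lf (nat_lit 0) (nat_lit 501841924080) (nat_lit 76) (nat_lit 380786968391) (nat_lit 76) (nat_lit 236849633914) (nat_lit 151) (nat_lit 4) (nat_lit 152) (nat_lit 5) (nat_lit 152) (nat_lit 4) (nat_lit 438) (nat_lit 372) (nat_lit 210))))) (XT.nd (nat_lit 312) (nat_lit 456) (nat_lit 0) (XT.nd (nat_lit 156) (nat_lit 228) (nat_lit 0) (XT.nd (nat_lit 78) (nat_lit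 76) (nat_lit 0) (XT.lf (nat_lit 0) (nat_lit 361305888065) (nat_lit 152) (nat_lit 592713779610) (nat_lit 0) (nat_lit 224222673288) (nat_lit 149) (nat_lit 5) (nat_lit 151) (nat_lit 4) (nat_lit 149) (nat_lit 4) (nat_lit 439) (nat_lit 372) (nat_lit 209)) (XT.lf (nat_lit 0) (nat_lit 676906904158) (nat_lit 76) (nat_lit 350143859992) (nat_lit 76) (nat_lit 213060609025) (nat_lit 148) (nat_lit 4) (nat_lit 149) (nat_lit 5) (nat_lit 149) (nat_lit 4) (nat_lit 440) (nat_lit 372) (nat_lit 208))) (XT.nd (nat_lit 78) (nat_lit 76) (nat_lit 0) (XT.lf (nat_lit 0) (nat_lit 452954845825) (nat_lit 152) (nat_lit 529838731729) (nat_lit 0) (nat_lit 322399336802) (nat_lit 146) (nat_lit 5) (nat_lit 148) (nat_lit 4) (nat_lit 146) (nat_lit 4) (nat_lit 441) (nat_lit 372) (nat_lit 207)) (XT.lf (nat_lit 0) (nat_lit 884779232190) (nat_lit 76) (nat_lit 309796600157) (nat_lit 76) (nat_lit 179241061584) (nat_lit 145) (nat_lit 4)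 (nat_lit 146) (nat_lit 5) (nat_lit 146) (nat_lit 4) (nat_lit 442) (nat_lit 372) (nat_lit 206)))) (XT.nd (nat_lit 156) (nat_lit 228) (nat_lit 0) (XT.nd (nat_lit 78) (nat_lit 76) (nat_lit 0) (XT.lf (nat_lit 0) (nat_lit 562243542847) (nat_lit 152) (nat_lit 445746149252) (nat_lit 0) (nat_lit 437904908625) (nat_lit 143) (nat_lit 5) (nat_lit 145) (nat_lit 4) (nat_lit 143) (nat_lit 4) (nat_lit 443) (nat_lit 372) (nat_lit 205)) (XT.lf (nat_lit 0) (nat_lit 1130414201478) (nat_lit 76) (nat_lit 257967663929) (nat_lit 76) (nat_lit 133629005579) (nat_lit 142) (nat_lit 4) (nat_lit 143) (nat_lit 5) (nat_lit 143) (nat_lit 4) (nat_lit 444) (nat_lit 372) (nat_lit 204))) (XT.nd (nat_lit 78) (nat_lit 76) (nat_lit 0) (XT.lf (nat_lit 0) (nat_lit 691789811507) (nat_lit 152) (nat_lit 336674397121) (nat_lit 0) (nat_lit 573372020374) (nat_lit 140) (nat_lit 5) (nat_lit 142) (nat_lit 4) (nat_lit 140) (nat_lit 4) (nat_lit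 445) (nat_lit 372) (nat_lit 203)) (XT.lf (nat_lit 0) (nat_lit 1419454193342) (nat_lit 76) (nat_lit 192613176946) (nat_lit 76) (nat_lit 74195366114) (nat_lit 139) (nat_lit 4) (nat_lit 140) (nat_lit 5) (nat_lit 140) (nat_lit 4) (nat_lit 446) (nat_lit 372) (nat_lit 202)))))) (XT.nd (nat_lit 624) (nat_lit 2584) (nat_lit 0) (XT.nd (nat_lit 312) (nat_lit 380) (nat_lit 0) (XT.nd (nat_lit 156) (nat_lit 0) (nat_lit 76) (XT.nd (nat_lit 78) (nat_lit 0) (nat_lit 76) (XT.lf (nat_lit 0) (nat_lit 11925771739) (nat_lit 836) (nat_lit 6899438893) (nat_lit 836) (nat_lit 6899438893) (nat_lit 292) (nat_lit 3) (nat_lit 303) (nat_lit 3) (nat_lit 303) (nat_lit 5) (nat_lit 373) (nat_lit 373) (nat_lit 274)) (XT.lf (nat_lit 0) (nat_lit 25331697274) (nat_lit 760) (nat_lit 25264973340) (nat_lit 836) (nat_lit 2884295799) (nat_lit 293) (nat_lit 5) (nat_lit 303) (nat_lit 5) (nat_lit 304) (nat_lit 5) (nat_lit 374) (nat_lit 373)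 (nat_lit 273))) (XT.nd (nat_lit 78) (nat_lit 0) (nat_lit 76) (XT.lf (nat_lit 76) (nat_lit 18368470740) (nat_lit 0) (nat_lit 9723904637) (nat_lit 836) (nat_lit 27524686184) (nat_lit 294) (nat_lit 5) (nat_lit 293) (nat_lit 5) (nat_lit 304) (nat_lit 5) (nat_lit 375) (nat_lit 373) (nat_lit 272)) (XT.lf (nat_lit 76) (nat_lit 8208492222) (nat_lit 0) (nat_lit 23974696610) (nat_lit 836) (nat_lit 25685391433) (nat_lit 295) (nat_lit 5) (nat_lit 294) (nat_lit 5) (nat_lit 305) (nat_lit 5) (nat_lit 376) (nat_lit 373) (nat_lit 271)))) (XT.nd (nat_lit 156) (nat_lit 608) (nat_lit 0) (XT.nd (nat_lit 78) (nat_lit 0) (nat_lit 76) (XT.lf (nat_lit 0) (nat_lit 37736785805) (nat_lit 760) (nat_lit 2127969326) (nat_lit 836) (nat_lit 20378689414) (nat_lit 295) (nat_lit 5) (nat_lit 305) (nat_lit 5) (nat_lit 306) (nat_lit 5) (nat_lit 377) (nat_lit 373) (nat_lit 270)) (XT.lf (nat_lit 0) (nat_lit 45008680750) (nat_lit 760)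 (nat_lit 12420888577) (nat_lit 836) (nat_lit 5315028128) (nat_lit 296) (nat_lit 5) (nat_lit 306) (nat_lit 5) (nat_lit 307) (nat_lit 5) (nat_lit 378) (nat_lit 373) (nat_lit 269))) (XT.nd (nat_lit 78) (nat_lit 684) (nat_lit 0) (XT.lf (nat_lit 76) (nat_lit 42281648639) (nat_lit 0) (nat_lit 11947813135) (nat_lit 836) (nat_lit 11148024101) (nat_lit 297) (nat_lit 5) (nat_lit 296) (nat_lit 5) (nat_lit 307) (nat_lit 5) (nat_lit 379) (nat_lit 373) (nat_lit 268)) (XT.lf (nat_lit 0) (nat_lit 34098820652) (nat_lit 760) (nat_lit 31419055922) (nat_lit 836) (nat_lit 2636630229) (nat_lit 287) (nat_lit 5) (nat_lit 297) (nat_lit 5) (nat_lit 298) (nat_lit 5) (nat_lit 380) (nat_lit 373) (nat_lit 267))))) (XT.nd (nat_lit 312) (nat_lit 1292) (nat_lit 0) (XT.nd (nat_lit 156) (nat_lit 380) (nat_lit 0) (XT.nd (nat_lit 78) (nat_lit 380) (nat_lit 0) (XT.lf (nat_lit 0) (nat_lit 7653171691) (nat_lit 532) (nat_lit 45307875674)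 (nat_lit 76) (nat_lit 18122158462) (nat_lit 280) (nat_lit 5) (nat_lit 287) (nat_lit 5) (nat_lit 281) (nat_lit 5) (nat_lit 381) (nat_lit 373) (nat_lit 266)) (XT.lf (nat_lit 0) (nat_lit 17361734654) (nat_lit 380) (nat_lit 2714678686) (nat_lit 456) (nat_lit 54097494749) (nat_lit 275) (nat_lit 5) (nat_lit 280) (nat_lit 5) (nat_lit 281) (nat_lit 5) (nat_lit 382) (nat_lit 373) (nat_lit 265))) (XT.nd (nat_lit 78) (nat_lit 0) (nat_lit 0) (XT.lf (nat_lit 0) (nat_lit 8646998363) (nat_lit 380) (nat_lit 26586290225) (nat_lit 456) (nat_lit 42191589230) (nat_lit 270) (nat_lit 5) (nat_lit 275) (nat_lit 5) (nat_lit 276) (nat_lit 5) (nat_lit 383) (nat_lit 373) (nat_lit 264)) (XT.lf (nat_lit 0) (nat_lit 53083131226) (nat_lit 456) (nat_lit 10113488) (nat_lit 76) (nat_lit 27768659544) (nat_lit 270) (nat_lit 5) (nat_lit 276) (nat_lit 5) (nat_lit 271) (nat_lit 5) (nat_lit 384) (nat_lit 373) (nat_lit 263)))) (XT.nd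 (nat_lit 156) (nat_lit 608) (nat_lit 0) (XT.nd (nat_lit 78) (nat_lit 380) (nat_lit 0) (XT.lf (nat_lit 0) (nat_lit 74032887672) (nat_lit 380) (nat_lit 8278198140) (nat_lit 76) (nat_lit 2179210680) (nat_lit 266) (nat_lit 5) (nat_lit 271) (nat_lit 5) (nat_lit 267) (nat_lit 5) (nat_lit 385) (nat_lit 373) (nat_lit 262)) (XT.lf (nat_lit 0) (nat_lit 10028686352) (nat_lit 380) (nat_lit 16955250249) (nat_lit 76) (nat_lit 61316430355) (nat_lit 261) (nat_lit 5) (nat_lit 266) (nat_lit 5) (nat_lit 262) (nat_lit 5) (nat_lit 386) (nat_lit 373) (nat_lit 261))) (XT.nd (nat_lit 78) (nat_lit 304) (nat_lit 0) (XT.lf (nat_lit 0) (nat_lit 33520185522) (nat_lit 380) (nat_lit 25685153801) (nat_lit 76) (nat_lit 33114687435) (nat_lit 257) (nat_lit 5) (nat_lit 262) (nat_lit 5) (nat_lit 258) (nat_lit 5) (nat_lit 387) (nat_lit 373) (nat_lit 260)) (XT.lf (nat_lit 0) (nat_lit 60646751031) (nat_lit 380) (nat_lit 34196198331)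 (nat_lit 76) (nat_lit 1730522662) (nat_lit 253) (nat_lit 5) (nat_lit 258) (nat_lit 5) (nat_lit 254) (nat_lit 5) (nat_lit 388) (nat_lit 373) (nat_lit 259)))))))
noncomputable def xc181 : XT := (XT.nd (nat_lit 1248) (nat_lit 2204) (nat_lit 0) (XT.nd (nat_lit 624) (nat_lit 1368) (nat_lit 0) (XT.nd (nat_lit 312) (nat_lit 988) (nat_lit 0) (XT.nd (nat_lit 156) (nat_lit 456) (nat_lit 0) (XT.nd (nat_lit 78) (nat_lit 380) (nat_lit 0) (XT.lf (nat_lit 0) (nat_lit 58109154015) (nat_lit 228) (nat_lit 34192987772) (nat_lit 304) (nat_lit 8747116124) (nat_lit 250) (nat_lit 5) (nat_lit 253) (nat_lit 5) (nat_lit 254) (nat_lit 5) (nat_lit 389) (nat_lit 373) (nat_lit 258)) (XT.lf (nat_lit 0) (nat_lit 21921330847) (nat_lit 380) (nat_lit 51732143016) (nat_lit 76) (nat_lit 32114845174) (nat_lit 245) (nat_lit 5) (nat_lit 250) (nat_lit 5) (nat_lit 246) (nat_lit 5) (nat_lit 390) (nat_lit 373) (nat_lit 257))) (XT.nd (nat_lit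 78) (nat_lit 228) (nat_lit 0) (XT.lf (nat_lit 0) (nat_lit 50349548511) (nat_lit 228) (nat_lit 6512777378) (nat_lit 304) (nat_lit 53889132965) (nat_lit 242) (nat_lit 5) (nat_lit 245) (nat_lit 5) (nat_lit 246) (nat_lit 5) (nat_lit 391) (nat_lit 373) (nat_lit 256)) (XT.lf (nat_lit 0) (nat_lit 46807816884) (nat_lit 228) (nat_lit 50466526168) (nat_lit 304) (nat_lit 18725119678) (nat_lit 239) (nat_lit 5) (nat_lit 242) (nat_lit 5) (nat_lit 243) (nat_lit 5) (nat_lit 392) (nat_lit 373) (nat_lit 255)))) (XT.nd (nat_lit 156) (nat_lit 456) (nat_lit 0) (XT.nd (nat_lit 78) (nat_lit 228) (nat_lit 0) (XT.lf (nat_lit 0) (nat_lit 20871246275) (nat_lit 304) (nat_lit 77808663933) (nat_lit 76) (nat_lit 22860596997) (nat_lit 235) (nat_lit 5) (nat_lit 239) (nat_lit 5) (nat_lit 236) (nat_lit 5) (nat_lit 393) (nat_lit 373) (nat_lit 254)) (XT.lf (nat_lit 0) (nat_lit 40813311182) (nat_lit 228) (nat_lit 24886652425) (nat_lit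 304) (nat_lit 61673489220) (nat_lit 232) (nat_lit 5) (nat_lit 235) (nat_lit 5) (nat_lit 236) (nat_lit 5) (nat_lit 394) (nat_lit 373) (nat_lit 253))) (XT.nd (nat_lit 78) (nat_lit 304) (nat_lit 0) (XT.lf (nat_lit 0) (nat_lit 38449021585) (nat_lit 152) (nat_lit 78498352742) (nat_lit 228) (nat_lit 16584039971) (nat_lit 230) (nat_lit 5) (nat_lit 232) (nat_lit 5) (nat_lit 233) (nat_lit 5) (nat_lit 395) (nat_lit 373) (nat_lit 252)) (XT.lf (nat_lit 0) (nat_lit 33656049275) (nat_lit 304) (nat_lit 103409188266) (nat_lit 76) (nat_lit 2963142453) (nat_lit 226) (nat_lit 5) (nat_lit 230) (nat_lit 5) (nat_lit 227) (nat_lit 5) (nat_lit 396) (nat_lit 373) (nat_lit 251))))) (XT.nd (nat_lit 312) (nat_lit 684) (nat_lit 0) (XT.nd (nat_lit 156) (nat_lit 304) (nat_lit 0) (XT.nd (nat_lit 78) (nat_lit 228) (nat_lit 0) (XT.lf (nat_lit 0) (nat_lit 34770586085) (nat_lit 152) (nat_lit 56120278583) (nat_lit 228) (nat_lit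 55962817654) (nat_lit 224) (nat_lit 5) (nat_lit 226) (nat_lit 5) (nat_lit 227) (nat_lit 5) (nat_lit 397) (nat_lit 373) (nat_lit 250)) (XT.lf (nat_lit 0) (nat_lit 1426250530) (nat_lit 228) (nat_lit 119970430029) (nat_lit 76) (nat_lit 32684608915) (nat_lit 221) (nat_lit 5) (nat_lit 224) (nat_lit 5) (nat_lit 222) (nat_lit 5) (nat_lit 398) (nat_lit 373) (nat_lit 249))) (XT.nd (nat_lit 78) (nat_lit 152) (nat_lit 0) (XT.lf (nat_lit 0) (nat_lit 33357236069) (nat_lit 152) (nat_lit 31565208814) (nat_lit 228) (nat_lit 96744955892) (nat_lit 219) (nat_lit 5) (nat_lit 221) (nat_lit 5) (nat_lit 222) (nat_lit 5) (nat_lit 399) (nat_lit 373) (nat_lit 248)) (XT.lf (nat_lit 0) (nat_lit 33493415845) (nat_lit 152) (nat_lit 103672795088) (nat_lit 228) (nat_lit 32510796239) (nat_lit 217) (nat_lit 5) (nat_lit 219) (nat_lit 5) (nat_lit 220) (nat_lit 5) (nat_lit 400) (nat_lit 373) (nat_lit 247)))) (XT.nd (nat_lit 156)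 (nat_lit 304) (nat_lit 0) (XT.nd (nat_lit 78) (nat_lit 152) (nat_lit 0) (XT.lf (nat_lit 0) (nat_lit 34567858738) (nat_lit 152) (nat_lit 4457105091) (nat_lit 228) (nat_lit 139106507974) (nat_lit 214) (nat_lit 5) (nat_lit 216) (nat_lit 5) (nat_lit 217) (nat_lit 5) (nat_lit 401) (nat_lit 373) (nat_lit 246)) (XT.lf (nat_lit 0) (nat_lit 35647659862) (nat_lit 152) (nat_lit 84082234323) (nat_lit 228) (nat_lit 67276484755) (nat_lit 212) (nat_lit 5) (nat_lit 214) (nat_lit 5) (nat_lit 215) (nat_lit 5) (nat_lit 402) (nat_lit 373) (nat_lit 245))) (XT.nd (nat_lit 78) (nat_lit 152) (nat_lit 0) (XT.lf (nat_lit 0) (nat_lit 13592509877) (nat_lit 152) (nat_lit 158002134672) (nat_lit 76) (nat_lit 24807481954) (nat_lit 210) (nat_lit 5) (nat_lit 212) (nat_lit 5) (nat_lit 211) (nat_lit 5) (nat_lit 403) (nat_lit 373) (nat_lit 244)) (XT.lf (nat_lit 0) (nat_lit 41043327062) (nat_lit 152) (nat_lit 62299659992) (nat_lit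 228) (nat_lit 102912951993) (nat_lit 208) (nat_lit 5) (nat_lit 210) (nat_lit 5) (nat_lit 211) (nat_lit 5) (nat_lit 404) (nat_lit 373) (nat_lit 243)))))) (XT.nd (nat_lit 624) (nat_lit 988) (nat_lit 0) (XT.nd (nat_lit 312) (nat_lit 608) (nat_lit 0) (XT.nd (nat_lit 156) (nat_lit 304) (nat_lit 0) (XT.nd (nat_lit 78) (nat_lit 228) (nat_lit 0) (XT.lf (nat_lit 0) (nat_lit 45431379260) (nat_lit 76) (nat_lit 159218238386) (nat_lit 152) (nat_lit 12029633187) (nat_lit 207) (nat_lit 5) (nat_lit 208) (nat_lit 5) (nat_lit 209) (nat_lit 4) (nat_lit 405) (nat_lit 373) (nat_lit 242)) (XT.lf (nat_lit 0) (nat_lit 50196853969) (nat_lit 152) (nat_lit 37929430709) (nat_lit 228) (nat_lit 139504988226) (nat_lit 204) (nat_lit 5) (nat_lit 206) (nat_lit 5) (nat_lit 207) (nat_lit 5) (nat_lit 406) (nat_lit 373) (nat_lit 241))) (XT.nd (nat_lit 78) (nat_lit 228) (nat_lit 0) (XT.lf (nat_lit 0) (nat_lit 56256444221) (nat_lit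 76) (nat_lit 144984826808) (nat_lit 152) (nat_lit 37939922618) (nat_lit 203) (nat_lit 5) (nat_lit 204) (nat_lit 5) (nat_lit 205) (nat_lit 4) (nat_lit 407) (nat_lit 373) (nat_lit 240)) (XT.lf (nat_lit 0) (nat_lit 63705222722) (nat_lit 152) (nat_lit 10523533255) (nat_lit 228) (nat_lit 177131597522) (nat_lit 200) (nat_lit 5) (nat_lit 202) (nat_lit 5) (nat_lit 203) (nat_lit 5) (nat_lit 408) (nat_lit 373) (nat_lit 239)))) (XT.nd (nat_lit 156) (nat_lit 304) (nat_lit 0) (XT.nd (nat_lit 78) (nat_lit 228) (nat_lit 0) (XT.lf (nat_lit 0) (nat_lit 71743157764) (nat_lit 76) (nat_lit 128777306785) (nat_lit 152) (nat_lit 63638345005) (nat_lit 199) (nat_lit 5) (nat_lit 200) (nat_lit 5) (nat_lit 201) (nat_lit 4) (nat_lit 409) (nat_lit 373) (nat_lit 238)) (XT.lf (nat_lit 0) (nat_lit 62150401503) (nat_lit 228) (nat_lit 195757931583) (nat_lit 76) (nat_lit 19771687395) (nat_lit 196) (nat_lit 5) (nat_lit 199) (nat_lit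 5) (nat_lit 197) (nat_lit 4) (nat_lit 410) (nat_lit 373) (nat_lit 237))) (XT.nd (nat_lit 78) (nat_lit 228) (nat_lit 0) (XT.lf (nat_lit 0) (nat_lit 92626490407) (nat_lit 76) (nat_lit 110199571341) (nat_lit 152) (nat_lit 89052034374) (nat_lit 195) (nat_lit 5) (nat_lit 196) (nat_lit 5) (nat_lit 197) (nat_lit 4) (nat_lit 411) (nat_lit 373) (nat_lit 236)) (XT.lf (nat_lit 0) (nat_lit 52018666302) (nat_lit 228) (nat_lit 201140369516) (nat_lit 76) (nat_lit 53716037111) (nat_lit 192) (nat_lit 5) (nat_lit 195) (nat_lit 5) (nat_lit 193) (nat_lit 4) (nat_lit 412) (nat_lit 373) (nat_lit 235))))) (XT.nd (nat_lit 312) (nat_lit 532) (nat_lit 0) (XT.nd (nat_lit 156) (nat_lit 228) (nat_lit 0) (XT.nd (nat_lit 78) (nat_lit 152) (nat_lit 0) (XT.lf (nat_lit 0) (nat_lit 119751769885) (nat_lit 76) (nat_lit 88799918790) (nat_lit 152) (nat_lit 114082294976) (nat_lit 191) (nat_lit 5) (nat_lit 192) (nat_lit 5) (nat_lit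 193) (nat_lit 4) (nat_lit 413) (nat_lit 373) (nat_lit 234)) (XT.lf (nat_lit 0) (nat_lit 43938956380) (nat_lit 152) (nat_lit 203048670032) (nat_lit 76) (nat_lit 92276354220) (nat_lit 189) (nat_lit 5) (nat_lit 191) (nat_lit 5) (nat_lit 190) (nat_lit 4) (nat_lit 414) (nat_lit 373) (nat_lit 233))) (XT.nd (nat_lit 78) (nat_lit 152) (nat_lit 0) (XT.lf (nat_lit 0) (nat_lit 154089563040) (nat_lit 76) (nat_lit 64063387210) (nat_lit 152) (nat_lit 138600520529) (nat_lit 188) (nat_lit 5) (nat_lit 189) (nat_lit 5) (nat_lit 190) (nat_lit 4) (nat_lit 415) (nat_lit 373) (nat_lit 232)) (XT.lf (nat_lit 0) (nat_lit 38229974562) (nat_lit 152) (nat_lit 200794652792) (nat_lit 76) (nat_lit 136166086603) (nat_lit 186) (nat_lit 5) (nat_lit 188) (nat_lit 5) (nat_lit 187) (nat_lit 4) (nat_lit 416) (nat_lit 373) (nat_lit 231)))) (XT.nd (nat_lit 156) (nat_lit 304) (nat_lit 0) (XT.nd (nat_lit 78) (nat_lit 152) (nat_lit 0)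 (XT.lf (nat_lit 0) (nat_lit 196752494143) (nat_lit 76) (nat_lit 35403098920) (nat_lit 152) (nat_lit 162443507997) (nat_lit 185) (nat_lit 5) (nat_lit 186) (nat_lit 5) (nat_lit 187) (nat_lit 4) (nat_lit 417) (nat_lit 373) (nat_lit 230)) (XT.lf (nat_lit 0) (nat_lit 35266251582) (nat_lit 152) (nat_lit 193577341538) (nat_lit 76) (nat_lit 186193020190) (nat_lit 183) (nat_lit 5) (nat_lit 185) (nat_lit 5) (nat_lit 184) (nat_lit 4) (nat_lit 418) (nat_lit 373) (nat_lit 229))) (XT.nd (nat_lit 78) (nat_lit 228) (nat_lit 0) (XT.lf (nat_lit 0) (nat_lit 249014242890) (nat_lit 76) (nat_lit 2150490325) (nat_lit 152) (nat_lit 185408084382) (nat_lit 182) (nat_lit 5) (nat_lit 183) (nat_lit 5) (nat_lit 184) (nat_lit 4) (nat_lit 419) (nat_lit 373) (nat_lit 228)) (XT.nd (nat_lit 78) (nat_lit 76) (nat_lit 0) (XT.lf (nat_lit 0) (nat_lit 35485906368) (nat_lit 152) (nat_lit 180466978308) (nat_lit 76) (nat_lit 243271556098)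 (nat_lit 180) (nat_lit 5) (nat_lit 182) (nat_lit 5) (nat_lit 181) (nat_lit 4) (nat_lit 420) (nat_lit 373) (nat_lit 227)) (XT.lf (nat_lit 0) (nat_lit 276444458278) (nat_lit 152) (nat_lit 171358417415) (nat_lit 0) (nat_lit 35288902372) (nat_lit 179) (nat_lit 5) (nat_lit 181) (nat_lit 4) (nat_lit 179) (nat_lit 4) (nat_lit 421) (nat_lit 373) (nat_lit 226))))))))
noncomputable def xc182 : XT := (XT.nd (nat_lit 1248) (nat_lit 912) (nat_lit 0) (XT.nd (nat_lit 624) (nat_lit 988) (nat_lit 0) (XT.nd (nat_lit 312) (nat_lit 456) (nat_lit 0) (XT.nd (nat_lit 156) (nat_lit 228) (nat_lit 0) (XT.nd (nat_lit 78) (nat_lit 76) (nat_lit 0) (XT.lf (nat_lit 0) (nat_lit 39399452668) (nat_lit 152) (nat_lit 160386896046) (nat_lit 76) (nat_lit 308436523467) (nat_lit 177) (nat_lit 5) (nat_lit 179) (nat_lit 5) (nat_lit 178) (nat_lit 4) (nat_lit 422) (nat_lit 373) (nat_lit 225)) (XT.lf (nat_lit 0) (nat_lit 308352760776) (nat_lit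 152) (nat_lit 147638771827) (nat_lit 0) (nat_lit 78680402708) (nat_lit 176) (nat_lit 5) (nat_lit 178) (nat_lit 4) (nat_lit 176) (nat_lit 4) (nat_lit 423) (nat_lit 373) (nat_lit 224))) (XT.nd (nat_lit 78) (nat_lit 76) (nat_lit 0) (XT.lf (nat_lit 0) (nat_lit 47599785953) (nat_lit 152) (nat_lit 132092974953) (nat_lit 76) (nat_lit 382858716625) (nat_lit 174) (nat_lit 5) (nat_lit 176) (nat_lit 5) (nat_lit 175) (nat_lit 4) (nat_lit 424) (nat_lit 373) (nat_lit 223)) (XT.lf (nat_lit 0) (nat_lit 347782794044) (nat_lit 152) (nat_lit 115032210676) (nat_lit 0) (nat_lit 129046888277) (nat_lit 173) (nat_lit 5) (nat_lit 175) (nat_lit 4) (nat_lit 173) (nat_lit 4) (nat_lit 425) (nat_lit 373) (nat_lit 222)))) (XT.nd (nat_lit 156) (nat_lit 228) (nat_lit 0) (XT.nd (nat_lit 78) (nat_lit 76) (nat_lit 0) (XT.lf (nat_lit 0) (nat_lit 60773501228) (nat_lit 152) (nat_lit 94150373662) (nat_lit 76) (nat_lit 467862367991)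 (nat_lit 171) (nat_lit 5) (nat_lit 173) (nat_lit 5) (nat_lit 172) (nat_lit 4) (nat_lit 426) (nat_lit 373) (nat_lit 221)) (XT.lf (nat_lit 0) (nat_lit 395793247432) (nat_lit 152) (nat_lit 72001643996) (nat_lit 0) (nat_lit 187473070459) (nat_lit 170) (nat_lit 5) (nat_lit 172) (nat_lit 4) (nat_lit 170) (nat_lit 4) (nat_lit 427) (nat_lit 373) (nat_lit 220))) (XT.nd (nat_lit 78) (nat_lit 76) (nat_lit 0) (XT.lf (nat_lit 0) (nat_lit 79713711184) (nat_lit 152) (nat_lit 44907187776) (nat_lit 76) (nat_lit 564944793652) (nat_lit 168) (nat_lit 5) (nat_lit 170) (nat_lit 5) (nat_lit 169) (nat_lit 4) (nat_lit 428) (nat_lit 373) (nat_lit 219)) (XT.lf (nat_lit 0) (nat_lit 453591959213) (nat_lit 152) (nat_lit 16778751584) (nat_lit 0) (nat_lit 255191572888) (nat_lit 167) (nat_lit 5) (nat_lit 169) (nat_lit 4) (nat_lit 167) (nat_lit 4) (nat_lit 429) (nat_lit 373) (nat_lit 218))))) (XT.nd (nat_lit 312) (nat_lit 456)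 (nat_lit 0) (XT.nd (nat_lit 156) (nat_lit 228) (nat_lit 0) (XT.nd (nat_lit 78) (nat_lit 76) (nat_lit 0) (XT.lf (nat_lit 0) (nat_lit 18115152879) (nat_lit 76) (nat_lit 87502230608) (nat_lit 152) (nat_lit 657966152478) (nat_lit 164) (nat_lit 5) (nat_lit 165) (nat_lit 5) (nat_lit 166) (nat_lit 4) (nat_lit 430) (nat_lit 373) (nat_lit 217)) (XT.lf (nat_lit 0) (nat_lit 54409114062) (nat_lit 76) (nat_lit 468995657807) (nat_lit 76) (nat_lit 280042731106) (nat_lit 163) (nat_lit 4) (nat_lit 164) (nat_lit 5) (nat_lit 164) (nat_lit 4) (nat_lit 431) (nat_lit 373) (nat_lit 216))) (XT.nd (nat_lit 78) (nat_lit 76) (nat_lit 0) (XT.lf (nat_lit 0) (nat_lit 98509521087) (nat_lit 76) (nat_lit 41716101813) (nat_lit 152) (nat_lit 705364376825) (nat_lit 161) (nat_lit 5) (nat_lit 162) (nat_lit 5) (nat_lit 163) (nat_lit 4) (nat_lit 432) (nat_lit 373) (nat_lit 215)) (XT.lf (nat_lit 0) (nat_lit 143252550802) (nat_lit 76)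 (nat_lit 463233996943) (nat_lit 76) (nat_lit 283278683464) (nat_lit 160) (nat_lit 4) (nat_lit 161) (nat_lit 5) (nat_lit 161) (nat_lit 4) (nat_lit 433) (nat_lit 373) (nat_lit 214)))) (XT.nd (nat_lit 156) (nat_lit 228) (nat_lit 0) (XT.nd (nat_lit 78) (nat_lit 76) (nat_lit 0) (XT.lf (nat_lit 0) (nat_lit 184269792724) (nat_lit 152) (nat_lit 739325283631) (nat_lit 0) (nat_lit 12883718332) (nat_lit 158) (nat_lit 5) (nat_lit 160) (nat_lit 4) (nat_lit 158) (nat_lit 4) (nat_lit 434) (nat_lit 373) (nat_lit 213)) (XT.lf (nat_lit 0) (nat_lit 251954110067) (nat_lit 76) (nat_lit 452437285616) (nat_lit 76) (nat_lit 281051154227) (nat_lit 157) (nat_lit 4) (nat_lit 158) (nat_lit 5) (nat_lit 158) (nat_lit 4) (nat_lit 435) (nat_lit 373) (nat_lit 212))) (XT.nd (nat_lit 78) (nat_lit 76) (nat_lit 0) (XT.lf (nat_lit 0) (nat_lit 239792122820) (nat_lit 152) (nat_lit 720822077796) (nat_lit 0) (nat_lit 76567185523) (nat_lit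 155) (nat_lit 5) (nat_lit 157) (nat_lit 4) (nat_lit 155) (nat_lit 4) (nat_lit 436) (nat_lit 373) (nat_lit 211)) (XT.lf (nat_lit 0) (nat_lit 383668728669) (nat_lit 76) (nat_lit 435524189333) (nat_lit 76) (nat_lit 272299205498) (nat_lit 154) (nat_lit 4) (nat_lit 155) (nat_lit 5) (nat_lit 155) (nat_lit 4) (nat_lit 437) (nat_lit 373) (nat_lit 210)))))) (XT.nd (nat_lit 48126) (nat_lit 0) (nat_lit 10488) (XT.nd (nat_lit 312) (nat_lit 456) (nat_lit 0) (XT.nd (nat_lit 156) (nat_lit 228) (nat_lit 0) (XT.nd (nat_lit 78) (nat_lit 76) (nat_lit 0) (XT.lf (nat_lit 0) (nat_lit 307806449048) (nat_lit 152) (nat_lit 688634908609) (nat_lit 0) (nat_lit 152354042452) (nat_lit 152) (nat_lit 5) (nat_lit 154) (nat_lit 4) (nat_lit 152) (nat_lit 4) (nat_lit 438) (nat_lit 373) (nat_lit 209)) (XT.lf (nat_lit 0) (nat_lit 542002275410) (nat_lit 76) (nat_lit 411243328831) (nat_lit 76) (nat_lit 255790884236) (nat_lit 151) (nat_lit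 4) (nat_lit 152) (nat_lit 5) (nat_lit 152) (nat_lit 4) (nat_lit 439) (nat_lit 373) (nat_lit 208))) (XT.nd (nat_lit 78) (nat_lit 76) (nat_lit 0) (XT.lf (nat_lit 0) (nat_lit 390216680049) (nat_lit 152) (nat_lit 640118032838) (nat_lit 0) (nat_lit 242166699307) (nat_lit 149) (nat_lit 5) (nat_lit 151) (nat_lit 4) (nat_lit 149) (nat_lit 4) (nat_lit 440) (nat_lit 373) (nat_lit 207)) (XT.lf (nat_lit 0) (nat_lit 731071747223) (nat_lit 76) (nat_lit 378149122672) (nat_lit 76) (nat_lit 230099110904) (nat_lit 148) (nat_lit 4) (nat_lit 149) (nat_lit 5) (nat_lit 149) (nat_lit 4) (nat_lit 441) (nat_lit 373) (nat_lit 206)))) (XT.nd (nat_lit 156) (nat_lit 228) (nat_lit 0) (XT.nd (nat_lit 78) (nat_lit 76) (nat_lit 0) (XT.lf (nat_lit 0) (nat_lit 489197203553) (nat_lit 152) (nat_lit 572213680464) (nat_lit 0) (nat_lit 348197164985) (nat_lit 146) (nat_lit 5) (nat_lit 148) (nat_lit 4) (nat_lit 146) (nat_lit 4) (nat_lit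 442) (nat_lit 373) (nat_lit 205)) (XT.lf (nat_lit 0) (nat_lit 955573192554) (nat_lit 76) (nat_lit 334574415664) (nat_lit 76) (nat_lit 193574351763) (nat_lit 145) (nat_lit 4) (nat_lit 146) (nat_lit 5) (nat_lit 146) (nat_lit 4) (nat_lit 443) (nat_lit 373) (nat_lit 204))) (XT.nd (nat_lit 78) (nat_lit 76) (nat_lit 0) (XT.lf (nat_lit 0) (nat_lit 607228665525) (nat_lit 152) (nat_lit 481394353254) (nat_lit 0) (nat_lit 472942868041) (nat_lit 143) (nat_lit 5) (nat_lit 145) (nat_lit 4) (nat_lit 143) (nat_lit 4) (nat_lit 444) (nat_lit 373) (nat_lit 203)) (XT.lf (nat_lit 0) (nat_lit 1220858326283) (nat_lit 76) (nat_lit 278599481449) (nat_lit 76) (nat_lit 144313663279) (nat_lit 142) (nat_lit 4) (nat_lit 143) (nat_lit 5) (nat_lit 143) (nat_lit 4) (nat_lit 445) (nat_lit 373) (nat_lit 202))))) (XT.nd (nat_lit 312) (nat_lit 912) (nat_lit 0) (XT.nd (nat_lit 156) (nat_lit 0) (nat_lit 76) (XT.nd (nat_lit 78) (nat_lit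 0) (nat_lit 76) (XT.lf (nat_lit 0) (nat_lit 12917190687) (nat_lit 836) (nat_lit 7431781470) (nat_lit 836) (nat_lit 7431781470) (nat_lit 292) (nat_lit 3) (nat_lit 303) (nat_lit 3) (nat_lit 303) (nat_lit 5) (nat_lit 374) (nat_lit 374) (nat_lit 272)) (XT.lf (nat_lit 0) (nat_lit 27427495430) (nat_lit 760) (nat_lit 27244659080) (nat_lit 836) (nat_lit 3083826098) (nat_lit 293) (nat_lit 5) (nat_lit 303) (nat_lit 5) (nat_lit 304) (nat_lit 5) (nat_lit 375) (nat_lit 374) (nat_lit 271))) (XT.nd (nat_lit 78) (nat_lit 0) (nat_lit 76) (XT.lf (nat_lit 76) (nat_lit 19877656460) (nat_lit 0) (nat_lit 10526860729) (nat_lit 836) (nat_lit 29658671708) (nat_lit 294) (nat_lit 5) (nat_lit 293) (nat_lit 5) (nat_lit 304) (nat_lit 5) (nat_lit 376) (nat_lit 374) (nat_lit 270)) (XT.lf (nat_lit 76) (nat_lit 8906624895) (nat_lit 0) (nat_lit 25911459560) (nat_lit 836) (nat_lit 27676970206) (nat_lit 295) (nat_lit 5) (nat_lit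 294) (nat_lit 5) (nat_lit 305) (nat_lit 5) (nat_lit 377) (nat_lit 374) (nat_lit 269)))) (XT.nd (nat_lit 156) (nat_lit 1140) (nat_lit 0) (XT.nd (nat_lit 78) (nat_lit 0) (nat_lit 76) (XT.lf (nat_lit 0) (nat_lit 40811235331) (nat_lit 760) (nat_lit 2256763685) (nat_lit 836) (nat_lit 21992145759) (nat_lit 295) (nat_lit 5) (nat_lit 305) (nat_lit 5) (nat_lit 306) (nat_lit 5) (nat_lit 378) (nat_lit 374) (nat_lit 268)) (XT.lf (nat_lit 0) (nat_lit 48661196033) (nat_lit 760) (nat_lit 13372123688) (nat_lit 836) (nat_lit 5728254490) (nat_lit 296) (nat_lit 5) (nat_lit 306) (nat_lit 5) (nat_lit 307) (nat_lit 5) (nat_lit 379) (nat_lit 374) (nat_lit 267))) (XT.nd (nat_lit 78) (nat_lit 1216) (nat_lit 0) (XT.lf (nat_lit 76) (nat_lit 45704772289) (nat_lit 0) (nat_lit 12911662420) (nat_lit 836) (nat_lit 11988819235) (nat_lit 297) (nat_lit 5) (nat_lit 296) (nat_lit 5) (nat_lit 307) (nat_lit 5) (nat_lit 380) (nat_lit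 374) (nat_lit 266)) (XT.nd (nat_lit 78) (nat_lit 532) (nat_lit 0) (XT.lf (nat_lit 0) (nat_lit 36867998991) (nat_lit 760) (nat_lit 33936850899) (nat_lit 836) (nat_lit 2799740297) (nat_lit 287) (nat_lit 5) (nat_lit 297) (nat_lit 5) (nat_lit 298) (nat_lit 5) (nat_lit 381) (nat_lit 374) (nat_lit 265)) (XT.lf (nat_lit 0) (nat_lit 8308885665) (nat_lit 532) (nat_lit 48889347736) (nat_lit 76) (nat_lit 19569455881) (nat_lit 280) (nat_lit 5) (nat_lit 287) (nat_lit 5) (nat_lit 281) (nat_lit 5) (nat_lit 382) (nat_lit 374) (nat_lit 264))))))))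
noncomputable def xc183 : XT := (XT.nd (nat_lit 1248) (nat_lit 2660) (nat_lit 0) (XT.nd (nat_lit 624) (nat_lit 1976) (nat_lit 0) (XT.nd (nat_lit 312) (nat_lit 1216) (nat_lit 0) (XT.nd (nat_lit 156) (nat_lit 304) (nat_lit 0) (XT.nd (nat_lit 78) (nat_lit 380) (nat_lit 0) (XT.lf (nat_lit 0) (nat_lit 18791955825) (nat_lit 380) (nat_lit 2931456078) (nat_lit 456) (nat_lit 58382364559) (nat_lit 275) (nat_lit 5) (nat_lit 280) (nat_lit 5) (nat_lit 281) (nat_lit 5) (nat_lit 383) (nat_lit 374) (nat_lit 263)) (XT.lf (nat_lit 0) (nat_lit 9380196054) (nat_lit 380) (nat_lit 28710265261) (nat_lit 456) (nat_lit 45526481248) (nat_lit 270) (nat_lit 5) (nat_lit 275) (nat_lit 5) (nat_lit 276) (nat_lit 5) (nat_lit 384) (nat_lit 374) (nat_lit 262))) (XT.nd (nat_lit 78) (nat_lit 0) (nat_lit 0) (XT.lf (nat_lit 0) (nat_lit 30151339) (nat_lit 304) (nat_lit 57335800535) (nat_lit 380) (nat_lit 29963096218) (nat_lit 266)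 (nat_lit 5) (nat_lit 270) (nat_lit 5) (nat_lit 271) (nat_lit 5) (nat_lit 385) (nat_lit 374) (nat_lit 261)) (XT.lf (nat_lit 0) (nat_lit 79989246251) (nat_lit 380) (nat_lit 8900479063) (nat_lit 76) (nat_lit 2358108520) (nat_lit 266) (nat_lit 5) (nat_lit 271) (nat_lit 5) (nat_lit 267) (nat_lit 5) (nat_lit 386) (nat_lit 374) (nat_lit 260)))) (XT.nd (nat_lit 156) (nat_lit 532) (nat_lit 0) (XT.nd (nat_lit 78) (nat_lit 304) (nat_lit 0) (XT.lf (nat_lit 0) (nat_lit 10863329226) (nat_lit 380) (nat_lit 18272363032) (nat_lit 76) (nat_lit 66227086657) (nat_lit 261) (nat_lit 5) (nat_lit 266) (nat_lit 5) (nat_lit 262) (nat_lit 5) (nat_lit 387) (nat_lit 374) (nat_lit 259)) (XT.lf (nat_lit 0) (nat_lit 36232449438) (nat_lit 380) (nat_lit 27700950399) (nat_lit 76) (nat_lit 35770696608) (nat_lit 257) (nat_lit 5) (nat_lit 262) (nat_lit 5) (nat_lit 258) (nat_lit 5) (nat_lit 388) (nat_lit 374) (nat_lit 258))) (XT.nd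 (nat_lit 78) (nat_lit 228) (nat_lit 0) (XT.lf (nat_lit 0) (nat_lit 65527583060) (nat_lit 380) (nat_lit 36893256497) (nat_lit 76) (nat_lit 1877055632) (nat_lit 253) (nat_lit 5) (nat_lit 258) (nat_lit 5) (nat_lit 254) (nat_lit 5) (nat_lit 389) (nat_lit 374) (nat_lit 257)) (XT.lf (nat_lit 0) (nat_lit 62794844889) (nat_lit 228) (nat_lit 36918982255) (nat_lit 304) (nat_lit 9417995699) (nat_lit 250) (nat_lit 5) (nat_lit 253) (nat_lit 5) (nat_lit 254) (nat_lit 5) (nat_lit 390) (nat_lit 374) (nat_lit 256))))) (XT.nd (nat_lit 312) (nat_lit 836) (nat_lit 0) (XT.nd (nat_lit 156) (nat_lit 532) (nat_lit 0) (XT.nd (nat_lit 78) (nat_lit 228) (nat_lit 0) (XT.lf (nat_lit 0) (nat_lit 23701649306) (nat_lit 380) (nat_lit 55833307298) (nat_lit 76) (nat_lit 34693497357) (nat_lit 245) (nat_lit 5) (nat_lit 250) (nat_lit 5) (nat_lit 246) (nat_lit 5) (nat_lit 391) (nat_lit 374) (nat_lit 255)) (XT.lf (nat_lit 0) (nat_lit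 54413293881) (nat_lit 228) (nat_lit 7023217460) (nat_lit 304) (nat_lit 58173804252) (nat_lit 242) (nat_lit 5) (nat_lit 245) (nat_lit 5) (nat_lit 246) (nat_lit 5) (nat_lit 392) (nat_lit 374) (nat_lit 254))) (XT.nd (nat_lit 78) (nat_lit 304) (nat_lit 0) (XT.lf (nat_lit 0) (nat_lit 50587715880) (nat_lit 228) (nat_lit 54492611075) (nat_lit 304) (nat_lit 20197890970) (nat_lit 239) (nat_lit 5) (nat_lit 242) (nat_lit 5) (nat_lit 243) (nat_lit 5) (nat_lit 393) (nat_lit 374) (nat_lit 253)) (XT.lf (nat_lit 0) (nat_lit 22564282924) (nat_lit 304) (nat_lit 83997862953) (nat_lit 76) (nat_lit 24700435058) (nat_lit 235) (nat_lit 5) (nat_lit 239) (nat_lit 5) (nat_lit 236) (nat_lit 5) (nat_lit 394) (nat_lit 374) (nat_lit 252)))) (XT.nd (nat_lit 156) (nat_lit 456) (nat_lit 0) (XT.nd (nat_lit 78) (nat_lit 152) (nat_lit 0) (XT.lf (nat_lit 0) (nat_lit 44112327641) (nat_lit 228) (nat_lit 26865771417) (nat_lit 304)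 (nat_lit 66584123077) (nat_lit 232) (nat_lit 5) (nat_lit 235) (nat_lit 5) (nat_lit 236) (nat_lit 5) (nat_lit 395) (nat_lit 374) (nat_lit 251)) (XT.lf (nat_lit 0) (nat_lit 41558301773) (nat_lit 152) (nat_lit 84766052578) (nat_lit 228) (nat_lit 17888513586) (nat_lit 230) (nat_lit 5) (nat_lit 232) (nat_lit 5) (nat_lit 233) (nat_lit 5) (nat_lit 396) (nat_lit 374) (nat_lit 250))) (XT.nd (nat_lit 78) (nat_lit 152) (nat_lit 0) (XT.lf (nat_lit 0) (nat_lit 36369173650) (nat_lit 304) (nat_lit 111648500384) (nat_lit 76) (nat_lit 3211944337) (nat_lit 226) (nat_lit 5) (nat_lit 230) (nat_lit 5) (nat_lit 227) (nat_lit 5) (nat_lit 397) (nat_lit 374) (nat_lit 249)) (XT.lf (nat_lit 0) (nat_lit 37584203394) (nat_lit 152) (nat_lit 60597541108) (nat_lit 228) (nat_lit 60419251873) (nat_lit 224) (nat_lit 5) (nat_lit 226) (nat_lit 5) (nat_lit 227) (nat_lit 5) (nat_lit 398) (nat_lit 374) (nat_lit 248)))))) (XT.nd (nat_lit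 624) (nat_lit 1368) (nat_lit 0) (XT.nd (nat_lit 312) (nat_lit 532) (nat_lit 0) (XT.nd (nat_lit 156) (nat_lit 380) (nat_lit 0) (XT.nd (nat_lit 78) (nat_lit 152) (nat_lit 0) (XT.lf (nat_lit 0) (nat_lit 1559485107) (nat_lit 228) (nat_lit 129536097395) (nat_lit 76) (nat_lit 35311253404) (nat_lit 221) (nat_lit 5) (nat_lit 224) (nat_lit 5) (nat_lit 222) (nat_lit 5) (nat_lit 399) (nat_lit 374) (nat_lit 247)) (XT.lf (nat_lit 0) (nat_lit 36056392743) (nat_lit 152) (nat_lit 34078042296) (nat_lit 228) (nat_lit 104465448069) (nat_lit 219) (nat_lit 5) (nat_lit 221) (nat_lit 5) (nat_lit 222) (nat_lit 5) (nat_lit 400) (nat_lit 374) (nat_lit 246))) (XT.nd (nat_lit 78) (nat_lit 228) (nat_lit 0) (XT.lf (nat_lit 0) (nat_lit 36202823286) (nat_lit 152) (nat_lit 111954177714) (nat_lit 228) (nat_lit 35093292086) (nat_lit 217) (nat_lit 5) (nat_lit 219) (nat_lit 5) (nat_lit 220) (nat_lit 5) (nat_lit 401) (nat_lit 374)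 (nat_lit 245)) (XT.lf (nat_lit 0) (nat_lit 37362483044) (nat_lit 152) (nat_lit 4801396648) (nat_lit 228) (nat_lit 150217263918) (nat_lit 214) (nat_lit 5) (nat_lit 216) (nat_lit 5) (nat_lit 217) (nat_lit 5) (nat_lit 402) (nat_lit 374) (nat_lit 244)))) (XT.nd (nat_lit 156) (nat_lit 228) (nat_lit 0) (XT.nd (nat_lit 78) (nat_lit 152) (nat_lit 0) (XT.lf (nat_lit 0) (nat_lit 38528025282) (nat_lit 152) (nat_lit 90796549218) (nat_lit 228) (nat_lit 72641500317) (nat_lit 212) (nat_lit 5) (nat_lit 214) (nat_lit 5) (nat_lit 215) (nat_lit 5) (nat_lit 403) (nat_lit 374) (nat_lit 243)) (XT.lf (nat_lit 0) (nat_lit 14695863175) (nat_lit 152) (nat_lit 170613870323) (nat_lit 76) (nat_lit 26803765499) (nat_lit 210) (nat_lit 5) (nat_lit 212) (nat_lit 5) (nat_lit 211) (nat_lit 5) (nat_lit 404) (nat_lit 374) (nat_lit 242))) (XT.nd (nat_lit 78) (nat_lit 76) (nat_lit 0) (XT.lf (nat_lit 0) (nat_lit 44353992594) (nat_lit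 152) (nat_lit 67271628924) (nat_lit 228) (nat_lit 111130032878) (nat_lit 208) (nat_lit 5) (nat_lit 210) (nat_lit 5) (nat_lit 211) (nat_lit 5) (nat_lit 405) (nat_lit 374) (nat_lit 241)) (XT.lf (nat_lit 0) (nat_lit 49092454403) (nat_lit 76) (nat_lit 171943790844) (nat_lit 152) (nat_lit 12976612743) (nat_lit 207) (nat_lit 5) (nat_lit 208) (nat_lit 5) (nat_lit 209) (nat_lit 4) (nat_lit 406) (nat_lit 374) (nat_lit 240))))) (XT.nd (nat_lit 312) (nat_lit 760) (nat_lit 0) (XT.nd (nat_lit 156) (nat_lit 304) (nat_lit 0) (XT.nd (nat_lit 78) (nat_lit 76) (nat_lit 0) (XT.lf (nat_lit 0) (nat_lit 54238483818) (nat_lit 152) (nat_lit 40952102614) (nat_lit 228) (nat_lit 150650478355) (nat_lit 204) (nat_lit 5) (nat_lit 206) (nat_lit 5) (nat_lit 207) (nat_lit 5) (nat_lit 407) (nat_lit 374) (nat_lit 239)) (XT.lf (nat_lit 0) (nat_lit 60782221135) (nat_lit 76) (nat_lit 156572062067) (nat_lit 152) (nat_lit 40960720412)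 (nat_lit 203) (nat_lit 5) (nat_lit 204) (nat_lit 5) (nat_lit 205) (nat_lit 4) (nat_lit 408) (nat_lit 374) (nat_lit 238))) (XT.nd (nat_lit 78) (nat_lit 76) (nat_lit 0) (XT.lf (nat_lit 0) (nat_lit 68826244826) (nat_lit 152) (nat_lit 11354098783) (nat_lit 228) (nat_lit 191288173812) (nat_lit 200) (nat_lit 5) (nat_lit 202) (nat_lit 5) (nat_lit 203) (nat_lit 5) (nat_lit 409) (nat_lit 374) (nat_lit 237)) (XT.lf (nat_lit 0) (nat_lit 77506611871) (nat_lit 76) (nat_lit 139068331097) (nat_lit 152) (nat_lit 68715929288) (nat_lit 199) (nat_lit 5) (nat_lit 200) (nat_lit 5) (nat_lit 201) (nat_lit 4) (nat_lit 410) (nat_lit 374) (nat_lit 236)))) (XT.nd (nat_lit 156) (nat_lit 456) (nat_lit 0) (XT.nd (nat_lit 78) (nat_lit 76) (nat_lit 0) (XT.lf (nat_lit 0) (nat_lit 67135053995) (nat_lit 228) (nat_lit 211394742924) (nat_lit 76) (nat_lit 21363994182) (nat_lit 196) (nat_lit 5) (nat_lit 199) (nat_lit 5) (nat_lit 197)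 (nat_lit 4) (nat_lit 411) (nat_lit 374) (nat_lit 235)) (XT.lf (nat_lit 0) (nat_lit 100059397500) (nat_lit 76) (nat_lit 119004790500) (nat_lit 152) (nat_lit 96163553746) (nat_lit 195) (nat_lit 5) (nat_lit 196) (nat_lit 5) (nat_lit 197) (nat_lit 4) (nat_lit 412) (nat_lit 374) (nat_lit 234))) (XT.nd (nat_lit 78) (nat_lit 228) (nat_lit 0) (XT.lf (nat_lit 0) (nat_lit 56192002139) (nat_lit 228) (nat_lit 217208994574) (nat_lit 76) (nat_lit 58023489923) (nat_lit 192) (nat_lit 5) (nat_lit 195) (nat_lit 5) (nat_lit 193) (nat_lit 4) (nat_lit 413) (nat_lit 374) (nat_lit 233)) (XT.nd (nat_lit 78) (nat_lit 152) (nat_lit 0) (XT.lf (nat_lit 0) (nat_lit 129353533615) (nat_lit 76) (nat_lit 95893593045) (nat_lit 152) (nat_lit 123197010539) (nat_lit 191) (nat_lit 5) (nat_lit 192) (nat_lit 5) (nat_lit 193) (nat_lit 4) (nat_lit 414) (nat_lit 374) (nat_lit 232)) (XT.lf (nat_lit 0) (nat_lit 47465196060) (nat_lit 152)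 (nat_lit 219271126912) (nat_lit 76) (nat_lit 99668219953) (nat_lit 189) (nat_lit 5) (nat_lit 191) (nat_lit 5) (nat_lit 190) (nat_lit 4) (nat_lit 415) (nat_lit 374) (nat_lit 231))))))))
noncomputable def xc184 : XT := (XT.nd (nat_lit 1248) (nat_lit 1596) (nat_lit 0) (XT.nd (nat_lit 624) (nat_lit 988) (nat_lit 0) (XT.nd (nat_lit 312) (nat_lit 456) (nat_lit 0) (XT.nd (nat_lit 156) (nat_lit 228) (nat_lit 0) (XT.nd (nat_lit 78) (nat_lit 152) (nat_lit 0) (XT.lf (nat_lit 0) (nat_lit 166437233192) (nat_lit 76) (nat_lit 69178572450) (nat_lit 152) (nat_lit 149677411830) (nat_lit 188) (nat_lit 5) (nat_lit 189) (nat_lit 5) (nat_lit 190) (nat_lit 4) (nat_lit 416) (nat_lit 374) (nat_lit 230)) (XT.lf (nat_lit 0) (nat_lit 41298828692) (nat_lit 152) (nat_lit 216837905049) (nat_lit 76) (nat_lit 147068714524) (nat_lit 186) (nat_lit 5) (nat_lit 188) (nat_lit 5) (nat_lit 187) (nat_lit 4) (nat_lit 417) (nat_lit 374)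 (nat_lit 229))) (XT.nd (nat_lit 78) (nat_lit 152) (nat_lit 0) (XT.lf (nat_lit 0) (nat_lit 212512130560) (nat_lit 76) (nat_lit 38225895046) (nat_lit 152) (nat_lit 175428504284) (nat_lit 185) (nat_lit 5) (nat_lit 186) (nat_lit 5) (nat_lit 187) (nat_lit 4) (nat_lit 418) (nat_lit 374) (nat_lit 228)) (XT.lf (nat_lit 0) (nat_lit 38097387986) (nat_lit 152) (nat_lit 209044275044) (nat_lit 76) (nat_lit 201097387530) (nat_lit 183) (nat_lit 5) (nat_lit 185) (nat_lit 5) (nat_lit 184) (nat_lit 4) (nat_lit 419) (nat_lit 374) (nat_lit 227)))) (XT.nd (nat_lit 156) (nat_lit 228) (nat_lit 0) (XT.nd (nat_lit 78) (nat_lit 152) (nat_lit 0) (XT.lf (nat_lit 0) (nat_lit 268953799391) (nat_lit 76) (nat_lit 2313507688) (nat_lit 152) (nat_lit 200230866166) (nat_lit 182) (nat_lit 5) (nat_lit 183) (nat_lit 5) (nat_lit 184) (nat_lit 4) (nat_lit 420) (nat_lit 374) (nat_lit 226)) (XT.lf (nat_lit 0) (nat_lit 38334037862) (nat_lit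 152) (nat_lit 194886099134) (nat_lit 76) (nat_lit 262741796092) (nat_lit 180) (nat_lit 5) (nat_lit 182) (nat_lit 5) (nat_lit 181) (nat_lit 4) (nat_lit 421) (nat_lit 374) (nat_lit 225))) (XT.nd (nat_lit 78) (nat_lit 152) (nat_lit 0) (XT.lf (nat_lit 0) (nat_lit 298568994697) (nat_lit 152) (nat_lit 185049337931) (nat_lit 0) (nat_lit 38120338694) (nat_lit 179) (nat_lit 5) (nat_lit 181) (nat_lit 4) (nat_lit 179) (nat_lit 4) (nat_lit 422) (nat_lit 374) (nat_lit 224)) (XT.lf (nat_lit 0) (nat_lit 42560129249) (nat_lit 152) (nat_lit 173200578036) (nat_lit 76) (nat_lit 333119558653) (nat_lit 177) (nat_lit 5) (nat_lit 179) (nat_lit 5) (nat_lit 178) (nat_lit 4) (nat_lit 423) (nat_lit 374) (nat_lit 223))))) (XT.nd (nat_lit 312) (nat_lit 532) (nat_lit 0) (XT.nd (nat_lit 156) (nat_lit 228) (nat_lit 0) (XT.nd (nat_lit 78) (nat_lit 152) (nat_lit 0) (XT.lf (nat_lit 0) (nat_lit 333029441783) (nat_lit 152) (nat_lit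 159433065603) (nat_lit 0) (nat_lit 84982759744) (nat_lit 176) (nat_lit 5) (nat_lit 178) (nat_lit 4) (nat_lit 176) (nat_lit 4) (nat_lit 424) (nat_lit 374) (nat_lit 222)) (XT.lf (nat_lit 0) (nat_lit 51415985844) (nat_lit 152) (nat_lit 142644063741) (nat_lit 76) (nat_lit 413495135298) (nat_lit 174) (nat_lit 5) (nat_lit 176) (nat_lit 5) (nat_lit 175) (nat_lit 4) (nat_lit 425) (nat_lit 374) (nat_lit 221))) (XT.nd (nat_lit 78) (nat_lit 152) (nat_lit 0) (XT.lf (nat_lit 0) (nat_lit 375613391643) (nat_lit 152) (nat_lit 124218877777) (nat_lit 0) (nat_lit 139378176313) (nat_lit 173) (nat_lit 5) (nat_lit 175) (nat_lit 4) (nat_lit 173) (nat_lit 4) (nat_lit 426) (nat_lit 374) (nat_lit 220)) (XT.lf (nat_lit 0) (nat_lit 65643127264) (nat_lit 152) (nat_lit 101666929105) (nat_lit 76) (nat_lit 505298698646) (nat_lit 171) (nat_lit 5) (nat_lit 173) (nat_lit 5) (nat_lit 172) (nat_lit 4) (nat_lit 427) (nat_lit 374)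 (nat_lit 219)))) (XT.nd (nat_lit 156) (nat_lit 304) (nat_lit 0) (XT.nd (nat_lit 78) (nat_lit 152) (nat_lit 0) (XT.lf (nat_lit 0) (nat_lit 427464226006) (nat_lit 152) (nat_lit 77746718918) (nat_lit 0) (nat_lit 202478077976) (nat_lit 170) (nat_lit 5) (nat_lit 172) (nat_lit 4) (nat_lit 170) (nat_lit 4) (nat_lit 428) (nat_lit 374) (nat_lit 218)) (XT.lf (nat_lit 0) (nat_lit 86098112585) (nat_lit 152) (nat_lit 48485119022) (nat_lit 76) (nat_lit 610147351189) (nat_lit 168) (nat_lit 5) (nat_lit 170) (nat_lit 5) (nat_lit 169) (nat_lit 4) (nat_lit 429) (nat_lit 374) (nat_lit 217))) (XT.nd (nat_lit 78) (nat_lit 228) (nat_lit 0) (XT.lf (nat_lit 0) (nat_lit 489886407761) (nat_lit 152) (nat_lit 18106804912) (nat_lit 0) (nat_lit 275613699117) (nat_lit 167) (nat_lit 5) (nat_lit 169) (nat_lit 4) (nat_lit 167) (nat_lit 4) (nat_lit 430) (nat_lit 374) (nat_lit 216)) (XT.lf (nat_lit 0) (nat_lit 19578678711) (nat_lit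 76) (nat_lit 94495209322) (nat_lit 152) (nat_lit 710595975115) (nat_lit 164) (nat_lit 5) (nat_lit 165) (nat_lit 5) (nat_lit 166) (nat_lit 4) (nat_lit 431) (nat_lit 374) (nat_lit 215)))))) (XT.nd (nat_lit 624) (nat_lit 684) (nat_lit 0) (XT.nd (nat_lit 312) (nat_lit 456) (nat_lit 0) (XT.nd (nat_lit 156) (nat_lit 228) (nat_lit 0) (XT.nd (nat_lit 78) (nat_lit 152) (nat_lit 0) (XT.lf (nat_lit 0) (nat_lit 58775767450) (nat_lit 76) (nat_lit 506508294562) (nat_lit 76) (nat_lit 302438895782) (nat_lit 163) (nat_lit 4) (nat_lit 164) (nat_lit 5) (nat_lit 164) (nat_lit 4) (nat_lit 432) (nat_lit 374) (nat_lit 214)) (XT.lf (nat_lit 0) (nat_lit 106403823983) (nat_lit 76) (nat_lit 45046561688) (nat_lit 152) (nat_lit 761786478385) (nat_lit 161) (nat_lit 5) (nat_lit 162) (nat_lit 5) (nat_lit 163) (nat_lit 4) (nat_lit 433) (nat_lit 374) (nat_lit 213))) (XT.nd (nat_lit 78) (nat_lit 152) (nat_lit 0) (XT.lf (nat_lit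 0) (nat_lit 154725926675) (nat_lit 76) (nat_lit 500286064934) (nat_lit 76) (nat_lit 305934132094) (nat_lit 160) (nat_lit 4) (nat_lit 161) (nat_lit 5) (nat_lit 161) (nat_lit 4) (nat_lit 434) (nat_lit 374) (nat_lit 212)) (XT.lf (nat_lit 0) (nat_lit 199017813234) (nat_lit 152) (nat_lit 798458281608) (nat_lit 0) (nat_lit 13920681565) (nat_lit 158) (nat_lit 5) (nat_lit 160) (nat_lit 4) (nat_lit 158) (nat_lit 4) (nat_lit 435) (nat_lit 374) (nat_lit 211)))) (XT.nd (nat_lit 156) (nat_lit 228) (nat_lit 0) (XT.nd (nat_lit 78) (nat_lit 152) (nat_lit 0) (XT.lf (nat_lit 0) (nat_lit 272122897547) (nat_lit 76) (nat_lit 488625964575) (nat_lit 76) (nat_lit 303528784041) (nat_lit 157) (nat_lit 4) (nat_lit 158) (nat_lit 5) (nat_lit 158) (nat_lit 4) (nat_lit 436) (nat_lit 374) (nat_lit 210)) (XT.lf (nat_lit 0) (nat_lit 258981569859) (nat_lit 152) (nat_lit 778475525622) (nat_lit 0) (nat_lit 82698497688) (nat_lit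 155) (nat_lit 5) (nat_lit 157) (nat_lit 4) (nat_lit 155) (nat_lit 4) (nat_lit 437) (nat_lit 374) (nat_lit 209))) (XT.nd (nat_lit 78) (nat_lit 152) (nat_lit 0) (XT.lf (nat_lit 0) (nat_lit 414374010017) (nat_lit 76) (nat_lit 470360152441) (nat_lit 76) (nat_lit 294077040372) (nat_lit 154) (nat_lit 4) (nat_lit 155) (nat_lit 5) (nat_lit 155) (nat_lit 4) (nat_lit 438) (nat_lit 374) (nat_lit 208)) (XT.lf (nat_lit 0) (nat_lit 332436703349) (nat_lit 152) (nat_lit 743714051848) (nat_lit 0) (nat_lit 164547990003) (nat_lit 152) (nat_lit 5) (nat_lit 154) (nat_lit 4) (nat_lit 152) (nat_lit 4) (nat_lit 439) (nat_lit 374) (nat_lit 207))))) (XT.nd (nat_lit 312) (nat_lit 228) (nat_lit 0) (XT.nd (nat_lit 156) (nat_lit 228) (nat_lit 0) (XT.nd (nat_lit 78) (nat_lit 152) (nat_lit 0) (XT.lf (nat_lit 0) (nat_lit 585373600622) (nat_lit 76) (nat_lit 444137139246) (nat_lit 76) (nat_lit 276248393323) (nat_lit 151) (nat_lit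 4) (nat_lit 152) (nat_lit 5) (nat_lit 152) (nat_lit 4) (nat_lit 440) (nat_lit 374) (nat_lit 206)) (XT.lf (nat_lit 0) (nat_lit 421439433638) (nat_lit 152) (nat_lit 691316459398) (nat_lit 0) (nat_lit 261545361174) (nat_lit 149) (nat_lit 5) (nat_lit 151) (nat_lit 4) (nat_lit 149) (nat_lit 4) (nat_lit 441) (nat_lit 374) (nat_lit 205))) (XT.nd (nat_lit 78) (nat_lit 152) (nat_lit 0) (XT.lf (nat_lit 0) (nat_lit 789568024323) (nat_lit 76) (nat_lit 408395697445) (nat_lit 76) (nat_lit 248501598380) (nat_lit 148) (nat_lit 4) (nat_lit 149) (nat_lit 5) (nat_lit 149) (nat_lit 4) (nat_lit 442) (nat_lit 374) (nat_lit 204)) (XT.lf (nat_lit 0) (nat_lit 528338098203) (nat_lit 152) (nat_lit 617980358402) (nat_lit 0) (nat_lit 376057980399) (nat_lit 146) (nat_lit 5) (nat_lit 148) (nat_lit 4) (nat_lit 146) (nat_lit 4) (nat_lit 443) (nat_lit 374) (nat_lit 203)))) (XT.nd (nat_lit 47736) (nat_lit 0) (nat_lit 11324) (XT.nd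 (nat_lit 78) (nat_lit 152) (nat_lit 0) (XT.lf (nat_lit 0) (nat_lit 1032029011768) (nat_lit 76) (nat_lit 361335299898) (nat_lit 76) (nat_lit 209055160374) (nat_lit 145) (nat_lit 4) (nat_lit 146) (nat_lit 5) (nat_lit 146) (nat_lit 4) (nat_lit 444) (nat_lit 374) (nat_lit 202)) (XT.lf (nat_lit 0) (nat_lit 655811793515) (nat_lit 152) (nat_lit 519896052459) (nat_lit 0) (nat_lit 510783070054) (nat_lit 143) (nat_lit 5) (nat_lit 145) (nat_lit 4) (nat_lit 143) (nat_lit 4) (nat_lit 445) (nat_lit 374) (nat_lit 201))) (XT.nd (nat_lit 78) (nat_lit 0) (nat_lit 76) (XT.lf (nat_lit 0) (nat_lit 13982593728) (nat_lit 836) (nat_lit 8009509401) (nat_lit 836) (nat_lit 8009509401) (nat_lit 292) (nat_lit 3) (nat_lit 303) (nat_lit 3) (nat_lit 303) (nat_lit 5) (nat_lit 375) (nat_lit 375) (nat_lit 270)) (XT.lf (nat_lit 0) (nat_lit 29681076386) (nat_lit 760) (nat_lit 29388641848) (nat_lit 836) (nat_lit 3303771757) (nat_lit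 293) (nat_lit 5) (nat_lit 303) (nat_lit 5) (nat_lit 304) (nat_lit 5) (nat_lit 376) (nat_lit 375) (nat_lit 269)))))))
noncomputable def xc185 : XT := (XT.nd (nat_lit 1248) (nat_lit 3192) (nat_lit 0) (XT.nd (nat_lit 624) (nat_lit 2280) (nat_lit 0) (XT.nd (nat_lit 312) (nat_lit 1368) (nat_lit 0) (XT.nd (nat_lit 156) (nat_lit 0) (nat_lit 152) (XT.nd (nat_lit 78) (nat_lit 0) (nat_lit 76) (XT.lf (nat_lit 76) (nat_lit 21501912239) (nat_lit 0) (nat_lit 11390480540) (nat_lit 836) (nat_lit 31973075519) (nat_lit 294) (nat_lit 5) (nat_lit 293) (nat_lit 5) (nat_lit 304) (nat_lit 5) (nat_lit 377) (nat_lit 375) (nat_lit 268)) (XT.lf (nat_lit 76) (nat_lit 9654694406) (nat_lit 0) (nat_lit 28000483339) (nat_lit 836) (nat_lit 29836898964) (nat_lit 295) (nat_lit 5) (nat_lit 294) (nat_lit 5) (nat_lit 305) (nat_lit 5) (nat_lit 378) (nat_lit 375) (nat_lit 267))) (XT.nd (nat_lit 78) (nat_lit 0) (nat_lit 76) (XT.lf (nat_lit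 0) (nat_lit 44123722173) (nat_lit 760) (nat_lit 2401773927) (nat_lit 836) (nat_lit 23737080856) (nat_lit 295) (nat_lit 5) (nat_lit 305) (nat_lit 5) (nat_lit 306) (nat_lit 5) (nat_lit 379) (nat_lit 375) (nat_lit 266)) (XT.lf (nat_lit 0) (nat_lit 52598519718) (nat_lit 760) (nat_lit 14405511574) (nat_lit 836) (nat_lit 6176247456) (nat_lit 296) (nat_lit 5) (nat_lit 306) (nat_lit 5) (nat_lit 307) (nat_lit 5) (nat_lit 380) (nat_lit 375) (nat_lit 265)))) (XT.nd (nat_lit 156) (nat_lit 912) (nat_lit 0) (XT.nd (nat_lit 78) (nat_lit 684) (nat_lit 0) (XT.lf (nat_lit 76) (nat_lit 49395954963) (nat_lit 0) (nat_lit 13951474902) (nat_lit 836) (nat_lit 12904160377) (nat_lit 297) (nat_lit 5) (nat_lit 296) (nat_lit 5) (nat_lit 307) (nat_lit 5) (nat_lit 381) (nat_lit 375) (nat_lit 264)) (XT.lf (nat_lit 0) (nat_lit 39852823588) (nat_lit 760) (nat_lit 36655460239) (nat_lit 836) (nat_lit 2982721278) (nat_lit 287) (nat_lit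 5) (nat_lit 297) (nat_lit 5) (nat_lit 298) (nat_lit 5) (nat_lit 382) (nat_lit 375) (nat_lit 263))) (XT.nd (nat_lit 78) (nat_lit 380) (nat_lit 0) (XT.lf (nat_lit 0) (nat_lit 9010856668) (nat_lit 532) (nat_lit 52763494533) (nat_lit 76) (nat_lit 21132890216) (nat_lit 280) (nat_lit 5) (nat_lit 287) (nat_lit 5) (nat_lit 281) (nat_lit 5) (nat_lit 383) (nat_lit 375) (nat_lit 262)) (XT.lf (nat_lit 0) (nat_lit 20330705294) (nat_lit 380) (nat_lit 3165632284) (nat_lit 456) (nat_lit 63016148365) (nat_lit 275) (nat_lit 5) (nat_lit 280) (nat_lit 5) (nat_lit 281) (nat_lit 5) (nat_lit 384) (nat_lit 375) (nat_lit 261))))) (XT.nd (nat_lit 312) (nat_lit 1216) (nat_lit 0) (XT.nd (nat_lit 156) (nat_lit 380) (nat_lit 0) (XT.nd (nat_lit 78) (nat_lit 304) (nat_lit 0) (XT.lf (nat_lit 0) (nat_lit 10166137991) (nat_lit 380) (nat_lit 31004576037) (nat_lit 456) (nat_lit 49133933149) (nat_lit 270) (nat_lit 5) (nat_lit 275)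 (nat_lit 5) (nat_lit 276) (nat_lit 5) (nat_lit 385) (nat_lit 375) (nat_lit 260)) (XT.lf (nat_lit 0) (nat_lit 68087328) (nat_lit 304) (nat_lit 61918301807) (nat_lit 380) (nat_lit 32327424748) (nat_lit 266) (nat_lit 5) (nat_lit 270) (nat_lit 5) (nat_lit 271) (nat_lit 5) (nat_lit 386) (nat_lit 375) (nat_lit 259))) (XT.nd (nat_lit 78) (nat_lit 380) (nat_lit 0) (XT.lf (nat_lit 0) (nat_lit 86417301902) (nat_lit 380) (nat_lit 9578245329) (nat_lit 76) (nat_lit 2550667511) (nat_lit 266) (nat_lit 5) (nat_lit 271) (nat_lit 5) (nat_lit 267) (nat_lit 5) (nat_lit 387) (nat_lit 375) (nat_lit 258)) (XT.lf (nat_lit 0) (nat_lit 11760128731) (nat_lit 380) (nat_lit 19700452454) (nat_lit 76) (nat_lit 71529833385) (nat_lit 261) (nat_lit 5) (nat_lit 266) (nat_lit 5) (nat_lit 262) (nat_lit 5) (nat_lit 388) (nat_lit 375) (nat_lit 257)))) (XT.nd (nat_lit 156) (nat_lit 608) (nat_lit 0) (XT.nd (nat_lit 78) (nat_lit 304)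 (nat_lit 0) (XT.lf (nat_lit 0) (nat_lit 39157322034) (nat_lit 380) (nat_lit 29883576752) (nat_lit 76) (nat_lit 38638211543) (nat_lit 257) (nat_lit 5) (nat_lit 262) (nat_lit 5) (nat_lit 258) (nat_lit 5) (nat_lit 389) (nat_lit 375) (nat_lit 256)) (XT.lf (nat_lit 0) (nat_lit 70794731360) (nat_lit 380) (nat_lit 39811591416) (nat_lit 76) (nat_lit 2034156945) (nat_lit 253) (nat_lit 5) (nat_lit 258) (nat_lit 5) (nat_lit 254) (nat_lit 5) (nat_lit 390) (nat_lit 375) (nat_lit 255))) (XT.nd (nat_lit 78) (nat_lit 380) (nat_lit 0) (XT.lf (nat_lit 0) (nat_lit 67850118483) (nat_lit 228) (nat_lit 39864403665) (nat_lit 304) (nat_lit 10146667080) (nat_lit 250) (nat_lit 5) (nat_lit 253) (nat_lit 5) (nat_lit 254) (nat_lit 5) (nat_lit 391) (nat_lit 375) (nat_lit 254)) (XT.lf (nat_lit 0) (nat_lit 25620596743) (nat_lit 380) (nat_lit 60267901272) (nat_lit 76) (nat_lit 37477091488) (nat_lit 245) (nat_lit 5) (nat_lit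 250) (nat_lit 5) (nat_lit 246) (nat_lit 5) (nat_lit 392) (nat_lit 375) (nat_lit 253)))))) (XT.nd (nat_lit 624) (nat_lit 1368) (nat_lit 0) (XT.nd (nat_lit 312) (nat_lit 836) (nat_lit 0) (XT.nd (nat_lit 156) (nat_lit 532) (nat_lit 0) (XT.nd (nat_lit 78) (nat_lit 228) (nat_lit 0) (XT.lf (nat_lit 0) (nat_lit 58797034252) (nat_lit 228) (nat_lit 7576002405) (nat_lit 304) (nat_lit 62805023964) (nat_lit 242) (nat_lit 5) (nat_lit 245) (nat_lit 5) (nat_lit 246) (nat_lit 5) (nat_lit 393) (nat_lit 375) (nat_lit 252)) (XT.lf (nat_lit 0) (nat_lit 54664974617) (nat_lit 228) (nat_lit 58842385885) (nat_lit 304) (nat_lit 21792084489) (nat_lit 239) (nat_lit 5) (nat_lit 242) (nat_lit 5) (nat_lit 243) (nat_lit 5) (nat_lit 394) (nat_lit 375) (nat_lit 251))) (XT.nd (nat_lit 78) (nat_lit 228) (nat_lit 0) (XT.lf (nat_lit 0) (nat_lit 24389433228) (nat_lit 304) (nat_lit 90687261524) (nat_lit 76) (nat_lit 26685892274) (nat_lit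 235) (nat_lit 5) (nat_lit 239) (nat_lit 5) (nat_lit 236) (nat_lit 5) (nat_lit 395) (nat_lit 375) (nat_lit 250)) (XT.lf (nat_lit 0) (nat_lit 47670421847) (nat_lit 228) (nat_lit 29004905213) (nat_lit 304) (nat_lit 71890923842) (nat_lit 232) (nat_lit 5) (nat_lit 235) (nat_lit 5) (nat_lit 236) (nat_lit 5) (nat_lit 396) (nat_lit 375) (nat_lit 249)))) (XT.nd (nat_lit 156) (nat_lit 380) (nat_lit 0) (XT.nd (nat_lit 78) (nat_lit 304) (nat_lit 0) (XT.lf (nat_lit 0) (nat_lit 44911565420) (nat_lit 152) (nat_lit 91536904356) (nat_lit 228) (nat_lit 19300519243) (nat_lit 230) (nat_lit 5) (nat_lit 232) (nat_lit 5) (nat_lit 233) (nat_lit 5) (nat_lit 397) (nat_lit 375) (nat_lit 248)) (XT.lf (nat_lit 0) (nat_lit 39296403387) (nat_lit 304) (nat_lit 120551725629) (nat_lit 76) (nat_lit 3478974034) (nat_lit 226) (nat_lit 5) (nat_lit 230) (nat_lit 5) (nat_lit 227) (nat_lit 5) (nat_lit 398) (nat_lit 375) (nat_lit 247)))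 (XT.nd (nat_lit 78) (nat_lit 228) (nat_lit 0) (XT.lf (nat_lit 0) (nat_lit 40618349150) (nat_lit 152) (nat_lit 65434747893) (nat_lit 228) (nat_lit 65235138393) (nat_lit 224) (nat_lit 5) (nat_lit 226) (nat_lit 5) (nat_lit 227) (nat_lit 5) (nat_lit 399) (nat_lit 375) (nat_lit 246)) (XT.lf (nat_lit 0) (nat_lit 1700648694) (nat_lit 228) (nat_lit 139871578605) (nat_lit 76) (nat_lit 38146335241) (nat_lit 221) (nat_lit 5) (nat_lit 224) (nat_lit 5) (nat_lit 222) (nat_lit 5) (nat_lit 400) (nat_lit 375) (nat_lit 245))))) (XT.nd (nat_lit 312) (nat_lit 684) (nat_lit 0) (XT.nd (nat_lit 156) (nat_lit 380) (nat_lit 0) (XT.nd (nat_lit 78) (nat_lit 152) (nat_lit 0) (XT.lf (nat_lit 0) (nat_lit 38967119688) (nat_lit 152) (nat_lit 36793669063) (nat_lit 228) (nat_lit 112806305062) (nat_lit 219) (nat_lit 5) (nat_lit 221) (nat_lit 5) (nat_lit 222) (nat_lit 5) (nat_lit 401) (nat_lit 375) (nat_lit 244)) (XT.lf (nat_lit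 0) (nat_lit 39124712878) (nat_lit 152) (nat_lit 120899845796) (nat_lit 228) (nat_lit 37885007980) (nat_lit 217) (nat_lit 5) (nat_lit 219) (nat_lit 5) (nat_lit 220) (nat_lit 5) (nat_lit 402) (nat_lit 375) (nat_lit 243))) (XT.nd (nat_lit 78) (nat_lit 152) (nat_lit 0) (XT.lf (nat_lit 0) (nat_lit 40376512216) (nat_lit 152) (nat_lit 5174982959) (nat_lit 228) (nat_lit 162219414669) (nat_lit 214) (nat_lit 5) (nat_lit 216) (nat_lit 5) (nat_lit 217) (nat_lit 5) (nat_lit 403) (nat_lit 375) (nat_lit 242)) (XT.lf (nat_lit 0) (nat_lit 41634746583) (nat_lit 152) (nat_lit 98049758880) (nat_lit 228) (nat_lit 78438157089) (nat_lit 212) (nat_lit 5) (nat_lit 214) (nat_lit 5) (nat_lit 215) (nat_lit 5) (nat_lit 404) (nat_lit 375) (nat_lit 241)))) (XT.nd (nat_lit 156) (nat_lit 380) (nat_lit 0) (XT.nd (nat_lit 78) (nat_lit 152) (nat_lit 0) (XT.lf (nat_lit 0) (nat_lit 15885208935) (nat_lit 152) (nat_lit 184238601415)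 (nat_lit 76) (nat_lit 28958084733) (nat_lit 210) (nat_lit 5) (nat_lit 212) (nat_lit 5) (nat_lit 211) (nat_lit 5) (nat_lit 405) (nat_lit 375) (nat_lit 240)) (XT.lf (nat_lit 0) (nat_lit 47925631074) (nat_lit 152) (nat_lit 72643067857) (nat_lit 228) (nat_lit 120006756432) (nat_lit 208) (nat_lit 5) (nat_lit 210) (nat_lit 5) (nat_lit 211) (nat_lit 5) (nat_lit 406) (nat_lit 375) (nat_lit 239))) (XT.nd (nat_lit 78) (nat_lit 304) (nat_lit 0) (XT.lf (nat_lit 0) (nat_lit 53042625791) (nat_lit 76) (nat_lit 185689086110) (nat_lit 152) (nat_lit 14001546376) (nat_lit 207) (nat_lit 5) (nat_lit 208) (nat_lit 5) (nat_lit 209) (nat_lit 4) (nat_lit 407) (nat_lit 375) (nat_lit 238)) (XT.nd (nat_lit 78) (nat_lit 76) (nat_lit 0) (XT.lf (nat_lit 0) (nat_lit 58599751765) (nat_lit 152) (nat_lit 44218254918) (nat_lit 228) (nat_lit 162689734621) (nat_lit 204) (nat_lit 5) (nat_lit 206) (nat_lit 5) (nat_lit 207) (nat_lit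 5) (nat_lit 408) (nat_lit 375) (nat_lit 237)) (XT.lf (nat_lit 0) (nat_lit 65666456385) (nat_lit 76) (nat_lit 169087924009) (nat_lit 152) (nat_lit 44225235783) (nat_lit 203) (nat_lit 5) (nat_lit 204) (nat_lit 5) (nat_lit 205) (nat_lit 4) (nat_lit 409) (nat_lit 375) (nat_lit 236))))))))
noncomputable def xc186 : XT := (XT.nd (nat_lit 1248) (nat_lit 2052) (nat_lit 0) (XT.nd (nat_lit 624) (nat_lit 912) (nat_lit 0) (XT.nd (nat_lit 312) (nat_lit 532) (nat_lit 0) (XT.nd (nat_lit 156) (nat_lit 304) (nat_lit 0) (XT.nd (nat_lit 78) (nat_lit 76) (nat_lit 0) (XT.lf (nat_lit 0) (nat_lit 74353438622) (nat_lit 152) (nat_lit 12252724069) (nat_lit 228) (nat_lit 206579266545) (nat_lit 200) (nat_lit 5) (nat_lit 202) (nat_lit 5) (nat_lit 203) (nat_lit 5) (nat_lit 410) (nat_lit 375) (nat_lit 235)) (XT.lf (nat_lit 0) (nat_lit 83727718226) (nat_lit 76) (nat_lit 150184229485) (nat_lit 152) (nat_lit 74201643860) (nat_lit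 199) (nat_lit 5) (nat_lit 200) (nat_lit 5) (nat_lit 201) (nat_lit 4) (nat_lit 411) (nat_lit 375) (nat_lit 234))) (XT.nd (nat_lit 78) (nat_lit 76) (nat_lit 0) (XT.lf (nat_lit 0) (nat_lit 72516678249) (nat_lit 228) (nat_lit 228285897815) (nat_lit 76) (nat_lit 23082177327) (nat_lit 196) (nat_lit 5) (nat_lit 199) (nat_lit 5) (nat_lit 197) (nat_lit 4) (nat_lit 412) (nat_lit 375) (nat_lit 233)) (XT.lf (nat_lit 0) (nat_lit 108083686216) (nat_lit 76) (nat_lit 128515960308) (nat_lit 152) (nat_lit 103845798388) (nat_lit 195) (nat_lit 5) (nat_lit 196) (nat_lit 5) (nat_lit 197) (nat_lit 4) (nat_lit 413) (nat_lit 375) (nat_lit 232)))) (XT.nd (nat_lit 156) (nat_lit 228) (nat_lit 0) (XT.nd (nat_lit 78) (nat_lit 76) (nat_lit 0) (XT.lf (nat_lit 0) (nat_lit 60697515374) (nat_lit 228) (nat_lit 234566334422) (nat_lit 76) (nat_lit 62674088119) (nat_lit 192) (nat_lit 5) (nat_lit 195) (nat_lit 5) (nat_lit 193) (nat_lit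 4) (nat_lit 414) (nat_lit 375) (nat_lit 231)) (XT.lf (nat_lit 0) (nat_lit 139720353803) (nat_lit 76) (nat_lit 103556233396) (nat_lit 152) (nat_lit 133042596455) (nat_lit 191) (nat_lit 5) (nat_lit 192) (nat_lit 5) (nat_lit 193) (nat_lit 4) (nat_lit 415) (nat_lit 375) (nat_lit 230))) (XT.nd (nat_lit 78) (nat_lit 76) (nat_lit 0) (XT.lf (nat_lit 0) (nat_lit 51271948069) (nat_lit 152) (nat_lit 236794438531) (nat_lit 76) (nat_lit 107650042943) (nat_lit 189) (nat_lit 5) (nat_lit 191) (nat_lit 5) (nat_lit 190) (nat_lit 4) (nat_lit 416) (nat_lit 375) (nat_lit 229)) (XT.lf (nat_lit 0) (nat_lit 179769791674) (nat_lit 76) (nat_lit 74704382821) (nat_lit 152) (nat_lit 161642045157) (nat_lit 188) (nat_lit 5) (nat_lit 189) (nat_lit 5) (nat_lit 190) (nat_lit 4) (nat_lit 417) (nat_lit 375) (nat_lit 228))))) (XT.nd (nat_lit 312) (nat_lit 456) (nat_lit 0) (XT.nd (nat_lit 156) (nat_lit 228) (nat_lit 0) (XT.nd (nat_lit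 78) (nat_lit 76) (nat_lit 0) (XT.lf (nat_lit 0) (nat_lit 44611699464) (nat_lit 152) (nat_lit 234167516356) (nat_lit 76) (nat_lit 158842220083) (nat_lit 186) (nat_lit 5) (nat_lit 188) (nat_lit 5) (nat_lit 187) (nat_lit 4) (nat_lit 418) (nat_lit 375) (nat_lit 227)) (XT.lf (nat_lit 0) (nat_lit 229529765002) (nat_lit 76) (nat_lit 41275863265) (nat_lit 152) (nat_lit 189453795983) (nat_lit 185) (nat_lit 5) (nat_lit 186) (nat_lit 5) (nat_lit 187) (nat_lit 4) (nat_lit 419) (nat_lit 375) (nat_lit 226))) (XT.nd (nat_lit 78) (nat_lit 76) (nat_lit 0) (XT.lf (nat_lit 0) (nat_lit 41153612048) (nat_lit 152) (nat_lit 225751310004) (nat_lit 76) (nat_lit 217192830903) (nat_lit 183) (nat_lit 5) (nat_lit 185) (nat_lit 5) (nat_lit 184) (nat_lit 4) (nat_lit 420) (nat_lit 375) (nat_lit 225)) (XT.lf (nat_lit 0) (nat_lit 290485893010) (nat_lit 76) (nat_lit 2490853510) (nat_lit 152) (nat_lit 216240877841) (nat_lit 182)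 (nat_lit 5) (nat_lit 183) (nat_lit 5) (nat_lit 184) (nat_lit 4) (nat_lit 421) (nat_lit 375) (nat_lit 224)))) (XT.nd (nat_lit 156) (nat_lit 228) (nat_lit 0) (XT.nd (nat_lit 78) (nat_lit 76) (nat_lit 0) (XT.lf (nat_lit 0) (nat_lit 41408698977) (nat_lit 152) (nat_lit 210461351399) (nat_lit 76) (nat_lit 283768440453) (nat_lit 180) (nat_lit 5) (nat_lit 182) (nat_lit 5) (nat_lit 181) (nat_lit 4) (nat_lit 422) (nat_lit 375) (nat_lit 223)) (XT.lf (nat_lit 0) (nat_lit 322462212967) (nat_lit 152) (nat_lit 199838064735) (nat_lit 0) (nat_lit 41177102392) (nat_lit 179) (nat_lit 5) (nat_lit 181) (nat_lit 4) (nat_lit 179) (nat_lit 4) (nat_lit 423) (nat_lit 375) (nat_lit 222))) (XT.nd (nat_lit 78) (nat_lit 76) (nat_lit 0) (XT.lf (nat_lit 0) (nat_lit 45972415898) (nat_lit 152) (nat_lit 187041818300) (nat_lit 76) (nat_lit 359776079199) (nat_lit 177) (nat_lit 5) (nat_lit 179) (nat_lit 5) (nat_lit 178) (nat_lit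 4) (nat_lit 424) (nat_lit 375) (nat_lit 221)) (XT.lf (nat_lit 0) (nat_lit 359679050336) (nat_lit 152) (nat_lit 172173300726) (nat_lit 0) (nat_lit 91788174778) (nat_lit 176) (nat_lit 5) (nat_lit 178) (nat_lit 4) (nat_lit 176) (nat_lit 4) (nat_lit 425) (nat_lit 375) (nat_lit 220)))))) (XT.nd (nat_lit 624) (nat_lit 1064) (nat_lit 0) (XT.nd (nat_lit 312) (nat_lit 532) (nat_lit 0) (XT.nd (nat_lit 156) (nat_lit 228) (nat_lit 0) (XT.nd (nat_lit 78) (nat_lit 76) (nat_lit 0) (XT.lf (nat_lit 0) (nat_lit 55536309477) (nat_lit 152) (nat_lit 154041572030) (nat_lit 76) (nat_lit 446581365928) (nat_lit 174) (nat_lit 5) (nat_lit 176) (nat_lit 5) (nat_lit 175) (nat_lit 4) (nat_lit 426) (nat_lit 375) (nat_lit 219)) (XT.lf (nat_lit 0) (nat_lit 405669299458) (nat_lit 152) (nat_lit 134142747951) (nat_lit 0) (nat_lit 150534892159) (nat_lit 173) (nat_lit 5) (nat_lit 175) (nat_lit 4) (nat_lit 173) (nat_lit 4) (nat_lit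 427) (nat_lit 375) (nat_lit 218))) (XT.nd (nat_lit 78) (nat_lit 76) (nat_lit 0) (XT.lf (nat_lit 0) (nat_lit 70901218338) (nat_lit 152) (nat_lit 109787016587) (nat_lit 76) (nat_lit 545728888446) (nat_lit 171) (nat_lit 5) (nat_lit 173) (nat_lit 5) (nat_lit 172) (nat_lit 4) (nat_lit 428) (nat_lit 375) (nat_lit 217)) (XT.lf (nat_lit 0) (nat_lit 461667810227) (nat_lit 152) (nat_lit 83953547825) (nat_lit 0) (nat_lit 218682464372) (nat_lit 170) (nat_lit 5) (nat_lit 172) (nat_lit 4) (nat_lit 170) (nat_lit 4) (nat_lit 429) (nat_lit 375) (nat_lit 216)))) (XT.nd (nat_lit 156) (nat_lit 304) (nat_lit 0) (XT.nd (nat_lit 78) (nat_lit 76) (nat_lit 0) (XT.lf (nat_lit 0) (nat_lit 92992224029) (nat_lit 152) (nat_lit 52351373865) (nat_lit 76) (nat_lit 658965118404) (nat_lit 168) (nat_lit 5) (nat_lit 170) (nat_lit 5) (nat_lit 169) (nat_lit 4) (nat_lit 430) (nat_lit 375) (nat_lit 215)) (XT.lf (nat_lit 0) (nat_lit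 529083400466) (nat_lit 152) (nat_lit 19543134971) (nat_lit 0) (nat_lit 297668625291) (nat_lit 167) (nat_lit 5) (nat_lit 169) (nat_lit 4) (nat_lit 167) (nat_lit 4) (nat_lit 431) (nat_lit 375) (nat_lit 214))) (XT.nd (nat_lit 78) (nat_lit 76) (nat_lit 0) (XT.lf (nat_lit 0) (nat_lit 21157244615) (nat_lit 76) (nat_lit 102048653456) (nat_lit 152) (nat_lit 767437249180) (nat_lit 164) (nat_lit 5) (nat_lit 165) (nat_lit 5) (nat_lit 166) (nat_lit 4) (nat_lit 432) (nat_lit 375) (nat_lit 213)) (XT.lf (nat_lit 0) (nat_lit 63489766658) (nat_lit 76) (nat_lit 547022943149) (nat_lit 76) (nat_lit 326627788470) (nat_lit 163) (nat_lit 4) (nat_lit 164) (nat_lit 5) (nat_lit 164) (nat_lit 4) (nat_lit 433) (nat_lit 375) (nat_lit 212))))) (XT.nd (nat_lit 312) (nat_lit 608) (nat_lit 0) (XT.nd (nat_lit 156) (nat_lit 228) (nat_lit 0) (XT.nd (nat_lit 78) (nat_lit 76) (nat_lit 0) (XT.lf (nat_lit 0) (nat_lit 114927739306)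 (nat_lit 76) (nat_lit 48644432482) (nat_lit 152) (nat_lit 822723353629) (nat_lit 161) (nat_lit 5) (nat_lit 162) (nat_lit 5) (nat_lit 163) (nat_lit 4) (nat_lit 434) (nat_lit 375) (nat_lit 211)) (XT.lf (nat_lit 0) (nat_lit 167115293513) (nat_lit 76) (nat_lit 540303247313) (nat_lit 76) (nat_lit 330402993279) (nat_lit 160) (nat_lit 4) (nat_lit 161) (nat_lit 5) (nat_lit 161) (nat_lit 4) (nat_lit 435) (nat_lit 375) (nat_lit 210))) (XT.nd (nat_lit 78) (nat_lit 76) (nat_lit 0) (XT.lf (nat_lit 0) (nat_lit 214944757062) (nat_lit 152) (nat_lit 862323777545) (nat_lit 0) (nat_lit 15039707975) (nat_lit 158) (nat_lit 5) (nat_lit 160) (nat_lit 4) (nat_lit 158) (nat_lit 4) (nat_lit 436) (nat_lit 375) (nat_lit 209)) (XT.lf (nat_lit 0) (nat_lit 293903410657) (nat_lit 76) (nat_lit 527710637172) (nat_lit 76) (nat_lit 327805546192) (nat_lit 157) (nat_lit 4) (nat_lit 158) (nat_lit 5) (nat_lit 158) (nat_lit 4) (nat_lit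 437) (nat_lit 375) (nat_lit 208)))) (XT.nd (nat_lit 156) (nat_lit 380) (nat_lit 0) (XT.nd (nat_lit 78) (nat_lit 76) (nat_lit 0) (XT.lf (nat_lit 0) (nat_lit 279705305678) (nat_lit 152) (nat_lit 840743006632) (nat_lit 0) (nat_lit 89319467802) (nat_lit 155) (nat_lit 5) (nat_lit 157) (nat_lit 4) (nat_lit 155) (nat_lit 4) (nat_lit 438) (nat_lit 375) (nat_lit 207)) (XT.lf (nat_lit 0) (nat_lit 447534032889) (nat_lit 76) (nat_lit 507983844575) (nat_lit 76) (nat_lit 317597972492) (nat_lit 154) (nat_lit 4) (nat_lit 155) (nat_lit 5) (nat_lit 155) (nat_lit 4) (nat_lit 439) (nat_lit 375) (nat_lit 206))) (XT.nd (nat_lit 78) (nat_lit 228) (nat_lit 0) (XT.lf (nat_lit 0) (nat_lit 359036559349) (nat_lit 152) (nat_lit 803201188470) (nat_lit 0) (nat_lit 177716651010) (nat_lit 152) (nat_lit 5) (nat_lit 154) (nat_lit 4) (nat_lit 152) (nat_lit 4) (nat_lit 440) (nat_lit 375) (nat_lit 205)) (XT.nd (nat_lit 78) (nat_lit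 152) (nat_lit 0) (XT.lf (nat_lit 0) (nat_lit 632213042152) (nat_lit 76) (nat_lit 479663261370) (nat_lit 76) (nat_lit 298343325101) (nat_lit 151) (nat_lit 4) (nat_lit 152) (nat_lit 5) (nat_lit 152) (nat_lit 4) (nat_lit 441) (nat_lit 375) (nat_lit 204)) (XT.lf (nat_lit 0) (nat_lit 455159234407) (nat_lit 152) (nat_lit 746612331648) (nat_lit 0) (nat_lit 282473556187) (nat_lit 149) (nat_lit 5) (nat_lit 151) (nat_lit 4) (nat_lit 149) (nat_lit 4) (nat_lit 442) (nat_lit 375) (nat_lit 203))))))))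
noncomputable def xc187 : XT := (XT.nd (nat_lit 48906) (nat_lit 0) (nat_lit 5092) (XT.nd (nat_lit 48282) (nat_lit 0) (nat_lit 9196) (XT.nd (nat_lit 47970) (nat_lit 0) (nat_lit 11248) (XT.nd (nat_lit 156) (nat_lit 76) (nat_lit 0) (XT.nd (nat_lit 78) (nat_lit 152) (nat_lit 0) (XT.lf (nat_lit 0) (nat_lit 852742500325) (nat_lit 76) (nat_lit 441062762156) (nat_lit 76) (nat_lit 268377061131) (nat_lit 148) (nat_lit 4) (nat_lit 149) (nat_lit 5) (nat_lit 149) (nat_lit 4) (nat_lit 443) (nat_lit 375) (nat_lit 202)) (XT.lf (nat_lit 0) (nat_lit 570609534233) (nat_lit 152) (nat_lit 667409856605) (nat_lit 0) (nat_lit 406146941717) (nat_lit 146) (nat_lit 5) (nat_lit 148) (nat_lit 4) (nat_lit 146) (nat_lit 4) (nat_lit 444) (nat_lit 375) (nat_lit 201))) (XT.nd (nat_lit 47736) (nat_lit 0) (nat_lit 11172) (XT.lf (nat_lit 0) (nat_lit 1114599875071) (nat_lit 76) (nat_lit 390237778022) (nat_lit 76) (nat_lit 225775166885)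 (nat_lit 145) (nat_lit 4) (nat_lit 146) (nat_lit 5) (nat_lit 146) (nat_lit 4) (nat_lit 445) (nat_lit 375) (nat_lit 200)) (XT.lf (nat_lit 0) (nat_lit 15128659890) (nat_lit 836) (nat_lit 8635854354) (nat_lit 836) (nat_lit 8635854354) (nat_lit 292) (nat_lit 3) (nat_lit 303) (nat_lit 3) (nat_lit 303) (nat_lit 5) (nat_lit 376) (nat_lit 376) (nat_lit 268)))) (XT.nd (nat_lit 156) (nat_lit 0) (nat_lit 76) (XT.nd (nat_lit 78) (nat_lit 0) (nat_lit 0) (XT.lf (nat_lit 0) (nat_lit 32106472409) (nat_lit 760) (nat_lit 31709220543) (nat_lit 836) (nat_lit 3545130743) (nat_lit 293) (nat_lit 5) (nat_lit 303) (nat_lit 5) (nat_lit 304) (nat_lit 5) (nat_lit 377) (nat_lit 376) (nat_lit 267)) (XT.lf (nat_lit 76) (nat_lit 23251251829) (nat_lit 0) (nat_lit 12320126866) (nat_lit 836) (nat_lit 34480947343) (nat_lit 294) (nat_lit 5) (nat_lit 293) (nat_lit 5) (nat_lit 304) (nat_lit 5) (nat_lit 378) (nat_lit 376) (nat_lit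 266))) (XT.nd (nat_lit 78) (nat_lit 0) (nat_lit 76) (XT.lf (nat_lit 76) (nat_lit 10457539367) (nat_lit 0) (nat_lit 30254331174) (nat_lit 836) (nat_lit 32177358374) (nat_lit 295) (nat_lit 5) (nat_lit 294) (nat_lit 5) (nat_lit 305) (nat_lit 5) (nat_lit 379) (nat_lit 376) (nat_lit 265)) (XT.lf (nat_lit 0) (nat_lit 47694419001) (nat_lit 760) (nat_lit 2563453862) (nat_lit 836) (nat_lit 25623670299) (nat_lit 295) (nat_lit 5) (nat_lit 305) (nat_lit 5) (nat_lit 306) (nat_lit 5) (nat_lit 380) (nat_lit 376) (nat_lit 264))))) (XT.nd (nat_lit 312) (nat_lit 1064) (nat_lit 0) (XT.nd (nat_lit 156) (nat_lit 1216) (nat_lit 0) (XT.nd (nat_lit 78) (nat_lit 0) (nat_lit 0) (XT.lf (nat_lit 0) (nat_lit 56844491147) (nat_lit 760) (nat_lit 15526760792) (nat_lit 836) (nat_lit 6661544617) (nat_lit 296) (nat_lit 5) (nat_lit 306) (nat_lit 5) (nat_lit 307) (nat_lit 5) (nat_lit 381) (nat_lit 376) (nat_lit 263)) (XT.lf (nat_lit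 76) (nat_lit 53377467515) (nat_lit 0) (nat_lit 15073490946) (nat_lit 836) (nat_lit 13898972290) (nat_lit 297) (nat_lit 5) (nat_lit 296) (nat_lit 5) (nat_lit 307) (nat_lit 5) (nat_lit 382) (nat_lit 376) (nat_lit 262))) (XT.nd (nat_lit 78) (nat_lit 532) (nat_lit 0) (XT.lf (nat_lit 0) (nat_lit 43071386132) (nat_lit 760) (nat_lit 39591036006) (nat_lit 836) (nat_lit 3186189595) (nat_lit 287) (nat_lit 5) (nat_lit 297) (nat_lit 5) (nat_lit 298) (nat_lit 5) (nat_lit 383) (nat_lit 376) (nat_lit 261)) (XT.lf (nat_lit 0) (nat_lit 9763669774) (nat_lit 532) (nat_lit 56952851683) (nat_lit 76) (nat_lit 22821702045) (nat_lit 280) (nat_lit 5) (nat_lit 287) (nat_lit 5) (nat_lit 281) (nat_lit 5) (nat_lit 384) (nat_lit 376) (nat_lit 260)))) (XT.nd (nat_lit 156) (nat_lit 304) (nat_lit 0) (XT.nd (nat_lit 78) (nat_lit 380) (nat_lit 0) (XT.lf (nat_lit 0) (nat_lit 21987505513) (nat_lit 380) (nat_lit 3418591131) (nat_lit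 456) (nat_lit 68025885571) (nat_lit 275) (nat_lit 5) (nat_lit 280) (nat_lit 5) (nat_lit 281) (nat_lit 5) (nat_lit 385) (nat_lit 376) (nat_lit 259)) (XT.lf (nat_lit 0) (nat_lit 11009887066) (nat_lit 380) (nat_lit 33482789819) (nat_lit 456) (nat_lit 53034926780) (nat_lit 270) (nat_lit 5) (nat_lit 275) (nat_lit 5) (nat_lit 276) (nat_lit 5) (nat_lit 386) (nat_lit 376) (nat_lit 258))) (XT.nd (nat_lit 78) (nat_lit 0) (nat_lit 0) (XT.lf (nat_lit 0) (nat_lit 103990318) (nat_lit 304) (nat_lit 66868025579) (nat_lit 380) (nat_lit 34885567315) (nat_lit 266) (nat_lit 5) (nat_lit 270) (nat_lit 5) (nat_lit 271) (nat_lit 5) (nat_lit 387) (nat_lit 376) (nat_lit 257)) (XT.lf (nat_lit 0) (nat_lit 93355476822) (nat_lit 380) (nat_lit 10315122190) (nat_lit 76) (nat_lit 2758073373) (nat_lit 266) (nat_lit 5) (nat_lit 271) (nat_lit 5) (nat_lit 267) (nat_lit 5) (nat_lit 388) (nat_lit 376) (nat_lit 256)))))) (XT.nd (nat_lit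 624) (nat_lit 1748) (nat_lit 0) (XT.nd (nat_lit 312) (nat_lit 1140) (nat_lit 0) (XT.nd (nat_lit 156) (nat_lit 532) (nat_lit 0) (XT.nd (nat_lit 78) (nat_lit 304) (nat_lit 0) (XT.lf (nat_lit 0) (nat_lit 12724715750) (nat_lit 380) (nat_lit 21247596658) (nat_lit 76) (nat_lit 77256146492) (nat_lit 261) (nat_lit 5) (nat_lit 266) (nat_lit 5) (nat_lit 262) (nat_lit 5) (nat_lit 389) (nat_lit 376) (nat_lit 255)) (XT.lf (nat_lit 0) (nat_lit 42312435781) (nat_lit 380) (nat_lit 32245585184) (nat_lit 76) (nat_lit 41734291792) (nat_lit 257) (nat_lit 5) (nat_lit 262) (nat_lit 5) (nat_lit 258) (nat_lit 5) (nat_lit 390) (nat_lit 376) (nat_lit 254))) (XT.nd (nat_lit 78) (nat_lit 228) (nat_lit 0) (XT.lf (nat_lit 0) (nat_lit 76479693318) (nat_lit 380) (nat_lit 42968118866) (nat_lit 76) (nat_lit 2202836742) (nat_lit 253) (nat_lit 5) (nat_lit 258) (nat_lit 5) (nat_lit 254) (nat_lit 5) (nat_lit 391) (nat_lit 376) (nat_lit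 253)) (XT.lf (nat_lit 0) (nat_lit 73305293602) (nat_lit 228) (nat_lit 43046613941) (nat_lit 304) (nat_lit 10937165644) (nat_lit 250) (nat_lit 5) (nat_lit 253) (nat_lit 5) (nat_lit 254) (nat_lit 5) (nat_lit 392) (nat_lit 376) (nat_lit 252)))) (XT.nd (nat_lit 156) (nat_lit 532) (nat_lit 0) (XT.nd (nat_lit 78) (nat_lit 228) (nat_lit 0) (XT.lf (nat_lit 0) (nat_lit 27689805090) (nat_lit 380) (nat_lit 65061837996) (nat_lit 76) (nat_lit 40482215548) (nat_lit 245) (nat_lit 5) (nat_lit 250) (nat_lit 5) (nat_lit 246) (nat_lit 5) (nat_lit 393) (nat_lit 376) (nat_lit 251)) (XT.lf (nat_lit 0) (nat_lit 63527097455) (nat_lit 228) (nat_lit 8174304432) (nat_lit 304) (nat_lit 67809977468) (nat_lit 242) (nat_lit 5) (nat_lit 245) (nat_lit 5) (nat_lit 246) (nat_lit 5) (nat_lit 394) (nat_lit 376) (nat_lit 250))) (XT.nd (nat_lit 78) (nat_lit 304) (nat_lit 0) (XT.lf (nat_lit 0) (nat_lit 59064099769) (nat_lit 228) (nat_lit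 63541517088) (nat_lit 304) (nat_lit 23516900357) (nat_lit 239) (nat_lit 5) (nat_lit 242) (nat_lit 5) (nat_lit 243) (nat_lit 5) (nat_lit 395) (nat_lit 376) (nat_lit 249)) (XT.lf (nat_lit 0) (nat_lit 26357741238) (nat_lit 304) (nat_lit 97916153227) (nat_lit 76) (nat_lit 28828841856) (nat_lit 235) (nat_lit 5) (nat_lit 239) (nat_lit 5) (nat_lit 236) (nat_lit 5) (nat_lit 396) (nat_lit 376) (nat_lit 248))))) (XT.nd (nat_lit 312) (nat_lit 912) (nat_lit 0) (XT.nd (nat_lit 156) (nat_lit 456) (nat_lit 0) (XT.nd (nat_lit 78) (nat_lit 152) (nat_lit 0) (XT.lf (nat_lit 0) (nat_lit 51509011008) (nat_lit 228) (nat_lit 31316614574) (nat_lit 304) (nat_lit 77625111774) (nat_lit 232) (nat_lit 5) (nat_lit 235) (nat_lit 5) (nat_lit 236) (nat_lit 5) (nat_lit 397) (nat_lit 376) (nat_lit 247)) (XT.lf (nat_lit 0) (nat_lit 48529010119) (nat_lit 152) (nat_lit 98850912579) (nat_lit 228) (nat_lit 20828206675) (nat_lit 230)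 (nat_lit 5) (nat_lit 232) (nat_lit 5) (nat_lit 233) (nat_lit 5) (nat_lit 398) (nat_lit 376) (nat_lit 246))) (XT.nd (nat_lit 78) (nat_lit 152) (nat_lit 0) (XT.lf (nat_lit 0) (nat_lit 42455286993) (nat_lit 304) (nat_lit 130171296818) (nat_lit 76) (nat_lit 3765928916) (nat_lit 226) (nat_lit 5) (nat_lit 230) (nat_lit 5) (nat_lit 227) (nat_lit 5) (nat_lit 399) (nat_lit 376) (nat_lit 245)) (XT.lf (nat_lit 0) (nat_lit 43891316297) (nat_lit 152) (nat_lit 70660442930) (nat_lit 228) (nat_lit 70438814323) (nat_lit 224) (nat_lit 5) (nat_lit 226) (nat_lit 5) (nat_lit 227) (nat_lit 5) (nat_lit 400) (nat_lit 376) (nat_lit 244)))) (XT.nd (nat_lit 156) (nat_lit 532) (nat_lit 0) (XT.nd (nat_lit 78) (nat_lit 152) (nat_lit 0) (XT.lf (nat_lit 0) (nat_lit 1850765043) (nat_lit 228) (nat_lit 151037808167) (nat_lit 76) (nat_lit 41206771110) (nat_lit 221) (nat_lit 5) (nat_lit 224) (nat_lit 5) (nat_lit 222) (nat_lit 5)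 (nat_lit 401) (nat_lit 376) (nat_lit 243)) (XT.lf (nat_lit 0) (nat_lit 42106964850) (nat_lit 152) (nat_lit 39728060549) (nat_lit 228) (nat_lit 121816767240) (nat_lit 219) (nat_lit 5) (nat_lit 221) (nat_lit 5) (nat_lit 222) (nat_lit 5) (nat_lit 402) (nat_lit 376) (nat_lit 242))) (XT.nd (nat_lit 78) (nat_lit 380) (nat_lit 0) (XT.lf (nat_lit 0) (nat_lit 42276692419) (nat_lit 152) (nat_lit 130562688967) (nat_lit 228) (nat_lit 40902307699) (nat_lit 217) (nat_lit 5) (nat_lit 219) (nat_lit 5) (nat_lit 220) (nat_lit 5) (nat_lit 403) (nat_lit 376) (nat_lit 241)) (XT.nd (nat_lit 78) (nat_lit 152) (nat_lit 0) (XT.lf (nat_lit 0) (nat_lit 43628092836) (nat_lit 152) (nat_lit 5579957744) (nat_lit 228) (nat_lit 175183910262) (nat_lit 214) (nat_lit 5) (nat_lit 216) (nat_lit 5) (nat_lit 217) (nat_lit 5) (nat_lit 404) (nat_lit 376) (nat_lit 240)) (XT.lf (nat_lit 0) (nat_lit 44986513345) (nat_lit 152) (nat_lit 105884725294)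 (nat_lit 228) (nat_lit 84700638279) (nat_lit 212) (nat_lit 5) (nat_lit 214) (nat_lit 5) (nat_lit 215) (nat_lit 5) (nat_lit 405) (nat_lit 376) (nat_lit 239))))))))
noncomputable def xc188 : XT := (XT.nd (nat_lit 1248) (nat_lit 1900) (nat_lit 0) (XT.nd (nat_lit 624) (nat_lit 988) (nat_lit 0) (XT.nd (nat_lit 312) (nat_lit 608) (nat_lit 0) (XT.nd (nat_lit 156) (nat_lit 304) (nat_lit 0) (XT.nd (nat_lit 78) (nat_lit 152) (nat_lit 0) (XT.lf (nat_lit 0) (nat_lit 17167751219) (nat_lit 152) (nat_lit 198956788864) (nat_lit 76) (nat_lit 31283320327) (nat_lit 210) (nat_lit 5) (nat_lit 212) (nat_lit 5) (nat_lit 211) (nat_lit 5) (nat_lit 406) (nat_lit 376) (nat_lit 238)) (XT.lf (nat_lit 0) (nat_lit 51779673907) (nat_lit 152) (nat_lit 78445690085) (nat_lit 228) (nat_lit 129595569343) (nat_lit 208) (nat_lit 5) (nat_lit 210) (nat_lit 5) (nat_lit 211) (nat_lit 5) (nat_lit 407) (nat_lit 376) (nat_lit 237))) (XT.nd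 (nat_lit 78) (nat_lit 228) (nat_lit 0) (XT.lf (nat_lit 0) (nat_lit 57305561777) (nat_lit 76) (nat_lit 200535461284) (nat_lit 152) (nat_lit 15110357169) (nat_lit 207) (nat_lit 5) (nat_lit 208) (nat_lit 5) (nat_lit 209) (nat_lit 4) (nat_lit 408) (nat_lit 376) (nat_lit 236)) (XT.lf (nat_lit 0) (nat_lit 63306755605) (nat_lit 152) (nat_lit 47747128287) (nat_lit 228) (nat_lit 175693954883) (nat_lit 204) (nat_lit 5) (nat_lit 206) (nat_lit 5) (nat_lit 207) (nat_lit 5) (nat_lit 409) (nat_lit 376) (nat_lit 235)))) (XT.nd (nat_lit 156) (nat_lit 304) (nat_lit 0) (XT.nd (nat_lit 78) (nat_lit 228) (nat_lit 0) (XT.lf (nat_lit 0) (nat_lit 70938340761) (nat_lit 76) (nat_lit 182606467684) (nat_lit 152) (nat_lit 47752673144) (nat_lit 203) (nat_lit 5) (nat_lit 204) (nat_lit 5) (nat_lit 205) (nat_lit 4) (nat_lit 410) (nat_lit 376) (nat_lit 234)) (XT.lf (nat_lit 0) (nat_lit 80319798596) (nat_lit 152) (nat_lit 13224623564)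 (nat_lit 228) (nat_lit 223095353092) (nat_lit 200) (nat_lit 5) (nat_lit 202) (nat_lit 5) (nat_lit 203) (nat_lit 5) (nat_lit 411) (nat_lit 376) (nat_lit 233))) (XT.nd (nat_lit 78) (nat_lit 228) (nat_lit 0) (XT.lf (nat_lit 0) (nat_lit 90443577493) (nat_lit 76) (nat_lit 162190764740) (nat_lit 152) (nat_lit 80127864729) (nat_lit 199) (nat_lit 5) (nat_lit 200) (nat_lit 5) (nat_lit 201) (nat_lit 4) (nat_lit 412) (nat_lit 376) (nat_lit 232)) (XT.lf (nat_lit 0) (nat_lit 78327288859) (nat_lit 228) (nat_lit 246531258887) (nat_lit 76) (nat_lit 24936522099) (nat_lit 196) (nat_lit 5) (nat_lit 199) (nat_lit 5) (nat_lit 197) (nat_lit 4) (nat_lit 413) (nat_lit 376) (nat_lit 231))))) (XT.nd (nat_lit 312) (nat_lit 456) (nat_lit 0) (XT.nd (nat_lit 156) (nat_lit 228) (nat_lit 0) (XT.nd (nat_lit 78) (nat_lit 228) (nat_lit 0) (XT.lf (nat_lit 0) (nat_lit 116747130871) (nat_lit 76) (nat_lit 138789338099) (nat_lit 152)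 (nat_lit 112144168999) (nat_lit 195) (nat_lit 5) (nat_lit 196) (nat_lit 5) (nat_lit 197) (nat_lit 4) (nat_lit 414) (nat_lit 376) (nat_lit 230)) (XT.lf (nat_lit 0) (nat_lit 65562021219) (nat_lit 228) (nat_lit 253315026191) (nat_lit 76) (nat_lit 67695490307) (nat_lit 192) (nat_lit 5) (nat_lit 195) (nat_lit 5) (nat_lit 193) (nat_lit 4) (nat_lit 415) (nat_lit 376) (nat_lit 229))) (XT.nd (nat_lit 78) (nat_lit 152) (nat_lit 0) (XT.lf (nat_lit 0) (nat_lit 150913875025) (nat_lit 76) (nat_lit 111833147112) (nat_lit 152) (nat_lit 143677280812) (nat_lit 191) (nat_lit 5) (nat_lit 192) (nat_lit 5) (nat_lit 193) (nat_lit 4) (nat_lit 416) (nat_lit 376) (nat_lit 228)) (XT.lf (nat_lit 0) (nat_lit 55381879775) (nat_lit 152) (nat_lit 255722236982) (nat_lit 76) (nat_lit 116269218356) (nat_lit 189) (nat_lit 5) (nat_lit 191) (nat_lit 5) (nat_lit 190) (nat_lit 4) (nat_lit 417) (nat_lit 376) (nat_lit 227)))) (XT.nd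 (nat_lit 156) (nat_lit 228) (nat_lit 0) (XT.nd (nat_lit 78) (nat_lit 152) (nat_lit 0) (XT.lf (nat_lit 0) (nat_lit 194166446875) (nat_lit 76) (nat_lit 80673467135) (nat_lit 152) (nat_lit 174565212936) (nat_lit 188) (nat_lit 5) (nat_lit 189) (nat_lit 5) (nat_lit 190) (nat_lit 4) (nat_lit 418) (nat_lit 376) (nat_lit 226)) (XT.lf (nat_lit 0) (nat_lit 48188321014) (nat_lit 152) (nat_lit 252885981882) (nat_lit 76) (nat_lit 171556463598) (nat_lit 186) (nat_lit 5) (nat_lit 188) (nat_lit 5) (nat_lit 187) (nat_lit 4) (nat_lit 419) (nat_lit 376) (nat_lit 225))) (XT.nd (nat_lit 78) (nat_lit 152) (nat_lit 0) (XT.lf (nat_lit 0) (nat_lit 247906432893) (nat_lit 76) (nat_lit 44570984981) (nat_lit 152) (nat_lit 204602393349) (nat_lit 185) (nat_lit 5) (nat_lit 186) (nat_lit 5) (nat_lit 187) (nat_lit 4) (nat_lit 420) (nat_lit 376) (nat_lit 224)) (XT.lf (nat_lit 0) (nat_lit 44453130969) (nat_lit 152) (nat_lit 243797262674)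 (nat_lit 76) (nat_lit 234574818050) (nat_lit 183) (nat_lit 5) (nat_lit 185) (nat_lit 5) (nat_lit 184) (nat_lit 4) (nat_lit 421) (nat_lit 376) (nat_lit 223)))))) (XT.nd (nat_lit 624) (nat_lit 988) (nat_lit 0) (XT.nd (nat_lit 312) (nat_lit 456) (nat_lit 0) (XT.nd (nat_lit 156) (nat_lit 228) (nat_lit 0) (XT.nd (nat_lit 78) (nat_lit 152) (nat_lit 0) (XT.lf (nat_lit 0) (nat_lit 313738301547) (nat_lit 76) (nat_lit 2683490452) (nat_lit 152) (nat_lit 233532897023) (nat_lit 182) (nat_lit 5) (nat_lit 183) (nat_lit 5) (nat_lit 184) (nat_lit 4) (nat_lit 422) (nat_lit 376) (nat_lit 222)) (XT.lf (nat_lit 0) (nat_lit 44728200525) (nat_lit 152) (nat_lit 227284854449) (nat_lit 76) (nat_lit 306476174841) (nat_lit 180) (nat_lit 5) (nat_lit 182) (nat_lit 5) (nat_lit 181) (nat_lit 4) (nat_lit 423) (nat_lit 376) (nat_lit 221))) (XT.nd (nat_lit 78) (nat_lit 152) (nat_lit 0) (XT.lf (nat_lit 0) (nat_lit 348265790394)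 (nat_lit 152) (nat_lit 215812061019) (nat_lit 0) (nat_lit 44477389069) (nat_lit 179) (nat_lit 5) (nat_lit 181) (nat_lit 4) (nat_lit 179) (nat_lit 4) (nat_lit 424) (nat_lit 376) (nat_lit 220)) (XT.lf (nat_lit 0) (nat_lit 49656618901) (nat_lit 152) (nat_lit 201992470024) (nat_lit 76) (nat_lit 388564129058) (nat_lit 177) (nat_lit 5) (nat_lit 179) (nat_lit 5) (nat_lit 178) (nat_lit 4) (nat_lit 425) (nat_lit 376) (nat_lit 219)))) (XT.nd (nat_lit 156) (nat_lit 228) (nat_lit 0) (XT.nd (nat_lit 78) (nat_lit 152) (nat_lit 0) (XT.lf (nat_lit 0) (nat_lit 388459592821) (nat_lit 152) (nat_lit 185934810424) (nat_lit 0) (nat_lit 99137053738) (nat_lit 176) (nat_lit 5) (nat_lit 178) (nat_lit 4) (nat_lit 176) (nat_lit 4) (nat_lit 426) (nat_lit 376) (nat_lit 218)) (XT.lf (nat_lit 0) (nat_lit 59985253987) (nat_lit 152) (nat_lit 166352880636) (nat_lit 76) (nat_lit 482313550620) (nat_lit 174) (nat_lit 5) (nat_lit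 176) (nat_lit 5) (nat_lit 175) (nat_lit 4) (nat_lit 427) (nat_lit 376) (nat_lit 217))) (XT.nd (nat_lit 78) (nat_lit 152) (nat_lit 0) (XT.lf (nat_lit 0) (nat_lit 438128704598) (nat_lit 152) (nat_lit 144862473644) (nat_lit 0) (nat_lit 162583223432) (nat_lit 173) (nat_lit 5) (nat_lit 175) (nat_lit 4) (nat_lit 173) (nat_lit 4) (nat_lit 428) (nat_lit 376) (nat_lit 216)) (XT.lf (nat_lit 0) (nat_lit 76579009301) (nat_lit 152) (nat_lit 118558603732) (nat_lit 76) (nat_lit 589392595534) (nat_lit 171) (nat_lit 5) (nat_lit 173) (nat_lit 5) (nat_lit 172) (nat_lit 4) (nat_lit 429) (nat_lit 376) (nat_lit 215))))) (XT.nd (nat_lit 312) (nat_lit 456) (nat_lit 0) (XT.nd (nat_lit 156) (nat_lit 304) (nat_lit 0) (XT.nd (nat_lit 78) (nat_lit 152) (nat_lit 0) (XT.lf (nat_lit 0) (nat_lit 498606761573) (nat_lit 152) (nat_lit 90658764602) (nat_lit 0) (nat_lit 236182325718) (nat_lit 170) (nat_lit 5) (nat_lit 172) (nat_lit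 4) (nat_lit 170) (nat_lit 4) (nat_lit 430) (nat_lit 376) (nat_lit 214)) (XT.lf (nat_lit 0) (nat_lit 100436970982) (nat_lit 152) (nat_lit 56528720161) (nat_lit 76) (nat_lit 711687454008) (nat_lit 168) (nat_lit 5) (nat_lit 170) (nat_lit 5) (nat_lit 169) (nat_lit 4) (nat_lit 431) (nat_lit 376) (nat_lit 213))) (XT.nd (nat_lit 78) (nat_lit 228) (nat_lit 0) (XT.lf (nat_lit 0) (nat_lit 571415285195) (nat_lit 152) (nat_lit 21096113947) (nat_lit 0) (nat_lit 321487113810) (nat_lit 167) (nat_lit 5) (nat_lit 169) (nat_lit 4) (nat_lit 167) (nat_lit 4) (nat_lit 432) (nat_lit 376) (nat_lit 212)) (XT.lf (nat_lit 0) (nat_lit 22860345109) (nat_lit 76) (nat_lit 110207253713) (nat_lit 152) (nat_lit 828826738764) (nat_lit 164) (nat_lit 5) (nat_lit 165) (nat_lit 5) (nat_lit 166) (nat_lit 4) (nat_lit 433) (nat_lit 376) (nat_lit 211)))) (XT.nd (nat_lit 156) (nat_lit 228) (nat_lit 0) (XT.nd (nat_lit 78) (nat_lit 152)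 (nat_lit 0) (XT.lf (nat_lit 0) (nat_lit 68579182739) (nat_lit 76) (nat_lit 590779621726) (nat_lit 76) (nat_lit 352752679779) (nat_lit 163) (nat_lit 4) (nat_lit 164) (nat_lit 5) (nat_lit 164) (nat_lit 4) (nat_lit 434) (nat_lit 376) (nat_lit 210)) (XT.lf (nat_lit 0) (nat_lit 124131911644) (nat_lit 76) (nat_lit 52530968099) (nat_lit 152) (nat_lit 888536040998) (nat_lit 161) (nat_lit 5) (nat_lit 162) (nat_lit 5) (nat_lit 163) (nat_lit 4) (nat_lit 435) (nat_lit 376) (nat_lit 209))) (XT.nd (nat_lit 78) (nat_lit 152) (nat_lit 0) (XT.lf (nat_lit 0) (nat_lit 180494198667) (nat_lit 76) (nat_lit 583522617852) (nat_lit 76) (nat_lit 356830200693) (nat_lit 160) (nat_lit 4) (nat_lit 161) (nat_lit 5) (nat_lit 161) (nat_lit 4) (nat_lit 436) (nat_lit 376) (nat_lit 208)) (XT.lf (nat_lit 0) (nat_lit 232145069081) (nat_lit 152) (nat_lit 931300106195) (nat_lit 0) (nat_lit 16247490139) (nat_lit 158) (nat_lit 5) (nat_lit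 160) (nat_lit 4) (nat_lit 158) (nat_lit 4) (nat_lit 437) (nat_lit 376) (nat_lit 207)))))))
noncomputable def xc189 : XT := (XT.nd (nat_lit 48984) (nat_lit 0) (nat_lit 5928) (XT.nd (nat_lit 48360) (nat_lit 0) (nat_lit 10716) (XT.nd (nat_lit 312) (nat_lit 456) (nat_lit 0) (XT.nd (nat_lit 156) (nat_lit 228) (nat_lit 0) (XT.nd (nat_lit 78) (nat_lit 152) (nat_lit 0) (XT.lf (nat_lit 0) (nat_lit 317424841007) (nat_lit 76) (nat_lit 569922854598) (nat_lit 76) (nat_lit 354025239739) (nat_lit 157) (nat_lit 4) (nat_lit 158) (nat_lit 5) (nat_lit 158) (nat_lit 4) (nat_lit 438) (nat_lit 376) (nat_lit 206)) (XT.lf (nat_lit 0) (nat_lit 302086197066) (nat_lit 152) (nat_lit 907993392772) (nat_lit 0) (nat_lit 96469389336) (nat_lit 155) (nat_lit 5) (nat_lit 157) (nat_lit 4) (nat_lit 155) (nat_lit 4) (nat_lit 439) (nat_lit 376) (nat_lit 205))) (XT.nd (nat_lit 78) (nat_lit 152) (nat_lit 0) (XT.lf (nat_lit 0) (nat_lit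 483345416417) (nat_lit 76) (nat_lit 548618162514) (nat_lit 76) (nat_lit 343001325458) (nat_lit 154) (nat_lit 4) (nat_lit 155) (nat_lit 5) (nat_lit 155) (nat_lit 4) (nat_lit 440) (nat_lit 376) (nat_lit 204)) (XT.lf (nat_lit 0) (nat_lit 387763701975) (nat_lit 152) (nat_lit 867448720854) (nat_lit 0) (nat_lit 191938117013) (nat_lit 152) (nat_lit 5) (nat_lit 154) (nat_lit 4) (nat_lit 152) (nat_lit 4) (nat_lit 441) (nat_lit 376) (nat_lit 203)))) (XT.nd (nat_lit 156) (nat_lit 228) (nat_lit 0) (XT.nd (nat_lit 78) (nat_lit 152) (nat_lit 0) (XT.lf (nat_lit 0) (nat_lit 682798276094) (nat_lit 76) (nat_lit 518032165031) (nat_lit 76) (nat_lit 322206556122) (nat_lit 151) (nat_lit 4) (nat_lit 152) (nat_lit 5) (nat_lit 152) (nat_lit 4) (nat_lit 442) (nat_lit 376) (nat_lit 202)) (XT.lf (nat_lit 0) (nat_lit 491575956423) (nat_lit 152) (nat_lit 806333221042) (nat_lit 0) (nat_lit 305075355394) (nat_lit 149) (nat_lit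 5) (nat_lit 151) (nat_lit 4) (nat_lit 149) (nat_lit 4) (nat_lit 443) (nat_lit 376) (nat_lit 201))) (XT.nd (nat_lit 78) (nat_lit 152) (nat_lit 0) (XT.lf (nat_lit 0) (nat_lit 920969645597) (nat_lit 76) (nat_lit 476343847014) (nat_lit 76) (nat_lit 289843226434) (nat_lit 148) (nat_lit 4) (nat_lit 149) (nat_lit 5) (nat_lit 149) (nat_lit 4) (nat_lit 444) (nat_lit 376) (nat_lit 200)) (XT.lf (nat_lit 0) (nat_lit 616262059123) (nat_lit 152) (nat_lit 720794988696) (nat_lit 0) (nat_lit 438642403233) (nat_lit 146) (nat_lit 5) (nat_lit 148) (nat_lit 4) (nat_lit 146) (nat_lit 4) (nat_lit 445) (nat_lit 376) (nat_lit 199))))) (XT.nd (nat_lit 312) (nat_lit 380) (nat_lit 0) (XT.nd (nat_lit 156) (nat_lit 0) (nat_lit 76) (XT.nd (nat_lit 78) (nat_lit 0) (nat_lit 76) (XT.lf (nat_lit 0) (nat_lit 16362494059) (nat_lit 836) (nat_lit 9314363479) (nat_lit 836) (nat_lit 9314363479) (nat_lit 292) (nat_lit 3) (nat_lit 303)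 (nat_lit 3) (nat_lit 303) (nat_lit 5) (nat_lit 377) (nat_lit 377) (nat_lit 266)) (XT.lf (nat_lit 0) (nat_lit 34718637245) (nat_lit 760) (nat_lit 34219798504) (nat_lit 836) (nat_lit 3809071488) (nat_lit 293) (nat_lit 5) (nat_lit 303) (nat_lit 5) (nat_lit 304) (nat_lit 5) (nat_lit 378) (nat_lit 377) (nat_lit 265))) (XT.nd (nat_lit 78) (nat_lit 0) (nat_lit 76) (XT.lf (nat_lit 76) (nat_lit 25136374789) (nat_lit 0) (nat_lit 13321518807) (nat_lit 836) (nat_lit 37196578294) (nat_lit 294) (nat_lit 5) (nat_lit 293) (nat_lit 5) (nat_lit 304) (nat_lit 5) (nat_lit 379) (nat_lit 377) (nat_lit 264)) (XT.lf (nat_lit 76) (nat_lit 11320265124) (nat_lit 0) (nat_lit 32686516804) (nat_lit 836) (nat_lit 34711687214) (nat_lit 295) (nat_lit 5) (nat_lit 294) (nat_lit 5) (nat_lit 305) (nat_lit 5) (nat_lit 380) (nat_lit 377) (nat_lit 263)))) (XT.nd (nat_lit 156) (nat_lit 608) (nat_lit 0) (XT.nd (nat_lit 78) (nat_lit 0)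 (nat_lit 76) (XT.lf (nat_lit 0) (nat_lit 51544951133) (nat_lit 760) (nat_lit 2742413933) (nat_lit 836) (nat_lit 27662952617) (nat_lit 295) (nat_lit 5) (nat_lit 305) (nat_lit 5) (nat_lit 306) (nat_lit 5) (nat_lit 381) (nat_lit 377) (nat_lit 262)) (XT.lf (nat_lit 0) (nat_lit 61424706346) (nat_lit 760) (nat_lit 16742159793) (nat_lit 836) (nat_lit 7186921345) (nat_lit 296) (nat_lit 5) (nat_lit 306) (nat_lit 5) (nat_lit 307) (nat_lit 5) (nat_lit 382) (nat_lit 377) (nat_lit 261))) (XT.nd (nat_lit 78) (nat_lit 684) (nat_lit 0) (XT.lf (nat_lit 76) (nat_lit 57673244610) (nat_lit 0) (nat_lit 16284426851) (nat_lit 836) (nat_lit 14978721934) (nat_lit 297) (nat_lit 5) (nat_lit 296) (nat_lit 5) (nat_lit 307) (nat_lit 5) (nat_lit 383) (nat_lit 377) (nat_lit 260)) (XT.lf (nat_lit 0) (nat_lit 46543105816) (nat_lit 760) (nat_lit 42761010028) (nat_lit 836) (nat_lit 3410949831) (nat_lit 287) (nat_lit 5) (nat_lit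 297) (nat_lit 5) (nat_lit 298) (nat_lit 5) (nat_lit 384) (nat_lit 377) (nat_lit 259)))))) (XT.nd (nat_lit 624) (nat_lit 2204) (nat_lit 0) (XT.nd (nat_lit 312) (nat_lit 988) (nat_lit 0) (XT.nd (nat_lit 156) (nat_lit 684) (nat_lit 0) (XT.nd (nat_lit 78) (nat_lit 380) (nat_lit 0) (XT.lf (nat_lit 0) (nat_lit 10572150678) (nat_lit 532) (nat_lit 61481882962) (nat_lit 76) (nat_lit 24645878376) (nat_lit 280) (nat_lit 5) (nat_lit 287) (nat_lit 5) (nat_lit 281) (nat_lit 5) (nat_lit 385) (nat_lit 377) (nat_lit 258)) (XT.lf (nat_lit 0) (nat_lit 23772520867) (nat_lit 380) (nat_lit 3691828306) (nat_lit 456) (nat_lit 73440903379) (nat_lit 275) (nat_lit 5) (nat_lit 280) (nat_lit 5) (nat_lit 281) (nat_lit 5) (nat_lit 386) (nat_lit 377) (nat_lit 257))) (XT.nd (nat_lit 78) (nat_lit 304) (nat_lit 0) (XT.lf (nat_lit 0) (nat_lit 11916790888) (nat_lit 380) (nat_lit 36159567752) (nat_lit 456) (nat_lit 57252239938) (nat_lit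 270) (nat_lit 5) (nat_lit 275) (nat_lit 5) (nat_lit 276) (nat_lit 5) (nat_lit 387) (nat_lit 377) (nat_lit 256)) (XT.lf (nat_lit 0) (nat_lit 138420658) (nat_lit 304) (nat_lit 72214260859) (nat_lit 380) (nat_lit 37652363136) (nat_lit 266) (nat_lit 5) (nat_lit 270) (nat_lit 5) (nat_lit 271) (nat_lit 5) (nat_lit 388) (nat_lit 377) (nat_lit 255)))) (XT.nd (nat_lit 156) (nat_lit 608) (nat_lit 0) (XT.nd (nat_lit 78) (nat_lit 380) (nat_lit 0) (XT.lf (nat_lit 0) (nat_lit 100845169055) (nat_lit 380) (nat_lit 11115140979) (nat_lit 76) (nat_lit 2981593437) (nat_lit 266) (nat_lit 5) (nat_lit 271) (nat_lit 5) (nat_lit 267) (nat_lit 5) (nat_lit 389) (nat_lit 377) (nat_lit 254)) (XT.lf (nat_lit 0) (nat_lit 13763077715) (nat_lit 380) (nat_lit 22922634163) (nat_lit 76) (nat_lit 83440004498) (nat_lit 261) (nat_lit 5) (nat_lit 266) (nat_lit 5) (nat_lit 262) (nat_lit 5) (nat_lit 390) (nat_lit 377) (nat_lit 253)))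 (XT.nd (nat_lit 78) (nat_lit 304) (nat_lit 0) (XT.lf (nat_lit 0) (nat_lit 45716744759) (nat_lit 380) (nat_lit 34800645486) (nat_lit 76) (nat_lit 45077341826) (nat_lit 257) (nat_lit 5) (nat_lit 262) (nat_lit 5) (nat_lit 258) (nat_lit 5) (nat_lit 391) (nat_lit 377) (nat_lit 252)) (XT.lf (nat_lit 0) (nat_lit 82616401645) (nat_lit 380) (nat_lit 46381220070) (nat_lit 76) (nat_lit 2384162482) (nat_lit 253) (nat_lit 5) (nat_lit 258) (nat_lit 5) (nat_lit 254) (nat_lit 5) (nat_lit 392) (nat_lit 377) (nat_lit 251))))) (XT.nd (nat_lit 312) (nat_lit 1140) (nat_lit 0) (XT.nd (nat_lit 156) (nat_lit 456) (nat_lit 0) (XT.nd (nat_lit 78) (nat_lit 380) (nat_lit 0) (XT.lf (nat_lit 0) (nat_lit 79193007248) (nat_lit 228) (nat_lit 46484391394) (nat_lit 304) (nat_lit 11793933474) (nat_lit 250) (nat_lit 5) (nat_lit 253) (nat_lit 5) (nat_lit 254) (nat_lit 5) (nat_lit 393) (nat_lit 377) (nat_lit 250)) (XT.lf (nat_lit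 0) (nat_lit 29921759565) (nat_lit 380) (nat_lit 70243212180) (nat_lit 76) (nat_lit 43726757075) (nat_lit 245) (nat_lit 5) (nat_lit 250) (nat_lit 5) (nat_lit 246) (nat_lit 5) (nat_lit 394) (nat_lit 377) (nat_lit 249))) (XT.nd (nat_lit 78) (nat_lit 228) (nat_lit 0) (XT.lf (nat_lit 0) (nat_lit 68631813660) (nat_lit 228) (nat_lit 8821580263) (nat_lit 304) (nat_lit 73218101787) (nat_lit 242) (nat_lit 5) (nat_lit 245) (nat_lit 5) (nat_lit 246) (nat_lit 5) (nat_lit 395) (nat_lit 377) (nat_lit 248)) (XT.lf (nat_lit 0) (nat_lit 63811456130) (nat_lit 228) (nat_lit 68617757121) (nat_lit 304) (nat_lit 25382347987) (nat_lit 239) (nat_lit 5) (nat_lit 242) (nat_lit 5) (nat_lit 243) (nat_lit 5) (nat_lit 396) (nat_lit 377) (nat_lit 247)))) (XT.nd (nat_lit 156) (nat_lit 608) (nat_lit 0) (XT.nd (nat_lit 78) (nat_lit 228) (nat_lit 0) (XT.lf (nat_lit 0) (nat_lit 28481066772) (nat_lit 304) (nat_lit 105727078185) (nat_lit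 76) (nat_lit 31142074958) (nat_lit 235) (nat_lit 5) (nat_lit 239) (nat_lit 5) (nat_lit 236) (nat_lit 5) (nat_lit 397) (nat_lit 377) (nat_lit 246)) (XT.lf (nat_lit 0) (nat_lit 55651127134) (nat_lit 228) (nat_lit 33814499419) (nat_lit 304) (nat_lit 83820472246) (nat_lit 232) (nat_lit 5) (nat_lit 235) (nat_lit 5) (nat_lit 236) (nat_lit 5) (nat_lit 398) (nat_lit 377) (nat_lit 245))) (XT.nd (nat_lit 78) (nat_lit 456) (nat_lit 0) (XT.lf (nat_lit 0) (nat_lit 52432352418) (nat_lit 152) (nat_lit 106751317439) (nat_lit 228) (nat_lit 22480442199) (nat_lit 230) (nat_lit 5) (nat_lit 232) (nat_lit 5) (nat_lit 233) (nat_lit 5) (nat_lit 399) (nat_lit 377) (nat_lit 244)) (XT.nd (nat_lit 78) (nat_lit 152) (nat_lit 0) (XT.lf (nat_lit 0) (nat_lit 45864716927) (nat_lit 304) (nat_lit 140563938440) (nat_lit 76) (nat_lit 4074608030) (nat_lit 226) (nat_lit 5) (nat_lit 230) (nat_lit 5) (nat_lit 227) (nat_lit 5) (nat_lit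 400) (nat_lit 377) (nat_lit 243)) (XT.lf (nat_lit 0) (nat_lit 47422768390) (nat_lit 152) (nat_lit 76305489617) (nat_lit 228) (nat_lit 76060943524) (nat_lit 224) (nat_lit 5) (nat_lit 226) (nat_lit 5) (nat_lit 227) (nat_lit 5) (nat_lit 401) (nat_lit 377) (nat_lit 242))))))))
noncomputable def xc190 : XT := (XT.nd (nat_lit 1248) (nat_lit 2052) (nat_lit 0) (XT.nd (nat_lit 624) (nat_lit 1216) (nat_lit 0) (XT.nd (nat_lit 312) (nat_lit 532) (nat_lit 0) (XT.nd (nat_lit 156) (nat_lit 380) (nat_lit 0) (XT.nd (nat_lit 78) (nat_lit 152) (nat_lit 0) (XT.lf (nat_lit 0) (nat_lit 2010884249) (nat_lit 228) (nat_lit 163100688164) (nat_lit 76) (nat_lit 44510796553) (nat_lit 221) (nat_lit 5) (nat_lit 224) (nat_lit 5) (nat_lit 222) (nat_lit 5) (nat_lit 402) (nat_lit 377) (nat_lit 241)) (XT.lf (nat_lit 0) (nat_lit 45494791232) (nat_lit 152) (nat_lit 42898501863) (nat_lit 228) (nat_lit 131550069673) (nat_lit 219) (nat_lit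 5) (nat_lit 221) (nat_lit 5) (nat_lit 222) (nat_lit 5) (nat_lit 403) (nat_lit 377) (nat_lit 240))) (XT.nd (nat_lit 78) (nat_lit 228) (nat_lit 0) (XT.lf (nat_lit 0) (nat_lit 45677691419) (nat_lit 152) (nat_lit 140999864156) (nat_lit 228) (nat_lit 44162917453) (nat_lit 217) (nat_lit 5) (nat_lit 219) (nat_lit 5) (nat_lit 220) (nat_lit 5) (nat_lit 404) (nat_lit 377) (nat_lit 239)) (XT.lf (nat_lit 0) (nat_lit 47136738448) (nat_lit 152) (nat_lit 6018617865) (nat_lit 228) (nat_lit 189187428312) (nat_lit 214) (nat_lit 5) (nat_lit 216) (nat_lit 5) (nat_lit 217) (nat_lit 5) (nat_lit 405) (nat_lit 377) (nat_lit 238)))) (XT.nd (nat_lit 156) (nat_lit 228) (nat_lit 0) (XT.nd (nat_lit 78) (nat_lit 152) (nat_lit 0) (XT.lf (nat_lit 0) (nat_lit 48603427413) (nat_lit 152) (nat_lit 114347775012) (nat_lit 228) (nat_lit 91465911413) (nat_lit 212) (nat_lit 5) (nat_lit 214) (nat_lit 5) (nat_lit 215) (nat_lit 5) (nat_lit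 406) (nat_lit 377) (nat_lit 237)) (XT.lf (nat_lit 0) (nat_lit 18551224104) (nat_lit 152) (nat_lit 214855413023) (nat_lit 76) (nat_lit 33793349478) (nat_lit 210) (nat_lit 5) (nat_lit 212) (nat_lit 5) (nat_lit 211) (nat_lit 5) (nat_lit 407) (nat_lit 377) (nat_lit 236))) (XT.nd (nat_lit 78) (nat_lit 76) (nat_lit 0) (XT.lf (nat_lit 0) (nat_lit 55939188034) (nat_lit 152) (nat_lit 84713780820) (nat_lit 228) (nat_lit 139953160361) (nat_lit 208) (nat_lit 5) (nat_lit 210) (nat_lit 5) (nat_lit 211) (nat_lit 5) (nat_lit 408) (nat_lit 377) (nat_lit 235)) (XT.lf (nat_lit 0) (nat_lit 61906747051) (nat_lit 76) (nat_lit 216570795001) (nat_lit 152) (nat_lit 16309486739) (nat_lit 207) (nat_lit 5) (nat_lit 208) (nat_lit 5) (nat_lit 209) (nat_lit 4) (nat_lit 409) (nat_lit 377) (nat_lit 234))))) (XT.nd (nat_lit 312) (nat_lit 608) (nat_lit 0) (XT.nd (nat_lit 156) (nat_lit 304) (nat_lit 0) (XT.nd (nat_lit 78) (nat_lit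 76) (nat_lit 0) (XT.lf (nat_lit 0) (nat_lit 68387605808) (nat_lit 152) (nat_lit 51559536561) (nat_lit 228) (nat_lit 189740076120) (nat_lit 204) (nat_lit 5) (nat_lit 206) (nat_lit 5) (nat_lit 207) (nat_lit 5) (nat_lit 410) (nat_lit 377) (nat_lit 233)) (XT.lf (nat_lit 0) (nat_lit 76629326974) (nat_lit 76) (nat_lit 197207706081) (nat_lit 152) (nat_lit 51563815065) (nat_lit 203) (nat_lit 5) (nat_lit 204) (nat_lit 5) (nat_lit 205) (nat_lit 4) (nat_lit 411) (nat_lit 377) (nat_lit 232))) (XT.nd (nat_lit 78) (nat_lit 76) (nat_lit 0) (XT.lf (nat_lit 0) (nat_lit 86760887358) (nat_lit 152) (nat_lit 14275461736) (nat_lit 228) (nat_lit 240934189520) (nat_lit 200) (nat_lit 5) (nat_lit 202) (nat_lit 5) (nat_lit 203) (nat_lit 5) (nat_lit 412) (nat_lit 377) (nat_lit 231)) (XT.lf (nat_lit 0) (nat_lit 97694188700) (nat_lit 76) (nat_lit 175158993080) (nat_lit 152) (nat_lit 86529597130) (nat_lit 199) (nat_lit 5)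 (nat_lit 200) (nat_lit 5) (nat_lit 201) (nat_lit 4) (nat_lit 413) (nat_lit 377) (nat_lit 230)))) (XT.nd (nat_lit 156) (nat_lit 304) (nat_lit 0) (XT.nd (nat_lit 78) (nat_lit 76) (nat_lit 0) (XT.lf (nat_lit 0) (nat_lit 84601424943) (nat_lit 228) (nat_lit 266238746950) (nat_lit 76) (nat_lit 26938105892) (nat_lit 196) (nat_lit 5) (nat_lit 199) (nat_lit 5) (nat_lit 197) (nat_lit 4) (nat_lit 414) (nat_lit 377) (nat_lit 229)) (XT.lf (nat_lit 0) (nat_lit 126101261557) (nat_lit 76) (nat_lit 149885712999) (nat_lit 152) (nat_lit 121107735046) (nat_lit 195) (nat_lit 5) (nat_lit 196) (nat_lit 5) (nat_lit 197) (nat_lit 4) (nat_lit 415) (nat_lit 377) (nat_lit 228))) (XT.nd (nat_lit 78) (nat_lit 76) (nat_lit 0) (XT.lf (nat_lit 0) (nat_lit 70814445721) (nat_lit 228) (nat_lit 273565983615) (nat_lit 76) (nat_lit 73117538258) (nat_lit 192) (nat_lit 5) (nat_lit 195) (nat_lit 5) (nat_lit 193) (nat_lit 4) (nat_lit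 416) (nat_lit 377) (nat_lit 227)) (XT.lf (nat_lit 0) (nat_lit 163000610643) (nat_lit 76) (nat_lit 120773296004) (nat_lit 152) (nat_lit 155163984402) (nat_lit 191) (nat_lit 5) (nat_lit 192) (nat_lit 5) (nat_lit 193) (nat_lit 4) (nat_lit 417) (nat_lit 377) (nat_lit 226)))))) (XT.nd (nat_lit 624) (nat_lit 1140) (nat_lit 0) (XT.nd (nat_lit 312) (nat_lit 456) (nat_lit 0) (XT.nd (nat_lit 156) (nat_lit 228) (nat_lit 0) (XT.nd (nat_lit 78) (nat_lit 76) (nat_lit 0) (XT.lf (nat_lit 0) (nat_lit 59819439640) (nat_lit 152) (nat_lit 276166507169) (nat_lit 76) (nat_lit 125576904639) (nat_lit 189) (nat_lit 5) (nat_lit 191) (nat_lit 5) (nat_lit 190) (nat_lit 4) (nat_lit 418) (nat_lit 377) (nat_lit 225)) (XT.lf (nat_lit 0) (nat_lit 209712684322) (nat_lit 76) (nat_lit 87121114815) (nat_lit 152) (nat_lit 188523403364) (nat_lit 188) (nat_lit 5) (nat_lit 189) (nat_lit 5) (nat_lit 190) (nat_lit 4) (nat_lit 419) (nat_lit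 377) (nat_lit 224))) (XT.nd (nat_lit 78) (nat_lit 76) (nat_lit 0) (XT.lf (nat_lit 0) (nat_lit 52049975853) (nat_lit 152) (nat_lit 273104055407) (nat_lit 76) (nat_lit 185286867097) (nat_lit 186) (nat_lit 5) (nat_lit 188) (nat_lit 5) (nat_lit 187) (nat_lit 4) (nat_lit 420) (nat_lit 377) (nat_lit 223)) (XT.lf (nat_lit 0) (nat_lit 267751196060) (nat_lit 76) (nat_lit 48130707550) (nat_lit 152) (nat_lit 220963977896) (nat_lit 185) (nat_lit 5) (nat_lit 186) (nat_lit 5) (nat_lit 187) (nat_lit 4) (nat_lit 421) (nat_lit 377) (nat_lit 222)))) (XT.nd (nat_lit 156) (nat_lit 228) (nat_lit 0) (XT.nd (nat_lit 78) (nat_lit 76) (nat_lit 0) (XT.lf (nat_lit 0) (nat_lit 48015579970) (nat_lit 152) (nat_lit 263288910518) (nat_lit 76) (nat_lit 253346428215) (nat_lit 183) (nat_lit 5) (nat_lit 185) (nat_lit 5) (nat_lit 184) (nat_lit 4) (nat_lit 422) (nat_lit 377) (nat_lit 221)) (XT.lf (nat_lit 0) (nat_lit 338848971548)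 (nat_lit 76) (nat_lit 2892484385) (nat_lit 152) (nat_lit 252209312183) (nat_lit 182) (nat_lit 5) (nat_lit 183) (nat_lit 5) (nat_lit 184) (nat_lit 4) (nat_lit 423) (nat_lit 377) (nat_lit 220))) (XT.nd (nat_lit 78) (nat_lit 76) (nat_lit 0) (XT.lf (nat_lit 0) (nat_lit 48312291298) (nat_lit 152) (nat_lit 245456150125) (nat_lit 76) (nat_lit 330999635042) (nat_lit 180) (nat_lit 5) (nat_lit 182) (nat_lit 5) (nat_lit 181) (nat_lit 4) (nat_lit 424) (nat_lit 377) (nat_lit 219)) (XT.lf (nat_lit 0) (nat_lit 376132712395) (nat_lit 152) (nat_lit 233065838576) (nat_lit 0) (nat_lit 48040825810) (nat_lit 179) (nat_lit 5) (nat_lit 181) (nat_lit 4) (nat_lit 179) (nat_lit 4) (nat_lit 425) (nat_lit 377) (nat_lit 218))))) (XT.nd (nat_lit 312) (nat_lit 684) (nat_lit 0) (XT.nd (nat_lit 156) (nat_lit 228) (nat_lit 0) (XT.nd (nat_lit 78) (nat_lit 76) (nat_lit 0) (XT.lf (nat_lit 0) (nat_lit 53634643723) (nat_lit 152) (nat_lit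 218140984789) (nat_lit 76) (nat_lit 419654372143) (nat_lit 177) (nat_lit 5) (nat_lit 179) (nat_lit 5) (nat_lit 178) (nat_lit 4) (nat_lit 426) (nat_lit 377) (nat_lit 217)) (XT.lf (nat_lit 0) (nat_lit 419541691573) (nat_lit 152) (nat_lit 200799003386) (nat_lit 0) (nat_lit 107073012018) (nat_lit 176) (nat_lit 5) (nat_lit 178) (nat_lit 4) (nat_lit 176) (nat_lit 4) (nat_lit 427) (nat_lit 377) (nat_lit 216))) (XT.nd (nat_lit 78) (nat_lit 76) (nat_lit 0) (XT.lf (nat_lit 0) (nat_lit 64789252419) (nat_lit 152) (nat_lit 179650808313) (nat_lit 76) (nat_lit 520903500425) (nat_lit 174) (nat_lit 5) (nat_lit 176) (nat_lit 5) (nat_lit 175) (nat_lit 4) (nat_lit 428) (nat_lit 377) (nat_lit 215)) (XT.lf (nat_lit 0) (nat_lit 473184025986) (nat_lit 152) (nat_lit 156441445693) (nat_lit 0) (nat_lit 175594630879) (nat_lit 173) (nat_lit 5) (nat_lit 175) (nat_lit 4) (nat_lit 173) (nat_lit 4) (nat_lit 429) (nat_lit 377)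 (nat_lit 214)))) (XT.nd (nat_lit 156) (nat_lit 456) (nat_lit 0) (XT.nd (nat_lit 78) (nat_lit 76) (nat_lit 0) (XT.lf (nat_lit 0) (nat_lit 82710211300) (nat_lit 152) (nat_lit 128033540502) (nat_lit 76) (nat_lit 636548629388) (nat_lit 171) (nat_lit 5) (nat_lit 173) (nat_lit 5) (nat_lit 172) (nat_lit 4) (nat_lit 430) (nat_lit 377) (nat_lit 213)) (XT.lf (nat_lit 0) (nat_lit 538500040604) (nat_lit 152) (nat_lit 97901977559) (nat_lit 0) (nat_lit 255081424975) (nat_lit 170) (nat_lit 5) (nat_lit 172) (nat_lit 4) (nat_lit 170) (nat_lit 4) (nat_lit 431) (nat_lit 377) (nat_lit 212))) (XT.nd (nat_lit 78) (nat_lit 304) (nat_lit 0) (XT.lf (nat_lit 0) (nat_lit 108476531739) (nat_lit 152) (nat_lit 61041789711) (nat_lit 76) (nat_lit 768626845160) (nat_lit 168) (nat_lit 5) (nat_lit 170) (nat_lit 5) (nat_lit 169) (nat_lit 4) (nat_lit 432) (nat_lit 377) (nat_lit 211)) (XT.nd (nat_lit 78) (nat_lit 228) (nat_lit 0)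 (XT.lf (nat_lit 0) (nat_lit 617132977054) (nat_lit 152) (nat_lit 22774825163) (nat_lit 0) (nat_lit 347210368319) (nat_lit 167) (nat_lit 5) (nat_lit 169) (nat_lit 4) (nat_lit 167) (nat_lit 4) (nat_lit 433) (nat_lit 377) (nat_lit 210)) (XT.lf (nat_lit 0) (nat_lit 24698192716) (nat_lit 76) (nat_lit 119019296956) (nat_lit 152) (nat_lit 895128170775) (nat_lit 164) (nat_lit 5) (nat_lit 165) (nat_lit 5) (nat_lit 166) (nat_lit 4) (nat_lit 434) (nat_lit 377) (nat_lit 209))))))))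
noncomputable def xc191 : XT := (XT.nd (nat_lit 49062) (nat_lit 0) (nat_lit 6384) (XT.nd (nat_lit 624) (nat_lit 304) (nat_lit 0) (XT.nd (nat_lit 312) (nat_lit 456) (nat_lit 0) (XT.nd (nat_lit 156) (nat_lit 228) (nat_lit 0) (XT.nd (nat_lit 78) (nat_lit 152) (nat_lit 0) (XT.lf (nat_lit 0) (nat_lit 74074292006) (nat_lit 76) (nat_lit 638037570276) (nat_lit 76) (nat_lit 380968323029) (nat_lit 163) (nat_lit 4) (nat_lit 164) (nat_lit 5) (nat_lit 164) (nat_lit 4) (nat_lit 435) (nat_lit 377) (nat_lit 208)) (XT.lf (nat_lit 0) (nat_lit 134070997834) (nat_lit 76) (nat_lit 56729142578) (nat_lit 152) (nat_lit 959614482473) (nat_lit 161) (nat_lit 5) (nat_lit 162) (nat_lit 5) (nat_lit 163) (nat_lit 4) (nat_lit 436) (nat_lit 377) (nat_lit 207))) (XT.nd (nat_lit 78) (nat_lit 152) (nat_lit 0) (XT.lf (nat_lit 0) (nat_lit 194942035035) (nat_lit 76) (nat_lit 630200235541) (nat_lit 76) (nat_lit 385372302577) (nat_lit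 160) (nat_lit 4) (nat_lit 161) (nat_lit 5) (nat_lit 161) (nat_lit 4) (nat_lit 437) (nat_lit 377) (nat_lit 206)) (XT.lf (nat_lit 0) (nat_lit 250720731068) (nat_lit 152) (nat_lit 1005795906912) (nat_lit 0) (nat_lit 17551237846) (nat_lit 158) (nat_lit 5) (nat_lit 160) (nat_lit 4) (nat_lit 158) (nat_lit 4) (nat_lit 438) (nat_lit 377) (nat_lit 205)))) (XT.nd (nat_lit 156) (nat_lit 228) (nat_lit 0) (XT.nd (nat_lit 78) (nat_lit 152) (nat_lit 0) (XT.lf (nat_lit 0) (nat_lit 342826679366) (nat_lit 76) (nat_lit 615512710446) (nat_lit 76) (nat_lit 382343186431) (nat_lit 157) (nat_lit 4) (nat_lit 158) (nat_lit 5) (nat_lit 158) (nat_lit 4) (nat_lit 439) (nat_lit 377) (nat_lit 204)) (XT.lf (nat_lit 0) (nat_lit 326256922506) (nat_lit 152) (nat_lit 980625101514) (nat_lit 0) (nat_lit 104190682004) (nat_lit 155) (nat_lit 5) (nat_lit 157) (nat_lit 4) (nat_lit 155) (nat_lit 4) (nat_lit 440) (nat_lit 377) (nat_lit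 203))) (XT.nd (nat_lit 78) (nat_lit 152) (nat_lit 0) (XT.lf (nat_lit 0) (nat_lit 522020475054) (nat_lit 76) (nat_lit 592503852117) (nat_lit 76) (nat_lit 370437586472) (nat_lit 154) (nat_lit 4) (nat_lit 155) (nat_lit 5) (nat_lit 155) (nat_lit 4) (nat_lit 441) (nat_lit 377) (nat_lit 202)) (XT.lf (nat_lit 0) (nat_lit 418788414284) (nat_lit 152) (nat_lit 936837277393) (nat_lit 0) (nat_lit 207296710545) (nat_lit 152) (nat_lit 5) (nat_lit 154) (nat_lit 4) (nat_lit 152) (nat_lit 4) (nat_lit 442) (nat_lit 377) (nat_lit 201))))) (XT.nd (nat_lit 48126) (nat_lit 0) (nat_lit 11020) (XT.nd (nat_lit 156) (nat_lit 76) (nat_lit 0) (XT.nd (nat_lit 78) (nat_lit 152) (nat_lit 0) (XT.lf (nat_lit 0) (nat_lit 737429160274) (nat_lit 76) (nat_lit 559471174062) (nat_lit 76) (nat_lit 347979449794) (nat_lit 151) (nat_lit 4) (nat_lit 152) (nat_lit 5) (nat_lit 152) (nat_lit 4) (nat_lit 443) (nat_lit 377) (nat_lit 200)) (XT.lf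 (nat_lit 0) (nat_lit 530905447943) (nat_lit 152) (nat_lit 870832936735) (nat_lit 0) (nat_lit 329484740060) (nat_lit 149) (nat_lit 5) (nat_lit 151) (nat_lit 4) (nat_lit 149) (nat_lit 4) (nat_lit 444) (nat_lit 377) (nat_lit 199))) (XT.nd (nat_lit 47892) (nat_lit 0) (nat_lit 10944) (XT.lf (nat_lit 0) (nat_lit 994653857545) (nat_lit 76) (nat_lit 514447980191) (nat_lit 76) (nat_lit 313027255546) (nat_lit 148) (nat_lit 4) (nat_lit 149) (nat_lit 5) (nat_lit 149) (nat_lit 4) (nat_lit 445) (nat_lit 377) (nat_lit 198)) (XT.lf (nat_lit 0) (nat_lit 17691676522) (nat_lit 836) (nat_lit 10048916515) (nat_lit 836) (nat_lit 10048916515) (nat_lit 292) (nat_lit 3) (nat_lit 303) (nat_lit 3) (nat_lit 303) (nat_lit 5) (nat_lit 378) (nat_lit 378) (nat_lit 264)))) (XT.nd (nat_lit 156) (nat_lit 0) (nat_lit 76) (XT.nd (nat_lit 78) (nat_lit 0) (nat_lit 0) (XT.lf (nat_lit 0) (nat_lit 37533548530) (nat_lit 760) (nat_lit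 36934954674) (nat_lit 836) (nat_lit 4096933598) (nat_lit 293) (nat_lit 5) (nat_lit 303) (nat_lit 5) (nat_lit 304) (nat_lit 5) (nat_lit 379) (nat_lit 378) (nat_lit 263)) (XT.lf (nat_lit 76) (nat_lit 27168737802) (nat_lit 0) (nat_lit 14400770654) (nat_lit 836) (nat_lit 40135572017) (nat_lit 294) (nat_lit 5) (nat_lit 293) (nat_lit 5) (nat_lit 304) (nat_lit 5) (nat_lit 380) (nat_lit 378) (nat_lit 262))) (XT.nd (nat_lit 78) (nat_lit 0) (nat_lit 76) (XT.lf (nat_lit 76) (nat_lit 12248282259) (nat_lit 0) (nat_lit 35311588299) (nat_lit 836) (nat_lit 37454448811) (nat_lit 295) (nat_lit 5) (nat_lit 294) (nat_lit 5) (nat_lit 305) (nat_lit 5) (nat_lit 381) (nat_lit 378) (nat_lit 261)) (XT.lf (nat_lit 0) (nat_lit 55698535746) (nat_lit 760) (nat_lit 2939416583) (nat_lit 836) (nat_lit 29866891343) (nat_lit 295) (nat_lit 5) (nat_lit 305) (nat_lit 5) (nat_lit 306) (nat_lit 5) (nat_lit 382) (nat_lit 378) (nat_lit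 260)))))) (XT.nd (nat_lit 624) (nat_lit 2584) (nat_lit 0) (XT.nd (nat_lit 312) (nat_lit 1064) (nat_lit 0) (XT.nd (nat_lit 156) (nat_lit 1216) (nat_lit 0) (XT.nd (nat_lit 78) (nat_lit 0) (nat_lit 0) (XT.lf (nat_lit 0) (nat_lit 66366680032) (nat_lit 760) (nat_lit 18058605739) (nat_lit 836) (nat_lit 7755404853) (nat_lit 296) (nat_lit 5) (nat_lit 306) (nat_lit 5) (nat_lit 307) (nat_lit 5) (nat_lit 383) (nat_lit 378) (nat_lit 259)) (XT.lf (nat_lit 76) (nat_lit 62309034643) (nat_lit 0) (nat_lit 17591516243) (nat_lit 836) (nat_lit 16149440695) (nat_lit 297) (nat_lit 5) (nat_lit 296) (nat_lit 5) (nat_lit 307) (nat_lit 5) (nat_lit 384) (nat_lit 378) (nat_lit 258))) (XT.nd (nat_lit 78) (nat_lit 532) (nat_lit 0) (XT.lf (nat_lit 0) (nat_lit 50288852630) (nat_lit 760) (nat_lit 46184198051) (nat_lit 836) (nat_lit 3657989970) (nat_lit 287) (nat_lit 5) (nat_lit 297) (nat_lit 5) (nat_lit 298) (nat_lit 5) (nat_lit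 385) (nat_lit 378) (nat_lit 257)) (XT.lf (nat_lit 0) (nat_lit 11441402947) (nat_lit 532) (nat_lit 66377116679) (nat_lit 76) (nat_lit 26616211341) (nat_lit 280) (nat_lit 5) (nat_lit 287) (nat_lit 5) (nat_lit 281) (nat_lit 5) (nat_lit 386) (nat_lit 378) (nat_lit 256)))) (XT.nd (nat_lit 156) (nat_lit 304) (nat_lit 0) (XT.nd (nat_lit 78) (nat_lit 380) (nat_lit 0) (XT.lf (nat_lit 0) (nat_lit 25696626132) (nat_lit 380) (nat_lit 3986960136) (nat_lit 456) (nat_lit 79292982031) (nat_lit 275) (nat_lit 5) (nat_lit 280) (nat_lit 5) (nat_lit 281) (nat_lit 5) (nat_lit 387) (nat_lit 378) (nat_lit 255)) (XT.lf (nat_lit 0) (nat_lit 12892521724) (nat_lit 380) (nat_lit 39050751167) (nat_lit 456) (nat_lit 61810573295) (nat_lit 270) (nat_lit 5) (nat_lit 275) (nat_lit 5) (nat_lit 276) (nat_lit 5) (nat_lit 388) (nat_lit 378) (nat_lit 254))) (XT.nd (nat_lit 78) (nat_lit 0) (nat_lit 0) (XT.lf (nat_lit 0) (nat_lit 171880382)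 (nat_lit 304) (nat_lit 77988652442) (nat_lit 380) (nat_lit 40643933561) (nat_lit 266) (nat_lit 5) (nat_lit 270) (nat_lit 5) (nat_lit 271) (nat_lit 5) (nat_lit 389) (nat_lit 378) (nat_lit 253)) (XT.lf (nat_lit 0) (nat_lit 108931004533) (nat_lit 380) (nat_lit 11982755047) (nat_lit 76) (nat_lit 3222585071) (nat_lit 266) (nat_lit 5) (nat_lit 271) (nat_lit 5) (nat_lit 267) (nat_lit 5) (nat_lit 390) (nat_lit 378) (nat_lit 252))))) (XT.nd (nat_lit 312) (nat_lit 1368) (nat_lit 0) (XT.nd (nat_lit 156) (nat_lit 532) (nat_lit 0) (XT.nd (nat_lit 78) (nat_lit 304) (nat_lit 0) (XT.lf (nat_lit 0) (nat_lit 14881600532) (nat_lit 380) (nat_lit 24735208420) (nat_lit 76) (nat_lit 90118090905) (nat_lit 261) (nat_lit 5) (nat_lit 266) (nat_lit 5) (nat_lit 262) (nat_lit 5) (nat_lit 391) (nat_lit 378) (nat_lit 251)) (XT.lf (nat_lit 0) (nat_lit 49390643081) (nat_lit 380) (nat_lit 37563618152) (nat_lit 76) (nat_lit 48687221466)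 (nat_lit 257) (nat_lit 5) (nat_lit 262) (nat_lit 5) (nat_lit 258) (nat_lit 5) (nat_lit 392) (nat_lit 378) (nat_lit 250))) (XT.nd (nat_lit 78) (nat_lit 228) (nat_lit 0) (XT.lf (nat_lit 0) (nat_lit 89241431251) (nat_lit 380) (nat_lit 50070842928) (nat_lit 76) (nat_lit 2579266881) (nat_lit 253) (nat_lit 5) (nat_lit 258) (nat_lit 5) (nat_lit 254) (nat_lit 5) (nat_lit 393) (nat_lit 378) (nat_lit 249)) (XT.lf (nat_lit 0) (nat_lit 85548415384) (nat_lit 228) (nat_lit 50198040116) (nat_lit 304) (nat_lit 12721839938) (nat_lit 250) (nat_lit 5) (nat_lit 253) (nat_lit 5) (nat_lit 254) (nat_lit 5) (nat_lit 394) (nat_lit 378) (nat_lit 248)))) (XT.nd (nat_lit 156) (nat_lit 760) (nat_lit 0) (XT.nd (nat_lit 78) (nat_lit 228) (nat_lit 0) (XT.lf (nat_lit 0) (nat_lit 32329877961) (nat_lit 380) (nat_lit 75842459230) (nat_lit 76) (nat_lit 47230011054) (nat_lit 245) (nat_lit 5) (nat_lit 250) (nat_lit 5) (nat_lit 246)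 (nat_lit 5) (nat_lit 395) (nat_lit 378) (nat_lit 247)) (XT.lf (nat_lit 0) (nat_lit 74141690378) (nat_lit 228) (nat_lit 9521589501) (nat_lit 304) (nat_lit 79061254766) (nat_lit 242) (nat_lit 5) (nat_lit 245) (nat_lit 5) (nat_lit 246) (nat_lit 5) (nat_lit 396) (nat_lit 378) (nat_lit 246))) (XT.nd (nat_lit 78) (nat_lit 532) (nat_lit 0) (XT.lf (nat_lit 0) (nat_lit 68935429874) (nat_lit 228) (nat_lit 74101106589) (nat_lit 304) (nat_lit 27399300368) (nat_lit 239) (nat_lit 5) (nat_lit 242) (nat_lit 5) (nat_lit 243) (nat_lit 5) (nat_lit 397) (nat_lit 378) (nat_lit 245)) (XT.nd (nat_lit 78) (nat_lit 228) (nat_lit 0) (XT.lf (nat_lit 0) (nat_lit 30772160340) (nat_lit 304) (nat_lit 114166068085) (nat_lit 76) (nat_lit 33639378673) (nat_lit 235) (nat_lit 5) (nat_lit 239) (nat_lit 5) (nat_lit 236) (nat_lit 5) (nat_lit 398) (nat_lit 378) (nat_lit 244)) (XT.lf (nat_lit 0) (nat_lit 60121560278) (nat_lit 228) (nat_lit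 36513277067) (nat_lit 304) (nat_lit 90513551324) (nat_lit 232) (nat_lit 5) (nat_lit 235) (nat_lit 5) (nat_lit 236) (nat_lit 5) (nat_lit 399) (nat_lit 378) (nat_lit 243))))))))
noncomputable def xc192 : XT := (XT.nd (nat_lit 1248) (nat_lit 1900) (nat_lit 0) (XT.nd (nat_lit 624) (nat_lit 1216) (nat_lit 0) (XT.nd (nat_lit 312) (nat_lit 684) (nat_lit 0) (XT.nd (nat_lit 156) (nat_lit 380) (nat_lit 0) (XT.nd (nat_lit 78) (nat_lit 304) (nat_lit 0) (XT.lf (nat_lit 0) (nat_lit 56644963151) (nat_lit 152) (nat_lit 115284848635) (nat_lit 228) (nat_lit 24266856818) (nat_lit 230) (nat_lit 5) (nat_lit 232) (nat_lit 5) (nat_lit 233) (nat_lit 5) (nat_lit 400) (nat_lit 378) (nat_lit 242)) (XT.lf (nat_lit 0) (nat_lit 49545045665) (nat_lit 304) (nat_lit 151790996140) (nat_lit 76) (nat_lit 4406925095) (nat_lit 226) (nat_lit 5) (nat_lit 230) (nat_lit 5) (nat_lit 227) (nat_lit 5) (nat_lit 401) (nat_lit 378) (nat_lit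 241))) (XT.nd (nat_lit 78) (nat_lit 228) (nat_lit 0) (XT.lf (nat_lit 0) (nat_lit 51233862486) (nat_lit 152) (nat_lit 82403251192) (nat_lit 228) (nat_lit 82134694225) (nat_lit 224) (nat_lit 5) (nat_lit 226) (nat_lit 5) (nat_lit 227) (nat_lit 5) (nat_lit 402) (nat_lit 378) (nat_lit 240)) (XT.lf (nat_lit 0) (nat_lit 2182092782) (nat_lit 228) (nat_lit 176131472422) (nat_lit 76) (nat_lit 48078076389) (nat_lit 221) (nat_lit 5) (nat_lit 224) (nat_lit 5) (nat_lit 222) (nat_lit 5) (nat_lit 403) (nat_lit 378) (nat_lit 239)))) (XT.nd (nat_lit 156) (nat_lit 380) (nat_lit 0) (XT.nd (nat_lit 78) (nat_lit 152) (nat_lit 0) (XT.lf (nat_lit 0) (nat_lit 49150894758) (nat_lit 152) (nat_lit 46323691742) (nat_lit 228) (nat_lit 142063753791) (nat_lit 219) (nat_lit 5) (nat_lit 221) (nat_lit 5) (nat_lit 222) (nat_lit 5) (nat_lit 404) (nat_lit 378) (nat_lit 238)) (XT.lf (nat_lit 0) (nat_lit 49348079235) (nat_lit 152)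 (nat_lit 152273131814) (nat_lit 228) (nat_lit 47686027270) (nat_lit 217) (nat_lit 5) (nat_lit 219) (nat_lit 5) (nat_lit 220) (nat_lit 5) (nat_lit 405) (nat_lit 378) (nat_lit 237))) (XT.nd (nat_lit 78) (nat_lit 152) (nat_lit 0) (XT.lf (nat_lit 0) (nat_lit 50923451002) (nat_lit 152) (nat_lit 6493474493) (nat_lit 228) (nat_lit 204312824865) (nat_lit 214) (nat_lit 5) (nat_lit 216) (nat_lit 5) (nat_lit 217) (nat_lit 5) (nat_lit 406) (nat_lit 378) (nat_lit 236)) (XT.lf (nat_lit 0) (nat_lit 52507127704) (nat_lit 152) (nat_lit 123488971236) (nat_lit 228) (nat_lit 98773943989) (nat_lit 212) (nat_lit 5) (nat_lit 214) (nat_lit 5) (nat_lit 215) (nat_lit 5) (nat_lit 407) (nat_lit 378) (nat_lit 235))))) (XT.nd (nat_lit 312) (nat_lit 608) (nat_lit 0) (XT.nd (nat_lit 156) (nat_lit 304) (nat_lit 0) (XT.nd (nat_lit 78) (nat_lit 152) (nat_lit 0) (XT.lf (nat_lit 0) (nat_lit 20043940676) (nat_lit 152) (nat_lit 232028483453)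 (nat_lit 76) (nat_lit 36503130472) (nat_lit 210) (nat_lit 5) (nat_lit 212) (nat_lit 5) (nat_lit 211) (nat_lit 5) (nat_lit 408) (nat_lit 378) (nat_lit 234)) (XT.lf (nat_lit 0) (nat_lit 60429018048) (nat_lit 152) (nat_lit 91484397970) (nat_lit 228) (nat_lit 151140793052) (nat_lit 208) (nat_lit 5) (nat_lit 210) (nat_lit 5) (nat_lit 211) (nat_lit 5) (nat_lit 409) (nat_lit 378) (nat_lit 233))) (XT.nd (nat_lit 78) (nat_lit 228) (nat_lit 0) (XT.lf (nat_lit 0) (nat_lit 66873638951) (nat_lit 76) (nat_lit 233890025829) (nat_lit 152) (nat_lit 17605930346) (nat_lit 207) (nat_lit 5) (nat_lit 208) (nat_lit 5) (nat_lit 209) (nat_lit 4) (nat_lit 410) (nat_lit 378) (nat_lit 232)) (XT.lf (nat_lit 0) (nat_lit 73872597259) (nat_lit 152) (nat_lit 55677987767) (nat_lit 228) (nat_lit 204911227379) (nat_lit 204) (nat_lit 5) (nat_lit 206) (nat_lit 5) (nat_lit 207) (nat_lit 5) (nat_lit 411) (nat_lit 378) (nat_lit 231))))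 (XT.nd (nat_lit 156) (nat_lit 304) (nat_lit 0) (XT.nd (nat_lit 78) (nat_lit 228) (nat_lit 0) (XT.lf (nat_lit 0) (nat_lit 82773321068) (nat_lit 76) (nat_lit 212978081984) (nat_lit 152) (nat_lit 55681142551) (nat_lit 203) (nat_lit 5) (nat_lit 204) (nat_lit 5) (nat_lit 205) (nat_lit 4) (nat_lit 412) (nat_lit 378) (nat_lit 230)) (XT.lf (nat_lit 0) (nat_lit 93715051276) (nat_lit 152) (nat_lit 15411384380) (nat_lit 228) (nat_lit 260201387115) (nat_lit 200) (nat_lit 5) (nat_lit 202) (nat_lit 5) (nat_lit 203) (nat_lit 5) (nat_lit 413) (nat_lit 378) (nat_lit 229))) (XT.nd (nat_lit 78) (nat_lit 228) (nat_lit 0) (XT.lf (nat_lit 0) (nat_lit 105522691052) (nat_lit 76) (nat_lit 189165683001) (nat_lit 152) (nat_lit 93444680284) (nat_lit 199) (nat_lit 5) (nat_lit 200) (nat_lit 5) (nat_lit 201) (nat_lit 4) (nat_lit 414) (nat_lit 378) (nat_lit 228)) (XT.lf (nat_lit 0) (nat_lit 91376357333) (nat_lit 228) (nat_lit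 287524975780) (nat_lit 76) (nat_lit 29098865975) (nat_lit 196) (nat_lit 5) (nat_lit 199) (nat_lit 5) (nat_lit 197) (nat_lit 4) (nat_lit 415) (nat_lit 378) (nat_lit 227)))))) (XT.nd (nat_lit 624) (nat_lit 912) (nat_lit 0) (XT.nd (nat_lit 312) (nat_lit 456) (nat_lit 0) (XT.nd (nat_lit 156) (nat_lit 228) (nat_lit 0) (XT.nd (nat_lit 78) (nat_lit 228) (nat_lit 0) (XT.lf (nat_lit 0) (nat_lit 136201674054) (nat_lit 76) (nat_lit 161870764014) (nat_lit 152) (nat_lit 130789523027) (nat_lit 195) (nat_lit 5) (nat_lit 196) (nat_lit 5) (nat_lit 197) (nat_lit 4) (nat_lit 416) (nat_lit 378) (nat_lit 226)) (XT.lf (nat_lit 0) (nat_lit 76485999531) (nat_lit 228) (nat_lit 295439049794) (nat_lit 76) (nat_lit 78972435769) (nat_lit 192) (nat_lit 5) (nat_lit 195) (nat_lit 5) (nat_lit 193) (nat_lit 4) (nat_lit 417) (nat_lit 378) (nat_lit 225))) (XT.nd (nat_lit 78) (nat_lit 152) (nat_lit 0) (XT.lf (nat_lit 0) (nat_lit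 176052341263) (nat_lit 76) (nat_lit 130429584515) (nat_lit 152) (nat_lit 167570691224) (nat_lit 191) (nat_lit 5) (nat_lit 192) (nat_lit 5) (nat_lit 193) (nat_lit 4) (nat_lit 418) (nat_lit 378) (nat_lit 224)) (XT.lf (nat_lit 0) (nat_lit 64611004314) (nat_lit 152) (nat_lit 298248246148) (nat_lit 76) (nat_lit 135628328627) (nat_lit 189) (nat_lit 5) (nat_lit 191) (nat_lit 5) (nat_lit 190) (nat_lit 4) (nat_lit 419) (nat_lit 378) (nat_lit 223)))) (XT.nd (nat_lit 156) (nat_lit 228) (nat_lit 0) (XT.nd (nat_lit 78) (nat_lit 152) (nat_lit 0) (XT.lf (nat_lit 0) (nat_lit 226500777340) (nat_lit 76) (nat_lit 94085463044) (nat_lit 152) (nat_lit 203599251451) (nat_lit 188) (nat_lit 5) (nat_lit 189) (nat_lit 5) (nat_lit 190) (nat_lit 4) (nat_lit 420) (nat_lit 378) (nat_lit 222)) (XT.lf (nat_lit 0) (nat_lit 56219623062) (nat_lit 152) (nat_lit 294941401594) (nat_lit 76) (nat_lit 200114863113) (nat_lit 186) (nat_lit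 5) (nat_lit 188) (nat_lit 5) (nat_lit 187) (nat_lit 4) (nat_lit 421) (nat_lit 378) (nat_lit 221))) (XT.nd (nat_lit 78) (nat_lit 152) (nat_lit 0) (XT.lf (nat_lit 0) (nat_lit 289181792889) (nat_lit 76) (nat_lit 51976057648) (nat_lit 152) (nat_lit 238635431757) (nat_lit 185) (nat_lit 5) (nat_lit 186) (nat_lit 5) (nat_lit 187) (nat_lit 4) (nat_lit 422) (nat_lit 378) (nat_lit 220)) (XT.lf (nat_lit 0) (nat_lit 51862140602) (nat_lit 152) (nat_lit 284341621121) (nat_lit 76) (nat_lit 273618964763) (nat_lit 183) (nat_lit 5) (nat_lit 185) (nat_lit 5) (nat_lit 184) (nat_lit 4) (nat_lit 423) (nat_lit 378) (nat_lit 219))))) (XT.nd (nat_lit 312) (nat_lit 456) (nat_lit 0) (XT.nd (nat_lit 156) (nat_lit 228) (nat_lit 0) (XT.nd (nat_lit 78) (nat_lit 152) (nat_lit 0) (XT.lf (nat_lit 0) (nat_lit 365966839441) (nat_lit 76) (nat_lit 3119008904) (nat_lit 152) (nat_lit 272380727423) (nat_lit 182) (nat_lit 5) (nat_lit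 183) (nat_lit 5) (nat_lit 184) (nat_lit 4) (nat_lit 424) (nat_lit 378) (nat_lit 218)) (XT.lf (nat_lit 0) (nat_lit 52182276942) (nat_lit 152) (nat_lit 265082789013) (nat_lit 76) (nat_lit 357484206508) (nat_lit 180) (nat_lit 5) (nat_lit 182) (nat_lit 5) (nat_lit 181) (nat_lit 4) (nat_lit 425) (nat_lit 378) (nat_lit 217))) (XT.nd (nat_lit 78) (nat_lit 152) (nat_lit 0) (XT.lf (nat_lit 0) (nat_lit 406228180870) (nat_lit 152) (nat_lit 251701514335) (nat_lit 0) (nat_lit 51888589145) (nat_lit 179) (nat_lit 5) (nat_lit 181) (nat_lit 4) (nat_lit 179) (nat_lit 4) (nat_lit 426) (nat_lit 378) (nat_lit 216)) (XT.lf (nat_lit 0) (nat_lit 57930126564) (nat_lit 152) (nat_lit 235582933294) (nat_lit 76) (nat_lit 453231105282) (nat_lit 177) (nat_lit 5) (nat_lit 179) (nat_lit 5) (nat_lit 178) (nat_lit 4) (nat_lit 427) (nat_lit 378) (nat_lit 215)))) (XT.nd (nat_lit 156) (nat_lit 228) (nat_lit 0) (XT.nd (nat_lit 78)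 (nat_lit 152) (nat_lit 0) (XT.lf (nat_lit 0) (nat_lit 453109597652) (nat_lit 152) (nat_lit 216853842833) (nat_lit 0) (nat_lit 115643134512) (nat_lit 176) (nat_lit 5) (nat_lit 178) (nat_lit 4) (nat_lit 176) (nat_lit 4) (nat_lit 428) (nat_lit 378) (nat_lit 214)) (XT.lf (nat_lit 0) (nat_lit 69976832009) (nat_lit 152) (nat_lit 194014040009) (nat_lit 76) (nat_lit 562579952060) (nat_lit 174) (nat_lit 5) (nat_lit 176) (nat_lit 5) (nat_lit 175) (nat_lit 4) (nat_lit 429) (nat_lit 378) (nat_lit 213))) (XT.nd (nat_lit 78) (nat_lit 152) (nat_lit 0) (XT.lf (nat_lit 0) (nat_lit 511043056209) (nat_lit 152) (nat_lit 168948165804) (nat_lit 0) (nat_lit 189646273342) (nat_lit 173) (nat_lit 5) (nat_lit 175) (nat_lit 4) (nat_lit 173) (nat_lit 4) (nat_lit 430) (nat_lit 378) (nat_lit 212)) (XT.lf (nat_lit 0) (nat_lit 89331213093) (nat_lit 152) (nat_lit 138267863378) (nat_lit 76) (nat_lit 687476485969) (nat_lit 171)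 (nat_lit 5) (nat_lit 173) (nat_lit 5) (nat_lit 172) (nat_lit 4) (nat_lit 431) (nat_lit 378) (nat_lit 211)))))))
noncomputable def xc193 : XT := (XT.nd (nat_lit 49140) (nat_lit 0) (nat_lit 7068) (XT.nd (nat_lit 624) (nat_lit 684) (nat_lit 0) (XT.nd (nat_lit 312) (nat_lit 456) (nat_lit 0) (XT.nd (nat_lit 156) (nat_lit 304) (nat_lit 0) (XT.nd (nat_lit 78) (nat_lit 152) (nat_lit 0) (XT.lf (nat_lit 0) (nat_lit 581584106015) (nat_lit 152) (nat_lit 105726001152) (nat_lit 0) (nat_lit 275491808314) (nat_lit 170) (nat_lit 5) (nat_lit 172) (nat_lit 4) (nat_lit 170) (nat_lit 4) (nat_lit 432) (nat_lit 378) (nat_lit 210)) (XT.lf (nat_lit 0) (nat_lit 117158600676) (nat_lit 152) (nat_lit 65917221310) (nat_lit 76) (nat_lit 830120760632) (nat_lit 168) (nat_lit 5) (nat_lit 170) (nat_lit 5) (nat_lit 169) (nat_lit 4) (nat_lit 433) (nat_lit 378) (nat_lit 209))) (XT.nd (nat_lit 78) (nat_lit 228) (nat_lit 0) (XT.lf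 (nat_lit 0) (nat_lit 666507446703) (nat_lit 152) (nat_lit 24589114074) (nat_lit 0) (nat_lit 374990871828) (nat_lit 167) (nat_lit 5) (nat_lit 169) (nat_lit 4) (nat_lit 167) (nat_lit 4) (nat_lit 434) (nat_lit 378) (nat_lit 208)) (XT.lf (nat_lit 0) (nat_lit 26681781327) (nat_lit 76) (nat_lit 128536950919) (nat_lit 152) (nat_lit 966734388866) (nat_lit 164) (nat_lit 5) (nat_lit 165) (nat_lit 5) (nat_lit 166) (nat_lit 4) (nat_lit 435) (nat_lit 378) (nat_lit 207)))) (XT.nd (nat_lit 156) (nat_lit 228) (nat_lit 0) (XT.nd (nat_lit 78) (nat_lit 152) (nat_lit 0) (XT.lf (nat_lit 0) (nat_lit 80007758213) (nat_lit 76) (nat_lit 689076785442) (nat_lit 76) (nat_lit 411441869863) (nat_lit 163) (nat_lit 4) (nat_lit 164) (nat_lit 5) (nat_lit 164) (nat_lit 4) (nat_lit 436) (nat_lit 378) (nat_lit 206)) (XT.lf (nat_lit 0) (nat_lit 144803993555) (nat_lit 76) (nat_lit 61263784883) (nat_lit 152) (nat_lit 1036379832939)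 (nat_lit 161) (nat_lit 5) (nat_lit 162) (nat_lit 5) (nat_lit 163) (nat_lit 4) (nat_lit 437) (nat_lit 378) (nat_lit 205))) (XT.nd (nat_lit 78) (nat_lit 152) (nat_lit 0) (XT.lf (nat_lit 0) (nat_lit 210544514156) (nat_lit 76) (nat_lit 680612660643) (nat_lit 76) (nat_lit 416198388077) (nat_lit 160) (nat_lit 4) (nat_lit 161) (nat_lit 5) (nat_lit 161) (nat_lit 4) (nat_lit 438) (nat_lit 378) (nat_lit 204)) (XT.lf (nat_lit 0) (nat_lit 270781867314) (nat_lit 152) (nat_lit 1086252542618) (nat_lit 0) (nat_lit 18958722073) (nat_lit 158) (nat_lit 5) (nat_lit 160) (nat_lit 4) (nat_lit 158) (nat_lit 4) (nat_lit 439) (nat_lit 378) (nat_lit 203))))) (XT.nd (nat_lit 312) (nat_lit 228) (nat_lit 0) (XT.nd (nat_lit 156) (nat_lit 228) (nat_lit 0) (XT.nd (nat_lit 78) (nat_lit 152) (nat_lit 0) (XT.lf (nat_lit 0) (nat_lit 370259544750) (nat_lit 76) (nat_lit 664750321486) (nat_lit 76) (nat_lit 412927149845) (nat_lit 157)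 (nat_lit 4) (nat_lit 158) (nat_lit 5) (nat_lit 158) (nat_lit 4) (nat_lit 440) (nat_lit 378) (nat_lit 202)) (XT.lf (nat_lit 0) (nat_lit 352360759636) (nat_lit 152) (nat_lit 1059068454389) (nat_lit 0) (nat_lit 112529144316) (nat_lit 155) (nat_lit 5) (nat_lit 157) (nat_lit 4) (nat_lit 155) (nat_lit 4) (nat_lit 441) (nat_lit 378) (nat_lit 201))) (XT.nd (nat_lit 78) (nat_lit 152) (nat_lit 0) (XT.lf (nat_lit 0) (nat_lit 563788479076) (nat_lit 76) (nat_lit 639900933780) (nat_lit 76) (nat_lit 400069296904) (nat_lit 154) (nat_lit 4) (nat_lit 155) (nat_lit 5) (nat_lit 155) (nat_lit 4) (nat_lit 442) (nat_lit 378) (nat_lit 200)) (XT.lf (nat_lit 0) (nat_lit 452294587692) (nat_lit 152) (nat_lit 1011777965749) (nat_lit 0) (nat_lit 223883485945) (nat_lit 152) (nat_lit 5) (nat_lit 154) (nat_lit 4) (nat_lit 152) (nat_lit 4) (nat_lit 443) (nat_lit 378) (nat_lit 199)))) (XT.nd (nat_lit 48048) (nat_lit 0) (nat_lit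 10868) (XT.nd (nat_lit 78) (nat_lit 152) (nat_lit 0) (XT.lf (nat_lit 0) (nat_lit 796429513409) (nat_lit 76) (nat_lit 604225812285) (nat_lit 76) (nat_lit 375814692936) (nat_lit 151) (nat_lit 4) (nat_lit 152) (nat_lit 5) (nat_lit 152) (nat_lit 4) (nat_lit 444) (nat_lit 378) (nat_lit 198)) (XT.lf (nat_lit 0) (nat_lit 573380811596) (nat_lit 152) (nat_lit 940493620035) (nat_lit 0) (nat_lit 355846396695) (nat_lit 149) (nat_lit 5) (nat_lit 151) (nat_lit 4) (nat_lit 149) (nat_lit 4) (nat_lit 445) (nat_lit 378) (nat_lit 197))) (XT.nd (nat_lit 78) (nat_lit 0) (nat_lit 76) (XT.lf (nat_lit 0) (nat_lit 19124314259) (nat_lit 836) (nat_lit 10843745438) (nat_lit 836) (nat_lit 10843745438) (nat_lit 292) (nat_lit 3) (nat_lit 303) (nat_lit 3) (nat_lit 303) (nat_lit 5) (nat_lit 379) (nat_lit 379) (nat_lit 262)) (XT.lf (nat_lit 0) (nat_lit 40568314293) (nat_lit 760) (nat_lit 39870522900) (nat_lit 836) (nat_lit 4410230458)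 (nat_lit 293) (nat_lit 5) (nat_lit 303) (nat_lit 5) (nat_lit 304) (nat_lit 5) (nat_lit 380) (nat_lit 379) (nat_lit 261)))))) (XT.nd (nat_lit 624) (nat_lit 2508) (nat_lit 0) (XT.nd (nat_lit 312) (nat_lit 1368) (nat_lit 0) (XT.nd (nat_lit 156) (nat_lit 0) (nat_lit 152) (XT.nd (nat_lit 78) (nat_lit 0) (nat_lit 76) (XT.lf (nat_lit 76) (nat_lit 29360629342) (nat_lit 0) (nat_lit 15564432395) (nat_lit 836) (nat_lit 43314925544) (nat_lit 294) (nat_lit 5) (nat_lit 293) (nat_lit 5) (nat_lit 304) (nat_lit 5) (nat_lit 381) (nat_lit 379) (nat_lit 260)) (XT.lf (nat_lit 76) (nat_lit 13247345736) (nat_lit 0) (nat_lit 38145217482) (nat_lit 836) (nat_lit 40421506551) (nat_lit 295) (nat_lit 5) (nat_lit 294) (nat_lit 5) (nat_lit 305) (nat_lit 5) (nat_lit 382) (nat_lit 379) (nat_lit 259))) (XT.nd (nat_lit 78) (nat_lit 0) (nat_lit 76) (XT.lf (nat_lit 0) (nat_lit 60180128930) (nat_lit 760) (nat_lit 3155373696) (nat_lit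 836) (nat_lit 32248443024) (nat_lit 295) (nat_lit 5) (nat_lit 305) (nat_lit 5) (nat_lit 306) (nat_lit 5) (nat_lit 383) (nat_lit 379) (nat_lit 258)) (XT.lf (nat_lit 0) (nat_lit 71700017502) (nat_lit 760) (nat_lit 19483638131) (nat_lit 836) (nat_lit 8370290088) (nat_lit 296) (nat_lit 5) (nat_lit 306) (nat_lit 5) (nat_lit 307) (nat_lit 5) (nat_lit 384) (nat_lit 379) (nat_lit 257)))) (XT.nd (nat_lit 156) (nat_lit 912) (nat_lit 0) (XT.nd (nat_lit 78) (nat_lit 684) (nat_lit 0) (XT.lf (nat_lit 76) (nat_lit 67312559253) (nat_lit 0) (nat_lit 19002554316) (nat_lit 836) (nat_lit 17417751408) (nat_lit 297) (nat_lit 5) (nat_lit 296) (nat_lit 5) (nat_lit 307) (nat_lit 5) (nat_lit 385) (nat_lit 379) (nat_lit 256)) (XT.lf (nat_lit 0) (nat_lit 54331078081) (nat_lit 760) (nat_lit 49880911964) (nat_lit 836) (nat_lit 3928479093) (nat_lit 287) (nat_lit 5) (nat_lit 297) (nat_lit 5) (nat_lit 298) (nat_lit 5) (nat_lit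 386) (nat_lit 379) (nat_lit 255))) (XT.nd (nat_lit 78) (nat_lit 380) (nat_lit 0) (XT.lf (nat_lit 0) (nat_lit 12376845683) (nat_lit 532) (nat_lit 71667295512) (nat_lit 76) (nat_lit 28744361724) (nat_lit 280) (nat_lit 5) (nat_lit 287) (nat_lit 5) (nat_lit 281) (nat_lit 5) (nat_lit 387) (nat_lit 379) (nat_lit 254)) (XT.lf (nat_lit 0) (nat_lit 27771477961) (nat_lit 380) (nat_lit 4305733104) (nat_lit 456) (nat_lit 85616535803) (nat_lit 275) (nat_lit 5) (nat_lit 280) (nat_lit 5) (nat_lit 281) (nat_lit 5) (nat_lit 388) (nat_lit 379) (nat_lit 253))))) (XT.nd (nat_lit 312) (nat_lit 1444) (nat_lit 0) (XT.nd (nat_lit 156) (nat_lit 380) (nat_lit 0) (XT.nd (nat_lit 78) (nat_lit 304) (nat_lit 0) (XT.lf (nat_lit 0) (nat_lit 13943117191) (nat_lit 380) (nat_lit 42173454945) (nat_lit 456) (nat_lit 66736689874) (nat_lit 270) (nat_lit 5) (nat_lit 275) (nat_lit 5) (nat_lit 276) (nat_lit 5) (nat_lit 389) (nat_lit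 379) (nat_lit 252)) (XT.lf (nat_lit 0) (nat_lit 204823261) (nat_lit 304) (nat_lit 84225387568) (nat_lit 380) (nat_lit 43877771098) (nat_lit 266) (nat_lit 5) (nat_lit 270) (nat_lit 5) (nat_lit 271) (nat_lit 5) (nat_lit 390) (nat_lit 379) (nat_lit 251))) (XT.nd (nat_lit 78) (nat_lit 380) (nat_lit 0) (XT.lf (nat_lit 0) (nat_lit 117661107285) (nat_lit 380) (nat_lit 12922859324) (nat_lit 76) (nat_lit 3482504495) (nat_lit 266) (nat_lit 5) (nat_lit 271) (nat_lit 5) (nat_lit 267) (nat_lit 5) (nat_lit 391) (nat_lit 379) (nat_lit 250)) (XT.lf (nat_lit 0) (nat_lit 16087111941) (nat_lit 380) (nat_lit 26695818237) (nat_lit 76) (nat_lit 97330012499) (nat_lit 261) (nat_lit 5) (nat_lit 266) (nat_lit 5) (nat_lit 262) (nat_lit 5) (nat_lit 392) (nat_lit 379) (nat_lit 249)))) (XT.nd (nat_lit 156) (nat_lit 836) (nat_lit 0) (XT.nd (nat_lit 78) (nat_lit 304) (nat_lit 0) (XT.lf (nat_lit 0) (nat_lit 53356090979) (nat_lit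 380) (nat_lit 40550635784) (nat_lit 76) (nat_lit 52585364730) (nat_lit 257) (nat_lit 5) (nat_lit 262) (nat_lit 5) (nat_lit 258) (nat_lit 5) (nat_lit 393) (nat_lit 379) (nat_lit 248)) (XT.lf (nat_lit 0) (nat_lit 96394220951) (nat_lit 380) (nat_lit 54058613631) (nat_lit 76) (nat_lit 2789356003) (nat_lit 253) (nat_lit 5) (nat_lit 258) (nat_lit 5) (nat_lit 254) (nat_lit 5) (nat_lit 394) (nat_lit 379) (nat_lit 247))) (XT.nd (nat_lit 78) (nat_lit 608) (nat_lit 0) (XT.lf (nat_lit 0) (nat_lit 92409407576) (nat_lit 228) (nat_lit 54209508676) (nat_lit 304) (nat_lit 13726205606) (nat_lit 250) (nat_lit 5) (nat_lit 253) (nat_lit 5) (nat_lit 254) (nat_lit 5) (nat_lit 395) (nat_lit 379) (nat_lit 246)) (XT.nd (nat_lit 78) (nat_lit 228) (nat_lit 0) (XT.lf (nat_lit 0) (nat_lit 34928594699) (nat_lit 380) (nat_lit 81892529216) (nat_lit 76) (nat_lit 51012795865) (nat_lit 245) (nat_lit 5) (nat_lit 250) (nat_lit 5)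 (nat_lit 246) (nat_lit 5) (nat_lit 396) (nat_lit 379) (nat_lit 245)) (XT.lf (nat_lit 0) (nat_lit 80089599361) (nat_lit 228) (nat_lit 10278415097) (nat_lit 304) (nat_lit 85373899348) (nat_lit 242) (nat_lit 5) (nat_lit 245) (nat_lit 5) (nat_lit 246) (nat_lit 5) (nat_lit 397) (nat_lit 379) (nat_lit 244))))))))
noncomputable def xc194 : XT := (XT.nd (nat_lit 1248) (nat_lit 2052) (nat_lit 0) (XT.nd (nat_lit 624) (nat_lit 1216) (nat_lit 0) (XT.nd (nat_lit 312) (nat_lit 836) (nat_lit 0) (XT.nd (nat_lit 156) (nat_lit 380) (nat_lit 0) (XT.nd (nat_lit 78) (nat_lit 304) (nat_lit 0) (XT.lf (nat_lit 0) (nat_lit 74466602787) (nat_lit 228) (nat_lit 80023990124) (nat_lit 304) (nat_lit 29579554189) (nat_lit 239) (nat_lit 5) (nat_lit 242) (nat_lit 5) (nat_lit 243) (nat_lit 5) (nat_lit 398) (nat_lit 379) (nat_lit 243)) (XT.lf (nat_lit 0) (nat_lit 33244742688) (nat_lit 304) (nat_lit 123282912898) (nat_lit 76) (nat_lit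 36335619602) (nat_lit 235) (nat_lit 5) (nat_lit 239) (nat_lit 5) (nat_lit 236) (nat_lit 5) (nat_lit 399) (nat_lit 379) (nat_lit 242))) (XT.nd (nat_lit 78) (nat_lit 152) (nat_lit 0) (XT.lf (nat_lit 0) (nat_lit 64947011244) (nat_lit 228) (nat_lit 39428867434) (nat_lit 304) (nat_lit 97743868367) (nat_lit 232) (nat_lit 5) (nat_lit 235) (nat_lit 5) (nat_lit 236) (nat_lit 5) (nat_lit 400) (nat_lit 379) (nat_lit 241)) (XT.lf (nat_lit 0) (nat_lit 61192011625) (nat_lit 152) (nat_lit 124502000210) (nat_lit 228) (nat_lit 26197899501) (nat_lit 230) (nat_lit 5) (nat_lit 232) (nat_lit 5) (nat_lit 233) (nat_lit 5) (nat_lit 401) (nat_lit 379) (nat_lit 240)))) (XT.nd (nat_lit 156) (nat_lit 380) (nat_lit 0) (XT.nd (nat_lit 78) (nat_lit 152) (nat_lit 0) (XT.lf (nat_lit 0) (nat_lit 53518209832) (nat_lit 304) (nat_lit 163918794541) (nat_lit 76) (nat_lit 4764921852) (nat_lit 226) (nat_lit 5) (nat_lit 230) (nat_lit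 5) (nat_lit 227) (nat_lit 5) (nat_lit 402) (nat_lit 379) (nat_lit 239)) (XT.lf (nat_lit 0) (nat_lit 55347379976) (nat_lit 152) (nat_lit 88989786326) (nat_lit 228) (nat_lit 88695932057) (nat_lit 224) (nat_lit 5) (nat_lit 226) (nat_lit 5) (nat_lit 227) (nat_lit 5) (nat_lit 403) (nat_lit 379) (nat_lit 238))) (XT.nd (nat_lit 78) (nat_lit 152) (nat_lit 0) (XT.lf (nat_lit 0) (nat_lit 2365523196) (nat_lit 228) (nat_lit 190207183292) (nat_lit 76) (nat_lit 51929823283) (nat_lit 221) (nat_lit 5) (nat_lit 224) (nat_lit 5) (nat_lit 222) (nat_lit 5) (nat_lit 404) (nat_lit 379) (nat_lit 237)) (XT.lf (nat_lit 0) (nat_lit 53097129771) (nat_lit 152) (nat_lit 50023851253) (nat_lit 228) (nat_lit 153420005110) (nat_lit 219) (nat_lit 5) (nat_lit 221) (nat_lit 5) (nat_lit 222) (nat_lit 5) (nat_lit 405) (nat_lit 379) (nat_lit 236))))) (XT.nd (nat_lit 312) (nat_lit 532) (nat_lit 0) (XT.nd (nat_lit 156) (nat_lit 304)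 (nat_lit 0) (XT.nd (nat_lit 78) (nat_lit 228) (nat_lit 0) (XT.lf (nat_lit 0) (nat_lit 53309790888) (nat_lit 152) (nat_lit 164449219778) (nat_lit 228) (nat_lit 51492401583) (nat_lit 217) (nat_lit 5) (nat_lit 219) (nat_lit 5) (nat_lit 220) (nat_lit 5) (nat_lit 406) (nat_lit 379) (nat_lit 235)) (XT.lf (nat_lit 0) (nat_lit 55010850298) (nat_lit 152) (nat_lit 7007265895) (nat_lit 228) (nat_lit 220649622363) (nat_lit 214) (nat_lit 5) (nat_lit 216) (nat_lit 5) (nat_lit 217) (nat_lit 5) (nat_lit 407) (nat_lit 379) (nat_lit 234))) (XT.nd (nat_lit 78) (nat_lit 152) (nat_lit 0) (XT.lf (nat_lit 0) (nat_lit 56720923313) (nat_lit 152) (nat_lit 133362408399) (nat_lit 228) (nat_lit 106667937408) (nat_lit 212) (nat_lit 5) (nat_lit 214) (nat_lit 5) (nat_lit 215) (nat_lit 5) (nat_lit 408) (nat_lit 379) (nat_lit 233)) (XT.lf (nat_lit 0) (nat_lit 21654845028) (nat_lit 152) (nat_lit 250577591166) (nat_lit 76) (nat_lit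 39428793320) (nat_lit 210) (nat_lit 5) (nat_lit 212) (nat_lit 5) (nat_lit 211) (nat_lit 5) (nat_lit 409) (nat_lit 379) (nat_lit 232)))) (XT.nd (nat_lit 156) (nat_lit 304) (nat_lit 0) (XT.nd (nat_lit 78) (nat_lit 76) (nat_lit 0) (XT.lf (nat_lit 0) (nat_lit 65275938062) (nat_lit 152) (nat_lit 98797589694) (nat_lit 228) (nat_lit 163224666116) (nat_lit 208) (nat_lit 5) (nat_lit 210) (nat_lit 5) (nat_lit 211) (nat_lit 5) (nat_lit 410) (nat_lit 379) (nat_lit 231)) (XT.lf (nat_lit 0) (nat_lit 72235834711) (nat_lit 76) (nat_lit 252595712829) (nat_lit 152) (nat_lit 19007275717) (nat_lit 207) (nat_lit 5) (nat_lit 208) (nat_lit 5) (nat_lit 209) (nat_lit 4) (nat_lit 411) (nat_lit 379) (nat_lit 230))) (XT.nd (nat_lit 78) (nat_lit 76) (nat_lit 0) (XT.lf (nat_lit 0) (nat_lit 79794393196) (nat_lit 152) (nat_lit 60126815506) (nat_lit 228) (nat_lit 221297219851) (nat_lit 204) (nat_lit 5) (nat_lit 206) (nat_lit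 5) (nat_lit 207) (nat_lit 5) (nat_lit 412) (nat_lit 379) (nat_lit 229)) (XT.lf (nat_lit 0) (nat_lit 89406887658) (nat_lit 76) (nat_lit 230010978247) (nat_lit 152) (nat_lit 60128965815) (nat_lit 203) (nat_lit 5) (nat_lit 204) (nat_lit 5) (nat_lit 205) (nat_lit 4) (nat_lit 413) (nat_lit 379) (nat_lit 228)))))) (XT.nd (nat_lit 624) (nat_lit 912) (nat_lit 0) (XT.nd (nat_lit 312) (nat_lit 532) (nat_lit 0) (XT.nd (nat_lit 156) (nat_lit 304) (nat_lit 0) (XT.nd (nat_lit 78) (nat_lit 76) (nat_lit 0) (XT.lf (nat_lit 0) (nat_lit 101223651923) (nat_lit 152) (nat_lit 16639053109) (nat_lit 228) (nat_lit 281011035835) (nat_lit 200) (nat_lit 5) (nat_lit 202) (nat_lit 5) (nat_lit 203) (nat_lit 5) (nat_lit 414) (nat_lit 379) (nat_lit 227)) (XT.lf (nat_lit 0) (nat_lit 113975623668) (nat_lit 76) (nat_lit 204293768295) (nat_lit 152) (nat_lit 100914009322) (nat_lit 199) (nat_lit 5) (nat_lit 200) (nat_lit 5) (nat_lit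 201) (nat_lit 4) (nat_lit 415) (nat_lit 379) (nat_lit 226))) (XT.nd (nat_lit 78) (nat_lit 76) (nat_lit 0) (XT.lf (nat_lit 0) (nat_lit 98692311594) (nat_lit 228) (nat_lit 310515939097) (nat_lit 76) (nat_lit 31431672040) (nat_lit 196) (nat_lit 5) (nat_lit 199) (nat_lit 5) (nat_lit 197) (nat_lit 4) (nat_lit 416) (nat_lit 379) (nat_lit 225)) (XT.lf (nat_lit 0) (nat_lit 147108363166) (nat_lit 76) (nat_lit 174815447404) (nat_lit 152) (nat_lit 141246828539) (nat_lit 195) (nat_lit 5) (nat_lit 196) (nat_lit 5) (nat_lit 197) (nat_lit 4) (nat_lit 417) (nat_lit 379) (nat_lit 224)))) (XT.nd (nat_lit 156) (nat_lit 228) (nat_lit 0) (XT.nd (nat_lit 78) (nat_lit 76) (nat_lit 0) (XT.lf (nat_lit 0) (nat_lit 82610364877) (nat_lit 228) (nat_lit 319063703519) (nat_lit 76) (nat_lit 85294941235) (nat_lit 192) (nat_lit 5) (nat_lit 195) (nat_lit 5) (nat_lit 193) (nat_lit 4) (nat_lit 418) (nat_lit 379) (nat_lit 223)) (XT.lf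 (nat_lit 0) (nat_lit 190146543798) (nat_lit 76) (nat_lit 140859171468) (nat_lit 152) (nat_lit 180970849325) (nat_lit 191) (nat_lit 5) (nat_lit 192) (nat_lit 5) (nat_lit 193) (nat_lit 4) (nat_lit 419) (nat_lit 379) (nat_lit 222))) (XT.nd (nat_lit 78) (nat_lit 76) (nat_lit 0) (XT.lf (nat_lit 0) (nat_lit 69785036838) (nat_lit 152) (nat_lit 322098176490) (nat_lit 76) (nat_lit 146483114480) (nat_lit 189) (nat_lit 5) (nat_lit 191) (nat_lit 5) (nat_lit 190) (nat_lit 4) (nat_lit 420) (nat_lit 379) (nat_lit 221)) (XT.lf (nat_lit 0) (nat_lit 244630337360) (nat_lit 76) (nat_lit 101607721079) (nat_lit 152) (nat_lit 219882026802) (nat_lit 188) (nat_lit 5) (nat_lit 189) (nat_lit 5) (nat_lit 190) (nat_lit 4) (nat_lit 421) (nat_lit 379) (nat_lit 220))))) (XT.nd (nat_lit 312) (nat_lit 456) (nat_lit 0) (XT.nd (nat_lit 156) (nat_lit 228) (nat_lit 0) (XT.nd (nat_lit 78) (nat_lit 76) (nat_lit 0) (XT.lf (nat_lit 0)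 (nat_lit 60722036135) (nat_lit 152) (nat_lit 318527301645) (nat_lit 76) (nat_lit 216128378849) (nat_lit 186) (nat_lit 5) (nat_lit 188) (nat_lit 5) (nat_lit 187) (nat_lit 4) (nat_lit 422) (nat_lit 379) (nat_lit 219)) (XT.lf (nat_lit 0) (nat_lit 312325339360) (nat_lit 76) (nat_lit 56129764253) (nat_lit 152) (nat_lit 257721410014) (nat_lit 185) (nat_lit 5) (nat_lit 186) (nat_lit 5) (nat_lit 187) (nat_lit 4) (nat_lit 423) (nat_lit 379) (nat_lit 218))) (XT.nd (nat_lit 78) (nat_lit 76) (nat_lit 0) (XT.lf (nat_lit 0) (nat_lit 56015667950) (nat_lit 152) (nat_lit 307080032569) (nat_lit 76) (nat_lit 295512616282) (nat_lit 183) (nat_lit 5) (nat_lit 185) (nat_lit 5) (nat_lit 184) (nat_lit 4) (nat_lit 424) (nat_lit 379) (nat_lit 217)) (XT.lf (nat_lit 0) (nat_lit 395252717263) (nat_lit 76) (nat_lit 3364350748) (nat_lit 152) (nat_lit 294166616228) (nat_lit 182) (nat_lit 5) (nat_lit 183) (nat_lit 5) (nat_lit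 184) (nat_lit 4) (nat_lit 425) (nat_lit 379) (nat_lit 216)))) (XT.nd (nat_lit 156) (nat_lit 228) (nat_lit 0) (XT.nd (nat_lit 78) (nat_lit 76) (nat_lit 0) (XT.lf (nat_lit 0) (nat_lit 56361147799) (nat_lit 152) (nat_lit 286280964671) (nat_lit 76) (nat_lit 386086887356) (nat_lit 180) (nat_lit 5) (nat_lit 182) (nat_lit 5) (nat_lit 181) (nat_lit 4) (nat_lit 426) (nat_lit 379) (nat_lit 215)) (XT.lf (nat_lit 0) (nat_lit 438730594705) (nat_lit 152) (nat_lit 271829412465) (nat_lit 0) (nat_lit 56043531960) (nat_lit 179) (nat_lit 5) (nat_lit 181) (nat_lit 4) (nat_lit 179) (nat_lit 4) (nat_lit 427) (nat_lit 379) (nat_lit 214))) (XT.nd (nat_lit 78) (nat_lit 76) (nat_lit 0) (XT.lf (nat_lit 0) (nat_lit 62568575907) (nat_lit 152) (nat_lit 254421568748) (nat_lit 76) (nat_lit 489493351736) (nat_lit 177) (nat_lit 5) (nat_lit 179) (nat_lit 5) (nat_lit 178) (nat_lit 4) (nat_lit 428) (nat_lit 379) (nat_lit 213)) (XT.lf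 (nat_lit 0) (nat_lit 489362284148) (nat_lit 152) (nat_lit 234194364918) (nat_lit 0) (nat_lit 124898255997) (nat_lit 176) (nat_lit 5) (nat_lit 178) (nat_lit 4) (nat_lit 176) (nat_lit 4) (nat_lit 429) (nat_lit 379) (nat_lit 212)))))))
noncomputable def xc195 : XT := (XT.nd (nat_lit 49218) (nat_lit 0) (nat_lit 7524) (XT.nd (nat_lit 624) (nat_lit 912) (nat_lit 0) (XT.nd (nat_lit 312) (nat_lit 532) (nat_lit 0) (XT.nd (nat_lit 156) (nat_lit 228) (nat_lit 0) (XT.nd (nat_lit 78) (nat_lit 76) (nat_lit 0) (XT.lf (nat_lit 0) (nat_lit 75578784638) (nat_lit 152) (nat_lit 209527590363) (nat_lit 76) (nat_lit 607589924701) (nat_lit 174) (nat_lit 5) (nat_lit 176) (nat_lit 5) (nat_lit 175) (nat_lit 4) (nat_lit 430) (nat_lit 379) (nat_lit 211)) (XT.lf (nat_lit 0) (nat_lit 551930194245) (nat_lit 152) (nat_lit 182456649774) (nat_lit 0) (nat_lit 204821466287) (nat_lit 173) (nat_lit 5) (nat_lit 175) (nat_lit 4) (nat_lit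 173) (nat_lit 4) (nat_lit 431) (nat_lit 379) (nat_lit 210))) (XT.nd (nat_lit 78) (nat_lit 76) (nat_lit 0) (XT.lf (nat_lit 0) (nat_lit 96481298009) (nat_lit 152) (nat_lit 149322124784) (nat_lit 76) (nat_lit 742478005250) (nat_lit 171) (nat_lit 5) (nat_lit 173) (nat_lit 5) (nat_lit 172) (nat_lit 4) (nat_lit 432) (nat_lit 379) (nat_lit 209)) (XT.lf (nat_lit 0) (nat_lit 628114317146) (nat_lit 152) (nat_lit 114177107126) (nat_lit 0) (nat_lit 297534470316) (nat_lit 170) (nat_lit 5) (nat_lit 172) (nat_lit 4) (nat_lit 170) (nat_lit 4) (nat_lit 433) (nat_lit 379) (nat_lit 208)))) (XT.nd (nat_lit 156) (nat_lit 304) (nat_lit 0) (XT.nd (nat_lit 78) (nat_lit 76) (nat_lit 0) (XT.lf (nat_lit 0) (nat_lit 126534672129) (nat_lit 152) (nat_lit 71183816113) (nat_lit 76) (nat_lit 896533651815) (nat_lit 168) (nat_lit 5) (nat_lit 170) (nat_lit 5) (nat_lit 169) (nat_lit 4) (nat_lit 434) (nat_lit 379) (nat_lit 207))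 (XT.lf (nat_lit 0) (nat_lit 719831327319) (nat_lit 152) (nat_lit 26549644175) (nat_lit 0) (nat_lit 404993291474) (nat_lit 167) (nat_lit 5) (nat_lit 169) (nat_lit 4) (nat_lit 167) (nat_lit 4) (nat_lit 435) (nat_lit 379) (nat_lit 206))) (XT.nd (nat_lit 78) (nat_lit 76) (nat_lit 0) (XT.lf (nat_lit 0) (nat_lit 28822953800) (nat_lit 76) (nat_lit 138816572123) (nat_lit 152) (nat_lit 1044069680123) (nat_lit 164) (nat_lit 5) (nat_lit 165) (nat_lit 5) (nat_lit 166) (nat_lit 4) (nat_lit 436) (nat_lit 379) (nat_lit 205)) (XT.lf (nat_lit 0) (nat_lit 86414828498) (nat_lit 76) (nat_lit 744199678572) (nat_lit 76) (nat_lit 444353859533) (nat_lit 163) (nat_lit 4) (nat_lit 164) (nat_lit 5) (nat_lit 164) (nat_lit 4) (nat_lit 437) (nat_lit 379) (nat_lit 204))))) (XT.nd (nat_lit 312) (nat_lit 456) (nat_lit 0) (XT.nd (nat_lit 156) (nat_lit 228) (nat_lit 0) (XT.nd (nat_lit 78) (nat_lit 76) (nat_lit 0) (XT.lf (nat_lit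 0) (nat_lit 156394585239) (nat_lit 76) (nat_lit 66161724864) (nat_lit 152) (nat_lit 1119286954715) (nat_lit 161) (nat_lit 5) (nat_lit 162) (nat_lit 5) (nat_lit 163) (nat_lit 4) (nat_lit 438) (nat_lit 379) (nat_lit 203)) (XT.lf (nat_lit 0) (nat_lit 227394176385) (nat_lit 76) (nat_lit 735058592440) (nat_lit 76) (nat_lit 449491088079) (nat_lit 160) (nat_lit 4) (nat_lit 161) (nat_lit 5) (nat_lit 161) (nat_lit 4) (nat_lit 439) (nat_lit 379) (nat_lit 202))) (XT.nd (nat_lit 78) (nat_lit 76) (nat_lit 0) (XT.lf (nat_lit 0) (nat_lit 292447398318) (nat_lit 152) (nat_lit 1173146713065) (nat_lit 0) (nat_lit 20478322101) (nat_lit 158) (nat_lit 5) (nat_lit 160) (nat_lit 4) (nat_lit 158) (nat_lit 4) (nat_lit 440) (nat_lit 379) (nat_lit 201)) (XT.lf (nat_lit 0) (nat_lit 399886079108) (nat_lit 76) (nat_lit 717927427284) (nat_lit 76) (nat_lit 445958328433) (nat_lit 157) (nat_lit 4) (nat_lit 158) (nat_lit 5) (nat_lit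 158) (nat_lit 4) (nat_lit 441) (nat_lit 379) (nat_lit 200)))) (XT.nd (nat_lit 156) (nat_lit 228) (nat_lit 0) (XT.nd (nat_lit 78) (nat_lit 76) (nat_lit 0) (XT.lf (nat_lit 0) (nat_lit 380552435332) (nat_lit 152) (nat_lit 1143788224938) (nat_lit 0) (nat_lit 121534225991) (nat_lit 155) (nat_lit 5) (nat_lit 157) (nat_lit 4) (nat_lit 155) (nat_lit 4) (nat_lit 442) (nat_lit 379) (nat_lit 199)) (XT.lf (nat_lit 0) (nat_lit 608897015237) (nat_lit 76) (nat_lit 691090242272) (nat_lit 76) (nat_lit 432072014450) (nat_lit 154) (nat_lit 4) (nat_lit 155) (nat_lit 5) (nat_lit 155) (nat_lit 4) (nat_lit 443) (nat_lit 379) (nat_lit 198))) (XT.nd (nat_lit 78) (nat_lit 76) (nat_lit 0) (XT.lf (nat_lit 0) (nat_lit 488480812686) (nat_lit 152) (nat_lit 1092714807060) (nat_lit 0) (nat_lit 241796769892) (nat_lit 152) (nat_lit 5) (nat_lit 154) (nat_lit 4) (nat_lit 152) (nat_lit 4) (nat_lit 444) (nat_lit 379) (nat_lit 197))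 (XT.lf (nat_lit 0) (nat_lit 860149035930) (nat_lit 76) (nat_lit 652561257496) (nat_lit 76) (nat_lit 405877199612) (nat_lit 151) (nat_lit 4) (nat_lit 152) (nat_lit 5) (nat_lit 152) (nat_lit 4) (nat_lit 445) (nat_lit 379) (nat_lit 196)))))) (XT.nd (nat_lit 624) (nat_lit 2812) (nat_lit 0) (XT.nd (nat_lit 312) (nat_lit 380) (nat_lit 0) (XT.nd (nat_lit 156) (nat_lit 0) (nat_lit 76) (XT.nd (nat_lit 78) (nat_lit 0) (nat_lit 76) (XT.lf (nat_lit 0) (nat_lit 20669094462) (nat_lit 836) (nat_lit 11703456666) (nat_lit 836) (nat_lit 11703456666) (nat_lit 292) (nat_lit 3) (nat_lit 303) (nat_lit 3) (nat_lit 303) (nat_lit 5) (nat_lit 380) (nat_lit 380) (nat_lit 260)) (XT.lf (nat_lit 0) (nat_lit 43841284478) (nat_lit 760) (nat_lit 43043679695) (nat_lit 836) (nat_lit 4750653639) (nat_lit 293) (nat_lit 5) (nat_lit 303) (nat_lit 5) (nat_lit 304) (nat_lit 5) (nat_lit 381) (nat_lit 380) (nat_lit 259))) (XT.nd (nat_lit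 78) (nat_lit 0) (nat_lit 76) (XT.lf (nat_lit 76) (nat_lit 31725248307) (nat_lit 0) (nat_lit 16819532192) (nat_lit 836) (nat_lit 46753120073) (nat_lit 294) (nat_lit 5) (nat_lit 293) (nat_lit 5) (nat_lit 304) (nat_lit 5) (nat_lit 382) (nat_lit 380) (nat_lit 258)) (XT.lf (nat_lit 76) (nat_lit 14323595069) (nat_lit 0) (nat_lit 41204295544) (nat_lit 836) (nat_lit 43630108620) (nat_lit 295) (nat_lit 5) (nat_lit 294) (nat_lit 5) (nat_lit 305) (nat_lit 5) (nat_lit 383) (nat_lit 380) (nat_lit 257)))) (XT.nd (nat_lit 156) (nat_lit 608) (nat_lit 0) (XT.nd (nat_lit 78) (nat_lit 0) (nat_lit 76) (XT.lf (nat_lit 0) (nat_lit 65016581703) (nat_lit 760) (nat_lit 3391345932) (nat_lit 836) (nat_lit 34821631543) (nat_lit 295) (nat_lit 5) (nat_lit 305) (nat_lit 5) (nat_lit 306) (nat_lit 5) (nat_lit 384) (nat_lit 380) (nat_lit 256)) (XT.lf (nat_lit 0) (nat_lit 77456597664) (nat_lit 760) (nat_lit 21025477272) (nat_lit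 836) (nat_lit 9035157505) (nat_lit 296) (nat_lit 5) (nat_lit 306) (nat_lit 5) (nat_lit 307) (nat_lit 5) (nat_lit 385) (nat_lit 380) (nat_lit 255))) (XT.nd (nat_lit 78) (nat_lit 684) (nat_lit 0) (XT.lf (nat_lit 76) (nat_lit 72713683540) (nat_lit 0) (nat_lit 20525945195) (nat_lit 836) (nat_lit 18790900137) (nat_lit 297) (nat_lit 5) (nat_lit 296) (nat_lit 5) (nat_lit 307) (nat_lit 5) (nat_lit 386) (nat_lit 380) (nat_lit 254)) (XT.lf (nat_lit 0) (nat_lit 58693954279) (nat_lit 760) (nat_lit 53873080797) (nat_lit 836) (nat_lit 4223767301) (nat_lit 287) (nat_lit 5) (nat_lit 297) (nat_lit 5) (nat_lit 298) (nat_lit 5) (nat_lit 387) (nat_lit 380) (nat_lit 253))))) (XT.nd (nat_lit 312) (nat_lit 1216) (nat_lit 0) (XT.nd (nat_lit 156) (nat_lit 684) (nat_lit 0) (XT.nd (nat_lit 78) (nat_lit 380) (nat_lit 0) (XT.lf (nat_lit 0) (nat_lit 13384251996) (nat_lit 532) (nat_lit 77383540521) (nat_lit 76) (nat_lit 31042927703)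 (nat_lit 280) (nat_lit 5) (nat_lit 287) (nat_lit 5) (nat_lit 281) (nat_lit 5) (nat_lit 388) (nat_lit 380) (nat_lit 252)) (XT.lf (nat_lit 0) (nat_lit 30009590006) (nat_lit 380) (nat_lit 4650034137) (nat_lit 456) (nat_lit 92448810665) (nat_lit 275) (nat_lit 5) (nat_lit 280) (nat_lit 5) (nat_lit 281) (nat_lit 5) (nat_lit 389) (nat_lit 380) (nat_lit 251))) (XT.nd (nat_lit 78) (nat_lit 304) (nat_lit 0) (XT.lf (nat_lit 0) (nat_lit 15075022095) (nat_lit 380) (nat_lit 45546168519) (nat_lit 456) (nat_lit 72059567722) (nat_lit 270) (nat_lit 5) (nat_lit 275) (nat_lit 5) (nat_lit 276) (nat_lit 5) (nat_lit 390) (nat_lit 380) (nat_lit 250)) (XT.lf (nat_lit 0) (nat_lit 237663553) (nat_lit 304) (nat_lit 90961397767) (nat_lit 380) (nat_lit 47372837480) (nat_lit 266) (nat_lit 5) (nat_lit 270) (nat_lit 5) (nat_lit 271) (nat_lit 5) (nat_lit 391) (nat_lit 380) (nat_lit 249)))) (XT.nd (nat_lit 156) (nat_lit 836) (nat_lit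 0) (XT.nd (nat_lit 78) (nat_lit 380) (nat_lit 0) (XT.lf (nat_lit 0) (nat_lit 127087389547) (nat_lit 380) (nat_lit 13940813476) (nat_lit 76) (nat_lit 3762916085) (nat_lit 266) (nat_lit 5) (nat_lit 271) (nat_lit 5) (nat_lit 267) (nat_lit 5) (nat_lit 392) (nat_lit 380) (nat_lit 248)) (XT.lf (nat_lit 0) (nat_lit 17386926719) (nat_lit 380) (nat_lit 28815874251) (nat_lit 76) (nat_lit 105118534830) (nat_lit 261) (nat_lit 5) (nat_lit 266) (nat_lit 5) (nat_lit 262) (nat_lit 5) (nat_lit 393) (nat_lit 380) (nat_lit 247))) (XT.nd (nat_lit 78) (nat_lit 532) (nat_lit 0) (XT.lf (nat_lit 0) (nat_lit 57636749427) (nat_lit 380) (nat_lit 43779192973) (nat_lit 76) (nat_lit 56794907855) (nat_lit 257) (nat_lit 5) (nat_lit 262) (nat_lit 5) (nat_lit 258) (nat_lit 5) (nat_lit 394) (nat_lit 380) (nat_lit 246)) (XT.nd (nat_lit 78) (nat_lit 228) (nat_lit 0) (XT.lf (nat_lit 0) (nat_lit 104117311439) (nat_lit 380) (nat_lit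 58367959159) (nat_lit 76) (nat_lit 3015717593) (nat_lit 253) (nat_lit 5) (nat_lit 258) (nat_lit 5) (nat_lit 254) (nat_lit 5) (nat_lit 395) (nat_lit 380) (nat_lit 245)) (XT.lf (nat_lit 0) (nat_lit 99816836932) (nat_lit 228) (nat_lit 58542518814) (nat_lit 304) (nat_lit 14812829551) (nat_lit 250) (nat_lit 5) (nat_lit 253) (nat_lit 5) (nat_lit 254) (nat_lit 5) (nat_lit 396) (nat_lit 380) (nat_lit 244))))))))
noncomputable def xc196 : XT := (XT.nd (nat_lit 1248) (nat_lit 2128) (nat_lit 0) (XT.nd (nat_lit 624) (nat_lit 1292) (nat_lit 0) (XT.nd (nat_lit 312) (nat_lit 836) (nat_lit 0) (XT.nd (nat_lit 156) (nat_lit 532) (nat_lit 0) (XT.nd (nat_lit 78) (nat_lit 228) (nat_lit 0) (XT.lf (nat_lit 0) (nat_lit 37733450263) (nat_lit 380) (nat_lit 88429076656) (nat_lit 76) (nat_lit 55097578044) (nat_lit 245) (nat_lit 5) (nat_lit 250) (nat_lit 5) (nat_lit 246) (nat_lit 5) (nat_lit 397) (nat_lit 380) (nat_lit 243))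 (XT.lf (nat_lit 0) (nat_lit 86510976632) (nat_lit 228) (nat_lit 11096486004) (nat_lit 304) (nat_lit 92193303924) (nat_lit 242) (nat_lit 5) (nat_lit 245) (nat_lit 5) (nat_lit 246) (nat_lit 5) (nat_lit 398) (nat_lit 380) (nat_lit 242))) (XT.nd (nat_lit 78) (nat_lit 304) (nat_lit 0) (XT.lf (nat_lit 0) (nat_lit 80437938660) (nat_lit 228) (nat_lit 86421446893) (nat_lit 304) (nat_lit 31935896055) (nat_lit 239) (nat_lit 5) (nat_lit 242) (nat_lit 5) (nat_lit 243) (nat_lit 5) (nat_lit 399) (nat_lit 380) (nat_lit 241)) (XT.lf (nat_lit 0) (nat_lit 35913589526) (nat_lit 304) (nat_lit 133131450737) (nat_lit 76) (nat_lit 39246833571) (nat_lit 235) (nat_lit 5) (nat_lit 239) (nat_lit 5) (nat_lit 236) (nat_lit 5) (nat_lit 400) (nat_lit 380) (nat_lit 240)))) (XT.nd (nat_lit 156) (nat_lit 456) (nat_lit 0) (XT.nd (nat_lit 78) (nat_lit 152) (nat_lit 0) (XT.lf (nat_lit 0) (nat_lit 70156254777) (nat_lit 228) (nat_lit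 42578485644) (nat_lit 304) (nat_lit 105554146816) (nat_lit 232) (nat_lit 5) (nat_lit 235) (nat_lit 5) (nat_lit 236) (nat_lit 5) (nat_lit 401) (nat_lit 380) (nat_lit 239)) (XT.lf (nat_lit 0) (nat_lit 66100619659) (nat_lit 152) (nat_lit 134457327994) (nat_lit 228) (nat_lit 28284895846) (nat_lit 230) (nat_lit 5) (nat_lit 232) (nat_lit 5) (nat_lit 233) (nat_lit 5) (nat_lit 402) (nat_lit 380) (nat_lit 238))) (XT.nd (nat_lit 78) (nat_lit 152) (nat_lit 0) (XT.lf (nat_lit 0) (nat_lit 57807863219) (nat_lit 304) (nat_lit 177019025394) (nat_lit 76) (nat_lit 5150781881) (nat_lit 226) (nat_lit 5) (nat_lit 230) (nat_lit 5) (nat_lit 227) (nat_lit 5) (nat_lit 403) (nat_lit 380) (nat_lit 237)) (XT.lf (nat_lit 0) (nat_lit 59787866269) (nat_lit 152) (nat_lit 96104061000) (nat_lit 228) (nat_lit 95783429575) (nat_lit 224) (nat_lit 5) (nat_lit 226) (nat_lit 5) (nat_lit 227) (nat_lit 5) (nat_lit 404) (nat_lit 380)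 (nat_lit 236))))) (XT.nd (nat_lit 312) (nat_lit 532) (nat_lit 0) (XT.nd (nat_lit 156) (nat_lit 380) (nat_lit 0) (XT.nd (nat_lit 78) (nat_lit 152) (nat_lit 0) (XT.lf (nat_lit 0) (nat_lit 2562363638) (nat_lit 228) (nat_lit 205411063406) (nat_lit 76) (nat_lit 56088925180) (nat_lit 221) (nat_lit 5) (nat_lit 224) (nat_lit 5) (nat_lit 222) (nat_lit 5) (nat_lit 405) (nat_lit 380) (nat_lit 235)) (XT.lf (nat_lit 0) (nat_lit 57357043014) (nat_lit 152) (nat_lit 54020841806) (nat_lit 228) (nat_lit 165686018941) (nat_lit 219) (nat_lit 5) (nat_lit 221) (nat_lit 5) (nat_lit 222) (nat_lit 5) (nat_lit 406) (nat_lit 380) (nat_lit 234))) (XT.nd (nat_lit 78) (nat_lit 228) (nat_lit 0) (XT.lf (nat_lit 0) (nat_lit 57586461431) (nat_lit 152) (nat_lit 177600216875) (nat_lit 228) (nat_lit 55604499583) (nat_lit 217) (nat_lit 5) (nat_lit 219) (nat_lit 5) (nat_lit 220) (nat_lit 5) (nat_lit 407) (nat_lit 380) (nat_lit 233))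 (XT.lf (nat_lit 0) (nat_lit 59423312299) (nat_lit 152) (nat_lit 7562971861) (nat_lit 228) (nat_lit 238294537548) (nat_lit 214) (nat_lit 5) (nat_lit 216) (nat_lit 5) (nat_lit 217) (nat_lit 5) (nat_lit 408) (nat_lit 380) (nat_lit 232)))) (XT.nd (nat_lit 156) (nat_lit 228) (nat_lit 0) (XT.nd (nat_lit 78) (nat_lit 152) (nat_lit 0) (XT.lf (nat_lit 0) (nat_lit 61269935821) (nat_lit 152) (nat_lit 144026530927) (nat_lit 228) (nat_lit 115194580478) (nat_lit 212) (nat_lit 5) (nat_lit 214) (nat_lit 5) (nat_lit 215) (nat_lit 5) (nat_lit 409) (nat_lit 380) (nat_lit 231)) (XT.lf (nat_lit 0) (nat_lit 23393567591) (nat_lit 152) (nat_lit 270612506481) (nat_lit 76) (nat_lit 42587737055) (nat_lit 210) (nat_lit 5) (nat_lit 212) (nat_lit 5) (nat_lit 211) (nat_lit 5) (nat_lit 410) (nat_lit 380) (nat_lit 230))) (XT.nd (nat_lit 78) (nat_lit 76) (nat_lit 0) (XT.lf (nat_lit 0) (nat_lit 70508814349) (nat_lit 152) (nat_lit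 106696629969) (nat_lit 228) (nat_lit 176276303347) (nat_lit 208) (nat_lit 5) (nat_lit 210) (nat_lit 5) (nat_lit 211) (nat_lit 5) (nat_lit 411) (nat_lit 380) (nat_lit 229)) (XT.lf (nat_lit 0) (nat_lit 78025250736) (nat_lit 76) (nat_lit 272798641576) (nat_lit 152) (nat_lit 20521745757) (nat_lit 207) (nat_lit 5) (nat_lit 208) (nat_lit 5) (nat_lit 209) (nat_lit 4) (nat_lit 412) (nat_lit 380) (nat_lit 228)))))) (XT.nd (nat_lit 624) (nat_lit 912) (nat_lit 0) (XT.nd (nat_lit 312) (nat_lit 608) (nat_lit 0) (XT.nd (nat_lit 156) (nat_lit 304) (nat_lit 0) (XT.nd (nat_lit 78) (nat_lit 76) (nat_lit 0) (XT.lf (nat_lit 0) (nat_lit 86188222564) (nat_lit 152) (nat_lit 64932321445) (nat_lit 228) (nat_lit 238995076899) (nat_lit 204) (nat_lit 5) (nat_lit 206) (nat_lit 5) (nat_lit 207) (nat_lit 5) (nat_lit 413) (nat_lit 380) (nat_lit 227)) (XT.lf (nat_lit 0) (nat_lit 96569470311) (nat_lit 76) (nat_lit 248407269491)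 (nat_lit 152) (nat_lit 64933566224) (nat_lit 203) (nat_lit 5) (nat_lit 204) (nat_lit 5) (nat_lit 205) (nat_lit 4) (nat_lit 414) (nat_lit 380) (nat_lit 226))) (XT.nd (nat_lit 78) (nat_lit 76) (nat_lit 0) (XT.lf (nat_lit 0) (nat_lit 109331314778) (nat_lit 152) (nat_lit 17965683169) (nat_lit 228) (nat_lit 303486378364) (nat_lit 200) (nat_lit 5) (nat_lit 202) (nat_lit 5) (nat_lit 203) (nat_lit 5) (nat_lit 415) (nat_lit 380) (nat_lit 225)) (XT.lf (nat_lit 0) (nat_lit 123103204881) (nat_lit 76) (nat_lit 220632837877) (nat_lit 152) (nat_lit 108981775657) (nat_lit 199) (nat_lit 5) (nat_lit 200) (nat_lit 5) (nat_lit 201) (nat_lit 4) (nat_lit 416) (nat_lit 380) (nat_lit 224)))) (XT.nd (nat_lit 156) (nat_lit 304) (nat_lit 0) (XT.nd (nat_lit 78) (nat_lit 76) (nat_lit 0) (XT.lf (nat_lit 0) (nat_lit 106592708245) (nat_lit 228) (nat_lit 335347753710) (nat_lit 76) (nat_lit 33950404009) (nat_lit 196) (nat_lit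 5) (nat_lit 199) (nat_lit 5) (nat_lit 197) (nat_lit 4) (nat_lit 417) (nat_lit 380) (nat_lit 223)) (XT.lf (nat_lit 0) (nat_lit 158886081592) (nat_lit 76) (nat_lit 188796415595) (nat_lit 152) (nat_lit 152541553963) (nat_lit 195) (nat_lit 5) (nat_lit 196) (nat_lit 5) (nat_lit 197) (nat_lit 4) (nat_lit 418) (nat_lit 380) (nat_lit 222))) (XT.nd (nat_lit 78) (nat_lit 76) (nat_lit 0) (XT.lf (nat_lit 0) (nat_lit 89223896900) (nat_lit 228) (nat_lit 344579823242) (nat_lit 76) (nat_lit 92122575119) (nat_lit 192) (nat_lit 5) (nat_lit 195) (nat_lit 5) (nat_lit 193) (nat_lit 4) (nat_lit 419) (nat_lit 380) (nat_lit 221)) (XT.lf (nat_lit 0) (nat_lit 205366853751) (nat_lit 76) (nat_lit 152123807270) (nat_lit 152) (nat_lit 195443804311) (nat_lit 191) (nat_lit 5) (nat_lit 192) (nat_lit 5) (nat_lit 193) (nat_lit 4) (nat_lit 420) (nat_lit 380) (nat_lit 220))))) (XT.nd (nat_lit 312) (nat_lit 456) (nat_lit 0) (XT.nd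 (nat_lit 156) (nat_lit 228) (nat_lit 0) (XT.nd (nat_lit 78) (nat_lit 76) (nat_lit 0) (XT.lf (nat_lit 0) (nat_lit 75372256948) (nat_lit 152) (nat_lit 347857517791) (nat_lit 76) (nat_lit 158205638434) (nat_lit 189) (nat_lit 5) (nat_lit 191) (nat_lit 5) (nat_lit 190) (nat_lit 4) (nat_lit 421) (nat_lit 380) (nat_lit 219)) (XT.lf (nat_lit 0) (nat_lit 264208907210) (nat_lit 76) (nat_lit 109732413004) (nat_lit 152) (nat_lit 237468160992) (nat_lit 188) (nat_lit 5) (nat_lit 189) (nat_lit 5) (nat_lit 190) (nat_lit 4) (nat_lit 422) (nat_lit 380) (nat_lit 218))) (XT.nd (nat_lit 78) (nat_lit 76) (nat_lit 0) (XT.lf (nat_lit 0) (nat_lit 65583951313) (nat_lit 152) (nat_lit 344001416438) (nat_lit 76) (nat_lit 233422358594) (nat_lit 186) (nat_lit 5) (nat_lit 188) (nat_lit 5) (nat_lit 187) (nat_lit 4) (nat_lit 423) (nat_lit 380) (nat_lit 217)) (XT.lf (nat_lit 0) (nat_lit 337319085163) (nat_lit 76) (nat_lit 60616391959)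 (nat_lit 152) (nat_lit 278334959334) (nat_lit 185) (nat_lit 5) (nat_lit 186) (nat_lit 5) (nat_lit 187) (nat_lit 4) (nat_lit 424) (nat_lit 380) (nat_lit 216)))) (XT.nd (nat_lit 156) (nat_lit 228) (nat_lit 0) (XT.nd (nat_lit 78) (nat_lit 76) (nat_lit 0) (XT.lf (nat_lit 0) (nat_lit 60500827507) (nat_lit 152) (nat_lit 331638789219) (nat_lit 76) (nat_lit 319157170113) (nat_lit 183) (nat_lit 5) (nat_lit 185) (nat_lit 5) (nat_lit 184) (nat_lit 4) (nat_lit 425) (nat_lit 380) (nat_lit 215)) (XT.lf (nat_lit 0) (nat_lit 426880248316) (nat_lit 76) (nat_lit 3629916102) (nat_lit 152) (nat_lit 317696028013) (nat_lit 182) (nat_lit 5) (nat_lit 183) (nat_lit 5) (nat_lit 184) (nat_lit 4) (nat_lit 426) (nat_lit 380) (nat_lit 214))) (XT.nd (nat_lit 78) (nat_lit 76) (nat_lit 0) (XT.lf (nat_lit 0) (nat_lit 60873716493) (nat_lit 152) (nat_lit 309176199507) (nat_lit 76) (nat_lit 416977219969) (nat_lit 180) (nat_lit 5)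 (nat_lit 182) (nat_lit 5) (nat_lit 181) (nat_lit 4) (nat_lit 427) (nat_lit 380) (nat_lit 213)) (XT.lf (nat_lit 0) (nat_lit 473832608266) (nat_lit 152) (nat_lit 293568715551) (nat_lit 0) (nat_lit 60530320145) (nat_lit 179) (nat_lit 5) (nat_lit 181) (nat_lit 4) (nat_lit 179) (nat_lit 4) (nat_lit 428) (nat_lit 380) (nat_lit 212)))))))
noncomputable def xc197 : XT := (XT.nd (nat_lit 1248) (nat_lit 152) (nat_lit 0) (XT.nd (nat_lit 624) (nat_lit 988) (nat_lit 0) (XT.nd (nat_lit 312) (nat_lit 456) (nat_lit 0) (XT.nd (nat_lit 156) (nat_lit 228) (nat_lit 0) (XT.nd (nat_lit 78) (nat_lit 76) (nat_lit 0) (XT.lf (nat_lit 0) (nat_lit 67577524957) (nat_lit 152) (nat_lit 274768436215) (nat_lit 76) (nat_lit 528656041781) (nat_lit 177) (nat_lit 5) (nat_lit 179) (nat_lit 5) (nat_lit 178) (nat_lit 4) (nat_lit 429) (nat_lit 380) (nat_lit 211)) (XT.lf (nat_lit 0) (nat_lit 528514626520) (nat_lit 152) (nat_lit 252923239435)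 (nat_lit 0) (nat_lit 134893263532) (nat_lit 176) (nat_lit 5) (nat_lit 178) (nat_lit 4) (nat_lit 176) (nat_lit 4) (nat_lit 430) (nat_lit 380) (nat_lit 210))) (XT.nd (nat_lit 78) (nat_lit 76) (nat_lit 0) (XT.lf (nat_lit 0) (nat_lit 81628350499) (nat_lit 152) (nat_lit 226283305097) (nat_lit 76) (nat_lit 656200184928) (nat_lit 174) (nat_lit 5) (nat_lit 176) (nat_lit 5) (nat_lit 175) (nat_lit 4) (nat_lit 431) (nat_lit 380) (nat_lit 209)) (XT.lf (nat_lit 0) (nat_lit 596087776400) (nat_lit 152) (nat_lit 197046863774) (nat_lit 0) (nat_lit 221210176626) (nat_lit 173) (nat_lit 5) (nat_lit 175) (nat_lit 4) (nat_lit 173) (nat_lit 4) (nat_lit 432) (nat_lit 380) (nat_lit 208)))) (XT.nd (nat_lit 156) (nat_lit 228) (nat_lit 0) (XT.nd (nat_lit 78) (nat_lit 76) (nat_lit 0) (XT.lf (nat_lit 0) (nat_lit 104202877868) (nat_lit 152) (nat_lit 161261749650) (nat_lit 76) (nat_lit 801879160967) (nat_lit 171) (nat_lit 5)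 (nat_lit 173) (nat_lit 5) (nat_lit 172) (nat_lit 4) (nat_lit 433) (nat_lit 380) (nat_lit 207)) (XT.lf (nat_lit 0) (nat_lit 678366448328) (nat_lit 152) (nat_lit 123305296514) (nat_lit 0) (nat_lit 321340072022) (nat_lit 170) (nat_lit 5) (nat_lit 172) (nat_lit 4) (nat_lit 170) (nat_lit 4) (nat_lit 434) (nat_lit 380) (nat_lit 206))) (XT.nd (nat_lit 78) (nat_lit 76) (nat_lit 0) (XT.lf (nat_lit 0) (nat_lit 136660346620) (nat_lit 152) (nat_lit 76872706157) (nat_lit 76) (nat_lit 968259113449) (nat_lit 168) (nat_lit 5) (nat_lit 170) (nat_lit 5) (nat_lit 169) (nat_lit 4) (nat_lit 435) (nat_lit 380) (nat_lit 205)) (XT.lf (nat_lit 0) (nat_lit 777420649760) (nat_lit 152) (nat_lit 28667958110) (nat_lit 0) (nat_lit 437395455324) (nat_lit 167) (nat_lit 5) (nat_lit 169) (nat_lit 4) (nat_lit 167) (nat_lit 4) (nat_lit 436) (nat_lit 380) (nat_lit 204))))) (XT.nd (nat_lit 312) (nat_lit 456) (nat_lit 0) (XT.nd (nat_lit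 156) (nat_lit 228) (nat_lit 0) (XT.nd (nat_lit 78) (nat_lit 76) (nat_lit 0) (XT.lf (nat_lit 0) (nat_lit 31134474233) (nat_lit 76) (nat_lit 149919038779) (nat_lit 152) (nat_lit 1127592288267) (nat_lit 164) (nat_lit 5) (nat_lit 165) (nat_lit 5) (nat_lit 166) (nat_lit 4) (nat_lit 437) (nat_lit 380) (nat_lit 203)) (XT.lf (nat_lit 0) (nat_lit 93333544294) (nat_lit 76) (nat_lit 803732866759) (nat_lit 76) (nat_lit 479899287707) (nat_lit 163) (nat_lit 4) (nat_lit 164) (nat_lit 5) (nat_lit 164) (nat_lit 4) (nat_lit 438) (nat_lit 380) (nat_lit 202))) (XT.nd (nat_lit 78) (nat_lit 76) (nat_lit 0) (XT.lf (nat_lit 0) (nat_lit 168911529459) (nat_lit 76) (nat_lit 71451951253) (nat_lit 152) (nat_lit 1208827112002) (nat_lit 161) (nat_lit 5) (nat_lit 162) (nat_lit 5) (nat_lit 163) (nat_lit 4) (nat_lit 439) (nat_lit 380) (nat_lit 201)) (XT.lf (nat_lit 0) (nat_lit 245590941203) (nat_lit 76) (nat_lit 793860638328)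 (nat_lit 76) (nat_lit 485447656466) (nat_lit 160) (nat_lit 4) (nat_lit 161) (nat_lit 5) (nat_lit 161) (nat_lit 4) (nat_lit 440) (nat_lit 380) (nat_lit 200)))) (XT.nd (nat_lit 156) (nat_lit 228) (nat_lit 0) (XT.nd (nat_lit 78) (nat_lit 76) (nat_lit 0) (XT.lf (nat_lit 0) (nat_lit 315845746441) (nat_lit 152) (nat_lit 1266993277818) (nat_lit 0) (nat_lit 22119076091) (nat_lit 158) (nat_lit 5) (nat_lit 160) (nat_lit 4) (nat_lit 158) (nat_lit 4) (nat_lit 441) (nat_lit 380) (nat_lit 199)) (XT.lf (nat_lit 0) (nat_lit 431881912947) (nat_lit 76) (nat_lit 775359118106) (nat_lit 76) (nat_lit 481632428351) (nat_lit 157) (nat_lit 4) (nat_lit 158) (nat_lit 5) (nat_lit 158) (nat_lit 4) (nat_lit 442) (nat_lit 380) (nat_lit 198))) (XT.nd (nat_lit 78) (nat_lit 76) (nat_lit 0) (XT.lf (nat_lit 0) (nat_lit 410999043504) (nat_lit 152) (nat_lit 1235286391128) (nat_lit 0) (nat_lit 131259321863) (nat_lit 155) (nat_lit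 5) (nat_lit 157) (nat_lit 4) (nat_lit 155) (nat_lit 4) (nat_lit 443) (nat_lit 380) (nat_lit 197)) (XT.lf (nat_lit 0) (nat_lit 657613455669) (nat_lit 76) (nat_lit 746375090075) (nat_lit 76) (nat_lit 466635352590) (nat_lit 154) (nat_lit 4) (nat_lit 155) (nat_lit 5) (nat_lit 155) (nat_lit 4) (nat_lit 444) (nat_lit 380) (nat_lit 196)))))) (XT.nd (nat_lit 48672) (nat_lit 0) (nat_lit 7676) (XT.nd (nat_lit 48360) (nat_lit 0) (nat_lit 10792) (XT.nd (nat_lit 48204) (nat_lit 0) (nat_lit 10716) (XT.nd (nat_lit 48126) (nat_lit 0) (nat_lit 10640) (XT.lf (nat_lit 0) (nat_lit 527561556490) (nat_lit 152) (nat_lit 1180127365468) (nat_lit 0) (nat_lit 261142744913) (nat_lit 152) (nat_lit 5) (nat_lit 154) (nat_lit 4) (nat_lit 152) (nat_lit 4) (nat_lit 445) (nat_lit 380) (nat_lit 195)) (XT.lf (nat_lit 0) (nat_lit 22335340693) (nat_lit 836) (nat_lit 12633055895) (nat_lit 836) (nat_lit 12633055895) (nat_lit 292) (nat_lit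 3) (nat_lit 303) (nat_lit 3) (nat_lit 303) (nat_lit 5) (nat_lit 381) (nat_lit 381) (nat_lit 258))) (XT.nd (nat_lit 78) (nat_lit 0) (nat_lit 0) (XT.lf (nat_lit 0) (nat_lit 47372168376) (nat_lit 760) (nat_lit 46473040809) (nat_lit 836) (nat_lit 5120078995) (nat_lit 293) (nat_lit 5) (nat_lit 303) (nat_lit 5) (nat_lit 304) (nat_lit 5) (nat_lit 382) (nat_lit 381) (nat_lit 257)) (XT.lf (nat_lit 76) (nat_lit 34276787219) (nat_lit 0) (nat_lit 18173621179) (nat_lit 836) (nat_lit 50470221947) (nat_lit 294) (nat_lit 5) (nat_lit 293) (nat_lit 5) (nat_lit 304) (nat_lit 5) (nat_lit 383) (nat_lit 381) (nat_lit 256)))) (XT.nd (nat_lit 156) (nat_lit 0) (nat_lit 152) (XT.nd (nat_lit 78) (nat_lit 0) (nat_lit 76) (XT.lf (nat_lit 76) (nat_lit 15483595906) (nat_lit 0) (nat_lit 44507035505) (nat_lit 836) (nat_lit 47098982284) (nat_lit 295) (nat_lit 5) (nat_lit 294) (nat_lit 5) (nat_lit 305) (nat_lit 5) (nat_lit 384)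 (nat_lit 381) (nat_lit 255)) (XT.lf (nat_lit 0) (nat_lit 70236806095) (nat_lit 760) (nat_lit 3648543816) (nat_lit 836) (nat_lit 37601629109) (nat_lit 295) (nat_lit 5) (nat_lit 305) (nat_lit 5) (nat_lit 306) (nat_lit 5) (nat_lit 385) (nat_lit 381) (nat_lit 254))) (XT.nd (nat_lit 78) (nat_lit 0) (nat_lit 0) (XT.lf (nat_lit 0) (nat_lit 83670768448) (nat_lit 760) (nat_lit 22693067658) (nat_lit 836) (nat_lit 9753892782) (nat_lit 296) (nat_lit 5) (nat_lit 306) (nat_lit 5) (nat_lit 307) (nat_lit 5) (nat_lit 386) (nat_lit 381) (nat_lit 253)) (XT.lf (nat_lit 76) (nat_lit 78544598136) (nat_lit 0) (nat_lit 22170752750) (nat_lit 836) (nat_lit 20276792703) (nat_lit 297) (nat_lit 5) (nat_lit 296) (nat_lit 5) (nat_lit 307) (nat_lit 5) (nat_lit 387) (nat_lit 381) (nat_lit 252))))) (XT.nd (nat_lit 312) (nat_lit 1292) (nat_lit 0) (XT.nd (nat_lit 156) (nat_lit 760) (nat_lit 0) (XT.nd (nat_lit 78) (nat_lit 532)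 (nat_lit 0) (XT.lf (nat_lit 0) (nat_lit 63403522364) (nat_lit 760) (nat_lit 58184381201) (nat_lit 836) (nat_lit 4545387719) (nat_lit 287) (nat_lit 5) (nat_lit 297) (nat_lit 5) (nat_lit 298) (nat_lit 5) (nat_lit 388) (nat_lit 381) (nat_lit 251)) (XT.lf (nat_lit 0) (nat_lit 14469788674) (nat_lit 532) (nat_lit 83559530147) (nat_lit 76) (nat_lit 33525519190) (nat_lit 280) (nat_lit 5) (nat_lit 287) (nat_lit 5) (nat_lit 281) (nat_lit 5) (nat_lit 389) (nat_lit 381) (nat_lit 250))) (XT.nd (nat_lit 78) (nat_lit 380) (nat_lit 0) (XT.lf (nat_lit 0) (nat_lit 32424412255) (nat_lit 380) (nat_lit 5021901738) (nat_lit 456) (nat_lit 99830099604) (nat_lit 275) (nat_lit 5) (nat_lit 280) (nat_lit 5) (nat_lit 281) (nat_lit 5) (nat_lit 390) (nat_lit 381) (nat_lit 249)) (XT.lf (nat_lit 0) (nat_lit 16295131827) (nat_lit 380) (nat_lit 49188865068) (nat_lit 456) (nat_lit 77810566556) (nat_lit 270) (nat_lit 5) (nat_lit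 275) (nat_lit 5) (nat_lit 276) (nat_lit 5) (nat_lit 391) (nat_lit 381) (nat_lit 248)))) (XT.nd (nat_lit 156) (nat_lit 988) (nat_lit 0) (XT.nd (nat_lit 78) (nat_lit 0) (nat_lit 0) (XT.lf (nat_lit 0) (nat_lit 270783660) (nat_lit 304) (nat_lit 98236577072) (nat_lit 380) (nat_lit 51149671247) (nat_lit 266) (nat_lit 5) (nat_lit 270) (nat_lit 5) (nat_lit 271) (nat_lit 5) (nat_lit 392) (nat_lit 381) (nat_lit 247)) (XT.lf (nat_lit 0) (nat_lit 137265863633) (nat_lit 380) (nat_lit 15042468648) (nat_lit 76) (nat_lit 4065502210) (nat_lit 266) (nat_lit 5) (nat_lit 271) (nat_lit 5) (nat_lit 267) (nat_lit 5) (nat_lit 393) (nat_lit 381) (nat_lit 246))) (XT.nd (nat_lit 78) (nat_lit 608) (nat_lit 0) (XT.lf (nat_lit 0) (nat_lit 18788894078) (nat_lit 380) (nat_lit 31107761609) (nat_lit 76) (nat_lit 113529836316) (nat_lit 261) (nat_lit 5) (nat_lit 266) (nat_lit 5) (nat_lit 262) (nat_lit 5) (nat_lit 394) (nat_lit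 381) (nat_lit 245)) (XT.nd (nat_lit 78) (nat_lit 304) (nat_lit 0) (XT.lf (nat_lit 0) (nat_lit 62258124197) (nat_lit 380) (nat_lit 47268245083) (nat_lit 76) (nat_lit 61340827255) (nat_lit 257) (nat_lit 5) (nat_lit 262) (nat_lit 5) (nat_lit 258) (nat_lit 5) (nat_lit 395) (nat_lit 381) (nat_lit 244)) (XT.lf (nat_lit 0) (nat_lit 112456601029) (nat_lit 380) (nat_lit 63024241260) (nat_lit 76) (nat_lit 3259729724) (nat_lit 253) (nat_lit 5) (nat_lit 258) (nat_lit 5) (nat_lit 254) (nat_lit 5) (nat_lit 396) (nat_lit 381) (nat_lit 243))))))))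
noncomputable def xc198 : XT := (XT.nd (nat_lit 1248) (nat_lit 2204) (nat_lit 0) (XT.nd (nat_lit 624) (nat_lit 1368) (nat_lit 0) (XT.nd (nat_lit 312) (nat_lit 988) (nat_lit 0) (XT.nd (nat_lit 156) (nat_lit 456) (nat_lit 0) (XT.nd (nat_lit 78) (nat_lit 380) (nat_lit 0) (XT.lf (nat_lit 0) (nat_lit 107814766834) (nat_lit 228) (nat_lit 63222704821) (nat_lit 304) (nat_lit 15988020092) (nat_lit 250) (nat_lit 5) (nat_lit 253) (nat_lit 5) (nat_lit 254) (nat_lit 5) (nat_lit 397) (nat_lit 381) (nat_lit 242)) (XT.lf (nat_lit 0) (nat_lit 40761186630) (nat_lit 380) (nat_lit 95490667108) (nat_lit 76) (nat_lit 59508606605) (nat_lit 245) (nat_lit 5) (nat_lit 250) (nat_lit 5) (nat_lit 246) (nat_lit 5) (nat_lit 398) (nat_lit 381) (nat_lit 241))) (XT.nd (nat_lit 78) (nat_lit 228) (nat_lit 0) (XT.lf (nat_lit 0) (nat_lit 93444036966) (nat_lit 228) (nat_lit 11980602089) (nat_lit 304) (nat_lit 99559759860) (nat_lit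 242) (nat_lit 5) (nat_lit 245) (nat_lit 5) (nat_lit 246) (nat_lit 5) (nat_lit 399) (nat_lit 381) (nat_lit 240)) (XT.lf (nat_lit 0) (nat_lit 86884983055) (nat_lit 228) (nat_lit 93331336820) (nat_lit 304) (nat_lit 34482175088) (nat_lit 239) (nat_lit 5) (nat_lit 242) (nat_lit 5) (nat_lit 243) (nat_lit 5) (nat_lit 400) (nat_lit 381) (nat_lit 239)))) (XT.nd (nat_lit 156) (nat_lit 456) (nat_lit 0) (XT.nd (nat_lit 78) (nat_lit 228) (nat_lit 0) (XT.lf (nat_lit 0) (nat_lit 38794622009) (nat_lit 304) (nat_lit 143769882439) (nat_lit 76) (nat_lit 42390322026) (nat_lit 235) (nat_lit 5) (nat_lit 239) (nat_lit 5) (nat_lit 236) (nat_lit 5) (nat_lit 401) (nat_lit 381) (nat_lit 238)) (XT.lf (nat_lit 0) (nat_lit 75780314345) (nat_lit 228) (nat_lit 45980742561) (nat_lit 304) (nat_lit 113990564449) (nat_lit 232) (nat_lit 5) (nat_lit 235) (nat_lit 5) (nat_lit 236) (nat_lit 5) (nat_lit 402) (nat_lit 381) (nat_lit 237)))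 (XT.nd (nat_lit 78) (nat_lit 304) (nat_lit 0) (XT.lf (nat_lit 0) (nat_lit 71400026489) (nat_lit 152) (nat_lit 145209771373) (nat_lit 228) (nat_lit 30540112398) (nat_lit 230) (nat_lit 5) (nat_lit 232) (nat_lit 5) (nat_lit 233) (nat_lit 5) (nat_lit 403) (nat_lit 381) (nat_lit 236)) (XT.lf (nat_lit 0) (nat_lit 62439519540) (nat_lit 304) (nat_lit 191169168216) (nat_lit 76) (nat_lit 5566845015) (nat_lit 226) (nat_lit 5) (nat_lit 230) (nat_lit 5) (nat_lit 227) (nat_lit 5) (nat_lit 404) (nat_lit 381) (nat_lit 235))))) (XT.nd (nat_lit 312) (nat_lit 684) (nat_lit 0) (XT.nd (nat_lit 156) (nat_lit 304) (nat_lit 0) (XT.nd (nat_lit 78) (nat_lit 228) (nat_lit 0) (XT.lf (nat_lit 0) (nat_lit 64581780254) (nat_lit 152) (nat_lit 103788177863) (nat_lit 228) (nat_lit 103439093442) (nat_lit 224) (nat_lit 5) (nat_lit 226) (nat_lit 5) (nat_lit 227) (nat_lit 5) (nat_lit 405) (nat_lit 381) (nat_lit 234)) (XT.lf (nat_lit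 0) (nat_lit 2773867293) (nat_lit 228) (nat_lit 221833064947) (nat_lit 76) (nat_lit 60580082433) (nat_lit 221) (nat_lit 5) (nat_lit 224) (nat_lit 5) (nat_lit 222) (nat_lit 5) (nat_lit 406) (nat_lit 381) (nat_lit 233))) (XT.nd (nat_lit 78) (nat_lit 152) (nat_lit 0) (XT.lf (nat_lit 0) (nat_lit 61956017001) (nat_lit 152) (nat_lit 58338293145) (nat_lit 228) (nat_lit 178934396188) (nat_lit 219) (nat_lit 5) (nat_lit 221) (nat_lit 5) (nat_lit 222) (nat_lit 5) (nat_lit 407) (nat_lit 381) (nat_lit 232)) (XT.lf (nat_lit 0) (nat_lit 62203569765) (nat_lit 152) (nat_lit 191803998556) (nat_lit 228) (nat_lit 60046606011) (nat_lit 217) (nat_lit 5) (nat_lit 219) (nat_lit 5) (nat_lit 220) (nat_lit 5) (nat_lit 408) (nat_lit 381) (nat_lit 231)))) (XT.nd (nat_lit 156) (nat_lit 304) (nat_lit 0) (XT.nd (nat_lit 78) (nat_lit 152) (nat_lit 0) (XT.lf (nat_lit 0) (nat_lit 64187117250) (nat_lit 152) (nat_lit 8163829820)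 (nat_lit 228) (nat_lit 257352052365) (nat_lit 214) (nat_lit 5) (nat_lit 216) (nat_lit 5) (nat_lit 217) (nat_lit 5) (nat_lit 409) (nat_lit 381) (nat_lit 230)) (XT.lf (nat_lit 0) (nat_lit 66181251744) (nat_lit 152) (nat_lit 155544478038) (nat_lit 228) (nat_lit 124404323936) (nat_lit 212) (nat_lit 5) (nat_lit 214) (nat_lit 5) (nat_lit 215) (nat_lit 5) (nat_lit 410) (nat_lit 381) (nat_lit 229))) (XT.nd (nat_lit 78) (nat_lit 152) (nat_lit 0) (XT.lf (nat_lit 0) (nat_lit 25270484206) (nat_lit 152) (nat_lit 292251825948) (nat_lit 76) (nat_lit 45998734303) (nat_lit 210) (nat_lit 5) (nat_lit 212) (nat_lit 5) (nat_lit 211) (nat_lit 5) (nat_lit 411) (nat_lit 381) (nat_lit 228)) (XT.lf (nat_lit 0) (nat_lit 76158779822) (nat_lit 152) (nat_lit 115228273518) (nat_lit 228) (nat_lit 190372975465) (nat_lit 208) (nat_lit 5) (nat_lit 210) (nat_lit 5) (nat_lit 211) (nat_lit 5) (nat_lit 412) (nat_lit 381) (nat_lit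 227)))))) (XT.nd (nat_lit 624) (nat_lit 988) (nat_lit 0) (XT.nd (nat_lit 312) (nat_lit 608) (nat_lit 0) (XT.nd (nat_lit 156) (nat_lit 304) (nat_lit 0) (XT.nd (nat_lit 78) (nat_lit 228) (nat_lit 0) (XT.lf (nat_lit 0) (nat_lit 84276315075) (nat_lit 76) (nat_lit 294618479165) (nat_lit 152) (nat_lit 22158245348) (nat_lit 207) (nat_lit 5) (nat_lit 208) (nat_lit 5) (nat_lit 209) (nat_lit 4) (nat_lit 413) (nat_lit 381) (nat_lit 226)) (XT.lf (nat_lit 0) (nat_lit 93092092022) (nat_lit 152) (nat_lit 70122929706) (nat_lit 228) (nat_lit 258109607141) (nat_lit 204) (nat_lit 5) (nat_lit 206) (nat_lit 5) (nat_lit 207) (nat_lit 5) (nat_lit 414) (nat_lit 381) (nat_lit 225))) (XT.nd (nat_lit 78) (nat_lit 228) (nat_lit 0) (XT.lf (nat_lit 0) (nat_lit 104303628451) (nat_lit 76) (nat_lit 268275918424) (nat_lit 152) (nat_lit 70123350240) (nat_lit 203) (nat_lit 5) (nat_lit 204) (nat_lit 5) (nat_lit 205) (nat_lit 4)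 (nat_lit 415) (nat_lit 381) (nat_lit 224)) (XT.lf (nat_lit 0) (nat_lit 118086196761) (nat_lit 152) (nat_lit 19399084780) (nat_lit 228) (nat_lit 327760538688) (nat_lit 200) (nat_lit 5) (nat_lit 202) (nat_lit 5) (nat_lit 203) (nat_lit 5) (nat_lit 416) (nat_lit 381) (nat_lit 223)))) (XT.nd (nat_lit 156) (nat_lit 304) (nat_lit 0) (XT.nd (nat_lit 78) (nat_lit 228) (nat_lit 0) (XT.lf (nat_lit 0) (nat_lit 132959632843) (nat_lit 76) (nat_lit 238279665283) (nat_lit 152) (nat_lit 117695727166) (nat_lit 199) (nat_lit 5) (nat_lit 200) (nat_lit 5) (nat_lit 201) (nat_lit 4) (nat_lit 417) (nat_lit 381) (nat_lit 222)) (XT.lf (nat_lit 0) (nat_lit 115124421649) (nat_lit 228) (nat_lit 362167463140) (nat_lit 76) (nat_lit 36670035615) (nat_lit 196) (nat_lit 5) (nat_lit 199) (nat_lit 5) (nat_lit 197) (nat_lit 4) (nat_lit 418) (nat_lit 381) (nat_lit 221))) (XT.nd (nat_lit 78) (nat_lit 228) (nat_lit 0) (XT.lf (nat_lit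 0) (nat_lit 171604726498) (nat_lit 76) (nat_lit 203896470061) (nat_lit 152) (nat_lit 164740573702) (nat_lit 195) (nat_lit 5) (nat_lit 196) (nat_lit 5) (nat_lit 197) (nat_lit 4) (nat_lit 419) (nat_lit 381) (nat_lit 220)) (XT.lf (nat_lit 0) (nat_lit 96365840574) (nat_lit 228) (nat_lit 372138513148) (nat_lit 76) (nat_lit 99495843564) (nat_lit 192) (nat_lit 5) (nat_lit 195) (nat_lit 5) (nat_lit 193) (nat_lit 4) (nat_lit 420) (nat_lit 381) (nat_lit 219))))) (XT.nd (nat_lit 312) (nat_lit 532) (nat_lit 0) (XT.nd (nat_lit 156) (nat_lit 228) (nat_lit 0) (XT.nd (nat_lit 78) (nat_lit 152) (nat_lit 0) (XT.lf (nat_lit 0) (nat_lit 221803563547) (nat_lit 76) (nat_lit 164290198549) (nat_lit 152) (nat_lit 211075268053) (nat_lit 191) (nat_lit 5) (nat_lit 192) (nat_lit 5) (nat_lit 193) (nat_lit 4) (nat_lit 421) (nat_lit 381) (nat_lit 218)) (XT.lf (nat_lit 0) (nat_lit 81405824510) (nat_lit 152) (nat_lit 375678820846)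 (nat_lit 76) (nat_lit 170865411522) (nat_lit 189) (nat_lit 5) (nat_lit 191) (nat_lit 5) (nat_lit 190) (nat_lit 4) (nat_lit 422) (nat_lit 381) (nat_lit 217))) (XT.nd (nat_lit 78) (nat_lit 152) (nat_lit 0) (XT.lf (nat_lit 0) (nat_lit 285352600977) (nat_lit 76) (nat_lit 118507640336) (nat_lit 152) (nat_lit 256461817615) (nat_lit 188) (nat_lit 5) (nat_lit 189) (nat_lit 5) (nat_lit 190) (nat_lit 4) (nat_lit 423) (nat_lit 381) (nat_lit 216)) (XT.lf (nat_lit 0) (nat_lit 70834227334) (nat_lit 152) (nat_lit 371514611597) (nat_lit 76) (nat_lit 252099327526) (nat_lit 186) (nat_lit 5) (nat_lit 188) (nat_lit 5) (nat_lit 187) (nat_lit 4) (nat_lit 424) (nat_lit 381) (nat_lit 215)))) (XT.nd (nat_lit 156) (nat_lit 304) (nat_lit 0) (XT.nd (nat_lit 78) (nat_lit 152) (nat_lit 0) (XT.lf (nat_lit 0) (nat_lit 364311229479) (nat_lit 76) (nat_lit 65462485350) (nat_lit 152) (nat_lit 300598186567) (nat_lit 185) (nat_lit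 5) (nat_lit 186) (nat_lit 5) (nat_lit 187) (nat_lit 4) (nat_lit 425) (nat_lit 381) (nat_lit 214)) (XT.lf (nat_lit 0) (nat_lit 65344242577) (nat_lit 152) (nat_lit 358163337182) (nat_lit 76) (nat_lit 344692782584) (nat_lit 183) (nat_lit 5) (nat_lit 185) (nat_lit 5) (nat_lit 184) (nat_lit 4) (nat_lit 426) (nat_lit 381) (nat_lit 213))) (XT.nd (nat_lit 78) (nat_lit 228) (nat_lit 0) (XT.lf (nat_lit 0) (nat_lit 461036938475) (nat_lit 76) (nat_lit 3917237797) (nat_lit 152) (nat_lit 343108351617) (nat_lit 182) (nat_lit 5) (nat_lit 183) (nat_lit 5) (nat_lit 184) (nat_lit 4) (nat_lit 427) (nat_lit 381) (nat_lit 212)) (XT.nd (nat_lit 78) (nat_lit 76) (nat_lit 0) (XT.lf (nat_lit 0) (nat_lit 65746766136) (nat_lit 152) (nat_lit 333904086330) (nat_lit 76) (nat_lit 450338296764) (nat_lit 180) (nat_lit 5) (nat_lit 182) (nat_lit 5) (nat_lit 181) (nat_lit 4) (nat_lit 428) (nat_lit 381) (nat_lit 211)) (XT.lf (nat_lit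 0) (nat_lit 511742274185) (nat_lit 152) (nat_lit 317048168632) (nat_lit 0) (nat_lit 65375579799) (nat_lit 179) (nat_lit 5) (nat_lit 181) (nat_lit 4) (nat_lit 179) (nat_lit 4) (nat_lit 429) (nat_lit 381) (nat_lit 210))))))))
noncomputable def xc199 : XT := (XT.nd (nat_lit 49374) (nat_lit 0) (nat_lit 7296) (XT.nd (nat_lit 624) (nat_lit 988) (nat_lit 0) (XT.nd (nat_lit 312) (nat_lit 456) (nat_lit 0) (XT.nd (nat_lit 156) (nat_lit 228) (nat_lit 0) (XT.nd (nat_lit 78) (nat_lit 76) (nat_lit 0) (XT.lf (nat_lit 0) (nat_lit 72986695899) (nat_lit 152) (nat_lit 296744031455) (nat_lit 76) (nat_lit 570951287389) (nat_lit 177) (nat_lit 5) (nat_lit 179) (nat_lit 5) (nat_lit 178) (nat_lit 4) (nat_lit 430) (nat_lit 381) (nat_lit 209)) (XT.lf (nat_lit 0) (nat_lit 570798676991) (nat_lit 152) (nat_lit 273151376131) (nat_lit 0) (nat_lit 145687422706) (nat_lit 176) (nat_lit 5) (nat_lit 178) (nat_lit 4) (nat_lit 176)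 (nat_lit 4) (nat_lit 431) (nat_lit 381) (nat_lit 208))) (XT.nd (nat_lit 78) (nat_lit 76) (nat_lit 0) (XT.lf (nat_lit 0) (nat_lit 88161416112) (nat_lit 152) (nat_lit 244380403236) (nat_lit 76) (nat_lit 708698828539) (nat_lit 174) (nat_lit 5) (nat_lit 176) (nat_lit 5) (nat_lit 175) (nat_lit 4) (nat_lit 432) (nat_lit 381) (nat_lit 207)) (XT.lf (nat_lit 0) (nat_lit 643777513373) (nat_lit 152) (nat_lit 212805196225) (nat_lit 0) (nat_lit 238909556802) (nat_lit 173) (nat_lit 5) (nat_lit 175) (nat_lit 4) (nat_lit 173) (nat_lit 4) (nat_lit 433) (nat_lit 381) (nat_lit 206)))) (XT.nd (nat_lit 156) (nat_lit 228) (nat_lit 0) (XT.nd (nat_lit 78) (nat_lit 76) (nat_lit 0) (XT.lf (nat_lit 0) (nat_lit 112541745288) (nat_lit 152) (nat_lit 174157421174) (nat_lit 76) (nat_lit 866031993242) (nat_lit 171) (nat_lit 5) (nat_lit 173) (nat_lit 5) (nat_lit 172) (nat_lit 4) (nat_lit 434) (nat_lit 381) (nat_lit 205)) (XT.lf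 (nat_lit 0) (nat_lit 732638324046) (nat_lit 152) (nat_lit 133164594050) (nat_lit 0) (nat_lit 347049716125) (nat_lit 170) (nat_lit 5) (nat_lit 172) (nat_lit 4) (nat_lit 170) (nat_lit 4) (nat_lit 435) (nat_lit 381) (nat_lit 204))) (XT.nd (nat_lit 78) (nat_lit 76) (nat_lit 0) (XT.lf (nat_lit 0) (nat_lit 147595661249) (nat_lit 152) (nat_lit 83017537014) (nat_lit 76) (nat_lit 1045722216916) (nat_lit 168) (nat_lit 5) (nat_lit 170) (nat_lit 5) (nat_lit 169) (nat_lit 4) (nat_lit 436) (nat_lit 381) (nat_lit 203)) (XT.lf (nat_lit 0) (nat_lit 839616716226) (nat_lit 152) (nat_lit 30956544279) (nat_lit 0) (nat_lit 472389407020) (nat_lit 167) (nat_lit 5) (nat_lit 169) (nat_lit 4) (nat_lit 167) (nat_lit 4) (nat_lit 437) (nat_lit 381) (nat_lit 202))))) (XT.nd (nat_lit 312) (nat_lit 456) (nat_lit 0) (XT.nd (nat_lit 156) (nat_lit 228) (nat_lit 0) (XT.nd (nat_lit 78) (nat_lit 76) (nat_lit 0) (XT.lf (nat_lit 0)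 (nat_lit 33630105396) (nat_lit 76) (nat_lit 161910110652) (nat_lit 152) (nat_lit 1217797128234) (nat_lit 164) (nat_lit 5) (nat_lit 165) (nat_lit 5) (nat_lit 166) (nat_lit 4) (nat_lit 438) (nat_lit 381) (nat_lit 201)) (XT.lf (nat_lit 0) (nat_lit 100804968507) (nat_lit 76) (nat_lit 868029107469) (nat_lit 76) (nat_lit 518288761083) (nat_lit 163) (nat_lit 4) (nat_lit 164) (nat_lit 5) (nat_lit 164) (nat_lit 4) (nat_lit 439) (nat_lit 381) (nat_lit 200))) (XT.nd (nat_lit 78) (nat_lit 76) (nat_lit 0) (XT.lf (nat_lit 0) (nat_lit 182429062070) (nat_lit 76) (nat_lit 77165782593) (nat_lit 152) (nat_lit 1305530881193) (nat_lit 161) (nat_lit 5) (nat_lit 162) (nat_lit 5) (nat_lit 163) (nat_lit 4) (nat_lit 440) (nat_lit 381) (nat_lit 199)) (XT.lf (nat_lit 0) (nat_lit 265242700987) (nat_lit 76) (nat_lit 857367224728) (nat_lit 76) (nat_lit 524281138171) (nat_lit 160) (nat_lit 4) (nat_lit 161) (nat_lit 5) (nat_lit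 161) (nat_lit 4) (nat_lit 441) (nat_lit 381) (nat_lit 198)))) (XT.nd (nat_lit 156) (nat_lit 228) (nat_lit 0) (XT.nd (nat_lit 78) (nat_lit 76) (nat_lit 0) (XT.lf (nat_lit 0) (nat_lit 341115597735) (nat_lit 152) (nat_lit 1368348305636) (nat_lit 0) (nat_lit 23890735428) (nat_lit 158) (nat_lit 5) (nat_lit 160) (nat_lit 4) (nat_lit 158) (nat_lit 4) (nat_lit 442) (nat_lit 381) (nat_lit 197)) (XT.lf (nat_lit 0) (nat_lit 466436707677) (nat_lit 76) (nat_lit 837385701325) (nat_lit 76) (nat_lit 520160822381) (nat_lit 157) (nat_lit 4) (nat_lit 158) (nat_lit 5) (nat_lit 158) (nat_lit 4) (nat_lit 443) (nat_lit 381) (nat_lit 196))) (XT.nd (nat_lit 78) (nat_lit 76) (nat_lit 0) (XT.lf (nat_lit 0) (nat_lit 443881036038) (nat_lit 152) (nat_lit 1334105108484) (nat_lit 0) (nat_lit 141762089040) (nat_lit 155) (nat_lit 5) (nat_lit 157) (nat_lit 4) (nat_lit 155) (nat_lit 4) (nat_lit 444) (nat_lit 381) (nat_lit 195))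 (XT.lf (nat_lit 0) (nat_lit 710226543794) (nat_lit 76) (nat_lit 806083064034) (nat_lit 76) (nat_lit 503964103452) (nat_lit 154) (nat_lit 4) (nat_lit 155) (nat_lit 5) (nat_lit 155) (nat_lit 4) (nat_lit 445) (nat_lit 381) (nat_lit 194)))))) (XT.nd (nat_lit 624) (nat_lit 2812) (nat_lit 0) (XT.nd (nat_lit 312) (nat_lit 380) (nat_lit 0) (XT.nd (nat_lit 156) (nat_lit 0) (nat_lit 76) (XT.nd (nat_lit 78) (nat_lit 0) (nat_lit 76) (XT.lf (nat_lit 0) (nat_lit 24133072162) (nat_lit 836) (nat_lit 13637975655) (nat_lit 836) (nat_lit 13637975655) (nat_lit 292) (nat_lit 3) (nat_lit 303) (nat_lit 3) (nat_lit 303) (nat_lit 5) (nat_lit 382) (nat_lit 382) (nat_lit 256)) (XT.lf (nat_lit 0) (nat_lit 51182158873) (nat_lit 760) (nat_lit 50178767079) (nat_lit 836) (nat_lit 5520574431) (nat_lit 293) (nat_lit 5) (nat_lit 303) (nat_lit 5) (nat_lit 304) (nat_lit 5) (nat_lit 383) (nat_lit 382) (nat_lit 255))) (XT.nd (nat_lit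 78) (nat_lit 0) (nat_lit 76) (XT.lf (nat_lit 76) (nat_lit 37030520601) (nat_lit 0) (nat_lit 19634820896) (nat_lit 836) (nat_lit 54487994254) (nat_lit 294) (nat_lit 5) (nat_lit 293) (nat_lit 5) (nat_lit 304) (nat_lit 5) (nat_lit 384) (nat_lit 382) (nat_lit 254)) (XT.lf (nat_lit 76) (nat_lit 16734383400) (nat_lit 0) (nat_lit 48073082156) (nat_lit 836) (nat_lit 50848438052) (nat_lit 295) (nat_lit 5) (nat_lit 294) (nat_lit 5) (nat_lit 305) (nat_lit 5) (nat_lit 385) (nat_lit 382) (nat_lit 253)))) (XT.nd (nat_lit 156) (nat_lit 608) (nat_lit 0) (XT.nd (nat_lit 78) (nat_lit 0) (nat_lit 76) (XT.lf (nat_lit 0) (nat_lit 75871952449) (nat_lit 760) (nat_lit 3928330450) (nat_lit 836) (nat_lit 40604844350) (nat_lit 295) (nat_lit 5) (nat_lit 305) (nat_lit 5) (nat_lit 306) (nat_lit 5) (nat_lit 386) (nat_lit 382) (nat_lit 252)) (XT.lf (nat_lit 0) (nat_lit 90379555928) (nat_lit 760) (nat_lit 24496126414) (nat_lit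 836) (nat_lit 10530708557) (nat_lit 296) (nat_lit 5) (nat_lit 306) (nat_lit 5) (nat_lit 307) (nat_lit 5) (nat_lit 387) (nat_lit 382) (nat_lit 251))) (XT.nd (nat_lit 78) (nat_lit 684) (nat_lit 0) (XT.lf (nat_lit 76) (nat_lit 84840014334) (nat_lit 0) (nat_lit 23946755168) (nat_lit 836) (nat_lit 21884036047) (nat_lit 297) (nat_lit 5) (nat_lit 296) (nat_lit 5) (nat_lit 307) (nat_lit 5) (nat_lit 388) (nat_lit 382) (nat_lit 250)) (XT.lf (nat_lit 0) (nat_lit 68487851257) (nat_lit 760) (nat_lit 62840378216) (nat_lit 836) (nat_lit 4895060432) (nat_lit 287) (nat_lit 5) (nat_lit 297) (nat_lit 5) (nat_lit 298) (nat_lit 5) (nat_lit 389) (nat_lit 382) (nat_lit 249))))) (XT.nd (nat_lit 312) (nat_lit 1216) (nat_lit 0) (XT.nd (nat_lit 156) (nat_lit 684) (nat_lit 0) (XT.nd (nat_lit 78) (nat_lit 380) (nat_lit 0) (XT.lf (nat_lit 0) (nat_lit 15640057397) (nat_lit 532) (nat_lit 90231695153) (nat_lit 76) (nat_lit 36206838221)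 (nat_lit 280) (nat_lit 5) (nat_lit 287) (nat_lit 5) (nat_lit 281) (nat_lit 5) (nat_lit 390) (nat_lit 382) (nat_lit 248)) (XT.lf (nat_lit 0) (nat_lit 35030415174) (nat_lit 380) (nat_lit 5423538025) (nat_lit 456) (nat_lit 107803976781) (nat_lit 275) (nat_lit 5) (nat_lit 280) (nat_lit 5) (nat_lit 281) (nat_lit 5) (nat_lit 391) (nat_lit 382) (nat_lit 247))) (XT.nd (nat_lit 78) (nat_lit 304) (nat_lit 0) (XT.lf (nat_lit 0) (nat_lit 17610837678) (nat_lit 380) (nat_lit 53123119565) (nat_lit 456) (nat_lit 84023609254) (nat_lit 270) (nat_lit 5) (nat_lit 275) (nat_lit 5) (nat_lit 276) (nat_lit 5) (nat_lit 392) (nat_lit 382) (nat_lit 246)) (XT.lf (nat_lit 0) (nat_lit 304540851) (nat_lit 304) (nat_lit 106094017884) (nat_lit 380) (nat_lit 55230505345) (nat_lit 266) (nat_lit 5) (nat_lit 270) (nat_lit 5) (nat_lit 271) (nat_lit 5) (nat_lit 393) (nat_lit 382) (nat_lit 245)))) (XT.nd (nat_lit 156) (nat_lit 836)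 (nat_lit 0) (XT.nd (nat_lit 78) (nat_lit 380) (nat_lit 0) (XT.lf (nat_lit 0) (nat_lit 148256977479) (nat_lit 380) (nat_lit 16234197839) (nat_lit 76) (nat_lit 4392073695) (nat_lit 266) (nat_lit 5) (nat_lit 271) (nat_lit 5) (nat_lit 267) (nat_lit 5) (nat_lit 394) (nat_lit 382) (nat_lit 244)) (XT.lf (nat_lit 0) (nat_lit 20301447667) (nat_lit 380) (nat_lit 33584909129) (nat_lit 76) (nat_lit 122613782464) (nat_lit 261) (nat_lit 5) (nat_lit 266) (nat_lit 5) (nat_lit 262) (nat_lit 5) (nat_lit 395) (nat_lit 382) (nat_lit 243))) (XT.nd (nat_lit 78) (nat_lit 532) (nat_lit 0) (XT.lf (nat_lit 0) (nat_lit 67247720305) (nat_lit 380) (nat_lit 51038316377) (nat_lit 76) (nat_lit 66250088267) (nat_lit 257) (nat_lit 5) (nat_lit 262) (nat_lit 5) (nat_lit 258) (nat_lit 5) (nat_lit 396) (nat_lit 382) (nat_lit 242)) (XT.nd (nat_lit 78) (nat_lit 228) (nat_lit 0) (XT.lf (nat_lit 0) (nat_lit 121461620773) (nat_lit 380)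 (nat_lit 68054902585) (nat_lit 76) (nat_lit 3522869833) (nat_lit 253) (nat_lit 5) (nat_lit 258) (nat_lit 5) (nat_lit 254) (nat_lit 5) (nat_lit 397) (nat_lit 382) (nat_lit 241)) (XT.lf (nat_lit 0) (nat_lit 116450736030) (nat_lit 228) (nat_lit 68277764436) (nat_lit 304) (nat_lit 17258629067) (nat_lit 250) (nat_lit 5) (nat_lit 253) (nat_lit 5) (nat_lit 254) (nat_lit 5) (nat_lit 398) (nat_lit 382) (nat_lit 240))))))))
noncomputable def xc200 : XT := (XT.nd (nat_lit 1248) (nat_lit 2128) (nat_lit 0) (XT.nd (nat_lit 624) (nat_lit 1292) (nat_lit 0) (XT.nd (nat_lit 312) (nat_lit 836) (nat_lit 0) (XT.nd (nat_lit 156) (nat_lit 532) (nat_lit 0) (XT.nd (nat_lit 78) (nat_lit 228) (nat_lit 0) (XT.lf (nat_lit 0) (nat_lit 44029849346) (nat_lit 380) (nat_lit 103119001683) (nat_lit 76) (nat_lit 64272057751) (nat_lit 245) (nat_lit 5) (nat_lit 250) (nat_lit 5) (nat_lit 246) (nat_lit 5) (nat_lit 399) (nat_lit 382)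 (nat_lit 239)) (XT.lf (nat_lit 0) (nat_lit 100930004199) (nat_lit 228) (nat_lit 12935961440) (nat_lit 304) (nat_lit 107516817417) (nat_lit 242) (nat_lit 5) (nat_lit 245) (nat_lit 5) (nat_lit 246) (nat_lit 5) (nat_lit 400) (nat_lit 382) (nat_lit 238))) (XT.nd (nat_lit 78) (nat_lit 304) (nat_lit 0) (XT.lf (nat_lit 0) (nat_lit 93846077741) (nat_lit 228) (nat_lit 100794563738) (nat_lit 304) (nat_lit 37233382281) (nat_lit 239) (nat_lit 5) (nat_lit 242) (nat_lit 5) (nat_lit 243) (nat_lit 5) (nat_lit 401) (nat_lit 382) (nat_lit 237)) (XT.lf (nat_lit 0) (nat_lit 41905003602) (nat_lit 304) (nat_lit 155261112647) (nat_lit 76) (nat_lit 45784755752) (nat_lit 235) (nat_lit 5) (nat_lit 239) (nat_lit 5) (nat_lit 236) (nat_lit 5) (nat_lit 402) (nat_lit 382) (nat_lit 236)))) (XT.nd (nat_lit 156) (nat_lit 456) (nat_lit 0) (XT.nd (nat_lit 78) (nat_lit 152) (nat_lit 0) (XT.lf (nat_lit 0) (nat_lit 81852649630) (nat_lit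 228) (nat_lit 49655753804) (nat_lit 304) (nat_lit 123103024529) (nat_lit 232) (nat_lit 5) (nat_lit 235) (nat_lit 5) (nat_lit 236) (nat_lit 5) (nat_lit 403) (nat_lit 382) (nat_lit 235)) (XT.lf (nat_lit 0) (nat_lit 77121765625) (nat_lit 152) (nat_lit 156823001248) (nat_lit 228) (nat_lit 32976826949) (nat_lit 230) (nat_lit 5) (nat_lit 232) (nat_lit 5) (nat_lit 233) (nat_lit 5) (nat_lit 404) (nat_lit 382) (nat_lit 234))) (XT.nd (nat_lit 78) (nat_lit 152) (nat_lit 0) (XT.lf (nat_lit 0) (nat_lit 67440705849) (nat_lit 304) (nat_lit 206452945835) (nat_lit 76) (nat_lit 6015622471) (nat_lit 226) (nat_lit 5) (nat_lit 230) (nat_lit 5) (nat_lit 227) (nat_lit 5) (nat_lit 405) (nat_lit 382) (nat_lit 233)) (XT.lf (nat_lit 0) (nat_lit 69757654536) (nat_lit 152) (nat_lit 112087624395) (nat_lit 228) (nat_lit 111708210544) (nat_lit 224) (nat_lit 5) (nat_lit 226) (nat_lit 5) (nat_lit 227) (nat_lit 5) (nat_lit 406)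 (nat_lit 382) (nat_lit 232))))) (XT.nd (nat_lit 312) (nat_lit 532) (nat_lit 0) (XT.nd (nat_lit 156) (nat_lit 380) (nat_lit 0) (XT.nd (nat_lit 78) (nat_lit 152) (nat_lit 0) (XT.lf (nat_lit 0) (nat_lit 3001361864) (nat_lit 228) (nat_lit 239570379270) (nat_lit 76) (nat_lit 65429955454) (nat_lit 221) (nat_lit 5) (nat_lit 224) (nat_lit 5) (nat_lit 222) (nat_lit 5) (nat_lit 407) (nat_lit 382) (nat_lit 231)) (XT.lf (nat_lit 0) (nat_lit 66921423726) (nat_lit 152) (nat_lit 63001742052) (nat_lit 228) (nat_lit 193243571522) (nat_lit 219) (nat_lit 5) (nat_lit 221) (nat_lit 5) (nat_lit 222) (nat_lit 5) (nat_lit 408) (nat_lit 382) (nat_lit 230))) (XT.nd (nat_lit 78) (nat_lit 228) (nat_lit 0) (XT.lf (nat_lit 0) (nat_lit 67188592846) (nat_lit 152) (nat_lit 207144687037) (nat_lit 228) (nat_lit 64844973091) (nat_lit 217) (nat_lit 5) (nat_lit 219) (nat_lit 5) (nat_lit 220) (nat_lit 5) (nat_lit 409) (nat_lit 382)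 (nat_lit 229)) (XT.lf (nat_lit 0) (nat_lit 69330608550) (nat_lit 152) (nat_lit 8813352710) (nat_lit 228) (nat_lit 277935031210) (nat_lit 214) (nat_lit 5) (nat_lit 216) (nat_lit 5) (nat_lit 217) (nat_lit 5) (nat_lit 410) (nat_lit 382) (nat_lit 228)))) (XT.nd (nat_lit 156) (nat_lit 228) (nat_lit 0) (XT.nd (nat_lit 78) (nat_lit 152) (nat_lit 0) (XT.lf (nat_lit 0) (nat_lit 71484086125) (nat_lit 152) (nat_lit 167984456580) (nat_lit 228) (nat_lit 134351677585) (nat_lit 212) (nat_lit 5) (nat_lit 214) (nat_lit 5) (nat_lit 215) (nat_lit 5) (nat_lit 411) (nat_lit 382) (nat_lit 227)) (XT.lf (nat_lit 0) (nat_lit 27296779328) (nat_lit 152) (nat_lit 315623672083) (nat_lit 76) (nat_lit 49682043784) (nat_lit 210) (nat_lit 5) (nat_lit 212) (nat_lit 5) (nat_lit 211) (nat_lit 5) (nat_lit 412) (nat_lit 382) (nat_lit 226))) (XT.nd (nat_lit 78) (nat_lit 76) (nat_lit 0) (XT.lf (nat_lit 0) (nat_lit 82259421444) (nat_lit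 152) (nat_lit 124443031585) (nat_lit 228) (nat_lit 205598156309) (nat_lit 208) (nat_lit 5) (nat_lit 210) (nat_lit 5) (nat_lit 211) (nat_lit 5) (nat_lit 413) (nat_lit 382) (nat_lit 225)) (XT.lf (nat_lit 0) (nat_lit 91026174294) (nat_lit 76) (nat_lit 318184482071) (nat_lit 152) (nat_lit 23926412461) (nat_lit 207) (nat_lit 5) (nat_lit 208) (nat_lit 5) (nat_lit 209) (nat_lit 4) (nat_lit 414) (nat_lit 382) (nat_lit 224)))))) (XT.nd (nat_lit 624) (nat_lit 912) (nat_lit 0) (XT.nd (nat_lit 312) (nat_lit 608) (nat_lit 0) (XT.nd (nat_lit 156) (nat_lit 304) (nat_lit 0) (XT.nd (nat_lit 78) (nat_lit 76) (nat_lit 0) (XT.lf (nat_lit 0) (nat_lit 100547013956) (nat_lit 152) (nat_lit 75729354057) (nat_lit 228) (nat_lit 278754023938) (nat_lit 204) (nat_lit 5) (nat_lit 206) (nat_lit 5) (nat_lit 207) (nat_lit 5) (nat_lit 415) (nat_lit 382) (nat_lit 223)) (XT.lf (nat_lit 0) (nat_lit 112655292282) (nat_lit 76) (nat_lit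 289734620305) (nat_lit 152) (nat_lit 75729016200) (nat_lit 203) (nat_lit 5) (nat_lit 204) (nat_lit 5) (nat_lit 205) (nat_lit 4) (nat_lit 416) (nat_lit 382) (nat_lit 222))) (XT.nd (nat_lit 78) (nat_lit 76) (nat_lit 0) (XT.lf (nat_lit 0) (nat_lit 127540274258) (nat_lit 152) (nat_lit 20947708199) (nat_lit 228) (nat_lit 353977309469) (nat_lit 200) (nat_lit 5) (nat_lit 202) (nat_lit 5) (nat_lit 203) (nat_lit 5) (nat_lit 417) (nat_lit 382) (nat_lit 221)) (XT.lf (nat_lit 0) (nat_lit 143603409275) (nat_lit 76) (nat_lit 257338780940) (nat_lit 152) (nat_lit 127107449687) (nat_lit 199) (nat_lit 5) (nat_lit 200) (nat_lit 5) (nat_lit 201) (nat_lit 4) (nat_lit 418) (nat_lit 382) (nat_lit 220)))) (XT.nd (nat_lit 156) (nat_lit 304) (nat_lit 0) (XT.nd (nat_lit 78) (nat_lit 76) (nat_lit 0) (XT.lf (nat_lit 0) (nat_lit 124338059148) (nat_lit 228) (nat_lit 391133906431) (nat_lit 76) (nat_lit 39606724270) (nat_lit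 196) (nat_lit 5) (nat_lit 199) (nat_lit 5) (nat_lit 197) (nat_lit 4) (nat_lit 419) (nat_lit 382) (nat_lit 219)) (XT.lf (nat_lit 0) (nat_lit 185339756177) (nat_lit 76) (nat_lit 220205050852) (nat_lit 152) (nat_lit 177916129117) (nat_lit 195) (nat_lit 5) (nat_lit 196) (nat_lit 5) (nat_lit 197) (nat_lit 4) (nat_lit 420) (nat_lit 382) (nat_lit 218))) (XT.nd (nat_lit 78) (nat_lit 76) (nat_lit 0) (XT.lf (nat_lit 0) (nat_lit 104078564542) (nat_lit 228) (nat_lit 401902996161) (nat_lit 76) (nat_lit 107458479530) (nat_lit 192) (nat_lit 5) (nat_lit 195) (nat_lit 5) (nat_lit 193) (nat_lit 4) (nat_lit 421) (nat_lit 382) (nat_lit 217)) (XT.lf (nat_lit 0) (nat_lit 239554159927) (nat_lit 76) (nat_lit 177430402343) (nat_lit 152) (nat_lit 227957825331) (nat_lit 191) (nat_lit 5) (nat_lit 192) (nat_lit 5) (nat_lit 193) (nat_lit 4) (nat_lit 422) (nat_lit 382) (nat_lit 216))))) (XT.nd (nat_lit 312) (nat_lit 456) (nat_lit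 0) (XT.nd (nat_lit 156) (nat_lit 228) (nat_lit 0) (XT.nd (nat_lit 78) (nat_lit 76) (nat_lit 0) (XT.lf (nat_lit 0) (nat_lit 87921537218) (nat_lit 152) (nat_lit 405726869338) (nat_lit 76) (nat_lit 184537492535) (nat_lit 189) (nat_lit 5) (nat_lit 191) (nat_lit 5) (nat_lit 190) (nat_lit 4) (nat_lit 423) (nat_lit 382) (nat_lit 215)) (XT.lf (nat_lit 0) (nat_lit 308186794301) (nat_lit 76) (nat_lit 127985366010) (nat_lit 152) (nat_lit 276975508346) (nat_lit 188) (nat_lit 5) (nat_lit 189) (nat_lit 5) (nat_lit 190) (nat_lit 4) (nat_lit 424) (nat_lit 382) (nat_lit 214))) (XT.nd (nat_lit 78) (nat_lit 76) (nat_lit 0) (XT.lf (nat_lit 0) (nat_lit 76504017576) (nat_lit 152) (nat_lit 401229849320) (nat_lit 76) (nat_lit 272270000275) (nat_lit 186) (nat_lit 5) (nat_lit 188) (nat_lit 5) (nat_lit 187) (nat_lit 4) (nat_lit 425) (nat_lit 382) (nat_lit 213)) (XT.lf (nat_lit 0) (nat_lit 393461801279) (nat_lit 76) (nat_lit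 70696725292) (nat_lit 152) (nat_lit 324642981209) (nat_lit 185) (nat_lit 5) (nat_lit 186) (nat_lit 5) (nat_lit 187) (nat_lit 4) (nat_lit 426) (nat_lit 382) (nat_lit 212)))) (XT.nd (nat_lit 156) (nat_lit 228) (nat_lit 0) (XT.nd (nat_lit 78) (nat_lit 76) (nat_lit 0) (XT.lf (nat_lit 0) (nat_lit 70574653099) (nat_lit 152) (nat_lit 386810784151) (nat_lit 76) (nat_lit 372270810525) (nat_lit 183) (nat_lit 5) (nat_lit 185) (nat_lit 5) (nat_lit 184) (nat_lit 4) (nat_lit 427) (nat_lit 382) (nat_lit 211)) (XT.lf (nat_lit 0) (nat_lit 497925269320) (nat_lit 76) (nat_lit 4227983426) (nat_lit 152) (nat_lit 370554140257) (nat_lit 182) (nat_lit 5) (nat_lit 183) (nat_lit 5) (nat_lit 184) (nat_lit 4) (nat_lit 428) (nat_lit 382) (nat_lit 210))) (XT.nd (nat_lit 78) (nat_lit 76) (nat_lit 0) (XT.lf (nat_lit 0) (nat_lit 71009210036) (nat_lit 152) (nat_lit 360611089902) (nat_lit 76) (nat_lit 486367846101) (nat_lit 180)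 (nat_lit 5) (nat_lit 182) (nat_lit 5) (nat_lit 181) (nat_lit 4) (nat_lit 429) (nat_lit 382) (nat_lit 209)) (XT.lf (nat_lit 0) (nat_lit 552684277225) (nat_lit 152) (nat_lit 342406840227) (nat_lit 0) (nat_lit 70608055918) (nat_lit 179) (nat_lit 5) (nat_lit 181) (nat_lit 4) (nat_lit 179) (nat_lit 4) (nat_lit 430) (nat_lit 382) (nat_lit 208)))))))
noncomputable def xc201 : XT := (XT.nd (nat_lit 49452) (nat_lit 0) (nat_lit 6840) (XT.nd (nat_lit 624) (nat_lit 912) (nat_lit 0) (XT.nd (nat_lit 312) (nat_lit 456) (nat_lit 0) (XT.nd (nat_lit 156) (nat_lit 228) (nat_lit 0) (XT.nd (nat_lit 78) (nat_lit 76) (nat_lit 0) (XT.lf (nat_lit 0) (nat_lit 78828176964) (nat_lit 152) (nat_lit 320478513112) (nat_lit 76) (nat_lit 616629758577) (nat_lit 177) (nat_lit 5) (nat_lit 179) (nat_lit 5) (nat_lit 178) (nat_lit 4) (nat_lit 431) (nat_lit 382) (nat_lit 207)) (XT.lf (nat_lit 0) (nat_lit 616465040586) (nat_lit 152)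 (nat_lit 294998580135) (nat_lit 0) (nat_lit 157344729702) (nat_lit 176) (nat_lit 5) (nat_lit 178) (nat_lit 4) (nat_lit 176) (nat_lit 4) (nat_lit 432) (nat_lit 382) (nat_lit 206))) (XT.nd (nat_lit 78) (nat_lit 76) (nat_lit 0) (XT.lf (nat_lit 0) (nat_lit 95216727869) (nat_lit 152) (nat_lit 263926063317) (nat_lit 76) (nat_lit 765396988608) (nat_lit 174) (nat_lit 5) (nat_lit 176) (nat_lit 5) (nat_lit 175) (nat_lit 4) (nat_lit 433) (nat_lit 382) (nat_lit 205)) (XT.lf (nat_lit 0) (nat_lit 695282042000) (nat_lit 152) (nat_lit 229824968018) (nat_lit 0) (nat_lit 258024521318) (nat_lit 173) (nat_lit 5) (nat_lit 175) (nat_lit 4) (nat_lit 173) (nat_lit 4) (nat_lit 434) (nat_lit 382) (nat_lit 204)))) (XT.nd (nat_lit 156) (nat_lit 228) (nat_lit 0) (XT.nd (nat_lit 78) (nat_lit 76) (nat_lit 0) (XT.lf (nat_lit 0) (nat_lit 121547345876) (nat_lit 152) (nat_lit 188085498024) (nat_lit 76) (nat_lit 935316695533) (nat_lit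 171) (nat_lit 5) (nat_lit 173) (nat_lit 5) (nat_lit 172) (nat_lit 4) (nat_lit 435) (nat_lit 382) (nat_lit 203)) (XT.lf (nat_lit 0) (nat_lit 791251584629) (nat_lit 152) (nat_lit 143813366697) (nat_lit 0) (nat_lit 374815783900) (nat_lit 170) (nat_lit 5) (nat_lit 172) (nat_lit 4) (nat_lit 170) (nat_lit 4) (nat_lit 436) (nat_lit 382) (nat_lit 202))) (XT.nd (nat_lit 78) (nat_lit 76) (nat_lit 0) (XT.lf (nat_lit 0) (nat_lit 159405446265) (nat_lit 152) (nat_lit 89654665597) (nat_lit 76) (nat_lit 1129382029926) (nat_lit 168) (nat_lit 5) (nat_lit 170) (nat_lit 5) (nat_lit 169) (nat_lit 4) (nat_lit 437) (nat_lit 382) (nat_lit 201)) (XT.lf (nat_lit 0) (nat_lit 906788123556) (nat_lit 152) (nat_lit 33428909316) (nat_lit 0) (nat_lit 510182544553) (nat_lit 167) (nat_lit 5) (nat_lit 169) (nat_lit 4) (nat_lit 167) (nat_lit 4) (nat_lit 438) (nat_lit 382) (nat_lit 200))))) (XT.nd (nat_lit 312) (nat_lit 380) (nat_lit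 0) (XT.nd (nat_lit 156) (nat_lit 228) (nat_lit 0) (XT.nd (nat_lit 78) (nat_lit 76) (nat_lit 0) (XT.lf (nat_lit 0) (nat_lit 36324691831) (nat_lit 76) (nat_lit 174860817970) (nat_lit 152) (nat_lit 1315218718199) (nat_lit 164) (nat_lit 5) (nat_lit 165) (nat_lit 5) (nat_lit 166) (nat_lit 4) (nat_lit 439) (nat_lit 382) (nat_lit 199)) (XT.lf (nat_lit 0) (nat_lit 108873430347) (nat_lit 76) (nat_lit 937469388201) (nat_lit 76) (nat_lit 559749744651) (nat_lit 163) (nat_lit 4) (nat_lit 164) (nat_lit 5) (nat_lit 164) (nat_lit 4) (nat_lit 440) (nat_lit 382) (nat_lit 198))) (XT.nd (nat_lit 78) (nat_lit 76) (nat_lit 0) (XT.lf (nat_lit 0) (nat_lit 197027339585) (nat_lit 76) (nat_lit 83337052094) (nat_lit 152) (nat_lit 1409971294273) (nat_lit 161) (nat_lit 5) (nat_lit 162) (nat_lit 5) (nat_lit 163) (nat_lit 4) (nat_lit 441) (nat_lit 382) (nat_lit 197)) (XT.lf (nat_lit 0) (nat_lit 286465961792) (nat_lit 76) (nat_lit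 925954661119) (nat_lit 76) (nat_lit 566221630928) (nat_lit 160) (nat_lit 4) (nat_lit 161) (nat_lit 5) (nat_lit 161) (nat_lit 4) (nat_lit 442) (nat_lit 382) (nat_lit 196)))) (XT.nd (nat_lit 156) (nat_lit 152) (nat_lit 0) (XT.nd (nat_lit 78) (nat_lit 76) (nat_lit 0) (XT.lf (nat_lit 0) (nat_lit 368406724480) (nat_lit 152) (nat_lit 1477812368297) (nat_lit 0) (nat_lit 25803823180) (nat_lit 158) (nat_lit 5) (nat_lit 160) (nat_lit 4) (nat_lit 158) (nat_lit 4) (nat_lit 443) (nat_lit 382) (nat_lit 195)) (XT.lf (nat_lit 0) (nat_lit 503755280859) (nat_lit 76) (nat_lit 904374717386) (nat_lit 76) (nat_lit 561771801822) (nat_lit 157) (nat_lit 4) (nat_lit 158) (nat_lit 5) (nat_lit 158) (nat_lit 4) (nat_lit 444) (nat_lit 382) (nat_lit 194))) (XT.nd (nat_lit 48282) (nat_lit 0) (nat_lit 10412) (XT.lf (nat_lit 0) (nat_lit 479393292802) (nat_lit 152) (nat_lit 1440829921540) (nat_lit 0) (nat_lit 153104789211) (nat_lit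 155) (nat_lit 5) (nat_lit 157) (nat_lit 4) (nat_lit 155) (nat_lit 4) (nat_lit 445) (nat_lit 382) (nat_lit 193)) (XT.lf (nat_lit 0) (nat_lit 26073066540) (nat_lit 836) (nat_lit 14724105690) (nat_lit 836) (nat_lit 14724105690) (nat_lit 292) (nat_lit 3) (nat_lit 303) (nat_lit 3) (nat_lit 303) (nat_lit 5) (nat_lit 383) (nat_lit 383) (nat_lit 254)))))) (XT.nd (nat_lit 624) (nat_lit 2660) (nat_lit 0) (XT.nd (nat_lit 312) (nat_lit 988) (nat_lit 0) (XT.nd (nat_lit 156) (nat_lit 0) (nat_lit 76) (XT.nd (nat_lit 78) (nat_lit 0) (nat_lit 0) (XT.lf (nat_lit 0) (nat_lit 55294064424) (nat_lit 760) (nat_lit 54182680076) (nat_lit 836) (nat_lit 5954409272) (nat_lit 293) (nat_lit 5) (nat_lit 303) (nat_lit 5) (nat_lit 304) (nat_lit 5) (nat_lit 384) (nat_lit 383) (nat_lit 253)) (XT.lf (nat_lit 76) (nat_lit 40002899153) (nat_lit 0) (nat_lit 21211873735) (nat_lit 836) (nat_lit 58830019521) (nat_lit 294) (nat_lit 5)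 (nat_lit 293) (nat_lit 5) (nat_lit 304) (nat_lit 5) (nat_lit 385) (nat_lit 383) (nat_lit 252))) (XT.nd (nat_lit 78) (nat_lit 0) (nat_lit 76) (XT.lf (nat_lit 76) (nat_lit 18083507719) (nat_lit 0) (nat_lit 51923630212) (nat_lit 836) (nat_lit 54900484210) (nat_lit 295) (nat_lit 5) (nat_lit 294) (nat_lit 5) (nat_lit 305) (nat_lit 5) (nat_lit 386) (nat_lit 383) (nat_lit 251)) (XT.lf (nat_lit 0) (nat_lit 81955599133) (nat_lit 760) (nat_lit 4232225769) (nat_lit 836) (nat_lit 43849018003) (nat_lit 295) (nat_lit 5) (nat_lit 305) (nat_lit 5) (nat_lit 306) (nat_lit 5) (nat_lit 387) (nat_lit 383) (nat_lit 250)))) (XT.nd (nat_lit 156) (nat_lit 1216) (nat_lit 0) (XT.nd (nat_lit 78) (nat_lit 0) (nat_lit 0) (XT.lf (nat_lit 0) (nat_lit 97622888512) (nat_lit 760) (nat_lit 26445196965) (nat_lit 836) (nat_lit 11370168287) (nat_lit 296) (nat_lit 5) (nat_lit 306) (nat_lit 5) (nat_lit 307) (nat_lit 5) (nat_lit 388)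 (nat_lit 383) (nat_lit 249)) (XT.lf (nat_lit 76) (nat_lit 91637373529) (nat_lit 0) (nat_lit 25864503638) (nat_lit 836) (nat_lit 23621984520) (nat_lit 297) (nat_lit 5) (nat_lit 296) (nat_lit 5) (nat_lit 307) (nat_lit 5) (nat_lit 389) (nat_lit 383) (nat_lit 248))) (XT.nd (nat_lit 78) (nat_lit 532) (nat_lit 0) (XT.lf (nat_lit 0) (nat_lit 73977207807) (nat_lit 760) (nat_lit 67868677163) (nat_lit 836) (nat_lit 5274698271) (nat_lit 287) (nat_lit 5) (nat_lit 297) (nat_lit 5) (nat_lit 298) (nat_lit 5) (nat_lit 390) (nat_lit 383) (nat_lit 247)) (XT.lf (nat_lit 0) (nat_lit 16902137872) (nat_lit 532) (nat_lit 97439430519) (nat_lit 76) (nat_lit 39102765848) (nat_lit 280) (nat_lit 5) (nat_lit 287) (nat_lit 5) (nat_lit 281) (nat_lit 5) (nat_lit 391) (nat_lit 383) (nat_lit 246))))) (XT.nd (nat_lit 312) (nat_lit 1596) (nat_lit 0) (XT.nd (nat_lit 156) (nat_lit 304) (nat_lit 0) (XT.nd (nat_lit 78) (nat_lit 380)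 (nat_lit 0) (XT.lf (nat_lit 0) (nat_lit 37843179268) (nat_lit 380) (nat_lit 5857321743) (nat_lit 456) (nat_lit 116417551790) (nat_lit 275) (nat_lit 5) (nat_lit 280) (nat_lit 5) (nat_lit 281) (nat_lit 5) (nat_lit 392) (nat_lit 383) (nat_lit 245)) (XT.lf (nat_lit 0) (nat_lit 19030074467) (nat_lit 380) (nat_lit 57372236356) (nat_lit 456) (nat_lit 90735379145) (nat_lit 270) (nat_lit 5) (nat_lit 275) (nat_lit 5) (nat_lit 276) (nat_lit 5) (nat_lit 393) (nat_lit 383) (nat_lit 244))) (XT.nd (nat_lit 78) (nat_lit 0) (nat_lit 0) (XT.lf (nat_lit 0) (nat_lit 339273202) (nat_lit 304) (nat_lit 114580265864) (nat_lit 380) (nat_lit 59639395360) (nat_lit 266) (nat_lit 5) (nat_lit 270) (nat_lit 5) (nat_lit 271) (nat_lit 5) (nat_lit 394) (nat_lit 383) (nat_lit 243)) (XT.lf (nat_lit 0) (nat_lit 160125975967) (nat_lit 380) (nat_lit 17522929979) (nat_lit 76) (nat_lit 4744580973) (nat_lit 266) (nat_lit 5) (nat_lit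 271) (nat_lit 5) (nat_lit 267) (nat_lit 5) (nat_lit 395) (nat_lit 383) (nat_lit 242)))) (XT.nd (nat_lit 156) (nat_lit 912) (nat_lit 0) (XT.nd (nat_lit 78) (nat_lit 304) (nat_lit 0) (XT.lf (nat_lit 0) (nat_lit 21933658527) (nat_lit 380) (nat_lit 36261865262) (nat_lit 76) (nat_lit 132424221859) (nat_lit 261) (nat_lit 5) (nat_lit 266) (nat_lit 5) (nat_lit 262) (nat_lit 5) (nat_lit 396) (nat_lit 383) (nat_lit 241)) (XT.lf (nat_lit 0) (nat_lit 72635207830) (nat_lit 380) (nat_lit 55111618044) (nat_lit 76) (nat_lit 71551805575) (nat_lit 257) (nat_lit 5) (nat_lit 262) (nat_lit 5) (nat_lit 258) (nat_lit 5) (nat_lit 397) (nat_lit 383) (nat_lit 240))) (XT.nd (nat_lit 78) (nat_lit 608) (nat_lit 0) (XT.lf (nat_lit 0) (nat_lit 131185830667) (nat_lit 380) (nat_lit 73489625745) (nat_lit 76) (nat_lit 3806724224) (nat_lit 253) (nat_lit 5) (nat_lit 258) (nat_lit 5) (nat_lit 254) (nat_lit 5) (nat_lit 398) (nat_lit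 383) (nat_lit 239)) (XT.nd (nat_lit 78) (nat_lit 380) (nat_lit 0) (XT.lf (nat_lit 0) (nat_lit 125776043755) (nat_lit 228) (nat_lit 73737622104) (nat_lit 304) (nat_lit 18632089770) (nat_lit 250) (nat_lit 5) (nat_lit 253) (nat_lit 5) (nat_lit 254) (nat_lit 5) (nat_lit 399) (nat_lit 383) (nat_lit 238)) (XT.lf (nat_lit 0) (nat_lit 47558896919) (nat_lit 380) (nat_lit 111359160713) (nat_lit 76) (nat_lit 69416190870) (nat_lit 245) (nat_lit 5) (nat_lit 250) (nat_lit 5) (nat_lit 246) (nat_lit 5) (nat_lit 400) (nat_lit 383) (nat_lit 237))))))))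
noncomputable def xc202 : XT := (XT.nd (nat_lit 1248) (nat_lit 2052) (nat_lit 0) (XT.nd (nat_lit 624) (nat_lit 1292) (nat_lit 0) (XT.nd (nat_lit 312) (nat_lit 836) (nat_lit 0) (XT.nd (nat_lit 156) (nat_lit 532) (nat_lit 0) (XT.nd (nat_lit 78) (nat_lit 228) (nat_lit 0) (XT.lf (nat_lit 0) (nat_lit 109013358817) (nat_lit 228) (nat_lit 13968190192) (nat_lit 304) (nat_lit 116111541384) (nat_lit 242) (nat_lit 5) (nat_lit 245) (nat_lit 5) (nat_lit 246) (nat_lit 5) (nat_lit 401) (nat_lit 383) (nat_lit 236)) (XT.lf (nat_lit 0) (nat_lit 101362591155) (nat_lit 228) (nat_lit 108855316742) (nat_lit 304) (nat_lit 40205737008) (nat_lit 239) (nat_lit 5) (nat_lit 242) (nat_lit 5) (nat_lit 243) (nat_lit 5) (nat_lit 402) (nat_lit 383) (nat_lit 235))) (XT.nd (nat_lit 78) (nat_lit 228) (nat_lit 0) (XT.lf (nat_lit 0) (nat_lit 45263243938) (nat_lit 304) (nat_lit 167673119296) (nat_lit 76) (nat_lit 49450286524) (nat_lit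 235) (nat_lit 5) (nat_lit 239) (nat_lit 5) (nat_lit 236) (nat_lit 5) (nat_lit 403) (nat_lit 383) (nat_lit 234)) (XT.lf (nat_lit 0) (nat_lit 88409357947) (nat_lit 228) (nat_lit 53625257866) (nat_lit 304) (nat_lit 132945449382) (nat_lit 232) (nat_lit 5) (nat_lit 235) (nat_lit 5) (nat_lit 236) (nat_lit 5) (nat_lit 404) (nat_lit 383) (nat_lit 233)))) (XT.nd (nat_lit 156) (nat_lit 380) (nat_lit 0) (XT.nd (nat_lit 78) (nat_lit 304) (nat_lit 0) (XT.lf (nat_lit 0) (nat_lit 83299854798) (nat_lit 152) (nat_lit 169365796222) (nat_lit 228) (nat_lit 35609405169) (nat_lit 230) (nat_lit 5) (nat_lit 232) (nat_lit 5) (nat_lit 233) (nat_lit 5) (nat_lit 405) (nat_lit 383) (nat_lit 232)) (XT.lf (nat_lit 0) (nat_lit 72841127565) (nat_lit 304) (nat_lit 222960817442) (nat_lit 76) (nat_lit 6499812817) (nat_lit 226) (nat_lit 5) (nat_lit 230) (nat_lit 5) (nat_lit 227) (nat_lit 5) (nat_lit 406) (nat_lit 383) (nat_lit 231)))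 (XT.nd (nat_lit 78) (nat_lit 228) (nat_lit 0) (XT.lf (nat_lit 0) (nat_lit 75346267466) (nat_lit 152) (nat_lit 121051541328) (nat_lit 228) (nat_lit 120639714462) (nat_lit 224) (nat_lit 5) (nat_lit 226) (nat_lit 5) (nat_lit 227) (nat_lit 5) (nat_lit 407) (nat_lit 383) (nat_lit 230)) (XT.lf (nat_lit 0) (nat_lit 3246259212) (nat_lit 228) (nat_lit 258728009892) (nat_lit 76) (nat_lit 70667323792) (nat_lit 221) (nat_lit 5) (nat_lit 224) (nat_lit 5) (nat_lit 222) (nat_lit 5) (nat_lit 408) (nat_lit 383) (nat_lit 229))))) (XT.nd (nat_lit 312) (nat_lit 608) (nat_lit 0) (XT.nd (nat_lit 156) (nat_lit 380) (nat_lit 0) (XT.nd (nat_lit 78) (nat_lit 152) (nat_lit 0) (XT.lf (nat_lit 0) (nat_lit 72282789686) (nat_lit 152) (nat_lit 68038782527) (nat_lit 228) (nat_lit 208698276412) (nat_lit 219) (nat_lit 5) (nat_lit 221) (nat_lit 5) (nat_lit 222) (nat_lit 5) (nat_lit 409) (nat_lit 383) (nat_lit 228)) (XT.lf (nat_lit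 0) (nat_lit 72571171271) (nat_lit 152) (nat_lit 223713148656) (nat_lit 228) (nat_lit 70027974402) (nat_lit 217) (nat_lit 5) (nat_lit 219) (nat_lit 5) (nat_lit 220) (nat_lit 5) (nat_lit 410) (nat_lit 383) (nat_lit 227))) (XT.nd (nat_lit 78) (nat_lit 152) (nat_lit 0) (XT.lf (nat_lit 0) (nat_lit 74884363406) (nat_lit 152) (nat_lit 9515348657) (nat_lit 228) (nat_lit 300165388109) (nat_lit 214) (nat_lit 5) (nat_lit 216) (nat_lit 5) (nat_lit 217) (nat_lit 5) (nat_lit 411) (nat_lit 383) (nat_lit 226)) (XT.lf (nat_lit 0) (nat_lit 77209958283) (nat_lit 152) (nat_lit 181420144090) (nat_lit 228) (nat_lit 145095531728) (nat_lit 212) (nat_lit 5) (nat_lit 214) (nat_lit 5) (nat_lit 215) (nat_lit 5) (nat_lit 412) (nat_lit 383) (nat_lit 225)))) (XT.nd (nat_lit 156) (nat_lit 304) (nat_lit 0) (XT.nd (nat_lit 78) (nat_lit 152) (nat_lit 0) (XT.lf (nat_lit 0) (nat_lit 29484513774) (nat_lit 152) (nat_lit 340866449988)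 (nat_lit 76) (nat_lit 53659531443) (nat_lit 210) (nat_lit 5) (nat_lit 212) (nat_lit 5) (nat_lit 211) (nat_lit 5) (nat_lit 413) (nat_lit 383) (nat_lit 224)) (XT.lf (nat_lit 0) (nat_lit 88846981774) (nat_lit 152) (nat_lit 134395470156) (nat_lit 228) (nat_lit 222042016022) (nat_lit 208) (nat_lit 5) (nat_lit 210) (nat_lit 5) (nat_lit 211) (nat_lit 5) (nat_lit 414) (nat_lit 383) (nat_lit 223))) (XT.nd (nat_lit 78) (nat_lit 228) (nat_lit 0) (XT.lf (nat_lit 0) (nat_lit 98314916053) (nat_lit 76) (nat_lit 343636261019) (nat_lit 152) (nat_lit 25836673850) (nat_lit 207) (nat_lit 5) (nat_lit 208) (nat_lit 5) (nat_lit 209) (nat_lit 4) (nat_lit 415) (nat_lit 383) (nat_lit 222)) (XT.lf (nat_lit 0) (nat_lit 108597251901) (nat_lit 152) (nat_lit 81784778835) (nat_lit 228) (nat_lit 301050614909) (nat_lit 204) (nat_lit 5) (nat_lit 206) (nat_lit 5) (nat_lit 207) (nat_lit 5) (nat_lit 416) (nat_lit 383) (nat_lit 221))))))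 (XT.nd (nat_lit 624) (nat_lit 912) (nat_lit 0) (XT.nd (nat_lit 312) (nat_lit 532) (nat_lit 0) (XT.nd (nat_lit 156) (nat_lit 304) (nat_lit 0) (XT.nd (nat_lit 78) (nat_lit 228) (nat_lit 0) (XT.lf (nat_lit 0) (nat_lit 121674037299) (nat_lit 76) (nat_lit 312910499331) (nat_lit 152) (nat_lit 81783734907) (nat_lit 203) (nat_lit 5) (nat_lit 204) (nat_lit 5) (nat_lit 205) (nat_lit 4) (nat_lit 417) (nat_lit 383) (nat_lit 220)) (XT.lf (nat_lit 0) (nat_lit 137749653398) (nat_lit 152) (nat_lit 22620692754) (nat_lit 228) (nat_lit 382292002875) (nat_lit 200) (nat_lit 5) (nat_lit 202) (nat_lit 5) (nat_lit 203) (nat_lit 5) (nat_lit 418) (nat_lit 383) (nat_lit 219))) (XT.nd (nat_lit 78) (nat_lit 228) (nat_lit 0) (XT.lf (nat_lit 0) (nat_lit 155097688366) (nat_lit 76) (nat_lit 277923090578) (nat_lit 152) (nat_lit 137272671475) (nat_lit 199) (nat_lit 5) (nat_lit 200) (nat_lit 5) (nat_lit 201) (nat_lit 4) (nat_lit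 419) (nat_lit 383) (nat_lit 218)) (XT.lf (nat_lit 0) (nat_lit 134288262115) (nat_lit 228) (nat_lit 422418657216) (nat_lit 76) (nat_lit 42777907793) (nat_lit 196) (nat_lit 5) (nat_lit 199) (nat_lit 5) (nat_lit 197) (nat_lit 4) (nat_lit 420) (nat_lit 383) (nat_lit 217)))) (XT.nd (nat_lit 156) (nat_lit 228) (nat_lit 0) (XT.nd (nat_lit 78) (nat_lit 228) (nat_lit 0) (XT.lf (nat_lit 0) (nat_lit 200172639311) (nat_lit 76) (nat_lit 237818765607) (nat_lit 152) (nat_lit 192146255454) (nat_lit 195) (nat_lit 5) (nat_lit 196) (nat_lit 5) (nat_lit 197) (nat_lit 4) (nat_lit 421) (nat_lit 383) (nat_lit 216)) (XT.lf (nat_lit 0) (nat_lit 112407813288) (nat_lit 228) (nat_lit 434049579099) (nat_lit 76) (nat_lit 116057702886) (nat_lit 192) (nat_lit 5) (nat_lit 195) (nat_lit 5) (nat_lit 193) (nat_lit 4) (nat_lit 422) (nat_lit 383) (nat_lit 215))) (XT.nd (nat_lit 78) (nat_lit 152) (nat_lit 0) (XT.lf (nat_lit 0) (nat_lit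 258723903641) (nat_lit 76) (nat_lit 191622252149) (nat_lit 152) (nat_lit 246191481393) (nat_lit 191) (nat_lit 5) (nat_lit 192) (nat_lit 5) (nat_lit 193) (nat_lit 4) (nat_lit 423) (nat_lit 383) (nat_lit 214)) (XT.lf (nat_lit 0) (nat_lit 94958043757) (nat_lit 152) (nat_lit 438179654367) (nat_lit 76) (nat_lit 199302933716) (nat_lit 189) (nat_lit 5) (nat_lit 191) (nat_lit 5) (nat_lit 190) (nat_lit 4) (nat_lit 424) (nat_lit 383) (nat_lit 213))))) (XT.nd (nat_lit 312) (nat_lit 456) (nat_lit 0) (XT.nd (nat_lit 156) (nat_lit 228) (nat_lit 0) (XT.nd (nat_lit 78) (nat_lit 152) (nat_lit 0) (XT.lf (nat_lit 0) (nat_lit 332846869229) (nat_lit 76) (nat_lit 138221721395) (nat_lit 152) (nat_lit 299130758651) (nat_lit 188) (nat_lit 5) (nat_lit 189) (nat_lit 5) (nat_lit 190) (nat_lit 4) (nat_lit 425) (nat_lit 383) (nat_lit 212)) (XT.lf (nat_lit 0) (nat_lit 82626955627) (nat_lit 152) (nat_lit 433323152213) (nat_lit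 76) (nat_lit 294053937872) (nat_lit 186) (nat_lit 5) (nat_lit 188) (nat_lit 5) (nat_lit 187) (nat_lit 4) (nat_lit 426) (nat_lit 383) (nat_lit 211))) (XT.nd (nat_lit 78) (nat_lit 152) (nat_lit 0) (XT.lf (nat_lit 0) (nat_lit 424943609443) (nat_lit 76) (nat_lit 76350098015) (nat_lit 152) (nat_lit 350611796007) (nat_lit 185) (nat_lit 5) (nat_lit 186) (nat_lit 5) (nat_lit 187) (nat_lit 4) (nat_lit 427) (nat_lit 383) (nat_lit 210)) (XT.lf (nat_lit 0) (nat_lit 76223086866) (nat_lit 152) (nat_lit 417750828635) (nat_lit 76) (nat_lit 402054709021) (nat_lit 183) (nat_lit 5) (nat_lit 185) (nat_lit 5) (nat_lit 184) (nat_lit 4) (nat_lit 428) (nat_lit 383) (nat_lit 209)))) (XT.nd (nat_lit 156) (nat_lit 228) (nat_lit 0) (XT.nd (nat_lit 78) (nat_lit 152) (nat_lit 0) (XT.lf (nat_lit 0) (nat_lit 537763899720) (nat_lit 76) (nat_lit 4563964387) (nat_lit 152) (nat_lit 400196002779) (nat_lit 182) (nat_lit 5) (nat_lit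 183) (nat_lit 5) (nat_lit 184) (nat_lit 4) (nat_lit 429) (nat_lit 383) (nat_lit 208)) (XT.lf (nat_lit 0) (nat_lit 76692263890) (nat_lit 152) (nat_lit 389455413192) (nat_lit 76) (nat_lit 525279404786) (nat_lit 180) (nat_lit 5) (nat_lit 182) (nat_lit 5) (nat_lit 181) (nat_lit 4) (nat_lit 430) (nat_lit 383) (nat_lit 207))) (XT.nd (nat_lit 78) (nat_lit 152) (nat_lit 0) (XT.lf (nat_lit 0) (nat_lit 596901266579) (nat_lit 152) (nat_lit 369794944804) (nat_lit 0) (nat_lit 76258783497) (nat_lit 179) (nat_lit 5) (nat_lit 181) (nat_lit 4) (nat_lit 179) (nat_lit 4) (nat_lit 431) (nat_lit 383) (nat_lit 206)) (XT.lf (nat_lit 0) (nat_lit 85136613384) (nat_lit 152) (nat_lit 346112472437) (nat_lit 76) (nat_lit 665962169611) (nat_lit 177) (nat_lit 5) (nat_lit 179) (nat_lit 5) (nat_lit 178) (nat_lit 4) (nat_lit 432) (nat_lit 383) (nat_lit 205)))))))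
noncomputable def xc203 : XT := (XT.nd (nat_lit 49530) (nat_lit 0) (nat_lit 6232) (XT.nd (nat_lit 624) (nat_lit 532) (nat_lit 0) (XT.nd (nat_lit 312) (nat_lit 532) (nat_lit 0) (XT.nd (nat_lit 156) (nat_lit 228) (nat_lit 0) (XT.nd (nat_lit 78) (nat_lit 152) (nat_lit 0) (XT.lf (nat_lit 0) (nat_lit 665784360975) (nat_lit 152) (nat_lit 318594260368) (nat_lit 0) (nat_lit 169934291256) (nat_lit 176) (nat_lit 5) (nat_lit 178) (nat_lit 4) (nat_lit 176) (nat_lit 4) (nat_lit 433) (nat_lit 383) (nat_lit 204)) (XT.lf (nat_lit 0) (nat_lit 102836122399) (nat_lit 152) (nat_lit 285036057009) (nat_lit 76) (nat_lit 826630679955) (nat_lit 174) (nat_lit 5) (nat_lit 176) (nat_lit 5) (nat_lit 175) (nat_lit 4) (nat_lit 434) (nat_lit 383) (nat_lit 203))) (XT.nd (nat_lit 78) (nat_lit 152) (nat_lit 0) (XT.lf (nat_lit 0) (nat_lit 750906600864) (nat_lit 152) (nat_lit 248206984059) (nat_lit 0) (nat_lit 278668369144) (nat_lit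 173) (nat_lit 5) (nat_lit 175) (nat_lit 4) (nat_lit 173) (nat_lit 4) (nat_lit 435) (nat_lit 383) (nat_lit 202)) (XT.lf (nat_lit 0) (nat_lit 131273071960) (nat_lit 152) (nat_lit 203128465400) (nat_lit 76) (nat_lit 1010143868307) (nat_lit 171) (nat_lit 5) (nat_lit 173) (nat_lit 5) (nat_lit 172) (nat_lit 4) (nat_lit 436) (nat_lit 383) (nat_lit 201)))) (XT.nd (nat_lit 156) (nat_lit 304) (nat_lit 0) (XT.nd (nat_lit 78) (nat_lit 152) (nat_lit 0) (XT.lf (nat_lit 0) (nat_lit 854553592967) (nat_lit 152) (nat_lit 155314668133) (nat_lit 0) (nat_lit 404802838866) (nat_lit 170) (nat_lit 5) (nat_lit 172) (nat_lit 4) (nat_lit 170) (nat_lit 4) (nat_lit 437) (nat_lit 383) (nat_lit 200)) (XT.lf (nat_lit 0) (nat_lit 172159709912) (nat_lit 152) (nat_lit 96823374253) (nat_lit 76) (nat_lit 1219734337569) (nat_lit 168) (nat_lit 5) (nat_lit 170) (nat_lit 5) (nat_lit 169) (nat_lit 4) (nat_lit 438) (nat_lit 383) (nat_lit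 199))) (XT.nd (nat_lit 78) (nat_lit 228) (nat_lit 0) (XT.lf (nat_lit 0) (nat_lit 979332948159) (nat_lit 152) (nat_lit 36099656814) (nat_lit 0) (nat_lit 550998849911) (nat_lit 167) (nat_lit 5) (nat_lit 169) (nat_lit 4) (nat_lit 167) (nat_lit 4) (nat_lit 439) (nat_lit 383) (nat_lit 198)) (XT.lf (nat_lit 0) (nat_lit 39234249143) (nat_lit 76) (nat_lit 188847881681) (nat_lit 152) (nat_lit 1420434346405) (nat_lit 164) (nat_lit 5) (nat_lit 165) (nat_lit 5) (nat_lit 166) (nat_lit 4) (nat_lit 440) (nat_lit 383) (nat_lit 197))))) (XT.nd (nat_lit 312) (nat_lit 76) (nat_lit 0) (XT.nd (nat_lit 156) (nat_lit 228) (nat_lit 0) (XT.nd (nat_lit 78) (nat_lit 152) (nat_lit 0) (XT.lf (nat_lit 0) (nat_lit 117586789308) (nat_lit 76) (nat_lit 1012465183543) (nat_lit 76) (nat_lit 604527908964) (nat_lit 163) (nat_lit 4) (nat_lit 164) (nat_lit 5) (nat_lit 164) (nat_lit 4) (nat_lit 441) (nat_lit 383) (nat_lit 196)) (XT.lf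 (nat_lit 0) (nat_lit 212792915426) (nat_lit 76) (nat_lit 90002307494) (nat_lit 152) (nat_lit 1522767233913) (nat_lit 161) (nat_lit 5) (nat_lit 162) (nat_lit 5) (nat_lit 163) (nat_lit 4) (nat_lit 442) (nat_lit 383) (nat_lit 195))) (XT.nd (nat_lit 78) (nat_lit 152) (nat_lit 0) (XT.lf (nat_lit 0) (nat_lit 309386534967) (nat_lit 76) (nat_lit 1000029369411) (nat_lit 76) (nat_lit 611517648186) (nat_lit 160) (nat_lit 4) (nat_lit 161) (nat_lit 5) (nat_lit 161) (nat_lit 4) (nat_lit 443) (nat_lit 383) (nat_lit 194)) (XT.lf (nat_lit 0) (nat_lit 397880873315) (nat_lit 152) (nat_lit 1596034098339) (nat_lit 0) (nat_lit 27869697036) (nat_lit 158) (nat_lit 5) (nat_lit 160) (nat_lit 4) (nat_lit 158) (nat_lit 4) (nat_lit 444) (nat_lit 383) (nat_lit 193)))) (XT.nd (nat_lit 48438) (nat_lit 0) (nat_lit 10336) (XT.nd (nat_lit 48360) (nat_lit 0) (nat_lit 10260) (XT.lf (nat_lit 0) (nat_lit 544058821100) (nat_lit 76)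 (nat_lit 976723117234) (nat_lit 76) (nat_lit 606711928728) (nat_lit 157) (nat_lit 4) (nat_lit 158) (nat_lit 5) (nat_lit 158) (nat_lit 4) (nat_lit 445) (nat_lit 383) (nat_lit 192)) (XT.lf (nat_lit 0) (nat_lit 28166926785) (nat_lit 836) (nat_lit 15897826311) (nat_lit 836) (nat_lit 15897826311) (nat_lit 292) (nat_lit 3) (nat_lit 303) (nat_lit 3) (nat_lit 303) (nat_lit 5) (nat_lit 384) (nat_lit 384) (nat_lit 252))) (XT.nd (nat_lit 78) (nat_lit 0) (nat_lit 0) (XT.lf (nat_lit 0) (nat_lit 59732449696) (nat_lit 760) (nat_lit 58508388130) (nat_lit 836) (nat_lit 6424065242) (nat_lit 293) (nat_lit 5) (nat_lit 303) (nat_lit 5) (nat_lit 304) (nat_lit 5) (nat_lit 385) (nat_lit 384) (nat_lit 251)) (XT.lf (nat_lit 76) (nat_lit 43211650379) (nat_lit 0) (nat_lit 22914196719) (nat_lit 836) (nat_lit 63521834085) (nat_lit 294) (nat_lit 5) (nat_lit 293) (nat_lit 5) (nat_lit 304) (nat_lit 5) (nat_lit 386) (nat_lit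 384) (nat_lit 250)))))) (XT.nd (nat_lit 624) (nat_lit 2356) (nat_lit 0) (XT.nd (nat_lit 312) (nat_lit 1824) (nat_lit 0) (XT.nd (nat_lit 156) (nat_lit 0) (nat_lit 152) (XT.nd (nat_lit 78) (nat_lit 0) (nat_lit 76) (XT.lf (nat_lit 76) (nat_lit 19539082067) (nat_lit 0) (nat_lit 56081551394) (nat_lit 836) (nat_lit 59278952227) (nat_lit 295) (nat_lit 5) (nat_lit 294) (nat_lit 5) (nat_lit 305) (nat_lit 5) (nat_lit 387) (nat_lit 384) (nat_lit 249)) (XT.lf (nat_lit 0) (nat_lit 88523955918) (nat_lit 760) (nat_lit 4561912269) (nat_lit 836) (nat_lit 47353326707) (nat_lit 295) (nat_lit 5) (nat_lit 305) (nat_lit 5) (nat_lit 306) (nat_lit 5) (nat_lit 388) (nat_lit 384) (nat_lit 248))) (XT.nd (nat_lit 78) (nat_lit 0) (nat_lit 0) (XT.lf (nat_lit 0) (nat_lit 105443837658) (nat_lit 760) (nat_lit 28551708160) (nat_lit 836) (nat_lit 12277212345) (nat_lit 296) (nat_lit 5) (nat_lit 306) (nat_lit 5) (nat_lit 307) (nat_lit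 5) (nat_lit 389) (nat_lit 384) (nat_lit 247)) (XT.lf (nat_lit 76) (nat_lit 98977072301) (nat_lit 0) (nat_lit 27935385514) (nat_lit 836) (nat_lit 25500791284) (nat_lit 297) (nat_lit 5) (nat_lit 296) (nat_lit 5) (nat_lit 307) (nat_lit 5) (nat_lit 390) (nat_lit 384) (nat_lit 246)))) (XT.nd (nat_lit 156) (nat_lit 760) (nat_lit 0) (XT.nd (nat_lit 78) (nat_lit 532) (nat_lit 0) (XT.lf (nat_lit 0) (nat_lit 79904239413) (nat_lit 760) (nat_lit 73299087565) (nat_lit 836) (nat_lit 5686414362) (nat_lit 287) (nat_lit 5) (nat_lit 297) (nat_lit 5) (nat_lit 298) (nat_lit 5) (nat_lit 391) (nat_lit 384) (nat_lit 245)) (XT.lf (nat_lit 0) (nat_lit 18263633218) (nat_lit 532) (nat_lit 105225325491) (nat_lit 76) (nat_lit 42230456053) (nat_lit 280) (nat_lit 5) (nat_lit 287) (nat_lit 5) (nat_lit 281) (nat_lit 5) (nat_lit 392) (nat_lit 384) (nat_lit 244))) (XT.nd (nat_lit 78) (nat_lit 380) (nat_lit 0) (XT.lf (nat_lit 0)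 (nat_lit 40879490674) (nat_lit 380) (nat_lit 6325822328) (nat_lit 456) (nat_lit 125721745428) (nat_lit 275) (nat_lit 5) (nat_lit 280) (nat_lit 5) (nat_lit 281) (nat_lit 5) (nat_lit 393) (nat_lit 384) (nat_lit 243)) (XT.lf (nat_lit 0) (nat_lit 20561370835) (nat_lit 380) (nat_lit 61961387028) (nat_lit 456) (nat_lit 97985534194) (nat_lit 270) (nat_lit 5) (nat_lit 275) (nat_lit 5) (nat_lit 276) (nat_lit 5) (nat_lit 394) (nat_lit 384) (nat_lit 242))))) (XT.nd (nat_lit 312) (nat_lit 1368) (nat_lit 0) (XT.nd (nat_lit 156) (nat_lit 684) (nat_lit 0) (XT.nd (nat_lit 78) (nat_lit 0) (nat_lit 0) (XT.lf (nat_lit 0) (nat_lit 375304875) (nat_lit 304) (nat_lit 123745595354) (nat_lit 380) (nat_lit 64402359049) (nat_lit 266) (nat_lit 5) (nat_lit 270) (nat_lit 5) (nat_lit 271) (nat_lit 5) (nat_lit 395) (nat_lit 384) (nat_lit 241)) (XT.lf (nat_lit 0) (nat_lit 172943290234) (nat_lit 380) (nat_lit 18916187828) (nat_lit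 76) (nat_lit 5125126002) (nat_lit 266) (nat_lit 5) (nat_lit 271) (nat_lit 5) (nat_lit 267) (nat_lit 5) (nat_lit 396) (nat_lit 384) (nat_lit 240))) (XT.nd (nat_lit 78) (nat_lit 304) (nat_lit 0) (XT.lf (nat_lit 0) (nat_lit 23695291408) (nat_lit 380) (nat_lit 39154381186) (nat_lit 76) (nat_lit 143019305697) (nat_lit 261) (nat_lit 5) (nat_lit 266) (nat_lit 5) (nat_lit 262) (nat_lit 5) (nat_lit 397) (nat_lit 384) (nat_lit 239)) (XT.lf (nat_lit 0) (nat_lit 78452600161) (nat_lit 380) (nat_lit 59512176738) (nat_lit 76) (nat_lit 77277416281) (nat_lit 257) (nat_lit 5) (nat_lit 262) (nat_lit 5) (nat_lit 258) (nat_lit 5) (nat_lit 398) (nat_lit 384) (nat_lit 238)))) (XT.nd (nat_lit 156) (nat_lit 836) (nat_lit 0) (XT.nd (nat_lit 78) (nat_lit 228) (nat_lit 0) (XT.lf (nat_lit 0) (nat_lit 141686938745) (nat_lit 380) (nat_lit 79360506155) (nat_lit 76) (nat_lit 4112998105) (nat_lit 253) (nat_lit 5) (nat_lit 258)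 (nat_lit 5) (nat_lit 254) (nat_lit 5) (nat_lit 399) (nat_lit 384) (nat_lit 237)) (XT.lf (nat_lit 0) (nat_lit 135846056646) (nat_lit 228) (nat_lit 79634605564) (nat_lit 304) (nat_lit 20116458715) (nat_lit 250) (nat_lit 5) (nat_lit 253) (nat_lit 5) (nat_lit 254) (nat_lit 5) (nat_lit 400) (nat_lit 384) (nat_lit 236))) (XT.nd (nat_lit 78) (nat_lit 456) (nat_lit 0) (XT.lf (nat_lit 0) (nat_lit 51369318227) (nat_lit 380) (nat_lit 120259867931) (nat_lit 76) (nat_lit 74971516746) (nat_lit 245) (nat_lit 5) (nat_lit 250) (nat_lit 5) (nat_lit 246) (nat_lit 5) (nat_lit 401) (nat_lit 384) (nat_lit 235)) (XT.nd (nat_lit 78) (nat_lit 228) (nat_lit 0) (XT.lf (nat_lit 0) (nat_lit 117742104377) (nat_lit 228) (nat_lit 15083375036) (nat_lit 304) (nat_lit 125394787888) (nat_lit 242) (nat_lit 5) (nat_lit 245) (nat_lit 5) (nat_lit 246) (nat_lit 5) (nat_lit 402) (nat_lit 384) (nat_lit 234)) (XT.lf (nat_lit 0) (nat_lit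 109479166345) (nat_lit 228) (nat_lit 117561331163) (nat_lit 304) (nat_lit 43416781141) (nat_lit 239) (nat_lit 5) (nat_lit 242) (nat_lit 5) (nat_lit 243) (nat_lit 5) (nat_lit 403) (nat_lit 384) (nat_lit 233))))))))
noncomputable def xc204 : XT := (XT.nd (nat_lit 1248) (nat_lit 1976) (nat_lit 0) (XT.nd (nat_lit 624) (nat_lit 1292) (nat_lit 0) (XT.nd (nat_lit 312) (nat_lit 684) (nat_lit 0) (XT.nd (nat_lit 156) (nat_lit 456) (nat_lit 0) (XT.nd (nat_lit 78) (nat_lit 228) (nat_lit 0) (XT.lf (nat_lit 0) (nat_lit 48889310353) (nat_lit 304) (nat_lit 181079353645) (nat_lit 76) (nat_lit 53408667396) (nat_lit 235) (nat_lit 5) (nat_lit 239) (nat_lit 5) (nat_lit 236) (nat_lit 5) (nat_lit 404) (nat_lit 384) (nat_lit 232)) (XT.lf (nat_lit 0) (nat_lit 95489390830) (nat_lit 228) (nat_lit 57912743995) (nat_lit 304) (nat_lit 143576098099) (nat_lit 232) (nat_lit 5) (nat_lit 235) (nat_lit 5) (nat_lit 236) (nat_lit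 5) (nat_lit 405) (nat_lit 384) (nat_lit 231))) (XT.nd (nat_lit 78) (nat_lit 304) (nat_lit 0) (XT.lf (nat_lit 0) (nat_lit 89971000180) (nat_lit 152) (nat_lit 182912449214) (nat_lit 228) (nat_lit 38453383975) (nat_lit 230) (nat_lit 5) (nat_lit 232) (nat_lit 5) (nat_lit 233) (nat_lit 5) (nat_lit 406) (nat_lit 384) (nat_lit 230)) (XT.lf (nat_lit 0) (nat_lit 78672846139) (nat_lit 304) (nat_lit 240790512005) (nat_lit 76) (nat_lit 7022318889) (nat_lit 226) (nat_lit 5) (nat_lit 230) (nat_lit 5) (nat_lit 227) (nat_lit 5) (nat_lit 407) (nat_lit 384) (nat_lit 229)))) (XT.nd (nat_lit 156) (nat_lit 304) (nat_lit 0) (XT.nd (nat_lit 78) (nat_lit 228) (nat_lit 0) (XT.lf (nat_lit 0) (nat_lit 81380828060) (nat_lit 152) (nat_lit 130733012870) (nat_lit 228) (nat_lit 130286473815) (nat_lit 224) (nat_lit 5) (nat_lit 226) (nat_lit 5) (nat_lit 227) (nat_lit 5) (nat_lit 408) (nat_lit 384) (nat_lit 228)) (XT.lf (nat_lit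 0) (nat_lit 3510065229) (nat_lit 228) (nat_lit 279419392212) (nat_lit 76) (nat_lit 76323257622) (nat_lit 221) (nat_lit 5) (nat_lit 224) (nat_lit 5) (nat_lit 222) (nat_lit 5) (nat_lit 409) (nat_lit 384) (nat_lit 227))) (XT.nd (nat_lit 78) (nat_lit 152) (nat_lit 0) (XT.lf (nat_lit 0) (nat_lit 78071973270) (nat_lit 152) (nat_lit 73479228331) (nat_lit 228) (nat_lit 225390039733) (nat_lit 219) (nat_lit 5) (nat_lit 221) (nat_lit 5) (nat_lit 222) (nat_lit 5) (nat_lit 410) (nat_lit 384) (nat_lit 226)) (XT.lf (nat_lit 0) (nat_lit 78383287296) (nat_lit 152) (nat_lit 241607531359) (nat_lit 228) (nat_lit 75626271564) (nat_lit 217) (nat_lit 5) (nat_lit 219) (nat_lit 5) (nat_lit 220) (nat_lit 5) (nat_lit 411) (nat_lit 384) (nat_lit 225))))) (XT.nd (nat_lit 312) (nat_lit 608) (nat_lit 0) (XT.nd (nat_lit 156) (nat_lit 304) (nat_lit 0) (XT.nd (nat_lit 78) (nat_lit 152) (nat_lit 0) (XT.lf (nat_lit 0) (nat_lit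 80881376344) (nat_lit 152) (nat_lit 10273942573) (nat_lit 228) (nat_lit 324174807774) (nat_lit 214) (nat_lit 5) (nat_lit 216) (nat_lit 5) (nat_lit 217) (nat_lit 5) (nat_lit 412) (nat_lit 384) (nat_lit 224)) (XT.lf (nat_lit 0) (nat_lit 83392880861) (nat_lit 152) (nat_lit 195931124430) (nat_lit 228) (nat_lit 156699504801) (nat_lit 212) (nat_lit 5) (nat_lit 214) (nat_lit 5) (nat_lit 215) (nat_lit 5) (nat_lit 413) (nat_lit 384) (nat_lit 223))) (XT.nd (nat_lit 78) (nat_lit 152) (nat_lit 0) (XT.lf (nat_lit 0) (nat_lit 31846697458) (nat_lit 152) (nat_lit 368129665282) (nat_lit 76) (nat_lit 57954800952) (nat_lit 210) (nat_lit 5) (nat_lit 212) (nat_lit 5) (nat_lit 211) (nat_lit 5) (nat_lit 414) (nat_lit 384) (nat_lit 222)) (XT.lf (nat_lit 0) (nat_lit 95960575892) (nat_lit 152) (nat_lit 145144532360) (nat_lit 228) (nat_lit 239801954128) (nat_lit 208) (nat_lit 5) (nat_lit 210) (nat_lit 5) (nat_lit 211)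 (nat_lit 5) (nat_lit 415) (nat_lit 384) (nat_lit 221)))) (XT.nd (nat_lit 156) (nat_lit 304) (nat_lit 0) (XT.nd (nat_lit 78) (nat_lit 228) (nat_lit 0) (XT.lf (nat_lit 0) (nat_lit 106185808768) (nat_lit 76) (nat_lit 371124607358) (nat_lit 152) (nat_lit 27900305625) (nat_lit 207) (nat_lit 5) (nat_lit 208) (nat_lit 5) (nat_lit 209) (nat_lit 4) (nat_lit 416) (nat_lit 384) (nat_lit 220)) (XT.lf (nat_lit 0) (nat_lit 117290584889) (nat_lit 152) (nat_lit 88325054671) (nat_lit 228) (nat_lit 325131465418) (nat_lit 204) (nat_lit 5) (nat_lit 206) (nat_lit 5) (nat_lit 207) (nat_lit 5) (nat_lit 417) (nat_lit 384) (nat_lit 219))) (XT.nd (nat_lit 78) (nat_lit 228) (nat_lit 0) (XT.lf (nat_lit 0) (nat_lit 131413380066) (nat_lit 76) (nat_lit 337940861056) (nat_lit 152) (nat_lit 88323345060) (nat_lit 203) (nat_lit 5) (nat_lit 204) (nat_lit 5) (nat_lit 205) (nat_lit 4) (nat_lit 418) (nat_lit 384) (nat_lit 218)) (XT.lf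 (nat_lit 0) (nat_lit 148774904475) (nat_lit 152) (nat_lit 24427920103) (nat_lit 228) (nat_lit 412872369833) (nat_lit 200) (nat_lit 5) (nat_lit 202) (nat_lit 5) (nat_lit 203) (nat_lit 5) (nat_lit 419) (nat_lit 384) (nat_lit 217)))))) (XT.nd (nat_lit 624) (nat_lit 912) (nat_lit 0) (XT.nd (nat_lit 312) (nat_lit 456) (nat_lit 0) (XT.nd (nat_lit 156) (nat_lit 304) (nat_lit 0) (XT.nd (nat_lit 78) (nat_lit 228) (nat_lit 0) (XT.lf (nat_lit 0) (nat_lit 167510652911) (nat_lit 76) (nat_lit 300154543417) (nat_lit 152) (nat_lit 148251592372) (nat_lit 199) (nat_lit 5) (nat_lit 200) (nat_lit 5) (nat_lit 201) (nat_lit 4) (nat_lit 420) (nat_lit 384) (nat_lit 216)) (XT.lf (nat_lit 0) (nat_lit 145034030763) (nat_lit 228) (nat_lit 456207038571) (nat_lit 76) (nat_lit 46202408577) (nat_lit 196) (nat_lit 5) (nat_lit 199) (nat_lit 5) (nat_lit 197) (nat_lit 4) (nat_lit 421) (nat_lit 384) (nat_lit 215))) (XT.nd (nat_lit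 78) (nat_lit 228) (nat_lit 0) (XT.lf (nat_lit 0) (nat_lit 216191339550) (nat_lit 76) (nat_lit 256841961203) (nat_lit 152) (nat_lit 207515243276) (nat_lit 195) (nat_lit 5) (nat_lit 196) (nat_lit 5) (nat_lit 197) (nat_lit 4) (nat_lit 422) (nat_lit 384) (nat_lit 214)) (XT.lf (nat_lit 0) (nat_lit 121402979145) (nat_lit 228) (nat_lit 468768695671) (nat_lit 76) (nat_lit 125344501038) (nat_lit 192) (nat_lit 5) (nat_lit 195) (nat_lit 5) (nat_lit 193) (nat_lit 4) (nat_lit 423) (nat_lit 384) (nat_lit 213)))) (XT.nd (nat_lit 156) (nat_lit 228) (nat_lit 0) (XT.nd (nat_lit 78) (nat_lit 152) (nat_lit 0) (XT.lf (nat_lit 0) (nat_lit 279426454923) (nat_lit 76) (nat_lit 206949818344) (nat_lit 152) (nat_lit 265884253639) (nat_lit 191) (nat_lit 5) (nat_lit 192) (nat_lit 5) (nat_lit 193) (nat_lit 4) (nat_lit 424) (nat_lit 384) (nat_lit 212)) (XT.lf (nat_lit 0) (nat_lit 102557073714) (nat_lit 152) (nat_lit 473229427505)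 (nat_lit 76) (nat_lit 215249261845) (nat_lit 189) (nat_lit 5) (nat_lit 191) (nat_lit 5) (nat_lit 190) (nat_lit 4) (nat_lit 425) (nat_lit 384) (nat_lit 211))) (XT.nd (nat_lit 78) (nat_lit 152) (nat_lit 0) (XT.lf (nat_lit 0) (nat_lit 359479018102) (nat_lit 76) (nat_lit 149277338140) (nat_lit 152) (nat_lit 323058827058) (nat_lit 188) (nat_lit 5) (nat_lit 189) (nat_lit 5) (nat_lit 190) (nat_lit 4) (nat_lit 426) (nat_lit 384) (nat_lit 210)) (XT.lf (nat_lit 0) (nat_lit 89239355429) (nat_lit 152) (nat_lit 467984644778) (nat_lit 76) (nat_lit 317580256995) (nat_lit 186) (nat_lit 5) (nat_lit 188) (nat_lit 5) (nat_lit 187) (nat_lit 4) (nat_lit 427) (nat_lit 384) (nat_lit 209))))) (XT.nd (nat_lit 312) (nat_lit 456) (nat_lit 0) (XT.nd (nat_lit 156) (nat_lit 228) (nat_lit 0) (XT.nd (nat_lit 78) (nat_lit 152) (nat_lit 0) (XT.lf (nat_lit 0) (nat_lit 458943268347) (nat_lit 76) (nat_lit 82456077992) (nat_lit 152)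 (nat_lit 378658490288) (nat_lit 185) (nat_lit 5) (nat_lit 186) (nat_lit 5) (nat_lit 187) (nat_lit 4) (nat_lit 428) (nat_lit 384) (nat_lit 208)) (XT.lf (nat_lit 0) (nat_lit 82323044171) (nat_lit 152) (nat_lit 451166764054) (nat_lit 76) (nat_lit 434221000741) (nat_lit 183) (nat_lit 5) (nat_lit 185) (nat_lit 5) (nat_lit 184) (nat_lit 4) (nat_lit 429) (nat_lit 384) (nat_lit 207))) (XT.nd (nat_lit 78) (nat_lit 152) (nat_lit 0) (XT.lf (nat_lit 0) (nat_lit 580788963046) (nat_lit 76) (nat_lit 4927145914) (nat_lit 152) (nat_lit 432209566490) (nat_lit 182) (nat_lit 5) (nat_lit 183) (nat_lit 5) (nat_lit 184) (nat_lit 4) (nat_lit 430) (nat_lit 384) (nat_lit 206)) (XT.lf (nat_lit 0) (nat_lit 82829631500) (nat_lit 152) (nat_lit 420607933438) (nat_lit 76) (nat_lit 567303584155) (nat_lit 180) (nat_lit 5) (nat_lit 182) (nat_lit 5) (nat_lit 181) (nat_lit 4) (nat_lit 431) (nat_lit 384) (nat_lit 205)))) (XT.nd (nat_lit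 156) (nat_lit 228) (nat_lit 0) (XT.nd (nat_lit 78) (nat_lit 152) (nat_lit 0) (XT.lf (nat_lit 0) (nat_lit 644655294496) (nat_lit 152) (nat_lit 399374731541) (nat_lit 0) (nat_lit 82361272105) (nat_lit 179) (nat_lit 5) (nat_lit 181) (nat_lit 4) (nat_lit 179) (nat_lit 4) (nat_lit 432) (nat_lit 384) (nat_lit 204)) (XT.lf (nat_lit 0) (nat_lit 91949413394) (nat_lit 152) (nat_lit 373797765051) (nat_lit 76) (nat_lit 719240883876) (nat_lit 177) (nat_lit 5) (nat_lit 179) (nat_lit 5) (nat_lit 178) (nat_lit 4) (nat_lit 433) (nat_lit 384) (nat_lit 203))) (XT.nd (nat_lit 78) (nat_lit 152) (nat_lit 0) (XT.lf (nat_lit 0) (nat_lit 719048924962) (nat_lit 152) (nat_lit 344078195077) (nat_lit 0) (nat_lit 183530734812) (nat_lit 176) (nat_lit 5) (nat_lit 178) (nat_lit 4) (nat_lit 176) (nat_lit 4) (nat_lit 434) (nat_lit 384) (nat_lit 202)) (XT.lf (nat_lit 0) (nat_lit 111064775136) (nat_lit 152) (nat_lit 307835433877)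 (nat_lit 76) (nat_lit 892762790952) (nat_lit 174) (nat_lit 5) (nat_lit 176) (nat_lit 5) (nat_lit 175) (nat_lit 4) (nat_lit 435) (nat_lit 384) (nat_lit 201)))))))
noncomputable def xc205 : XT := (XT.nd (nat_lit 49608) (nat_lit 0) (nat_lit 5472) (XT.nd (nat_lit 624) (nat_lit 228) (nat_lit 0) (XT.nd (nat_lit 312) (nat_lit 532) (nat_lit 0) (XT.nd (nat_lit 156) (nat_lit 228) (nat_lit 0) (XT.nd (nat_lit 78) (nat_lit 152) (nat_lit 0) (XT.lf (nat_lit 0) (nat_lit 810980839757) (nat_lit 152) (nat_lit 268060129375) (nat_lit 0) (nat_lit 300963455719) (nat_lit 173) (nat_lit 5) (nat_lit 175) (nat_lit 4) (nat_lit 173) (nat_lit 4) (nat_lit 436) (nat_lit 384) (nat_lit 200)) (XT.lf (nat_lit 0) (nat_lit 141776579594) (nat_lit 152) (nat_lit 219375422616) (nat_lit 76) (nat_lit 1090956952816) (nat_lit 171) (nat_lit 5) (nat_lit 173) (nat_lit 5) (nat_lit 172) (nat_lit 4) (nat_lit 437) (nat_lit 384) (nat_lit 199))) (XT.nd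 (nat_lit 78) (nat_lit 152) (nat_lit 0) (XT.lf (nat_lit 0) (nat_lit 922919493545) (nat_lit 152) (nat_lit 167736611218) (nat_lit 0) (nat_lit 437188602544) (nat_lit 170) (nat_lit 5) (nat_lit 172) (nat_lit 4) (nat_lit 170) (nat_lit 4) (nat_lit 438) (nat_lit 384) (nat_lit 198)) (XT.lf (nat_lit 0) (nat_lit 185934053874) (nat_lit 152) (nat_lit 104566102398) (nat_lit 76) (nat_lit 1317314580843) (nat_lit 168) (nat_lit 5) (nat_lit 170) (nat_lit 5) (nat_lit 169) (nat_lit 4) (nat_lit 439) (nat_lit 384) (nat_lit 197)))) (XT.nd (nat_lit 156) (nat_lit 228) (nat_lit 0) (XT.nd (nat_lit 78) (nat_lit 228) (nat_lit 0) (XT.lf (nat_lit 0) (nat_lit 1057681105547) (nat_lit 152) (nat_lit 38984572734) (nat_lit 0) (nat_lit 595080216917) (nat_lit 167) (nat_lit 5) (nat_lit 169) (nat_lit 4) (nat_lit 167) (nat_lit 4) (nat_lit 440) (nat_lit 384) (nat_lit 196)) (XT.lf (nat_lit 0) (nat_lit 42376060032) (nat_lit 76) (nat_lit 203954167526)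 (nat_lit 152) (nat_lit 1534067491537) (nat_lit 164) (nat_lit 5) (nat_lit 165) (nat_lit 5) (nat_lit 166) (nat_lit 4) (nat_lit 441) (nat_lit 384) (nat_lit 195))) (XT.nd (nat_lit 78) (nat_lit 152) (nat_lit 0) (XT.lf (nat_lit 0) (nat_lit 126996719878) (nat_lit 76) (nat_lit 1093460892984) (nat_lit 76) (nat_lit 652888585389) (nat_lit 163) (nat_lit 4) (nat_lit 164) (nat_lit 5) (nat_lit 164) (nat_lit 4) (nat_lit 442) (nat_lit 384) (nat_lit 194)) (XT.lf (nat_lit 0) (nat_lit 229819253903) (nat_lit 76) (nat_lit 97201027100) (nat_lit 152) (nat_lit 1644587100365) (nat_lit 161) (nat_lit 5) (nat_lit 162) (nat_lit 5) (nat_lit 163) (nat_lit 4) (nat_lit 443) (nat_lit 384) (nat_lit 193))))) (XT.nd (nat_lit 48672) (nat_lit 0) (nat_lit 10260) (XT.nd (nat_lit 48516) (nat_lit 0) (nat_lit 10184) (XT.nd (nat_lit 78) (nat_lit 152) (nat_lit 0) (XT.lf (nat_lit 0) (nat_lit 334140283753) (nat_lit 76) (nat_lit 1080030291840)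 (nat_lit 76) (nat_lit 660437591234) (nat_lit 160) (nat_lit 4) (nat_lit 161) (nat_lit 5) (nat_lit 161) (nat_lit 4) (nat_lit 444) (nat_lit 384) (nat_lit 192)) (XT.lf (nat_lit 0) (nat_lit 429712724246) (nat_lit 152) (nat_lit 1723714031777) (nat_lit 0) (nat_lit 30100617108) (nat_lit 158) (nat_lit 5) (nat_lit 160) (nat_lit 4) (nat_lit 158) (nat_lit 4) (nat_lit 445) (nat_lit 384) (nat_lit 191))) (XT.nd (nat_lit 78) (nat_lit 0) (nat_lit 76) (XT.lf (nat_lit 0) (nat_lit 30427152432) (nat_lit 836) (nat_lit 17166044876) (nat_lit 836) (nat_lit 17166044876) (nat_lit 292) (nat_lit 3) (nat_lit 303) (nat_lit 3) (nat_lit 303) (nat_lit 5) (nat_lit 385) (nat_lit 385) (nat_lit 250)) (XT.lf (nat_lit 0) (nat_lit 64523785828) (nat_lit 760) (nat_lit 63181423418) (nat_lit 836) (nat_lit 6932249059) (nat_lit 293) (nat_lit 5) (nat_lit 303) (nat_lit 5) (nat_lit 304) (nat_lit 5) (nat_lit 386) (nat_lit 385) (nat_lit 249))))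 (XT.nd (nat_lit 156) (nat_lit 0) (nat_lit 152) (XT.nd (nat_lit 78) (nat_lit 0) (nat_lit 76) (XT.lf (nat_lit 76) (nat_lit 46675886330) (nat_lit 0) (nat_lit 24751939011) (nat_lit 836) (nat_lit 68591074812) (nat_lit 294) (nat_lit 5) (nat_lit 293) (nat_lit 5) (nat_lit 304) (nat_lit 5) (nat_lit 387) (nat_lit 385) (nat_lit 248)) (XT.lf (nat_lit 76) (nat_lit 21109833572) (nat_lit 0) (nat_lit 60571531236) (nat_lit 836) (nat_lit 64009633701) (nat_lit 295) (nat_lit 5) (nat_lit 294) (nat_lit 5) (nat_lit 305) (nat_lit 5) (nat_lit 388) (nat_lit 385) (nat_lit 247))) (XT.nd (nat_lit 78) (nat_lit 0) (nat_lit 76) (XT.lf (nat_lit 0) (nat_lit 95616082315) (nat_lit 760) (nat_lit 4919242170) (nat_lit 836) (nat_lit 51138495505) (nat_lit 295) (nat_lit 5) (nat_lit 305) (nat_lit 5) (nat_lit 306) (nat_lit 5) (nat_lit 389) (nat_lit 385) (nat_lit 246)) (XT.lf (nat_lit 0) (nat_lit 113888876619) (nat_lit 760) (nat_lit 30828039118)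 (nat_lit 836) (nat_lit 13257186481) (nat_lit 296) (nat_lit 5) (nat_lit 306) (nat_lit 5) (nat_lit 307) (nat_lit 5) (nat_lit 390) (nat_lit 385) (nat_lit 245)))))) (XT.nd (nat_lit 624) (nat_lit 2356) (nat_lit 0) (XT.nd (nat_lit 312) (nat_lit 1064) (nat_lit 0) (XT.nd (nat_lit 156) (nat_lit 912) (nat_lit 0) (XT.nd (nat_lit 78) (nat_lit 684) (nat_lit 0) (XT.lf (nat_lit 76) (nat_lit 106902704554) (nat_lit 0) (nat_lit 30171692337) (nat_lit 836) (nat_lit 27531465013) (nat_lit 297) (nat_lit 5) (nat_lit 296) (nat_lit 5) (nat_lit 307) (nat_lit 5) (nat_lit 391) (nat_lit 385) (nat_lit 244)) (XT.lf (nat_lit 0) (nat_lit 86304170285) (nat_lit 760) (nat_lit 79163800089) (nat_lit 836) (nat_lit 6132531411) (nat_lit 287) (nat_lit 5) (nat_lit 297) (nat_lit 5) (nat_lit 298) (nat_lit 5) (nat_lit 392) (nat_lit 385) (nat_lit 243))) (XT.nd (nat_lit 78) (nat_lit 380) (nat_lit 0) (XT.lf (nat_lit 0) (nat_lit 19732717973)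 (nat_lit 532) (nat_lit 113635413028) (nat_lit 76) (nat_lit 45608437237) (nat_lit 280) (nat_lit 5) (nat_lit 287) (nat_lit 5) (nat_lit 281) (nat_lit 5) (nat_lit 393) (nat_lit 385) (nat_lit 242)) (XT.lf (nat_lit 0) (nat_lit 44157443433) (nat_lit 380) (nat_lit 6831815107) (nat_lit 456) (nat_lit 135771588539) (nat_lit 275) (nat_lit 5) (nat_lit 280) (nat_lit 5) (nat_lit 281) (nat_lit 5) (nat_lit 394) (nat_lit 385) (nat_lit 241)))) (XT.nd (nat_lit 156) (nat_lit 380) (nat_lit 0) (XT.nd (nat_lit 78) (nat_lit 304) (nat_lit 0) (XT.lf (nat_lit 0) (nat_lit 22213902595) (nat_lit 380) (nat_lit 66917759379) (nat_lit 456) (nat_lit 105816939273) (nat_lit 270) (nat_lit 5) (nat_lit 275) (nat_lit 5) (nat_lit 276) (nat_lit 5) (nat_lit 395) (nat_lit 385) (nat_lit 240)) (XT.lf (nat_lit 0) (nat_lit 412950850) (nat_lit 304) (nat_lit 133644306958) (nat_lit 380) (nat_lit 69547527934) (nat_lit 266) (nat_lit 5) (nat_lit 270)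 (nat_lit 5) (nat_lit 271) (nat_lit 5) (nat_lit 396) (nat_lit 385) (nat_lit 239))) (XT.nd (nat_lit 78) (nat_lit 380) (nat_lit 0) (XT.lf (nat_lit 0) (nat_lit 186784957318) (nat_lit 380) (nat_lit 20422129846) (nat_lit 76) (nat_lit 5535975032) (nat_lit 266) (nat_lit 5) (nat_lit 271) (nat_lit 5) (nat_lit 267) (nat_lit 5) (nat_lit 397) (nat_lit 385) (nat_lit 238)) (XT.lf (nat_lit 0) (nat_lit 25596864822) (nat_lit 380) (nat_lit 42279501488) (nat_lit 76) (nat_lit 154461832740) (nat_lit 261) (nat_lit 5) (nat_lit 266) (nat_lit 5) (nat_lit 262) (nat_lit 5) (nat_lit 398) (nat_lit 385) (nat_lit 237))))) (XT.nd (nat_lit 312) (nat_lit 1140) (nat_lit 0) (XT.nd (nat_lit 156) (nat_lit 608) (nat_lit 0) (XT.nd (nat_lit 78) (nat_lit 304) (nat_lit 0) (XT.lf (nat_lit 0) (nat_lit 84734445780) (nat_lit 380) (nat_lit 64265974309) (nat_lit 76) (nat_lit 83460866666) (nat_lit 257) (nat_lit 5) (nat_lit 262) (nat_lit 5) (nat_lit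 258) (nat_lit 5) (nat_lit 399) (nat_lit 385) (nat_lit 236)) (XT.lf (nat_lit 0) (nat_lit 153027245032) (nat_lit 380) (nat_lit 85702239609) (nat_lit 76) (nat_lit 4443526245) (nat_lit 253) (nat_lit 5) (nat_lit 258) (nat_lit 5) (nat_lit 254) (nat_lit 5) (nat_lit 400) (nat_lit 385) (nat_lit 235))) (XT.nd (nat_lit 78) (nat_lit 380) (nat_lit 0) (XT.lf (nat_lit 0) (nat_lit 146720539353) (nat_lit 228) (nat_lit 86003636776) (nat_lit 304) (nat_lit 21720461423) (nat_lit 250) (nat_lit 5) (nat_lit 253) (nat_lit 5) (nat_lit 254) (nat_lit 5) (nat_lit 401) (nat_lit 385) (nat_lit 234)) (XT.lf (nat_lit 0) (nat_lit 55483758709) (nat_lit 380) (nat_lit 129873776673) (nat_lit 76) (nat_lit 80970979004) (nat_lit 245) (nat_lit 5) (nat_lit 250) (nat_lit 5) (nat_lit 246) (nat_lit 5) (nat_lit 402) (nat_lit 385) (nat_lit 233)))) (XT.nd (nat_lit 156) (nat_lit 684) (nat_lit 0) (XT.nd (nat_lit 78) (nat_lit 228) (nat_lit 0) (XT.lf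 (nat_lit 0) (nat_lit 127168054393) (nat_lit 228) (nat_lit 16288098560) (nat_lit 304) (nat_lit 135421503973) (nat_lit 242) (nat_lit 5) (nat_lit 245) (nat_lit 5) (nat_lit 246) (nat_lit 5) (nat_lit 403) (nat_lit 385) (nat_lit 232)) (XT.lf (nat_lit 0) (nat_lit 118243987905) (nat_lit 228) (nat_lit 126964170682) (nat_lit 304) (nat_lit 46885481289) (nat_lit 239) (nat_lit 5) (nat_lit 242) (nat_lit 5) (nat_lit 243) (nat_lit 5) (nat_lit 404) (nat_lit 385) (nat_lit 231))) (XT.nd (nat_lit 78) (nat_lit 380) (nat_lit 0) (XT.lf (nat_lit 0) (nat_lit 52804747791) (nat_lit 304) (nat_lit 195559173135) (nat_lit 76) (nat_lit 57683382349) (nat_lit 235) (nat_lit 5) (nat_lit 239) (nat_lit 5) (nat_lit 236) (nat_lit 5) (nat_lit 405) (nat_lit 385) (nat_lit 230)) (XT.nd (nat_lit 78) (nat_lit 152) (nat_lit 0) (XT.lf (nat_lit 0) (nat_lit 103134787164) (nat_lit 228) (nat_lit 62543590588) (nat_lit 304) (nat_lit 155057910198)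 (nat_lit 232) (nat_lit 5) (nat_lit 235) (nat_lit 5) (nat_lit 236) (nat_lit 5) (nat_lit 406) (nat_lit 385) (nat_lit 229)) (XT.lf (nat_lit 0) (nat_lit 97174816167) (nat_lit 152) (nat_lit 197543206893) (nat_lit 228) (nat_lit 41525562093) (nat_lit 230) (nat_lit 5) (nat_lit 232) (nat_lit 5) (nat_lit 233) (nat_lit 5) (nat_lit 407) (nat_lit 385) (nat_lit 228))))))))
noncomputable def xc206 : XT := (XT.nd (nat_lit 1248) (nat_lit 2052) (nat_lit 0) (XT.nd (nat_lit 624) (nat_lit 1140) (nat_lit 0) (XT.nd (nat_lit 312) (nat_lit 684) (nat_lit 0) (XT.nd (nat_lit 156) (nat_lit 380) (nat_lit 0) (XT.nd (nat_lit 78) (nat_lit 152) (nat_lit 0) (XT.lf (nat_lit 0) (nat_lit 84970470441) (nat_lit 304) (nat_lit 260047605133) (nat_lit 76) (nat_lit 7586265790) (nat_lit 226) (nat_lit 5) (nat_lit 230) (nat_lit 5) (nat_lit 227) (nat_lit 5) (nat_lit 408) (nat_lit 385) (nat_lit 227)) (XT.lf (nat_lit 0) (nat_lit 87897174961)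 (nat_lit 152) (nat_lit 141189380439) (nat_lit 228) (nat_lit 140705604166) (nat_lit 224) (nat_lit 5) (nat_lit 226) (nat_lit 5) (nat_lit 227) (nat_lit 5) (nat_lit 409) (nat_lit 385) (nat_lit 226))) (XT.nd (nat_lit 78) (nat_lit 152) (nat_lit 0) (XT.lf (nat_lit 0) (nat_lit 3794390063) (nat_lit 228) (nat_lit 301767063556) (nat_lit 76) (nat_lit 82431302668) (nat_lit 221) (nat_lit 5) (nat_lit 224) (nat_lit 5) (nat_lit 222) (nat_lit 5) (nat_lit 410) (nat_lit 385) (nat_lit 225)) (XT.lf (nat_lit 0) (nat_lit 84323355626) (nat_lit 152) (nat_lit 79355288821) (nat_lit 228) (nat_lit 243417728858) (nat_lit 219) (nat_lit 5) (nat_lit 221) (nat_lit 5) (nat_lit 222) (nat_lit 5) (nat_lit 411) (nat_lit 385) (nat_lit 224)))) (XT.nd (nat_lit 156) (nat_lit 304) (nat_lit 0) (XT.nd (nat_lit 78) (nat_lit 228) (nat_lit 0) (XT.lf (nat_lit 0) (nat_lit 84659456387) (nat_lit 152) (nat_lit 260933845467) (nat_lit 228) (nat_lit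 81672994697) (nat_lit 217) (nat_lit 5) (nat_lit 219) (nat_lit 5) (nat_lit 220) (nat_lit 5) (nat_lit 412) (nat_lit 385) (nat_lit 223)) (XT.lf (nat_lit 0) (nat_lit 87357256706) (nat_lit 152) (nat_lit 11093599769) (nat_lit 228) (nat_lit 350105524749) (nat_lit 214) (nat_lit 5) (nat_lit 216) (nat_lit 5) (nat_lit 217) (nat_lit 5) (nat_lit 413) (nat_lit 385) (nat_lit 222))) (XT.nd (nat_lit 78) (nat_lit 152) (nat_lit 0) (XT.lf (nat_lit 0) (nat_lit 90069563315) (nat_lit 152) (nat_lit 211603358566) (nat_lit 228) (nat_lit 169232319210) (nat_lit 212) (nat_lit 5) (nat_lit 214) (nat_lit 5) (nat_lit 215) (nat_lit 5) (nat_lit 414) (nat_lit 385) (nat_lit 221)) (XT.lf (nat_lit 0) (nat_lit 34397367568) (nat_lit 152) (nat_lit 397574808134) (nat_lit 76) (nat_lit 62593334371) (nat_lit 210) (nat_lit 5) (nat_lit 212) (nat_lit 5) (nat_lit 211) (nat_lit 5) (nat_lit 415) (nat_lit 385) (nat_lit 220))))) (XT.nd (nat_lit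 312) (nat_lit 608) (nat_lit 0) (XT.nd (nat_lit 156) (nat_lit 304) (nat_lit 0) (XT.nd (nat_lit 78) (nat_lit 76) (nat_lit 0) (XT.lf (nat_lit 0) (nat_lit 103642425028) (nat_lit 152) (nat_lit 156753886951) (nat_lit 228) (nat_lit 258983175637) (nat_lit 208) (nat_lit 5) (nat_lit 210) (nat_lit 5) (nat_lit 211) (nat_lit 5) (nat_lit 416) (nat_lit 385) (nat_lit 219)) (XT.lf (nat_lit 0) (nat_lit 114685559813) (nat_lit 76) (nat_lit 400812385838) (nat_lit 152) (nat_lit 30129499029) (nat_lit 207) (nat_lit 5) (nat_lit 208) (nat_lit 5) (nat_lit 209) (nat_lit 4) (nat_lit 417) (nat_lit 385) (nat_lit 218))) (XT.nd (nat_lit 78) (nat_lit 76) (nat_lit 0) (XT.lf (nat_lit 0) (nat_lit 126678592342) (nat_lit 152) (nat_lit 95388910150) (nat_lit 228) (nat_lit 351139240295) (nat_lit 204) (nat_lit 5) (nat_lit 206) (nat_lit 5) (nat_lit 207) (nat_lit 5) (nat_lit 418) (nat_lit 385) (nat_lit 217)) (XT.lf (nat_lit 0) (nat_lit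 141931097062) (nat_lit 76) (nat_lit 364974005265) (nat_lit 152) (nat_lit 95386564655) (nat_lit 203) (nat_lit 5) (nat_lit 204) (nat_lit 5) (nat_lit 205) (nat_lit 4) (nat_lit 419) (nat_lit 385) (nat_lit 216)))) (XT.nd (nat_lit 156) (nat_lit 304) (nat_lit 0) (XT.nd (nat_lit 78) (nat_lit 76) (nat_lit 0) (XT.lf (nat_lit 0) (nat_lit 160681422558) (nat_lit 152) (nat_lit 26380072033) (nat_lit 228) (nat_lit 445899593172) (nat_lit 200) (nat_lit 5) (nat_lit 202) (nat_lit 5) (nat_lit 203) (nat_lit 5) (nat_lit 420) (nat_lit 385) (nat_lit 215)) (XT.lf (nat_lit 0) (nat_lit 180915919989) (nat_lit 76) (nat_lit 324164854072) (nat_lit 152) (nat_lit 160109239633) (nat_lit 199) (nat_lit 5) (nat_lit 200) (nat_lit 5) (nat_lit 201) (nat_lit 4) (nat_lit 421) (nat_lit 385) (nat_lit 214))) (XT.nd (nat_lit 78) (nat_lit 76) (nat_lit 0) (XT.lf (nat_lit 0) (nat_lit 156639074622) (nat_lit 228) (nat_lit 492699219608) (nat_lit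 76) (nat_lit 49900545844) (nat_lit 196) (nat_lit 5) (nat_lit 199) (nat_lit 5) (nat_lit 197) (nat_lit 4) (nat_lit 422) (nat_lit 385) (nat_lit 213)) (XT.lf (nat_lit 0) (nat_lit 233490838325) (nat_lit 76) (nat_lit 277387341373) (nat_lit 152) (nat_lit 224114137109) (nat_lit 195) (nat_lit 5) (nat_lit 196) (nat_lit 5) (nat_lit 197) (nat_lit 4) (nat_lit 423) (nat_lit 385) (nat_lit 212)))))) (XT.nd (nat_lit 624) (nat_lit 1064) (nat_lit 0) (XT.nd (nat_lit 312) (nat_lit 456) (nat_lit 0) (XT.nd (nat_lit 156) (nat_lit 228) (nat_lit 0) (XT.nd (nat_lit 78) (nat_lit 76) (nat_lit 0) (XT.lf (nat_lit 0) (nat_lit 131117395798) (nat_lit 228) (nat_lit 506266033441) (nat_lit 76) (nat_lit 135373931767) (nat_lit 192) (nat_lit 5) (nat_lit 195) (nat_lit 5) (nat_lit 193) (nat_lit 4) (nat_lit 424) (nat_lit 385) (nat_lit 211)) (XT.lf (nat_lit 0) (nat_lit 301784548504) (nat_lit 76) (nat_lit 223503905684) (nat_lit 152) (nat_lit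 287152810917) (nat_lit 191) (nat_lit 5) (nat_lit 192) (nat_lit 5) (nat_lit 193) (nat_lit 4) (nat_lit 425) (nat_lit 385) (nat_lit 210))) (XT.nd (nat_lit 78) (nat_lit 76) (nat_lit 0) (XT.lf (nat_lit 0) (nat_lit 110763685612) (nat_lit 152) (nat_lit 511083838624) (nat_lit 76) (nat_lit 232470997573) (nat_lit 189) (nat_lit 5) (nat_lit 191) (nat_lit 5) (nat_lit 190) (nat_lit 4) (nat_lit 426) (nat_lit 385) (nat_lit 209)) (XT.lf (nat_lit 0) (nat_lit 388241111270) (nat_lit 76) (nat_lit 161217706804) (nat_lit 152) (nat_lit 348901482223) (nat_lit 188) (nat_lit 5) (nat_lit 189) (nat_lit 5) (nat_lit 190) (nat_lit 4) (nat_lit 427) (nat_lit 385) (nat_lit 208)))) (XT.nd (nat_lit 156) (nat_lit 228) (nat_lit 0) (XT.nd (nat_lit 78) (nat_lit 76) (nat_lit 0) (XT.lf (nat_lit 0) (nat_lit 96380427176) (nat_lit 152) (nat_lit 505419678695) (nat_lit 76) (nat_lit 342988395741) (nat_lit 186) (nat_lit 5) (nat_lit 188) (nat_lit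 5) (nat_lit 187) (nat_lit 4) (nat_lit 428) (nat_lit 385) (nat_lit 207)) (XT.lf (nat_lit 0) (nat_lit 495662305046) (nat_lit 76) (nat_lit 89050825665) (nat_lit 152) (nat_lit 408949241014) (nat_lit 185) (nat_lit 5) (nat_lit 186) (nat_lit 5) (nat_lit 187) (nat_lit 4) (nat_lit 429) (nat_lit 385) (nat_lit 206))) (XT.nd (nat_lit 78) (nat_lit 76) (nat_lit 0) (XT.lf (nat_lit 0) (nat_lit 88910696994) (nat_lit 152) (nat_lit 487256563621) (nat_lit 76) (nat_lit 468960322603) (nat_lit 183) (nat_lit 5) (nat_lit 185) (nat_lit 5) (nat_lit 184) (nat_lit 4) (nat_lit 430) (nat_lit 385) (nat_lit 205)) (XT.lf (nat_lit 0) (nat_lit 627255467735) (nat_lit 76) (nat_lit 5319658101) (nat_lit 152) (nat_lit 466784517243) (nat_lit 182) (nat_lit 5) (nat_lit 183) (nat_lit 5) (nat_lit 184) (nat_lit 4) (nat_lit 431) (nat_lit 385) (nat_lit 204))))) (XT.nd (nat_lit 312) (nat_lit 608) (nat_lit 0) (XT.nd (nat_lit 156) (nat_lit 228)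 (nat_lit 0) (XT.nd (nat_lit 78) (nat_lit 76) (nat_lit 0) (XT.lf (nat_lit 0) (nat_lit 89457705123) (nat_lit 152) (nat_lit 454253213509) (nat_lit 76) (nat_lit 612689437235) (nat_lit 180) (nat_lit 5) (nat_lit 182) (nat_lit 5) (nat_lit 181) (nat_lit 4) (nat_lit 432) (nat_lit 385) (nat_lit 203)) (XT.lf (nat_lit 0) (nat_lit 696229369796) (nat_lit 152) (nat_lit 431321444591) (nat_lit 0) (nat_lit 88951705019) (nat_lit 179) (nat_lit 5) (nat_lit 181) (nat_lit 4) (nat_lit 179) (nat_lit 4) (nat_lit 433) (nat_lit 385) (nat_lit 202))) (XT.nd (nat_lit 78) (nat_lit 76) (nat_lit 0) (XT.lf (nat_lit 0) (nat_lit 99306970494) (nat_lit 152) (nat_lit 403698409658) (nat_lit 76) (nat_lit 776781646952) (nat_lit 177) (nat_lit 5) (nat_lit 179) (nat_lit 5) (nat_lit 178) (nat_lit 4) (nat_lit 434) (nat_lit 385) (nat_lit 201)) (XT.lf (nat_lit 0) (nat_lit 776574395123) (nat_lit 152) (nat_lit 371601359017) (nat_lit 0) (nat_lit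 198214651292) (nat_lit 176) (nat_lit 5) (nat_lit 178) (nat_lit 4) (nat_lit 176) (nat_lit 4) (nat_lit 435) (nat_lit 385) (nat_lit 200)))) (XT.nd (nat_lit 156) (nat_lit 380) (nat_lit 0) (XT.nd (nat_lit 78) (nat_lit 76) (nat_lit 0) (XT.lf (nat_lit 0) (nat_lit 119951468589) (nat_lit 152) (nat_lit 332459261306) (nat_lit 76) (nat_lit 964185234496) (nat_lit 174) (nat_lit 5) (nat_lit 176) (nat_lit 5) (nat_lit 175) (nat_lit 4) (nat_lit 436) (nat_lit 385) (nat_lit 199)) (XT.lf (nat_lit 0) (nat_lit 875860773693) (nat_lit 152) (nat_lit 289502013277) (nat_lit 0) (nat_lit 325041918532) (nat_lit 173) (nat_lit 5) (nat_lit 175) (nat_lit 4) (nat_lit 173) (nat_lit 4) (nat_lit 437) (nat_lit 385) (nat_lit 198))) (XT.nd (nat_lit 78) (nat_lit 228) (nat_lit 0) (XT.lf (nat_lit 0) (nat_lit 153120130753) (nat_lit 152) (nat_lit 236922610047) (nat_lit 76) (nat_lit 1178234859388) (nat_lit 171) (nat_lit 5) (nat_lit 173) (nat_lit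 5) (nat_lit 172) (nat_lit 4) (nat_lit 438) (nat_lit 385) (nat_lit 197)) (XT.nd (nat_lit 78) (nat_lit 152) (nat_lit 0) (XT.lf (nat_lit 0) (nat_lit 996754436036) (nat_lit 152) (nat_lit 181152770597) (nat_lit 0) (nat_lit 472165008107) (nat_lit 170) (nat_lit 5) (nat_lit 172) (nat_lit 4) (nat_lit 170) (nat_lit 4) (nat_lit 439) (nat_lit 385) (nat_lit 196)) (XT.lf (nat_lit 0) (nat_lit 200810121778) (nat_lit 152) (nat_lit 112928697006) (nat_lit 76) (nat_lit 1422701030120) (nat_lit 168) (nat_lit 5) (nat_lit 170) (nat_lit 5) (nat_lit 169) (nat_lit 4) (nat_lit 440) (nat_lit 385) (nat_lit 195))))))))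
noncomputable def xc207 : XT := (XT.nd (nat_lit 49686) (nat_lit 0) (nat_lit 4332) (XT.nd (nat_lit 49062) (nat_lit 0) (nat_lit 8360) (XT.nd (nat_lit 312) (nat_lit 76) (nat_lit 0) (XT.nd (nat_lit 156) (nat_lit 228) (nat_lit 0) (XT.nd (nat_lit 78) (nat_lit 228) (nat_lit 0) (XT.lf (nat_lit 0) (nat_lit 1142296898462) (nat_lit 152) (nat_lit 42100717989) (nat_lit 0) (nat_lit 642687885139) (nat_lit 167) (nat_lit 5) (nat_lit 169) (nat_lit 4) (nat_lit 167) (nat_lit 4) (nat_lit 441) (nat_lit 385) (nat_lit 194)) (XT.lf (nat_lit 0) (nat_lit 45768777686) (nat_lit 76) (nat_lit 220269176605) (nat_lit 152) (nat_lit 1656791516905) (nat_lit 164) (nat_lit 5) (nat_lit 165) (nat_lit 5) (nat_lit 166) (nat_lit 4) (nat_lit 442) (nat_lit 385) (nat_lit 193))) (XT.nd (nat_lit 78) (nat_lit 152) (nat_lit 0) (XT.lf (nat_lit 0) (nat_lit 137159018704) (nat_lit 76) (nat_lit 1180936473920) (nat_lit 76) (nat_lit 705118337950) (nat_lit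 163) (nat_lit 4) (nat_lit 164) (nat_lit 5) (nat_lit 164) (nat_lit 4) (nat_lit 443) (nat_lit 385) (nat_lit 192)) (XT.lf (nat_lit 0) (nat_lit 248207284992) (nat_lit 76) (nat_lit 104975853273) (nat_lit 152) (nat_lit 1776152771873) (nat_lit 161) (nat_lit 5) (nat_lit 162) (nat_lit 5) (nat_lit 163) (nat_lit 4) (nat_lit 444) (nat_lit 385) (nat_lit 191)))) (XT.nd (nat_lit 48594) (nat_lit 0) (nat_lit 10108) (XT.nd (nat_lit 48516) (nat_lit 0) (nat_lit 10032) (XT.lf (nat_lit 0) (nat_lit 360873929283) (nat_lit 76) (nat_lit 1166431491659) (nat_lit 76) (nat_lit 713271339267) (nat_lit 160) (nat_lit 4) (nat_lit 161) (nat_lit 5) (nat_lit 161) (nat_lit 4) (nat_lit 445) (nat_lit 385) (nat_lit 190)) (XT.lf (nat_lit 0) (nat_lit 32867215834) (nat_lit 836) (nat_lit 18536235582) (nat_lit 836) (nat_lit 18536235582) (nat_lit 292) (nat_lit 3) (nat_lit 303) (nat_lit 3) (nat_lit 303) (nat_lit 5) (nat_lit 386) (nat_lit 386)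 (nat_lit 248))) (XT.nd (nat_lit 78) (nat_lit 0) (nat_lit 0) (XT.lf (nat_lit 0) (nat_lit 69696611325) (nat_lit 760) (nat_lit 68229390857) (nat_lit 836) (nat_lit 7481906657) (nat_lit 293) (nat_lit 5) (nat_lit 303) (nat_lit 5) (nat_lit 304) (nat_lit 5) (nat_lit 387) (nat_lit 386) (nat_lit 247)) (XT.lf (nat_lit 76) (nat_lit 50416219172) (nat_lit 0) (nat_lit 26736043510) (nat_lit 836) (nat_lit 74067638919) (nat_lit 294) (nat_lit 5) (nat_lit 293) (nat_lit 5) (nat_lit 304) (nat_lit 5) (nat_lit 388) (nat_lit 386) (nat_lit 246))))) (XT.nd (nat_lit 312) (nat_lit 1824) (nat_lit 0) (XT.nd (nat_lit 156) (nat_lit 0) (nat_lit 152) (XT.nd (nat_lit 78) (nat_lit 0) (nat_lit 76) (XT.lf (nat_lit 76) (nat_lit 22805157415) (nat_lit 0) (nat_lit 65420216468) (nat_lit 836) (nat_lit 69120429513) (nat_lit 295) (nat_lit 5) (nat_lit 294) (nat_lit 5) (nat_lit 305) (nat_lit 5) (nat_lit 389) (nat_lit 386) (nat_lit 245)) (XT.lf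 (nat_lit 0) (nat_lit 103274122264) (nat_lit 760) (nat_lit 5306245980) (nat_lit 836) (nat_lit 55226919676) (nat_lit 295) (nat_lit 5) (nat_lit 305) (nat_lit 5) (nat_lit 306) (nat_lit 5) (nat_lit 390) (nat_lit 386) (nat_lit 244))) (XT.nd (nat_lit 78) (nat_lit 0) (nat_lit 0) (XT.lf (nat_lit 0) (nat_lit 123008158858) (nat_lit 760) (nat_lit 33287590123) (nat_lit 836) (nat_lit 14315872810) (nat_lit 296) (nat_lit 5) (nat_lit 306) (nat_lit 5) (nat_lit 307) (nat_lit 5) (nat_lit 391) (nat_lit 386) (nat_lit 243)) (XT.lf (nat_lit 76) (nat_lit 115461322212) (nat_lit 0) (nat_lit 32586693141) (nat_lit 836) (nat_lit 29725932169) (nat_lit 297) (nat_lit 5) (nat_lit 296) (nat_lit 5) (nat_lit 307) (nat_lit 5) (nat_lit 392) (nat_lit 386) (nat_lit 242)))) (XT.nd (nat_lit 156) (nat_lit 760) (nat_lit 0) (XT.nd (nat_lit 78) (nat_lit 532) (nat_lit 0) (XT.lf (nat_lit 0) (nat_lit 93215012583) (nat_lit 760) (nat_lit 85497577552)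 (nat_lit 836) (nat_lit 6615592687) (nat_lit 287) (nat_lit 5) (nat_lit 297) (nat_lit 5) (nat_lit 298) (nat_lit 5) (nat_lit 393) (nat_lit 386) (nat_lit 241)) (XT.lf (nat_lit 0) (nat_lit 21318189062) (nat_lit 532) (nat_lit 122719440083) (nat_lit 76) (nat_lit 49256721870) (nat_lit 280) (nat_lit 5) (nat_lit 287) (nat_lit 5) (nat_lit 281) (nat_lit 5) (nat_lit 394) (nat_lit 386) (nat_lit 240))) (XT.nd (nat_lit 78) (nat_lit 380) (nat_lit 0) (XT.lf (nat_lit 0) (nat_lit 47696549115) (nat_lit 380) (nat_lit 7378297725) (nat_lit 456) (nat_lit 146626545626) (nat_lit 275) (nat_lit 5) (nat_lit 280) (nat_lit 5) (nat_lit 281) (nat_lit 5) (nat_lit 395) (nat_lit 386) (nat_lit 239)) (XT.lf (nat_lit 0) (nat_lit 23997549520) (nat_lit 380) (nat_lit 72270718357) (nat_lit 456) (nat_lit 114275917823) (nat_lit 270) (nat_lit 5) (nat_lit 275) (nat_lit 5) (nat_lit 276) (nat_lit 5) (nat_lit 396) (nat_lit 386) (nat_lit 238))))))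 (XT.nd (nat_lit 624) (nat_lit 1900) (nat_lit 0) (XT.nd (nat_lit 312) (nat_lit 1140) (nat_lit 0) (XT.nd (nat_lit 156) (nat_lit 684) (nat_lit 0) (XT.nd (nat_lit 78) (nat_lit 0) (nat_lit 0) (XT.lf (nat_lit 0) (nat_lit 452521199) (nat_lit 304) (nat_lit 144335049024) (nat_lit 380) (nat_lit 75105311788) (nat_lit 266) (nat_lit 5) (nat_lit 270) (nat_lit 5) (nat_lit 271) (nat_lit 5) (nat_lit 397) (nat_lit 386) (nat_lit 237)) (XT.lf (nat_lit 0) (nat_lit 201733072718) (nat_lit 380) (nat_lit 22049596214) (nat_lit 76) (nat_lit 5979572299) (nat_lit 266) (nat_lit 5) (nat_lit 271) (nat_lit 5) (nat_lit 267) (nat_lit 5) (nat_lit 398) (nat_lit 386) (nat_lit 236))) (XT.nd (nat_lit 78) (nat_lit 304) (nat_lit 0) (XT.lf (nat_lit 0) (nat_lit 27649715260) (nat_lit 380) (nat_lit 45655662881) (nat_lit 76) (nat_lit 166819621769) (nat_lit 261) (nat_lit 5) (nat_lit 266) (nat_lit 5) (nat_lit 262) (nat_lit 5) (nat_lit 399)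 (nat_lit 386) (nat_lit 235)) (XT.lf (nat_lit 0) (nat_lit 91518034781) (nat_lit 380) (nat_lit 69401099502) (nat_lit 76) (nat_lit 90138813745) (nat_lit 257) (nat_lit 5) (nat_lit 262) (nat_lit 5) (nat_lit 258) (nat_lit 5) (nat_lit 400) (nat_lit 386) (nat_lit 234)))) (XT.nd (nat_lit 156) (nat_lit 608) (nat_lit 0) (XT.nd (nat_lit 78) (nat_lit 228) (nat_lit 0) (XT.lf (nat_lit 0) (nat_lit 165274012416) (nat_lit 380) (nat_lit 92552325638) (nat_lit 76) (nat_lit 4800284314) (nat_lit 253) (nat_lit 5) (nat_lit 258) (nat_lit 5) (nat_lit 254) (nat_lit 5) (nat_lit 401) (nat_lit 386) (nat_lit 233)) (XT.lf (nat_lit 0) (nat_lit 158464010841) (nat_lit 228) (nat_lit 92882438320) (nat_lit 304) (nat_lit 23453542448) (nat_lit 250) (nat_lit 5) (nat_lit 253) (nat_lit 5) (nat_lit 254) (nat_lit 5) (nat_lit 402) (nat_lit 386) (nat_lit 232))) (XT.nd (nat_lit 78) (nat_lit 228) (nat_lit 0) (XT.lf (nat_lit 0) (nat_lit 59926656099)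 (nat_lit 380) (nat_lit 140257779723) (nat_lit 76) (nat_lit 87450149880) (nat_lit 245) (nat_lit 5) (nat_lit 250) (nat_lit 5) (nat_lit 246) (nat_lit 5) (nat_lit 403) (nat_lit 386) (nat_lit 231)) (XT.lf (nat_lit 0) (nat_lit 137347141462) (nat_lit 228) (nat_lit 17589477654) (nat_lit 304) (nat_lit 146251051669) (nat_lit 242) (nat_lit 5) (nat_lit 245) (nat_lit 5) (nat_lit 246) (nat_lit 5) (nat_lit 404) (nat_lit 386) (nat_lit 230))))) (XT.nd (nat_lit 312) (nat_lit 988) (nat_lit 0) (XT.nd (nat_lit 156) (nat_lit 380) (nat_lit 0) (XT.nd (nat_lit 78) (nat_lit 304) (nat_lit 0) (XT.lf (nat_lit 0) (nat_lit 127709069568) (nat_lit 228) (nat_lit 137119532240) (nat_lit 304) (nat_lit 50632339732) (nat_lit 239) (nat_lit 5) (nat_lit 242) (nat_lit 5) (nat_lit 243) (nat_lit 5) (nat_lit 405) (nat_lit 386) (nat_lit 229)) (XT.lf (nat_lit 0) (nat_lit 57032807835) (nat_lit 304) (nat_lit 211198309590) (nat_lit 76) (nat_lit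 62299786100) (nat_lit 235) (nat_lit 5) (nat_lit 239) (nat_lit 5) (nat_lit 236) (nat_lit 5) (nat_lit 406) (nat_lit 386) (nat_lit 228))) (XT.nd (nat_lit 78) (nat_lit 152) (nat_lit 0) (XT.lf (nat_lit 0) (nat_lit 111390924277) (nat_lit 228) (nat_lit 67545214901) (nat_lit 304) (nat_lit 167458877249) (nat_lit 232) (nat_lit 5) (nat_lit 235) (nat_lit 5) (nat_lit 236) (nat_lit 5) (nat_lit 407) (nat_lit 386) (nat_lit 227)) (XT.lf (nat_lit 0) (nat_lit 104954062068) (nat_lit 152) (nat_lit 213344744498) (nat_lit 228) (nat_lit 44844098316) (nat_lit 230) (nat_lit 5) (nat_lit 232) (nat_lit 5) (nat_lit 233) (nat_lit 5) (nat_lit 408) (nat_lit 386) (nat_lit 226)))) (XT.nd (nat_lit 156) (nat_lit 532) (nat_lit 0) (XT.nd (nat_lit 78) (nat_lit 152) (nat_lit 0) (XT.lf (nat_lit 0) (nat_lit 91771363059) (nat_lit 304) (nat_lit 280846142767) (nat_lit 76) (nat_lit 8195020098) (nat_lit 226) (nat_lit 5) (nat_lit 230) (nat_lit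 5) (nat_lit 227) (nat_lit 5) (nat_lit 409) (nat_lit 386) (nat_lit 225)) (XT.lf (nat_lit 0) (nat_lit 94933990672) (nat_lit 152) (nat_lit 152482581747) (nat_lit 228) (nat_lit 151958805282) (nat_lit 224) (nat_lit 5) (nat_lit 226) (nat_lit 5) (nat_lit 227) (nat_lit 5) (nat_lit 410) (nat_lit 386) (nat_lit 224))) (XT.nd (nat_lit 78) (nat_lit 304) (nat_lit 0) (XT.lf (nat_lit 0) (nat_lit 4100958772) (nat_lit 228) (nat_lit 325903387460) (nat_lit 76) (nat_lit 89027679683) (nat_lit 221) (nat_lit 5) (nat_lit 224) (nat_lit 5) (nat_lit 222) (nat_lit 5) (nat_lit 411) (nat_lit 386) (nat_lit 223)) (XT.nd (nat_lit 78) (nat_lit 152) (nat_lit 0) (XT.lf (nat_lit 0) (nat_lit 91074046173) (nat_lit 152) (nat_lit 85701759101) (nat_lit 228) (nat_lit 262888134433) (nat_lit 219) (nat_lit 5) (nat_lit 221) (nat_lit 5) (nat_lit 222) (nat_lit 5) (nat_lit 412) (nat_lit 386) (nat_lit 222)) (XT.lf (nat_lit 0) (nat_lit 91436933497)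 (nat_lit 152) (nat_lit 281806591170) (nat_lit 228) (nat_lit 88203937675) (nat_lit 217) (nat_lit 5) (nat_lit 219) (nat_lit 5) (nat_lit 220) (nat_lit 5) (nat_lit 413) (nat_lit 386) (nat_lit 221))))))))
noncomputable def xc208 : XT := (XT.nd (nat_lit 1248) (nat_lit 1900) (nat_lit 0) (XT.nd (nat_lit 624) (nat_lit 1064) (nat_lit 0) (XT.nd (nat_lit 312) (nat_lit 608) (nat_lit 0) (XT.nd (nat_lit 156) (nat_lit 304) (nat_lit 0) (XT.nd (nat_lit 78) (nat_lit 152) (nat_lit 0) (XT.lf (nat_lit 0) (nat_lit 94350441371) (nat_lit 152) (nat_lit 11979151699) (nat_lit 228) (nat_lit 378111165249) (nat_lit 214) (nat_lit 5) (nat_lit 216) (nat_lit 5) (nat_lit 217) (nat_lit 5) (nat_lit 414) (nat_lit 386) (nat_lit 220)) (XT.lf (nat_lit 0) (nat_lit 97279631111) (nat_lit 152) (nat_lit 228529693250) (nat_lit 228) (nat_lit 182768207581) (nat_lit 212) (nat_lit 5) (nat_lit 214) (nat_lit 5) (nat_lit 215) (nat_lit 5) (nat_lit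 415) (nat_lit 386) (nat_lit 219))) (XT.nd (nat_lit 78) (nat_lit 152) (nat_lit 0) (XT.lf (nat_lit 0) (nat_lit 37151672673) (nat_lit 152) (nat_lit 429376308585) (nat_lit 76) (nat_lit 67602643836) (nat_lit 210) (nat_lit 5) (nat_lit 212) (nat_lit 5) (nat_lit 211) (nat_lit 5) (nat_lit 416) (nat_lit 386) (nat_lit 218)) (XT.lf (nat_lit 0) (nat_lit 111938108353) (nat_lit 152) (nat_lit 169292304906) (nat_lit 228) (nat_lit 279699313552) (nat_lit 208) (nat_lit 5) (nat_lit 210) (nat_lit 5) (nat_lit 211) (nat_lit 5) (nat_lit 417) (nat_lit 386) (nat_lit 217)))) (XT.nd (nat_lit 156) (nat_lit 304) (nat_lit 0) (XT.nd (nat_lit 78) (nat_lit 228) (nat_lit 0) (XT.lf (nat_lit 0) (nat_lit 123864593850) (nat_lit 76) (nat_lit 432875499040) (nat_lit 152) (nat_lit 32537431785) (nat_lit 207) (nat_lit 5) (nat_lit 208) (nat_lit 5) (nat_lit 209) (nat_lit 4) (nat_lit 418) (nat_lit 386) (nat_lit 216)) (XT.lf (nat_lit 0) (nat_lit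 136816961230) (nat_lit 152) (nat_lit 103018180632) (nat_lit 228) (nat_lit 379228028391) (nat_lit 204) (nat_lit 5) (nat_lit 206) (nat_lit 5) (nat_lit 207) (nat_lit 5) (nat_lit 419) (nat_lit 386) (nat_lit 215))) (XT.nd (nat_lit 78) (nat_lit 228) (nat_lit 0) (XT.lf (nat_lit 0) (nat_lit 153289568529) (nat_lit 76) (nat_lit 394170104119) (nat_lit 152) (nat_lit 103015219585) (nat_lit 203) (nat_lit 5) (nat_lit 204) (nat_lit 5) (nat_lit 205) (nat_lit 4) (nat_lit 420) (nat_lit 386) (nat_lit 214)) (XT.lf (nat_lit 0) (nat_lit 173539816442) (nat_lit 152) (nat_lit 28488693091) (nat_lit 228) (nat_lit 481569360482) (nat_lit 200) (nat_lit 5) (nat_lit 202) (nat_lit 5) (nat_lit 203) (nat_lit 5) (nat_lit 421) (nat_lit 386) (nat_lit 213))))) (XT.nd (nat_lit 312) (nat_lit 456) (nat_lit 0) (XT.nd (nat_lit 156) (nat_lit 304) (nat_lit 0) (XT.nd (nat_lit 78) (nat_lit 228) (nat_lit 0) (XT.lf (nat_lit 0) (nat_lit 195392978607)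 (nat_lit 76) (nat_lit 350096282436) (nat_lit 152) (nat_lit 172915852494) (nat_lit 199) (nat_lit 5) (nat_lit 200) (nat_lit 5) (nat_lit 201) (nat_lit 4) (nat_lit 422) (nat_lit 386) (nat_lit 212)) (XT.lf (nat_lit 0) (nat_lit 169172190816) (nat_lit 228) (nat_lit 532111400276) (nat_lit 76) (nat_lit 53894256677) (nat_lit 196) (nat_lit 5) (nat_lit 199) (nat_lit 5) (nat_lit 197) (nat_lit 4) (nat_lit 423) (nat_lit 386) (nat_lit 211))) (XT.nd (nat_lit 78) (nat_lit 228) (nat_lit 0) (XT.lf (nat_lit 0) (nat_lit 252173699021) (nat_lit 76) (nat_lit 299576633960) (nat_lit 152) (nat_lit 242041274225) (nat_lit 195) (nat_lit 5) (nat_lit 196) (nat_lit 5) (nat_lit 197) (nat_lit 4) (nat_lit 424) (nat_lit 386) (nat_lit 210)) (XT.lf (nat_lit 0) (nat_lit 141608655022) (nat_lit 228) (nat_lit 546763751402) (nat_lit 76) (nat_lit 146205450086) (nat_lit 192) (nat_lit 5) (nat_lit 195) (nat_lit 5) (nat_lit 193) (nat_lit 4)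 (nat_lit 425) (nat_lit 386) (nat_lit 209)))) (XT.nd (nat_lit 156) (nat_lit 228) (nat_lit 0) (XT.nd (nat_lit 78) (nat_lit 152) (nat_lit 0) (XT.lf (nat_lit 0) (nat_lit 325930722182) (nat_lit 76) (nat_lit 241382590800) (nat_lit 152) (nat_lit 310123164210) (nat_lit 191) (nat_lit 5) (nat_lit 192) (nat_lit 5) (nat_lit 193) (nat_lit 4) (nat_lit 426) (nat_lit 386) (nat_lit 208)) (XT.lf (nat_lit 0) (nat_lit 119626534577) (nat_lit 152) (nat_lit 551967165157) (nat_lit 76) (nat_lit 251070216114) (nat_lit 189) (nat_lit 5) (nat_lit 191) (nat_lit 5) (nat_lit 190) (nat_lit 4) (nat_lit 427) (nat_lit 386) (nat_lit 207))) (XT.nd (nat_lit 78) (nat_lit 152) (nat_lit 0) (XT.lf (nat_lit 0) (nat_lit 419303633814) (nat_lit 76) (nat_lit 174113564374) (nat_lit 152) (nat_lit 376811842400) (nat_lit 188) (nat_lit 5) (nat_lit 189) (nat_lit 5) (nat_lit 190) (nat_lit 4) (nat_lit 428) (nat_lit 386) (nat_lit 206)) (XT.lf (nat_lit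 0) (nat_lit 104092510280) (nat_lit 152) (nat_lit 545850048546) (nat_lit 76) (nat_lit 370428940469) (nat_lit 186) (nat_lit 5) (nat_lit 188) (nat_lit 5) (nat_lit 187) (nat_lit 4) (nat_lit 429) (nat_lit 386) (nat_lit 205)))))) (XT.nd (nat_lit 624) (nat_lit 988) (nat_lit 0) (XT.nd (nat_lit 312) (nat_lit 456) (nat_lit 0) (XT.nd (nat_lit 156) (nat_lit 228) (nat_lit 0) (XT.nd (nat_lit 78) (nat_lit 152) (nat_lit 0) (XT.lf (nat_lit 0) (nat_lit 535318354634) (nat_lit 76) (nat_lit 96173401177) (nat_lit 152) (nat_lit 441663526919) (nat_lit 185) (nat_lit 5) (nat_lit 186) (nat_lit 5) (nat_lit 187) (nat_lit 4) (nat_lit 430) (nat_lit 386) (nat_lit 204)) (XT.lf (nat_lit 0) (nat_lit 96025103928) (nat_lit 152) (nat_lit 526234052397) (nat_lit 76) (nat_lit 506478555992) (nat_lit 183) (nat_lit 5) (nat_lit 185) (nat_lit 5) (nat_lit 184) (nat_lit 4) (nat_lit 431) (nat_lit 386) (nat_lit 203))) (XT.nd (nat_lit 78) (nat_lit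 152) (nat_lit 0) (XT.lf (nat_lit 0) (nat_lit 677438809514) (nat_lit 76) (nat_lit 5743808007) (nat_lit 152) (nat_lit 504125722924) (nat_lit 182) (nat_lit 5) (nat_lit 183) (nat_lit 5) (nat_lit 184) (nat_lit 4) (nat_lit 432) (nat_lit 386) (nat_lit 202)) (XT.lf (nat_lit 0) (nat_lit 96615781668) (nat_lit 152) (nat_lit 490590594558) (nat_lit 76) (nat_lit 661705935103) (nat_lit 180) (nat_lit 5) (nat_lit 182) (nat_lit 5) (nat_lit 181) (nat_lit 4) (nat_lit 433) (nat_lit 386) (nat_lit 201)))) (XT.nd (nat_lit 156) (nat_lit 228) (nat_lit 0) (XT.nd (nat_lit 78) (nat_lit 152) (nat_lit 0) (XT.lf (nat_lit 0) (nat_lit 751929135482) (nat_lit 152) (nat_lit 465824360541) (nat_lit 0) (nat_lit 96069154130) (nat_lit 179) (nat_lit 5) (nat_lit 181) (nat_lit 4) (nat_lit 179) (nat_lit 4) (nat_lit 434) (nat_lit 386) (nat_lit 200)) (XT.lf (nat_lit 0) (nat_lit 107252903330) (nat_lit 152) (nat_lit 435991559012) (nat_lit 76)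 (nat_lit 838925458171) (nat_lit 177) (nat_lit 5) (nat_lit 179) (nat_lit 5) (nat_lit 178) (nat_lit 4) (nat_lit 435) (nat_lit 386) (nat_lit 199))) (XT.nd (nat_lit 78) (nat_lit 152) (nat_lit 0) (XT.lf (nat_lit 0) (nat_lit 838701680892) (nat_lit 152) (nat_lit 401326817132) (nat_lit 0) (nat_lit 214073073134) (nat_lit 176) (nat_lit 5) (nat_lit 178) (nat_lit 4) (nat_lit 176) (nat_lit 4) (nat_lit 436) (nat_lit 386) (nat_lit 198)) (XT.lf (nat_lit 0) (nat_lit 129548881894) (nat_lit 152) (nat_lit 359053423951) (nat_lit 76) (nat_lit 1041321270906) (nat_lit 174) (nat_lit 5) (nat_lit 176) (nat_lit 5) (nat_lit 175) (nat_lit 4) (nat_lit 437) (nat_lit 386) (nat_lit 197))))) (XT.nd (nat_lit 312) (nat_lit 532) (nat_lit 0) (XT.nd (nat_lit 156) (nat_lit 228) (nat_lit 0) (XT.nd (nat_lit 78) (nat_lit 152) (nat_lit 0) (XT.lf (nat_lit 0) (nat_lit 945930893095) (nat_lit 152) (nat_lit 312659665382) (nat_lit 0) (nat_lit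 351046460590) (nat_lit 173) (nat_lit 5) (nat_lit 175) (nat_lit 4) (nat_lit 173) (nat_lit 4) (nat_lit 438) (nat_lit 386) (nat_lit 196)) (XT.lf (nat_lit 0) (nat_lit 165370962743) (nat_lit 152) (nat_lit 255873978541) (nat_lit 76) (nat_lit 1272494805844) (nat_lit 171) (nat_lit 5) (nat_lit 173) (nat_lit 5) (nat_lit 172) (nat_lit 4) (nat_lit 439) (nat_lit 386) (nat_lit 195))) (XT.nd (nat_lit 78) (nat_lit 152) (nat_lit 0) (XT.lf (nat_lit 0) (nat_lit 1076495976625) (nat_lit 152) (nat_lit 195642617829) (nat_lit 0) (nat_lit 509939338179) (nat_lit 170) (nat_lit 5) (nat_lit 172) (nat_lit 4) (nat_lit 170) (nat_lit 4) (nat_lit 440) (nat_lit 386) (nat_lit 194)) (XT.lf (nat_lit 0) (nat_lit 216876083437) (nat_lit 152) (nat_lit 121960683452) (nat_lit 76) (nat_lit 1536518212332) (nat_lit 168) (nat_lit 5) (nat_lit 170) (nat_lit 5) (nat_lit 169) (nat_lit 4) (nat_lit 441) (nat_lit 386) (nat_lit 193)))) (XT.nd (nat_lit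 156) (nat_lit 228) (nat_lit 0) (XT.nd (nat_lit 78) (nat_lit 228) (nat_lit 0) (XT.lf (nat_lit 0) (nat_lit 1233681768713) (nat_lit 152) (nat_lit 45466528718) (nat_lit 0) (nat_lit 694103988368) (nat_lit 167) (nat_lit 5) (nat_lit 169) (nat_lit 4) (nat_lit 167) (nat_lit 4) (nat_lit 442) (nat_lit 386) (nat_lit 192)) (XT.lf (nat_lit 0) (nat_lit 49432537146) (nat_lit 76) (nat_lit 237889575340) (nat_lit 152) (nat_lit 1789333660312) (nat_lit 164) (nat_lit 5) (nat_lit 165) (nat_lit 5) (nat_lit 166) (nat_lit 4) (nat_lit 443) (nat_lit 386) (nat_lit 191))) (XT.nd (nat_lit 78) (nat_lit 152) (nat_lit 0) (XT.lf (nat_lit 0) (nat_lit 148133936048) (nat_lit 76) (nat_lit 1275410285435) (nat_lit 76) (nat_lit 761526661065) (nat_lit 163) (nat_lit 4) (nat_lit 164) (nat_lit 5) (nat_lit 164) (nat_lit 4) (nat_lit 444) (nat_lit 386) (nat_lit 190)) (XT.lf (nat_lit 0) (nat_lit 268066003231) (nat_lit 76) (nat_lit 113372844721)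 (nat_lit 152) (nat_lit 1918243882066) (nat_lit 161) (nat_lit 5) (nat_lit 162) (nat_lit 5) (nat_lit 163) (nat_lit 4) (nat_lit 445) (nat_lit 386) (nat_lit 189)))))))
noncomputable def xc209 : XT := (XT.nd (nat_lit 1248) (nat_lit 3496) (nat_lit 0) (XT.nd (nat_lit 624) (nat_lit 2584) (nat_lit 0) (XT.nd (nat_lit 312) (nat_lit 380) (nat_lit 0) (XT.nd (nat_lit 156) (nat_lit 0) (nat_lit 76) (XT.nd (nat_lit 78) (nat_lit 0) (nat_lit 76) (XT.lf (nat_lit 0) (nat_lit 35501643861) (nat_lit 836) (nat_lit 20016482780) (nat_lit 836) (nat_lit 20016482780) (nat_lit 292) (nat_lit 3) (nat_lit 303) (nat_lit 3) (nat_lit 303) (nat_lit 5) (nat_lit 387) (nat_lit 387) (nat_lit 246)) (XT.lf (nat_lit 0) (nat_lit 75281704626) (nat_lit 760) (nat_lit 73682129612) (nat_lit 836) (nat_lit 8076239088) (nat_lit 293) (nat_lit 5) (nat_lit 303) (nat_lit 5) (nat_lit 304) (nat_lit 5) (nat_lit 388) (nat_lit 387) (nat_lit 245))) (XT.nd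 (nat_lit 78) (nat_lit 0) (nat_lit 76) (XT.lf (nat_lit 76) (nat_lit 54454885305) (nat_lit 0) (nat_lit 28878312946) (nat_lit 836) (nat_lit 79983857749) (nat_lit 294) (nat_lit 5) (nat_lit 293) (nat_lit 5) (nat_lit 304) (nat_lit 5) (nat_lit 389) (nat_lit 387) (nat_lit 244)) (XT.lf (nat_lit 76) (nat_lit 24635174567) (nat_lit 0) (nat_lit 70656373850) (nat_lit 836) (nat_lit 74641512019) (nat_lit 295) (nat_lit 5) (nat_lit 294) (nat_lit 5) (nat_lit 305) (nat_lit 5) (nat_lit 390) (nat_lit 387) (nat_lit 243)))) (XT.nd (nat_lit 156) (nat_lit 608) (nat_lit 0) (XT.nd (nat_lit 78) (nat_lit 0) (nat_lit 76) (XT.lf (nat_lit 0) (nat_lit 111543556644) (nat_lit 760) (nat_lit 5725142467) (nat_lit 836) (nat_lit 59642796614) (nat_lit 295) (nat_lit 5) (nat_lit 305) (nat_lit 5) (nat_lit 306) (nat_lit 5) (nat_lit 391) (nat_lit 387) (nat_lit 242)) (XT.lf (nat_lit 0) (nat_lit 132855817833) (nat_lit 760) (nat_lit 35944859914)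 (nat_lit 836) (nat_lit 15459523474) (nat_lit 296) (nat_lit 5) (nat_lit 306) (nat_lit 5) (nat_lit 307) (nat_lit 5) (nat_lit 392) (nat_lit 387) (nat_lit 241))) (XT.nd (nat_lit 78) (nat_lit 684) (nat_lit 0) (XT.lf (nat_lit 76) (nat_lit 124703716066) (nat_lit 0) (nat_lit 35194713483) (nat_lit 836) (nat_lit 32097105126) (nat_lit 297) (nat_lit 5) (nat_lit 296) (nat_lit 5) (nat_lit 307) (nat_lit 5) (nat_lit 393) (nat_lit 387) (nat_lit 240)) (XT.lf (nat_lit 0) (nat_lit 100677793730) (nat_lit 760) (nat_lit 92337961136) (nat_lit 836) (nat_lit 7138374706) (nat_lit 287) (nat_lit 5) (nat_lit 297) (nat_lit 5) (nat_lit 298) (nat_lit 5) (nat_lit 394) (nat_lit 387) (nat_lit 239))))) (XT.nd (nat_lit 312) (nat_lit 988) (nat_lit 0) (XT.nd (nat_lit 156) (nat_lit 684) (nat_lit 0) (XT.nd (nat_lit 78) (nat_lit 380) (nat_lit 0) (XT.lf (nat_lit 0) (nat_lit 23029520088) (nat_lit 532) (nat_lit 132531160253) (nat_lit 76)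 (nat_lit 53196924960) (nat_lit 280) (nat_lit 5) (nat_lit 287) (nat_lit 5) (nat_lit 281) (nat_lit 5) (nat_lit 395) (nat_lit 387) (nat_lit 238)) (XT.lf (nat_lit 0) (nat_lit 51517854497) (nat_lit 380) (nat_lit 7968507881) (nat_lit 456) (nat_lit 158350865095) (nat_lit 275) (nat_lit 5) (nat_lit 280) (nat_lit 5) (nat_lit 281) (nat_lit 5) (nat_lit 396) (nat_lit 387) (nat_lit 237))) (XT.nd (nat_lit 78) (nat_lit 304) (nat_lit 0) (XT.lf (nat_lit 0) (nat_lit 25922955948) (nat_lit 380) (nat_lit 78051979930) (nat_lit 456) (nat_lit 123412524349) (nat_lit 270) (nat_lit 5) (nat_lit 275) (nat_lit 5) (nat_lit 276) (nat_lit 5) (nat_lit 397) (nat_lit 387) (nat_lit 236)) (XT.lf (nat_lit 0) (nat_lit 494324988) (nat_lit 304) (nat_lit 155881164940) (nat_lit 380) (nat_lit 81108576940) (nat_lit 266) (nat_lit 5) (nat_lit 270) (nat_lit 5) (nat_lit 271) (nat_lit 5) (nat_lit 398) (nat_lit 387) (nat_lit 235)))) (XT.nd (nat_lit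 156) (nat_lit 608) (nat_lit 0) (XT.nd (nat_lit 78) (nat_lit 380) (nat_lit 0) (XT.lf (nat_lit 0) (nat_lit 217876278562) (nat_lit 380) (nat_lit 23808159230) (nat_lit 76) (nat_lit 6458554736) (nat_lit 266) (nat_lit 5) (nat_lit 271) (nat_lit 5) (nat_lit 267) (nat_lit 5) (nat_lit 399) (nat_lit 387) (nat_lit 234)) (XT.lf (nat_lit 0) (nat_lit 29866065983) (nat_lit 380) (nat_lit 49302801504) (nat_lit 76) (nat_lit 180165913742) (nat_lit 261) (nat_lit 5) (nat_lit 266) (nat_lit 5) (nat_lit 262) (nat_lit 5) (nat_lit 400) (nat_lit 387) (nat_lit 233))) (XT.nd (nat_lit 78) (nat_lit 304) (nat_lit 0) (XT.lf (nat_lit 0) (nat_lit 98843621373) (nat_lit 380) (nat_lit 74947912470) (nat_lit 76) (nat_lit 97350842837) (nat_lit 257) (nat_lit 5) (nat_lit 262) (nat_lit 5) (nat_lit 258) (nat_lit 5) (nat_lit 401) (nat_lit 387) (nat_lit 232)) (XT.lf (nat_lit 0) (nat_lit 178499866691) (nat_lit 380) (nat_lit 99951287804) (nat_lit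 76) (nat_lit 5185400998) (nat_lit 253) (nat_lit 5) (nat_lit 258) (nat_lit 5) (nat_lit 254) (nat_lit 5) (nat_lit 402) (nat_lit 387) (nat_lit 231)))))) (XT.nd (nat_lit 624) (nat_lit 1444) (nat_lit 0) (XT.nd (nat_lit 312) (nat_lit 988) (nat_lit 0) (XT.nd (nat_lit 156) (nat_lit 456) (nat_lit 0) (XT.nd (nat_lit 78) (nat_lit 380) (nat_lit 0) (XT.lf (nat_lit 0) (nat_lit 171146128570) (nat_lit 228) (nat_lit 100311756468) (nat_lit 304) (nat_lit 25325919903) (nat_lit 250) (nat_lit 5) (nat_lit 253) (nat_lit 5) (nat_lit 254) (nat_lit 5) (nat_lit 403) (nat_lit 387) (nat_lit 230)) (XT.lf (nat_lit 0) (nat_lit 64724386575) (nat_lit 380) (nat_lit 151473344587) (nat_lit 76) (nat_lit 94447441497) (nat_lit 245) (nat_lit 5) (nat_lit 250) (nat_lit 5) (nat_lit 246) (nat_lit 5) (nat_lit 404) (nat_lit 387) (nat_lit 229))) (XT.nd (nat_lit 78) (nat_lit 228) (nat_lit 0) (XT.lf (nat_lit 0) (nat_lit 148339750499) (nat_lit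 228) (nat_lit 18995205146) (nat_lit 304) (nat_lit 157947558451) (nat_lit 242) (nat_lit 5) (nat_lit 245) (nat_lit 5) (nat_lit 246) (nat_lit 5) (nat_lit 405) (nat_lit 387) (nat_lit 228)) (XT.lf (nat_lit 0) (nat_lit 137930564193) (nat_lit 228) (nat_lit 148087575532) (nat_lit 304) (nat_lit 54679514651) (nat_lit 239) (nat_lit 5) (nat_lit 242) (nat_lit 5) (nat_lit 243) (nat_lit 5) (nat_lit 406) (nat_lit 387) (nat_lit 227)))) (XT.nd (nat_lit 156) (nat_lit 456) (nat_lit 0) (XT.nd (nat_lit 78) (nat_lit 228) (nat_lit 0) (XT.lf (nat_lit 0) (nat_lit 61598587659) (nat_lit 304) (nat_lit 228089375493) (nat_lit 76) (nat_lit 67285254896) (nat_lit 235) (nat_lit 5) (nat_lit 239) (nat_lit 5) (nat_lit 236) (nat_lit 5) (nat_lit 407) (nat_lit 387) (nat_lit 226)) (XT.lf (nat_lit 0) (nat_lit 120306788530) (nat_lit 228) (nat_lit 72947234927) (nat_lit 304) (nat_lit 180852444626) (nat_lit 232) (nat_lit 5) (nat_lit 235)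 (nat_lit 5) (nat_lit 236) (nat_lit 5) (nat_lit 408) (nat_lit 387) (nat_lit 225))) (XT.nd (nat_lit 78) (nat_lit 304) (nat_lit 0) (XT.lf (nat_lit 0) (nat_lit 113354897156) (nat_lit 152) (nat_lit 230410678871) (nat_lit 228) (nat_lit 48428617999) (nat_lit 230) (nat_lit 5) (nat_lit 232) (nat_lit 5) (nat_lit 233) (nat_lit 5) (nat_lit 409) (nat_lit 387) (nat_lit 224)) (XT.lf (nat_lit 0) (nat_lit 99115862727) (nat_lit 304) (nat_lit 303309315348) (nat_lit 76) (nat_lit 8852210392) (nat_lit 226) (nat_lit 5) (nat_lit 230) (nat_lit 5) (nat_lit 227) (nat_lit 5) (nat_lit 410) (nat_lit 387) (nat_lit 223))))) (XT.nd (nat_lit 312) (nat_lit 760) (nat_lit 0) (XT.nd (nat_lit 156) (nat_lit 304) (nat_lit 0) (XT.nd (nat_lit 78) (nat_lit 228) (nat_lit 0) (XT.lf (nat_lit 0) (nat_lit 102533032384) (nat_lit 152) (nat_lit 164679517226) (nat_lit 228) (nat_lit 164112725739) (nat_lit 224) (nat_lit 5) (nat_lit 226) (nat_lit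 5) (nat_lit 227) (nat_lit 5) (nat_lit 411) (nat_lit 387) (nat_lit 222)) (XT.lf (nat_lit 0) (nat_lit 4431622496) (nat_lit 228) (nat_lit 351971336458) (nat_lit 76) (nat_lit 96151499684) (nat_lit 221) (nat_lit 5) (nat_lit 224) (nat_lit 5) (nat_lit 222) (nat_lit 5) (nat_lit 412) (nat_lit 387) (nat_lit 221))) (XT.nd (nat_lit 78) (nat_lit 152) (nat_lit 0) (XT.lf (nat_lit 0) (nat_lit 98364104038) (nat_lit 152) (nat_lit 92556225596) (nat_lit 228) (nat_lit 283916602253) (nat_lit 219) (nat_lit 5) (nat_lit 221) (nat_lit 5) (nat_lit 222) (nat_lit 5) (nat_lit 413) (nat_lit 387) (nat_lit 220)) (XT.lf (nat_lit 0) (nat_lit 98755935330) (nat_lit 152) (nat_lit 304349436421) (nat_lit 228) (nat_lit 95257769323) (nat_lit 217) (nat_lit 5) (nat_lit 219) (nat_lit 5) (nat_lit 220) (nat_lit 5) (nat_lit 414) (nat_lit 387) (nat_lit 219)))) (XT.nd (nat_lit 156) (nat_lit 380) (nat_lit 0) (XT.nd (nat_lit 78) (nat_lit 152)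 (nat_lit 0) (XT.lf (nat_lit 0) (nat_lit 101902423978) (nat_lit 152) (nat_lit 12935823983) (nat_lit 228) (nat_lit 408357656651) (nat_lit 214) (nat_lit 5) (nat_lit 216) (nat_lit 5) (nat_lit 217) (nat_lit 5) (nat_lit 415) (nat_lit 387) (nat_lit 218)) (XT.lf (nat_lit 0) (nat_lit 105065861966) (nat_lit 152) (nat_lit 246810410616) (nat_lit 228) (nat_lit 197387351802) (nat_lit 212) (nat_lit 5) (nat_lit 214) (nat_lit 5) (nat_lit 215) (nat_lit 5) (nat_lit 416) (nat_lit 387) (nat_lit 217))) (XT.nd (nat_lit 78) (nat_lit 228) (nat_lit 0) (XT.lf (nat_lit 0) (nat_lit 40125963294) (nat_lit 152) (nat_lit 463722568793) (nat_lit 76) (nat_lit 73012435174) (nat_lit 210) (nat_lit 5) (nat_lit 212) (nat_lit 5) (nat_lit 211) (nat_lit 5) (nat_lit 417) (nat_lit 387) (nat_lit 216)) (XT.nd (nat_lit 78) (nat_lit 76) (nat_lit 0) (XT.lf (nat_lit 0) (nat_lit 120896834423) (nat_lit 152) (nat_lit 182834066354) (nat_lit 228) (nat_lit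 302073101455) (nat_lit 208) (nat_lit 5) (nat_lit 210) (nat_lit 5) (nat_lit 211) (nat_lit 5) (nat_lit 418) (nat_lit 387) (nat_lit 215)) (XT.lf (nat_lit 0) (nat_lit 133777352966) (nat_lit 76) (nat_lit 467503929169) (nat_lit 152) (nat_lit 35138345424) (nat_lit 207) (nat_lit 5) (nat_lit 208) (nat_lit 5) (nat_lit 209) (nat_lit 4) (nat_lit 419) (nat_lit 387) (nat_lit 214))))))))
noncomputable def xc210 : XT := (XT.nd (nat_lit 1248) (nat_lit 1140) (nat_lit 0) (XT.nd (nat_lit 624) (nat_lit 912) (nat_lit 0) (XT.nd (nat_lit 312) (nat_lit 608) (nat_lit 0) (XT.nd (nat_lit 156) (nat_lit 304) (nat_lit 0) (XT.nd (nat_lit 78) (nat_lit 76) (nat_lit 0) (XT.lf (nat_lit 0) (nat_lit 147765817357) (nat_lit 152) (nat_lit 111258055581) (nat_lit 228) (nat_lit 409564254949) (nat_lit 204) (nat_lit 5) (nat_lit 206) (nat_lit 5) (nat_lit 207) (nat_lit 5) (nat_lit 420) (nat_lit 387) (nat_lit 213)) (XT.lf (nat_lit 0) (nat_lit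 165556149394) (nat_lit 76) (nat_lit 425702150748) (nat_lit 152) (nat_lit 111254490785) (nat_lit 203) (nat_lit 5) (nat_lit 204) (nat_lit 5) (nat_lit 205) (nat_lit 4) (nat_lit 421) (nat_lit 387) (nat_lit 212))) (XT.nd (nat_lit 78) (nat_lit 76) (nat_lit 0) (XT.lf (nat_lit 0) (nat_lit 187426328300) (nat_lit 152) (nat_lit 30766258442) (nat_lit 228) (nat_lit 520093023051) (nat_lit 200) (nat_lit 5) (nat_lit 202) (nat_lit 5) (nat_lit 203) (nat_lit 5) (nat_lit 422) (nat_lit 387) (nat_lit 211)) (XT.lf (nat_lit 0) (nat_lit 211027661938) (nat_lit 76) (nat_lit 378102476148) (nat_lit 152) (nat_lit 186747297725) (nat_lit 199) (nat_lit 5) (nat_lit 200) (nat_lit 5) (nat_lit 201) (nat_lit 4) (nat_lit 423) (nat_lit 387) (nat_lit 210)))) (XT.nd (nat_lit 156) (nat_lit 304) (nat_lit 0) (XT.nd (nat_lit 78) (nat_lit 76) (nat_lit 0) (XT.lf (nat_lit 0) (nat_lit 182707672377) (nat_lit 228) (nat_lit 574677091361) (nat_lit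 76) (nat_lit 58207226537) (nat_lit 196) (nat_lit 5) (nat_lit 199) (nat_lit 5) (nat_lit 197) (nat_lit 4) (nat_lit 424) (nat_lit 387) (nat_lit 209)) (XT.lf (nat_lit 0) (nat_lit 272350675901) (nat_lit 76) (nat_lit 323541311724) (nat_lit 152) (nat_lit 261402866756) (nat_lit 195) (nat_lit 5) (nat_lit 196) (nat_lit 5) (nat_lit 197) (nat_lit 4) (nat_lit 425) (nat_lit 387) (nat_lit 208))) (XT.nd (nat_lit 78) (nat_lit 76) (nat_lit 0) (XT.lf (nat_lit 0) (nat_lit 152938948555) (nat_lit 228) (nat_lit 590501795345) (nat_lit 76) (nat_lit 157903261074) (nat_lit 192) (nat_lit 5) (nat_lit 195) (nat_lit 5) (nat_lit 193) (nat_lit 4) (nat_lit 426) (nat_lit 387) (nat_lit 207)) (XT.lf (nat_lit 0) (nat_lit 352008103307) (nat_lit 76) (nat_lit 260691802884) (nat_lit 152) (nat_lit 334931412767) (nat_lit 191) (nat_lit 5) (nat_lit 192) (nat_lit 5) (nat_lit 193) (nat_lit 4) (nat_lit 427) (nat_lit 387) (nat_lit 206))))) (XT.nd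 (nat_lit 312) (nat_lit 456) (nat_lit 0) (XT.nd (nat_lit 156) (nat_lit 228) (nat_lit 0) (XT.nd (nat_lit 78) (nat_lit 76) (nat_lit 0) (XT.lf (nat_lit 0) (nat_lit 129198161216) (nat_lit 152) (nat_lit 596121640087) (nat_lit 76) (nat_lit 271157152620) (nat_lit 189) (nat_lit 5) (nat_lit 191) (nat_lit 5) (nat_lit 190) (nat_lit 4) (nat_lit 428) (nat_lit 387) (nat_lit 205)) (XT.lf (nat_lit 0) (nat_lit 452850696846) (nat_lit 76) (nat_lit 188041312955) (nat_lit 152) (nat_lit 406955282246) (nat_lit 188) (nat_lit 5) (nat_lit 189) (nat_lit 5) (nat_lit 190) (nat_lit 4) (nat_lit 429) (nat_lit 387) (nat_lit 204))) (XT.nd (nat_lit 78) (nat_lit 76) (nat_lit 0) (XT.lf (nat_lit 0) (nat_lit 112421324795) (nat_lit 152) (nat_lit 589515305134) (nat_lit 76) (nat_lit 400064518626) (nat_lit 186) (nat_lit 5) (nat_lit 188) (nat_lit 5) (nat_lit 187) (nat_lit 4) (nat_lit 430) (nat_lit 387) (nat_lit 203)) (XT.lf (nat_lit 0)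 (nat_lit 578146450906) (nat_lit 76) (nat_lit 103865995373) (nat_lit 152) (nat_lit 476995191570) (nat_lit 185) (nat_lit 5) (nat_lit 186) (nat_lit 5) (nat_lit 187) (nat_lit 4) (nat_lit 431) (nat_lit 387) (nat_lit 202)))) (XT.nd (nat_lit 156) (nat_lit 228) (nat_lit 0) (XT.nd (nat_lit 78) (nat_lit 76) (nat_lit 0) (XT.lf (nat_lit 0) (nat_lit 103708442124) (nat_lit 152) (nat_lit 568330173439) (nat_lit 76) (nat_lit 546998047245) (nat_lit 183) (nat_lit 5) (nat_lit 185) (nat_lit 5) (nat_lit 184) (nat_lit 4) (nat_lit 432) (nat_lit 387) (nat_lit 201)) (XT.lf (nat_lit 0) (nat_lit 731636404295) (nat_lit 76) (nat_lit 6202092876) (nat_lit 152) (nat_lit 544454446997) (nat_lit 182) (nat_lit 5) (nat_lit 183) (nat_lit 5) (nat_lit 184) (nat_lit 4) (nat_lit 433) (nat_lit 387) (nat_lit 200))) (XT.nd (nat_lit 78) (nat_lit 76) (nat_lit 0) (XT.lf (nat_lit 0) (nat_lit 104346296032) (nat_lit 152) (nat_lit 529835376388)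 (nat_lit 76) (nat_lit 714643561223) (nat_lit 180) (nat_lit 5) (nat_lit 182) (nat_lit 5) (nat_lit 181) (nat_lit 4) (nat_lit 434) (nat_lit 387) (nat_lit 199)) (XT.lf (nat_lit 0) (nat_lit 812084680399) (nat_lit 152) (nat_lit 503087909164) (nat_lit 0) (nat_lit 103755811898) (nat_lit 179) (nat_lit 5) (nat_lit 181) (nat_lit 4) (nat_lit 179) (nat_lit 4) (nat_lit 435) (nat_lit 387) (nat_lit 198)))))) (XT.nd (nat_lit 624) (nat_lit 228) (nat_lit 0) (XT.nd (nat_lit 312) (nat_lit 456) (nat_lit 0) (XT.nd (nat_lit 156) (nat_lit 228) (nat_lit 0) (XT.nd (nat_lit 78) (nat_lit 76) (nat_lit 0) (XT.lf (nat_lit 0) (nat_lit 115834314606) (nat_lit 152) (nat_lit 470868548840) (nat_lit 76) (nat_lit 906040591758) (nat_lit 177) (nat_lit 5) (nat_lit 179) (nat_lit 5) (nat_lit 178) (nat_lit 4) (nat_lit 436) (nat_lit 387) (nat_lit 197)) (XT.lf (nat_lit 0) (nat_lit 905798959189) (nat_lit 152) (nat_lit 433430690036) (nat_lit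 0) (nat_lit 231199990435) (nat_lit 176) (nat_lit 5) (nat_lit 178) (nat_lit 4) (nat_lit 176) (nat_lit 4) (nat_lit 437) (nat_lit 387) (nat_lit 196))) (XT.nd (nat_lit 78) (nat_lit 76) (nat_lit 0) (XT.lf (nat_lit 0) (nat_lit 139913903401) (nat_lit 152) (nat_lit 387775487425) (nat_lit 76) (nat_lit 1124628016518) (nat_lit 174) (nat_lit 5) (nat_lit 176) (nat_lit 5) (nat_lit 175) (nat_lit 4) (nat_lit 438) (nat_lit 387) (nat_lit 195)) (XT.lf (nat_lit 0) (nat_lit 1021606442651) (nat_lit 152) (nat_lit 337670287586) (nat_lit 0) (nat_lit 379131196450) (nat_lit 173) (nat_lit 5) (nat_lit 175) (nat_lit 4) (nat_lit 173) (nat_lit 4) (nat_lit 439) (nat_lit 387) (nat_lit 194)))) (XT.nd (nat_lit 156) (nat_lit 228) (nat_lit 0) (XT.nd (nat_lit 78) (nat_lit 76) (nat_lit 0) (XT.lf (nat_lit 0) (nat_lit 178601687027) (nat_lit 152) (nat_lit 276341804651) (nat_lit 76) (nat_lit 1374295382857) (nat_lit 171) (nat_lit 5) (nat_lit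 173) (nat_lit 5) (nat_lit 172) (nat_lit 4) (nat_lit 440) (nat_lit 387) (nat_lit 193)) (XT.lf (nat_lit 0) (nat_lit 1162616671308) (nat_lit 152) (nat_lit 211291991577) (nat_lit 0) (nat_lit 550735453533) (nat_lit 170) (nat_lit 5) (nat_lit 172) (nat_lit 4) (nat_lit 170) (nat_lit 4) (nat_lit 441) (nat_lit 387) (nat_lit 192))) (XT.nd (nat_lit 78) (nat_lit 76) (nat_lit 0) (XT.lf (nat_lit 0) (nat_lit 234227157694) (nat_lit 152) (nat_lit 131715558264) (nat_lit 76) (nat_lit 1659440612222) (nat_lit 168) (nat_lit 5) (nat_lit 170) (nat_lit 5) (nat_lit 169) (nat_lit 4) (nat_lit 442) (nat_lit 387) (nat_lit 191)) (XT.lf (nat_lit 0) (nat_lit 1332377269036) (nat_lit 152) (nat_lit 49101924823) (nat_lit 0) (nat_lit 749633226863) (nat_lit 167) (nat_lit 5) (nat_lit 169) (nat_lit 4) (nat_lit 167) (nat_lit 4) (nat_lit 443) (nat_lit 387) (nat_lit 190))))) (XT.nd (nat_lit 48984) (nat_lit 0) (nat_lit 9880) (XT.nd (nat_lit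 48828) (nat_lit 0) (nat_lit 9804) (XT.nd (nat_lit 48750) (nat_lit 0) (nat_lit 9728) (XT.lf (nat_lit 0) (nat_lit 53389075342) (nat_lit 76) (nat_lit 256919767950) (nat_lit 152) (nat_lit 1932479343240) (nat_lit 164) (nat_lit 5) (nat_lit 165) (nat_lit 5) (nat_lit 166) (nat_lit 4) (nat_lit 444) (nat_lit 387) (nat_lit 189)) (XT.lf (nat_lit 0) (nat_lit 38346105583) (nat_lit 836) (nat_lit 21615528040) (nat_lit 836) (nat_lit 21615528040) (nat_lit 292) (nat_lit 3) (nat_lit 303) (nat_lit 3) (nat_lit 303) (nat_lit 5) (nat_lit 388) (nat_lit 388) (nat_lit 244))) (XT.nd (nat_lit 78) (nat_lit 0) (nat_lit 0) (XT.lf (nat_lit 0) (nat_lit 81312269456) (nat_lit 760) (nat_lit 79571888156) (nat_lit 836) (nat_lit 8718720158) (nat_lit 293) (nat_lit 5) (nat_lit 303) (nat_lit 5) (nat_lit 304) (nat_lit 5) (nat_lit 389) (nat_lit 388) (nat_lit 243)) (XT.lf (nat_lit 76) (nat_lit 58815878839) (nat_lit 0) (nat_lit 31191480893)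 (nat_lit 836) (nat_lit 86374685468) (nat_lit 294) (nat_lit 5) (nat_lit 293) (nat_lit 5) (nat_lit 304) (nat_lit 5) (nat_lit 390) (nat_lit 388) (nat_lit 242)))) (XT.nd (nat_lit 156) (nat_lit 0) (nat_lit 152) (XT.nd (nat_lit 78) (nat_lit 0) (nat_lit 76) (XT.lf (nat_lit 76) (nat_lit 26610793538) (nat_lit 0) (nat_lit 76311061455) (nat_lit 836) (nat_lit 80605501143) (nat_lit 295) (nat_lit 5) (nat_lit 294) (nat_lit 5) (nat_lit 305) (nat_lit 5) (nat_lit 391) (nat_lit 388) (nat_lit 241)) (XT.lf (nat_lit 0) (nat_lit 120473475159) (nat_lit 760) (nat_lit 6178350030) (nat_lit 836) (nat_lit 64412268494) (nat_lit 295) (nat_lit 5) (nat_lit 305) (nat_lit 5) (nat_lit 306) (nat_lit 5) (nat_lit 392) (nat_lit 388) (nat_lit 240))) (XT.nd (nat_lit 78) (nat_lit 0) (nat_lit 0) (XT.lf (nat_lit 0) (nat_lit 143490290004) (nat_lit 760) (nat_lit 38815529795) (nat_lit 836) (nat_lit 16694897182) (nat_lit 296) (nat_lit 5) (nat_lit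 306) (nat_lit 5) (nat_lit 307) (nat_lit 5) (nat_lit 393) (nat_lit 388) (nat_lit 239)) (XT.lf (nat_lit 76) (nat_lit 134684718493) (nat_lit 0) (nat_lit 38011220680) (nat_lit 836) (nat_lit 34658956512) (nat_lit 297) (nat_lit 5) (nat_lit 296) (nat_lit 5) (nat_lit 307) (nat_lit 5) (nat_lit 394) (nat_lit 388) (nat_lit 238)))))))
noncomputable def xc211 : XT := (XT.nd (nat_lit 1248) (nat_lit 2888) (nat_lit 0) (XT.nd (nat_lit 624) (nat_lit 2052) (nat_lit 0) (XT.nd (nat_lit 312) (nat_lit 988) (nat_lit 0) (XT.nd (nat_lit 156) (nat_lit 760) (nat_lit 0) (XT.nd (nat_lit 78) (nat_lit 532) (nat_lit 0) (XT.lf (nat_lit 0) (nat_lit 108736801299) (nat_lit 760) (nat_lit 99725493036) (nat_lit 836) (nat_lit 7703901648) (nat_lit 287) (nat_lit 5) (nat_lit 297) (nat_lit 5) (nat_lit 298) (nat_lit 5) (nat_lit 395) (nat_lit 388) (nat_lit 237)) (XT.lf (nat_lit 0) (nat_lit 24876919333) (nat_lit 532) (nat_lit 143128650470)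 (nat_lit 76) (nat_lit 57452392041) (nat_lit 280) (nat_lit 5) (nat_lit 287) (nat_lit 5) (nat_lit 281) (nat_lit 5) (nat_lit 396) (nat_lit 388) (nat_lit 236))) (XT.nd (nat_lit 78) (nat_lit 380) (nat_lit 0) (XT.lf (nat_lit 0) (nat_lit 55644068054) (nat_lit 380) (nat_lit 8605942505) (nat_lit 456) (nat_lit 171013958153) (nat_lit 275) (nat_lit 5) (nat_lit 280) (nat_lit 5) (nat_lit 281) (nat_lit 5) (nat_lit 397) (nat_lit 388) (nat_lit 235)) (XT.lf (nat_lit 0) (nat_lit 28001595636) (nat_lit 380) (nat_lit 84295798908) (nat_lit 456) (nat_lit 133280839312) (nat_lit 270) (nat_lit 5) (nat_lit 275) (nat_lit 5) (nat_lit 276) (nat_lit 5) (nat_lit 398) (nat_lit 388) (nat_lit 234)))) (XT.nd (nat_lit 156) (nat_lit 684) (nat_lit 0) (XT.nd (nat_lit 78) (nat_lit 0) (nat_lit 0) (XT.lf (nat_lit 0) (nat_lit 538673879) (nat_lit 304) (nat_lit 168351068281) (nat_lit 380) (nat_lit 87592839407) (nat_lit 266) (nat_lit 5) (nat_lit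 270) (nat_lit 5) (nat_lit 271) (nat_lit 5) (nat_lit 399) (nat_lit 388) (nat_lit 233)) (XT.lf (nat_lit 0) (nat_lit 235310290334) (nat_lit 380) (nat_lit 25708178325) (nat_lit 76) (nat_lit 6975767796) (nat_lit 266) (nat_lit 5) (nat_lit 271) (nat_lit 5) (nat_lit 267) (nat_lit 5) (nat_lit 400) (nat_lit 388) (nat_lit 232))) (XT.nd (nat_lit 78) (nat_lit 304) (nat_lit 0) (XT.lf (nat_lit 0) (nat_lit 32259100835) (nat_lit 380) (nat_lit 53242469376) (nat_lit 76) (nat_lit 194579806037) (nat_lit 261) (nat_lit 5) (nat_lit 266) (nat_lit 5) (nat_lit 262) (nat_lit 5) (nat_lit 401) (nat_lit 388) (nat_lit 231)) (XT.lf (nat_lit 0) (nat_lit 106754663731) (nat_lit 380) (nat_lit 80939223012) (nat_lit 76) (nat_lit 105139702439) (nat_lit 257) (nat_lit 5) (nat_lit 262) (nat_lit 5) (nat_lit 258) (nat_lit 5) (nat_lit 402) (nat_lit 388) (nat_lit 230))))) (XT.nd (nat_lit 312) (nat_lit 912) (nat_lit 0) (XT.nd (nat_lit 156)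 (nat_lit 608) (nat_lit 0) (XT.nd (nat_lit 78) (nat_lit 228) (nat_lit 0) (XT.lf (nat_lit 0) (nat_lit 192783228182) (nat_lit 380) (nat_lit 107942912188) (nat_lit 76) (nat_lit 5601170954) (nat_lit 253) (nat_lit 5) (nat_lit 258) (nat_lit 5) (nat_lit 254) (nat_lit 5) (nat_lit 403) (nat_lit 388) (nat_lit 229)) (XT.lf (nat_lit 0) (nat_lit 184842102859) (nat_lit 228) (nat_lit 108335602233) (nat_lit 304) (nat_lit 27348644781) (nat_lit 250) (nat_lit 5) (nat_lit 253) (nat_lit 5) (nat_lit 254) (nat_lit 5) (nat_lit 404) (nat_lit 388) (nat_lit 228))) (XT.nd (nat_lit 78) (nat_lit 228) (nat_lit 0) (XT.lf (nat_lit 0) (nat_lit 69905422196) (nat_lit 380) (nat_lit 163586876151) (nat_lit 76) (nat_lit 102004333890) (nat_lit 245) (nat_lit 5) (nat_lit 250) (nat_lit 5) (nat_lit 246) (nat_lit 5) (nat_lit 405) (nat_lit 388) (nat_lit 227)) (XT.lf (nat_lit 0) (nat_lit 160211078105) (nat_lit 228) (nat_lit 20513594946) (nat_lit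 304) (nat_lit 170580296126) (nat_lit 242) (nat_lit 5) (nat_lit 245) (nat_lit 5) (nat_lit 246) (nat_lit 5) (nat_lit 406) (nat_lit 388) (nat_lit 226)))) (XT.nd (nat_lit 156) (nat_lit 380) (nat_lit 0) (XT.nd (nat_lit 78) (nat_lit 304) (nat_lit 0) (XT.lf (nat_lit 0) (nat_lit 148969098028) (nat_lit 228) (nat_lit 159933279030) (nat_lit 304) (nat_lit 59050950360) (nat_lit 239) (nat_lit 5) (nat_lit 242) (nat_lit 5) (nat_lit 243) (nat_lit 5) (nat_lit 407) (nat_lit 388) (nat_lit 225)) (XT.lf (nat_lit 0) (nat_lit 66529179744) (nat_lit 304) (nat_lit 246332411280) (nat_lit 76) (nat_lit 72669349215) (nat_lit 235) (nat_lit 5) (nat_lit 239) (nat_lit 5) (nat_lit 236) (nat_lit 5) (nat_lit 408) (nat_lit 388) (nat_lit 224))) (XT.nd (nat_lit 78) (nat_lit 152) (nat_lit 0) (XT.lf (nat_lit 0) (nat_lit 129935267065) (nat_lit 228) (nat_lit 78781644409) (nat_lit 304) (nat_lit 195317945749) (nat_lit 232) (nat_lit 5) (nat_lit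 235) (nat_lit 5) (nat_lit 236) (nat_lit 5) (nat_lit 409) (nat_lit 388) (nat_lit 223)) (XT.lf (nat_lit 0) (nat_lit 122427155632) (nat_lit 152) (nat_lit 248842122698) (nat_lit 228) (nat_lit 52300328407) (nat_lit 230) (nat_lit 5) (nat_lit 232) (nat_lit 5) (nat_lit 233) (nat_lit 5) (nat_lit 410) (nat_lit 388) (nat_lit 222)))))) (XT.nd (nat_lit 624) (nat_lit 1368) (nat_lit 0) (XT.nd (nat_lit 312) (nat_lit 684) (nat_lit 0) (XT.nd (nat_lit 156) (nat_lit 380) (nat_lit 0) (XT.nd (nat_lit 78) (nat_lit 152) (nat_lit 0) (XT.lf (nat_lit 0) (nat_lit 107047524255) (nat_lit 304) (nat_lit 327570186398) (nat_lit 76) (nat_lit 9561749267) (nat_lit 226) (nat_lit 5) (nat_lit 230) (nat_lit 5) (nat_lit 227) (nat_lit 5) (nat_lit 411) (nat_lit 388) (nat_lit 221)) (XT.lf (nat_lit 0) (nat_lit 110739380785) (nat_lit 152) (nat_lit 177852445938) (nat_lit 228) (nat_lit 177239356996) (nat_lit 224) (nat_lit 5) (nat_lit 226) (nat_lit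 5) (nat_lit 227) (nat_lit 5) (nat_lit 412) (nat_lit 388) (nat_lit 220))) (XT.nd (nat_lit 78) (nat_lit 152) (nat_lit 0) (XT.lf (nat_lit 0) (nat_lit 4788370251) (nat_lit 228) (nat_lit 380125337956) (nat_lit 76) (nat_lit 103844996224) (nat_lit 221) (nat_lit 5) (nat_lit 224) (nat_lit 5) (nat_lit 222) (nat_lit 5) (nat_lit 413) (nat_lit 388) (nat_lit 219)) (XT.lf (nat_lit 0) (nat_lit 106236776746) (nat_lit 152) (nat_lit 99959288258) (nat_lit 228) (nat_lit 306627715983) (nat_lit 219) (nat_lit 5) (nat_lit 221) (nat_lit 5) (nat_lit 222) (nat_lit 5) (nat_lit 414) (nat_lit 388) (nat_lit 218)))) (XT.nd (nat_lit 156) (nat_lit 304) (nat_lit 0) (XT.nd (nat_lit 78) (nat_lit 228) (nat_lit 0) (XT.lf (nat_lit 0) (nat_lit 106659879938) (nat_lit 152) (nat_lit 328695949255) (nat_lit 228) (nat_lit 102876261783) (nat_lit 217) (nat_lit 5) (nat_lit 219) (nat_lit 5) (nat_lit 220) (nat_lit 5) (nat_lit 415) (nat_lit 388)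 (nat_lit 217)) (XT.lf (nat_lit 0) (nat_lit 110058002068) (nat_lit 152) (nat_lit 13969266846) (nat_lit 228) (nat_lit 441024210011) (nat_lit 214) (nat_lit 5) (nat_lit 216) (nat_lit 5) (nat_lit 217) (nat_lit 5) (nat_lit 416) (nat_lit 388) (nat_lit 216))) (XT.nd (nat_lit 78) (nat_lit 152) (nat_lit 0) (XT.lf (nat_lit 0) (nat_lit 113474440565) (nat_lit 152) (nat_lit 266553821916) (nat_lit 228) (nat_lit 213176357448) (nat_lit 212) (nat_lit 5) (nat_lit 214) (nat_lit 5) (nat_lit 215) (nat_lit 5) (nat_lit 417) (nat_lit 388) (nat_lit 215)) (XT.lf (nat_lit 0) (nat_lit 43337889472) (nat_lit 152) (nat_lit 500817078275) (nat_lit 76) (nat_lit 78854784438) (nat_lit 210) (nat_lit 5) (nat_lit 212) (nat_lit 5) (nat_lit 211) (nat_lit 5) (nat_lit 418) (nat_lit 388) (nat_lit 214))))) (XT.nd (nat_lit 312) (nat_lit 836) (nat_lit 0) (XT.nd (nat_lit 156) (nat_lit 304) (nat_lit 0) (XT.nd (nat_lit 78) (nat_lit 76) (nat_lit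 0) (XT.lf (nat_lit 0) (nat_lit 130571733957) (nat_lit 152) (nat_lit 197459400250) (nat_lit 228) (nat_lit 326237100136) (nat_lit 208) (nat_lit 5) (nat_lit 210) (nat_lit 5) (nat_lit 211) (nat_lit 5) (nat_lit 419) (nat_lit 388) (nat_lit 213)) (XT.lf (nat_lit 0) (nat_lit 144482620428) (nat_lit 76) (nat_lit 504902863362) (nat_lit 152) (nat_lit 37947629018) (nat_lit 207) (nat_lit 5) (nat_lit 208) (nat_lit 5) (nat_lit 209) (nat_lit 4) (nat_lit 420) (nat_lit 388) (nat_lit 212))) (XT.nd (nat_lit 78) (nat_lit 76) (nat_lit 0) (XT.lf (nat_lit 0) (nat_lit 159590082771) (nat_lit 152) (nat_lit 120157345859) (nat_lit 228) (nat_lit 442327667195) (nat_lit 204) (nat_lit 5) (nat_lit 206) (nat_lit 5) (nat_lit 207) (nat_lit 5) (nat_lit 421) (nat_lit 388) (nat_lit 211)) (XT.lf (nat_lit 0) (nat_lit 178803569486) (nat_lit 76) (nat_lit 459756983902) (nat_lit 152) (nat_lit 120153181352) (nat_lit 203) (nat_lit 5) (nat_lit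 204) (nat_lit 5) (nat_lit 205) (nat_lit 4) (nat_lit 422) (nat_lit 388) (nat_lit 210)))) (XT.nd (nat_lit 156) (nat_lit 532) (nat_lit 0) (XT.nd (nat_lit 78) (nat_lit 76) (nat_lit 0) (XT.lf (nat_lit 0) (nat_lit 202423286539) (nat_lit 152) (nat_lit 33226247307) (nat_lit 228) (nat_lit 561698847724) (nat_lit 200) (nat_lit 5) (nat_lit 202) (nat_lit 5) (nat_lit 203) (nat_lit 5) (nat_lit 423) (nat_lit 388) (nat_lit 209)) (XT.lf (nat_lit 0) (nat_lit 227912656995) (nat_lit 76) (nat_lit 408349380616) (nat_lit 152) (nat_lit 201685518642) (nat_lit 199) (nat_lit 5) (nat_lit 200) (nat_lit 5) (nat_lit 201) (nat_lit 4) (nat_lit 424) (nat_lit 388) (nat_lit 208))) (XT.nd (nat_lit 78) (nat_lit 304) (nat_lit 0) (XT.lf (nat_lit 0) (nat_lit 197325749042) (nat_lit 228) (nat_lit 620648497236) (nat_lit 76) (nat_lit 62865030076) (nat_lit 196) (nat_lit 5) (nat_lit 199) (nat_lit 5) (nat_lit 197) (nat_lit 4) (nat_lit 425)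 (nat_lit 388) (nat_lit 207)) (XT.nd (nat_lit 78) (nat_lit 228) (nat_lit 0) (XT.lf (nat_lit 0) (nat_lit 294141371399) (nat_lit 76) (nat_lit 349423370990) (nat_lit 152) (nat_lit 282313630556) (nat_lit 195) (nat_lit 5) (nat_lit 196) (nat_lit 5) (nat_lit 197) (nat_lit 4) (nat_lit 426) (nat_lit 388) (nat_lit 206)) (XT.lf (nat_lit 0) (nat_lit 165175437151) (nat_lit 228) (nat_lit 637739318801) (nat_lit 76) (nat_lit 170536700785) (nat_lit 192) (nat_lit 5) (nat_lit 195) (nat_lit 5) (nat_lit 193) (nat_lit 4) (nat_lit 427) (nat_lit 388) (nat_lit 205))))))))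
noncomputable def xc212 : XT := (XT.nd (nat_lit 1248) (nat_lit 76) (nat_lit 0) (XT.nd (nat_lit 624) (nat_lit 912) (nat_lit 0) (XT.nd (nat_lit 312) (nat_lit 456) (nat_lit 0) (XT.nd (nat_lit 156) (nat_lit 228) (nat_lit 0) (XT.nd (nat_lit 78) (nat_lit 152) (nat_lit 0) (XT.lf (nat_lit 0) (nat_lit 380171257875) (nat_lit 76) (nat_lit 281545950972) (nat_lit 152) (nat_lit 361724550120) (nat_lit 191) (nat_lit 5) (nat_lit 192) (nat_lit 5) (nat_lit 193) (nat_lit 4) (nat_lit 428) (nat_lit 388) (nat_lit 204)) (XT.lf (nat_lit 0) (nat_lit 139535303441) (nat_lit 152) (nat_lit 643808886484) (nat_lit 76) (nat_lit 292850855846) (nat_lit 189) (nat_lit 5) (nat_lit 191) (nat_lit 5) (nat_lit 190) (nat_lit 4) (nat_lit 429) (nat_lit 388) (nat_lit 203))) (XT.nd (nat_lit 78) (nat_lit 152) (nat_lit 0) (XT.lf (nat_lit 0) (nat_lit 489081129417) (nat_lit 76) (nat_lit 203083472099) (nat_lit 152) (nat_lit 439510412348) (nat_lit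 188) (nat_lit 5) (nat_lit 189) (nat_lit 5) (nat_lit 190) (nat_lit 4) (nat_lit 430) (nat_lit 388) (nat_lit 202)) (XT.lf (nat_lit 0) (nat_lit 121416242791) (nat_lit 152) (nat_lit 636674174182) (nat_lit 76) (nat_lit 432070762865) (nat_lit 186) (nat_lit 5) (nat_lit 188) (nat_lit 5) (nat_lit 187) (nat_lit 4) (nat_lit 431) (nat_lit 388) (nat_lit 201)))) (XT.nd (nat_lit 156) (nat_lit 228) (nat_lit 0) (XT.nd (nat_lit 78) (nat_lit 152) (nat_lit 0) (XT.lf (nat_lit 0) (nat_lit 624400419980) (nat_lit 76) (nat_lit 112174179411) (nat_lit 152) (nat_lit 515153591615) (nat_lit 185) (nat_lit 5) (nat_lit 186) (nat_lit 5) (nat_lit 187) (nat_lit 4) (nat_lit 432) (nat_lit 388) (nat_lit 200)) (XT.lf (nat_lit 0) (nat_lit 112006257654) (nat_lit 152) (nat_lit 613794355532) (nat_lit 76) (nat_lit 590758925639) (nat_lit 183) (nat_lit 5) (nat_lit 185) (nat_lit 5) (nat_lit 184) (nat_lit 4) (nat_lit 433) (nat_lit 388) (nat_lit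 199))) (XT.nd (nat_lit 78) (nat_lit 152) (nat_lit 0) (XT.lf (nat_lit 0) (nat_lit 790169451430) (nat_lit 76) (nat_lit 6697214549) (nat_lit 152) (nat_lit 588009659271) (nat_lit 182) (nat_lit 5) (nat_lit 183) (nat_lit 5) (nat_lit 184) (nat_lit 4) (nat_lit 434) (nat_lit 388) (nat_lit 198)) (XT.lf (nat_lit 0) (nat_lit 112695072958) (nat_lit 152) (nat_lit 572220092530) (nat_lit 76) (nat_lit 771816033185) (nat_lit 180) (nat_lit 5) (nat_lit 182) (nat_lit 5) (nat_lit 181) (nat_lit 4) (nat_lit 435) (nat_lit 388) (nat_lit 197))))) (XT.nd (nat_lit 312) (nat_lit 456) (nat_lit 0) (XT.nd (nat_lit 156) (nat_lit 228) (nat_lit 0) (XT.nd (nat_lit 78) (nat_lit 152) (nat_lit 0) (XT.lf (nat_lit 0) (nat_lit 877052495708) (nat_lit 152) (nat_lit 543332884095) (nat_lit 0) (nat_lit 112057241731) (nat_lit 179) (nat_lit 5) (nat_lit 181) (nat_lit 4) (nat_lit 179) (nat_lit 4) (nat_lit 436) (nat_lit 388) (nat_lit 196)) (XT.lf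 (nat_lit 0) (nat_lit 125102070584) (nat_lit 152) (nat_lit 508536030953) (nat_lit 76) (nat_lit 978524779543) (nat_lit 177) (nat_lit 5) (nat_lit 179) (nat_lit 5) (nat_lit 178) (nat_lit 4) (nat_lit 437) (nat_lit 388) (nat_lit 195))) (XT.nd (nat_lit 78) (nat_lit 152) (nat_lit 0) (XT.lf (nat_lit 0) (nat_lit 978263856571) (nat_lit 152) (nat_lit 468103196964) (nat_lit 0) (nat_lit 249696908265) (nat_lit 176) (nat_lit 5) (nat_lit 178) (nat_lit 4) (nat_lit 176) (nat_lit 4) (nat_lit 438) (nat_lit 388) (nat_lit 194)) (XT.lf (nat_lit 0) (nat_lit 151107968137) (nat_lit 152) (nat_lit 418795631322) (nat_lit 76) (nat_lit 1214599152849) (nat_lit 174) (nat_lit 5) (nat_lit 176) (nat_lit 5) (nat_lit 175) (nat_lit 4) (nat_lit 439) (nat_lit 388) (nat_lit 193)))) (XT.nd (nat_lit 156) (nat_lit 228) (nat_lit 0) (XT.nd (nat_lit 78) (nat_lit 152) (nat_lit 0) (XT.lf (nat_lit 0) (nat_lit 1103335882368) (nat_lit 152) (nat_lit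 364682066434) (nat_lit 0) (nat_lit 409462565804) (nat_lit 173) (nat_lit 5) (nat_lit 175) (nat_lit 4) (nat_lit 173) (nat_lit 4) (nat_lit 440) (nat_lit 388) (nat_lit 192)) (XT.lf (nat_lit 0) (nat_lit 192890719849) (nat_lit 152) (nat_lit 298447355322) (nat_lit 76) (nat_lit 1484239864433) (nat_lit 171) (nat_lit 5) (nat_lit 173) (nat_lit 5) (nat_lit 172) (nat_lit 4) (nat_lit 441) (nat_lit 388) (nat_lit 191))) (XT.nd (nat_lit 78) (nat_lit 152) (nat_lit 0) (XT.lf (nat_lit 0) (nat_lit 1255626876542) (nat_lit 152) (nat_lit 228193605637) (nat_lit 0) (nat_lit 594795119976) (nat_lit 170) (nat_lit 5) (nat_lit 172) (nat_lit 4) (nat_lit 170) (nat_lit 4) (nat_lit 442) (nat_lit 388) (nat_lit 190)) (XT.lf (nat_lit 0) (nat_lit 252966177002) (nat_lit 152) (nat_lit 142251105511) (nat_lit 76) (nat_lit 1792196669587) (nat_lit 168) (nat_lit 5) (nat_lit 170) (nat_lit 5) (nat_lit 169) (nat_lit 4) (nat_lit 443) (nat_lit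 388) (nat_lit 189)))))) (XT.nd (nat_lit 49374) (nat_lit 0) (nat_lit 6840) (XT.nd (nat_lit 49062) (nat_lit 0) (nat_lit 9652) (XT.nd (nat_lit 48906) (nat_lit 0) (nat_lit 9576) (XT.nd (nat_lit 48828) (nat_lit 0) (nat_lit 9500) (XT.lf (nat_lit 0) (nat_lit 1438968272597) (nat_lit 152) (nat_lit 53028427410) (nat_lit 0) (nat_lit 809604673272) (nat_lit 167) (nat_lit 5) (nat_lit 169) (nat_lit 4) (nat_lit 167) (nat_lit 4) (nat_lit 444) (nat_lit 388) (nat_lit 188)) (XT.lf (nat_lit 0) (nat_lit 41417506489) (nat_lit 836) (nat_lit 23342821242) (nat_lit 836) (nat_lit 23342821242) (nat_lit 292) (nat_lit 3) (nat_lit 303) (nat_lit 3) (nat_lit 303) (nat_lit 5) (nat_lit 389) (nat_lit 389) (nat_lit 242))) (XT.nd (nat_lit 78) (nat_lit 0) (nat_lit 0) (XT.lf (nat_lit 0) (nat_lit 87824134122) (nat_lit 760) (nat_lit 85933513844) (nat_lit 836) (nat_lit 9413115869) (nat_lit 293) (nat_lit 5) (nat_lit 303) (nat_lit 5) (nat_lit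 304) (nat_lit 5) (nat_lit 390) (nat_lit 389) (nat_lit 241)) (XT.lf (nat_lit 76) (nat_lit 63525095227) (nat_lit 0) (nat_lit 33689288142) (nat_lit 836) (nat_lit 93277903704) (nat_lit 294) (nat_lit 5) (nat_lit 293) (nat_lit 5) (nat_lit 304) (nat_lit 5) (nat_lit 391) (nat_lit 389) (nat_lit 240)))) (XT.nd (nat_lit 156) (nat_lit 0) (nat_lit 152) (XT.nd (nat_lit 78) (nat_lit 0) (nat_lit 76) (XT.lf (nat_lit 76) (nat_lit 28743776539) (nat_lit 0) (nat_lit 82417813396) (nat_lit 836) (nat_lit 87047655365) (nat_lit 295) (nat_lit 5) (nat_lit 294) (nat_lit 5) (nat_lit 305) (nat_lit 5) (nat_lit 392) (nat_lit 389) (nat_lit 239)) (XT.lf (nat_lit 0) (nat_lit 130116869276) (nat_lit 760) (nat_lit 6668499519) (nat_lit 836) (nat_lit 69563576578) (nat_lit 295) (nat_lit 5) (nat_lit 305) (nat_lit 5) (nat_lit 306) (nat_lit 5) (nat_lit 393) (nat_lit 389) (nat_lit 238))) (XT.nd (nat_lit 78) (nat_lit 0) (nat_lit 0) (XT.lf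 (nat_lit 0) (nat_lit 154974663019) (nat_lit 760) (nat_lit 41916555005) (nat_lit 836) (nat_lit 18029298825) (nat_lit 296) (nat_lit 5) (nat_lit 306) (nat_lit 5) (nat_lit 307) (nat_lit 5) (nat_lit 394) (nat_lit 389) (nat_lit 237)) (XT.lf (nat_lit 76) (nat_lit 145463529873) (nat_lit 0) (nat_lit 41052915762) (nat_lit 836) (nat_lit 37426600139) (nat_lit 297) (nat_lit 5) (nat_lit 296) (nat_lit 5) (nat_lit 307) (nat_lit 5) (nat_lit 395) (nat_lit 389) (nat_lit 236))))) (XT.nd (nat_lit 312) (nat_lit 988) (nat_lit 0) (XT.nd (nat_lit 156) (nat_lit 760) (nat_lit 0) (XT.nd (nat_lit 78) (nat_lit 532) (nat_lit 0) (XT.lf (nat_lit 0) (nat_lit 117439846973) (nat_lit 760) (nat_lit 107703956871) (nat_lit 836) (nat_lit 8315461521) (nat_lit 287) (nat_lit 5) (nat_lit 297) (nat_lit 5) (nat_lit 298) (nat_lit 5) (nat_lit 396) (nat_lit 389) (nat_lit 235)) (XT.lf (nat_lit 0) (nat_lit 26871391842) (nat_lit 532) (nat_lit 154574653581)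 (nat_lit 76) (nat_lit 62048337419) (nat_lit 280) (nat_lit 5) (nat_lit 287) (nat_lit 5) (nat_lit 281) (nat_lit 5) (nat_lit 397) (nat_lit 389) (nat_lit 234))) (XT.nd (nat_lit 78) (nat_lit 380) (nat_lit 0) (XT.lf (nat_lit 0) (nat_lit 60099696032) (nat_lit 380) (nat_lit 9294378462) (nat_lit 456) (nat_lit 184690808559) (nat_lit 275) (nat_lit 5) (nat_lit 280) (nat_lit 5) (nat_lit 281) (nat_lit 5) (nat_lit 398) (nat_lit 389) (nat_lit 233)) (XT.lf (nat_lit 0) (nat_lit 30245841267) (nat_lit 380) (nat_lit 91039171825) (nat_lit 456) (nat_lit 143939288123) (nat_lit 270) (nat_lit 5) (nat_lit 275) (nat_lit 5) (nat_lit 276) (nat_lit 5) (nat_lit 399) (nat_lit 389) (nat_lit 232)))) (XT.nd (nat_lit 156) (nat_lit 684) (nat_lit 0) (XT.nd (nat_lit 78) (nat_lit 0) (nat_lit 0) (XT.lf (nat_lit 0) (nat_lit 585885494) (nat_lit 304) (nat_lit 181818648038) (nat_lit 380) (nat_lit 94596473959) (nat_lit 266) (nat_lit 5) (nat_lit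 270) (nat_lit 5) (nat_lit 271) (nat_lit 5) (nat_lit 400) (nat_lit 389) (nat_lit 231)) (XT.lf (nat_lit 0) (nat_lit 254138465316) (nat_lit 380) (nat_lit 27760859990) (nat_lit 76) (nat_lit 7534282478) (nat_lit 266) (nat_lit 5) (nat_lit 271) (nat_lit 5) (nat_lit 267) (nat_lit 5) (nat_lit 401) (nat_lit 389) (nat_lit 230))) (XT.nd (nat_lit 78) (nat_lit 304) (nat_lit 0) (XT.lf (nat_lit 0) (nat_lit 34843043556) (nat_lit 380) (nat_lit 57497960678) (nat_lit 76) (nat_lit 210146721382) (nat_lit 261) (nat_lit 5) (nat_lit 266) (nat_lit 5) (nat_lit 262) (nat_lit 5) (nat_lit 402) (nat_lit 389) (nat_lit 229)) (XT.lf (nat_lit 0) (nat_lit 115298082652) (nat_lit 380) (nat_lit 87410483577) (nat_lit 76) (nat_lit 113551557797) (nat_lit 257) (nat_lit 5) (nat_lit 262) (nat_lit 5) (nat_lit 258) (nat_lit 5) (nat_lit 403) (nat_lit 389) (nat_lit 228)))))))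
noncomputable def xc213 : XT := (XT.nd (nat_lit 1248) (nat_lit 2280) (nat_lit 0) (XT.nd (nat_lit 624) (nat_lit 1520) (nat_lit 0) (XT.nd (nat_lit 312) (nat_lit 912) (nat_lit 0) (XT.nd (nat_lit 156) (nat_lit 608) (nat_lit 0) (XT.nd (nat_lit 78) (nat_lit 228) (nat_lit 0) (XT.lf (nat_lit 0) (nat_lit 208208777517) (nat_lit 380) (nat_lit 116574505452) (nat_lit 76) (nat_lit 6050068708) (nat_lit 253) (nat_lit 5) (nat_lit 258) (nat_lit 5) (nat_lit 254) (nat_lit 5) (nat_lit 404) (nat_lit 389) (nat_lit 227)) (XT.lf (nat_lit 0) (nat_lit 199633143930) (nat_lit 228) (nat_lit 117001511839) (nat_lit 304) (nat_lit 29533665381) (nat_lit 250) (nat_lit 5) (nat_lit 253) (nat_lit 5) (nat_lit 254) (nat_lit 5) (nat_lit 405) (nat_lit 389) (nat_lit 226))) (XT.nd (nat_lit 78) (nat_lit 228) (nat_lit 0) (XT.lf (nat_lit 0) (nat_lit 75500500600) (nat_lit 380) (nat_lit 176670108820) (nat_lit 76) (nat_lit 110165621165) (nat_lit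 245) (nat_lit 5) (nat_lit 250) (nat_lit 5) (nat_lit 246) (nat_lit 5) (nat_lit 406) (nat_lit 389) (nat_lit 225)) (XT.lf (nat_lit 0) (nat_lit 173031520222) (nat_lit 228) (nat_lit 22153630920) (nat_lit 304) (nat_lit 184224090356) (nat_lit 242) (nat_lit 5) (nat_lit 245) (nat_lit 5) (nat_lit 246) (nat_lit 5) (nat_lit 407) (nat_lit 389) (nat_lit 224)))) (XT.nd (nat_lit 156) (nat_lit 380) (nat_lit 0) (XT.nd (nat_lit 78) (nat_lit 304) (nat_lit 0) (XT.lf (nat_lit 0) (nat_lit 160890131271) (nat_lit 228) (nat_lit 172726824631) (nat_lit 304) (nat_lit 63772518275) (nat_lit 239) (nat_lit 5) (nat_lit 242) (nat_lit 5) (nat_lit 243) (nat_lit 5) (nat_lit 408) (nat_lit 389) (nat_lit 223)) (XT.lf (nat_lit 0) (nat_lit 71853833287) (nat_lit 304) (nat_lit 266035476874) (nat_lit 76) (nat_lit 78483989339) (nat_lit 235) (nat_lit 5) (nat_lit 239) (nat_lit 5) (nat_lit 236) (nat_lit 5) (nat_lit 409) (nat_lit 389) (nat_lit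 222))) (XT.nd (nat_lit 78) (nat_lit 152) (nat_lit 0) (XT.lf (nat_lit 0) (nat_lit 140333462446) (nat_lit 228) (nat_lit 85083001997) (nat_lit 304) (nat_lit 210941071355) (nat_lit 232) (nat_lit 5) (nat_lit 235) (nat_lit 5) (nat_lit 236) (nat_lit 5) (nat_lit 410) (nat_lit 389) (nat_lit 221)) (XT.lf (nat_lit 0) (nat_lit 132224643158) (nat_lit 152) (nat_lit 268748283253) (nat_lit 228) (nat_lit 56482143576) (nat_lit 230) (nat_lit 5) (nat_lit 232) (nat_lit 5) (nat_lit 233) (nat_lit 5) (nat_lit 411) (nat_lit 389) (nat_lit 220))))) (XT.nd (nat_lit 312) (nat_lit 684) (nat_lit 0) (XT.nd (nat_lit 156) (nat_lit 380) (nat_lit 0) (XT.nd (nat_lit 78) (nat_lit 152) (nat_lit 0) (XT.lf (nat_lit 0) (nat_lit 115613377387) (nat_lit 304) (nat_lit 353772479827) (nat_lit 76) (nat_lit 10327856940) (nat_lit 226) (nat_lit 5) (nat_lit 230) (nat_lit 5) (nat_lit 227) (nat_lit 5) (nat_lit 412) (nat_lit 389) (nat_lit 219)) (XT.lf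 (nat_lit 0) (nat_lit 119601708383) (nat_lit 152) (nat_lit 192079413333) (nat_lit 228) (nat_lit 191416459258) (nat_lit 224) (nat_lit 5) (nat_lit 226) (nat_lit 5) (nat_lit 227) (nat_lit 5) (nat_lit 413) (nat_lit 389) (nat_lit 218))) (XT.nd (nat_lit 78) (nat_lit 152) (nat_lit 0) (XT.lf (nat_lit 0) (nat_lit 5173341410) (nat_lit 228) (nat_lit 410532188194) (nat_lit 76) (nat_lit 112153776105) (nat_lit 221) (nat_lit 5) (nat_lit 224) (nat_lit 5) (nat_lit 222) (nat_lit 5) (nat_lit 414) (nat_lit 389) (nat_lit 217)) (XT.lf (nat_lit 0) (nat_lit 114738757625) (nat_lit 152) (nat_lit 107954800707) (nat_lit 228) (nat_lit 331156034728) (nat_lit 219) (nat_lit 5) (nat_lit 221) (nat_lit 5) (nat_lit 222) (nat_lit 5) (nat_lit 415) (nat_lit 389) (nat_lit 216)))) (XT.nd (nat_lit 156) (nat_lit 304) (nat_lit 0) (XT.nd (nat_lit 78) (nat_lit 228) (nat_lit 0) (XT.lf (nat_lit 0) (nat_lit 115195645111) (nat_lit 152) (nat_lit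 354990388844) (nat_lit 228) (nat_lit 111104537378) (nat_lit 217) (nat_lit 5) (nat_lit 219) (nat_lit 5) (nat_lit 220) (nat_lit 5) (nat_lit 416) (nat_lit 389) (nat_lit 215)) (XT.lf (nat_lit 0) (nat_lit 118865543615) (nat_lit 152) (nat_lit 15085588153) (nat_lit 228) (nat_lit 476304381404) (nat_lit 214) (nat_lit 5) (nat_lit 216) (nat_lit 5) (nat_lit 217) (nat_lit 5) (nat_lit 417) (nat_lit 389) (nat_lit 214))) (XT.nd (nat_lit 78) (nat_lit 152) (nat_lit 0) (XT.lf (nat_lit 0) (nat_lit 122555233295) (nat_lit 152) (nat_lit 287876908921) (nat_lit 228) (nat_lit 230228766372) (nat_lit 212) (nat_lit 5) (nat_lit 214) (nat_lit 5) (nat_lit 215) (nat_lit 5) (nat_lit 418) (nat_lit 389) (nat_lit 213)) (XT.lf (nat_lit 0) (nat_lit 46806505948) (nat_lit 152) (nat_lit 540879618731) (nat_lit 76) (nat_lit 85164328416) (nat_lit 210) (nat_lit 5) (nat_lit 212) (nat_lit 5) (nat_lit 211) (nat_lit 5) (nat_lit 419) (nat_lit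 389) (nat_lit 212)))))) (XT.nd (nat_lit 624) (nat_lit 1140) (nat_lit 0) (XT.nd (nat_lit 312) (nat_lit 608) (nat_lit 0) (XT.nd (nat_lit 156) (nat_lit 304) (nat_lit 0) (XT.nd (nat_lit 78) (nat_lit 76) (nat_lit 0) (XT.lf (nat_lit 0) (nat_lit 141020175674) (nat_lit 152) (nat_lit 213254959357) (nat_lit 228) (nat_lit 352334482555) (nat_lit 208) (nat_lit 5) (nat_lit 210) (nat_lit 5) (nat_lit 211) (nat_lit 5) (nat_lit 420) (nat_lit 389) (nat_lit 211)) (XT.lf (nat_lit 0) (nat_lit 156043870002) (nat_lit 76) (nat_lit 545293909184) (nat_lit 152) (nat_lit 40981909814) (nat_lit 207) (nat_lit 5) (nat_lit 208) (nat_lit 5) (nat_lit 209) (nat_lit 4) (nat_lit 421) (nat_lit 389) (nat_lit 210))) (XT.nd (nat_lit 78) (nat_lit 76) (nat_lit 0) (XT.lf (nat_lit 0) (nat_lit 172359861430) (nat_lit 152) (nat_lit 129768772547) (nat_lit 228) (nat_lit 477712398961) (nat_lit 204) (nat_lit 5) (nat_lit 206) (nat_lit 5) (nat_lit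 207) (nat_lit 5) (nat_lit 422) (nat_lit 389) (nat_lit 209)) (XT.lf (nat_lit 0) (nat_lit 193110365453) (nat_lit 76) (nat_lit 496536394718) (nat_lit 152) (nat_lit 129764005223) (nat_lit 203) (nat_lit 5) (nat_lit 204) (nat_lit 5) (nat_lit 205) (nat_lit 4) (nat_lit 423) (nat_lit 389) (nat_lit 208)))) (XT.nd (nat_lit 156) (nat_lit 304) (nat_lit 0) (XT.nd (nat_lit 78) (nat_lit 76) (nat_lit 0) (XT.lf (nat_lit 0) (nat_lit 218619594570) (nat_lit 152) (nat_lit 35883222425) (nat_lit 228) (nat_lit 606633369078) (nat_lit 200) (nat_lit 5) (nat_lit 202) (nat_lit 5) (nat_lit 203) (nat_lit 5) (nat_lit 424) (nat_lit 389) (nat_lit 207)) (XT.lf (nat_lit 0) (nat_lit 246148054758) (nat_lit 76) (nat_lit 441016221992) (nat_lit 152) (nat_lit 217819020197) (nat_lit 199) (nat_lit 5) (nat_lit 200) (nat_lit 5) (nat_lit 201) (nat_lit 4) (nat_lit 425) (nat_lit 389) (nat_lit 206))) (XT.nd (nat_lit 78) (nat_lit 76) (nat_lit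 0) (XT.lf (nat_lit 0) (nat_lit 213113063144) (nat_lit 228) (nat_lit 670298009530) (nat_lit 76) (nat_lit 67895283079) (nat_lit 196) (nat_lit 5) (nat_lit 199) (nat_lit 5) (nat_lit 197) (nat_lit 4) (nat_lit 426) (nat_lit 389) (nat_lit 205)) (XT.lf (nat_lit 0) (nat_lit 317674945708) (nat_lit 76) (nat_lit 377376172706) (nat_lit 152) (nat_lit 304897464535) (nat_lit 195) (nat_lit 5) (nat_lit 196) (nat_lit 5) (nat_lit 197) (nat_lit 4) (nat_lit 427) (nat_lit 389) (nat_lit 204))))) (XT.nd (nat_lit 312) (nat_lit 608) (nat_lit 0) (XT.nd (nat_lit 156) (nat_lit 228) (nat_lit 0) (XT.nd (nat_lit 78) (nat_lit 76) (nat_lit 0) (XT.lf (nat_lit 0) (nat_lit 178390649003) (nat_lit 228) (nat_lit 688756217929) (nat_lit 76) (nat_lit 184180647499) (nat_lit 192) (nat_lit 5) (nat_lit 195) (nat_lit 5) (nat_lit 193) (nat_lit 4) (nat_lit 428) (nat_lit 389) (nat_lit 203)) (XT.lf (nat_lit 0) (nat_lit 410587107255) (nat_lit 76)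 (nat_lit 304068601550) (nat_lit 152) (nat_lit 390661334716) (nat_lit 191) (nat_lit 5) (nat_lit 192) (nat_lit 5) (nat_lit 193) (nat_lit 4) (nat_lit 429) (nat_lit 389) (nat_lit 202))) (XT.nd (nat_lit 78) (nat_lit 76) (nat_lit 0) (XT.lf (nat_lit 0) (nat_lit 150699233107) (nat_lit 152) (nat_lit 695311467078) (nat_lit 76) (nat_lit 316279893978) (nat_lit 189) (nat_lit 5) (nat_lit 191) (nat_lit 5) (nat_lit 190) (nat_lit 4) (nat_lit 430) (nat_lit 389) (nat_lit 201)) (XT.lf (nat_lit 0) (nat_lit 528209657513) (nat_lit 76) (nat_lit 219329167449) (nat_lit 152) (nat_lit 474670137245) (nat_lit 188) (nat_lit 5) (nat_lit 189) (nat_lit 5) (nat_lit 190) (nat_lit 4) (nat_lit 431) (nat_lit 389) (nat_lit 200)))) (XT.nd (nat_lit 156) (nat_lit 380) (nat_lit 0) (XT.nd (nat_lit 78) (nat_lit 76) (nat_lit 0) (XT.lf (nat_lit 0) (nat_lit 131130581320) (nat_lit 152) (nat_lit 687606088772) (nat_lit 76) (nat_lit 466637352177)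 (nat_lit 186) (nat_lit 5) (nat_lit 188) (nat_lit 5) (nat_lit 187) (nat_lit 4) (nat_lit 432) (nat_lit 389) (nat_lit 199)) (XT.lf (nat_lit 0) (nat_lit 674354385164) (nat_lit 76) (nat_lit 121147174471) (nat_lit 152) (nat_lit 556364837037) (nat_lit 185) (nat_lit 5) (nat_lit 186) (nat_lit 5) (nat_lit 187) (nat_lit 4) (nat_lit 433) (nat_lit 389) (nat_lit 198))) (XT.nd (nat_lit 78) (nat_lit 228) (nat_lit 0) (XT.lf (nat_lit 0) (nat_lit 120967735769) (nat_lit 152) (nat_lit 662895990582) (nat_lit 76) (nat_lit 638020526705) (nat_lit 183) (nat_lit 5) (nat_lit 185) (nat_lit 5) (nat_lit 184) (nat_lit 4) (nat_lit 434) (nat_lit 389) (nat_lit 197)) (XT.nd (nat_lit 78) (nat_lit 152) (nat_lit 0) (XT.lf (nat_lit 0) (nat_lit 853384837783) (nat_lit 76) (nat_lit 7232095144) (nat_lit 152) (nat_lit 635049451659) (nat_lit 182) (nat_lit 5) (nat_lit 183) (nat_lit 5) (nat_lit 184) (nat_lit 4) (nat_lit 435) (nat_lit 389)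 (nat_lit 196)) (XT.lf (nat_lit 0) (nat_lit 121711598928) (nat_lit 152) (nat_lit 617995887544) (nat_lit 76) (nat_lit 833562162088) (nat_lit 180) (nat_lit 5) (nat_lit 182) (nat_lit 5) (nat_lit 181) (nat_lit 4) (nat_lit 436) (nat_lit 389) (nat_lit 195))))))))
noncomputable def xc214 : XT := (XT.nd (nat_lit 50076) (nat_lit 0) (nat_lit 4256) (XT.nd (nat_lit 49452) (nat_lit 0) (nat_lit 9044) (XT.nd (nat_lit 312) (nat_lit 456) (nat_lit 0) (XT.nd (nat_lit 156) (nat_lit 228) (nat_lit 0) (XT.nd (nat_lit 78) (nat_lit 152) (nat_lit 0) (XT.lf (nat_lit 0) (nat_lit 947217587749) (nat_lit 152) (nat_lit 586797750589) (nat_lit 0) (nat_lit 121022648300) (nat_lit 179) (nat_lit 5) (nat_lit 181) (nat_lit 4) (nat_lit 179) (nat_lit 4) (nat_lit 437) (nat_lit 389) (nat_lit 194)) (XT.lf (nat_lit 0) (nat_lit 135111102838) (nat_lit 152) (nat_lit 549217197213) (nat_lit 76) (nat_lit 1056807568185) (nat_lit 177) (nat_lit 5)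 (nat_lit 179) (nat_lit 5) (nat_lit 178) (nat_lit 4) (nat_lit 438) (nat_lit 389) (nat_lit 193))) (XT.nd (nat_lit 78) (nat_lit 152) (nat_lit 0) (XT.lf (nat_lit 0) (nat_lit 1056525805844) (nat_lit 152) (nat_lit 505549782390) (nat_lit 0) (nat_lit 269673448473) (nat_lit 176) (nat_lit 5) (nat_lit 178) (nat_lit 4) (nat_lit 176) (nat_lit 4) (nat_lit 439) (nat_lit 389) (nat_lit 192)) (XT.lf (nat_lit 0) (nat_lit 163197422173) (nat_lit 152) (nat_lit 452297657087) (nat_lit 76) (nat_lit 1311767852403) (nat_lit 174) (nat_lit 5) (nat_lit 176) (nat_lit 5) (nat_lit 175) (nat_lit 4) (nat_lit 440) (nat_lit 389) (nat_lit 191)))) (XT.nd (nat_lit 156) (nat_lit 228) (nat_lit 0) (XT.nd (nat_lit 78) (nat_lit 152) (nat_lit 0) (XT.lf (nat_lit 0) (nat_lit 1191603545400) (nat_lit 152) (nat_lit 393855050680) (nat_lit 0) (nat_lit 442220320073) (nat_lit 173) (nat_lit 5) (nat_lit 175) (nat_lit 4) (nat_lit 173) (nat_lit 4) (nat_lit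 441) (nat_lit 389) (nat_lit 190)) (XT.lf (nat_lit 0) (nat_lit 208322747208) (nat_lit 152) (nat_lit 322321605938) (nat_lit 76) (nat_lit 1602979783138) (nat_lit 171) (nat_lit 5) (nat_lit 173) (nat_lit 5) (nat_lit 172) (nat_lit 4) (nat_lit 442) (nat_lit 389) (nat_lit 189))) (XT.nd (nat_lit 78) (nat_lit 152) (nat_lit 0) (XT.lf (nat_lit 0) (nat_lit 1356077773862) (nat_lit 152) (nat_lit 246447597803) (nat_lit 0) (nat_lit 642379441302) (nat_lit 170) (nat_lit 5) (nat_lit 172) (nat_lit 4) (nat_lit 170) (nat_lit 4) (nat_lit 443) (nat_lit 389) (nat_lit 188)) (XT.lf (nat_lit 0) (nat_lit 273204197064) (nat_lit 152) (nat_lit 153629738692) (nat_lit 76) (nat_lit 1935573096216) (nat_lit 168) (nat_lit 5) (nat_lit 170) (nat_lit 5) (nat_lit 169) (nat_lit 4) (nat_lit 444) (nat_lit 389) (nat_lit 187))))) (XT.nd (nat_lit 312) (nat_lit 380) (nat_lit 0) (XT.nd (nat_lit 156) (nat_lit 0) (nat_lit 76) (XT.nd (nat_lit 78)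 (nat_lit 0) (nat_lit 76) (XT.lf (nat_lit 0) (nat_lit 44734089844) (nat_lit 836) (nat_lit 25208575953) (nat_lit 836) (nat_lit 25208575953) (nat_lit 292) (nat_lit 3) (nat_lit 303) (nat_lit 3) (nat_lit 303) (nat_lit 5) (nat_lit 390) (nat_lit 390) (nat_lit 240)) (XT.lf (nat_lit 0) (nat_lit 94855966009) (nat_lit 760) (nat_lit 92804658117) (nat_lit 836) (nat_lit 10163505759) (nat_lit 293) (nat_lit 5) (nat_lit 303) (nat_lit 5) (nat_lit 304) (nat_lit 5) (nat_lit 391) (nat_lit 390) (nat_lit 239))) (XT.nd (nat_lit 78) (nat_lit 0) (nat_lit 76) (XT.lf (nat_lit 76) (nat_lit 68610485974) (nat_lit 0) (nat_lit 36386564920) (nat_lit 836) (nat_lit 100734343303) (nat_lit 294) (nat_lit 5) (nat_lit 293) (nat_lit 5) (nat_lit 304) (nat_lit 5) (nat_lit 392) (nat_lit 390) (nat_lit 238)) (XT.lf (nat_lit 76) (nat_lit 31046810485) (nat_lit 0) (nat_lit 89012839139) (nat_lit 836) (nat_lit 94006078675) (nat_lit 295) (nat_lit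 5) (nat_lit 294) (nat_lit 5) (nat_lit 305) (nat_lit 5) (nat_lit 393) (nat_lit 390) (nat_lit 237)))) (XT.nd (nat_lit 156) (nat_lit 608) (nat_lit 0) (XT.nd (nat_lit 78) (nat_lit 0) (nat_lit 76) (XT.lf (nat_lit 0) (nat_lit 140530947988) (nat_lit 760) (nat_lit 7198448519) (nat_lit 836) (nat_lit 75127228037) (nat_lit 295) (nat_lit 5) (nat_lit 305) (nat_lit 5) (nat_lit 306) (nat_lit 5) (nat_lit 394) (nat_lit 390) (nat_lit 236)) (XT.lf (nat_lit 0) (nat_lit 167377051197) (nat_lit 760) (nat_lit 45266263858) (nat_lit 836) (nat_lit 19470622384) (nat_lit 296) (nat_lit 5) (nat_lit 306) (nat_lit 5) (nat_lit 307) (nat_lit 5) (nat_lit 395) (nat_lit 390) (nat_lit 235))) (XT.nd (nat_lit 78) (nat_lit 684) (nat_lit 0) (XT.lf (nat_lit 76) (nat_lit 157104070683) (nat_lit 0) (nat_lit 44337832688) (nat_lit 836) (nat_lit 40416378961) (nat_lit 297) (nat_lit 5) (nat_lit 296) (nat_lit 5) (nat_lit 307) (nat_lit 5) (nat_lit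 396) (nat_lit 390) (nat_lit 234)) (XT.lf (nat_lit 0) (nat_lit 126838551165) (nat_lit 760) (nat_lit 116320637267) (nat_lit 836) (nat_lit 8976624147) (nat_lit 287) (nat_lit 5) (nat_lit 297) (nat_lit 5) (nat_lit 298) (nat_lit 5) (nat_lit 397) (nat_lit 390) (nat_lit 233)))))) (XT.nd (nat_lit 624) (nat_lit 2204) (nat_lit 0) (XT.nd (nat_lit 312) (nat_lit 988) (nat_lit 0) (XT.nd (nat_lit 156) (nat_lit 684) (nat_lit 0) (XT.nd (nat_lit 78) (nat_lit 380) (nat_lit 0) (XT.lf (nat_lit 0) (nat_lit 29024806004) (nat_lit 532) (nat_lit 166936948805) (nat_lit 76) (nat_lit 67011993521) (nat_lit 280) (nat_lit 5) (nat_lit 287) (nat_lit 5) (nat_lit 281) (nat_lit 5) (nat_lit 398) (nat_lit 390) (nat_lit 232)) (XT.lf (nat_lit 0) (nat_lit 64911188977) (nat_lit 380) (nat_lit 10037894923) (nat_lit 456) (nat_lit 199462415626) (nat_lit 275) (nat_lit 5) (nat_lit 280) (nat_lit 5) (nat_lit 281) (nat_lit 5) (nat_lit 399) (nat_lit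 390) (nat_lit 231))) (XT.nd (nat_lit 78) (nat_lit 304) (nat_lit 0) (XT.lf (nat_lit 0) (nat_lit 32669039073) (nat_lit 380) (nat_lit 98322056090) (nat_lit 456) (nat_lit 155450986098) (nat_lit 270) (nat_lit 5) (nat_lit 275) (nat_lit 5) (nat_lit 276) (nat_lit 5) (nat_lit 400) (nat_lit 390) (nat_lit 230)) (XT.lf (nat_lit 0) (nat_lit 636286603) (nat_lit 304) (nat_lit 196363706321) (nat_lit 380) (nat_lit 102160940332) (nat_lit 266) (nat_lit 5) (nat_lit 270) (nat_lit 5) (nat_lit 271) (nat_lit 5) (nat_lit 401) (nat_lit 390) (nat_lit 229)))) (XT.nd (nat_lit 156) (nat_lit 608) (nat_lit 0) (XT.nd (nat_lit 78) (nat_lit 380) (nat_lit 0) (XT.lf (nat_lit 0) (nat_lit 274472416132) (nat_lit 380) (nat_lit 29978322923) (nat_lit 76) (nat_lit 8137413673) (nat_lit 266) (nat_lit 5) (nat_lit 271) (nat_lit 5) (nat_lit 267) (nat_lit 5) (nat_lit 402) (nat_lit 390) (nat_lit 228)) (XT.lf (nat_lit 0) (nat_lit 37633243089)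 (nat_lit 380) (nat_lit 62094448554) (nat_lit 76) (nat_lit 226958914220) (nat_lit 261) (nat_lit 5) (nat_lit 266) (nat_lit 5) (nat_lit 262) (nat_lit 5) (nat_lit 403) (nat_lit 390) (nat_lit 227))) (XT.nd (nat_lit 78) (nat_lit 304) (nat_lit 0) (XT.lf (nat_lit 0) (nat_lit 124524540567) (nat_lit 380) (nat_lit 94399998123) (nat_lit 76) (nat_lit 122636264693) (nat_lit 257) (nat_lit 5) (nat_lit 262) (nat_lit 5) (nat_lit 258) (nat_lit 5) (nat_lit 404) (nat_lit 390) (nat_lit 226)) (XT.lf (nat_lit 0) (nat_lit 224867958354) (nat_lit 380) (nat_lit 125897173954) (nat_lit 76) (nat_lit 6534763572) (nat_lit 253) (nat_lit 5) (nat_lit 258) (nat_lit 5) (nat_lit 254) (nat_lit 5) (nat_lit 405) (nat_lit 390) (nat_lit 225))))) (XT.nd (nat_lit 312) (nat_lit 1140) (nat_lit 0) (XT.nd (nat_lit 156) (nat_lit 456) (nat_lit 0) (XT.nd (nat_lit 78) (nat_lit 380) (nat_lit 0) (XT.lf (nat_lit 0) (nat_lit 215606944315) (nat_lit 228)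 (nat_lit 126360828111) (nat_lit 304) (nat_lit 31893897207) (nat_lit 250) (nat_lit 5) (nat_lit 253) (nat_lit 5) (nat_lit 254) (nat_lit 5) (nat_lit 406) (nat_lit 390) (nat_lit 224)) (XT.lf (nat_lit 0) (nat_lit 81542807991) (nat_lit 380) (nat_lit 190800530434) (nat_lit 76) (nat_lit 118979677240) (nat_lit 245) (nat_lit 5) (nat_lit 250) (nat_lit 5) (nat_lit 246) (nat_lit 5) (nat_lit 407) (nat_lit 390) (nat_lit 223))) (XT.nd (nat_lit 78) (nat_lit 228) (nat_lit 0) (XT.lf (nat_lit 0) (nat_lit 186877090424) (nat_lit 228) (nat_lit 23925019798) (nat_lit 304) (nat_lit 198959763247) (nat_lit 242) (nat_lit 5) (nat_lit 245) (nat_lit 5) (nat_lit 246) (nat_lit 5) (nat_lit 408) (nat_lit 390) (nat_lit 222)) (XT.lf (nat_lit 0) (nat_lit 173764347089) (nat_lit 228) (nat_lit 186544013193) (nat_lit 304) (nat_lit 68872169434) (nat_lit 239) (nat_lit 5) (nat_lit 242) (nat_lit 5) (nat_lit 243) (nat_lit 5) (nat_lit 409)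 (nat_lit 390) (nat_lit 221)))) (XT.nd (nat_lit 156) (nat_lit 608) (nat_lit 0) (XT.nd (nat_lit 78) (nat_lit 228) (nat_lit 0) (XT.lf (nat_lit 0) (nat_lit 77604128258) (nat_lit 304) (nat_lit 287315290926) (nat_lit 76) (nat_lit 84763644860) (nat_lit 235) (nat_lit 5) (nat_lit 239) (nat_lit 5) (nat_lit 236) (nat_lit 5) (nat_lit 410) (nat_lit 390) (nat_lit 220)) (XT.lf (nat_lit 0) (nat_lit 151563032117) (nat_lit 228) (nat_lit 91888635672) (nat_lit 304) (nat_lit 227814376565) (nat_lit 232) (nat_lit 5) (nat_lit 235) (nat_lit 5) (nat_lit 236) (nat_lit 5) (nat_lit 411) (nat_lit 390) (nat_lit 219))) (XT.nd (nat_lit 78) (nat_lit 456) (nat_lit 0) (XT.lf (nat_lit 0) (nat_lit 142805456753) (nat_lit 152) (nat_lit 290247109166) (nat_lit 228) (nat_lit 60998819396) (nat_lit 230) (nat_lit 5) (nat_lit 232) (nat_lit 5) (nat_lit 233) (nat_lit 5) (nat_lit 412) (nat_lit 390) (nat_lit 218)) (XT.nd (nat_lit 78) (nat_lit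 152) (nat_lit 0) (XT.lf (nat_lit 0) (nat_lit 124864206143) (nat_lit 304) (nat_lit 382071430577) (nat_lit 76) (nat_lit 11155086638) (nat_lit 226) (nat_lit 5) (nat_lit 230) (nat_lit 5) (nat_lit 227) (nat_lit 5) (nat_lit 413) (nat_lit 390) (nat_lit 217)) (XT.lf (nat_lit 0) (nat_lit 129172568935) (nat_lit 152) (nat_lit 207444713347) (nat_lit 228) (nat_lit 206728021628) (nat_lit 224) (nat_lit 5) (nat_lit 226) (nat_lit 5) (nat_lit 227) (nat_lit 5) (nat_lit 414) (nat_lit 390) (nat_lit 216))))))))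
noncomputable def xc215 : XT := (XT.nd (nat_lit 1248) (nat_lit 1596) (nat_lit 0) (XT.nd (nat_lit 624) (nat_lit 1216) (nat_lit 0) (XT.nd (nat_lit 312) (nat_lit 532) (nat_lit 0) (XT.nd (nat_lit 156) (nat_lit 380) (nat_lit 0) (XT.nd (nat_lit 78) (nat_lit 152) (nat_lit 0) (XT.lf (nat_lit 0) (nat_lit 5588838986) (nat_lit 228) (nat_lit 443372039656) (nat_lit 76) (nat_lit 121127090010) (nat_lit 221) (nat_lit 5) (nat_lit 224) (nat_lit 5) (nat_lit 222) (nat_lit 5) (nat_lit 415) (nat_lit 390) (nat_lit 215)) (XT.lf (nat_lit 0) (nat_lit 123920463464) (nat_lit 152) (nat_lit 116590129713) (nat_lit 228) (nat_lit 357646889820) (nat_lit 219) (nat_lit 5) (nat_lit 221) (nat_lit 5) (nat_lit 222) (nat_lit 5) (nat_lit 416) (nat_lit 390) (nat_lit 214))) (XT.nd (nat_lit 78) (nat_lit 228) (nat_lit 0) (XT.lf (nat_lit 0) (nat_lit 124413847113) (nat_lit 152) (nat_lit 383388559979) (nat_lit 228) (nat_lit 119991335426) (nat_lit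 217) (nat_lit 5) (nat_lit 219) (nat_lit 5) (nat_lit 220) (nat_lit 5) (nat_lit 417) (nat_lit 390) (nat_lit 213)) (XT.lf (nat_lit 0) (nat_lit 128377274571) (nat_lit 152) (nat_lit 16291389217) (nat_lit 228) (nat_lit 514407218364) (nat_lit 214) (nat_lit 5) (nat_lit 216) (nat_lit 5) (nat_lit 217) (nat_lit 5) (nat_lit 418) (nat_lit 390) (nat_lit 212)))) (XT.nd (nat_lit 156) (nat_lit 228) (nat_lit 0) (XT.nd (nat_lit 78) (nat_lit 152) (nat_lit 0) (XT.lf (nat_lit 0) (nat_lit 132362084644) (nat_lit 152) (nat_lit 310906016754) (nat_lit 228) (nat_lit 248645610487) (nat_lit 212) (nat_lit 5) (nat_lit 214) (nat_lit 5) (nat_lit 215) (nat_lit 5) (nat_lit 419) (nat_lit 390) (nat_lit 211)) (XT.lf (nat_lit 0) (nat_lit 50552385578) (nat_lit 152) (nat_lit 584147565556) (nat_lit 76) (nat_lit 91978470251) (nat_lit 210) (nat_lit 5) (nat_lit 212) (nat_lit 5) (nat_lit 211) (nat_lit 5) (nat_lit 420) (nat_lit 390) (nat_lit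 210))) (XT.nd (nat_lit 78) (nat_lit 76) (nat_lit 0) (XT.lf (nat_lit 0) (nat_lit 152304107115) (nat_lit 152) (nat_lit 230314333376) (nat_lit 228) (nat_lit 380519881769) (nat_lit 208) (nat_lit 5) (nat_lit 210) (nat_lit 5) (nat_lit 211) (nat_lit 5) (nat_lit 421) (nat_lit 390) (nat_lit 209)) (XT.lf (nat_lit 0) (nat_lit 168529642924) (nat_lit 76) (nat_lit 588916407475) (nat_lit 152) (nat_lit 44259151276) (nat_lit 207) (nat_lit 5) (nat_lit 208) (nat_lit 5) (nat_lit 209) (nat_lit 4) (nat_lit 422) (nat_lit 390) (nat_lit 208))))) (XT.nd (nat_lit 312) (nat_lit 608) (nat_lit 0) (XT.nd (nat_lit 156) (nat_lit 304) (nat_lit 0) (XT.nd (nat_lit 78) (nat_lit 76) (nat_lit 0) (XT.lf (nat_lit 0) (nat_lit 186150855452) (nat_lit 152) (nat_lit 140149278997) (nat_lit 228) (nat_lit 515928120637) (nat_lit 204) (nat_lit 5) (nat_lit 206) (nat_lit 5) (nat_lit 207) (nat_lit 5) (nat_lit 423) (nat_lit 390) (nat_lit 207)) (XT.lf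 (nat_lit 0) (nat_lit 208561346959) (nat_lit 76) (nat_lit 536258322159) (nat_lit 152) (nat_lit 140143899100) (nat_lit 203) (nat_lit 5) (nat_lit 204) (nat_lit 5) (nat_lit 205) (nat_lit 4) (nat_lit 424) (nat_lit 390) (nat_lit 206))) (XT.nd (nat_lit 78) (nat_lit 76) (nat_lit 0) (XT.lf (nat_lit 0) (nat_lit 236111258422) (nat_lit 152) (nat_lit 38752915999) (nat_lit 228) (nat_lit 655162849935) (nat_lit 200) (nat_lit 5) (nat_lit 202) (nat_lit 5) (nat_lit 203) (nat_lit 5) (nat_lit 425) (nat_lit 390) (nat_lit 205)) (XT.lf (nat_lit 0) (nat_lit 265841944067) (nat_lit 76) (nat_lit 476296568899) (nat_lit 152) (nat_lit 235243393034) (nat_lit 199) (nat_lit 5) (nat_lit 200) (nat_lit 5) (nat_lit 201) (nat_lit 4) (nat_lit 426) (nat_lit 390) (nat_lit 204)))) (XT.nd (nat_lit 156) (nat_lit 304) (nat_lit 0) (XT.nd (nat_lit 78) (nat_lit 76) (nat_lit 0) (XT.lf (nat_lit 0) (nat_lit 230163183452) (nat_lit 228) (nat_lit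 723919820556) (nat_lit 76) (nat_lit 73327806443) (nat_lit 196) (nat_lit 5) (nat_lit 199) (nat_lit 5) (nat_lit 197) (nat_lit 4) (nat_lit 427) (nat_lit 390) (nat_lit 203)) (XT.lf (nat_lit 0) (nat_lit 343090882891) (nat_lit 76) (nat_lit 407565350916) (nat_lit 152) (nat_lit 329288184482) (nat_lit 195) (nat_lit 5) (nat_lit 196) (nat_lit 5) (nat_lit 197) (nat_lit 4) (nat_lit 428) (nat_lit 390) (nat_lit 202))) (XT.nd (nat_lit 78) (nat_lit 76) (nat_lit 0) (XT.lf (nat_lit 0) (nat_lit 192662909907) (nat_lit 228) (nat_lit 743854789459) (nat_lit 76) (nat_lit 198915965770) (nat_lit 192) (nat_lit 5) (nat_lit 195) (nat_lit 5) (nat_lit 193) (nat_lit 4) (nat_lit 429) (nat_lit 390) (nat_lit 201)) (XT.lf (nat_lit 0) (nat_lit 443435918043) (nat_lit 76) (nat_lit 328393210474) (nat_lit 152) (nat_lit 421913230337) (nat_lit 191) (nat_lit 5) (nat_lit 192) (nat_lit 5) (nat_lit 193) (nat_lit 4) (nat_lit 430) (nat_lit 390)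 (nat_lit 200)))))) (XT.nd (nat_lit 624) (nat_lit 684) (nat_lit 0) (XT.nd (nat_lit 312) (nat_lit 456) (nat_lit 0) (XT.nd (nat_lit 156) (nat_lit 228) (nat_lit 0) (XT.nd (nat_lit 78) (nat_lit 76) (nat_lit 0) (XT.lf (nat_lit 0) (nat_lit 162756119450) (nat_lit 152) (nat_lit 750934558035) (nat_lit 76) (nat_lit 341583116826) (nat_lit 189) (nat_lit 5) (nat_lit 191) (nat_lit 5) (nat_lit 190) (nat_lit 4) (nat_lit 431) (nat_lit 390) (nat_lit 199)) (XT.lf (nat_lit 0) (nat_lit 570468177151) (nat_lit 76) (nat_lit 236874658579) (nat_lit 152) (nat_lit 512642798215) (nat_lit 188) (nat_lit 5) (nat_lit 189) (nat_lit 5) (nat_lit 190) (nat_lit 4) (nat_lit 432) (nat_lit 390) (nat_lit 198))) (XT.nd (nat_lit 78) (nat_lit 76) (nat_lit 0) (XT.lf (nat_lit 0) (nat_lit 141621918692) (nat_lit 152) (nat_lit 742612844612) (nat_lit 76) (nat_lit 503969136205) (nat_lit 186) (nat_lit 5) (nat_lit 188) (nat_lit 5) (nat_lit 187) (nat_lit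 4) (nat_lit 433) (nat_lit 390) (nat_lit 197)) (XT.lf (nat_lit 0) (nat_lit 728304392001) (nat_lit 76) (nat_lit 130838143136) (nat_lit 152) (nat_lit 600873130732) (nat_lit 185) (nat_lit 5) (nat_lit 186) (nat_lit 5) (nat_lit 187) (nat_lit 4) (nat_lit 434) (nat_lit 390) (nat_lit 196)))) (XT.nd (nat_lit 156) (nat_lit 228) (nat_lit 0) (XT.nd (nat_lit 78) (nat_lit 76) (nat_lit 0) (XT.lf (nat_lit 0) (nat_lit 130645992682) (nat_lit 152) (nat_lit 715926029402) (nat_lit 76) (nat_lit 689062929313) (nat_lit 183) (nat_lit 5) (nat_lit 185) (nat_lit 5) (nat_lit 184) (nat_lit 4) (nat_lit 435) (nat_lit 390) (nat_lit 195)) (XT.lf (nat_lit 0) (nat_lit 921657193941) (nat_lit 76) (nat_lit 7809894092) (nat_lit 152) (nat_lit 685852567296) (nat_lit 182) (nat_lit 5) (nat_lit 183) (nat_lit 5) (nat_lit 184) (nat_lit 4) (nat_lit 436) (nat_lit 390) (nat_lit 194))) (XT.nd (nat_lit 78) (nat_lit 76) (nat_lit 0) (XT.lf (nat_lit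 0) (nat_lit 131449315708) (nat_lit 152) (nat_lit 667434004717) (nat_lit 76) (nat_lit 900247860576) (nat_lit 180) (nat_lit 5) (nat_lit 182) (nat_lit 5) (nat_lit 181) (nat_lit 4) (nat_lit 437) (nat_lit 390) (nat_lit 193)) (XT.lf (nat_lit 0) (nat_lit 1022995759845) (nat_lit 152) (nat_lit 633740058091) (nat_lit 0) (nat_lit 130705169380) (nat_lit 179) (nat_lit 5) (nat_lit 181) (nat_lit 4) (nat_lit 179) (nat_lit 4) (nat_lit 438) (nat_lit 390) (nat_lit 192))))) (XT.nd (nat_lit 312) (nat_lit 228) (nat_lit 0) (XT.nd (nat_lit 156) (nat_lit 228) (nat_lit 0) (XT.nd (nat_lit 78) (nat_lit 76) (nat_lit 0) (XT.lf (nat_lit 0) (nat_lit 145920734041) (nat_lit 152) (nat_lit 593153101611) (nat_lit 76) (nat_lit 1141352864894) (nat_lit 177) (nat_lit 5) (nat_lit 179) (nat_lit 5) (nat_lit 178) (nat_lit 4) (nat_lit 439) (nat_lit 390) (nat_lit 191)) (XT.lf (nat_lit 0) (nat_lit 1141048591116) (nat_lit 152) (nat_lit 545992332942)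 (nat_lit 0) (nat_lit 291247999546) (nat_lit 176) (nat_lit 5) (nat_lit 178) (nat_lit 4) (nat_lit 176) (nat_lit 4) (nat_lit 440) (nat_lit 390) (nat_lit 190))) (XT.nd (nat_lit 78) (nat_lit 76) (nat_lit 0) (XT.lf (nat_lit 0) (nat_lit 176253916037) (nat_lit 152) (nat_lit 488480076701) (nat_lit 76) (nat_lit 1416709938454) (nat_lit 174) (nat_lit 5) (nat_lit 176) (nat_lit 5) (nat_lit 175) (nat_lit 4) (nat_lit 441) (nat_lit 390) (nat_lit 189)) (XT.lf (nat_lit 0) (nat_lit 1286932508424) (nat_lit 152) (nat_lit 425362099223) (nat_lit 0) (nat_lit 477598587830) (nat_lit 173) (nat_lit 5) (nat_lit 175) (nat_lit 4) (nat_lit 173) (nat_lit 4) (nat_lit 442) (nat_lit 390) (nat_lit 188)))) (XT.nd (nat_lit 49062) (nat_lit 0) (nat_lit 9272) (XT.nd (nat_lit 78) (nat_lit 76) (nat_lit 0) (XT.lf (nat_lit 0) (nat_lit 224989226939) (nat_lit 152) (nat_lit 348106015990) (nat_lit 76) (nat_lit 1731218791261) (nat_lit 171) (nat_lit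 5) (nat_lit 173) (nat_lit 5) (nat_lit 172) (nat_lit 4) (nat_lit 443) (nat_lit 390) (nat_lit 187)) (XT.lf (nat_lit 0) (nat_lit 1464564636371) (nat_lit 152) (nat_lit 266162122805) (nat_lit 0) (nat_lit 693770406799) (nat_lit 170) (nat_lit 5) (nat_lit 172) (nat_lit 4) (nat_lit 170) (nat_lit 4) (nat_lit 444) (nat_lit 390) (nat_lit 186))) (XT.nd (nat_lit 78) (nat_lit 0) (nat_lit 76) (XT.lf (nat_lit 0) (nat_lit 48315545801) (nat_lit 836) (nat_lit 27223829426) (nat_lit 836) (nat_lit 27223829426) (nat_lit 292) (nat_lit 3) (nat_lit 303) (nat_lit 3) (nat_lit 303) (nat_lit 5) (nat_lit 391) (nat_lit 391) (nat_lit 238)) (XT.nd (nat_lit 78) (nat_lit 0) (nat_lit 0) (XT.lf (nat_lit 0) (nat_lit 102449502581) (nat_lit 760) (nat_lit 100225998500) (nat_lit 836) (nat_lit 10974306230) (nat_lit 293) (nat_lit 5) (nat_lit 303) (nat_lit 5) (nat_lit 304) (nat_lit 5) (nat_lit 392) (nat_lit 391) (nat_lit 237)) (XT.lf (nat_lit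 76) (nat_lit 74102225339) (nat_lit 0) (nat_lit 39299319439) (nat_lit 836) (nat_lit 108788124462) (nat_lit 294) (nat_lit 5) (nat_lit 293) (nat_lit 5) (nat_lit 304) (nat_lit 5) (nat_lit 393) (nat_lit 391) (nat_lit 236))))))))
noncomputable def xc216 : XT := (XT.nd (nat_lit 1248) (nat_lit 2964) (nat_lit 0) (XT.nd (nat_lit 624) (nat_lit 2128) (nat_lit 0) (XT.nd (nat_lit 312) (nat_lit 1824) (nat_lit 0) (XT.nd (nat_lit 156) (nat_lit 0) (nat_lit 152) (XT.nd (nat_lit 78) (nat_lit 0) (nat_lit 76) (XT.lf (nat_lit 76) (nat_lit 33533583292) (nat_lit 0) (nat_lit 96135238589) (nat_lit 836) (nat_lit 101521944668) (nat_lit 295) (nat_lit 5) (nat_lit 294) (nat_lit 5) (nat_lit 305) (nat_lit 5) (nat_lit 394) (nat_lit 391) (nat_lit 235)) (XT.lf (nat_lit 0) (nat_lit 151777478328) (nat_lit 760) (nat_lit 7771297171) (nat_lit 836) (nat_lit 81136176284) (nat_lit 295) (nat_lit 5) (nat_lit 305) (nat_lit 5) (nat_lit 306)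 (nat_lit 5) (nat_lit 395) (nat_lit 391) (nat_lit 234))) (XT.nd (nat_lit 78) (nat_lit 0) (nat_lit 0) (XT.lf (nat_lit 0) (nat_lit 180771000561) (nat_lit 760) (nat_lit 48884465218) (nat_lit 836) (nat_lit 21027397393) (nat_lit 296) (nat_lit 5) (nat_lit 306) (nat_lit 5) (nat_lit 307) (nat_lit 5) (nat_lit 396) (nat_lit 391) (nat_lit 233)) (XT.lf (nat_lit 76) (nat_lit 169675361375) (nat_lit 0) (nat_lit 47885445435) (nat_lit 836) (nat_lit 43645960550) (nat_lit 297) (nat_lit 5) (nat_lit 296) (nat_lit 5) (nat_lit 307) (nat_lit 5) (nat_lit 397) (nat_lit 391) (nat_lit 232)))) (XT.nd (nat_lit 156) (nat_lit 760) (nat_lit 0) (XT.nd (nat_lit 78) (nat_lit 532) (nat_lit 0) (XT.lf (nat_lit 0) (nat_lit 136988650035) (nat_lit 760) (nat_lit 125626600189) (nat_lit 836) (nat_lit 9691261026) (nat_lit 287) (nat_lit 5) (nat_lit 297) (nat_lit 5) (nat_lit 298) (nat_lit 5) (nat_lit 398) (nat_lit 391) (nat_lit 231)) (XT.lf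 (nat_lit 0) (nat_lit 31349965051) (nat_lit 532) (nat_lit 180288752221) (nat_lit 76) (nat_lit 72372772196) (nat_lit 280) (nat_lit 5) (nat_lit 287) (nat_lit 5) (nat_lit 281) (nat_lit 5) (nat_lit 399) (nat_lit 391) (nat_lit 230))) (XT.nd (nat_lit 78) (nat_lit 380) (nat_lit 0) (XT.lf (nat_lit 0) (nat_lit 70107099581) (nat_lit 380) (nat_lit 10840897525) (nat_lit 456) (nat_lit 215416273058) (nat_lit 275) (nat_lit 5) (nat_lit 280) (nat_lit 5) (nat_lit 281) (nat_lit 5) (nat_lit 400) (nat_lit 391) (nat_lit 229)) (XT.lf (nat_lit 0) (nat_lit 35285589037) (nat_lit 380) (nat_lit 106187606688) (nat_lit 456) (nat_lit 167884111391) (nat_lit 270) (nat_lit 5) (nat_lit 275) (nat_lit 5) (nat_lit 276) (nat_lit 5) (nat_lit 401) (nat_lit 391) (nat_lit 228))))) (XT.nd (nat_lit 312) (nat_lit 1140) (nat_lit 0) (XT.nd (nat_lit 156) (nat_lit 684) (nat_lit 0) (XT.nd (nat_lit 78) (nat_lit 0) (nat_lit 0) (XT.lf (nat_lit 0)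 (nat_lit 690216167) (nat_lit 304) (nat_lit 212072431119) (nat_lit 380) (nat_lit 110331027884) (nat_lit 266) (nat_lit 5) (nat_lit 270) (nat_lit 5) (nat_lit 271) (nat_lit 5) (nat_lit 402) (nat_lit 391) (nat_lit 227)) (XT.lf (nat_lit 0) (nat_lit 296432673063) (nat_lit 380) (nat_lit 32373668776) (nat_lit 76) (nat_lit 8788739925) (nat_lit 266) (nat_lit 5) (nat_lit 271) (nat_lit 5) (nat_lit 267) (nat_lit 5) (nat_lit 403) (nat_lit 391) (nat_lit 226))) (XT.nd (nat_lit 78) (nat_lit 304) (nat_lit 0) (XT.lf (nat_lit 0) (nat_lit 40646265403) (nat_lit 380) (nat_lit 67059133229) (nat_lit 76) (nat_lit 245116017556) (nat_lit 261) (nat_lit 5) (nat_lit 266) (nat_lit 5) (nat_lit 262) (nat_lit 5) (nat_lit 404) (nat_lit 391) (nat_lit 225)) (XT.lf (nat_lit 0) (nat_lit 134488742584) (nat_lit 380) (nat_lit 101949148059) (nat_lit 76) (nat_lit 132447665073) (nat_lit 257) (nat_lit 5) (nat_lit 262) (nat_lit 5) (nat_lit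 258) (nat_lit 5) (nat_lit 405) (nat_lit 391) (nat_lit 224)))) (XT.nd (nat_lit 156) (nat_lit 608) (nat_lit 0) (XT.nd (nat_lit 78) (nat_lit 228) (nat_lit 0) (XT.lf (nat_lit 0) (nat_lit 242859520052) (nat_lit 380) (nat_lit 135966125568) (nat_lit 76) (nat_lit 7058135678) (nat_lit 253) (nat_lit 5) (nat_lit 258) (nat_lit 5) (nat_lit 254) (nat_lit 5) (nat_lit 406) (nat_lit 391) (nat_lit 223)) (XT.lf (nat_lit 0) (nat_lit 232858199509) (nat_lit 228) (nat_lit 136469004481) (nat_lit 304) (nat_lit 34443298725) (nat_lit 250) (nat_lit 5) (nat_lit 253) (nat_lit 5) (nat_lit 254) (nat_lit 5) (nat_lit 407) (nat_lit 391) (nat_lit 222))) (XT.nd (nat_lit 78) (nat_lit 228) (nat_lit 0) (XT.lf (nat_lit 0) (nat_lit 88068176511) (nat_lit 380) (nat_lit 206061840451) (nat_lit 76) (nat_lit 128498742762) (nat_lit 245) (nat_lit 5) (nat_lit 250) (nat_lit 5) (nat_lit 246) (nat_lit 5) (nat_lit 408) (nat_lit 391) (nat_lit 221))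 (XT.lf (nat_lit 0) (nat_lit 201829871328) (nat_lit 228) (nat_lit 25838248409) (nat_lit 304) (nat_lit 214874611575) (nat_lit 242) (nat_lit 5) (nat_lit 245) (nat_lit 5) (nat_lit 246) (nat_lit 5) (nat_lit 409) (nat_lit 391) (nat_lit 220)))))) (XT.nd (nat_lit 624) (nat_lit 1216) (nat_lit 0) (XT.nd (nat_lit 312) (nat_lit 836) (nat_lit 0) (XT.nd (nat_lit 156) (nat_lit 380) (nat_lit 0) (XT.nd (nat_lit 78) (nat_lit 304) (nat_lit 0) (XT.lf (nat_lit 0) (nat_lit 187668071430) (nat_lit 228) (nat_lit 201466713424) (nat_lit 304) (nat_lit 74380099451) (nat_lit 239) (nat_lit 5) (nat_lit 242) (nat_lit 5) (nat_lit 243) (nat_lit 5) (nat_lit 410) (nat_lit 391) (nat_lit 219)) (XT.lf (nat_lit 0) (nat_lit 83814163174) (nat_lit 304) (nat_lit 310297921523) (nat_lit 76) (nat_lit 91545539239) (nat_lit 235) (nat_lit 5) (nat_lit 239) (nat_lit 5) (nat_lit 236) (nat_lit 5) (nat_lit 411) (nat_lit 391) (nat_lit 218))) (XT.nd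 (nat_lit 78) (nat_lit 152) (nat_lit 0) (XT.lf (nat_lit 0) (nat_lit 163690554688) (nat_lit 228) (nat_lit 99238863627) (nat_lit 304) (nat_lit 246037828731) (nat_lit 232) (nat_lit 5) (nat_lit 235) (nat_lit 5) (nat_lit 236) (nat_lit 5) (nat_lit 412) (nat_lit 391) (nat_lit 217)) (XT.lf (nat_lit 0) (nat_lit 154232329972) (nat_lit 152) (nat_lit 313465989056) (nat_lit 228) (nat_lit 65877099721) (nat_lit 230) (nat_lit 5) (nat_lit 232) (nat_lit 5) (nat_lit 233) (nat_lit 5) (nat_lit 413) (nat_lit 391) (nat_lit 216)))) (XT.nd (nat_lit 156) (nat_lit 380) (nat_lit 0) (XT.nd (nat_lit 78) (nat_lit 152) (nat_lit 0) (XT.lf (nat_lit 0) (nat_lit 134854850322) (nat_lit 304) (nat_lit 412634703634) (nat_lit 76) (nat_lit 12048351887) (nat_lit 226) (nat_lit 5) (nat_lit 230) (nat_lit 5) (nat_lit 227) (nat_lit 5) (nat_lit 414) (nat_lit 391) (nat_lit 215)) (XT.lf (nat_lit 0) (nat_lit 139508709740) (nat_lit 152) (nat_lit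 224039387592) (nat_lit 228) (nat_lit 223264759268) (nat_lit 224) (nat_lit 5) (nat_lit 226) (nat_lit 5) (nat_lit 227) (nat_lit 5) (nat_lit 415) (nat_lit 391) (nat_lit 214))) (XT.nd (nat_lit 78) (nat_lit 152) (nat_lit 0) (XT.lf (nat_lit 0) (nat_lit 6037343793) (nat_lit 228) (nat_lit 478839467787) (nat_lit 76) (nat_lit 130818124681) (nat_lit 221) (nat_lit 5) (nat_lit 224) (nat_lit 5) (nat_lit 222) (nat_lit 5) (nat_lit 416) (nat_lit 391) (nat_lit 213)) (XT.lf (nat_lit 0) (nat_lit 133836334105) (nat_lit 152) (nat_lit 125916435554) (nat_lit 228) (nat_lit 386257245527) (nat_lit 219) (nat_lit 5) (nat_lit 221) (nat_lit 5) (nat_lit 222) (nat_lit 5) (nat_lit 417) (nat_lit 391) (nat_lit 212))))) (XT.nd (nat_lit 312) (nat_lit 532) (nat_lit 0) (XT.nd (nat_lit 156) (nat_lit 304) (nat_lit 0) (XT.nd (nat_lit 78) (nat_lit 228) (nat_lit 0) (XT.lf (nat_lit 0) (nat_lit 134369141433) (nat_lit 152) (nat_lit 414058736022)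 (nat_lit 228) (nat_lit 129589300575) (nat_lit 217) (nat_lit 5) (nat_lit 219) (nat_lit 5) (nat_lit 220) (nat_lit 5) (nat_lit 418) (nat_lit 391) (nat_lit 211)) (XT.lf (nat_lit 0) (nat_lit 138649589139) (nat_lit 152) (nat_lit 17593803588) (nat_lit 228) (nat_lit 555558498205) (nat_lit 214) (nat_lit 5) (nat_lit 216) (nat_lit 5) (nat_lit 217) (nat_lit 5) (nat_lit 419) (nat_lit 391) (nat_lit 210))) (XT.nd (nat_lit 78) (nat_lit 152) (nat_lit 0) (XT.lf (nat_lit 0) (nat_lit 142953137051) (nat_lit 152) (nat_lit 335777602278) (nat_lit 228) (nat_lit 268536010016) (nat_lit 212) (nat_lit 5) (nat_lit 214) (nat_lit 5) (nat_lit 215) (nat_lit 5) (nat_lit 420) (nat_lit 391) (nat_lit 209)) (XT.lf (nat_lit 0) (nat_lit 54597741681) (nat_lit 152) (nat_lit 630877293748) (nat_lit 76) (nat_lit 99337601405) (nat_lit 210) (nat_lit 5) (nat_lit 212) (nat_lit 5) (nat_lit 211) (nat_lit 5) (nat_lit 421) (nat_lit 391) (nat_lit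 208)))) (XT.nd (nat_lit 156) (nat_lit 304) (nat_lit 0) (XT.nd (nat_lit 78) (nat_lit 76) (nat_lit 0) (XT.lf (nat_lit 0) (nat_lit 164490422470) (nat_lit 152) (nat_lit 248738603220) (nat_lit 228) (nat_lit 410960306853) (nat_lit 208) (nat_lit 5) (nat_lit 210) (nat_lit 5) (nat_lit 211) (nat_lit 5) (nat_lit 422) (nat_lit 391) (nat_lit 207)) (XT.lf (nat_lit 0) (nat_lit 182013954792) (nat_lit 76) (nat_lit 636028850351) (nat_lit 152) (nat_lit 47798759131) (nat_lit 207) (nat_lit 5) (nat_lit 208) (nat_lit 5) (nat_lit 209) (nat_lit 4) (nat_lit 423) (nat_lit 391) (nat_lit 206))) (XT.nd (nat_lit 78) (nat_lit 76) (nat_lit 0) (XT.lf (nat_lit 0) (nat_lit 201044814412) (nat_lit 152) (nat_lit 151360367961) (nat_lit 228) (nat_lit 557201281261) (nat_lit 204) (nat_lit 5) (nat_lit 206) (nat_lit 5) (nat_lit 207) (nat_lit 5) (nat_lit 424) (nat_lit 391) (nat_lit 205)) (XT.lf (nat_lit 0) (nat_lit 225248099941) (nat_lit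 76) (nat_lit 579158144194) (nat_lit 152) (nat_lit 151354359467) (nat_lit 203) (nat_lit 5) (nat_lit 204) (nat_lit 5) (nat_lit 205) (nat_lit 4) (nat_lit 425) (nat_lit 391) (nat_lit 204)))))))
noncomputable def xc217 : XT := (XT.nd (nat_lit 1248) (nat_lit 380) (nat_lit 0) (XT.nd (nat_lit 624) (nat_lit 912) (nat_lit 0) (XT.nd (nat_lit 312) (nat_lit 532) (nat_lit 0) (XT.nd (nat_lit 156) (nat_lit 304) (nat_lit 0) (XT.nd (nat_lit 78) (nat_lit 76) (nat_lit 0) (XT.lf (nat_lit 0) (nat_lit 255001956323) (nat_lit 152) (nat_lit 41852322615) (nat_lit 228) (nat_lit 707574858837) (nat_lit 200) (nat_lit 5) (nat_lit 202) (nat_lit 5) (nat_lit 203) (nat_lit 5) (nat_lit 426) (nat_lit 391) (nat_lit 203)) (XT.lf (nat_lit 0) (nat_lit 287111052788) (nat_lit 76) (nat_lit 514399479208) (nat_lit 152) (nat_lit 254061879584) (nat_lit 199) (nat_lit 5) (nat_lit 200) (nat_lit 5) (nat_lit 201) (nat_lit 4) (nat_lit 427) (nat_lit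 391) (nat_lit 202))) (XT.nd (nat_lit 78) (nat_lit 76) (nat_lit 0) (XT.lf (nat_lit 0) (nat_lit 248577159987) (nat_lit 228) (nat_lit 781831666029) (nat_lit 76) (nat_lit 79194803178) (nat_lit 196) (nat_lit 5) (nat_lit 199) (nat_lit 5) (nat_lit 197) (nat_lit 4) (nat_lit 428) (nat_lit 391) (nat_lit 201)) (XT.lf (nat_lit 0) (nat_lit 370539818069) (nat_lit 76) (nat_lit 440169794005) (nat_lit 152) (nat_lit 355630315701) (nat_lit 195) (nat_lit 5) (nat_lit 196) (nat_lit 5) (nat_lit 197) (nat_lit 4) (nat_lit 429) (nat_lit 391) (nat_lit 200)))) (XT.nd (nat_lit 156) (nat_lit 228) (nat_lit 0) (XT.nd (nat_lit 78) (nat_lit 76) (nat_lit 0) (XT.lf (nat_lit 0) (nat_lit 208076807742) (nat_lit 228) (nat_lit 803361521463) (nat_lit 76) (nat_lit 214829985891) (nat_lit 192) (nat_lit 5) (nat_lit 195) (nat_lit 5) (nat_lit 193) (nat_lit 4) (nat_lit 430) (nat_lit 391) (nat_lit 199)) (XT.lf (nat_lit 0) (nat_lit 478912370882)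 (nat_lit 76) (nat_lit 354663913539) (nat_lit 152) (nat_lit 455665421859) (nat_lit 191) (nat_lit 5) (nat_lit 192) (nat_lit 5) (nat_lit 193) (nat_lit 4) (nat_lit 431) (nat_lit 391) (nat_lit 198))) (XT.nd (nat_lit 78) (nat_lit 76) (nat_lit 0) (XT.lf (nat_lit 0) (nat_lit 175777421501) (nat_lit 152) (nat_lit 811007756826) (nat_lit 76) (nat_lit 368910478905) (nat_lit 189) (nat_lit 5) (nat_lit 191) (nat_lit 5) (nat_lit 190) (nat_lit 4) (nat_lit 432) (nat_lit 391) (nat_lit 197)) (XT.lf (nat_lit 0) (nat_lit 616107129125) (nat_lit 76) (nat_lit 255823909159) (nat_lit 152) (nat_lit 553653407592) (nat_lit 188) (nat_lit 5) (nat_lit 189) (nat_lit 5) (nat_lit 190) (nat_lit 4) (nat_lit 433) (nat_lit 391) (nat_lit 196))))) (XT.nd (nat_lit 312) (nat_lit 456) (nat_lit 0) (XT.nd (nat_lit 156) (nat_lit 228) (nat_lit 0) (XT.nd (nat_lit 78) (nat_lit 76) (nat_lit 0) (XT.lf (nat_lit 0) (nat_lit 152952435961) (nat_lit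 152) (nat_lit 802020387903) (nat_lit 76) (nat_lit 544287349417) (nat_lit 186) (nat_lit 5) (nat_lit 188) (nat_lit 5) (nat_lit 187) (nat_lit 4) (nat_lit 434) (nat_lit 391) (nat_lit 195)) (XT.lf (nat_lit 0) (nat_lit 786570163134) (nat_lit 76) (nat_lit 141304504178) (nat_lit 152) (nat_lit 648942215358) (nat_lit 185) (nat_lit 5) (nat_lit 186) (nat_lit 5) (nat_lit 187) (nat_lit 4) (nat_lit 435) (nat_lit 391) (nat_lit 194))) (XT.nd (nat_lit 78) (nat_lit 76) (nat_lit 0) (XT.lf (nat_lit 0) (nat_lit 141098390591) (nat_lit 152) (nat_lit 773198705354) (nat_lit 76) (nat_lit 744188615641) (nat_lit 183) (nat_lit 5) (nat_lit 185) (nat_lit 5) (nat_lit 184) (nat_lit 4) (nat_lit 436) (nat_lit 391) (nat_lit 193)) (XT.lf (nat_lit 0) (nat_lit 995391114737) (nat_lit 76) (nat_lit 8434026615) (nat_lit 152) (nat_lit 740720052090) (nat_lit 182) (nat_lit 5) (nat_lit 183) (nat_lit 5) (nat_lit 184) (nat_lit 4) (nat_lit 437)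 (nat_lit 391) (nat_lit 192)))) (XT.nd (nat_lit 156) (nat_lit 228) (nat_lit 0) (XT.nd (nat_lit 78) (nat_lit 76) (nat_lit 0) (XT.lf (nat_lit 0) (nat_lit 141965937290) (nat_lit 152) (nat_lit 720827392935) (nat_lit 76) (nat_lit 972268311440) (nat_lit 180) (nat_lit 5) (nat_lit 182) (nat_lit 5) (nat_lit 181) (nat_lit 4) (nat_lit 438) (nat_lit 391) (nat_lit 191)) (XT.lf (nat_lit 0) (nat_lit 1104836076562) (nat_lit 152) (nat_lit 684437965974) (nat_lit 0) (nat_lit 141162190970) (nat_lit 179) (nat_lit 5) (nat_lit 181) (nat_lit 4) (nat_lit 179) (nat_lit 4) (nat_lit 439) (nat_lit 391) (nat_lit 190))) (XT.nd (nat_lit 78) (nat_lit 76) (nat_lit 0) (XT.lf (nat_lit 0) (nat_lit 157595029746) (nat_lit 152) (nat_lit 640604088270) (nat_lit 76) (nat_lit 1232661686725) (nat_lit 177) (nat_lit 5) (nat_lit 179) (nat_lit 5) (nat_lit 178) (nat_lit 4) (nat_lit 440) (nat_lit 391) (nat_lit 189)) (XT.lf (nat_lit 0) (nat_lit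 1232333096379) (nat_lit 152) (nat_lit 589670491834) (nat_lit 0) (nat_lit 314548418381) (nat_lit 176) (nat_lit 5) (nat_lit 178) (nat_lit 4) (nat_lit 176) (nat_lit 4) (nat_lit 441) (nat_lit 391) (nat_lit 188)))))) (XT.nd (nat_lit 49608) (nat_lit 0) (nat_lit 6840) (XT.nd (nat_lit 49296) (nat_lit 0) (nat_lit 9272) (XT.nd (nat_lit 156) (nat_lit 152) (nat_lit 0) (XT.nd (nat_lit 78) (nat_lit 76) (nat_lit 0) (XT.lf (nat_lit 0) (nat_lit 190354829535) (nat_lit 152) (nat_lit 527557288604) (nat_lit 76) (nat_lit 1530047297538) (nat_lit 174) (nat_lit 5) (nat_lit 176) (nat_lit 5) (nat_lit 175) (nat_lit 4) (nat_lit 442) (nat_lit 391) (nat_lit 187)) (XT.lf (nat_lit 0) (nat_lit 1389887691566) (nat_lit 152) (nat_lit 459389905028) (nat_lit 0) (nat_lit 515807025397) (nat_lit 173) (nat_lit 5) (nat_lit 175) (nat_lit 4) (nat_lit 173) (nat_lit 4) (nat_lit 443) (nat_lit 391) (nat_lit 186))) (XT.nd (nat_lit 49062) (nat_lit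 0) (nat_lit 9196) (XT.lf (nat_lit 0) (nat_lit 242988930898) (nat_lit 152) (nat_lit 375953366933) (nat_lit 76) (nat_lit 1869716830804) (nat_lit 171) (nat_lit 5) (nat_lit 173) (nat_lit 5) (nat_lit 172) (nat_lit 4) (nat_lit 444) (nat_lit 391) (nat_lit 185)) (XT.lf (nat_lit 0) (nat_lit 52183128944) (nat_lit 836) (nat_lit 29400507553) (nat_lit 836) (nat_lit 29400507553) (nat_lit 292) (nat_lit 3) (nat_lit 303) (nat_lit 3) (nat_lit 303) (nat_lit 5) (nat_lit 392) (nat_lit 392) (nat_lit 236)))) (XT.nd (nat_lit 156) (nat_lit 0) (nat_lit 76) (XT.nd (nat_lit 78) (nat_lit 0) (nat_lit 0) (XT.lf (nat_lit 0) (nat_lit 110649800315) (nat_lit 760) (nat_lit 108241478701) (nat_lit 836) (nat_lit 11850296005) (nat_lit 293) (nat_lit 5) (nat_lit 303) (nat_lit 5) (nat_lit 304) (nat_lit 5) (nat_lit 393) (nat_lit 392) (nat_lit 235)) (XT.lf (nat_lit 76) (nat_lit 80032890067) (nat_lit 0) (nat_lit 42444833347) (nat_lit 836)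 (nat_lit 117486916614) (nat_lit 294) (nat_lit 5) (nat_lit 293) (nat_lit 5) (nat_lit 304) (nat_lit 5) (nat_lit 394) (nat_lit 392) (nat_lit 234))) (XT.nd (nat_lit 78) (nat_lit 0) (nat_lit 76) (XT.lf (nat_lit 76) (nat_lit 36218865951) (nat_lit 0) (nat_lit 103827234218) (nat_lit 836) (nat_lit 109639739078) (nat_lit 295) (nat_lit 5) (nat_lit 294) (nat_lit 5) (nat_lit 305) (nat_lit 5) (nat_lit 395) (nat_lit 392) (nat_lit 233)) (XT.lf (nat_lit 0) (nat_lit 163923152675) (nat_lit 760) (nat_lit 8390405583) (nat_lit 836) (nat_lit 87626015864) (nat_lit 295) (nat_lit 5) (nat_lit 305) (nat_lit 5) (nat_lit 306) (nat_lit 5) (nat_lit 396) (nat_lit 392) (nat_lit 232))))) (XT.nd (nat_lit 312) (nat_lit 1444) (nat_lit 0) (XT.nd (nat_lit 156) (nat_lit 1216) (nat_lit 0) (XT.nd (nat_lit 78) (nat_lit 0) (nat_lit 0) (XT.lf (nat_lit 0) (nat_lit 195235925863) (nat_lit 760) (nat_lit 52792564901) (nat_lit 836) (nat_lit 22708839199)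 (nat_lit 296) (nat_lit 5) (nat_lit 306) (nat_lit 5) (nat_lit 307) (nat_lit 5) (nat_lit 397) (nat_lit 392) (nat_lit 231)) (XT.lf (nat_lit 76) (nat_lit 183251932327) (nat_lit 0) (nat_lit 51716783585) (nat_lit 836) (nat_lit 47134440610) (nat_lit 297) (nat_lit 5) (nat_lit 296) (nat_lit 5) (nat_lit 307) (nat_lit 5) (nat_lit 398) (nat_lit 392) (nat_lit 230))) (XT.nd (nat_lit 78) (nat_lit 532) (nat_lit 0) (XT.lf (nat_lit 0) (nat_lit 147950326722) (nat_lit 760) (nat_lit 135676995643) (nat_lit 836) (nat_lit 10463567179) (nat_lit 287) (nat_lit 5) (nat_lit 297) (nat_lit 5) (nat_lit 298) (nat_lit 5) (nat_lit 399) (nat_lit 392) (nat_lit 229)) (XT.lf (nat_lit 0) (nat_lit 33860683934) (nat_lit 532) (nat_lit 194709149648) (nat_lit 76) (nat_lit 78162438960) (nat_lit 280) (nat_lit 5) (nat_lit 287) (nat_lit 5) (nat_lit 281) (nat_lit 5) (nat_lit 400) (nat_lit 392) (nat_lit 228)))) (XT.nd (nat_lit 156) (nat_lit 684)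 (nat_lit 0) (XT.nd (nat_lit 78) (nat_lit 380) (nat_lit 0) (XT.lf (nat_lit 0) (nat_lit 75718252840) (nat_lit 380) (nat_lit 11708144471) (nat_lit 456) (nat_lit 232646886444) (nat_lit 275) (nat_lit 5) (nat_lit 280) (nat_lit 5) (nat_lit 281) (nat_lit 5) (nat_lit 401) (nat_lit 392) (nat_lit 227)) (XT.lf (nat_lit 0) (nat_lit 38111031186) (nat_lit 380) (nat_lit 114682431846) (nat_lit 456) (nat_lit 181312308070) (nat_lit 270) (nat_lit 5) (nat_lit 275) (nat_lit 5) (nat_lit 276) (nat_lit 5) (nat_lit 402) (nat_lit 392) (nat_lit 226))) (XT.nd (nat_lit 78) (nat_lit 380) (nat_lit 0) (XT.lf (nat_lit 0) (nat_lit 748028314) (nat_lit 304) (nat_lit 229037906928) (nat_lit 380) (nat_lit 119155120133) (nat_lit 266) (nat_lit 5) (nat_lit 270) (nat_lit 5) (nat_lit 271) (nat_lit 5) (nat_lit 403) (nat_lit 392) (nat_lit 225)) (XT.nd (nat_lit 78) (nat_lit 380) (nat_lit 0) (XT.lf (nat_lit 0) (nat_lit 320149399082) (nat_lit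 380) (nat_lit 34961058865) (nat_lit 76) (nat_lit 9492124749) (nat_lit 266) (nat_lit 5) (nat_lit 271) (nat_lit 5) (nat_lit 267) (nat_lit 5) (nat_lit 404) (nat_lit 392) (nat_lit 224)) (XT.lf (nat_lit 0) (nat_lit 43899992413) (nat_lit 380) (nat_lit 72421402289) (nat_lit 76) (nat_lit 264725633493) (nat_lit 261) (nat_lit 5) (nat_lit 266) (nat_lit 5) (nat_lit 262) (nat_lit 5) (nat_lit 405) (nat_lit 392) (nat_lit 223))))))))
noncomputable def xc218 : XT := (XT.nd (nat_lit 1248) (nat_lit 2280) (nat_lit 0) (XT.nd (nat_lit 624) (nat_lit 1520) (nat_lit 0) (XT.nd (nat_lit 312) (nat_lit 988) (nat_lit 0) (XT.nd (nat_lit 156) (nat_lit 608) (nat_lit 0) (XT.nd (nat_lit 78) (nat_lit 304) (nat_lit 0) (XT.lf (nat_lit 0) (nat_lit 145249761376) (nat_lit 380) (nat_lit 110102636561) (nat_lit 76) (nat_lit 143043906266) (nat_lit 257) (nat_lit 5) (nat_lit 262) (nat_lit 5) (nat_lit 258) (nat_lit 5) (nat_lit 406) (nat_lit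 392) (nat_lit 222)) (XT.lf (nat_lit 0) (nat_lit 262290103527) (nat_lit 380) (nat_lit 146840995944) (nat_lit 76) (nat_lit 7623293238) (nat_lit 253) (nat_lit 5) (nat_lit 258) (nat_lit 5) (nat_lit 254) (nat_lit 5) (nat_lit 407) (nat_lit 392) (nat_lit 221))) (XT.nd (nat_lit 78) (nat_lit 380) (nat_lit 0) (XT.lf (nat_lit 0) (nat_lit 251489169984) (nat_lit 228) (nat_lit 147385933379) (nat_lit 304) (nat_lit 37196953417) (nat_lit 250) (nat_lit 5) (nat_lit 253) (nat_lit 5) (nat_lit 254) (nat_lit 5) (nat_lit 408) (nat_lit 392) (nat_lit 220)) (XT.lf (nat_lit 0) (nat_lit 95115297197) (nat_lit 380) (nat_lit 222544445080) (nat_lit 76) (nat_lit 138779234897) (nat_lit 245) (nat_lit 5) (nat_lit 250) (nat_lit 5) (nat_lit 246) (nat_lit 5) (nat_lit 409) (nat_lit 392) (nat_lit 219)))) (XT.nd (nat_lit 156) (nat_lit 532) (nat_lit 0) (XT.nd (nat_lit 78) (nat_lit 228) (nat_lit 0) (XT.lf (nat_lit 0) (nat_lit 217978501835)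 (nat_lit 228) (nat_lit 27904645581) (nat_lit 304) (nat_lit 232062923496) (nat_lit 242) (nat_lit 5) (nat_lit 245) (nat_lit 5) (nat_lit 246) (nat_lit 5) (nat_lit 410) (nat_lit 392) (nat_lit 218)) (XT.lf (nat_lit 0) (nat_lit 202683726142) (nat_lit 228) (nat_lit 217583346774) (nat_lit 304) (nat_lit 80328926871) (nat_lit 239) (nat_lit 5) (nat_lit 242) (nat_lit 5) (nat_lit 243) (nat_lit 5) (nat_lit 411) (nat_lit 392) (nat_lit 217))) (XT.nd (nat_lit 78) (nat_lit 228) (nat_lit 0) (XT.lf (nat_lit 0) (nat_lit 90520757694) (nat_lit 304) (nat_lit 335119532442) (nat_lit 76) (nat_lit 98869870641) (nat_lit 235) (nat_lit 5) (nat_lit 239) (nat_lit 5) (nat_lit 236) (nat_lit 5) (nat_lit 412) (nat_lit 392) (nat_lit 216)) (XT.lf (nat_lit 0) (nat_lit 176787925266) (nat_lit 228) (nat_lit 107177232920) (nat_lit 304) (nat_lit 265719399304) (nat_lit 232) (nat_lit 5) (nat_lit 235) (nat_lit 5) (nat_lit 236) (nat_lit 5)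 (nat_lit 413) (nat_lit 392) (nat_lit 215))))) (XT.nd (nat_lit 312) (nat_lit 684) (nat_lit 0) (XT.nd (nat_lit 156) (nat_lit 380) (nat_lit 0) (XT.nd (nat_lit 78) (nat_lit 304) (nat_lit 0) (XT.lf (nat_lit 0) (nat_lit 166573005429) (nat_lit 152) (nat_lit 338542506141) (nat_lit 228) (nat_lit 71145874328) (nat_lit 230) (nat_lit 5) (nat_lit 232) (nat_lit 5) (nat_lit 233) (nat_lit 5) (nat_lit 414) (nat_lit 392) (nat_lit 214)) (XT.lf (nat_lit 0) (nat_lit 145644530946) (nat_lit 304) (nat_lit 445643386828) (nat_lit 76) (nat_lit 13012955907) (nat_lit 226) (nat_lit 5) (nat_lit 230) (nat_lit 5) (nat_lit 227) (nat_lit 5) (nat_lit 415) (nat_lit 392) (nat_lit 213))) (XT.nd (nat_lit 78) (nat_lit 228) (nat_lit 0) (XT.lf (nat_lit 0) (nat_lit 150671408653) (nat_lit 152) (nat_lit 241961764575) (nat_lit 228) (nat_lit 241124650495) (nat_lit 224) (nat_lit 5) (nat_lit 226) (nat_lit 5) (nat_lit 227) (nat_lit 5) (nat_lit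 416) (nat_lit 392) (nat_lit 212)) (XT.lf (nat_lit 0) (nat_lit 6521529588) (nat_lit 228) (nat_lit 517144623288) (nat_lit 76) (nat_lit 141284318371) (nat_lit 221) (nat_lit 5) (nat_lit 224) (nat_lit 5) (nat_lit 222) (nat_lit 5) (nat_lit 417) (nat_lit 392) (nat_lit 211)))) (XT.nd (nat_lit 156) (nat_lit 380) (nat_lit 0) (XT.nd (nat_lit 78) (nat_lit 152) (nat_lit 0) (XT.lf (nat_lit 0) (nat_lit 144545155754) (nat_lit 152) (nat_lit 135988974904) (nat_lit 228) (nat_lit 417156628770) (nat_lit 219) (nat_lit 5) (nat_lit 221) (nat_lit 5) (nat_lit 222) (nat_lit 5) (nat_lit 418) (nat_lit 392) (nat_lit 210)) (XT.lf (nat_lit 0) (nat_lit 145120547363) (nat_lit 152) (nat_lit 447182655793) (nat_lit 228) (nat_lit 139955294342) (nat_lit 217) (nat_lit 5) (nat_lit 219) (nat_lit 5) (nat_lit 220) (nat_lit 5) (nat_lit 419) (nat_lit 392) (nat_lit 209))) (XT.nd (nat_lit 78) (nat_lit 152) (nat_lit 0) (XT.lf (nat_lit 0) (nat_lit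 149743384633) (nat_lit 152) (nat_lit 19000539043) (nat_lit 228) (nat_lit 600002065555) (nat_lit 214) (nat_lit 5) (nat_lit 216) (nat_lit 5) (nat_lit 217) (nat_lit 5) (nat_lit 420) (nat_lit 392) (nat_lit 208)) (XT.lf (nat_lit 0) (nat_lit 154391176112) (nat_lit 152) (nat_lit 362639042441) (nat_lit 228) (nat_lit 290017819736) (nat_lit 212) (nat_lit 5) (nat_lit 214) (nat_lit 5) (nat_lit 215) (nat_lit 5) (nat_lit 421) (nat_lit 392) (nat_lit 207)))))) (XT.nd (nat_lit 624) (nat_lit 1064) (nat_lit 0) (XT.nd (nat_lit 312) (nat_lit 608) (nat_lit 0) (XT.nd (nat_lit 156) (nat_lit 304) (nat_lit 0) (XT.nd (nat_lit 78) (nat_lit 152) (nat_lit 0) (XT.lf (nat_lit 0) (nat_lit 58966560034) (nat_lit 152) (nat_lit 681345696510) (nat_lit 76) (nat_lit 107285341285) (nat_lit 210) (nat_lit 5) (nat_lit 212) (nat_lit 5) (nat_lit 211) (nat_lit 5) (nat_lit 422) (nat_lit 392) (nat_lit 206)) (XT.lf (nat_lit 0) (nat_lit 177651359617)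 (nat_lit 152) (nat_lit 268636939741) (nat_lit 228) (nat_lit 443836132208) (nat_lit 208) (nat_lit 5) (nat_lit 210) (nat_lit 5) (nat_lit 211) (nat_lit 5) (nat_lit 423) (nat_lit 392) (nat_lit 205))) (XT.nd (nat_lit 78) (nat_lit 228) (nat_lit 0) (XT.lf (nat_lit 0) (nat_lit 196576734785) (nat_lit 76) (nat_lit 686910412732) (nat_lit 152) (nat_lit 51621696000) (nat_lit 207) (nat_lit 5) (nat_lit 208) (nat_lit 5) (nat_lit 209) (nat_lit 4) (nat_lit 424) (nat_lit 392) (nat_lit 204)) (XT.lf (nat_lit 0) (nat_lit 217130020385) (nat_lit 152) (nat_lit 163468465783) (nat_lit 228) (nat_lit 601776450096) (nat_lit 204) (nat_lit 5) (nat_lit 206) (nat_lit 5) (nat_lit 207) (nat_lit 5) (nat_lit 425) (nat_lit 392) (nat_lit 203)))) (XT.nd (nat_lit 156) (nat_lit 304) (nat_lit 0) (XT.nd (nat_lit 78) (nat_lit 228) (nat_lit 0) (XT.lf (nat_lit 0) (nat_lit 243269529919) (nat_lit 76) (nat_lit 625490072360) (nat_lit 152) (nat_lit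 163461806680) (nat_lit 203) (nat_lit 5) (nat_lit 204) (nat_lit 5) (nat_lit 205) (nat_lit 4) (nat_lit 426) (nat_lit 392) (nat_lit 202)) (XT.lf (nat_lit 0) (nat_lit 275403653662) (nat_lit 152) (nat_lit 45199799694) (nat_lit 228) (nat_lit 764179973837) (nat_lit 200) (nat_lit 5) (nat_lit 202) (nat_lit 5) (nat_lit 203) (nat_lit 5) (nat_lit 427) (nat_lit 392) (nat_lit 201))) (XT.nd (nat_lit 78) (nat_lit 228) (nat_lit 0) (XT.lf (nat_lit 0) (nat_lit 310081440094) (nat_lit 76) (nat_lit 555550738640) (nat_lit 152) (nat_lit 274385985563) (nat_lit 199) (nat_lit 5) (nat_lit 200) (nat_lit 5) (nat_lit 201) (nat_lit 4) (nat_lit 428) (nat_lit 392) (nat_lit 200)) (XT.lf (nat_lit 0) (nat_lit 268464123132) (nat_lit 228) (nat_lit 844376707394) (nat_lit 76) (nat_lit 85531049487) (nat_lit 196) (nat_lit 5) (nat_lit 199) (nat_lit 5) (nat_lit 197) (nat_lit 4) (nat_lit 429) (nat_lit 392) (nat_lit 199))))) (XT.nd (nat_lit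 312) (nat_lit 532) (nat_lit 0) (XT.nd (nat_lit 156) (nat_lit 228) (nat_lit 0) (XT.nd (nat_lit 78) (nat_lit 228) (nat_lit 0) (XT.lf (nat_lit 0) (nat_lit 400184430594) (nat_lit 76) (nat_lit 475382704527) (nat_lit 152) (nat_lit 384079949171) (nat_lit 195) (nat_lit 5) (nat_lit 196) (nat_lit 5) (nat_lit 197) (nat_lit 4) (nat_lit 430) (nat_lit 392) (nat_lit 198)) (XT.lf (nat_lit 0) (nat_lit 224723693995) (nat_lit 228) (nat_lit 867629027583) (nat_lit 76) (nat_lit 232017021645) (nat_lit 192) (nat_lit 5) (nat_lit 195) (nat_lit 5) (nat_lit 193) (nat_lit 4) (nat_lit 431) (nat_lit 392) (nat_lit 197))) (XT.nd (nat_lit 78) (nat_lit 152) (nat_lit 0) (XT.lf (nat_lit 0) (nat_lit 517226714630) (nat_lit 76) (nat_lit 383036380384) (nat_lit 152) (nat_lit 492117912378) (nat_lit 191) (nat_lit 5) (nat_lit 192) (nat_lit 5) (nat_lit 193) (nat_lit 4) (nat_lit 432) (nat_lit 392) (nat_lit 196)) (XT.lf (nat_lit 0) (nat_lit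 189840311805) (nat_lit 152) (nat_lit 875887034906) (nat_lit 76) (nat_lit 398423928270) (nat_lit 189) (nat_lit 5) (nat_lit 191) (nat_lit 5) (nat_lit 190) (nat_lit 4) (nat_lit 433) (nat_lit 392) (nat_lit 195)))) (XT.nd (nat_lit 156) (nat_lit 304) (nat_lit 0) (XT.nd (nat_lit 78) (nat_lit 152) (nat_lit 0) (XT.lf (nat_lit 0) (nat_lit 665396983579) (nat_lit 76) (nat_lit 276289202802) (nat_lit 152) (nat_lit 597944981914) (nat_lit 188) (nat_lit 5) (nat_lit 189) (nat_lit 5) (nat_lit 190) (nat_lit 4) (nat_lit 434) (nat_lit 392) (nat_lit 194)) (XT.lf (nat_lit 0) (nat_lit 165189285651) (nat_lit 152) (nat_lit 866180746406) (nat_lit 76) (nat_lit 587830922346) (nat_lit 186) (nat_lit 5) (nat_lit 188) (nat_lit 5) (nat_lit 187) (nat_lit 4) (nat_lit 435) (nat_lit 392) (nat_lit 193))) (XT.nd (nat_lit 78) (nat_lit 228) (nat_lit 0) (XT.lf (nat_lit 0) (nat_lit 849496993412) (nat_lit 76) (nat_lit 152608272598) (nat_lit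 152) (nat_lit 700856936009) (nat_lit 185) (nat_lit 5) (nat_lit 186) (nat_lit 5) (nat_lit 187) (nat_lit 4) (nat_lit 436) (nat_lit 392) (nat_lit 192)) (XT.nd (nat_lit 78) (nat_lit 76) (nat_lit 0) (XT.lf (nat_lit 0) (nat_lit 152386877831) (nat_lit 152) (nat_lit 835053396020) (nat_lit 76) (nat_lit 803724263862) (nat_lit 183) (nat_lit 5) (nat_lit 185) (nat_lit 5) (nat_lit 184) (nat_lit 4) (nat_lit 437) (nat_lit 392) (nat_lit 191)) (XT.lf (nat_lit 0) (nat_lit 1075023557277) (nat_lit 76) (nat_lit 9108183754) (nat_lit 152) (nat_lit 799977038468) (nat_lit 182) (nat_lit 5) (nat_lit 183) (nat_lit 5) (nat_lit 184) (nat_lit 4) (nat_lit 438) (nat_lit 392) (nat_lit 190))))))))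
noncomputable def xc219 : XT := (XT.nd (nat_lit 50310) (nat_lit 0) (nat_lit 3496) (XT.nd (nat_lit 49686) (nat_lit 0) (nat_lit 7752) (XT.nd (nat_lit 312) (nat_lit 228) (nat_lit 0) (XT.nd (nat_lit 156) (nat_lit 228) (nat_lit 0) (XT.nd (nat_lit 78) (nat_lit 76) (nat_lit 0) (XT.lf (nat_lit 0) (nat_lit 153323792114) (nat_lit 152) (nat_lit 778492442258) (nat_lit 76) (nat_lit 1050050309635) (nat_lit 180) (nat_lit 5) (nat_lit 182) (nat_lit 5) (nat_lit 181) (nat_lit 4) (nat_lit 439) (nat_lit 392) (nat_lit 189)) (XT.lf (nat_lit 0) (nat_lit 1193223525040) (nat_lit 152) (nat_lit 739191891485) (nat_lit 0) (nat_lit 152455687542) (nat_lit 179) (nat_lit 5) (nat_lit 181) (nat_lit 4) (nat_lit 179) (nat_lit 4) (nat_lit 440) (nat_lit 392) (nat_lit 188))) (XT.nd (nat_lit 78) (nat_lit 76) (nat_lit 0) (XT.lf (nat_lit 0) (nat_lit 170203178235) (nat_lit 152) (nat_lit 691851333825) (nat_lit 76) (nat_lit 1331275129755)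 (nat_lit 177) (nat_lit 5) (nat_lit 179) (nat_lit 5) (nat_lit 178) (nat_lit 4) (nat_lit 441) (nat_lit 392) (nat_lit 187)) (XT.lf (nat_lit 0) (nat_lit 1330920273902) (nat_lit 152) (nat_lit 636843078588) (nat_lit 0) (nat_lit 339712788140) (nat_lit 176) (nat_lit 5) (nat_lit 178) (nat_lit 4) (nat_lit 176) (nat_lit 4) (nat_lit 442) (nat_lit 392) (nat_lit 186)))) (XT.nd (nat_lit 49218) (nat_lit 0) (nat_lit 9044) (XT.nd (nat_lit 78) (nat_lit 76) (nat_lit 0) (XT.lf (nat_lit 0) (nat_lit 205583730485) (nat_lit 152) (nat_lit 569760847830) (nat_lit 76) (nat_lit 1652451564887) (nat_lit 174) (nat_lit 5) (nat_lit 176) (nat_lit 5) (nat_lit 175) (nat_lit 4) (nat_lit 443) (nat_lit 392) (nat_lit 185)) (XT.lf (nat_lit 0) (nat_lit 1501079206265) (nat_lit 152) (nat_lit 496140101089) (nat_lit 0) (nat_lit 557072059428) (nat_lit 173) (nat_lit 5) (nat_lit 175) (nat_lit 4) (nat_lit 173) (nat_lit 4) (nat_lit 444) (nat_lit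 392) (nat_lit 184))) (XT.nd (nat_lit 78) (nat_lit 0) (nat_lit 76) (XT.lf (nat_lit 0) (nat_lit 56359784986) (nat_lit 836) (nat_lit 31751495151) (nat_lit 836) (nat_lit 31751495151) (nat_lit 292) (nat_lit 3) (nat_lit 303) (nat_lit 3) (nat_lit 303) (nat_lit 5) (nat_lit 393) (nat_lit 393) (nat_lit 234)) (XT.lf (nat_lit 0) (nat_lit 119505503070) (nat_lit 760) (nat_lit 116898568191) (nat_lit 836) (nat_lit 12796643824) (nat_lit 293) (nat_lit 5) (nat_lit 303) (nat_lit 5) (nat_lit 304) (nat_lit 5) (nat_lit 394) (nat_lit 393) (nat_lit 233))))) (XT.nd (nat_lit 312) (nat_lit 1368) (nat_lit 0) (XT.nd (nat_lit 156) (nat_lit 0) (nat_lit 152) (XT.nd (nat_lit 78) (nat_lit 0) (nat_lit 76) (XT.lf (nat_lit 76) (nat_lit 86437653217) (nat_lit 0) (nat_lit 45841764624) (nat_lit 836) (nat_lit 126882219561) (nat_lit 294) (nat_lit 5) (nat_lit 293) (nat_lit 5) (nat_lit 304) (nat_lit 5) (nat_lit 395) (nat_lit 393) (nat_lit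 232)) (XT.lf (nat_lit 76) (nat_lit 39118600874) (nat_lit 0) (nat_lit 112134421650) (nat_lit 836) (nat_lit 118407522145) (nat_lit 295) (nat_lit 5) (nat_lit 294) (nat_lit 5) (nat_lit 305) (nat_lit 5) (nat_lit 396) (nat_lit 393) (nat_lit 231))) (XT.nd (nat_lit 78) (nat_lit 0) (nat_lit 76) (XT.lf (nat_lit 0) (nat_lit 177039985069) (nat_lit 760) (nat_lit 9059412925) (nat_lit 836) (nat_lit 94635193049) (nat_lit 295) (nat_lit 5) (nat_lit 305) (nat_lit 5) (nat_lit 306) (nat_lit 5) (nat_lit 397) (nat_lit 393) (nat_lit 230)) (XT.lf (nat_lit 0) (nat_lit 210857582217) (nat_lit 760) (nat_lit 57013691685) (nat_lit 836) (nat_lit 24524903344) (nat_lit 296) (nat_lit 5) (nat_lit 306) (nat_lit 5) (nat_lit 307) (nat_lit 5) (nat_lit 398) (nat_lit 393) (nat_lit 229)))) (XT.nd (nat_lit 156) (nat_lit 912) (nat_lit 0) (XT.nd (nat_lit 78) (nat_lit 684) (nat_lit 0) (XT.lf (nat_lit 76) (nat_lit 197914266304) (nat_lit 0)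 (nat_lit 55854557096) (nat_lit 836) (nat_lit 50902455132) (nat_lit 297) (nat_lit 5) (nat_lit 296) (nat_lit 5) (nat_lit 307) (nat_lit 5) (nat_lit 399) (nat_lit 393) (nat_lit 228)) (XT.lf (nat_lit 0) (nat_lit 159788568810) (nat_lit 760) (nat_lit 146531384580) (nat_lit 836) (nat_lit 11298085056) (nat_lit 287) (nat_lit 5) (nat_lit 297) (nat_lit 5) (nat_lit 298) (nat_lit 5) (nat_lit 400) (nat_lit 393) (nat_lit 227))) (XT.nd (nat_lit 78) (nat_lit 380) (nat_lit 0) (XT.lf (nat_lit 0) (nat_lit 36571872050) (nat_lit 532) (nat_lit 210283564446) (nat_lit 76) (nat_lit 84415301179) (nat_lit 280) (nat_lit 5) (nat_lit 287) (nat_lit 5) (nat_lit 281) (nat_lit 5) (nat_lit 401) (nat_lit 393) (nat_lit 226)) (XT.lf (nat_lit 0) (nat_lit 81777929539) (nat_lit 380) (nat_lit 12644774719) (nat_lit 456) (nat_lit 251256332439) (nat_lit 275) (nat_lit 5) (nat_lit 280) (nat_lit 5) (nat_lit 281) (nat_lit 5) (nat_lit 402) (nat_lit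 393) (nat_lit 225)))))) (XT.nd (nat_lit 624) (nat_lit 1976) (nat_lit 0) (XT.nd (nat_lit 312) (nat_lit 1216) (nat_lit 0) (XT.nd (nat_lit 156) (nat_lit 380) (nat_lit 0) (XT.nd (nat_lit 78) (nat_lit 304) (nat_lit 0) (XT.lf (nat_lit 0) (nat_lit 41162138497) (nat_lit 380) (nat_lit 123856869179) (nat_lit 456) (nat_lit 195815121734) (nat_lit 270) (nat_lit 5) (nat_lit 275) (nat_lit 5) (nat_lit 276) (nat_lit 5) (nat_lit 403) (nat_lit 393) (nat_lit 224)) (XT.lf (nat_lit 0) (nat_lit 810095247) (nat_lit 304) (nat_lit 247360666266) (nat_lit 380) (nat_lit 128685480720) (nat_lit 266) (nat_lit 5) (nat_lit 270) (nat_lit 5) (nat_lit 271) (nat_lit 5) (nat_lit 404) (nat_lit 393) (nat_lit 223))) (XT.nd (nat_lit 78) (nat_lit 380) (nat_lit 0) (XT.lf (nat_lit 0) (nat_lit 345763161858) (nat_lit 380) (nat_lit 37755797302) (nat_lit 76) (nat_lit 10251739611) (nat_lit 266) (nat_lit 5) (nat_lit 271) (nat_lit 5) (nat_lit 267)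 (nat_lit 5) (nat_lit 405) (nat_lit 393) (nat_lit 222)) (XT.lf (nat_lit 0) (nat_lit 47413728583) (nat_lit 380) (nat_lit 78213004047) (nat_lit 76) (nat_lit 285903970981) (nat_lit 261) (nat_lit 5) (nat_lit 266) (nat_lit 5) (nat_lit 262) (nat_lit 5) (nat_lit 406) (nat_lit 393) (nat_lit 221)))) (XT.nd (nat_lit 156) (nat_lit 608) (nat_lit 0) (XT.nd (nat_lit 78) (nat_lit 304) (nat_lit 0) (XT.lf (nat_lit 0) (nat_lit 156871387849) (nat_lit 380) (nat_lit 118908752714) (nat_lit 76) (nat_lit 154487785698) (nat_lit 257) (nat_lit 5) (nat_lit 262) (nat_lit 5) (nat_lit 258) (nat_lit 5) (nat_lit 407) (nat_lit 393) (nat_lit 220)) (XT.lf (nat_lit 0) (nat_lit 283274873770) (nat_lit 380) (nat_lit 158586201143) (nat_lit 76) (nat_lit 8233591115) (nat_lit 253) (nat_lit 5) (nat_lit 258) (nat_lit 5) (nat_lit 254) (nat_lit 5) (nat_lit 408) (nat_lit 393) (nat_lit 219))) (XT.nd (nat_lit 78) (nat_lit 380) (nat_lit 0) (XT.lf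 (nat_lit 0) (nat_lit 271610287905) (nat_lit 228) (nat_lit 159176300968) (nat_lit 304) (nat_lit 40171158588) (nat_lit 250) (nat_lit 5) (nat_lit 253) (nat_lit 5) (nat_lit 254) (nat_lit 5) (nat_lit 409) (nat_lit 393) (nat_lit 218)) (XT.lf (nat_lit 0) (nat_lit 102725949783) (nat_lit 380) (nat_lit 240345992278) (nat_lit 76) (nat_lit 149882081846) (nat_lit 245) (nat_lit 5) (nat_lit 250) (nat_lit 5) (nat_lit 246) (nat_lit 5) (nat_lit 410) (nat_lit 393) (nat_lit 217))))) (XT.nd (nat_lit 312) (nat_lit 988) (nat_lit 0) (XT.nd (nat_lit 156) (nat_lit 532) (nat_lit 0) (XT.nd (nat_lit 78) (nat_lit 228) (nat_lit 0) (XT.lf (nat_lit 0) (nat_lit 235418703107) (nat_lit 228) (nat_lit 30136449069) (nat_lit 304) (nat_lit 250626536760) (nat_lit 242) (nat_lit 5) (nat_lit 245) (nat_lit 5) (nat_lit 246) (nat_lit 5) (nat_lit 411) (nat_lit 393) (nat_lit 216)) (XT.lf (nat_lit 0) (nat_lit 218900318092) (nat_lit 228) (nat_lit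 234989411186) (nat_lit 304) (nat_lit 86753885965) (nat_lit 239) (nat_lit 5) (nat_lit 242) (nat_lit 5) (nat_lit 243) (nat_lit 5) (nat_lit 412) (nat_lit 393) (nat_lit 215))) (XT.nd (nat_lit 78) (nat_lit 228) (nat_lit 0) (XT.lf (nat_lit 0) (nat_lit 97763671281) (nat_lit 304) (nat_lit 361927189342) (nat_lit 76) (nat_lit 106780050367) (nat_lit 235) (nat_lit 5) (nat_lit 239) (nat_lit 5) (nat_lit 236) (nat_lit 5) (nat_lit 413) (nat_lit 393) (nat_lit 214)) (XT.lf (nat_lit 0) (nat_lit 190932782163) (nat_lit 228) (nat_lit 115750777297) (nat_lit 304) (nat_lit 286975703198) (nat_lit 232) (nat_lit 5) (nat_lit 235) (nat_lit 5) (nat_lit 236) (nat_lit 5) (nat_lit 414) (nat_lit 393) (nat_lit 213)))) (XT.nd (nat_lit 156) (nat_lit 532) (nat_lit 0) (XT.nd (nat_lit 78) (nat_lit 304) (nat_lit 0) (XT.lf (nat_lit 0) (nat_lit 179900636896) (nat_lit 152) (nat_lit 365625253306) (nat_lit 228) (nat_lit 76836349683) (nat_lit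 230) (nat_lit 5) (nat_lit 232) (nat_lit 5) (nat_lit 233) (nat_lit 5) (nat_lit 415) (nat_lit 393) (nat_lit 212)) (XT.lf (nat_lit 0) (nat_lit 157297201616) (nat_lit 304) (nat_lit 481293063280) (nat_lit 76) (nat_lit 14054623269) (nat_lit 226) (nat_lit 5) (nat_lit 230) (nat_lit 5) (nat_lit 227) (nat_lit 5) (nat_lit 416) (nat_lit 393) (nat_lit 211))) (XT.nd (nat_lit 78) (nat_lit 380) (nat_lit 0) (XT.lf (nat_lit 0) (nat_lit 162726837853) (nat_lit 152) (nat_lit 261318042139) (nat_lit 228) (nat_lit 260413516984) (nat_lit 224) (nat_lit 5) (nat_lit 226) (nat_lit 5) (nat_lit 227) (nat_lit 5) (nat_lit 417) (nat_lit 393) (nat_lit 210)) (XT.nd (nat_lit 78) (nat_lit 152) (nat_lit 0) (XT.lf (nat_lit 0) (nat_lit 7044279298) (nat_lit 228) (nat_lit 558514476825) (nat_lit 76) (nat_lit 152587701457) (nat_lit 221) (nat_lit 5) (nat_lit 224) (nat_lit 5) (nat_lit 222) (nat_lit 5) (nat_lit 418) (nat_lit 393) (nat_lit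 209)) (XT.lf (nat_lit 0) (nat_lit 156110409951) (nat_lit 152) (nat_lit 146867428035) (nat_lit 228) (nat_lit 450528133353) (nat_lit 219) (nat_lit 5) (nat_lit 221) (nat_lit 5) (nat_lit 222) (nat_lit 5) (nat_lit 419) (nat_lit 393) (nat_lit 208))))))))
noncomputable def xc220 : XT := (XT.nd (nat_lit 1248) (nat_lit 1064) (nat_lit 0) (XT.nd (nat_lit 624) (nat_lit 1140) (nat_lit 0) (XT.nd (nat_lit 312) (nat_lit 532) (nat_lit 0) (XT.nd (nat_lit 156) (nat_lit 304) (nat_lit 0) (XT.nd (nat_lit 78) (nat_lit 228) (nat_lit 0) (XT.lf (nat_lit 0) (nat_lit 156731798332) (nat_lit 152) (nat_lit 482956600294) (nat_lit 228) (nat_lit 151150731711) (nat_lit 217) (nat_lit 5) (nat_lit 219) (nat_lit 5) (nat_lit 220) (nat_lit 5) (nat_lit 420) (nat_lit 393) (nat_lit 207)) (XT.lf (nat_lit 0) (nat_lit 161724422930) (nat_lit 152) (nat_lit 20519923016) (nat_lit 228) (nat_lit 648001277005) (nat_lit 214) (nat_lit 5) (nat_lit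 216) (nat_lit 5) (nat_lit 217) (nat_lit 5) (nat_lit 421) (nat_lit 393) (nat_lit 206))) (XT.nd (nat_lit 78) (nat_lit 152) (nat_lit 0) (XT.lf (nat_lit 0) (nat_lit 166744003205) (nat_lit 152) (nat_lit 391649507385) (nat_lit 228) (nat_lit 313218327034) (nat_lit 212) (nat_lit 5) (nat_lit 214) (nat_lit 5) (nat_lit 215) (nat_lit 5) (nat_lit 422) (nat_lit 393) (nat_lit 205)) (XT.lf (nat_lit 0) (nat_lit 63684741335) (nat_lit 152) (nat_lit 735851825536) (nat_lit 76) (nat_lit 115868795960) (nat_lit 210) (nat_lit 5) (nat_lit 212) (nat_lit 5) (nat_lit 211) (nat_lit 5) (nat_lit 423) (nat_lit 393) (nat_lit 204)))) (XT.nd (nat_lit 156) (nat_lit 304) (nat_lit 0) (XT.nd (nat_lit 78) (nat_lit 76) (nat_lit 0) (XT.lf (nat_lit 0) (nat_lit 191864928733) (nat_lit 152) (nat_lit 290127250427) (nat_lit 228) (nat_lit 479342166139) (nat_lit 208) (nat_lit 5) (nat_lit 210) (nat_lit 5) (nat_lit 211) (nat_lit 5) (nat_lit 424)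 (nat_lit 393) (nat_lit 203)) (XT.lf (nat_lit 0) (nat_lit 212304299845) (nat_lit 76) (nat_lit 741862606479) (nat_lit 152) (nat_lit 55750605325) (nat_lit 207) (nat_lit 5) (nat_lit 208) (nat_lit 5) (nat_lit 209) (nat_lit 4) (nat_lit 425) (nat_lit 393) (nat_lit 202))) (XT.nd (nat_lit 78) (nat_lit 76) (nat_lit 0) (XT.lf (nat_lit 0) (nat_lit 234501811608) (nat_lit 152) (nat_lit 176545315804) (nat_lit 228) (nat_lit 649917765636) (nat_lit 204) (nat_lit 5) (nat_lit 206) (nat_lit 5) (nat_lit 207) (nat_lit 5) (nat_lit 426) (nat_lit 393) (nat_lit 201)) (XT.lf (nat_lit 0) (nat_lit 262732448608) (nat_lit 76) (nat_lit 675528657977) (nat_lit 152) (nat_lit 176537978285) (nat_lit 203) (nat_lit 5) (nat_lit 204) (nat_lit 5) (nat_lit 205) (nat_lit 4) (nat_lit 427) (nat_lit 393) (nat_lit 200))))) (XT.nd (nat_lit 312) (nat_lit 532) (nat_lit 0) (XT.nd (nat_lit 156) (nat_lit 304) (nat_lit 0) (XT.nd (nat_lit 78) (nat_lit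 76) (nat_lit 0) (XT.lf (nat_lit 0) (nat_lit 297437266971) (nat_lit 152) (nat_lit 48815176047) (nat_lit 228) (nat_lit 825313622680) (nat_lit 200) (nat_lit 5) (nat_lit 202) (nat_lit 5) (nat_lit 203) (nat_lit 5) (nat_lit 428) (nat_lit 393) (nat_lit 199)) (XT.lf (nat_lit 0) (nat_lit 334889243953) (nat_lit 76) (nat_lit 599994198533) (nat_lit 152) (nat_lit 296336140483) (nat_lit 199) (nat_lit 5) (nat_lit 200) (nat_lit 5) (nat_lit 201) (nat_lit 4) (nat_lit 429) (nat_lit 393) (nat_lit 198))) (XT.nd (nat_lit 78) (nat_lit 76) (nat_lit 0) (XT.lf (nat_lit 0) (nat_lit 289941930576) (nat_lit 228) (nat_lit 911925564907) (nat_lit 76) (nat_lit 92374101051) (nat_lit 196) (nat_lit 5) (nat_lit 199) (nat_lit 5) (nat_lit 197) (nat_lit 4) (nat_lit 430) (nat_lit 393) (nat_lit 197)) (XT.lf (nat_lit 0) (nat_lit 432200408533) (nat_lit 76) (nat_lit 513412743902) (nat_lit 152) (nat_lit 414805666276) (nat_lit 195) (nat_lit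 5) (nat_lit 196) (nat_lit 5) (nat_lit 197) (nat_lit 4) (nat_lit 431) (nat_lit 393) (nat_lit 196)))) (XT.nd (nat_lit 156) (nat_lit 228) (nat_lit 0) (XT.nd (nat_lit 78) (nat_lit 76) (nat_lit 0) (XT.lf (nat_lit 0) (nat_lit 242702225345) (nat_lit 228) (nat_lit 937038136143) (nat_lit 76) (nat_lit 250578929400) (nat_lit 192) (nat_lit 5) (nat_lit 195) (nat_lit 5) (nat_lit 193) (nat_lit 4) (nat_lit 432) (nat_lit 393) (nat_lit 195)) (XT.lf (nat_lit 0) (nat_lit 558606012704) (nat_lit 76) (nat_lit 413678736769) (nat_lit 152) (nat_lit 531486708167) (nat_lit 191) (nat_lit 5) (nat_lit 192) (nat_lit 5) (nat_lit 193) (nat_lit 4) (nat_lit 433) (nat_lit 393) (nat_lit 194))) (XT.nd (nat_lit 78) (nat_lit 76) (nat_lit 0) (XT.lf (nat_lit 0) (nat_lit 205028133958) (nat_lit 152) (nat_lit 945956846751) (nat_lit 76) (nat_lit 430298366411) (nat_lit 189) (nat_lit 5) (nat_lit 191) (nat_lit 5) (nat_lit 190) (nat_lit 4) (nat_lit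 434) (nat_lit 393) (nat_lit 193)) (XT.lf (nat_lit 0) (nat_lit 718629843194) (nat_lit 76) (nat_lit 298391808256) (nat_lit 152) (nat_lit 645779981800) (nat_lit 188) (nat_lit 5) (nat_lit 189) (nat_lit 5) (nat_lit 190) (nat_lit 4) (nat_lit 435) (nat_lit 393) (nat_lit 192)))))) (XT.nd (nat_lit 624) (nat_lit 152) (nat_lit 0) (XT.nd (nat_lit 312) (nat_lit 456) (nat_lit 0) (XT.nd (nat_lit 156) (nat_lit 228) (nat_lit 0) (XT.nd (nat_lit 78) (nat_lit 76) (nat_lit 0) (XT.lf (nat_lit 0) (nat_lit 178404989899) (nat_lit 152) (nat_lit 935474115129) (nat_lit 76) (nat_lit 634857897656) (nat_lit 186) (nat_lit 5) (nat_lit 188) (nat_lit 5) (nat_lit 187) (nat_lit 4) (nat_lit 436) (nat_lit 393) (nat_lit 191)) (XT.lf (nat_lit 0) (nat_lit 917457796460) (nat_lit 76) (nat_lit 164816426935) (nat_lit 152) (nat_lit 756924927980) (nat_lit 185) (nat_lit 5) (nat_lit 186) (nat_lit 5) (nat_lit 187) (nat_lit 4) (nat_lit 437) (nat_lit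 393) (nat_lit 190))) (XT.nd (nat_lit 78) (nat_lit 76) (nat_lit 0) (XT.lf (nat_lit 0) (nat_lit 164578356172) (nat_lit 152) (nat_lit 901856633955) (nat_lit 76) (nat_lit 868022684197) (nat_lit 183) (nat_lit 5) (nat_lit 185) (nat_lit 5) (nat_lit 184) (nat_lit 4) (nat_lit 438) (nat_lit 393) (nat_lit 189)) (XT.lf (nat_lit 0) (nat_lit 1161026430680) (nat_lit 76) (nat_lit 9836354066) (nat_lit 152) (nat_lit 863974671891) (nat_lit 182) (nat_lit 5) (nat_lit 183) (nat_lit 5) (nat_lit 184) (nat_lit 4) (nat_lit 439) (nat_lit 393) (nat_lit 188)))) (XT.nd (nat_lit 156) (nat_lit 228) (nat_lit 0) (XT.nd (nat_lit 78) (nat_lit 76) (nat_lit 0) (XT.lf (nat_lit 0) (nat_lit 165590192602) (nat_lit 152) (nat_lit 840770858462) (nat_lit 76) (nat_lit 1134054791608) (nat_lit 180) (nat_lit 5) (nat_lit 182) (nat_lit 5) (nat_lit 181) (nat_lit 4) (nat_lit 440) (nat_lit 393) (nat_lit 187)) (XT.lf (nat_lit 0) (nat_lit 1288681889171)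 (nat_lit 152) (nat_lit 798326289644) (nat_lit 0) (nat_lit 164652589473) (nat_lit 179) (nat_lit 5) (nat_lit 181) (nat_lit 4) (nat_lit 179) (nat_lit 4) (nat_lit 441) (nat_lit 393) (nat_lit 186))) (XT.nd (nat_lit 78) (nat_lit 76) (nat_lit 0) (XT.lf (nat_lit 0) (nat_lit 183819900695) (nat_lit 152) (nat_lit 747198513312) (nat_lit 76) (nat_lit 1437777575743) (nat_lit 177) (nat_lit 5) (nat_lit 179) (nat_lit 5) (nat_lit 178) (nat_lit 4) (nat_lit 442) (nat_lit 393) (nat_lit 185)) (XT.lf (nat_lit 0) (nat_lit 1437394350044) (nat_lit 152) (nat_lit 687789622448) (nat_lit 0) (nat_lit 366890236678) (nat_lit 176) (nat_lit 5) (nat_lit 178) (nat_lit 4) (nat_lit 176) (nat_lit 4) (nat_lit 443) (nat_lit 393) (nat_lit 184))))) (XT.nd (nat_lit 49452) (nat_lit 0) (nat_lit 9120) (XT.nd (nat_lit 49296) (nat_lit 0) (nat_lit 9044) (XT.nd (nat_lit 49218) (nat_lit 0) (nat_lit 8968) (XT.lf (nat_lit 0) (nat_lit 222030870099)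 (nat_lit 152) (nat_lit 615340837859) (nat_lit 76) (nat_lit 1784648104641) (nat_lit 174) (nat_lit 5) (nat_lit 176) (nat_lit 5) (nat_lit 175) (nat_lit 4) (nat_lit 444) (nat_lit 393) (nat_lit 183)) (XT.lf (nat_lit 0) (nat_lit 60870287372) (nat_lit 836) (nat_lit 34290711980) (nat_lit 836) (nat_lit 34290711980) (nat_lit 292) (nat_lit 3) (nat_lit 303) (nat_lit 3) (nat_lit 303) (nat_lit 5) (nat_lit 394) (nat_lit 394) (nat_lit 232))) (XT.nd (nat_lit 78) (nat_lit 0) (nat_lit 0) (XT.lf (nat_lit 0) (nat_lit 129069131527) (nat_lit 760) (nat_lit 126248542804) (nat_lit 836) (nat_lit 13818938550) (nat_lit 293) (nat_lit 5) (nat_lit 303) (nat_lit 5) (nat_lit 304) (nat_lit 5) (nat_lit 395) (nat_lit 394) (nat_lit 231)) (XT.lf (nat_lit 76) (nat_lit 93354493274) (nat_lit 0) (nat_lit 49510258580) (nat_lit 836) (nat_lit 137029667512) (nat_lit 294) (nat_lit 5) (nat_lit 293) (nat_lit 5) (nat_lit 304) (nat_lit 5) (nat_lit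 396) (nat_lit 394) (nat_lit 230)))) (XT.nd (nat_lit 156) (nat_lit 0) (nat_lit 152) (XT.nd (nat_lit 78) (nat_lit 0) (nat_lit 76) (XT.lf (nat_lit 76) (nat_lit 42249997078) (nat_lit 0) (nat_lit 121106040175) (nat_lit 836) (nat_lit 127877212343) (nat_lit 295) (nat_lit 5) (nat_lit 294) (nat_lit 5) (nat_lit 305) (nat_lit 5) (nat_lit 397) (nat_lit 394) (nat_lit 229)) (XT.lf (nat_lit 0) (nat_lit 191205738898) (nat_lit 760) (nat_lit 9782258290) (nat_lit 836) (nat_lit 102205233387) (nat_lit 295) (nat_lit 5) (nat_lit 305) (nat_lit 5) (nat_lit 306) (nat_lit 5) (nat_lit 398) (nat_lit 394) (nat_lit 228))) (XT.nd (nat_lit 78) (nat_lit 0) (nat_lit 0) (XT.lf (nat_lit 0) (nat_lit 227728574155) (nat_lit 760) (nat_lit 61572833652) (nat_lit 836) (nat_lit 26486344350) (nat_lit 296) (nat_lit 5) (nat_lit 306) (nat_lit 5) (nat_lit 307) (nat_lit 5) (nat_lit 399) (nat_lit 394) (nat_lit 227)) (XT.lf (nat_lit 76) (nat_lit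 213749276085) (nat_lit 0) (nat_lit 60323291027) (nat_lit 836) (nat_lit 54972301811) (nat_lit 297) (nat_lit 5) (nat_lit 296) (nat_lit 5) (nat_lit 307) (nat_lit 5) (nat_lit 400) (nat_lit 394) (nat_lit 226)))))))
noncomputable def xc221 : XT := (XT.nd (nat_lit 1248) (nat_lit 2888) (nat_lit 0) (XT.nd (nat_lit 624) (nat_lit 2052) (nat_lit 0) (XT.nd (nat_lit 312) (nat_lit 988) (nat_lit 0) (XT.nd (nat_lit 156) (nat_lit 760) (nat_lit 0) (XT.nd (nat_lit 78) (nat_lit 532) (nat_lit 0) (XT.lf (nat_lit 0) (nat_lit 172573554135) (nat_lit 760) (nat_lit 158254091921) (nat_lit 836) (nat_lit 12199730645) (nat_lit 287) (nat_lit 5) (nat_lit 297) (nat_lit 5) (nat_lit 298) (nat_lit 5) (nat_lit 401) (nat_lit 394) (nat_lit 225)) (XT.lf (nat_lit 0) (nat_lit 39499622329) (nat_lit 532) (nat_lit 227104262999) (nat_lit 76) (nat_lit 91168411335) (nat_lit 280) (nat_lit 5) (nat_lit 287) (nat_lit 5) (nat_lit 281) (nat_lit 5)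 (nat_lit 402) (nat_lit 394) (nat_lit 224))) (XT.nd (nat_lit 78) (nat_lit 380) (nat_lit 0) (XT.lf (nat_lit 0) (nat_lit 88322064170) (nat_lit 380) (nat_lit 13656338427) (nat_lit 456) (nat_lit 271354862937) (nat_lit 275) (nat_lit 5) (nat_lit 280) (nat_lit 5) (nat_lit 281) (nat_lit 5) (nat_lit 403) (nat_lit 394) (nat_lit 223)) (XT.lf (nat_lit 0) (nat_lit 44457016999) (nat_lit 380) (nat_lit 133765283926) (nat_lit 456) (nat_lit 211478470207) (nat_lit 270) (nat_lit 5) (nat_lit 275) (nat_lit 5) (nat_lit 276) (nat_lit 5) (nat_lit 404) (nat_lit 394) (nat_lit 222)))) (XT.nd (nat_lit 156) (nat_lit 684) (nat_lit 0) (XT.nd (nat_lit 78) (nat_lit 0) (nat_lit 0) (XT.lf (nat_lit 0) (nat_lit 876810161) (nat_lit 304) (nat_lit 267149285328) (nat_lit 380) (nat_lit 138978562470) (nat_lit 266) (nat_lit 5) (nat_lit 270) (nat_lit 5) (nat_lit 271) (nat_lit 5) (nat_lit 405) (nat_lit 394) (nat_lit 221)) (XT.lf (nat_lit 0)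 (nat_lit 373425767318) (nat_lit 380) (nat_lit 40774421002) (nat_lit 76) (nat_lit 11072088726) (nat_lit 266) (nat_lit 5) (nat_lit 271) (nat_lit 5) (nat_lit 267) (nat_lit 5) (nat_lit 406) (nat_lit 394) (nat_lit 220))) (XT.nd (nat_lit 78) (nat_lit 304) (nat_lit 0) (XT.lf (nat_lit 0) (nat_lit 51208315877) (nat_lit 380) (nat_lit 84468235022) (nat_lit 76) (nat_lit 308776534551) (nat_lit 261) (nat_lit 5) (nat_lit 266) (nat_lit 5) (nat_lit 262) (nat_lit 5) (nat_lit 407) (nat_lit 394) (nat_lit 219)) (XT.lf (nat_lit 0) (nat_lit 169422509683) (nat_lit 380) (nat_lit 128419657002) (nat_lit 76) (nat_lit 166847123137) (nat_lit 257) (nat_lit 5) (nat_lit 262) (nat_lit 5) (nat_lit 258) (nat_lit 5) (nat_lit 408) (nat_lit 394) (nat_lit 218))))) (XT.nd (nat_lit 312) (nat_lit 912) (nat_lit 0) (XT.nd (nat_lit 156) (nat_lit 608) (nat_lit 0) (XT.nd (nat_lit 78) (nat_lit 228) (nat_lit 0) (XT.lf (nat_lit 0) (nat_lit 305938202801)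 (nat_lit 380) (nat_lit 171271318705) (nat_lit 76) (nat_lit 8892650848) (nat_lit 253) (nat_lit 5) (nat_lit 258) (nat_lit 5) (nat_lit 254) (nat_lit 5) (nat_lit 409) (nat_lit 394) (nat_lit 217)) (XT.lf (nat_lit 0) (nat_lit 293340812174) (nat_lit 228) (nat_lit 171909970304) (nat_lit 304) (nat_lit 43383521454) (nat_lit 250) (nat_lit 5) (nat_lit 253) (nat_lit 5) (nat_lit 254) (nat_lit 5) (nat_lit 410) (nat_lit 394) (nat_lit 216))) (XT.nd (nat_lit 78) (nat_lit 228) (nat_lit 0) (XT.lf (nat_lit 0) (nat_lit 110945250740) (nat_lit 380) (nat_lit 259571949773) (nat_lit 76) (nat_lit 161873084057) (nat_lit 245) (nat_lit 5) (nat_lit 250) (nat_lit 5) (nat_lit 246) (nat_lit 5) (nat_lit 411) (nat_lit 394) (nat_lit 215)) (XT.lf (nat_lit 0) (nat_lit 254253846411) (nat_lit 228) (nat_lit 32546877891) (nat_lit 304) (nat_lit 270675441752) (nat_lit 242) (nat_lit 5) (nat_lit 245) (nat_lit 5) (nat_lit 246) (nat_lit 5) (nat_lit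 412) (nat_lit 394) (nat_lit 214)))) (XT.nd (nat_lit 156) (nat_lit 380) (nat_lit 0) (XT.nd (nat_lit 78) (nat_lit 304) (nat_lit 0) (XT.lf (nat_lit 0) (nat_lit 236413967219) (nat_lit 228) (nat_lit 253788046823) (nat_lit 304) (nat_lit 93693035100) (nat_lit 239) (nat_lit 5) (nat_lit 242) (nat_lit 5) (nat_lit 243) (nat_lit 5) (nat_lit 413) (nat_lit 394) (nat_lit 213)) (XT.lf (nat_lit 0) (nat_lit 105585839205) (nat_lit 304) (nat_lit 390879730664) (nat_lit 76) (nat_lit 115322960290) (nat_lit 235) (nat_lit 5) (nat_lit 239) (nat_lit 5) (nat_lit 236) (nat_lit 5) (nat_lit 414) (nat_lit 394) (nat_lit 212))) (XT.nd (nat_lit 78) (nat_lit 152) (nat_lit 0) (XT.lf (nat_lit 0) (nat_lit 206208967558) (nat_lit 228) (nat_lit 125010295708) (nat_lit 304) (nat_lit 309932689452) (nat_lit 232) (nat_lit 5) (nat_lit 235) (nat_lit 5) (nat_lit 236) (nat_lit 5) (nat_lit 415) (nat_lit 394) (nat_lit 211)) (XT.lf (nat_lit 0) (nat_lit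 194294223368) (nat_lit 152) (nat_lit 394874713448) (nat_lit 228) (nat_lit 82982233489) (nat_lit 230) (nat_lit 5) (nat_lit 232) (nat_lit 5) (nat_lit 233) (nat_lit 5) (nat_lit 416) (nat_lit 394) (nat_lit 210)))))) (XT.nd (nat_lit 624) (nat_lit 1368) (nat_lit 0) (XT.nd (nat_lit 312) (nat_lit 684) (nat_lit 0) (XT.nd (nat_lit 156) (nat_lit 380) (nat_lit 0) (XT.nd (nat_lit 78) (nat_lit 152) (nat_lit 0) (XT.lf (nat_lit 0) (nat_lit 169881927844) (nat_lit 304) (nat_lit 519794969853) (nat_lit 76) (nat_lit 15179534016) (nat_lit 226) (nat_lit 5) (nat_lit 230) (nat_lit 5) (nat_lit 227) (nat_lit 5) (nat_lit 417) (nat_lit 394) (nat_lit 209)) (XT.lf (nat_lit 0) (nat_lit 175746456509) (nat_lit 152) (nat_lit 282222916579) (nat_lit 228) (nat_lit 281245650510) (nat_lit 224) (nat_lit 5) (nat_lit 226) (nat_lit 5) (nat_lit 227) (nat_lit 5) (nat_lit 418) (nat_lit 394) (nat_lit 208))) (XT.nd (nat_lit 78) (nat_lit 152)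 (nat_lit 0) (XT.lf (nat_lit 0) (nat_lit 7608702422) (nat_lit 228) (nat_lit 603194163499) (nat_lit 76) (nat_lit 164795264226) (nat_lit 221) (nat_lit 5) (nat_lit 224) (nat_lit 5) (nat_lit 222) (nat_lit 5) (nat_lit 419) (nat_lit 394) (nat_lit 207)) (XT.lf (nat_lit 0) (nat_lit 168600650271) (nat_lit 152) (nat_lit 158616252266) (nat_lit 228) (nat_lit 486569504633) (nat_lit 219) (nat_lit 5) (nat_lit 221) (nat_lit 5) (nat_lit 222) (nat_lit 5) (nat_lit 420) (nat_lit 394) (nat_lit 206)))) (XT.nd (nat_lit 156) (nat_lit 304) (nat_lit 0) (XT.nd (nat_lit 78) (nat_lit 228) (nat_lit 0) (XT.lf (nat_lit 0) (nat_lit 169271720097) (nat_lit 152) (nat_lit 521592555648) (nat_lit 228) (nat_lit 163241944758) (nat_lit 217) (nat_lit 5) (nat_lit 219) (nat_lit 5) (nat_lit 220) (nat_lit 5) (nat_lit 421) (nat_lit 394) (nat_lit 205)) (XT.lf (nat_lit 0) (nat_lit 174663720665) (nat_lit 152) (nat_lit 22160951743) (nat_lit 228)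 (nat_lit 699840561440) (nat_lit 214) (nat_lit 5) (nat_lit 216) (nat_lit 5) (nat_lit 217) (nat_lit 5) (nat_lit 422) (nat_lit 394) (nat_lit 204))) (XT.nd (nat_lit 78) (nat_lit 152) (nat_lit 0) (XT.lf (nat_lit 0) (nat_lit 180084837766) (nat_lit 152) (nat_lit 422980903459) (nat_lit 228) (nat_lit 338275005920) (nat_lit 212) (nat_lit 5) (nat_lit 214) (nat_lit 5) (nat_lit 215) (nat_lit 5) (nat_lit 423) (nat_lit 394) (nat_lit 203)) (XT.lf (nat_lit 0) (nat_lit 68780254951) (nat_lit 152) (nat_lit 794718662683) (nat_lit 76) (nat_lit 125138837508) (nat_lit 210) (nat_lit 5) (nat_lit 212) (nat_lit 5) (nat_lit 211) (nat_lit 5) (nat_lit 424) (nat_lit 394) (nat_lit 202))))) (XT.nd (nat_lit 312) (nat_lit 836) (nat_lit 0) (XT.nd (nat_lit 156) (nat_lit 304) (nat_lit 0) (XT.nd (nat_lit 78) (nat_lit 76) (nat_lit 0) (XT.lf (nat_lit 0) (nat_lit 207215375044) (nat_lit 152) (nat_lit 313336877912) (nat_lit 228) (nat_lit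 517688804994) (nat_lit 208) (nat_lit 5) (nat_lit 210) (nat_lit 5) (nat_lit 211) (nat_lit 5) (nat_lit 425) (nat_lit 394) (nat_lit 201)) (XT.lf (nat_lit 0) (nat_lit 229289866635) (nat_lit 76) (nat_lit 801211066925) (nat_lit 152) (nat_lit 60209945284) (nat_lit 207) (nat_lit 5) (nat_lit 208) (nat_lit 5) (nat_lit 209) (nat_lit 4) (nat_lit 426) (nat_lit 394) (nat_lit 200))) (XT.nd (nat_lit 78) (nat_lit 76) (nat_lit 0) (XT.lf (nat_lit 0) (nat_lit 253263147888) (nat_lit 152) (nat_lit 190668403310) (nat_lit 228) (nat_lit 701910500616) (nat_lit 204) (nat_lit 5) (nat_lit 206) (nat_lit 5) (nat_lit 207) (nat_lit 5) (nat_lit 427) (nat_lit 394) (nat_lit 199)) (XT.lf (nat_lit 0) (nat_lit 283752207302) (nat_lit 76) (nat_lit 729570418917) (nat_lit 152) (nat_lit 190660353886) (nat_lit 203) (nat_lit 5) (nat_lit 204) (nat_lit 5) (nat_lit 205) (nat_lit 4) (nat_lit 428) (nat_lit 394) (nat_lit 198)))) (XT.nd (nat_lit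 156) (nat_lit 532) (nat_lit 0) (XT.nd (nat_lit 78) (nat_lit 76) (nat_lit 0) (XT.lf (nat_lit 0) (nat_lit 321233380887) (nat_lit 152) (nat_lit 52719869193) (nat_lit 228) (nat_lit 891338070294) (nat_lit 200) (nat_lit 5) (nat_lit 202) (nat_lit 5) (nat_lit 203) (nat_lit 5) (nat_lit 429) (nat_lit 394) (nat_lit 197)) (XT.lf (nat_lit 0) (nat_lit 361681488280) (nat_lit 76) (nat_lit 647993220700) (nat_lit 152) (nat_lit 320042411072) (nat_lit 199) (nat_lit 5) (nat_lit 200) (nat_lit 5) (nat_lit 201) (nat_lit 4) (nat_lit 430) (nat_lit 394) (nat_lit 196))) (XT.nd (nat_lit 78) (nat_lit 304) (nat_lit 0) (XT.lf (nat_lit 0) (nat_lit 313137865950) (nat_lit 228) (nat_lit 984878513497) (nat_lit 76) (nat_lit 99764515764) (nat_lit 196) (nat_lit 5) (nat_lit 199) (nat_lit 5) (nat_lit 197) (nat_lit 4) (nat_lit 431) (nat_lit 394) (nat_lit 195)) (XT.nd (nat_lit 78) (nat_lit 228) (nat_lit 0) (XT.lf (nat_lit 0) (nat_lit 466777490162)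 (nat_lit 76) (nat_lit 554485268741) (nat_lit 152) (nat_lit 447989537591) (nat_lit 195) (nat_lit 5) (nat_lit 196) (nat_lit 5) (nat_lit 197) (nat_lit 4) (nat_lit 432) (nat_lit 394) (nat_lit 194)) (XT.lf (nat_lit 0) (nat_lit 262118948496) (nat_lit 228) (nat_lit 1012000146528) (nat_lit 76) (nat_lit 270625711880) (nat_lit 192) (nat_lit 5) (nat_lit 195) (nat_lit 5) (nat_lit 193) (nat_lit 4) (nat_lit 433) (nat_lit 394) (nat_lit 193))))))))
noncomputable def xc222 : XT := (XT.nd (nat_lit 50466) (nat_lit 0) (nat_lit 4256) (XT.nd (nat_lit 624) (nat_lit 304) (nat_lit 0) (XT.nd (nat_lit 312) (nat_lit 456) (nat_lit 0) (XT.nd (nat_lit 156) (nat_lit 228) (nat_lit 0) (XT.nd (nat_lit 78) (nat_lit 152) (nat_lit 0) (XT.lf (nat_lit 0) (nat_lit 603295489007) (nat_lit 76) (nat_lit 446772560706) (nat_lit 152) (nat_lit 574005098524) (nat_lit 191) (nat_lit 5) (nat_lit 192) (nat_lit 5) (nat_lit 193) (nat_lit 4) (nat_lit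 434) (nat_lit 394) (nat_lit 192)) (XT.lf (nat_lit 0) (nat_lit 221430896684) (nat_lit 152) (nat_lit 1021632407738) (nat_lit 76) (nat_lit 464722684866) (nat_lit 189) (nat_lit 5) (nat_lit 191) (nat_lit 5) (nat_lit 190) (nat_lit 4) (nat_lit 435) (nat_lit 394) (nat_lit 191))) (XT.nd (nat_lit 78) (nat_lit 152) (nat_lit 0) (XT.lf (nat_lit 0) (nat_lit 776121174519) (nat_lit 76) (nat_lit 322262697867) (nat_lit 152) (nat_lit 697441867083) (nat_lit 188) (nat_lit 5) (nat_lit 189) (nat_lit 5) (nat_lit 190) (nat_lit 4) (nat_lit 436) (nat_lit 394) (nat_lit 190)) (XT.lf (nat_lit 0) (nat_lit 192677870398) (nat_lit 152) (nat_lit 1010311108993) (nat_lit 76) (nat_lit 685646959443) (nat_lit 186) (nat_lit 5) (nat_lit 188) (nat_lit 5) (nat_lit 187) (nat_lit 4) (nat_lit 437) (nat_lit 394) (nat_lit 189)))) (XT.nd (nat_lit 156) (nat_lit 228) (nat_lit 0) (XT.nd (nat_lit 78) (nat_lit 152) (nat_lit 0) (XT.lf (nat_lit 0)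 (nat_lit 990855314875) (nat_lit 76) (nat_lit 178001306015) (nat_lit 152) (nat_lit 817478439613) (nat_lit 185) (nat_lit 5) (nat_lit 186) (nat_lit 5) (nat_lit 187) (nat_lit 4) (nat_lit 438) (nat_lit 394) (nat_lit 188)) (XT.lf (nat_lit 0) (nat_lit 177745077438) (nat_lit 152) (nat_lit 974004278400) (nat_lit 76) (nat_lit 937464909792) (nat_lit 183) (nat_lit 5) (nat_lit 185) (nat_lit 5) (nat_lit 184) (nat_lit 4) (nat_lit 439) (nat_lit 394) (nat_lit 187))) (XT.nd (nat_lit 78) (nat_lit 152) (nat_lit 0) (XT.lf (nat_lit 0) (nat_lit 1253909392890) (nat_lit 76) (nat_lit 10622847107) (nat_lit 152) (nat_lit 933092191549) (nat_lit 182) (nat_lit 5) (nat_lit 183) (nat_lit 5) (nat_lit 184) (nat_lit 4) (nat_lit 440) (nat_lit 394) (nat_lit 186)) (XT.lf (nat_lit 0) (nat_lit 178837834210) (nat_lit 152) (nat_lit 908031687653) (nat_lit 76) (nat_lit 1224779566913) (nat_lit 180) (nat_lit 5) (nat_lit 182) (nat_lit 5) (nat_lit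 181) (nat_lit 4) (nat_lit 441) (nat_lit 394) (nat_lit 185))))) (XT.nd (nat_lit 49530) (nat_lit 0) (nat_lit 8892) (XT.nd (nat_lit 156) (nat_lit 76) (nat_lit 0) (XT.nd (nat_lit 78) (nat_lit 152) (nat_lit 0) (XT.lf (nat_lit 0) (nat_lit 1391776853651) (nat_lit 152) (nat_lit 862191575634) (nat_lit 0) (nat_lit 177825179798) (nat_lit 179) (nat_lit 5) (nat_lit 181) (nat_lit 4) (nat_lit 179) (nat_lit 4) (nat_lit 442) (nat_lit 394) (nat_lit 184)) (XT.lf (nat_lit 0) (nat_lit 198525894157) (nat_lit 152) (nat_lit 806973599437) (nat_lit 76) (nat_lit 1552800155266) (nat_lit 177) (nat_lit 5) (nat_lit 179) (nat_lit 5) (nat_lit 178) (nat_lit 4) (nat_lit 443) (nat_lit 394) (nat_lit 183))) (XT.nd (nat_lit 49296) (nat_lit 0) (nat_lit 8816) (XT.lf (nat_lit 0) (nat_lit 1552386287476) (nat_lit 152) (nat_lit 742812018557) (nat_lit 0) (nat_lit 396241820399) (nat_lit 176) (nat_lit 5) (nat_lit 178) (nat_lit 4) (nat_lit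 176) (nat_lit 4) (nat_lit 444) (nat_lit 394) (nat_lit 182)) (XT.lf (nat_lit 0) (nat_lit 65741384631) (nat_lit 836) (nat_lit 37033194947) (nat_lit 836) (nat_lit 37033194947) (nat_lit 292) (nat_lit 3) (nat_lit 303) (nat_lit 3) (nat_lit 303) (nat_lit 5) (nat_lit 395) (nat_lit 395) (nat_lit 230)))) (XT.nd (nat_lit 156) (nat_lit 0) (nat_lit 76) (XT.nd (nat_lit 78) (nat_lit 0) (nat_lit 0) (XT.lf (nat_lit 0) (nat_lit 139397395427) (nat_lit 760) (nat_lit 136346787989) (nat_lit 836) (nat_lit 14923221827) (nat_lit 293) (nat_lit 5) (nat_lit 303) (nat_lit 5) (nat_lit 304) (nat_lit 5) (nat_lit 396) (nat_lit 395) (nat_lit 229)) (XT.lf (nat_lit 76) (nat_lit 100824419779) (nat_lit 0) (nat_lit 53472067594) (nat_lit 836) (nat_lit 147989357773) (nat_lit 294) (nat_lit 5) (nat_lit 293) (nat_lit 5) (nat_lit 304) (nat_lit 5) (nat_lit 397) (nat_lit 395) (nat_lit 228))) (XT.nd (nat_lit 78) (nat_lit 0) (nat_lit 76) (XT.lf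 (nat_lit 76) (nat_lit 45631632761) (nat_lit 0) (nat_lit 130795264810) (nat_lit 836) (nat_lit 138104893125) (nat_lit 295) (nat_lit 5) (nat_lit 294) (nat_lit 5) (nat_lit 305) (nat_lit 5) (nat_lit 398) (nat_lit 395) (nat_lit 227)) (XT.lf (nat_lit 0) (nat_lit 206504388531) (nat_lit 760) (nat_lit 10563203435) (nat_lit 836) (nat_lit 110380987529) (nat_lit 295) (nat_lit 5) (nat_lit 305) (nat_lit 5) (nat_lit 306) (nat_lit 5) (nat_lit 399) (nat_lit 395) (nat_lit 226)))))) (XT.nd (nat_lit 624) (nat_lit 2584) (nat_lit 0) (XT.nd (nat_lit 312) (nat_lit 1064) (nat_lit 0) (XT.nd (nat_lit 156) (nat_lit 1216) (nat_lit 0) (XT.nd (nat_lit 78) (nat_lit 0) (nat_lit 0) (XT.lf (nat_lit 0) (nat_lit 245948905150) (nat_lit 760) (nat_lit 66496985647) (nat_lit 836) (nat_lit 28604779281) (nat_lit 296) (nat_lit 5) (nat_lit 306) (nat_lit 5) (nat_lit 307) (nat_lit 5) (nat_lit 400) (nat_lit 395) (nat_lit 225)) (XT.lf (nat_lit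 76) (nat_lit 230850820089) (nat_lit 0) (nat_lit 65149470979) (nat_lit 836) (nat_lit 59368071439) (nat_lit 297) (nat_lit 5) (nat_lit 296) (nat_lit 5) (nat_lit 307) (nat_lit 5) (nat_lit 401) (nat_lit 395) (nat_lit 224))) (XT.nd (nat_lit 78) (nat_lit 532) (nat_lit 0) (XT.lf (nat_lit 0) (nat_lit 186381067256) (nat_lit 760) (nat_lit 170914587807) (nat_lit 836) (nat_lit 13173821910) (nat_lit 287) (nat_lit 5) (nat_lit 297) (nat_lit 5) (nat_lit 298) (nat_lit 5) (nat_lit 402) (nat_lit 395) (nat_lit 223)) (XT.lf (nat_lit 0) (nat_lit 42661307235) (nat_lit 532) (nat_lit 245270900848) (nat_lit 76) (nat_lit 98461786558) (nat_lit 280) (nat_lit 5) (nat_lit 287) (nat_lit 5) (nat_lit 281) (nat_lit 5) (nat_lit 403) (nat_lit 395) (nat_lit 222)))) (XT.nd (nat_lit 156) (nat_lit 304) (nat_lit 0) (XT.nd (nat_lit 78) (nat_lit 380) (nat_lit 0) (XT.lf (nat_lit 0) (nat_lit 95389458476) (nat_lit 380) (nat_lit 14748829838)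 (nat_lit 456) (nat_lit 293061557787) (nat_lit 275) (nat_lit 5) (nat_lit 280) (nat_lit 5) (nat_lit 281) (nat_lit 5) (nat_lit 404) (nat_lit 395) (nat_lit 221)) (XT.lf (nat_lit 0) (nat_lit 48015213665) (nat_lit 380) (nat_lit 144466391082) (nat_lit 456) (nat_lit 228395152087) (nat_lit 270) (nat_lit 5) (nat_lit 275) (nat_lit 5) (nat_lit 276) (nat_lit 5) (nat_lit 405) (nat_lit 395) (nat_lit 220))) (XT.nd (nat_lit 78) (nat_lit 0) (nat_lit 0) (XT.lf (nat_lit 0) (nat_lit 948590171) (nat_lit 304) (nat_lit 288521027332) (nat_lit 380) (nat_lit 150095341373) (nat_lit 266) (nat_lit 5) (nat_lit 270) (nat_lit 5) (nat_lit 271) (nat_lit 5) (nat_lit 406) (nat_lit 395) (nat_lit 219)) (XT.lf (nat_lit 0) (nat_lit 403301159732) (nat_lit 380) (nat_lit 44034797108) (nat_lit 76) (nat_lit 11958035819) (nat_lit 266) (nat_lit 5) (nat_lit 271) (nat_lit 5) (nat_lit 267) (nat_lit 5) (nat_lit 407) (nat_lit 395) (nat_lit 218)))))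 (XT.nd (nat_lit 312) (nat_lit 1368) (nat_lit 0) (XT.nd (nat_lit 156) (nat_lit 532) (nat_lit 0) (XT.nd (nat_lit 78) (nat_lit 304) (nat_lit 0) (XT.lf (nat_lit 0) (nat_lit 55306257731) (nat_lit 380) (nat_lit 91224142599) (nat_lit 76) (nat_lit 333478868127) (nat_lit 261) (nat_lit 5) (nat_lit 266) (nat_lit 5) (nat_lit 262) (nat_lit 5) (nat_lit 408) (nat_lit 395) (nat_lit 217)) (XT.lf (nat_lit 0) (nat_lit 182977519996) (nat_lit 380) (nat_lit 138691689842) (nat_lit 76) (nat_lit 180195162693) (nat_lit 257) (nat_lit 5) (nat_lit 262) (nat_lit 5) (nat_lit 258) (nat_lit 5) (nat_lit 409) (nat_lit 395) (nat_lit 216))) (XT.nd (nat_lit 78) (nat_lit 228) (nat_lit 0) (XT.lf (nat_lit 0) (nat_lit 330414407113) (nat_lit 380) (nat_lit 184971499399) (nat_lit 76) (nat_lit 9604382226) (nat_lit 253) (nat_lit 5) (nat_lit 258) (nat_lit 5) (nat_lit 254) (nat_lit 5) (nat_lit 410) (nat_lit 395) (nat_lit 215)) (XT.lf (nat_lit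 0) (nat_lit 316809535684) (nat_lit 228) (nat_lit 185662395208) (nat_lit 304) (nat_lit 46853063064) (nat_lit 250) (nat_lit 5) (nat_lit 253) (nat_lit 5) (nat_lit 254) (nat_lit 5) (nat_lit 411) (nat_lit 395) (nat_lit 214)))) (XT.nd (nat_lit 156) (nat_lit 760) (nat_lit 0) (XT.nd (nat_lit 78) (nat_lit 228) (nat_lit 0) (XT.lf (nat_lit 0) (nat_lit 119821921018) (nat_lit 380) (nat_lit 280336229515) (nat_lit 76) (nat_lit 174823304292) (nat_lit 245) (nat_lit 5) (nat_lit 250) (nat_lit 5) (nat_lit 246) (nat_lit 5) (nat_lit 412) (nat_lit 395) (nat_lit 213)) (XT.lf (nat_lit 0) (nat_lit 274595566209) (nat_lit 228) (nat_lit 35150210508) (nat_lit 304) (nat_lit 292328432898) (nat_lit 242) (nat_lit 5) (nat_lit 245) (nat_lit 5) (nat_lit 246) (nat_lit 5) (nat_lit 413) (nat_lit 395) (nat_lit 212))) (XT.nd (nat_lit 78) (nat_lit 532) (nat_lit 0) (XT.lf (nat_lit 0) (nat_lit 255328476639) (nat_lit 228) (nat_lit 274090647103)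 (nat_lit 304) (nat_lit 101187481902) (nat_lit 239) (nat_lit 5) (nat_lit 242) (nat_lit 5) (nat_lit 243) (nat_lit 5) (nat_lit 414) (nat_lit 395) (nat_lit 211)) (XT.nd (nat_lit 78) (nat_lit 228) (nat_lit 0) (XT.lf (nat_lit 0) (nat_lit 114033627313) (nat_lit 304) (nat_lit 422148708374) (nat_lit 76) (nat_lit 124549230835) (nat_lit 235) (nat_lit 5) (nat_lit 239) (nat_lit 5) (nat_lit 236) (nat_lit 5) (nat_lit 415) (nat_lit 395) (nat_lit 210)) (XT.lf (nat_lit 0) (nat_lit 222707024831) (nat_lit 228) (nat_lit 135010653167) (nat_lit 304) (nat_lit 334726387254) (nat_lit 232) (nat_lit 5) (nat_lit 235) (nat_lit 5) (nat_lit 236) (nat_lit 5) (nat_lit 416) (nat_lit 395) (nat_lit 209))))))))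
noncomputable def xc223 : XT := (XT.nd (nat_lit 1248) (nat_lit 1444) (nat_lit 0) (XT.nd (nat_lit 624) (nat_lit 1216) (nat_lit 0) (XT.nd (nat_lit 312) (nat_lit 684) (nat_lit 0) (XT.nd (nat_lit 156) (nat_lit 380) (nat_lit 0) (XT.nd (nat_lit 78) (nat_lit 304) (nat_lit 0) (XT.lf (nat_lit 0) (nat_lit 209839077700) (nat_lit 152) (nat_lit 426464210309) (nat_lit 228) (nat_lit 89619934108) (nat_lit 230) (nat_lit 5) (nat_lit 232) (nat_lit 5) (nat_lit 233) (nat_lit 5) (nat_lit 417) (nat_lit 395) (nat_lit 208)) (XT.lf (nat_lit 0) (nat_lit 183473296628) (nat_lit 304) (nat_lit 561377248435) (nat_lit 76) (nat_lit 16394360460) (nat_lit 226) (nat_lit 5) (nat_lit 230) (nat_lit 5) (nat_lit 227) (nat_lit 5) (nat_lit 418) (nat_lit 395) (nat_lit 207))) (XT.nd (nat_lit 78) (nat_lit 228) (nat_lit 0) (XT.lf (nat_lit 0) (nat_lit 189807434714) (nat_lit 152) (nat_lit 304800262138) (nat_lit 228) (nat_lit 303744489938) (nat_lit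 224) (nat_lit 5) (nat_lit 226) (nat_lit 5) (nat_lit 227) (nat_lit 5) (nat_lit 419) (nat_lit 395) (nat_lit 206)) (XT.lf (nat_lit 0) (nat_lit 8218153743) (nat_lit 228) (nat_lit 651448435028) (nat_lit 76) (nat_lit 177979354031) (nat_lit 221) (nat_lit 5) (nat_lit 224) (nat_lit 5) (nat_lit 222) (nat_lit 5) (nat_lit 420) (nat_lit 395) (nat_lit 205)))) (XT.nd (nat_lit 156) (nat_lit 380) (nat_lit 0) (XT.nd (nat_lit 78) (nat_lit 152) (nat_lit 0) (XT.lf (nat_lit 0) (nat_lit 182089909018) (nat_lit 152) (nat_lit 171305063755) (nat_lit 228) (nat_lit 525494311070) (nat_lit 219) (nat_lit 5) (nat_lit 221) (nat_lit 5) (nat_lit 222) (nat_lit 5) (nat_lit 421) (nat_lit 395) (nat_lit 204)) (XT.lf (nat_lit 0) (nat_lit 182814639030) (nat_lit 152) (nat_lit 563319469128) (nat_lit 228) (nat_lit 176300575468) (nat_lit 217) (nat_lit 5) (nat_lit 219) (nat_lit 5) (nat_lit 220) (nat_lit 5) (nat_lit 422) (nat_lit 395) (nat_lit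 203))) (XT.nd (nat_lit 78) (nat_lit 152) (nat_lit 0) (XT.lf (nat_lit 0) (nat_lit 188637970497) (nat_lit 152) (nat_lit 23933343387) (nat_lit 228) (nat_lit 755827105287) (nat_lit 214) (nat_lit 5) (nat_lit 216) (nat_lit 5) (nat_lit 217) (nat_lit 5) (nat_lit 423) (nat_lit 395) (nat_lit 202)) (XT.lf (nat_lit 0) (nat_lit 194492751591) (nat_lit 152) (nat_lit 456818891754) (nat_lit 228) (nat_lit 365336331430) (nat_lit 212) (nat_lit 5) (nat_lit 214) (nat_lit 5) (nat_lit 215) (nat_lit 5) (nat_lit 424) (nat_lit 395) (nat_lit 201))))) (XT.nd (nat_lit 312) (nat_lit 608) (nat_lit 0) (XT.nd (nat_lit 156) (nat_lit 304) (nat_lit 0) (XT.nd (nat_lit 78) (nat_lit 152) (nat_lit 0) (XT.lf (nat_lit 0) (nat_lit 74283304898) (nat_lit 152) (nat_lit 858295033531) (nat_lit 76) (nat_lit 135150405646) (nat_lit 210) (nat_lit 5) (nat_lit 212) (nat_lit 5) (nat_lit 211) (nat_lit 5) (nat_lit 425) (nat_lit 395) (nat_lit 200)) (XT.lf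 (nat_lit 0) (nat_lit 223793678447) (nat_lit 152) (nat_lit 338403354423) (nat_lit 228) (nat_lit 559103279733) (nat_lit 208) (nat_lit 5) (nat_lit 210) (nat_lit 5) (nat_lit 211) (nat_lit 5) (nat_lit 426) (nat_lit 395) (nat_lit 199))) (XT.nd (nat_lit 78) (nat_lit 228) (nat_lit 0) (XT.lf (nat_lit 0) (nat_lit 247634104322) (nat_lit 76) (nat_lit 865307482395) (nat_lit 152) (nat_lit 65026133511) (nat_lit 207) (nat_lit 5) (nat_lit 208) (nat_lit 5) (nat_lit 209) (nat_lit 4) (nat_lit 427) (nat_lit 395) (nat_lit 198)) (XT.lf (nat_lit 0) (nat_lit 273525221111) (nat_lit 152) (nat_lit 205921414533) (nat_lit 228) (nat_lit 758062752297) (nat_lit 204) (nat_lit 5) (nat_lit 206) (nat_lit 5) (nat_lit 207) (nat_lit 5) (nat_lit 428) (nat_lit 395) (nat_lit 197)))) (XT.nd (nat_lit 156) (nat_lit 304) (nat_lit 0) (XT.nd (nat_lit 78) (nat_lit 228) (nat_lit 0) (XT.lf (nat_lit 0) (nat_lit 306453380804) (nat_lit 76) (nat_lit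 787935596585) (nat_lit 152) (nat_lit 205912614071) (nat_lit 203) (nat_lit 5) (nat_lit 204) (nat_lit 5) (nat_lit 205) (nat_lit 4) (nat_lit 429) (nat_lit 395) (nat_lit 196)) (XT.lf (nat_lit 0) (nat_lit 346933022345) (nat_lit 152) (nat_lit 56937012107) (nat_lit 228) (nat_lit 962644565333) (nat_lit 200) (nat_lit 5) (nat_lit 202) (nat_lit 5) (nat_lit 203) (nat_lit 5) (nat_lit 430) (nat_lit 395) (nat_lit 195))) (XT.nd (nat_lit 78) (nat_lit 228) (nat_lit 0) (XT.lf (nat_lit 0) (nat_lit 390616954539) (nat_lit 76) (nat_lit 699832237928) (nat_lit 152) (nat_lit 345645271850) (nat_lit 199) (nat_lit 5) (nat_lit 200) (nat_lit 5) (nat_lit 201) (nat_lit 4) (nat_lit 431) (nat_lit 395) (nat_lit 194)) (XT.lf (nat_lit 0) (nat_lit 338189393277) (nat_lit 228) (nat_lit 1063667854416) (nat_lit 76) (nat_lit 107746094232) (nat_lit 196) (nat_lit 5) (nat_lit 199) (nat_lit 5) (nat_lit 197) (nat_lit 4) (nat_lit 432) (nat_lit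 395) (nat_lit 193)))))) (XT.nd (nat_lit 624) (nat_lit 456) (nat_lit 0) (XT.nd (nat_lit 312) (nat_lit 456) (nat_lit 0) (XT.nd (nat_lit 156) (nat_lit 228) (nat_lit 0) (XT.nd (nat_lit 78) (nat_lit 228) (nat_lit 0) (XT.lf (nat_lit 0) (nat_lit 504120588678) (nat_lit 76) (nat_lit 598843666137) (nat_lit 152) (nat_lit 483828201639) (nat_lit 195) (nat_lit 5) (nat_lit 196) (nat_lit 5) (nat_lit 197) (nat_lit 4) (nat_lit 433) (nat_lit 395) (nat_lit 192)) (XT.lf (nat_lit 0) (nat_lit 283088931731) (nat_lit 228) (nat_lit 1092959266184) (nat_lit 76) (nat_lit 292276170174) (nat_lit 192) (nat_lit 5) (nat_lit 195) (nat_lit 5) (nat_lit 193) (nat_lit 4) (nat_lit 434) (nat_lit 395) (nat_lit 191))) (XT.nd (nat_lit 78) (nat_lit 152) (nat_lit 0) (XT.lf (nat_lit 0) (nat_lit 651559981426) (nat_lit 76) (nat_lit 482513958323) (nat_lit 152) (nat_lit 619925038045) (nat_lit 191) (nat_lit 5) (nat_lit 192) (nat_lit 5) (nat_lit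 193) (nat_lit 4) (nat_lit 435) (nat_lit 395) (nat_lit 190)) (XT.lf (nat_lit 0) (nat_lit 239145807385) (nat_lit 152) (nat_lit 1103362154376) (nat_lit 76) (nat_lit 501900884722) (nat_lit 189) (nat_lit 5) (nat_lit 191) (nat_lit 5) (nat_lit 190) (nat_lit 4) (nat_lit 436) (nat_lit 395) (nat_lit 189)))) (XT.nd (nat_lit 156) (nat_lit 228) (nat_lit 0) (XT.nd (nat_lit 78) (nat_lit 152) (nat_lit 0) (XT.lf (nat_lit 0) (nat_lit 838211677696) (nat_lit 76) (nat_lit 348043323565) (nat_lit 152) (nat_lit 753236776412) (nat_lit 188) (nat_lit 5) (nat_lit 189) (nat_lit 5) (nat_lit 190) (nat_lit 4) (nat_lit 437) (nat_lit 395) (nat_lit 188)) (XT.lf (nat_lit 0) (nat_lit 208092512674) (nat_lit 152) (nat_lit 1091135195803) (nat_lit 76) (nat_lit 740499084833) (nat_lit 186) (nat_lit 5) (nat_lit 188) (nat_lit 5) (nat_lit 187) (nat_lit 4) (nat_lit 438) (nat_lit 395) (nat_lit 187))) (XT.nd (nat_lit 78) (nat_lit 152) (nat_lit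 0) (XT.lf (nat_lit 0) (nat_lit 1070124507125) (nat_lit 76) (nat_lit 192241037490) (nat_lit 152) (nat_lit 882876301027) (nat_lit 185) (nat_lit 5) (nat_lit 186) (nat_lit 5) (nat_lit 187) (nat_lit 4) (nat_lit 439) (nat_lit 395) (nat_lit 186)) (XT.lf (nat_lit 0) (nat_lit 191965071813) (nat_lit 152) (nat_lit 1051923860838) (nat_lit 76) (nat_lit 1012462454822) (nat_lit 183) (nat_lit 5) (nat_lit 185) (nat_lit 5) (nat_lit 184) (nat_lit 4) (nat_lit 440) (nat_lit 395) (nat_lit 185))))) (XT.nd (nat_lit 49608) (nat_lit 0) (nat_lit 8740) (XT.nd (nat_lit 156) (nat_lit 228) (nat_lit 0) (XT.nd (nat_lit 78) (nat_lit 152) (nat_lit 0) (XT.lf (nat_lit 0) (nat_lit 1354222871134) (nat_lit 76) (nat_lit 11472318836) (nat_lit 152) (nat_lit 1007739177561) (nat_lit 182) (nat_lit 5) (nat_lit 183) (nat_lit 5) (nat_lit 184) (nat_lit 4) (nat_lit 441) (nat_lit 395) (nat_lit 184)) (XT.lf (nat_lit 0) (nat_lit 193145226344) (nat_lit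 152) (nat_lit 980673502941) (nat_lit 76) (nat_lit 1322762268323) (nat_lit 180) (nat_lit 5) (nat_lit 182) (nat_lit 5) (nat_lit 181) (nat_lit 4) (nat_lit 442) (nat_lit 395) (nat_lit 183))) (XT.nd (nat_lit 78) (nat_lit 152) (nat_lit 0) (XT.lf (nat_lit 0) (nat_lit 1503119356321) (nat_lit 152) (nat_lit 931166201083) (nat_lit 0) (nat_lit 192051522686) (nat_lit 179) (nat_lit 5) (nat_lit 181) (nat_lit 4) (nat_lit 179) (nat_lit 4) (nat_lit 443) (nat_lit 395) (nat_lit 182)) (XT.lf (nat_lit 0) (nat_lit 214408309831) (nat_lit 152) (nat_lit 871530805859) (nat_lit 76) (nat_lit 1677024487871) (nat_lit 177) (nat_lit 5) (nat_lit 179) (nat_lit 5) (nat_lit 178) (nat_lit 4) (nat_lit 444) (nat_lit 395) (nat_lit 181)))) (XT.nd (nat_lit 156) (nat_lit 0) (nat_lit 76) (XT.nd (nat_lit 78) (nat_lit 0) (nat_lit 76) (XT.lf (nat_lit 0) (nat_lit 71001959349) (nat_lit 836) (nat_lit 39995186970) (nat_lit 836) (nat_lit 39995186970)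 (nat_lit 292) (nat_lit 3) (nat_lit 303) (nat_lit 3) (nat_lit 303) (nat_lit 5) (nat_lit 396) (nat_lit 396) (nat_lit 228)) (XT.lf (nat_lit 0) (nat_lit 150551530492) (nat_lit 760) (nat_lit 147253126503) (nat_lit 836) (nat_lit 16116023496) (nat_lit 293) (nat_lit 5) (nat_lit 303) (nat_lit 5) (nat_lit 304) (nat_lit 5) (nat_lit 397) (nat_lit 396) (nat_lit 227))) (XT.nd (nat_lit 78) (nat_lit 0) (nat_lit 76) (XT.lf (nat_lit 76) (nat_lit 108891716848) (nat_lit 0) (nat_lit 57750680334) (nat_lit 836) (nat_lit 159826206035) (nat_lit 294) (nat_lit 5) (nat_lit 293) (nat_lit 5) (nat_lit 304) (nat_lit 5) (nat_lit 398) (nat_lit 396) (nat_lit 226)) (XT.nd (nat_lit 78) (nat_lit 0) (nat_lit 76) (XT.lf (nat_lit 76) (nat_lit 49283565918) (nat_lit 0) (nat_lit 141259521644) (nat_lit 836) (nat_lit 149151144482) (nat_lit 295) (nat_lit 5) (nat_lit 294) (nat_lit 5) (nat_lit 305) (nat_lit 5) (nat_lit 399) (nat_lit 396) (nat_lit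 225)) (XT.lf (nat_lit 0) (nat_lit 223026617632) (nat_lit 760) (nat_lit 11406857516) (nat_lit 836) (nat_lit 119210896806) (nat_lit 295) (nat_lit 5) (nat_lit 305) (nat_lit 5) (nat_lit 306) (nat_lit 5) (nat_lit 400) (nat_lit 396) (nat_lit 224))))))))
noncomputable def xc224 : XT := (XT.nd (nat_lit 1248) (nat_lit 2736) (nat_lit 0) (XT.nd (nat_lit 624) (nat_lit 2356) (nat_lit 0) (XT.nd (nat_lit 312) (nat_lit 1064) (nat_lit 0) (XT.nd (nat_lit 156) (nat_lit 1216) (nat_lit 0) (XT.nd (nat_lit 78) (nat_lit 0) (nat_lit 0) (XT.lf (nat_lit 0) (nat_lit 265626570873) (nat_lit 760) (nat_lit 71815308715) (nat_lit 836) (nat_lit 30892756430) (nat_lit 296) (nat_lit 5) (nat_lit 306) (nat_lit 5) (nat_lit 307) (nat_lit 5) (nat_lit 401) (nat_lit 396) (nat_lit 223)) (XT.lf (nat_lit 76) (nat_lit 249320259083) (nat_lit 0) (nat_lit 70361700150) (nat_lit 836) (nat_lit 64115790032) (nat_lit 297) (nat_lit 5) (nat_lit 296)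 (nat_lit 5) (nat_lit 307) (nat_lit 5) (nat_lit 402) (nat_lit 396) (nat_lit 222))) (XT.nd (nat_lit 78) (nat_lit 532) (nat_lit 0) (XT.lf (nat_lit 0) (nat_lit 201292949061) (nat_lit 760) (nat_lit 184587899320) (nat_lit 836) (nat_lit 14226109703) (nat_lit 287) (nat_lit 5) (nat_lit 297) (nat_lit 5) (nat_lit 298) (nat_lit 5) (nat_lit 403) (nat_lit 396) (nat_lit 221)) (XT.lf (nat_lit 0) (nat_lit 46075682253) (nat_lit 532) (nat_lit 264891112703) (nat_lit 76) (nat_lit 106338645735) (nat_lit 280) (nat_lit 5) (nat_lit 287) (nat_lit 5) (nat_lit 281) (nat_lit 5) (nat_lit 404) (nat_lit 396) (nat_lit 220)))) (XT.nd (nat_lit 156) (nat_lit 304) (nat_lit 0) (XT.nd (nat_lit 78) (nat_lit 380) (nat_lit 0) (XT.lf (nat_lit 0) (nat_lit 103022011908) (nat_lit 380) (nat_lit 15928722796) (nat_lit 456) (nat_lit 316505029919) (nat_lit 275) (nat_lit 5) (nat_lit 280) (nat_lit 5) (nat_lit 281) (nat_lit 5) (nat_lit 405) (nat_lit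 396) (nat_lit 219)) (XT.lf (nat_lit 0) (nat_lit 51857832770) (nat_lit 380) (nat_lit 156023603296) (nat_lit 456) (nat_lit 246665396168) (nat_lit 270) (nat_lit 5) (nat_lit 275) (nat_lit 5) (nat_lit 276) (nat_lit 5) (nat_lit 406) (nat_lit 396) (nat_lit 218))) (XT.nd (nat_lit 78) (nat_lit 0) (nat_lit 0) (XT.lf (nat_lit 0) (nat_lit 1025879303) (nat_lit 304) (nat_lit 311602537345) (nat_lit 380) (nat_lit 162101677451) (nat_lit 266) (nat_lit 5) (nat_lit 270) (nat_lit 5) (nat_lit 271) (nat_lit 5) (nat_lit 407) (nat_lit 396) (nat_lit 217)) (XT.lf (nat_lit 0) (nat_lit 435566393652) (nat_lit 380) (nat_lit 47556228360) (nat_lit 76) (nat_lit 12914833002) (nat_lit 266) (nat_lit 5) (nat_lit 271) (nat_lit 5) (nat_lit 267) (nat_lit 5) (nat_lit 408) (nat_lit 396) (nat_lit 216))))) (XT.nd (nat_lit 312) (nat_lit 1140) (nat_lit 0) (XT.nd (nat_lit 156) (nat_lit 532) (nat_lit 0) (XT.nd (nat_lit 78) (nat_lit 304) (nat_lit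 0) (XT.lf (nat_lit 0) (nat_lit 59731852814) (nat_lit 380) (nat_lit 98520744082) (nat_lit 76) (nat_lit 360157358315) (nat_lit 261) (nat_lit 5) (nat_lit 266) (nat_lit 5) (nat_lit 262) (nat_lit 5) (nat_lit 409) (nat_lit 396) (nat_lit 215)) (XT.lf (nat_lit 0) (nat_lit 197616758579) (nat_lit 380) (nat_lit 149785704968) (nat_lit 76) (nat_lit 194611006937) (nat_lit 257) (nat_lit 5) (nat_lit 262) (nat_lit 5) (nat_lit 258) (nat_lit 5) (nat_lit 410) (nat_lit 396) (nat_lit 214))) (XT.nd (nat_lit 78) (nat_lit 228) (nat_lit 0) (XT.lf (nat_lit 0) (nat_lit 356848543982) (nat_lit 380) (nat_lit 199767912078) (nat_lit 76) (nat_lit 10373006561) (nat_lit 253) (nat_lit 5) (nat_lit 258) (nat_lit 5) (nat_lit 254) (nat_lit 5) (nat_lit 411) (nat_lit 396) (nat_lit 213)) (XT.lf (nat_lit 0) (nat_lit 342155548999) (nat_lit 228) (nat_lit 200515067277) (nat_lit 304) (nat_lit 50600330651) (nat_lit 250) (nat_lit 5) (nat_lit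 253) (nat_lit 5) (nat_lit 254) (nat_lit 5) (nat_lit 412) (nat_lit 396) (nat_lit 212)))) (XT.nd (nat_lit 156) (nat_lit 532) (nat_lit 0) (XT.nd (nat_lit 78) (nat_lit 228) (nat_lit 0) (XT.lf (nat_lit 0) (nat_lit 129408575093) (nat_lit 380) (nat_lit 302761862239) (nat_lit 76) (nat_lit 188809488861) (nat_lit 245) (nat_lit 5) (nat_lit 250) (nat_lit 5) (nat_lit 246) (nat_lit 5) (nat_lit 413) (nat_lit 396) (nat_lit 211)) (XT.lf (nat_lit 0) (nat_lit 296564422140) (nat_lit 228) (nat_lit 37961869313) (nat_lit 304) (nat_lit 315713812301) (nat_lit 242) (nat_lit 5) (nat_lit 245) (nat_lit 5) (nat_lit 246) (nat_lit 5) (nat_lit 414) (nat_lit 396) (nat_lit 210))) (XT.nd (nat_lit 78) (nat_lit 304) (nat_lit 0) (XT.lf (nat_lit 0) (nat_lit 275755948223) (nat_lit 228) (nat_lit 296017518672) (nat_lit 304) (nat_lit 109281626540) (nat_lit 239) (nat_lit 5) (nat_lit 242) (nat_lit 5) (nat_lit 243) (nat_lit 5) (nat_lit 415)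 (nat_lit 396) (nat_lit 209)) (XT.lf (nat_lit 0) (nat_lit 123157107083) (nat_lit 304) (nat_lit 455919404133) (nat_lit 76) (nat_lit 134513541149) (nat_lit 235) (nat_lit 5) (nat_lit 239) (nat_lit 5) (nat_lit 236) (nat_lit 5) (nat_lit 416) (nat_lit 396) (nat_lit 208)))))) (XT.nd (nat_lit 624) (nat_lit 1140) (nat_lit 0) (XT.nd (nat_lit 312) (nat_lit 760) (nat_lit 0) (XT.nd (nat_lit 156) (nat_lit 456) (nat_lit 0) (XT.nd (nat_lit 78) (nat_lit 152) (nat_lit 0) (XT.lf (nat_lit 0) (nat_lit 240524735539) (nat_lit 228) (nat_lit 145811105732) (nat_lit 304) (nat_lit 361503711751) (nat_lit 232) (nat_lit 5) (nat_lit 235) (nat_lit 5) (nat_lit 236) (nat_lit 5) (nat_lit 417) (nat_lit 396) (nat_lit 207)) (XT.lf (nat_lit 0) (nat_lit 226627332570) (nat_lit 152) (nat_lit 460580935428) (nat_lit 228) (nat_lit 96788776042) (nat_lit 230) (nat_lit 5) (nat_lit 232) (nat_lit 5) (nat_lit 233) (nat_lit 5) (nat_lit 418) (nat_lit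 396) (nat_lit 206))) (XT.nd (nat_lit 78) (nat_lit 152) (nat_lit 0) (XT.lf (nat_lit 0) (nat_lit 198151858709) (nat_lit 304) (nat_lit 606286297474) (nat_lit 76) (nat_lit 17706306864) (nat_lit 226) (nat_lit 5) (nat_lit 230) (nat_lit 5) (nat_lit 227) (nat_lit 5) (nat_lit 419) (nat_lit 396) (nat_lit 205)) (XT.lf (nat_lit 0) (nat_lit 204993111182) (nat_lit 152) (nat_lit 329183864928) (nat_lit 228) (nat_lit 328043352449) (nat_lit 224) (nat_lit 5) (nat_lit 226) (nat_lit 5) (nat_lit 227) (nat_lit 5) (nat_lit 420) (nat_lit 396) (nat_lit 204)))) (XT.nd (nat_lit 156) (nat_lit 380) (nat_lit 0) (XT.nd (nat_lit 78) (nat_lit 152) (nat_lit 0) (XT.lf (nat_lit 0) (nat_lit 8876253443) (nat_lit 228) (nat_lit 703563228254) (nat_lit 76) (nat_lit 192218104160) (nat_lit 221) (nat_lit 5) (nat_lit 224) (nat_lit 5) (nat_lit 222) (nat_lit 5) (nat_lit 421) (nat_lit 396) (nat_lit 203)) (XT.lf (nat_lit 0) (nat_lit 196658136312)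 (nat_lit 152) (nat_lit 185009049880) (nat_lit 228) (nat_lit 567533209579) (nat_lit 219) (nat_lit 5) (nat_lit 221) (nat_lit 5) (nat_lit 222) (nat_lit 5) (nat_lit 422) (nat_lit 396) (nat_lit 202))) (XT.nd (nat_lit 78) (nat_lit 228) (nat_lit 0) (XT.lf (nat_lit 0) (nat_lit 197440822948) (nat_lit 152) (nat_lit 608384605728) (nat_lit 228) (nat_lit 190404000045) (nat_lit 217) (nat_lit 5) (nat_lit 219) (nat_lit 5) (nat_lit 220) (nat_lit 5) (nat_lit 423) (nat_lit 396) (nat_lit 201)) (XT.lf (nat_lit 0) (nat_lit 203729995944) (nat_lit 152) (nat_lit 25847595482) (nat_lit 228) (nat_lit 816292672657) (nat_lit 214) (nat_lit 5) (nat_lit 216) (nat_lit 5) (nat_lit 217) (nat_lit 5) (nat_lit 424) (nat_lit 396) (nat_lit 200))))) (XT.nd (nat_lit 312) (nat_lit 608) (nat_lit 0) (XT.nd (nat_lit 156) (nat_lit 228) (nat_lit 0) (XT.nd (nat_lit 78) (nat_lit 152) (nat_lit 0) (XT.lf (nat_lit 0) (nat_lit 210053137771) (nat_lit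 152) (nat_lit 493363988158) (nat_lit 228) (nat_lit 394562659273) (nat_lit 212) (nat_lit 5) (nat_lit 214) (nat_lit 5) (nat_lit 215) (nat_lit 5) (nat_lit 425) (nat_lit 396) (nat_lit 199)) (XT.lf (nat_lit 0) (nat_lit 80226509029) (nat_lit 152) (nat_lit 926957674137) (nat_lit 76) (nat_lit 145962833449) (nat_lit 210) (nat_lit 5) (nat_lit 212) (nat_lit 5) (nat_lit 211) (nat_lit 5) (nat_lit 426) (nat_lit 396) (nat_lit 198))) (XT.nd (nat_lit 78) (nat_lit 76) (nat_lit 0) (XT.lf (nat_lit 0) (nat_lit 241698092989) (nat_lit 152) (nat_lit 365475216636) (nat_lit 228) (nat_lit 603831002279) (nat_lit 208) (nat_lit 5) (nat_lit 210) (nat_lit 5) (nat_lit 211) (nat_lit 5) (nat_lit 427) (nat_lit 396) (nat_lit 197)) (XT.lf (nat_lit 0) (nat_lit 267445731465) (nat_lit 76) (nat_lit 934531678137) (nat_lit 152) (nat_lit 70227703448) (nat_lit 207) (nat_lit 5) (nat_lit 208) (nat_lit 5) (nat_lit 209) (nat_lit 4) (nat_lit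 428) (nat_lit 396) (nat_lit 196)))) (XT.nd (nat_lit 156) (nat_lit 304) (nat_lit 0) (XT.nd (nat_lit 78) (nat_lit 76) (nat_lit 0) (XT.lf (nat_lit 0) (nat_lit 295408114478) (nat_lit 152) (nat_lit 222394732427) (nat_lit 228) (nat_lit 818707268051) (nat_lit 204) (nat_lit 5) (nat_lit 206) (nat_lit 5) (nat_lit 207) (nat_lit 5) (nat_lit 429) (nat_lit 396) (nat_lit 195)) (XT.lf (nat_lit 0) (nat_lit 330970505964) (nat_lit 76) (nat_lit 850970053498) (nat_lit 152) (nat_lit 222385136120) (nat_lit 203) (nat_lit 5) (nat_lit 204) (nat_lit 5) (nat_lit 205) (nat_lit 4) (nat_lit 430) (nat_lit 396) (nat_lit 194))) (XT.nd (nat_lit 78) (nat_lit 76) (nat_lit 0) (XT.lf (nat_lit 0) (nat_lit 374688496596) (nat_lit 152) (nat_lit 61491590171) (nat_lit 228) (nat_lit 1039655658523) (nat_lit 200) (nat_lit 5) (nat_lit 202) (nat_lit 5) (nat_lit 203) (nat_lit 5) (nat_lit 431) (nat_lit 396) (nat_lit 193)) (XT.lf (nat_lit 0) (nat_lit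 421867122971) (nat_lit 76) (nat_lit 755818439365) (nat_lit 152) (nat_lit 373296437403) (nat_lit 199) (nat_lit 5) (nat_lit 200) (nat_lit 5) (nat_lit 201) (nat_lit 4) (nat_lit 432) (nat_lit 396) (nat_lit 192)))))))
noncomputable def xc225 : XT := (XT.nd (nat_lit 50700) (nat_lit 0) (nat_lit 3952) (XT.nd (nat_lit 624) (nat_lit 380) (nat_lit 0) (XT.nd (nat_lit 312) (nat_lit 456) (nat_lit 0) (XT.nd (nat_lit 156) (nat_lit 304) (nat_lit 0) (XT.nd (nat_lit 78) (nat_lit 76) (nat_lit 0) (XT.lf (nat_lit 0) (nat_lit 365244971739) (nat_lit 228) (nat_lit 1148760476733) (nat_lit 76) (nat_lit 116366139458) (nat_lit 196) (nat_lit 5) (nat_lit 199) (nat_lit 5) (nat_lit 197) (nat_lit 4) (nat_lit 433) (nat_lit 396) (nat_lit 191)) (XT.lf (nat_lit 0) (nat_lit 544451006779) (nat_lit 76) (nat_lit 646750795828) (nat_lit 152) (nat_lit 522534029993) (nat_lit 195) (nat_lit 5) (nat_lit 196) (nat_lit 5) (nat_lit 197) (nat_lit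 4) (nat_lit 434) (nat_lit 396) (nat_lit 190))) (XT.nd (nat_lit 78) (nat_lit 76) (nat_lit 0) (XT.lf (nat_lit 0) (nat_lit 305736446951) (nat_lit 228) (nat_lit 1180395242675) (nat_lit 76) (nat_lit 315658607876) (nat_lit 192) (nat_lit 5) (nat_lit 195) (nat_lit 5) (nat_lit 193) (nat_lit 4) (nat_lit 435) (nat_lit 396) (nat_lit 189)) (XT.lf (nat_lit 0) (nat_lit 703685511506) (nat_lit 76) (nat_lit 521114725846) (nat_lit 152) (nat_lit 669518639544) (nat_lit 191) (nat_lit 5) (nat_lit 192) (nat_lit 5) (nat_lit 193) (nat_lit 4) (nat_lit 436) (nat_lit 396) (nat_lit 188)))) (XT.nd (nat_lit 156) (nat_lit 228) (nat_lit 0) (XT.nd (nat_lit 78) (nat_lit 76) (nat_lit 0) (XT.lf (nat_lit 0) (nat_lit 258277848318) (nat_lit 152) (nat_lit 1191630401434) (nat_lit 76) (nat_lit 542053285632) (nat_lit 189) (nat_lit 5) (nat_lit 191) (nat_lit 5) (nat_lit 190) (nat_lit 4) (nat_lit 437) (nat_lit 396) (nat_lit 187)) (XT.lf (nat_lit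 0) (nat_lit 905269305684) (nat_lit 76) (nat_lit 375886454975) (nat_lit 152) (nat_lit 813495341263) (nat_lit 188) (nat_lit 5) (nat_lit 189) (nat_lit 5) (nat_lit 190) (nat_lit 4) (nat_lit 438) (nat_lit 396) (nat_lit 186))) (XT.nd (nat_lit 78) (nat_lit 76) (nat_lit 0) (XT.lf (nat_lit 0) (nat_lit 224740267462) (nat_lit 152) (nat_lit 1178425323959) (nat_lit 76) (nat_lit 799739327663) (nat_lit 186) (nat_lit 5) (nat_lit 188) (nat_lit 5) (nat_lit 187) (nat_lit 4) (nat_lit 439) (nat_lit 396) (nat_lit 185)) (XT.lf (nat_lit 0) (nat_lit 1155735125324) (nat_lit 76) (nat_lit 207620000697) (nat_lit 152) (nat_lit 953506050380) (nat_lit 185) (nat_lit 5) (nat_lit 186) (nat_lit 5) (nat_lit 187) (nat_lit 4) (nat_lit 440) (nat_lit 396) (nat_lit 184))))) (XT.nd (nat_lit 49764) (nat_lit 0) (nat_lit 8588) (XT.nd (nat_lit 156) (nat_lit 152) (nat_lit 0) (XT.nd (nat_lit 78) (nat_lit 76) (nat_lit 0) (XT.lf (nat_lit 0) (nat_lit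 207322610360) (nat_lit 152) (nat_lit 1136077118269) (nat_lit 76) (nat_lit 1093459753201) (nat_lit 183) (nat_lit 5) (nat_lit 185) (nat_lit 5) (nat_lit 184) (nat_lit 4) (nat_lit 441) (nat_lit 396) (nat_lit 183)) (XT.lf (nat_lit 0) (nat_lit 1462561323950) (nat_lit 76) (nat_lit 12389799096) (nat_lit 152) (nat_lit 1088357977993) (nat_lit 182) (nat_lit 5) (nat_lit 183) (nat_lit 5) (nat_lit 184) (nat_lit 4) (nat_lit 442) (nat_lit 396) (nat_lit 182))) (XT.nd (nat_lit 49530) (nat_lit 0) (nat_lit 8512) (XT.lf (nat_lit 0) (nat_lit 208597157721) (nat_lit 152) (nat_lit 1059126766128) (nat_lit 76) (nat_lit 1428583537904) (nat_lit 180) (nat_lit 5) (nat_lit 182) (nat_lit 5) (nat_lit 181) (nat_lit 4) (nat_lit 443) (nat_lit 396) (nat_lit 181)) (XT.lf (nat_lit 0) (nat_lit 76683199729) (nat_lit 836) (nat_lit 43194233021) (nat_lit 836) (nat_lit 43194233021) (nat_lit 292) (nat_lit 3) (nat_lit 303) (nat_lit 3) (nat_lit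 303) (nat_lit 5) (nat_lit 397) (nat_lit 397) (nat_lit 226)))) (XT.nd (nat_lit 156) (nat_lit 0) (nat_lit 76) (XT.nd (nat_lit 78) (nat_lit 0) (nat_lit 0) (XT.lf (nat_lit 0) (nat_lit 162597662046) (nat_lit 760) (nat_lit 159032172468) (nat_lit 836) (nat_lit 17404399961) (nat_lit 293) (nat_lit 5) (nat_lit 303) (nat_lit 5) (nat_lit 304) (nat_lit 5) (nat_lit 398) (nat_lit 397) (nat_lit 225)) (XT.lf (nat_lit 76) (nat_lit 117604206020) (nat_lit 0) (nat_lit 62371461211) (nat_lit 836) (nat_lit 172610330330) (nat_lit 294) (nat_lit 5) (nat_lit 293) (nat_lit 5) (nat_lit 304) (nat_lit 5) (nat_lit 399) (nat_lit 397) (nat_lit 224))) (XT.nd (nat_lit 78) (nat_lit 0) (nat_lit 76) (XT.lf (nat_lit 76) (nat_lit 53227453639) (nat_lit 0) (nat_lit 152560828342) (nat_lit 836) (nat_lit 161081401255) (nat_lit 295) (nat_lit 5) (nat_lit 294) (nat_lit 5) (nat_lit 305) (nat_lit 5) (nat_lit 400) (nat_lit 397) (nat_lit 223)) (XT.lf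 (nat_lit 0) (nat_lit 240870357140) (nat_lit 760) (nat_lit 12318203963) (nat_lit 836) (nat_lit 128747280102) (nat_lit 295) (nat_lit 5) (nat_lit 305) (nat_lit 5) (nat_lit 306) (nat_lit 5) (nat_lit 401) (nat_lit 397) (nat_lit 222)))))) (XT.nd (nat_lit 624) (nat_lit 2584) (nat_lit 0) (XT.nd (nat_lit 312) (nat_lit 1064) (nat_lit 0) (XT.nd (nat_lit 156) (nat_lit 1216) (nat_lit 0) (XT.nd (nat_lit 78) (nat_lit 0) (nat_lit 0) (XT.lf (nat_lit 0) (nat_lit 286878199725) (nat_lit 760) (nat_lit 77559302460) (nat_lit 836) (nat_lit 33363829556) (nat_lit 296) (nat_lit 5) (nat_lit 306) (nat_lit 5) (nat_lit 307) (nat_lit 5) (nat_lit 402) (nat_lit 397) (nat_lit 221)) (XT.lf (nat_lit 76) (nat_lit 269267057267) (nat_lit 0) (nat_lit 75990868923) (nat_lit 836) (nat_lit 69243572505) (nat_lit 297) (nat_lit 5) (nat_lit 296) (nat_lit 5) (nat_lit 307) (nat_lit 5) (nat_lit 403) (nat_lit 397) (nat_lit 220))) (XT.nd (nat_lit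 78) (nat_lit 532) (nat_lit 0) (XT.lf (nat_lit 0) (nat_lit 217397582195) (nat_lit 760) (nat_lit 199355055141) (nat_lit 836) (nat_lit 15362811341) (nat_lit 287) (nat_lit 5) (nat_lit 297) (nat_lit 5) (nat_lit 298) (nat_lit 5) (nat_lit 404) (nat_lit 397) (nat_lit 219)) (XT.lf (nat_lit 0) (nat_lit 49762997497) (nat_lit 532) (nat_lit 286081149823) (nat_lit 76) (nat_lit 114845665593) (nat_lit 280) (nat_lit 5) (nat_lit 287) (nat_lit 5) (nat_lit 281) (nat_lit 5) (nat_lit 405) (nat_lit 397) (nat_lit 218)))) (XT.nd (nat_lit 156) (nat_lit 304) (nat_lit 0) (XT.nd (nat_lit 78) (nat_lit 380) (nat_lit 0) (XT.lf (nat_lit 0) (nat_lit 111264970351) (nat_lit 380) (nat_lit 17203009106) (nat_lit 456) (nat_lit 341824187037) (nat_lit 275) (nat_lit 5) (nat_lit 280) (nat_lit 5) (nat_lit 281) (nat_lit 5) (nat_lit 406) (nat_lit 397) (nat_lit 217)) (XT.lf (nat_lit 0) (nat_lit 56007661391) (nat_lit 380) (nat_lit 168505406621)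 (nat_lit 456) (nat_lit 266397454948) (nat_lit 270) (nat_lit 5) (nat_lit 275) (nat_lit 5) (nat_lit 276) (nat_lit 5) (nat_lit 407) (nat_lit 397) (nat_lit 216))) (XT.nd (nat_lit 78) (nat_lit 0) (nat_lit 0) (XT.lf (nat_lit 0) (nat_lit 1109151566) (nat_lit 304) (nat_lit 336530592723) (nat_lit 380) (nat_lit 175068704623) (nat_lit 266) (nat_lit 5) (nat_lit 270) (nat_lit 5) (nat_lit 271) (nat_lit 5) (nat_lit 408) (nat_lit 397) (nat_lit 215)) (XT.lf (nat_lit 0) (nat_lit 470412683490) (nat_lit 380) (nat_lit 51359567065) (nat_lit 76) (nat_lit 13948151944) (nat_lit 266) (nat_lit 5) (nat_lit 271) (nat_lit 5) (nat_lit 267) (nat_lit 5) (nat_lit 409) (nat_lit 397) (nat_lit 214))))) (XT.nd (nat_lit 312) (nat_lit 1368) (nat_lit 0) (XT.nd (nat_lit 156) (nat_lit 532) (nat_lit 0) (XT.nd (nat_lit 78) (nat_lit 304) (nat_lit 0) (XT.lf (nat_lit 0) (nat_lit 64511339366) (nat_lit 380) (nat_lit 106401263412) (nat_lit 76)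 (nat_lit 388970101933) (nat_lit 261) (nat_lit 5) (nat_lit 266) (nat_lit 5) (nat_lit 262) (nat_lit 5) (nat_lit 410) (nat_lit 397) (nat_lit 213)) (XT.lf (nat_lit 0) (nat_lit 213426988313) (nat_lit 380) (nat_lit 161767429625) (nat_lit 76) (nat_lit 210180085733) (nat_lit 257) (nat_lit 5) (nat_lit 262) (nat_lit 5) (nat_lit 258) (nat_lit 5) (nat_lit 411) (nat_lit 397) (nat_lit 212))) (XT.nd (nat_lit 78) (nat_lit 228) (nat_lit 0) (XT.lf (nat_lit 0) (nat_lit 385397271380) (nat_lit 380) (nat_lit 215748224269) (nat_lit 76) (nat_lit 11203081789) (nat_lit 253) (nat_lit 5) (nat_lit 258) (nat_lit 5) (nat_lit 254) (nat_lit 5) (nat_lit 412) (nat_lit 397) (nat_lit 211)) (XT.lf (nat_lit 0) (nat_lit 369529064986) (nat_lit 228) (nat_lit 216555998699) (nat_lit 304) (nat_lit 54647519091) (nat_lit 250) (nat_lit 5) (nat_lit 253) (nat_lit 5) (nat_lit 254) (nat_lit 5) (nat_lit 413) (nat_lit 397) (nat_lit 210)))) (XT.nd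 (nat_lit 156) (nat_lit 760) (nat_lit 0) (XT.nd (nat_lit 78) (nat_lit 228) (nat_lit 0) (XT.lf (nat_lit 0) (nat_lit 139762033042) (nat_lit 380) (nat_lit 326981726137) (nat_lit 76) (nat_lit 203914522511) (nat_lit 245) (nat_lit 5) (nat_lit 250) (nat_lit 5) (nat_lit 246) (nat_lit 5) (nat_lit 414) (nat_lit 397) (nat_lit 209)) (XT.lf (nat_lit 0) (nat_lit 320290613836) (nat_lit 228) (nat_lit 40998511900) (nat_lit 304) (nat_lit 340970149771) (nat_lit 242) (nat_lit 5) (nat_lit 245) (nat_lit 5) (nat_lit 246) (nat_lit 5) (nat_lit 415) (nat_lit 397) (nat_lit 208))) (XT.nd (nat_lit 78) (nat_lit 532) (nat_lit 0) (XT.lf (nat_lit 0) (nat_lit 297817447274) (nat_lit 228) (nat_lit 319698594205) (nat_lit 304) (nat_lit 118023424568) (nat_lit 239) (nat_lit 5) (nat_lit 242) (nat_lit 5) (nat_lit 243) (nat_lit 5) (nat_lit 416) (nat_lit 397) (nat_lit 207)) (XT.nd (nat_lit 78) (nat_lit 228) (nat_lit 0) (XT.lf (nat_lit 0)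 (nat_lit 133010352592) (nat_lit 304) (nat_lit 492391926876) (nat_lit 76) (nat_lit 145274943240) (nat_lit 235) (nat_lit 5) (nat_lit 239) (nat_lit 5) (nat_lit 236) (nat_lit 5) (nat_lit 417) (nat_lit 397) (nat_lit 206)) (XT.lf (nat_lit 0) (nat_lit 259767699225) (nat_lit 228) (nat_lit 157475651521) (nat_lit 304) (nat_lit 390423334408) (nat_lit 232) (nat_lit 5) (nat_lit 235) (nat_lit 5) (nat_lit 236) (nat_lit 5) (nat_lit 418) (nat_lit 397) (nat_lit 205))))))))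
noncomputable def xc226 : XT := (XT.nd (nat_lit 1248) (nat_lit 1064) (nat_lit 0) (XT.nd (nat_lit 624) (nat_lit 1216) (nat_lit 0) (XT.nd (nat_lit 312) (nat_lit 684) (nat_lit 0) (XT.nd (nat_lit 156) (nat_lit 380) (nat_lit 0) (XT.nd (nat_lit 78) (nat_lit 304) (nat_lit 0) (XT.lf (nat_lit 0) (nat_lit 244758486814) (nat_lit 152) (nat_lit 497427057290) (nat_lit 228) (nat_lit 104531232725) (nat_lit 230) (nat_lit 5) (nat_lit 232) (nat_lit 5) (nat_lit 233) (nat_lit 5) (nat_lit 419) (nat_lit 397) (nat_lit 204)) (XT.lf (nat_lit 0) (nat_lit 214004606129) (nat_lit 304) (nat_lit 654788231763) (nat_lit 76) (nat_lit 19123152263) (nat_lit 226) (nat_lit 5) (nat_lit 230) (nat_lit 5) (nat_lit 227) (nat_lit 5) (nat_lit 420) (nat_lit 397) (nat_lit 203))) (XT.nd (nat_lit 78) (nat_lit 228) (nat_lit 0) (XT.lf (nat_lit 0) (nat_lit 221393487452) (nat_lit 152) (nat_lit 355518215599) (nat_lit 228) (nat_lit 354286223350) (nat_lit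 224) (nat_lit 5) (nat_lit 226) (nat_lit 5) (nat_lit 227) (nat_lit 5) (nat_lit 421) (nat_lit 397) (nat_lit 202)) (XT.lf (nat_lit 0) (nat_lit 9586908759) (nat_lit 228) (nat_lit 759847359237) (nat_lit 76) (nat_lit 207595896977) (nat_lit 221) (nat_lit 5) (nat_lit 224) (nat_lit 5) (nat_lit 222) (nat_lit 5) (nat_lit 422) (nat_lit 397) (nat_lit 201)))) (XT.nd (nat_lit 156) (nat_lit 380) (nat_lit 0) (XT.nd (nat_lit 78) (nat_lit 152) (nat_lit 0) (XT.lf (nat_lit 0) (nat_lit 212391674196) (nat_lit 152) (nat_lit 199809414667) (nat_lit 228) (nat_lit 612935312181) (nat_lit 219) (nat_lit 5) (nat_lit 221) (nat_lit 5) (nat_lit 222) (nat_lit 5) (nat_lit 423) (nat_lit 397) (nat_lit 200)) (XT.lf (nat_lit 0) (nat_lit 213236957094) (nat_lit 152) (nat_lit 657055013307) (nat_lit 228) (nat_lit 205635787247) (nat_lit 217) (nat_lit 5) (nat_lit 219) (nat_lit 5) (nat_lit 220) (nat_lit 5) (nat_lit 424) (nat_lit 397) (nat_lit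 199))) (XT.nd (nat_lit 78) (nat_lit 152) (nat_lit 0) (XT.lf (nat_lit 0) (nat_lit 220029242505) (nat_lit 152) (nat_lit 27915047002) (nat_lit 228) (nat_lit 881595571164) (nat_lit 214) (nat_lit 5) (nat_lit 216) (nat_lit 5) (nat_lit 217) (nat_lit 5) (nat_lit 425) (nat_lit 397) (nat_lit 198)) (XT.lf (nat_lit 0) (nat_lit 226858217028) (nat_lit 152) (nat_lit 532832751469) (nat_lit 228) (nat_lit 426127175896) (nat_lit 212) (nat_lit 5) (nat_lit 214) (nat_lit 5) (nat_lit 215) (nat_lit 5) (nat_lit 426) (nat_lit 397) (nat_lit 197))))) (XT.nd (nat_lit 312) (nat_lit 608) (nat_lit 0) (XT.nd (nat_lit 156) (nat_lit 304) (nat_lit 0) (XT.nd (nat_lit 78) (nat_lit 152) (nat_lit 0) (XT.lf (nat_lit 0) (nat_lit 86645092490) (nat_lit 152) (nat_lit 1001113463242) (nat_lit 76) (nat_lit 157640199075) (nat_lit 210) (nat_lit 5) (nat_lit 212) (nat_lit 5) (nat_lit 211) (nat_lit 5) (nat_lit 427) (nat_lit 397) (nat_lit 196))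 (XT.lf (nat_lit 0) (nat_lit 261034729408) (nat_lit 152) (nat_lit 394712885768) (nat_lit 228) (nat_lit 652137019642) (nat_lit 208) (nat_lit 5) (nat_lit 210) (nat_lit 5) (nat_lit 211) (nat_lit 5) (nat_lit 428) (nat_lit 397) (nat_lit 195))) (XT.nd (nat_lit 78) (nat_lit 228) (nat_lit 0) (XT.lf (nat_lit 0) (nat_lit 288842160555) (nat_lit 76) (nat_lit 1009293867010) (nat_lit 152) (nat_lit 75845473270) (nat_lit 207) (nat_lit 5) (nat_lit 208) (nat_lit 5) (nat_lit 209) (nat_lit 4) (nat_lit 429) (nat_lit 397) (nat_lit 194)) (XT.lf (nat_lit 0) (nat_lit 319041514389) (nat_lit 152) (nat_lit 240185972142) (nat_lit 228) (nat_lit 884203417027) (nat_lit 204) (nat_lit 5) (nat_lit 206) (nat_lit 5) (nat_lit 207) (nat_lit 5) (nat_lit 430) (nat_lit 397) (nat_lit 193)))) (XT.nd (nat_lit 156) (nat_lit 304) (nat_lit 0) (XT.nd (nat_lit 78) (nat_lit 228) (nat_lit 0) (XT.lf (nat_lit 0) (nat_lit 357448879206) (nat_lit 76)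 (nat_lit 919047322717) (nat_lit 152) (nat_lit 240175529421) (nat_lit 203) (nat_lit 5) (nat_lit 204) (nat_lit 5) (nat_lit 205) (nat_lit 4) (nat_lit 431) (nat_lit 397) (nat_lit 192)) (XT.lf (nat_lit 0) (nat_lit 404664290028) (nat_lit 152) (nat_lit 66410589105) (nat_lit 228) (nat_lit 1122827706509) (nat_lit 200) (nat_lit 5) (nat_lit 202) (nat_lit 5) (nat_lit 203) (nat_lit 5) (nat_lit 432) (nat_lit 397) (nat_lit 191))) (XT.nd (nat_lit 78) (nat_lit 228) (nat_lit 0) (XT.lf (nat_lit 0) (nat_lit 455617189027) (nat_lit 76) (nat_lit 816283590786) (nat_lit 152) (nat_lit 403159761280) (nat_lit 199) (nat_lit 5) (nat_lit 200) (nat_lit 5) (nat_lit 201) (nat_lit 4) (nat_lit 433) (nat_lit 397) (nat_lit 190)) (XT.lf (nat_lit 0) (nat_lit 394464935561) (nat_lit 228) (nat_lit 1240660623825) (nat_lit 76) (nat_lit 125675737274) (nat_lit 196) (nat_lit 5) (nat_lit 199) (nat_lit 5) (nat_lit 197) (nat_lit 4) (nat_lit 434)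 (nat_lit 397) (nat_lit 189)))))) (XT.nd (nat_lit 624) (nat_lit 76) (nat_lit 0) (XT.nd (nat_lit 312) (nat_lit 456) (nat_lit 0) (XT.nd (nat_lit 156) (nat_lit 228) (nat_lit 0) (XT.nd (nat_lit 78) (nat_lit 228) (nat_lit 0) (XT.lf (nat_lit 0) (nat_lit 588007748335) (nat_lit 76) (nat_lit 698490547766) (nat_lit 152) (nat_lit 564336385642) (nat_lit 195) (nat_lit 5) (nat_lit 196) (nat_lit 5) (nat_lit 197) (nat_lit 4) (nat_lit 435) (nat_lit 397) (nat_lit 188)) (XT.lf (nat_lit 0) (nat_lit 330195706227) (nat_lit 228) (nat_lit 1274826206394) (nat_lit 76) (nat_lit 340911591505) (nat_lit 192) (nat_lit 5) (nat_lit 195) (nat_lit 5) (nat_lit 193) (nat_lit 4) (nat_lit 436) (nat_lit 397) (nat_lit 187))) (XT.nd (nat_lit 78) (nat_lit 152) (nat_lit 0) (XT.lf (nat_lit 0) (nat_lit 759980979626) (nat_lit 76) (nat_lit 562803604580) (nat_lit 152) (nat_lit 723079786448) (nat_lit 191) (nat_lit 5) (nat_lit 192) (nat_lit 5)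 (nat_lit 193) (nat_lit 4) (nat_lit 437) (nat_lit 397) (nat_lit 186)) (XT.lf (nat_lit 0) (nat_lit 278940398837) (nat_lit 152) (nat_lit 1286960211728) (nat_lit 76) (nat_lit 585417831519) (nat_lit 189) (nat_lit 5) (nat_lit 191) (nat_lit 5) (nat_lit 190) (nat_lit 4) (nat_lit 438) (nat_lit 397) (nat_lit 185)))) (XT.nd (nat_lit 156) (nat_lit 228) (nat_lit 0) (XT.nd (nat_lit 78) (nat_lit 152) (nat_lit 0) (XT.lf (nat_lit 0) (nat_lit 977691444937) (nat_lit 76) (nat_lit 405957084614) (nat_lit 152) (nat_lit 878574645123) (nat_lit 188) (nat_lit 5) (nat_lit 189) (nat_lit 5) (nat_lit 190) (nat_lit 4) (nat_lit 439) (nat_lit 397) (nat_lit 184)) (XT.lf (nat_lit 0) (nat_lit 242719792165) (nat_lit 152) (nat_lit 1272698760449) (nat_lit 76) (nat_lit 863718744833) (nat_lit 186) (nat_lit 5) (nat_lit 188) (nat_lit 5) (nat_lit 187) (nat_lit 4) (nat_lit 440) (nat_lit 397) (nat_lit 183))) (XT.nd (nat_lit 78) (nat_lit 152)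 (nat_lit 0) (XT.lf (nat_lit 0) (nat_lit 1248194499162) (nat_lit 76) (nat_lit 224229326582) (nat_lit 152) (nat_lit 1029786230288) (nat_lit 185) (nat_lit 5) (nat_lit 186) (nat_lit 5) (nat_lit 187) (nat_lit 4) (nat_lit 441) (nat_lit 397) (nat_lit 182)) (XT.lf (nat_lit 0) (nat_lit 223908704513) (nat_lit 152) (nat_lit 1226962729230) (nat_lit 76) (nat_lit 1180936792369) (nat_lit 183) (nat_lit 5) (nat_lit 185) (nat_lit 5) (nat_lit 184) (nat_lit 4) (nat_lit 442) (nat_lit 397) (nat_lit 181))))) (XT.nd (nat_lit 49842) (nat_lit 0) (nat_lit 8512) (XT.nd (nat_lit 49686) (nat_lit 0) (nat_lit 8436) (XT.nd (nat_lit 49608) (nat_lit 0) (nat_lit 8360) (XT.lf (nat_lit 0) (nat_lit 1579566764095) (nat_lit 76) (nat_lit 13380721324) (nat_lit 152) (nat_lit 1175426330077) (nat_lit 182) (nat_lit 5) (nat_lit 183) (nat_lit 5) (nat_lit 184) (nat_lit 4) (nat_lit 443) (nat_lit 397) (nat_lit 180)) (XT.lf (nat_lit 0) (nat_lit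 82818784747) (nat_lit 836) (nat_lit 46649283917) (nat_lit 836) (nat_lit 46649283917) (nat_lit 292) (nat_lit 3) (nat_lit 303) (nat_lit 3) (nat_lit 303) (nat_lit 5) (nat_lit 398) (nat_lit 398) (nat_lit 224))) (XT.nd (nat_lit 78) (nat_lit 0) (nat_lit 0) (XT.lf (nat_lit 0) (nat_lit 175607197501) (nat_lit 760) (nat_lit 171753713897) (nat_lit 836) (nat_lit 18795975710) (nat_lit 293) (nat_lit 5) (nat_lit 303) (nat_lit 5) (nat_lit 304) (nat_lit 5) (nat_lit 399) (nat_lit 398) (nat_lit 223)) (XT.lf (nat_lit 76) (nat_lit 127013530004) (nat_lit 0) (nat_lit 67361800923) (nat_lit 836) (nat_lit 186417465924) (nat_lit 294) (nat_lit 5) (nat_lit 293) (nat_lit 5) (nat_lit 304) (nat_lit 5) (nat_lit 400) (nat_lit 398) (nat_lit 222)))) (XT.nd (nat_lit 156) (nat_lit 0) (nat_lit 152) (XT.nd (nat_lit 78) (nat_lit 0) (nat_lit 76) (XT.lf (nat_lit 76) (nat_lit 57486680836) (nat_lit 0) (nat_lit 164766161831) (nat_lit 836)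 (nat_lit 173966340323) (nat_lit 295) (nat_lit 5) (nat_lit 294) (nat_lit 5) (nat_lit 305) (nat_lit 5) (nat_lit 401) (nat_lit 398) (nat_lit 221)) (XT.lf (nat_lit 0) (nat_lit 260141366111) (nat_lit 760) (nat_lit 13302629626) (nat_lit 836) (nat_lit 139046643745) (nat_lit 295) (nat_lit 5) (nat_lit 305) (nat_lit 5) (nat_lit 306) (nat_lit 5) (nat_lit 402) (nat_lit 398) (nat_lit 220))) (XT.nd (nat_lit 78) (nat_lit 0) (nat_lit 0) (XT.lf (nat_lit 0) (nat_lit 309829744439) (nat_lit 760) (nat_lit 83762991313) (nat_lit 836) (nat_lit 36032638091) (nat_lit 296) (nat_lit 5) (nat_lit 306) (nat_lit 5) (nat_lit 307) (nat_lit 5) (nat_lit 403) (nat_lit 398) (nat_lit 219)) (XT.lf (nat_lit 76) (nat_lit 290809431328) (nat_lit 0) (nat_lit 82070337992) (nat_lit 836) (nat_lit 74781788819) (nat_lit 297) (nat_lit 5) (nat_lit 296) (nat_lit 5) (nat_lit 307) (nat_lit 5) (nat_lit 404) (nat_lit 398) (nat_lit 218)))))))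
noncomputable def xc227 : XT := (XT.nd (nat_lit 1248) (nat_lit 2888) (nat_lit 0) (XT.nd (nat_lit 624) (nat_lit 2052) (nat_lit 0) (XT.nd (nat_lit 312) (nat_lit 988) (nat_lit 0) (XT.nd (nat_lit 156) (nat_lit 760) (nat_lit 0) (XT.nd (nat_lit 78) (nat_lit 532) (nat_lit 0) (XT.lf (nat_lit 0) (nat_lit 234790415185) (nat_lit 760) (nat_lit 215303565756) (nat_lit 836) (nat_lit 16590647000) (nat_lit 287) (nat_lit 5) (nat_lit 297) (nat_lit 5) (nat_lit 298) (nat_lit 5) (nat_lit 405) (nat_lit 398) (nat_lit 217)) (XT.lf (nat_lit 0) (nat_lit 53745118113) (nat_lit 532) (nat_lit 308966568509) (nat_lit 76) (nat_lit 124033257283) (nat_lit 280) (nat_lit 5) (nat_lit 287) (nat_lit 5) (nat_lit 281) (nat_lit 5) (nat_lit 406) (nat_lit 398) (nat_lit 216))) (XT.nd (nat_lit 78) (nat_lit 380) (nat_lit 0) (XT.lf (nat_lit 0) (nat_lit 120167194635) (nat_lit 380) (nat_lit 18579239964) (nat_lit 456) (nat_lit 369169054376) (nat_lit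 275) (nat_lit 5) (nat_lit 280) (nat_lit 5) (nat_lit 281) (nat_lit 5) (nat_lit 407) (nat_lit 398) (nat_lit 215)) (XT.lf (nat_lit 0) (nat_lit 60489304823) (nat_lit 380) (nat_lit 181985766330) (nat_lit 456) (nat_lit 287708245760) (nat_lit 270) (nat_lit 5) (nat_lit 275) (nat_lit 5) (nat_lit 276) (nat_lit 5) (nat_lit 408) (nat_lit 398) (nat_lit 214)))) (XT.nd (nat_lit 156) (nat_lit 684) (nat_lit 0) (XT.nd (nat_lit 78) (nat_lit 0) (nat_lit 0) (XT.lf (nat_lit 0) (nat_lit 1198914144) (nat_lit 304) (nat_lit 363452913588) (nat_lit 380) (nat_lit 189073251898) (nat_lit 266) (nat_lit 5) (nat_lit 270) (nat_lit 5) (nat_lit 271) (nat_lit 5) (nat_lit 409) (nat_lit 398) (nat_lit 213)) (XT.lf (nat_lit 0) (nat_lit 508046536943) (nat_lit 380) (nat_lit 55467338290) (nat_lit 76) (nat_lit 15064117527) (nat_lit 266) (nat_lit 5) (nat_lit 271) (nat_lit 5) (nat_lit 267) (nat_lit 5) (nat_lit 410) (nat_lit 398) (nat_lit 212)))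 (XT.nd (nat_lit 78) (nat_lit 304) (nat_lit 0) (XT.lf (nat_lit 0) (nat_lit 69673050980) (nat_lit 380) (nat_lit 114912386950) (nat_lit 76) (nat_lit 420087842935) (nat_lit 261) (nat_lit 5) (nat_lit 266) (nat_lit 5) (nat_lit 262) (nat_lit 5) (nat_lit 411) (nat_lit 398) (nat_lit 211)) (XT.lf (nat_lit 0) (nat_lit 230501909592) (nat_lit 380) (nat_lit 174707853711) (nat_lit 76) (nat_lit 226994662551) (nat_lit 257) (nat_lit 5) (nat_lit 262) (nat_lit 5) (nat_lit 258) (nat_lit 5) (nat_lit 412) (nat_lit 398) (nat_lit 210))))) (XT.nd (nat_lit 312) (nat_lit 912) (nat_lit 0) (XT.nd (nat_lit 156) (nat_lit 608) (nat_lit 0) (XT.nd (nat_lit 78) (nat_lit 228) (nat_lit 0) (XT.lf (nat_lit 0) (nat_lit 416229776580) (nat_lit 380) (nat_lit 233007121327) (nat_lit 76) (nat_lit 12099529551) (nat_lit 253) (nat_lit 5) (nat_lit 258) (nat_lit 5) (nat_lit 254) (nat_lit 5) (nat_lit 413) (nat_lit 398) (nat_lit 209)) (XT.lf (nat_lit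 0) (nat_lit 399092309310) (nat_lit 228) (nat_lit 233880243718) (nat_lit 304) (nat_lit 59018602157) (nat_lit 250) (nat_lit 5) (nat_lit 253) (nat_lit 5) (nat_lit 254) (nat_lit 5) (nat_lit 414) (nat_lit 398) (nat_lit 208))) (XT.nd (nat_lit 78) (nat_lit 228) (nat_lit 0) (XT.lf (nat_lit 0) (nat_lit 150943657501) (nat_lit 380) (nat_lit 353139333946) (nat_lit 76) (nat_lit 220227919687) (nat_lit 245) (nat_lit 5) (nat_lit 250) (nat_lit 5) (nat_lit 246) (nat_lit 5) (nat_lit 415) (nat_lit 398) (nat_lit 207)) (XT.lf (nat_lit 0) (nat_lit 345914752796) (nat_lit 228) (nat_lit 44278129684) (nat_lit 304) (nat_lit 368247103733) (nat_lit 242) (nat_lit 5) (nat_lit 245) (nat_lit 5) (nat_lit 246) (nat_lit 5) (nat_lit 416) (nat_lit 398) (nat_lit 206)))) (XT.nd (nat_lit 156) (nat_lit 380) (nat_lit 0) (XT.nd (nat_lit 78) (nat_lit 304) (nat_lit 0) (XT.lf (nat_lit 0) (nat_lit 321643720279) (nat_lit 228) (nat_lit 345274202283)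 (nat_lit 304) (nat_lit 127464670881) (nat_lit 239) (nat_lit 5) (nat_lit 242) (nat_lit 5) (nat_lit 243) (nat_lit 5) (nat_lit 417) (nat_lit 398) (nat_lit 205)) (XT.lf (nat_lit 0) (nat_lit 143651761167) (nat_lit 304) (nat_lit 531782398320) (nat_lit 76) (nat_lit 156897212018) (nat_lit 235) (nat_lit 5) (nat_lit 239) (nat_lit 5) (nat_lit 236) (nat_lit 5) (nat_lit 418) (nat_lit 398) (nat_lit 204))) (XT.nd (nat_lit 78) (nat_lit 152) (nat_lit 0) (XT.lf (nat_lit 0) (nat_lit 280549959507) (nat_lit 228) (nat_lit 170073409860) (nat_lit 304) (nat_lit 421656623072) (nat_lit 232) (nat_lit 5) (nat_lit 235) (nat_lit 5) (nat_lit 236) (nat_lit 5) (nat_lit 419) (nat_lit 398) (nat_lit 203)) (XT.lf (nat_lit 0) (nat_lit 264339995354) (nat_lit 152) (nat_lit 537220919257) (nat_lit 228) (nat_lit 112893178016) (nat_lit 230) (nat_lit 5) (nat_lit 232) (nat_lit 5) (nat_lit 233) (nat_lit 5) (nat_lit 420) (nat_lit 398) (nat_lit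 202)))))) (XT.nd (nat_lit 624) (nat_lit 1368) (nat_lit 0) (XT.nd (nat_lit 312) (nat_lit 684) (nat_lit 0) (XT.nd (nat_lit 156) (nat_lit 380) (nat_lit 0) (XT.nd (nat_lit 78) (nat_lit 152) (nat_lit 0) (XT.lf (nat_lit 0) (nat_lit 231125487928) (nat_lit 304) (nat_lit 707170459106) (nat_lit 76) (nat_lit 20653296668) (nat_lit 226) (nat_lit 5) (nat_lit 230) (nat_lit 5) (nat_lit 227) (nat_lit 5) (nat_lit 421) (nat_lit 398) (nat_lit 201)) (XT.lf (nat_lit 0) (nat_lit 239105761523) (nat_lit 152) (nat_lit 383959365471) (nat_lit 228) (nat_lit 382628609134) (nat_lit 224) (nat_lit 5) (nat_lit 226) (nat_lit 5) (nat_lit 227) (nat_lit 5) (nat_lit 422) (nat_lit 398) (nat_lit 200))) (XT.nd (nat_lit 78) (nat_lit 152) (nat_lit 0) (XT.lf (nat_lit 0) (nat_lit 10354337318) (nat_lit 228) (nat_lit 820634352985) (nat_lit 76) (nat_lit 224203864075) (nat_lit 221) (nat_lit 5) (nat_lit 224) (nat_lit 5) (nat_lit 222) (nat_lit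 5) (nat_lit 423) (nat_lit 398) (nat_lit 199)) (XT.lf (nat_lit 0) (nat_lit 229383768573) (nat_lit 152) (nat_lit 215793859881) (nat_lit 228) (nat_lit 661969662049) (nat_lit 219) (nat_lit 5) (nat_lit 221) (nat_lit 5) (nat_lit 222) (nat_lit 5) (nat_lit 424) (nat_lit 398) (nat_lit 198)))) (XT.nd (nat_lit 156) (nat_lit 304) (nat_lit 0) (XT.nd (nat_lit 78) (nat_lit 228) (nat_lit 0) (XT.lf (nat_lit 0) (nat_lit 230296658096) (nat_lit 152) (nat_lit 709619104976) (nat_lit 228) (nat_lit 222086193436) (nat_lit 217) (nat_lit 5) (nat_lit 219) (nat_lit 5) (nat_lit 220) (nat_lit 5) (nat_lit 425) (nat_lit 398) (nat_lit 197)) (XT.lf (nat_lit 0) (nat_lit 237632307974) (nat_lit 152) (nat_lit 30147945448) (nat_lit 228) (nat_lit 952122775066) (nat_lit 214) (nat_lit 5) (nat_lit 216) (nat_lit 5) (nat_lit 217) (nat_lit 5) (nat_lit 426) (nat_lit 398) (nat_lit 196))) (XT.nd (nat_lit 78) (nat_lit 152) (nat_lit 0) (XT.lf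 (nat_lit 0) (nat_lit 245007584468) (nat_lit 152) (nat_lit 575459066596) (nat_lit 228) (nat_lit 460216924627) (nat_lit 212) (nat_lit 5) (nat_lit 214) (nat_lit 5) (nat_lit 215) (nat_lit 5) (nat_lit 427) (nat_lit 398) (nat_lit 195)) (XT.lf (nat_lit 0) (nat_lit 93577096614) (nat_lit 152) (nat_lit 1081201833146) (nat_lit 76) (nat_lit 170251705596) (nat_lit 210) (nat_lit 5) (nat_lit 212) (nat_lit 5) (nat_lit 211) (nat_lit 5) (nat_lit 428) (nat_lit 398) (nat_lit 194))))) (XT.nd (nat_lit 312) (nat_lit 836) (nat_lit 0) (XT.nd (nat_lit 156) (nat_lit 304) (nat_lit 0) (XT.nd (nat_lit 78) (nat_lit 76) (nat_lit 0) (XT.lf (nat_lit 0) (nat_lit 281918184184) (nat_lit 152) (nat_lit 426289618104) (nat_lit 228) (nat_lit 704307584420) (nat_lit 208) (nat_lit 5) (nat_lit 210) (nat_lit 5) (nat_lit 211) (nat_lit 5) (nat_lit 429) (nat_lit 398) (nat_lit 193)) (XT.lf (nat_lit 0) (nat_lit 311950194042) (nat_lit 76) (nat_lit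 1090037080264) (nat_lit 152) (nat_lit 81912728369) (nat_lit 207) (nat_lit 5) (nat_lit 208) (nat_lit 5) (nat_lit 209) (nat_lit 4) (nat_lit 430) (nat_lit 398) (nat_lit 192))) (XT.nd (nat_lit 78) (nat_lit 76) (nat_lit 0) (XT.lf (nat_lit 0) (nat_lit 344565479191) (nat_lit 152) (nat_lit 259400559379) (nat_lit 228) (nat_lit 954939319618) (nat_lit 204) (nat_lit 5) (nat_lit 206) (nat_lit 5) (nat_lit 207) (nat_lit 5) (nat_lit 431) (nat_lit 398) (nat_lit 191)) (XT.lf (nat_lit 0) (nat_lit 386045417769) (nat_lit 76) (nat_lit 992570821275) (nat_lit 152) (nat_lit 259389213759) (nat_lit 203) (nat_lit 5) (nat_lit 204) (nat_lit 5) (nat_lit 205) (nat_lit 4) (nat_lit 432) (nat_lit 398) (nat_lit 190)))) (XT.nd (nat_lit 156) (nat_lit 532) (nat_lit 0) (XT.nd (nat_lit 78) (nat_lit 76) (nat_lit 0) (XT.lf (nat_lit 0) (nat_lit 437038045116) (nat_lit 152) (nat_lit 71723154787) (nat_lit 228) (nat_lit 1212653576069) (nat_lit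 200) (nat_lit 5) (nat_lit 202) (nat_lit 5) (nat_lit 203) (nat_lit 5) (nat_lit 433) (nat_lit 398) (nat_lit 189)) (XT.lf (nat_lit 0) (nat_lit 492067161045) (nat_lit 76) (nat_lit 881586000505) (nat_lit 152) (nat_lit 435412206865) (nat_lit 199) (nat_lit 5) (nat_lit 200) (nat_lit 5) (nat_lit 201) (nat_lit 4) (nat_lit 434) (nat_lit 398) (nat_lit 188))) (XT.nd (nat_lit 78) (nat_lit 304) (nat_lit 0) (XT.lf (nat_lit 0) (nat_lit 426022444263) (nat_lit 228) (nat_lit 1339912881270) (nat_lit 76) (nat_lit 135730059167) (nat_lit 196) (nat_lit 5) (nat_lit 199) (nat_lit 5) (nat_lit 197) (nat_lit 4) (nat_lit 435) (nat_lit 398) (nat_lit 187)) (XT.nd (nat_lit 78) (nat_lit 228) (nat_lit 0) (XT.lf (nat_lit 0) (nat_lit 635048934915) (nat_lit 76) (nat_lit 754369524331) (nat_lit 152) (nat_lit 609482982064) (nat_lit 195) (nat_lit 5) (nat_lit 196) (nat_lit 5) (nat_lit 197) (nat_lit 4) (nat_lit 436) (nat_lit 398) (nat_lit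 186)) (XT.lf (nat_lit 0) (nat_lit 356611657238) (nat_lit 228) (nat_lit 1376811740752) (nat_lit 76) (nat_lit 368184771741) (nat_lit 192) (nat_lit 5) (nat_lit 195) (nat_lit 5) (nat_lit 193) (nat_lit 4) (nat_lit 437) (nat_lit 398) (nat_lit 185))))))))
noncomputable def xc228 : XT := (XT.nd (nat_lit 50856) (nat_lit 0) (nat_lit 2888) (XT.nd (nat_lit 50232) (nat_lit 0) (nat_lit 6992) (XT.nd (nat_lit 312) (nat_lit 228) (nat_lit 0) (XT.nd (nat_lit 156) (nat_lit 228) (nat_lit 0) (XT.nd (nat_lit 78) (nat_lit 152) (nat_lit 0) (XT.lf (nat_lit 0) (nat_lit 820779995719) (nat_lit 76) (nat_lit 607827636316) (nat_lit 152) (nat_lit 780925874216) (nat_lit 191) (nat_lit 5) (nat_lit 192) (nat_lit 5) (nat_lit 193) (nat_lit 4) (nat_lit 438) (nat_lit 398) (nat_lit 184)) (XT.lf (nat_lit 0) (nat_lit 301255907367) (nat_lit 152) (nat_lit 1389916495554) (nat_lit 76) (nat_lit 632251500698) (nat_lit 189) (nat_lit 5) (nat_lit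 191) (nat_lit 5) (nat_lit 190) (nat_lit 4) (nat_lit 439) (nat_lit 398) (nat_lit 183))) (XT.nd (nat_lit 78) (nat_lit 152) (nat_lit 0) (XT.lf (nat_lit 0) (nat_lit 1055907270475) (nat_lit 76) (nat_lit 438433405534) (nat_lit 152) (nat_lit 948860339434) (nat_lit 188) (nat_lit 5) (nat_lit 189) (nat_lit 5) (nat_lit 190) (nat_lit 4) (nat_lit 440) (nat_lit 398) (nat_lit 182)) (XT.lf (nat_lit 0) (nat_lit 262137635573) (nat_lit 152) (nat_lit 1374514155946) (nat_lit 76) (nat_lit 932816476722) (nat_lit 186) (nat_lit 5) (nat_lit 188) (nat_lit 5) (nat_lit 187) (nat_lit 4) (nat_lit 441) (nat_lit 398) (nat_lit 181)))) (XT.nd (nat_lit 49764) (nat_lit 0) (nat_lit 8284) (XT.nd (nat_lit 78) (nat_lit 152) (nat_lit 0) (XT.lf (nat_lit 0) (nat_lit 1348050542472) (nat_lit 76) (nat_lit 242167437651) (nat_lit 152) (nat_lit 1112168867975) (nat_lit 185) (nat_lit 5) (nat_lit 186) (nat_lit 5) (nat_lit 187) (nat_lit 4) (nat_lit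 442) (nat_lit 398) (nat_lit 180)) (XT.lf (nat_lit 0) (nat_lit 241821645493) (nat_lit 152) (nat_lit 1325119268743) (nat_lit 76) (nat_lit 1275411957733) (nat_lit 183) (nat_lit 5) (nat_lit 185) (nat_lit 5) (nat_lit 184) (nat_lit 4) (nat_lit 443) (nat_lit 398) (nat_lit 179))) (XT.nd (nat_lit 78) (nat_lit 0) (nat_lit 76) (XT.lf (nat_lit 0) (nat_lit 89445084028) (nat_lit 836) (nat_lit 50380808467) (nat_lit 836) (nat_lit 50380808467) (nat_lit 292) (nat_lit 3) (nat_lit 303) (nat_lit 3) (nat_lit 303) (nat_lit 5) (nat_lit 399) (nat_lit 399) (nat_lit 222)) (XT.lf (nat_lit 0) (nat_lit 189657250060) (nat_lit 760) (nat_lit 185493125920) (nat_lit 836) (nat_lit 20298988260) (nat_lit 293) (nat_lit 5) (nat_lit 303) (nat_lit 5) (nat_lit 304) (nat_lit 5) (nat_lit 400) (nat_lit 399) (nat_lit 221))))) (XT.nd (nat_lit 312) (nat_lit 1368) (nat_lit 0) (XT.nd (nat_lit 156) (nat_lit 0) (nat_lit 152) (XT.nd (nat_lit 78)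 (nat_lit 0) (nat_lit 76) (XT.lf (nat_lit 76) (nat_lit 137175459029) (nat_lit 0) (nat_lit 72751278959) (nat_lit 836) (nat_lit 201329413581) (nat_lit 294) (nat_lit 5) (nat_lit 293) (nat_lit 5) (nat_lit 304) (nat_lit 5) (nat_lit 401) (nat_lit 399) (nat_lit 220)) (XT.lf (nat_lit 76) (nat_lit 62086499138) (nat_lit 0) (nat_lit 177947855344) (nat_lit 836) (nat_lit 187882298927) (nat_lit 295) (nat_lit 5) (nat_lit 294) (nat_lit 5) (nat_lit 305) (nat_lit 5) (nat_lit 402) (nat_lit 399) (nat_lit 219))) (XT.nd (nat_lit 78) (nat_lit 0) (nat_lit 76) (XT.lf (nat_lit 0) (nat_lit 280953858870) (nat_lit 760) (nat_lit 14365956377) (nat_lit 836) (nat_lit 150170016220) (nat_lit 295) (nat_lit 5) (nat_lit 305) (nat_lit 5) (nat_lit 306) (nat_lit 5) (nat_lit 403) (nat_lit 399) (nat_lit 218)) (XT.lf (nat_lit 0) (nat_lit 334617228878) (nat_lit 760) (nat_lit 90463125831) (nat_lit 836) (nat_lit 38914993798) (nat_lit 296)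 (nat_lit 5) (nat_lit 306) (nat_lit 5) (nat_lit 307) (nat_lit 5) (nat_lit 404) (nat_lit 399) (nat_lit 217)))) (XT.nd (nat_lit 156) (nat_lit 912) (nat_lit 0) (XT.nd (nat_lit 78) (nat_lit 684) (nat_lit 0) (XT.lf (nat_lit 76) (nat_lit 314075051300) (nat_lit 0) (nat_lit 88636136118) (nat_lit 836) (nat_lit 80763243544) (nat_lit 297) (nat_lit 5) (nat_lit 296) (nat_lit 5) (nat_lit 307) (nat_lit 5) (nat_lit 405) (nat_lit 399) (nat_lit 216)) (XT.lf (nat_lit 0) (nat_lit 253574528384) (nat_lit 760) (nat_lit 232527942069) (nat_lit 836) (nat_lit 17916879171) (nat_lit 287) (nat_lit 5) (nat_lit 297) (nat_lit 5) (nat_lit 298) (nat_lit 5) (nat_lit 406) (nat_lit 399) (nat_lit 215))) (XT.nd (nat_lit 78) (nat_lit 380) (nat_lit 0) (XT.lf (nat_lit 0) (nat_lit 58045654188) (nat_lit 532) (nat_lit 333682973808) (nat_lit 76) (nat_lit 133955865090) (nat_lit 280) (nat_lit 5) (nat_lit 287) (nat_lit 5) (nat_lit 281) (nat_lit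 5) (nat_lit 407) (nat_lit 399) (nat_lit 214)) (XT.lf (nat_lit 0) (nat_lit 129781450397) (nat_lit 380) (nat_lit 20065570699) (nat_lit 456) (nat_lit 398701663410) (nat_lit 275) (nat_lit 5) (nat_lit 280) (nat_lit 5) (nat_lit 281) (nat_lit 5) (nat_lit 408) (nat_lit 399) (nat_lit 213)))))) (XT.nd (nat_lit 624) (nat_lit 1824) (nat_lit 0) (XT.nd (nat_lit 312) (nat_lit 1216) (nat_lit 0) (XT.nd (nat_lit 156) (nat_lit 380) (nat_lit 0) (XT.nd (nat_lit 78) (nat_lit 304) (nat_lit 0) (XT.lf (nat_lit 0) (nat_lit 65329332714) (nat_lit 380) (nat_lit 196544565204) (nat_lit 456) (nat_lit 310724043294) (nat_lit 270) (nat_lit 5) (nat_lit 275) (nat_lit 5) (nat_lit 276) (nat_lit 5) (nat_lit 409) (nat_lit 399) (nat_lit 212)) (XT.lf (nat_lit 0) (nat_lit 1295710721) (nat_lit 304) (nat_lit 392529038177) (nat_lit 380) (nat_lit 204198298354) (nat_lit 266) (nat_lit 5) (nat_lit 270) (nat_lit 5) (nat_lit 271) (nat_lit 5) (nat_lit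 410) (nat_lit 399) (nat_lit 211))) (XT.nd (nat_lit 78) (nat_lit 380) (nat_lit 0) (XT.lf (nat_lit 0) (nat_lit 548690979011) (nat_lit 380) (nat_lit 59903873039) (nat_lit 76) (nat_lit 16269344175) (nat_lit 266) (nat_lit 5) (nat_lit 271) (nat_lit 5) (nat_lit 267) (nat_lit 5) (nat_lit 411) (nat_lit 399) (nat_lit 210)) (XT.lf (nat_lit 0) (nat_lit 75247584757) (nat_lit 380) (nat_lit 124104539827) (nat_lit 76) (nat_lit 453694984265) (nat_lit 261) (nat_lit 5) (nat_lit 266) (nat_lit 5) (nat_lit 262) (nat_lit 5) (nat_lit 412) (nat_lit 399) (nat_lit 209)))) (XT.nd (nat_lit 156) (nat_lit 608) (nat_lit 0) (XT.nd (nat_lit 78) (nat_lit 304) (nat_lit 0) (XT.lf (nat_lit 0) (nat_lit 248942715835) (nat_lit 380) (nat_lit 188683650145) (nat_lit 76) (nat_lit 245154381269) (nat_lit 257) (nat_lit 5) (nat_lit 262) (nat_lit 5) (nat_lit 258) (nat_lit 5) (nat_lit 413) (nat_lit 399) (nat_lit 208)) (XT.lf (nat_lit 0) (nat_lit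 449528778982) (nat_lit 380) (nat_lit 251646867230) (nat_lit 76) (nat_lit 13067664429) (nat_lit 253) (nat_lit 5) (nat_lit 258) (nat_lit 5) (nat_lit 254) (nat_lit 5) (nat_lit 414) (nat_lit 399) (nat_lit 207))) (XT.nd (nat_lit 78) (nat_lit 380) (nat_lit 0) (XT.lf (nat_lit 0) (nat_lit 431020482057) (nat_lit 228) (nat_lit 252590461846) (nat_lit 304) (nat_lit 63739474366) (nat_lit 250) (nat_lit 5) (nat_lit 253) (nat_lit 5) (nat_lit 254) (nat_lit 5) (nat_lit 415) (nat_lit 399) (nat_lit 206)) (XT.lf (nat_lit 0) (nat_lit 163019717501) (nat_lit 380) (nat_lit 381389683096) (nat_lit 76) (nat_lit 237846355059) (nat_lit 245) (nat_lit 5) (nat_lit 250) (nat_lit 5) (nat_lit 246) (nat_lit 5) (nat_lit 416) (nat_lit 399) (nat_lit 205))))) (XT.nd (nat_lit 312) (nat_lit 836) (nat_lit 0) (XT.nd (nat_lit 156) (nat_lit 532) (nat_lit 0) (XT.nd (nat_lit 78) (nat_lit 228) (nat_lit 0) (XT.lf (nat_lit 0) (nat_lit 373588695925)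 (nat_lit 228) (nat_lit 47820154435) (nat_lit 304) (nat_lit 397706307886) (nat_lit 242) (nat_lit 5) (nat_lit 245) (nat_lit 5) (nat_lit 246) (nat_lit 5) (nat_lit 417) (nat_lit 399) (nat_lit 204)) (XT.lf (nat_lit 0) (nat_lit 347375969978) (nat_lit 228) (nat_lit 372895898875) (nat_lit 304) (nat_lit 137661306440) (nat_lit 239) (nat_lit 5) (nat_lit 242) (nat_lit 5) (nat_lit 243) (nat_lit 5) (nat_lit 418) (nat_lit 399) (nat_lit 203))) (XT.nd (nat_lit 78) (nat_lit 228) (nat_lit 0) (XT.lf (nat_lit 0) (nat_lit 155144399633) (nat_lit 304) (nat_lit 574324233408) (nat_lit 76) (nat_lit 169449223306) (nat_lit 235) (nat_lit 5) (nat_lit 239) (nat_lit 5) (nat_lit 236) (nat_lit 5) (nat_lit 419) (nat_lit 399) (nat_lit 202)) (XT.lf (nat_lit 0) (nat_lit 302994680157) (nat_lit 228) (nat_lit 183679030776) (nat_lit 304) (nat_lit 455388657300) (nat_lit 232) (nat_lit 5) (nat_lit 235) (nat_lit 5) (nat_lit 236) (nat_lit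 5) (nat_lit 420) (nat_lit 399) (nat_lit 201)))) (XT.nd (nat_lit 156) (nat_lit 380) (nat_lit 0) (XT.nd (nat_lit 78) (nat_lit 304) (nat_lit 0) (XT.lf (nat_lit 0) (nat_lit 285487906225) (nat_lit 152) (nat_lit 580198333353) (nat_lit 228) (nat_lit 121924157869) (nat_lit 230) (nat_lit 5) (nat_lit 232) (nat_lit 5) (nat_lit 233) (nat_lit 5) (nat_lit 421) (nat_lit 399) (nat_lit 200)) (XT.lf (nat_lit 0) (nat_lit 249615967041) (nat_lit 304) (nat_lit 763743383217) (nat_lit 76) (nat_lit 22305810937) (nat_lit 226) (nat_lit 5) (nat_lit 230) (nat_lit 5) (nat_lit 227) (nat_lit 5) (nat_lit 422) (nat_lit 399) (nat_lit 199))) (XT.nd (nat_lit 78) (nat_lit 228) (nat_lit 0) (XT.lf (nat_lit 0) (nat_lit 258234904094) (nat_lit 152) (nat_lit 414675851183) (nat_lit 228) (nat_lit 413238458835) (nat_lit 224) (nat_lit 5) (nat_lit 226) (nat_lit 5) (nat_lit 227) (nat_lit 5) (nat_lit 423) (nat_lit 399) (nat_lit 198)) (XT.lf (nat_lit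 0) (nat_lit 11183092275) (nat_lit 228) (nat_lit 886284419648) (nat_lit 76) (nat_lit 242140426407) (nat_lit 221) (nat_lit 5) (nat_lit 224) (nat_lit 5) (nat_lit 222) (nat_lit 5) (nat_lit 424) (nat_lit 399) (nat_lit 197)))))))
noncomputable def xc229 : XT := (XT.nd (nat_lit 1248) (nat_lit 304) (nat_lit 0) (XT.nd (nat_lit 624) (nat_lit 1140) (nat_lit 0) (XT.nd (nat_lit 312) (nat_lit 608) (nat_lit 0) (XT.nd (nat_lit 156) (nat_lit 380) (nat_lit 0) (XT.nd (nat_lit 78) (nat_lit 152) (nat_lit 0) (XT.lf (nat_lit 0) (nat_lit 247735122015) (nat_lit 152) (nat_lit 233057104646) (nat_lit 228) (nat_lit 714926827686) (nat_lit 219) (nat_lit 5) (nat_lit 221) (nat_lit 5) (nat_lit 222) (nat_lit 5) (nat_lit 425) (nat_lit 399) (nat_lit 196)) (XT.lf (nat_lit 0) (nat_lit 248721028978) (nat_lit 152) (nat_lit 766388368117) (nat_lit 228) (nat_lit 239852697285) (nat_lit 217) (nat_lit 5) (nat_lit 219) (nat_lit 5) (nat_lit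 220) (nat_lit 5) (nat_lit 426) (nat_lit 399) (nat_lit 195))) (XT.nd (nat_lit 78) (nat_lit 152) (nat_lit 0) (XT.lf (nat_lit 0) (nat_lit 256643515098) (nat_lit 152) (nat_lit 32559519327) (nat_lit 228) (nat_lit 1028292218306) (nat_lit 214) (nat_lit 5) (nat_lit 216) (nat_lit 5) (nat_lit 217) (nat_lit 5) (nat_lit 427) (nat_lit 399) (nat_lit 194)) (XT.lf (nat_lit 0) (nat_lit 264608800002) (nat_lit 152) (nat_lit 621495530444) (nat_lit 228) (nat_lit 497033913935) (nat_lit 212) (nat_lit 5) (nat_lit 214) (nat_lit 5) (nat_lit 215) (nat_lit 5) (nat_lit 428) (nat_lit 399) (nat_lit 193)))) (XT.nd (nat_lit 156) (nat_lit 304) (nat_lit 0) (XT.nd (nat_lit 78) (nat_lit 152) (nat_lit 0) (XT.lf (nat_lit 0) (nat_lit 101063604470) (nat_lit 152) (nat_lit 1167697373526) (nat_lit 76) (nat_lit 183872091182) (nat_lit 210) (nat_lit 5) (nat_lit 212) (nat_lit 5) (nat_lit 211) (nat_lit 5) (nat_lit 429) (nat_lit 399) (nat_lit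 192)) (XT.lf (nat_lit 0) (nat_lit 304472218843) (nat_lit 152) (nat_lit 460392531615) (nat_lit 228) (nat_lit 760651850988) (nat_lit 208) (nat_lit 5) (nat_lit 210) (nat_lit 5) (nat_lit 211) (nat_lit 5) (nat_lit 430) (nat_lit 399) (nat_lit 191))) (XT.nd (nat_lit 78) (nat_lit 228) (nat_lit 0) (XT.lf (nat_lit 0) (nat_lit 336906775959) (nat_lit 76) (nat_lit 1177239792821) (nat_lit 152) (nat_lit 88465418481) (nat_lit 207) (nat_lit 5) (nat_lit 208) (nat_lit 5) (nat_lit 209) (nat_lit 4) (nat_lit 431) (nat_lit 399) (nat_lit 190)) (XT.lf (nat_lit 0) (nat_lit 372131269352) (nat_lit 152) (nat_lit 280152355043) (nat_lit 228) (nat_lit 1031334147311) (nat_lit 204) (nat_lit 5) (nat_lit 206) (nat_lit 5) (nat_lit 207) (nat_lit 5) (nat_lit 432) (nat_lit 399) (nat_lit 189))))) (XT.nd (nat_lit 312) (nat_lit 532) (nat_lit 0) (XT.nd (nat_lit 156) (nat_lit 304) (nat_lit 0) (XT.nd (nat_lit 78) (nat_lit 228) (nat_lit 0)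 (XT.lf (nat_lit 0) (nat_lit 416929589795) (nat_lit 76) (nat_lit 1071976240698) (nat_lit 152) (nat_lit 280140043919) (nat_lit 203) (nat_lit 5) (nat_lit 204) (nat_lit 5) (nat_lit 205) (nat_lit 4) (nat_lit 433) (nat_lit 399) (nat_lit 188)) (XT.lf (nat_lit 0) (nat_lit 472001613319) (nat_lit 152) (nat_lit 77460765875) (nat_lit 228) (nat_lit 1309665564691) (nat_lit 200) (nat_lit 5) (nat_lit 202) (nat_lit 5) (nat_lit 203) (nat_lit 5) (nat_lit 434) (nat_lit 399) (nat_lit 187))) (XT.nd (nat_lit 78) (nat_lit 228) (nat_lit 0) (XT.lf (nat_lit 0) (nat_lit 531433045669) (nat_lit 76) (nat_lit 952112642595) (nat_lit 152) (nat_lit 470244895933) (nat_lit 199) (nat_lit 5) (nat_lit 200) (nat_lit 5) (nat_lit 201) (nat_lit 4) (nat_lit 435) (nat_lit 399) (nat_lit 186)) (XT.lf (nat_lit 0) (nat_lit 460104508886) (nat_lit 228) (nat_lit 1447105403832) (nat_lit 76) (nat_lit 146588689304) (nat_lit 196) (nat_lit 5) (nat_lit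 199) (nat_lit 5) (nat_lit 197) (nat_lit 4) (nat_lit 436) (nat_lit 399) (nat_lit 185)))) (XT.nd (nat_lit 156) (nat_lit 228) (nat_lit 0) (XT.nd (nat_lit 78) (nat_lit 228) (nat_lit 0) (XT.lf (nat_lit 0) (nat_lit 685853335574) (nat_lit 76) (nat_lit 814718857148) (nat_lit 152) (nat_lit 658241351057) (nat_lit 195) (nat_lit 5) (nat_lit 196) (nat_lit 5) (nat_lit 197) (nat_lit 4) (nat_lit 437) (nat_lit 399) (nat_lit 184)) (XT.lf (nat_lit 0) (nat_lit 385140842314) (nat_lit 228) (nat_lit 1486956198056) (nat_lit 76) (nat_lit 397639770313) (nat_lit 192) (nat_lit 5) (nat_lit 195) (nat_lit 5) (nat_lit 193) (nat_lit 4) (nat_lit 438) (nat_lit 399) (nat_lit 183))) (XT.nd (nat_lit 78) (nat_lit 152) (nat_lit 0) (XT.lf (nat_lit 0) (nat_lit 886442856387) (nat_lit 76) (nat_lit 656453627203) (nat_lit 152) (nat_lit 843399691113) (nat_lit 191) (nat_lit 5) (nat_lit 192) (nat_lit 5) (nat_lit 193) (nat_lit 4) (nat_lit 439)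 (nat_lit 399) (nat_lit 182)) (XT.lf (nat_lit 0) (nat_lit 325356617116) (nat_lit 152) (nat_lit 1501109358141) (nat_lit 76) (nat_lit 682831828793) (nat_lit 189) (nat_lit 5) (nat_lit 191) (nat_lit 5) (nat_lit 190) (nat_lit 4) (nat_lit 440) (nat_lit 399) (nat_lit 181)))))) (XT.nd (nat_lit 50310) (nat_lit 0) (nat_lit 5776) (XT.nd (nat_lit 49998) (nat_lit 0) (nat_lit 8208) (XT.nd (nat_lit 156) (nat_lit 76) (nat_lit 0) (XT.nd (nat_lit 78) (nat_lit 152) (nat_lit 0) (XT.lf (nat_lit 0) (nat_lit 1140380289307) (nat_lit 76) (nat_lit 473507867201) (nat_lit 152) (nat_lit 1024768928850) (nat_lit 188) (nat_lit 5) (nat_lit 189) (nat_lit 5) (nat_lit 190) (nat_lit 4) (nat_lit 441) (nat_lit 399) (nat_lit 180)) (XT.lf (nat_lit 0) (nat_lit 283108869357) (nat_lit 152) (nat_lit 1484474855175) (nat_lit 76) (nat_lit 1007441994021) (nat_lit 186) (nat_lit 5) (nat_lit 188) (nat_lit 5) (nat_lit 187) (nat_lit 4) (nat_lit 442)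 (nat_lit 399) (nat_lit 179))) (XT.nd (nat_lit 49764) (nat_lit 0) (nat_lit 8132) (XT.lf (nat_lit 0) (nat_lit 1455895000289) (nat_lit 76) (nat_lit 261540631139) (nat_lit 152) (nat_lit 1201142153874) (nat_lit 185) (nat_lit 5) (nat_lit 186) (nat_lit 5) (nat_lit 187) (nat_lit 4) (nat_lit 443) (nat_lit 399) (nat_lit 178)) (XT.lf (nat_lit 0) (nat_lit 96601373622) (nat_lit 836) (nat_lit 54410914637) (nat_lit 836) (nat_lit 54410914637) (nat_lit 292) (nat_lit 3) (nat_lit 303) (nat_lit 3) (nat_lit 303) (nat_lit 5) (nat_lit 400) (nat_lit 400) (nat_lit 220)))) (XT.nd (nat_lit 156) (nat_lit 0) (nat_lit 76) (XT.nd (nat_lit 78) (nat_lit 0) (nat_lit 0) (XT.lf (nat_lit 0) (nat_lit 204831096148) (nat_lit 760) (nat_lit 200331817172) (nat_lit 836) (nat_lit 21922336755) (nat_lit 293) (nat_lit 5) (nat_lit 303) (nat_lit 5) (nat_lit 304) (nat_lit 5) (nat_lit 401) (nat_lit 400) (nat_lit 219)) (XT.lf (nat_lit 76) (nat_lit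 148150221596) (nat_lit 0) (nat_lit 78571839063) (nat_lit 836) (nat_lit 217434523854) (nat_lit 294) (nat_lit 5) (nat_lit 293) (nat_lit 5) (nat_lit 304) (nat_lit 5) (nat_lit 402) (nat_lit 400) (nat_lit 218))) (XT.nd (nat_lit 78) (nat_lit 0) (nat_lit 76) (XT.lf (nat_lit 76) (nat_lit 67054176815) (nat_lit 0) (nat_lit 192184027193) (nat_lit 836) (nat_lit 202911726616) (nat_lit 295) (nat_lit 5) (nat_lit 294) (nat_lit 5) (nat_lit 305) (nat_lit 5) (nat_lit 403) (nat_lit 400) (nat_lit 217)) (XT.lf (nat_lit 0) (nat_lit 303431182215) (nat_lit 760) (nat_lit 15514475325) (nat_lit 836) (nat_lit 162183309712) (nat_lit 295) (nat_lit 5) (nat_lit 305) (nat_lit 5) (nat_lit 306) (nat_lit 5) (nat_lit 404) (nat_lit 400) (nat_lit 216))))) (XT.nd (nat_lit 312) (nat_lit 1444) (nat_lit 0) (XT.nd (nat_lit 156) (nat_lit 1216) (nat_lit 0) (XT.nd (nat_lit 78) (nat_lit 0) (nat_lit 0) (XT.lf (nat_lit 0) (nat_lit 361387554448)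 (nat_lit 760) (nat_lit 97699400188) (nat_lit 836) (nat_lit 42027974388) (nat_lit 296) (nat_lit 5) (nat_lit 306) (nat_lit 5) (nat_lit 307) (nat_lit 5) (nat_lit 405) (nat_lit 400) (nat_lit 215)) (XT.lf (nat_lit 76) (nat_lit 339201797402) (nat_lit 0) (nat_lit 95727173687) (nat_lit 836) (nat_lit 87223369917) (nat_lit 297) (nat_lit 5) (nat_lit 296) (nat_lit 5) (nat_lit 307) (nat_lit 5) (nat_lit 406) (nat_lit 400) (nat_lit 214))) (XT.nd (nat_lit 78) (nat_lit 532) (nat_lit 0) (XT.lf (nat_lit 0) (nat_lit 273861245099) (nat_lit 760) (nat_lit 251130255497) (nat_lit 836) (nat_lit 19349355372) (nat_lit 287) (nat_lit 5) (nat_lit 297) (nat_lit 5) (nat_lit 298) (nat_lit 5) (nat_lit 407) (nat_lit 400) (nat_lit 213)) (XT.lf (nat_lit 0) (nat_lit 62690100955) (nat_lit 532) (nat_lit 360376822806) (nat_lit 76) (nat_lit 144672289051) (nat_lit 280) (nat_lit 5) (nat_lit 287) (nat_lit 5) (nat_lit 281) (nat_lit 5) (nat_lit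 408) (nat_lit 400) (nat_lit 212)))) (XT.nd (nat_lit 156) (nat_lit 684) (nat_lit 0) (XT.nd (nat_lit 78) (nat_lit 380) (nat_lit 0) (XT.lf (nat_lit 0) (nat_lit 140164721051) (nat_lit 380) (nat_lit 21670809100) (nat_lit 456) (nat_lit 430597011748) (nat_lit 275) (nat_lit 5) (nat_lit 280) (nat_lit 5) (nat_lit 281) (nat_lit 5) (nat_lit 409) (nat_lit 400) (nat_lit 211)) (XT.lf (nat_lit 0) (nat_lit 70556436795) (nat_lit 380) (nat_lit 212268076894) (nat_lit 456) (nat_lit 335581227623) (nat_lit 270) (nat_lit 5) (nat_lit 275) (nat_lit 5) (nat_lit 276) (nat_lit 5) (nat_lit 410) (nat_lit 400) (nat_lit 210))) (XT.nd (nat_lit 78) (nat_lit 380) (nat_lit 0) (XT.lf (nat_lit 0) (nat_lit 1400124992) (nat_lit 304) (nat_lit 423931268212) (nat_lit 380) (nat_lit 220533464610) (nat_lit 266) (nat_lit 5) (nat_lit 270) (nat_lit 5) (nat_lit 271) (nat_lit 5) (nat_lit 411) (nat_lit 400) (nat_lit 209)) (XT.nd (nat_lit 78) (nat_lit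 380) (nat_lit 0) (XT.lf (nat_lit 0) (nat_lit 592586873856) (nat_lit 380) (nat_lit 64695452159) (nat_lit 76) (nat_lit 17570975082) (nat_lit 266) (nat_lit 5) (nat_lit 271) (nat_lit 5) (nat_lit 267) (nat_lit 5) (nat_lit 412) (nat_lit 400) (nat_lit 208)) (XT.lf (nat_lit 0) (nat_lit 81267982842) (nat_lit 380) (nat_lit 134032184496) (nat_lit 76) (nat_lit 489990680654) (nat_lit 261) (nat_lit 5) (nat_lit 266) (nat_lit 5) (nat_lit 262) (nat_lit 5) (nat_lit 413) (nat_lit 400) (nat_lit 207))))))))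
noncomputable def xc230 : XT := (XT.nd (nat_lit 1248) (nat_lit 1976) (nat_lit 0) (XT.nd (nat_lit 624) (nat_lit 1520) (nat_lit 0) (XT.nd (nat_lit 312) (nat_lit 988) (nat_lit 0) (XT.nd (nat_lit 156) (nat_lit 608) (nat_lit 0) (XT.nd (nat_lit 78) (nat_lit 304) (nat_lit 0) (XT.lf (nat_lit 0) (nat_lit 268858693352) (nat_lit 380) (nat_lit 203777628968) (nat_lit 76) (nat_lit 264766856696) (nat_lit 257) (nat_lit 5) (nat_lit 262) (nat_lit 5) (nat_lit 258) (nat_lit 5) (nat_lit 414) (nat_lit 400) (nat_lit 206)) (XT.lf (nat_lit 0) (nat_lit 485491613088) (nat_lit 380) (nat_lit 271777910330) (nat_lit 76) (nat_lit 14113225486) (nat_lit 253) (nat_lit 5) (nat_lit 258) (nat_lit 5) (nat_lit 254) (nat_lit 5) (nat_lit 415) (nat_lit 400) (nat_lit 205))) (XT.nd (nat_lit 78) (nat_lit 380) (nat_lit 0) (XT.lf (nat_lit 0) (nat_lit 465502796206) (nat_lit 228) (nat_lit 272797526152) (nat_lit 304) (nat_lit 68838104225) (nat_lit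 250) (nat_lit 5) (nat_lit 253) (nat_lit 5) (nat_lit 254) (nat_lit 5) (nat_lit 416) (nat_lit 400) (nat_lit 204)) (XT.lf (nat_lit 0) (nat_lit 176061781356) (nat_lit 380) (nat_lit 411900173959) (nat_lit 76) (nat_lit 256874236471) (nat_lit 245) (nat_lit 5) (nat_lit 250) (nat_lit 5) (nat_lit 246) (nat_lit 5) (nat_lit 417) (nat_lit 400) (nat_lit 203)))) (XT.nd (nat_lit 156) (nat_lit 532) (nat_lit 0) (XT.nd (nat_lit 78) (nat_lit 228) (nat_lit 0) (XT.lf (nat_lit 0) (nat_lit 403476445667) (nat_lit 228) (nat_lit 51645573355) (nat_lit 304) (nat_lit 429522328853) (nat_lit 242) (nat_lit 5) (nat_lit 245) (nat_lit 5) (nat_lit 246) (nat_lit 5) (nat_lit 418) (nat_lit 400) (nat_lit 202)) (XT.lf (nat_lit 0) (nat_lit 375166692362) (nat_lit 228) (nat_lit 402727365375) (nat_lit 304) (nat_lit 148673749612) (nat_lit 239) (nat_lit 5) (nat_lit 242) (nat_lit 5) (nat_lit 243) (nat_lit 5) (nat_lit 419) (nat_lit 400) (nat_lit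 201))) (XT.nd (nat_lit 78) (nat_lit 228) (nat_lit 0) (XT.lf (nat_lit 0) (nat_lit 167556378192) (nat_lit 304) (nat_lit 620269523266) (nat_lit 76) (nat_lit 183005362068) (nat_lit 235) (nat_lit 5) (nat_lit 239) (nat_lit 5) (nat_lit 236) (nat_lit 5) (nat_lit 420) (nat_lit 400) (nat_lit 200)) (XT.lf (nat_lit 0) (nat_lit 327234875188) (nat_lit 228) (nat_lit 198373137299) (nat_lit 304) (nat_lit 491819324971) (nat_lit 232) (nat_lit 5) (nat_lit 235) (nat_lit 5) (nat_lit 236) (nat_lit 5) (nat_lit 421) (nat_lit 400) (nat_lit 199))))) (XT.nd (nat_lit 312) (nat_lit 684) (nat_lit 0) (XT.nd (nat_lit 156) (nat_lit 380) (nat_lit 0) (XT.nd (nat_lit 78) (nat_lit 304) (nat_lit 0) (XT.lf (nat_lit 0) (nat_lit 308327548500) (nat_lit 152) (nat_lit 626613977589) (nat_lit 228) (nat_lit 131677683787) (nat_lit 230) (nat_lit 5) (nat_lit 232) (nat_lit 5) (nat_lit 233) (nat_lit 5) (nat_lit 422) (nat_lit 400) (nat_lit 198))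 (XT.lf (nat_lit 0) (nat_lit 269585621702) (nat_lit 304) (nat_lit 824842242919) (nat_lit 76) (nat_lit 24090490605) (nat_lit 226) (nat_lit 5) (nat_lit 230) (nat_lit 5) (nat_lit 227) (nat_lit 5) (nat_lit 423) (nat_lit 400) (nat_lit 197))) (XT.nd (nat_lit 78) (nat_lit 228) (nat_lit 0) (XT.lf (nat_lit 0) (nat_lit 278894280825) (nat_lit 152) (nat_lit 447849693347) (nat_lit 228) (nat_lit 446297159145) (nat_lit 224) (nat_lit 5) (nat_lit 226) (nat_lit 5) (nat_lit 227) (nat_lit 5) (nat_lit 424) (nat_lit 400) (nat_lit 196)) (XT.lf (nat_lit 0) (nat_lit 12078089428) (nat_lit 228) (nat_lit 957186588877) (nat_lit 76) (nat_lit 261511877603) (nat_lit 221) (nat_lit 5) (nat_lit 224) (nat_lit 5) (nat_lit 222) (nat_lit 5) (nat_lit 425) (nat_lit 400) (nat_lit 195)))) (XT.nd (nat_lit 156) (nat_lit 380) (nat_lit 0) (XT.nd (nat_lit 78) (nat_lit 152) (nat_lit 0) (XT.lf (nat_lit 0) (nat_lit 267554490723) (nat_lit 152)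 (nat_lit 251701446658) (nat_lit 228) (nat_lit 772120624684) (nat_lit 219) (nat_lit 5) (nat_lit 221) (nat_lit 5) (nat_lit 222) (nat_lit 5) (nat_lit 426) (nat_lit 400) (nat_lit 194)) (XT.lf (nat_lit 0) (nat_lit 268619258478) (nat_lit 152) (nat_lit 827699210152) (nat_lit 228) (nat_lit 259040577313) (nat_lit 217) (nat_lit 5) (nat_lit 219) (nat_lit 5) (nat_lit 220) (nat_lit 5) (nat_lit 427) (nat_lit 400) (nat_lit 193))) (XT.nd (nat_lit 78) (nat_lit 152) (nat_lit 0) (XT.lf (nat_lit 0) (nat_lit 277175529987) (nat_lit 152) (nat_lit 35164056458) (nat_lit 228) (nat_lit 1110555271041) (nat_lit 214) (nat_lit 5) (nat_lit 216) (nat_lit 5) (nat_lit 217) (nat_lit 5) (nat_lit 428) (nat_lit 400) (nat_lit 192)) (XT.lf (nat_lit 0) (nat_lit 285778025931) (nat_lit 152) (nat_lit 671214948702) (nat_lit 228) (nat_lit 536796314412) (nat_lit 212) (nat_lit 5) (nat_lit 214) (nat_lit 5) (nat_lit 215) (nat_lit 5) (nat_lit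 429) (nat_lit 400) (nat_lit 191)))))) (XT.nd (nat_lit 624) (nat_lit 760) (nat_lit 0) (XT.nd (nat_lit 312) (nat_lit 608) (nat_lit 0) (XT.nd (nat_lit 156) (nat_lit 304) (nat_lit 0) (XT.nd (nat_lit 78) (nat_lit 152) (nat_lit 0) (XT.lf (nat_lit 0) (nat_lit 109148984432) (nat_lit 152) (nat_lit 1261112643628) (nat_lit 76) (nat_lit 198582072072) (nat_lit 210) (nat_lit 5) (nat_lit 212) (nat_lit 5) (nat_lit 211) (nat_lit 5) (nat_lit 430) (nat_lit 400) (nat_lit 190)) (XT.lf (nat_lit 0) (nat_lit 328830493541) (nat_lit 152) (nat_lit 497223714719) (nat_lit 228) (nat_lit 821503707412) (nat_lit 208) (nat_lit 5) (nat_lit 210) (nat_lit 5) (nat_lit 211) (nat_lit 5) (nat_lit 431) (nat_lit 400) (nat_lit 189))) (XT.nd (nat_lit 78) (nat_lit 228) (nat_lit 0) (XT.lf (nat_lit 0) (nat_lit 363859803628) (nat_lit 76) (nat_lit 1271418758600) (nat_lit 152) (nat_lit 95542370618) (nat_lit 207) (nat_lit 5) (nat_lit 208) (nat_lit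 5) (nat_lit 209) (nat_lit 4) (nat_lit 432) (nat_lit 400) (nat_lit 188)) (XT.lf (nat_lit 0) (nat_lit 401902244002) (nat_lit 152) (nat_lit 302564329895) (nat_lit 228) (nat_lit 1113840606568) (nat_lit 204) (nat_lit 5) (nat_lit 206) (nat_lit 5) (nat_lit 207) (nat_lit 5) (nat_lit 433) (nat_lit 400) (nat_lit 187)))) (XT.nd (nat_lit 156) (nat_lit 304) (nat_lit 0) (XT.nd (nat_lit 78) (nat_lit 228) (nat_lit 0) (XT.lf (nat_lit 0) (nat_lit 450284418744) (nat_lit 76) (nat_lit 1157734128809) (nat_lit 152) (nat_lit 302550984280) (nat_lit 203) (nat_lit 5) (nat_lit 204) (nat_lit 5) (nat_lit 205) (nat_lit 4) (nat_lit 434) (nat_lit 400) (nat_lit 186)) (XT.lf (nat_lit 0) (nat_lit 509762192139) (nat_lit 152) (nat_lit 83657420273) (nat_lit 228) (nat_lit 1414438554839) (nat_lit 200) (nat_lit 5) (nat_lit 202) (nat_lit 5) (nat_lit 203) (nat_lit 5) (nat_lit 435) (nat_lit 400) (nat_lit 185))) (XT.nd (nat_lit 78) (nat_lit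 228) (nat_lit 0) (XT.lf (nat_lit 0) (nat_lit 573948128058) (nat_lit 76) (nat_lit 1028281449999) (nat_lit 152) (nat_lit 507864241139) (nat_lit 199) (nat_lit 5) (nat_lit 200) (nat_lit 5) (nat_lit 201) (nat_lit 4) (nat_lit 436) (nat_lit 400) (nat_lit 184)) (XT.lf (nat_lit 0) (nat_lit 496913100291) (nat_lit 228) (nat_lit 1562873400663) (nat_lit 76) (nat_lit 158315977695) (nat_lit 196) (nat_lit 5) (nat_lit 199) (nat_lit 5) (nat_lit 197) (nat_lit 4) (nat_lit 437) (nat_lit 400) (nat_lit 183))))) (XT.nd (nat_lit 312) (nat_lit 228) (nat_lit 0) (XT.nd (nat_lit 156) (nat_lit 228) (nat_lit 0) (XT.nd (nat_lit 78) (nat_lit 228) (nat_lit 0) (XT.lf (nat_lit 0) (nat_lit 740722018971) (nat_lit 76) (nat_lit 879896169278) (nat_lit 152) (nat_lit 710900428027) (nat_lit 195) (nat_lit 5) (nat_lit 196) (nat_lit 5) (nat_lit 197) (nat_lit 4) (nat_lit 438) (nat_lit 400) (nat_lit 182)) (XT.lf (nat_lit 0) (nat_lit 415952326175)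 (nat_lit 228) (nat_lit 1605912280702) (nat_lit 76) (nat_lit 429451137838) (nat_lit 192) (nat_lit 5) (nat_lit 195) (nat_lit 5) (nat_lit 193) (nat_lit 4) (nat_lit 439) (nat_lit 400) (nat_lit 181))) (XT.nd (nat_lit 78) (nat_lit 152) (nat_lit 0) (XT.lf (nat_lit 0) (nat_lit 957358680141) (nat_lit 76) (nat_lit 708969728748) (nat_lit 152) (nat_lit 910871449460) (nat_lit 191) (nat_lit 5) (nat_lit 192) (nat_lit 5) (nat_lit 193) (nat_lit 4) (nat_lit 440) (nat_lit 400) (nat_lit 180)) (XT.lf (nat_lit 0) (nat_lit 351385349811) (nat_lit 152) (nat_lit 1621197714940) (nat_lit 76) (nat_lit 737458553457) (nat_lit 189) (nat_lit 5) (nat_lit 191) (nat_lit 5) (nat_lit 190) (nat_lit 4) (nat_lit 441) (nat_lit 400) (nat_lit 179)))) (XT.nd (nat_lit 49920) (nat_lit 0) (nat_lit 8056) (XT.nd (nat_lit 78) (nat_lit 152) (nat_lit 0) (XT.lf (nat_lit 0) (nat_lit 1231611087275) (nat_lit 76) (nat_lit 511388315871) (nat_lit 152)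 (nat_lit 1106750239335) (nat_lit 188) (nat_lit 5) (nat_lit 189) (nat_lit 5) (nat_lit 190) (nat_lit 4) (nat_lit 442) (nat_lit 400) (nat_lit 178)) (XT.lf (nat_lit 0) (nat_lit 305757770039) (nat_lit 152) (nat_lit 1603232472150) (nat_lit 76) (nat_lit 1088037524292) (nat_lit 186) (nat_lit 5) (nat_lit 188) (nat_lit 5) (nat_lit 187) (nat_lit 4) (nat_lit 443) (nat_lit 400) (nat_lit 177))) (XT.nd (nat_lit 78) (nat_lit 0) (nat_lit 76) (XT.lf (nat_lit 0) (nat_lit 104330068964) (nat_lit 836) (nat_lit 58763480445) (nat_lit 836) (nat_lit 58763480445) (nat_lit 292) (nat_lit 3) (nat_lit 303) (nat_lit 3) (nat_lit 303) (nat_lit 5) (nat_lit 401) (nat_lit 401) (nat_lit 218)) (XT.nd (nat_lit 78) (nat_lit 0) (nat_lit 0) (XT.lf (nat_lit 0) (nat_lit 221218669301) (nat_lit 760) (nat_lit 216357711978) (nat_lit 836) (nat_lit 23675634528) (nat_lit 293) (nat_lit 5) (nat_lit 303) (nat_lit 5) (nat_lit 304) (nat_lit 5) (nat_lit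 402) (nat_lit 401) (nat_lit 217)) (XT.lf (nat_lit 76) (nat_lit 160002861618) (nat_lit 0) (nat_lit 84857978667) (nat_lit 836) (nat_lit 234828220251) (nat_lit 294) (nat_lit 5) (nat_lit 293) (nat_lit 5) (nat_lit 304) (nat_lit 5) (nat_lit 403) (nat_lit 401) (nat_lit 216))))))))
noncomputable def xc231 : XT := (XT.nd (nat_lit 1248) (nat_lit 3192) (nat_lit 0) (XT.nd (nat_lit 624) (nat_lit 2128) (nat_lit 0) (XT.nd (nat_lit 312) (nat_lit 1824) (nat_lit 0) (XT.nd (nat_lit 156) (nat_lit 0) (nat_lit 152) (XT.nd (nat_lit 78) (nat_lit 0) (nat_lit 76) (XT.lf (nat_lit 76) (nat_lit 72419160605) (nat_lit 0) (nat_lit 207559043796) (nat_lit 836) (nat_lit 219143673468) (nat_lit 295) (nat_lit 5) (nat_lit 294) (nat_lit 5) (nat_lit 305) (nat_lit 5) (nat_lit 404) (nat_lit 401) (nat_lit 215)) (XT.lf (nat_lit 0) (nat_lit 327706546678) (nat_lit 760) (nat_lit 16754983864) (nat_lit 836) (nat_lit 175157710596) (nat_lit 295)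 (nat_lit 5) (nat_lit 305) (nat_lit 5) (nat_lit 306) (nat_lit 5) (nat_lit 405) (nat_lit 401) (nat_lit 214))) (XT.nd (nat_lit 78) (nat_lit 0) (nat_lit 0) (XT.lf (nat_lit 0) (nat_lit 390299370926) (nat_lit 760) (nat_lit 105514687157) (nat_lit 836) (nat_lit 45390024656) (nat_lit 296) (nat_lit 5) (nat_lit 306) (nat_lit 5) (nat_lit 307) (nat_lit 5) (nat_lit 406) (nat_lit 401) (nat_lit 213)) (XT.lf (nat_lit 76) (nat_lit 366338577338) (nat_lit 0) (nat_lit 103385473336) (nat_lit 836) (nat_lit 94200439518) (nat_lit 297) (nat_lit 5) (nat_lit 296) (nat_lit 5) (nat_lit 307) (nat_lit 5) (nat_lit 407) (nat_lit 401) (nat_lit 212)))) (XT.nd (nat_lit 156) (nat_lit 760) (nat_lit 0) (XT.nd (nat_lit 78) (nat_lit 532) (nat_lit 0) (XT.lf (nat_lit 0) (nat_lit 295770791522) (nat_lit 760) (nat_lit 271220742863) (nat_lit 836) (nat_lit 20896554374) (nat_lit 287) (nat_lit 5) (nat_lit 297) (nat_lit 5) (nat_lit 298) (nat_lit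 5) (nat_lit 408) (nat_lit 401) (nat_lit 211)) (XT.lf (nat_lit 0) (nat_lit 67705990129) (nat_lit 532) (nat_lit 389206292270) (nat_lit 76) (nat_lit 156246033383) (nat_lit 280) (nat_lit 5) (nat_lit 287) (nat_lit 5) (nat_lit 281) (nat_lit 5) (nat_lit 409) (nat_lit 401) (nat_lit 210))) (XT.nd (nat_lit 78) (nat_lit 380) (nat_lit 0) (XT.lf (nat_lit 0) (nat_lit 151378545702) (nat_lit 380) (nat_lit 23404467608) (nat_lit 456) (nat_lit 465044099903) (nat_lit 275) (nat_lit 5) (nat_lit 280) (nat_lit 5) (nat_lit 281) (nat_lit 5) (nat_lit 410) (nat_lit 401) (nat_lit 209)) (XT.lf (nat_lit 0) (nat_lit 76201601141) (nat_lit 380) (nat_lit 229249477156) (nat_lit 456) (nat_lit 362427092144) (nat_lit 270) (nat_lit 5) (nat_lit 275) (nat_lit 5) (nat_lit 276) (nat_lit 5) (nat_lit 411) (nat_lit 401) (nat_lit 208))))) (XT.nd (nat_lit 312) (nat_lit 1140) (nat_lit 0) (XT.nd (nat_lit 156) (nat_lit 684) (nat_lit 0) (XT.nd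 (nat_lit 78) (nat_lit 0) (nat_lit 0) (XT.lf (nat_lit 0) (nat_lit 1512784351) (nat_lit 304) (nat_lit 457845689919) (nat_lit 380) (nat_lit 238175543688) (nat_lit 266) (nat_lit 5) (nat_lit 270) (nat_lit 5) (nat_lit 271) (nat_lit 5) (nat_lit 412) (nat_lit 401) (nat_lit 207)) (XT.lf (nat_lit 0) (nat_lit 639994352334) (nat_lit 380) (nat_lit 69870461856) (nat_lit 76) (nat_lit 18976724567) (nat_lit 266) (nat_lit 5) (nat_lit 271) (nat_lit 5) (nat_lit 267) (nat_lit 5) (nat_lit 413) (nat_lit 401) (nat_lit 206))) (XT.nd (nat_lit 78) (nat_lit 304) (nat_lit 0) (XT.lf (nat_lit 0) (nat_lit 87769928419) (nat_lit 380) (nat_lit 144754143243) (nat_lit 76) (nat_lit 529190018822) (nat_lit 261) (nat_lit 5) (nat_lit 266) (nat_lit 5) (nat_lit 262) (nat_lit 5) (nat_lit 414) (nat_lit 401) (nat_lit 205)) (XT.lf (nat_lit 0) (nat_lit 290367869145) (nat_lit 380) (nat_lit 220079227842) (nat_lit 76) (nat_lit 285948312335) (nat_lit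 257) (nat_lit 5) (nat_lit 262) (nat_lit 5) (nat_lit 258) (nat_lit 5) (nat_lit 415) (nat_lit 401) (nat_lit 204)))) (XT.nd (nat_lit 156) (nat_lit 608) (nat_lit 0) (XT.nd (nat_lit 78) (nat_lit 228) (nat_lit 0) (XT.lf (nat_lit 0) (nat_lit 524331398056) (nat_lit 380) (nat_lit 293519537636) (nat_lit 76) (nat_lit 15242410327) (nat_lit 253) (nat_lit 5) (nat_lit 258) (nat_lit 5) (nat_lit 254) (nat_lit 5) (nat_lit 416) (nat_lit 401) (nat_lit 203)) (XT.lf (nat_lit 0) (nat_lit 502743599107) (nat_lit 228) (nat_lit 294621180232) (nat_lit 304) (nat_lit 74344699811) (nat_lit 250) (nat_lit 5) (nat_lit 253) (nat_lit 5) (nat_lit 254) (nat_lit 5) (nat_lit 417) (nat_lit 401) (nat_lit 202))) (XT.nd (nat_lit 78) (nat_lit 228) (nat_lit 0) (XT.lf (nat_lit 0) (nat_lit 190147140921) (nat_lit 380) (nat_lit 444851601640) (nat_lit 76) (nat_lit 277424323715) (nat_lit 245) (nat_lit 5) (nat_lit 250) (nat_lit 5) (nat_lit 246)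 (nat_lit 5) (nat_lit 418) (nat_lit 401) (nat_lit 201)) (XT.lf (nat_lit 0) (nat_lit 435755122079) (nat_lit 228) (nat_lit 55777053383) (nat_lit 304) (nat_lit 463883700497) (nat_lit 242) (nat_lit 5) (nat_lit 245) (nat_lit 5) (nat_lit 246) (nat_lit 5) (nat_lit 419) (nat_lit 401) (nat_lit 200)))))) (XT.nd (nat_lit 624) (nat_lit 1444) (nat_lit 0) (XT.nd (nat_lit 312) (nat_lit 836) (nat_lit 0) (XT.nd (nat_lit 156) (nat_lit 380) (nat_lit 0) (XT.nd (nat_lit 78) (nat_lit 304) (nat_lit 0) (XT.lf (nat_lit 0) (nat_lit 405180580550) (nat_lit 228) (nat_lit 434945378498) (nat_lit 304) (nat_lit 160567254053) (nat_lit 239) (nat_lit 5) (nat_lit 242) (nat_lit 5) (nat_lit 243) (nat_lit 5) (nat_lit 420) (nat_lit 401) (nat_lit 199)) (XT.lf (nat_lit 0) (nat_lit 180961254178) (nat_lit 304) (nat_lit 669890528873) (nat_lit 76) (nat_lit 197645963271) (nat_lit 235) (nat_lit 5) (nat_lit 239) (nat_lit 5) (nat_lit 236) (nat_lit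 5) (nat_lit 421) (nat_lit 401) (nat_lit 198))) (XT.nd (nat_lit 78) (nat_lit 152) (nat_lit 0) (XT.lf (nat_lit 0) (nat_lit 353414197283) (nat_lit 228) (nat_lit 214242803149) (nat_lit 304) (nat_lit 531164506675) (nat_lit 232) (nat_lit 5) (nat_lit 235) (nat_lit 5) (nat_lit 236) (nat_lit 5) (nat_lit 422) (nat_lit 401) (nat_lit 197)) (XT.lf (nat_lit 0) (nat_lit 332994275165) (nat_lit 152) (nat_lit 676742905096) (nat_lit 228) (nat_lit 142211549801) (nat_lit 230) (nat_lit 5) (nat_lit 232) (nat_lit 5) (nat_lit 233) (nat_lit 5) (nat_lit 423) (nat_lit 401) (nat_lit 196)))) (XT.nd (nat_lit 156) (nat_lit 380) (nat_lit 0) (XT.nd (nat_lit 78) (nat_lit 152) (nat_lit 0) (XT.lf (nat_lit 0) (nat_lit 291152794910) (nat_lit 304) (nat_lit 890829098557) (nat_lit 76) (nat_lit 26017914004) (nat_lit 226) (nat_lit 5) (nat_lit 230) (nat_lit 5) (nat_lit 227) (nat_lit 5) (nat_lit 424) (nat_lit 401) (nat_lit 195)) (XT.lf (nat_lit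 0) (nat_lit 301206324324) (nat_lit 152) (nat_lit 483677475116) (nat_lit 228) (nat_lit 482000609176) (nat_lit 224) (nat_lit 5) (nat_lit 226) (nat_lit 5) (nat_lit 227) (nat_lit 5) (nat_lit 425) (nat_lit 401) (nat_lit 194))) (XT.nd (nat_lit 78) (nat_lit 152) (nat_lit 0) (XT.lf (nat_lit 0) (nat_lit 13044636453) (nat_lit 228) (nat_lit 1033761015009) (nat_lit 76) (nat_lit 282433013926) (nat_lit 221) (nat_lit 5) (nat_lit 224) (nat_lit 5) (nat_lit 222) (nat_lit 5) (nat_lit 426) (nat_lit 401) (nat_lit 193)) (XT.lf (nat_lit 0) (nat_lit 288959329188) (nat_lit 152) (nat_lit 271837368324) (nat_lit 228) (nat_lit 833889975261) (nat_lit 219) (nat_lit 5) (nat_lit 221) (nat_lit 5) (nat_lit 222) (nat_lit 5) (nat_lit 427) (nat_lit 401) (nat_lit 192))))) (XT.nd (nat_lit 312) (nat_lit 760) (nat_lit 0) (XT.nd (nat_lit 156) (nat_lit 304) (nat_lit 0) (XT.nd (nat_lit 78) (nat_lit 228) (nat_lit 0) (XT.lf (nat_lit 0) (nat_lit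 290109268277) (nat_lit 152) (nat_lit 893914951992) (nat_lit 228) (nat_lit 279763535642) (nat_lit 217) (nat_lit 5) (nat_lit 219) (nat_lit 5) (nat_lit 220) (nat_lit 5) (nat_lit 428) (nat_lit 401) (nat_lit 191)) (XT.lf (nat_lit 0) (nat_lit 299350029932) (nat_lit 152) (nat_lit 37976988575) (nat_lit 228) (nat_lit 1199399414320) (nat_lit 214) (nat_lit 5) (nat_lit 216) (nat_lit 5) (nat_lit 217) (nat_lit 5) (nat_lit 429) (nat_lit 401) (nat_lit 190))) (XT.nd (nat_lit 78) (nat_lit 152) (nat_lit 0) (XT.lf (nat_lit 0) (nat_lit 308640715475) (nat_lit 152) (nat_lit 724911952402) (nat_lit 228) (nat_lit 579739751528) (nat_lit 212) (nat_lit 5) (nat_lit 214) (nat_lit 5) (nat_lit 215) (nat_lit 5) (nat_lit 430) (nat_lit 401) (nat_lit 189)) (XT.lf (nat_lit 0) (nat_lit 117881153190) (nat_lit 152) (nat_lit 1362001209490) (nat_lit 76) (nat_lit 214468820962) (nat_lit 210) (nat_lit 5) (nat_lit 212) (nat_lit 5) (nat_lit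 211) (nat_lit 5) (nat_lit 431) (nat_lit 401) (nat_lit 188)))) (XT.nd (nat_lit 156) (nat_lit 532) (nat_lit 0) (XT.nd (nat_lit 78) (nat_lit 76) (nat_lit 0) (XT.lf (nat_lit 0) (nat_lit 355137359286) (nat_lit 152) (nat_lit 537001423776) (nat_lit 228) (nat_lit 887223753958) (nat_lit 208) (nat_lit 5) (nat_lit 210) (nat_lit 5) (nat_lit 211) (nat_lit 5) (nat_lit 432) (nat_lit 401) (nat_lit 187)) (XT.lf (nat_lit 0) (nat_lit 392969004235) (nat_lit 76) (nat_lit 1373132072691) (nat_lit 152) (nat_lit 103185519062) (nat_lit 207) (nat_lit 5) (nat_lit 208) (nat_lit 5) (nat_lit 209) (nat_lit 4) (nat_lit 433) (nat_lit 401) (nat_lit 186))) (XT.nd (nat_lit 78) (nat_lit 304) (nat_lit 0) (XT.lf (nat_lit 0) (nat_lit 434054829131) (nat_lit 152) (nat_lit 326769293201) (nat_lit 228) (nat_lit 1202947621444) (nat_lit 204) (nat_lit 5) (nat_lit 206) (nat_lit 5) (nat_lit 207) (nat_lit 5) (nat_lit 434) (nat_lit 401) (nat_lit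 185)) (XT.nd (nat_lit 78) (nat_lit 228) (nat_lit 0) (XT.lf (nat_lit 0) (nat_lit 486307568133) (nat_lit 76) (nat_lit 1250352678092) (nat_lit 152) (nat_lit 326754837412) (nat_lit 203) (nat_lit 5) (nat_lit 204) (nat_lit 5) (nat_lit 205) (nat_lit 4) (nat_lit 435) (nat_lit 401) (nat_lit 184)) (XT.lf (nat_lit 0) (nat_lit 550543553102) (nat_lit 152) (nat_lit 90349836536) (nat_lit 228) (nat_lit 1527593420582) (nat_lit 200) (nat_lit 5) (nat_lit 202) (nat_lit 5) (nat_lit 203) (nat_lit 5) (nat_lit 436) (nat_lit 401) (nat_lit 183))))))))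
noncomputable def xc232 : XT := (XT.nd (nat_lit 51090) (nat_lit 0) (nat_lit 2736) (XT.nd (nat_lit 50466) (nat_lit 0) (nat_lit 6992) (XT.nd (nat_lit 312) (nat_lit 304) (nat_lit 0) (XT.nd (nat_lit 156) (nat_lit 304) (nat_lit 0) (XT.nd (nat_lit 78) (nat_lit 228) (nat_lit 0) (XT.lf (nat_lit 0) (nat_lit 619864354448) (nat_lit 76) (nat_lit 1110543791099) (nat_lit 152) (nat_lit 548493169124) (nat_lit 199) (nat_lit 5) (nat_lit 200) (nat_lit 5) (nat_lit 201) (nat_lit 4) (nat_lit 437) (nat_lit 401) (nat_lit 182)) (XT.lf (nat_lit 0) (nat_lit 536666346097) (nat_lit 228) (nat_lit 1687902899365) (nat_lit 76) (nat_lit 170981421590) (nat_lit 196) (nat_lit 5) (nat_lit 199) (nat_lit 5) (nat_lit 197) (nat_lit 4) (nat_lit 438) (nat_lit 401) (nat_lit 181))) (XT.nd (nat_lit 78) (nat_lit 228) (nat_lit 0) (XT.lf (nat_lit 0) (nat_lit 799980137614) (nat_lit 76) (nat_lit 950287694403) (nat_lit 152) (nat_lit 767772264125)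 (nat_lit 195) (nat_lit 5) (nat_lit 196) (nat_lit 5) (nat_lit 197) (nat_lit 4) (nat_lit 439) (nat_lit 401) (nat_lit 180)) (XT.lf (nat_lit 0) (nat_lit 449228697862) (nat_lit 228) (nat_lit 1734384908906) (nat_lit 76) (nat_lit 463807388245) (nat_lit 192) (nat_lit 5) (nat_lit 195) (nat_lit 5) (nat_lit 193) (nat_lit 4) (nat_lit 440) (nat_lit 401) (nat_lit 179)))) (XT.nd (nat_lit 156) (nat_lit 76) (nat_lit 0) (XT.nd (nat_lit 78) (nat_lit 152) (nat_lit 0) (XT.lf (nat_lit 0) (nat_lit 1033947713408) (nat_lit 76) (nat_lit 765687145327) (nat_lit 152) (nat_lit 983740979424) (nat_lit 191) (nat_lit 5) (nat_lit 192) (nat_lit 5) (nat_lit 193) (nat_lit 4) (nat_lit 441) (nat_lit 401) (nat_lit 178)) (XT.lf (nat_lit 0) (nat_lit 379496352116) (nat_lit 152) (nat_lit 1750893196184) (nat_lit 76) (nat_lit 796455390649) (nat_lit 189) (nat_lit 5) (nat_lit 191) (nat_lit 5) (nat_lit 190) (nat_lit 4) (nat_lit 442) (nat_lit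 401) (nat_lit 177))) (XT.nd (nat_lit 49920) (nat_lit 0) (nat_lit 7904) (XT.lf (nat_lit 0) (nat_lit 1330140295608) (nat_lit 76) (nat_lit 552299226214) (nat_lit 152) (nat_lit 1195290083736) (nat_lit 188) (nat_lit 5) (nat_lit 189) (nat_lit 5) (nat_lit 190) (nat_lit 4) (nat_lit 443) (nat_lit 401) (nat_lit 176)) (XT.lf (nat_lit 0) (nat_lit 112676976413) (nat_lit 836) (nat_lit 63464295367) (nat_lit 836) (nat_lit 63464295367) (nat_lit 292) (nat_lit 3) (nat_lit 303) (nat_lit 3) (nat_lit 303) (nat_lit 5) (nat_lit 402) (nat_lit 402) (nat_lit 216))))) (XT.nd (nat_lit 312) (nat_lit 988) (nat_lit 0) (XT.nd (nat_lit 156) (nat_lit 0) (nat_lit 76) (XT.nd (nat_lit 78) (nat_lit 0) (nat_lit 0) (XT.lf (nat_lit 0) (nat_lit 238917093454) (nat_lit 760) (nat_lit 233665771180) (nat_lit 836) (nat_lit 25569265908) (nat_lit 293) (nat_lit 5) (nat_lit 303) (nat_lit 5) (nat_lit 304) (nat_lit 5) (nat_lit 403) (nat_lit 402)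 (nat_lit 215)) (XT.lf (nat_lit 76) (nat_lit 172803624064) (nat_lit 0) (nat_lit 91646953448) (nat_lit 836) (nat_lit 253613564366) (nat_lit 294) (nat_lit 5) (nat_lit 293) (nat_lit 5) (nat_lit 304) (nat_lit 5) (nat_lit 404) (nat_lit 402) (nat_lit 214))) (XT.nd (nat_lit 78) (nat_lit 0) (nat_lit 76) (XT.lf (nat_lit 76) (nat_lit 78213250420) (nat_lit 0) (nat_lit 224164019725) (nat_lit 836) (nat_lit 236674317485) (nat_lit 295) (nat_lit 5) (nat_lit 294) (nat_lit 5) (nat_lit 305) (nat_lit 5) (nat_lit 405) (nat_lit 402) (nat_lit 213)) (XT.lf (nat_lit 0) (nat_lit 353923816199) (nat_lit 760) (nat_lit 18094825743) (nat_lit 836) (nat_lit 189170101198) (nat_lit 295) (nat_lit 5) (nat_lit 305) (nat_lit 5) (nat_lit 306) (nat_lit 5) (nat_lit 406) (nat_lit 402) (nat_lit 212)))) (XT.nd (nat_lit 156) (nat_lit 1216) (nat_lit 0) (XT.nd (nat_lit 78) (nat_lit 0) (nat_lit 0) (XT.lf (nat_lit 0) (nat_lit 421524016864) (nat_lit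 760) (nat_lit 113955291961) (nat_lit 836) (nat_lit 49021065721) (nat_lit 296) (nat_lit 5) (nat_lit 306) (nat_lit 5) (nat_lit 307) (nat_lit 5) (nat_lit 407) (nat_lit 402) (nat_lit 211)) (XT.lf (nat_lit 76) (nat_lit 395646208915) (nat_lit 0) (nat_lit 111656419016) (nat_lit 836) (nat_lit 101735788815) (nat_lit 297) (nat_lit 5) (nat_lit 296) (nat_lit 5) (nat_lit 307) (nat_lit 5) (nat_lit 408) (nat_lit 402) (nat_lit 210))) (XT.nd (nat_lit 78) (nat_lit 532) (nat_lit 0) (XT.lf (nat_lit 0) (nat_lit 319433009383) (nat_lit 760) (nat_lit 292918459671) (nat_lit 836) (nat_lit 22567636210) (nat_lit 287) (nat_lit 5) (nat_lit 297) (nat_lit 5) (nat_lit 298) (nat_lit 5) (nat_lit 409) (nat_lit 402) (nat_lit 209)) (XT.lf (nat_lit 0) (nat_lit 73123053271) (nat_lit 532) (nat_lit 420342215781) (nat_lit 76) (nat_lit 168745682796) (nat_lit 280) (nat_lit 5) (nat_lit 287) (nat_lit 5) (nat_lit 281) (nat_lit 5) (nat_lit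 410) (nat_lit 402) (nat_lit 208)))))) (XT.nd (nat_lit 624) (nat_lit 1976) (nat_lit 0) (XT.nd (nat_lit 312) (nat_lit 1216) (nat_lit 0) (XT.nd (nat_lit 156) (nat_lit 304) (nat_lit 0) (XT.nd (nat_lit 78) (nat_lit 380) (nat_lit 0) (XT.lf (nat_lit 0) (nat_lit 163489384028) (nat_lit 380) (nat_lit 25276819684) (nat_lit 456) (nat_lit 502247051092) (nat_lit 275) (nat_lit 5) (nat_lit 280) (nat_lit 5) (nat_lit 281) (nat_lit 5) (nat_lit 411) (nat_lit 402) (nat_lit 207)) (XT.lf (nat_lit 0) (nat_lit 82298285991) (nat_lit 380) (nat_lit 247589395986) (nat_lit 456) (nat_lit 391420716230) (nat_lit 270) (nat_lit 5) (nat_lit 275) (nat_lit 5) (nat_lit 276) (nat_lit 5) (nat_lit 412) (nat_lit 402) (nat_lit 206))) (XT.nd (nat_lit 78) (nat_lit 0) (nat_lit 0) (XT.lf (nat_lit 0) (nat_lit 1634363820) (nat_lit 304) (nat_lit 494473276741) (nat_lit 380) (nat_lit 257229074417) (nat_lit 266) (nat_lit 5) (nat_lit 270) (nat_lit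 5) (nat_lit 271) (nat_lit 5) (nat_lit 413) (nat_lit 402) (nat_lit 205)) (XT.lf (nat_lit 0) (nat_lit 691194353684) (nat_lit 380) (nat_lit 75459561701) (nat_lit 76) (nat_lit 20494923814) (nat_lit 266) (nat_lit 5) (nat_lit 271) (nat_lit 5) (nat_lit 267) (nat_lit 5) (nat_lit 414) (nat_lit 402) (nat_lit 204)))) (XT.nd (nat_lit 156) (nat_lit 532) (nat_lit 0) (XT.nd (nat_lit 78) (nat_lit 304) (nat_lit 0) (XT.lf (nat_lit 0) (nat_lit 94791957319) (nat_lit 380) (nat_lit 156333946571) (nat_lit 76) (nat_lit 571525292102) (nat_lit 261) (nat_lit 5) (nat_lit 266) (nat_lit 5) (nat_lit 262) (nat_lit 5) (nat_lit 415) (nat_lit 402) (nat_lit 203)) (XT.lf (nat_lit 0) (nat_lit 313597710477) (nat_lit 380) (nat_lit 237685041854) (nat_lit 76) (nat_lit 308824269146) (nat_lit 257) (nat_lit 5) (nat_lit 262) (nat_lit 5) (nat_lit 258) (nat_lit 5) (nat_lit 416) (nat_lit 402) (nat_lit 202))) (XT.nd (nat_lit 78) (nat_lit 228)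 (nat_lit 0) (XT.lf (nat_lit 0) (nat_lit 566278300780) (nat_lit 380) (nat_lit 317000581511) (nat_lit 76) (nat_lit 16461911866) (nat_lit 253) (nat_lit 5) (nat_lit 258) (nat_lit 5) (nat_lit 254) (nat_lit 5) (nat_lit 417) (nat_lit 402) (nat_lit 201)) (XT.lf (nat_lit 0) (nat_lit 542963583611) (nat_lit 228) (nat_lit 318190747754) (nat_lit 304) (nat_lit 80291887634) (nat_lit 250) (nat_lit 5) (nat_lit 253) (nat_lit 5) (nat_lit 254) (nat_lit 5) (nat_lit 418) (nat_lit 402) (nat_lit 200))))) (XT.nd (nat_lit 312) (nat_lit 836) (nat_lit 0) (XT.nd (nat_lit 156) (nat_lit 532) (nat_lit 0) (XT.nd (nat_lit 78) (nat_lit 228) (nat_lit 0) (XT.lf (nat_lit 0) (nat_lit 205359269753) (nat_lit 380) (nat_lit 480439227169) (nat_lit 76) (nat_lit 299618396778) (nat_lit 245) (nat_lit 5) (nat_lit 250) (nat_lit 5) (nat_lit 246) (nat_lit 5) (nat_lit 419) (nat_lit 402) (nat_lit 199)) (XT.lf (nat_lit 0) (nat_lit 470616012605) (nat_lit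 228) (nat_lit 60239075472) (nat_lit 304) (nat_lit 500994041029) (nat_lit 242) (nat_lit 5) (nat_lit 245) (nat_lit 5) (nat_lit 246) (nat_lit 5) (nat_lit 420) (nat_lit 402) (nat_lit 198))) (XT.nd (nat_lit 78) (nat_lit 304) (nat_lit 0) (XT.lf (nat_lit 0) (nat_lit 437595500931) (nat_lit 228) (nat_lit 469740857796) (nat_lit 304) (nat_lit 173412295276) (nat_lit 239) (nat_lit 5) (nat_lit 242) (nat_lit 5) (nat_lit 243) (nat_lit 5) (nat_lit 421) (nat_lit 402) (nat_lit 197)) (XT.lf (nat_lit 0) (nat_lit 195438468067) (nat_lit 304) (nat_lit 723481294285) (nat_lit 76) (nat_lit 213457787998) (nat_lit 235) (nat_lit 5) (nat_lit 239) (nat_lit 5) (nat_lit 236) (nat_lit 5) (nat_lit 422) (nat_lit 402) (nat_lit 196)))) (XT.nd (nat_lit 156) (nat_lit 456) (nat_lit 0) (XT.nd (nat_lit 78) (nat_lit 152) (nat_lit 0) (XT.lf (nat_lit 0) (nat_lit 381687789238) (nat_lit 228) (nat_lit 231382068679) (nat_lit 304) (nat_lit 573657354886)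 (nat_lit 232) (nat_lit 5) (nat_lit 235) (nat_lit 5) (nat_lit 236) (nat_lit 5) (nat_lit 423) (nat_lit 402) (nat_lit 195)) (XT.lf (nat_lit 0) (nat_lit 359634265382) (nat_lit 152) (nat_lit 730882174009) (nat_lit 228) (nat_lit 153588174840) (nat_lit 230) (nat_lit 5) (nat_lit 232) (nat_lit 5) (nat_lit 233) (nat_lit 5) (nat_lit 424) (nat_lit 402) (nat_lit 194))) (XT.nd (nat_lit 78) (nat_lit 152) (nat_lit 0) (XT.lf (nat_lit 0) (nat_lit 314445295827) (nat_lit 304) (nat_lit 962094977371) (nat_lit 76) (nat_lit 28099505004) (nat_lit 226) (nat_lit 5) (nat_lit 230) (nat_lit 5) (nat_lit 227) (nat_lit 5) (nat_lit 425) (nat_lit 402) (nat_lit 193)) (XT.lf (nat_lit 0) (nat_lit 325303259824) (nat_lit 152) (nat_lit 522371507060) (nat_lit 228) (nat_lit 520560381248) (nat_lit 224) (nat_lit 5) (nat_lit 226) (nat_lit 5) (nat_lit 227) (nat_lit 5) (nat_lit 426) (nat_lit 402) (nat_lit 192)))))))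
noncomputable def xc233 : XT := (XT.nd (nat_lit 1248) (nat_lit 152) (nat_lit 0) (XT.nd (nat_lit 624) (nat_lit 1216) (nat_lit 0) (XT.nd (nat_lit 312) (nat_lit 532) (nat_lit 0) (XT.nd (nat_lit 156) (nat_lit 380) (nat_lit 0) (XT.nd (nat_lit 78) (nat_lit 152) (nat_lit 0) (XT.lf (nat_lit 0) (nat_lit 14088464461) (nat_lit 228) (nat_lit 1116461466701) (nat_lit 76) (nat_lit 305027814603) (nat_lit 221) (nat_lit 5) (nat_lit 224) (nat_lit 5) (nat_lit 222) (nat_lit 5) (nat_lit 427) (nat_lit 402) (nat_lit 191)) (XT.lf (nat_lit 0) (nat_lit 312076486366) (nat_lit 152) (nat_lit 293584191409) (nat_lit 228) (nat_lit 900600916597) (nat_lit 219) (nat_lit 5) (nat_lit 221) (nat_lit 5) (nat_lit 222) (nat_lit 5) (nat_lit 428) (nat_lit 402) (nat_lit 190))) (XT.nd (nat_lit 78) (nat_lit 228) (nat_lit 0) (XT.lf (nat_lit 0) (nat_lit 313318411934) (nat_lit 152) (nat_lit 965427980995) (nat_lit 228) (nat_lit 302144371703) (nat_lit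 217) (nat_lit 5) (nat_lit 219) (nat_lit 5) (nat_lit 220) (nat_lit 5) (nat_lit 429) (nat_lit 402) (nat_lit 189)) (XT.lf (nat_lit 0) (nat_lit 323298424599) (nat_lit 152) (nat_lit 41014982709) (nat_lit 228) (nat_lit 1295351128780) (nat_lit 214) (nat_lit 5) (nat_lit 216) (nat_lit 5) (nat_lit 217) (nat_lit 5) (nat_lit 430) (nat_lit 402) (nat_lit 188)))) (XT.nd (nat_lit 156) (nat_lit 228) (nat_lit 0) (XT.nd (nat_lit 78) (nat_lit 152) (nat_lit 0) (XT.lf (nat_lit 0) (nat_lit 333332356345) (nat_lit 152) (nat_lit 782904743817) (nat_lit 228) (nat_lit 626118701851) (nat_lit 212) (nat_lit 5) (nat_lit 214) (nat_lit 5) (nat_lit 215) (nat_lit 5) (nat_lit 431) (nat_lit 402) (nat_lit 187)) (XT.lf (nat_lit 0) (nat_lit 127311859783) (nat_lit 152) (nat_lit 1470960924195) (nat_lit 76) (nat_lit 231626483639) (nat_lit 210) (nat_lit 5) (nat_lit 212) (nat_lit 5) (nat_lit 211) (nat_lit 5) (nat_lit 432) (nat_lit 402) (nat_lit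 186))) (XT.nd (nat_lit 78) (nat_lit 76) (nat_lit 0) (XT.lf (nat_lit 0) (nat_lit 383548713479) (nat_lit 152) (nat_lit 579961376394) (nat_lit 228) (nat_lit 958201439900) (nat_lit 208) (nat_lit 5) (nat_lit 210) (nat_lit 5) (nat_lit 211) (nat_lit 5) (nat_lit 433) (nat_lit 402) (nat_lit 185)) (XT.lf (nat_lit 0) (nat_lit 424406881498) (nat_lit 76) (nat_lit 1482982478529) (nat_lit 152) (nat_lit 111440153792) (nat_lit 207) (nat_lit 5) (nat_lit 208) (nat_lit 5) (nat_lit 209) (nat_lit 4) (nat_lit 434) (nat_lit 402) (nat_lit 184))))) (XT.nd (nat_lit 312) (nat_lit 608) (nat_lit 0) (XT.nd (nat_lit 156) (nat_lit 304) (nat_lit 0) (XT.nd (nat_lit 78) (nat_lit 76) (nat_lit 0) (XT.lf (nat_lit 0) (nat_lit 468779563205) (nat_lit 152) (nat_lit 352910679690) (nat_lit 228) (nat_lit 1299183230844) (nat_lit 204) (nat_lit 5) (nat_lit 206) (nat_lit 5) (nat_lit 207) (nat_lit 5) (nat_lit 435) (nat_lit 402) (nat_lit 183))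 (XT.lf (nat_lit 0) (nat_lit 525212512995) (nat_lit 76) (nat_lit 1350380737141) (nat_lit 152) (nat_lit 352895030980) (nat_lit 203) (nat_lit 5) (nat_lit 204) (nat_lit 5) (nat_lit 205) (nat_lit 4) (nat_lit 436) (nat_lit 402) (nat_lit 182))) (XT.nd (nat_lit 78) (nat_lit 76) (nat_lit 0) (XT.lf (nat_lit 0) (nat_lit 594587367933) (nat_lit 152) (nat_lit 97577671402) (nat_lit 228) (nat_lit 1649800706776) (nat_lit 200) (nat_lit 5) (nat_lit 202) (nat_lit 5) (nat_lit 203) (nat_lit 5) (nat_lit 437) (nat_lit 402) (nat_lit 181)) (XT.lf (nat_lit 0) (nat_lit 669453825288) (nat_lit 76) (nat_lit 1199387144438) (nat_lit 152) (nat_lit 592372441492) (nat_lit 199) (nat_lit 5) (nat_lit 200) (nat_lit 5) (nat_lit 201) (nat_lit 4) (nat_lit 438) (nat_lit 402) (nat_lit 180)))) (XT.nd (nat_lit 156) (nat_lit 304) (nat_lit 0) (XT.nd (nat_lit 78) (nat_lit 76) (nat_lit 0) (XT.lf (nat_lit 0) (nat_lit 579599823352) (nat_lit 228)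 (nat_lit 1822934811226) (nat_lit 76) (nat_lit 184660077359) (nat_lit 196) (nat_lit 5) (nat_lit 199) (nat_lit 5) (nat_lit 197) (nat_lit 4) (nat_lit 439) (nat_lit 402) (nat_lit 179)) (XT.lf (nat_lit 0) (nat_lit 863978854801) (nat_lit 76) (nat_lit 1026310565565) (nat_lit 152) (nat_lit 829193875379) (nat_lit 195) (nat_lit 5) (nat_lit 196) (nat_lit 5) (nat_lit 197) (nat_lit 4) (nat_lit 440) (nat_lit 402) (nat_lit 178))) (XT.nd (nat_lit 78) (nat_lit 76) (nat_lit 0) (XT.lf (nat_lit 0) (nat_lit 485167152807) (nat_lit 228) (nat_lit 1873135397904) (nat_lit 76) (nat_lit 500912115946) (nat_lit 192) (nat_lit 5) (nat_lit 195) (nat_lit 5) (nat_lit 193) (nat_lit 4) (nat_lit 441) (nat_lit 402) (nat_lit 177)) (XT.lf (nat_lit 0) (nat_lit 1116663820996) (nat_lit 76) (nat_lit 826941978304) (nat_lit 152) (nat_lit 1062440098319) (nat_lit 191) (nat_lit 5) (nat_lit 192) (nat_lit 5) (nat_lit 193) (nat_lit 4) (nat_lit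 442) (nat_lit 402) (nat_lit 176)))))) (XT.nd (nat_lit 50544) (nat_lit 0) (nat_lit 4864) (XT.nd (nat_lit 50232) (nat_lit 0) (nat_lit 7980) (XT.nd (nat_lit 50076) (nat_lit 0) (nat_lit 7904) (XT.nd (nat_lit 49998) (nat_lit 0) (nat_lit 7828) (XT.lf (nat_lit 0) (nat_lit 409856209736) (nat_lit 152) (nat_lit 1890964363855) (nat_lit 76) (nat_lit 860171953001) (nat_lit 189) (nat_lit 5) (nat_lit 191) (nat_lit 5) (nat_lit 190) (nat_lit 4) (nat_lit 443) (nat_lit 402) (nat_lit 175)) (XT.lf (nat_lit 0) (nat_lit 121691564851) (nat_lit 836) (nat_lit 68541213076) (nat_lit 836) (nat_lit 68541213076) (nat_lit 292) (nat_lit 3) (nat_lit 303) (nat_lit 3) (nat_lit 303) (nat_lit 5) (nat_lit 403) (nat_lit 403) (nat_lit 214))) (XT.nd (nat_lit 78) (nat_lit 0) (nat_lit 0) (XT.lf (nat_lit 0) (nat_lit 258031258777) (nat_lit 760) (nat_lit 252358554688) (nat_lit 836) (nat_lit 27614447628) (nat_lit 293) (nat_lit 5) (nat_lit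 303) (nat_lit 5) (nat_lit 304) (nat_lit 5) (nat_lit 404) (nat_lit 403) (nat_lit 213)) (XT.lf (nat_lit 76) (nat_lit 186628371395) (nat_lit 0) (nat_lit 98978998207) (nat_lit 836) (nat_lit 273901866333) (nat_lit 294) (nat_lit 5) (nat_lit 293) (nat_lit 5) (nat_lit 304) (nat_lit 5) (nat_lit 405) (nat_lit 403) (nat_lit 212)))) (XT.nd (nat_lit 156) (nat_lit 0) (nat_lit 152) (XT.nd (nat_lit 78) (nat_lit 0) (nat_lit 76) (XT.lf (nat_lit 76) (nat_lit 84470787962) (nat_lit 0) (nat_lit 242097357717) (nat_lit 836) (nat_lit 255607534265) (nat_lit 295) (nat_lit 5) (nat_lit 294) (nat_lit 5) (nat_lit 305) (nat_lit 5) (nat_lit 406) (nat_lit 403) (nat_lit 211)) (XT.lf (nat_lit 0) (nat_lit 382238360888) (nat_lit 760) (nat_lit 19541934411) (nat_lit 836) (nat_lit 204303515324) (nat_lit 295) (nat_lit 5) (nat_lit 305) (nat_lit 5) (nat_lit 306) (nat_lit 5) (nat_lit 407) (nat_lit 403) (nat_lit 210))) (XT.nd (nat_lit 78)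 (nat_lit 0) (nat_lit 0) (XT.lf (nat_lit 0) (nat_lit 455246535147) (nat_lit 760) (nat_lit 123071226489) (nat_lit 836) (nat_lit 52942613026) (nat_lit 296) (nat_lit 5) (nat_lit 306) (nat_lit 5) (nat_lit 307) (nat_lit 5) (nat_lit 408) (nat_lit 403) (nat_lit 209)) (XT.lf (nat_lit 76) (nat_lit 427298373213) (nat_lit 0) (nat_lit 120589024970) (nat_lit 836) (nat_lit 109874063902) (nat_lit 297) (nat_lit 5) (nat_lit 296) (nat_lit 5) (nat_lit 307) (nat_lit 5) (nat_lit 409) (nat_lit 403) (nat_lit 208))))) (XT.nd (nat_lit 312) (nat_lit 1292) (nat_lit 0) (XT.nd (nat_lit 156) (nat_lit 760) (nat_lit 0) (XT.nd (nat_lit 78) (nat_lit 532) (nat_lit 0) (XT.lf (nat_lit 0) (nat_lit 344988125562) (nat_lit 760) (nat_lit 316351985637) (nat_lit 836) (nat_lit 24372496255) (nat_lit 287) (nat_lit 5) (nat_lit 297) (nat_lit 5) (nat_lit 298) (nat_lit 5) (nat_lit 410) (nat_lit 403) (nat_lit 207)) (XT.lf (nat_lit 0) (nat_lit 78973398159)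 (nat_lit 532) (nat_lit 453969095898) (nat_lit 76) (nat_lit 182245308907) (nat_lit 280) (nat_lit 5) (nat_lit 287) (nat_lit 5) (nat_lit 281) (nat_lit 5) (nat_lit 411) (nat_lit 403) (nat_lit 206))) (XT.nd (nat_lit 78) (nat_lit 380) (nat_lit 0) (XT.lf (nat_lit 0) (nat_lit 176569010290) (nat_lit 380) (nat_lit 27298960686) (nat_lit 456) (nat_lit 542426320662) (nat_lit 275) (nat_lit 5) (nat_lit 280) (nat_lit 5) (nat_lit 281) (nat_lit 5) (nat_lit 412) (nat_lit 403) (nat_lit 205)) (XT.lf (nat_lit 0) (nat_lit 88882626200) (nat_lit 380) (nat_lit 267396513934) (nat_lit 456) (nat_lit 422733907748) (nat_lit 270) (nat_lit 5) (nat_lit 275) (nat_lit 5) (nat_lit 276) (nat_lit 5) (nat_lit 413) (nat_lit 403) (nat_lit 204)))) (XT.nd (nat_lit 156) (nat_lit 988) (nat_lit 0) (XT.nd (nat_lit 78) (nat_lit 0) (nat_lit 0) (XT.lf (nat_lit 0) (nat_lit 1765590224) (nat_lit 304) (nat_lit 534031080262) (nat_lit 380) (nat_lit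 277806960756) (nat_lit 266) (nat_lit 5) (nat_lit 270) (nat_lit 5) (nat_lit 271) (nat_lit 5) (nat_lit 414) (nat_lit 403) (nat_lit 203)) (XT.lf (nat_lit 0) (nat_lit 746490290493) (nat_lit 380) (nat_lit 81495866158) (nat_lit 76) (nat_lit 22134570258) (nat_lit 266) (nat_lit 5) (nat_lit 271) (nat_lit 5) (nat_lit 267) (nat_lit 5) (nat_lit 415) (nat_lit 403) (nat_lit 202))) (XT.nd (nat_lit 78) (nat_lit 608) (nat_lit 0) (XT.lf (nat_lit 0) (nat_lit 102375686527) (nat_lit 380) (nat_lit 168840209509) (nat_lit 76) (nat_lit 617247377004) (nat_lit 261) (nat_lit 5) (nat_lit 266) (nat_lit 5) (nat_lit 262) (nat_lit 5) (nat_lit 416) (nat_lit 403) (nat_lit 201)) (XT.nd (nat_lit 78) (nat_lit 304) (nat_lit 0) (XT.lf (nat_lit 0) (nat_lit 338685880368) (nat_lit 380) (nat_lit 256699395773) (nat_lit 76) (nat_lit 333530289402) (nat_lit 257) (nat_lit 5) (nat_lit 262) (nat_lit 5) (nat_lit 258) (nat_lit 5) (nat_lit 417)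 (nat_lit 403) (nat_lit 200)) (XT.lf (nat_lit 0) (nat_lit 611580899958) (nat_lit 380) (nat_lit 342360182957) (nat_lit 76) (nat_lit 17778958019) (nat_lit 253) (nat_lit 5) (nat_lit 258) (nat_lit 5) (nat_lit 254) (nat_lit 5) (nat_lit 418) (nat_lit 403) (nat_lit 199))))))))
noncomputable def xc234 : XT := (XT.nd (nat_lit 1248) (nat_lit 1292) (nat_lit 0) (XT.nd (nat_lit 624) (nat_lit 1368) (nat_lit 0) (XT.nd (nat_lit 312) (nat_lit 988) (nat_lit 0) (XT.nd (nat_lit 156) (nat_lit 456) (nat_lit 0) (XT.nd (nat_lit 78) (nat_lit 380) (nat_lit 0) (XT.lf (nat_lit 0) (nat_lit 586401096033) (nat_lit 228) (nat_lit 343645898781) (nat_lit 304) (nat_lit 86714905858) (nat_lit 250) (nat_lit 5) (nat_lit 253) (nat_lit 5) (nat_lit 254) (nat_lit 5) (nat_lit 419) (nat_lit 403) (nat_lit 198)) (XT.lf (nat_lit 0) (nat_lit 221788317882) (nat_lit 380) (nat_lit 518873934442) (nat_lit 76) (nat_lit 323587977545) (nat_lit 245) (nat_lit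 5) (nat_lit 250) (nat_lit 5) (nat_lit 246) (nat_lit 5) (nat_lit 420) (nat_lit 403) (nat_lit 197))) (XT.nd (nat_lit 78) (nat_lit 228) (nat_lit 0) (XT.lf (nat_lit 0) (nat_lit 508265705787) (nat_lit 228) (nat_lit 65058079613) (nat_lit 304) (nat_lit 541073259521) (nat_lit 242) (nat_lit 5) (nat_lit 245) (nat_lit 5) (nat_lit 246) (nat_lit 5) (nat_lit 421) (nat_lit 403) (nat_lit 196)) (XT.lf (nat_lit 0) (nat_lit 472603547329) (nat_lit 228) (nat_lit 507319996976) (nat_lit 304) (nat_lit 187284988174) (nat_lit 239) (nat_lit 5) (nat_lit 242) (nat_lit 5) (nat_lit 243) (nat_lit 5) (nat_lit 422) (nat_lit 403) (nat_lit 195)))) (XT.nd (nat_lit 156) (nat_lit 456) (nat_lit 0) (XT.nd (nat_lit 78) (nat_lit 228) (nat_lit 0) (XT.lf (nat_lit 0) (nat_lit 211073814336) (nat_lit 304) (nat_lit 781359388964) (nat_lit 76) (nat_lit 230534537638) (nat_lit 235) (nat_lit 5) (nat_lit 239) (nat_lit 5) (nat_lit 236) (nat_lit 5)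 (nat_lit 423) (nat_lit 403) (nat_lit 194)) (XT.lf (nat_lit 0) (nat_lit 412223203472) (nat_lit 228) (nat_lit 249892498095) (nat_lit 304) (nat_lit 619549675510) (nat_lit 232) (nat_lit 5) (nat_lit 235) (nat_lit 5) (nat_lit 236) (nat_lit 5) (nat_lit 424) (nat_lit 403) (nat_lit 193))) (XT.nd (nat_lit 78) (nat_lit 304) (nat_lit 0) (XT.lf (nat_lit 0) (nat_lit 388405390876) (nat_lit 152) (nat_lit 789352607760) (nat_lit 228) (nat_lit 165874972529) (nat_lit 230) (nat_lit 5) (nat_lit 232) (nat_lit 5) (nat_lit 233) (nat_lit 5) (nat_lit 425) (nat_lit 403) (nat_lit 192)) (XT.lf (nat_lit 0) (nat_lit 339601157255) (nat_lit 304) (nat_lit 1039062190555) (nat_lit 76) (nat_lit 30347600760) (nat_lit 226) (nat_lit 5) (nat_lit 230) (nat_lit 5) (nat_lit 227) (nat_lit 5) (nat_lit 426) (nat_lit 403) (nat_lit 191))))) (XT.nd (nat_lit 312) (nat_lit 684) (nat_lit 0) (XT.nd (nat_lit 156) (nat_lit 304) (nat_lit 0) (XT.nd (nat_lit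 78) (nat_lit 228) (nat_lit 0) (XT.lf (nat_lit 0) (nat_lit 351327888883) (nat_lit 152) (nat_lit 564161085250) (nat_lit 228) (nat_lit 562204974553) (nat_lit 224) (nat_lit 5) (nat_lit 226) (nat_lit 5) (nat_lit 227) (nat_lit 5) (nat_lit 427) (nat_lit 403) (nat_lit 190)) (XT.lf (nat_lit 0) (nat_lit 15215762032) (nat_lit 228) (nat_lit 1205778015802) (nat_lit 76) (nat_lit 329430176570) (nat_lit 221) (nat_lit 5) (nat_lit 224) (nat_lit 5) (nat_lit 222) (nat_lit 5) (nat_lit 428) (nat_lit 403) (nat_lit 189))) (XT.nd (nat_lit 78) (nat_lit 152) (nat_lit 0) (XT.lf (nat_lit 0) (nat_lit 337042957507) (nat_lit 152) (nat_lit 317070784077) (nat_lit 228) (nat_lit 972648769859) (nat_lit 219) (nat_lit 5) (nat_lit 221) (nat_lit 5) (nat_lit 222) (nat_lit 5) (nat_lit 429) (nat_lit 403) (nat_lit 188)) (XT.lf (nat_lit 0) (nat_lit 338384229707) (nat_lit 152) (nat_lit 1042662076164) (nat_lit 228) (nat_lit 326315709856) (nat_lit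 217) (nat_lit 5) (nat_lit 219) (nat_lit 5) (nat_lit 220) (nat_lit 5) (nat_lit 430) (nat_lit 403) (nat_lit 187)))) (XT.nd (nat_lit 156) (nat_lit 304) (nat_lit 0) (XT.nd (nat_lit 78) (nat_lit 152) (nat_lit 0) (XT.lf (nat_lit 0) (nat_lit 349162634877) (nat_lit 152) (nat_lit 44296039907) (nat_lit 228) (nat_lit 1398979014447) (nat_lit 214) (nat_lit 5) (nat_lit 216) (nat_lit 5) (nat_lit 217) (nat_lit 5) (nat_lit 431) (nat_lit 403) (nat_lit 186)) (XT.lf (nat_lit 0) (nat_lit 359999273756) (nat_lit 152) (nat_lit 845536982053) (nat_lit 228) (nat_lit 676208000984) (nat_lit 212) (nat_lit 5) (nat_lit 214) (nat_lit 5) (nat_lit 215) (nat_lit 5) (nat_lit 432) (nat_lit 403) (nat_lit 185))) (XT.nd (nat_lit 78) (nat_lit 152) (nat_lit 0) (XT.lf (nat_lit 0) (nat_lit 137496992326) (nat_lit 152) (nat_lit 1588637470581) (nat_lit 76) (nat_lit 250156736932) (nat_lit 210) (nat_lit 5) (nat_lit 212) (nat_lit 5) (nat_lit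 211) (nat_lit 5) (nat_lit 433) (nat_lit 403) (nat_lit 184)) (XT.lf (nat_lit 0) (nat_lit 414232923873) (nat_lit 152) (nat_lit 626358148230) (nat_lit 228) (nat_lit 1034857371300) (nat_lit 208) (nat_lit 5) (nat_lit 210) (nat_lit 5) (nat_lit 211) (nat_lit 5) (nat_lit 434) (nat_lit 403) (nat_lit 183)))))) (XT.nd (nat_lit 624) (nat_lit 76) (nat_lit 0) (XT.nd (nat_lit 312) (nat_lit 608) (nat_lit 0) (XT.nd (nat_lit 156) (nat_lit 304) (nat_lit 0) (XT.nd (nat_lit 78) (nat_lit 228) (nat_lit 0) (XT.lf (nat_lit 0) (nat_lit 458359738023) (nat_lit 76) (nat_lit 1601620939657) (nat_lit 152) (nat_lit 120355188803) (nat_lit 207) (nat_lit 5) (nat_lit 208) (nat_lit 5) (nat_lit 209) (nat_lit 4) (nat_lit 435) (nat_lit 403) (nat_lit 182)) (XT.lf (nat_lit 0) (nat_lit 506282226396) (nat_lit 152) (nat_lit 381143399492) (nat_lit 228) (nat_lit 1403117717572) (nat_lit 204) (nat_lit 5) (nat_lit 206) (nat_lit 5) (nat_lit 207)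 (nat_lit 5) (nat_lit 436) (nat_lit 403) (nat_lit 181))) (XT.nd (nat_lit 78) (nat_lit 228) (nat_lit 0) (XT.lf (nat_lit 0) (nat_lit 567229805026) (nat_lit 76) (nat_lit 1458411063056) (nat_lit 152) (nat_lit 381126467628) (nat_lit 203) (nat_lit 5) (nat_lit 204) (nat_lit 5) (nat_lit 205) (nat_lit 4) (nat_lit 437) (nat_lit 403) (nat_lit 180)) (XT.lf (nat_lit 0) (nat_lit 642154640790) (nat_lit 152) (nat_lit 105383754750) (nat_lit 228) (nat_lit 1781784602608) (nat_lit 200) (nat_lit 5) (nat_lit 202) (nat_lit 5) (nat_lit 203) (nat_lit 5) (nat_lit 438) (nat_lit 403) (nat_lit 179)))) (XT.nd (nat_lit 156) (nat_lit 304) (nat_lit 0) (XT.nd (nat_lit 78) (nat_lit 228) (nat_lit 0) (XT.lf (nat_lit 0) (nat_lit 723010407789) (nat_lit 76) (nat_lit 1295337987436) (nat_lit 152) (nat_lit 639762081494) (nat_lit 199) (nat_lit 5) (nat_lit 200) (nat_lit 5) (nat_lit 201) (nat_lit 4) (nat_lit 439) (nat_lit 403) (nat_lit 178))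 (XT.lf (nat_lit 0) (nat_lit 625967954597) (nat_lit 228) (nat_lit 1968769321700) (nat_lit 76) (nat_lit 199433005327) (nat_lit 196) (nat_lit 5) (nat_lit 199) (nat_lit 5) (nat_lit 197) (nat_lit 4) (nat_lit 440) (nat_lit 403) (nat_lit 177))) (XT.nd (nat_lit 78) (nat_lit 228) (nat_lit 0) (XT.lf (nat_lit 0) (nat_lit 933097425683) (nat_lit 76) (nat_lit 1108415287019) (nat_lit 152) (nat_lit 895529239768) (nat_lit 195) (nat_lit 5) (nat_lit 196) (nat_lit 5) (nat_lit 197) (nat_lit 4) (nat_lit 441) (nat_lit 403) (nat_lit 176)) (XT.lf (nat_lit 0) (nat_lit 523980661448) (nat_lit 228) (nat_lit 2022985969351) (nat_lit 76) (nat_lit 540985202370) (nat_lit 192) (nat_lit 5) (nat_lit 195) (nat_lit 5) (nat_lit 193) (nat_lit 4) (nat_lit 442) (nat_lit 403) (nat_lit 175))))) (XT.nd (nat_lit 50310) (nat_lit 0) (nat_lit 7296) (XT.nd (nat_lit 50154) (nat_lit 0) (nat_lit 7752) (XT.nd (nat_lit 50076) (nat_lit 0) (nat_lit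 7676) (XT.lf (nat_lit 0) (nat_lit 1205997175745) (nat_lit 76) (nat_lit 893097217699) (nat_lit 152) (nat_lit 1147435169474) (nat_lit 191) (nat_lit 5) (nat_lit 192) (nat_lit 5) (nat_lit 193) (nat_lit 4) (nat_lit 443) (nat_lit 403) (nat_lit 174)) (XT.lf (nat_lit 0) (nat_lit 131427258973) (nat_lit 836) (nat_lit 74024316432) (nat_lit 836) (nat_lit 74024316432) (nat_lit 292) (nat_lit 3) (nat_lit 303) (nat_lit 3) (nat_lit 303) (nat_lit 5) (nat_lit 404) (nat_lit 404) (nat_lit 212))) (XT.nd (nat_lit 78) (nat_lit 0) (nat_lit 0) (XT.lf (nat_lit 0) (nat_lit 278674443505) (nat_lit 760) (nat_lit 272546829095) (nat_lit 836) (nat_lit 29823295179) (nat_lit 293) (nat_lit 5) (nat_lit 303) (nat_lit 5) (nat_lit 304) (nat_lit 5) (nat_lit 405) (nat_lit 404) (nat_lit 211)) (XT.lf (nat_lit 76) (nat_lit 201559033257) (nat_lit 0) (nat_lit 106897565392) (nat_lit 836) (nat_lit 295813344186) (nat_lit 294) (nat_lit 5) (nat_lit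 293) (nat_lit 5) (nat_lit 304) (nat_lit 5) (nat_lit 406) (nat_lit 404) (nat_lit 210)))) (XT.nd (nat_lit 156) (nat_lit 532) (nat_lit 0) (XT.nd (nat_lit 78) (nat_lit 0) (nat_lit 76) (XT.lf (nat_lit 76) (nat_lit 91228860386) (nat_lit 0) (nat_lit 261465331874) (nat_lit 836) (nat_lit 276055512333) (nat_lit 295) (nat_lit 5) (nat_lit 294) (nat_lit 5) (nat_lit 305) (nat_lit 5) (nat_lit 407) (nat_lit 404) (nat_lit 209)) (XT.lf (nat_lit 0) (nat_lit 412817977934) (nat_lit 760) (nat_lit 21104879877) (nat_lit 836) (nat_lit 220647630252) (nat_lit 295) (nat_lit 5) (nat_lit 305) (nat_lit 5) (nat_lit 306) (nat_lit 5) (nat_lit 408) (nat_lit 404) (nat_lit 208))) (XT.nd (nat_lit 78) (nat_lit 684) (nat_lit 0) (XT.lf (nat_lit 0) (nat_lit 491666769734) (nat_lit 760) (nat_lit 132916505517) (nat_lit 836) (nat_lit 57177903796) (nat_lit 296) (nat_lit 5) (nat_lit 306) (nat_lit 5) (nat_lit 307) (nat_lit 5) (nat_lit 409)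 (nat_lit 404) (nat_lit 207)) (XT.nd (nat_lit 78) (nat_lit 684) (nat_lit 0) (XT.lf (nat_lit 76) (nat_lit 461482643948) (nat_lit 0) (nat_lit 130236226214) (nat_lit 836) (nat_lit 118663484884) (nat_lit 297) (nat_lit 5) (nat_lit 296) (nat_lit 5) (nat_lit 307) (nat_lit 5) (nat_lit 410) (nat_lit 404) (nat_lit 206)) (XT.lf (nat_lit 0) (nat_lit 372587583210) (nat_lit 760) (nat_lit 341660186663) (nat_lit 836) (nat_lit 26321823688) (nat_lit 287) (nat_lit 5) (nat_lit 297) (nat_lit 5) (nat_lit 298) (nat_lit 5) (nat_lit 411) (nat_lit 404) (nat_lit 205))))))))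
noncomputable def xc235 : XT := (XT.nd (nat_lit 1248) (nat_lit 2584) (nat_lit 0) (XT.nd (nat_lit 624) (nat_lit 2052) (nat_lit 0) (XT.nd (nat_lit 312) (nat_lit 988) (nat_lit 0) (XT.nd (nat_lit 156) (nat_lit 684) (nat_lit 0) (XT.nd (nat_lit 78) (nat_lit 380) (nat_lit 0) (XT.lf (nat_lit 0) (nat_lit 85291699219) (nat_lit 532) (nat_lit 490286197348) (nat_lit 76) (nat_lit 196824909174) (nat_lit 280) (nat_lit 5) (nat_lit 287) (nat_lit 5) (nat_lit 281) (nat_lit 5) (nat_lit 412) (nat_lit 404) (nat_lit 204)) (XT.lf (nat_lit 0) (nat_lit 190694938813) (nat_lit 380) (nat_lit 29482873622) (nat_lit 456) (nat_lit 585820002347) (nat_lit 275) (nat_lit 5) (nat_lit 280) (nat_lit 5) (nat_lit 281) (nat_lit 5) (nat_lit 413) (nat_lit 404) (nat_lit 203))) (XT.nd (nat_lit 78) (nat_lit 304) (nat_lit 0) (XT.lf (nat_lit 0) (nat_lit 95993645530) (nat_lit 380) (nat_lit 288788206131) (nat_lit 456) (nat_lit 456552221037) (nat_lit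 270) (nat_lit 5) (nat_lit 275) (nat_lit 5) (nat_lit 276) (nat_lit 5) (nat_lit 414) (nat_lit 404) (nat_lit 202)) (XT.lf (nat_lit 0) (nat_lit 1907246649) (nat_lit 304) (nat_lit 576753516427) (nat_lit 380) (nat_lit 300031140718) (nat_lit 266) (nat_lit 5) (nat_lit 270) (nat_lit 5) (nat_lit 271) (nat_lit 5) (nat_lit 415) (nat_lit 404) (nat_lit 201)))) (XT.nd (nat_lit 156) (nat_lit 608) (nat_lit 0) (XT.nd (nat_lit 78) (nat_lit 380) (nat_lit 0) (XT.lf (nat_lit 0) (nat_lit 806209846821) (nat_lit 380) (nat_lit 88015140664) (nat_lit 76) (nat_lit 23905380922) (nat_lit 266) (nat_lit 5) (nat_lit 271) (nat_lit 5) (nat_lit 267) (nat_lit 5) (nat_lit 416) (nat_lit 404) (nat_lit 200)) (XT.lf (nat_lit 0) (nat_lit 110566060913) (nat_lit 380) (nat_lit 182347038077) (nat_lit 76) (nat_lit 666627219920) (nat_lit 261) (nat_lit 5) (nat_lit 266) (nat_lit 5) (nat_lit 262) (nat_lit 5) (nat_lit 417) (nat_lit 404) (nat_lit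 199))) (XT.nd (nat_lit 78) (nat_lit 304) (nat_lit 0) (XT.lf (nat_lit 0) (nat_lit 365781053483) (nat_lit 380) (nat_lit 277234962122) (nat_lit 76) (nat_lit 360212780047) (nat_lit 257) (nat_lit 5) (nat_lit 262) (nat_lit 5) (nat_lit 258) (nat_lit 5) (nat_lit 418) (nat_lit 404) (nat_lit 198)) (XT.lf (nat_lit 0) (nat_lit 660507659263) (nat_lit 380) (nat_lit 369748616013) (nat_lit 76) (nat_lit 19201354567) (nat_lit 253) (nat_lit 5) (nat_lit 258) (nat_lit 5) (nat_lit 254) (nat_lit 5) (nat_lit 419) (nat_lit 404) (nat_lit 197))))) (XT.nd (nat_lit 312) (nat_lit 988) (nat_lit 0) (XT.nd (nat_lit 156) (nat_lit 456) (nat_lit 0) (XT.nd (nat_lit 78) (nat_lit 380) (nat_lit 0) (XT.lf (nat_lit 0) (nat_lit 633313548713) (nat_lit 228) (nat_lit 371137477410) (nat_lit 304) (nat_lit 93651813016) (nat_lit 250) (nat_lit 5) (nat_lit 253) (nat_lit 5) (nat_lit 254) (nat_lit 5) (nat_lit 420) (nat_lit 404) (nat_lit 196)) (XT.lf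 (nat_lit 0) (nat_lit 239531646129) (nat_lit 380) (nat_lit 560383479770) (nat_lit 76) (nat_lit 349475109219) (nat_lit 245) (nat_lit 5) (nat_lit 250) (nat_lit 5) (nat_lit 246) (nat_lit 5) (nat_lit 421) (nat_lit 404) (nat_lit 195))) (XT.nd (nat_lit 78) (nat_lit 228) (nat_lit 0) (XT.lf (nat_lit 0) (nat_lit 548927315623) (nat_lit 228) (nat_lit 70262621475) (nat_lit 304) (nat_lit 584358858974) (nat_lit 242) (nat_lit 5) (nat_lit 245) (nat_lit 5) (nat_lit 246) (nat_lit 5) (nat_lit 422) (nat_lit 404) (nat_lit 194)) (XT.lf (nat_lit 0) (nat_lit 510412179473) (nat_lit 228) (nat_lit 547905485757) (nat_lit 304) (nat_lit 202267537978) (nat_lit 239) (nat_lit 5) (nat_lit 242) (nat_lit 5) (nat_lit 243) (nat_lit 5) (nat_lit 423) (nat_lit 404) (nat_lit 193)))) (XT.nd (nat_lit 156) (nat_lit 456) (nat_lit 0) (XT.nd (nat_lit 78) (nat_lit 228) (nat_lit 0) (XT.lf (nat_lit 0) (nat_lit 227959949955) (nat_lit 304) (nat_lit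 843867789547) (nat_lit 76) (nat_lit 248977409187) (nat_lit 235) (nat_lit 5) (nat_lit 239) (nat_lit 5) (nat_lit 236) (nat_lit 5) (nat_lit 424) (nat_lit 404) (nat_lit 192)) (XT.lf (nat_lit 0) (nat_lit 445201395051) (nat_lit 228) (nat_lit 269883781277) (nat_lit 304) (nat_lit 669113419984) (nat_lit 232) (nat_lit 5) (nat_lit 235) (nat_lit 5) (nat_lit 236) (nat_lit 5) (nat_lit 425) (nat_lit 404) (nat_lit 191))) (XT.nd (nat_lit 78) (nat_lit 304) (nat_lit 0) (XT.lf (nat_lit 0) (nat_lit 419478151589) (nat_lit 152) (nat_lit 852500696208) (nat_lit 228) (nat_lit 179144750598) (nat_lit 230) (nat_lit 5) (nat_lit 232) (nat_lit 5) (nat_lit 233) (nat_lit 5) (nat_lit 426) (nat_lit 404) (nat_lit 190)) (XT.lf (nat_lit 0) (nat_lit 366769453677) (nat_lit 304) (nat_lit 1122186835719) (nat_lit 76) (nat_lit 32775524867) (nat_lit 226) (nat_lit 5) (nat_lit 230) (nat_lit 5) (nat_lit 227) (nat_lit 5) (nat_lit 427) (nat_lit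 404) (nat_lit 189)))))) (XT.nd (nat_lit 624) (nat_lit 1216) (nat_lit 0) (XT.nd (nat_lit 312) (nat_lit 684) (nat_lit 0) (XT.nd (nat_lit 156) (nat_lit 304) (nat_lit 0) (XT.nd (nat_lit 78) (nat_lit 228) (nat_lit 0) (XT.lf (nat_lit 0) (nat_lit 379434435729) (nat_lit 152) (nat_lit 609293850007) (nat_lit 228) (nat_lit 607181169162) (nat_lit 224) (nat_lit 5) (nat_lit 226) (nat_lit 5) (nat_lit 227) (nat_lit 5) (nat_lit 428) (nat_lit 404) (nat_lit 188)) (XT.lf (nat_lit 0) (nat_lit 16433211965) (nat_lit 228) (nat_lit 1302239941364) (nat_lit 76) (nat_lit 355784707979) (nat_lit 221) (nat_lit 5) (nat_lit 224) (nat_lit 5) (nat_lit 222) (nat_lit 5) (nat_lit 429) (nat_lit 404) (nat_lit 187))) (XT.nd (nat_lit 78) (nat_lit 152) (nat_lit 0) (XT.lf (nat_lit 0) (nat_lit 364006696090) (nat_lit 152) (nat_lit 342436324509) (nat_lit 228) (nat_lit 1050460482776) (nat_lit 219) (nat_lit 5) (nat_lit 221) (nat_lit 5) (nat_lit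 222) (nat_lit 5) (nat_lit 430) (nat_lit 404) (nat_lit 186)) (XT.lf (nat_lit 0) (nat_lit 365455263709) (nat_lit 152) (nat_lit 1126074919392) (nat_lit 228) (nat_lit 352420785246) (nat_lit 217) (nat_lit 5) (nat_lit 219) (nat_lit 5) (nat_lit 220) (nat_lit 5) (nat_lit 431) (nat_lit 404) (nat_lit 185)))) (XT.nd (nat_lit 156) (nat_lit 304) (nat_lit 0) (XT.nd (nat_lit 78) (nat_lit 152) (nat_lit 0) (XT.lf (nat_lit 0) (nat_lit 377095933998) (nat_lit 152) (nat_lit 47839601855) (nat_lit 228) (nat_lit 1510897160161) (nat_lit 214) (nat_lit 5) (nat_lit 216) (nat_lit 5) (nat_lit 217) (nat_lit 5) (nat_lit 432) (nat_lit 404) (nat_lit 184)) (XT.lf (nat_lit 0) (nat_lit 388799497639) (nat_lit 152) (nat_lit 913179819501) (nat_lit 228) (nat_lit 730304472154) (nat_lit 212) (nat_lit 5) (nat_lit 214) (nat_lit 5) (nat_lit 215) (nat_lit 5) (nat_lit 433) (nat_lit 404) (nat_lit 183))) (XT.nd (nat_lit 78) (nat_lit 152) (nat_lit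 0) (XT.lf (nat_lit 0) (nat_lit 148496909257) (nat_lit 152) (nat_lit 1715728187406) (nat_lit 76) (nat_lit 270169391285) (nat_lit 210) (nat_lit 5) (nat_lit 212) (nat_lit 5) (nat_lit 211) (nat_lit 5) (nat_lit 434) (nat_lit 404) (nat_lit 182)) (XT.lf (nat_lit 0) (nat_lit 447371826400) (nat_lit 152) (nat_lit 676466681540) (nat_lit 228) (nat_lit 1117645803432) (nat_lit 208) (nat_lit 5) (nat_lit 210) (nat_lit 5) (nat_lit 211) (nat_lit 5) (nat_lit 435) (nat_lit 404) (nat_lit 181))))) (XT.nd (nat_lit 312) (nat_lit 608) (nat_lit 0) (XT.nd (nat_lit 156) (nat_lit 304) (nat_lit 0) (XT.nd (nat_lit 78) (nat_lit 228) (nat_lit 0) (XT.lf (nat_lit 0) (nat_lit 495028779415) (nat_lit 76) (nat_lit 1729750497241) (nat_lit 152) (nat_lit 129983451907) (nat_lit 207) (nat_lit 5) (nat_lit 208) (nat_lit 5) (nat_lit 209) (nat_lit 4) (nat_lit 436) (nat_lit 404) (nat_lit 180)) (XT.lf (nat_lit 0) (nat_lit 546785060110) (nat_lit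 152) (nat_lit 411634756076) (nat_lit 228) (nat_lit 1515366987740) (nat_lit 204) (nat_lit 5) (nat_lit 206) (nat_lit 5) (nat_lit 207) (nat_lit 5) (nat_lit 437) (nat_lit 404) (nat_lit 179))) (XT.nd (nat_lit 78) (nat_lit 228) (nat_lit 0) (XT.lf (nat_lit 0) (nat_lit 612608438906) (nat_lit 76) (nat_lit 1575083834025) (nat_lit 152) (nat_lit 411616442865) (nat_lit 203) (nat_lit 5) (nat_lit 204) (nat_lit 5) (nat_lit 205) (nat_lit 4) (nat_lit 438) (nat_lit 404) (nat_lit 178)) (XT.lf (nat_lit 0) (nat_lit 693527255041) (nat_lit 152) (nat_lit 113814343364) (nat_lit 228) (nat_lit 1924327233034) (nat_lit 200) (nat_lit 5) (nat_lit 202) (nat_lit 5) (nat_lit 203) (nat_lit 5) (nat_lit 439) (nat_lit 404) (nat_lit 177)))) (XT.nd (nat_lit 156) (nat_lit 304) (nat_lit 0) (XT.nd (nat_lit 78) (nat_lit 228) (nat_lit 0) (XT.lf (nat_lit 0) (nat_lit 780851477447) (nat_lit 76) (nat_lit 1398964916215) (nat_lit 152) (nat_lit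 690942914855) (nat_lit 199) (nat_lit 5) (nat_lit 200) (nat_lit 5) (nat_lit 201) (nat_lit 4) (nat_lit 440) (nat_lit 404) (nat_lit 176)) (XT.lf (nat_lit 0) (nat_lit 676045515602) (nat_lit 228) (nat_lit 2126270632162) (nat_lit 76) (nat_lit 215387750158) (nat_lit 196) (nat_lit 5) (nat_lit 199) (nat_lit 5) (nat_lit 197) (nat_lit 4) (nat_lit 441) (nat_lit 404) (nat_lit 175))) (XT.nd (nat_lit 78) (nat_lit 228) (nat_lit 0) (XT.lf (nat_lit 0) (nat_lit 1007745444787) (nat_lit 76) (nat_lit 1197088403849) (nat_lit 152) (nat_lit 967171454085) (nat_lit 195) (nat_lit 5) (nat_lit 196) (nat_lit 5) (nat_lit 197) (nat_lit 4) (nat_lit 442) (nat_lit 404) (nat_lit 174)) (XT.nd (nat_lit 50154) (nat_lit 0) (nat_lit 7600) (XT.lf (nat_lit 0) (nat_lit 565899231319) (nat_lit 228) (nat_lit 2184824623661) (nat_lit 76) (nat_lit 584264118996) (nat_lit 192) (nat_lit 5) (nat_lit 195) (nat_lit 5) (nat_lit 193) (nat_lit 4) (nat_lit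 443) (nat_lit 404) (nat_lit 173)) (XT.lf (nat_lit 0) (nat_lit 141941755993) (nat_lit 836) (nat_lit 79946095688) (nat_lit 836) (nat_lit 79946095688) (nat_lit 292) (nat_lit 3) (nat_lit 303) (nat_lit 3) (nat_lit 303) (nat_lit 5) (nat_lit 405) (nat_lit 405) (nat_lit 210))))))))
noncomputable def xc236 : XT := (XT.nd (nat_lit 1248) (nat_lit 3268) (nat_lit 0) (XT.nd (nat_lit 624) (nat_lit 2280) (nat_lit 0) (XT.nd (nat_lit 312) (nat_lit 988) (nat_lit 0) (XT.nd (nat_lit 156) (nat_lit 0) (nat_lit 76) (XT.nd (nat_lit 78) (nat_lit 0) (nat_lit 0) (XT.lf (nat_lit 0) (nat_lit 300968985426) (nat_lit 760) (nat_lit 294350223942) (nat_lit 836) (nat_lit 32208894512) (nat_lit 293) (nat_lit 5) (nat_lit 303) (nat_lit 5) (nat_lit 304) (nat_lit 5) (nat_lit 406) (nat_lit 405) (nat_lit 209)) (XT.lf (nat_lit 76) (nat_lit 217684092124) (nat_lit 0) (nat_lit 115449582667) (nat_lit 836) (nat_lit 319477836059) (nat_lit 294)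 (nat_lit 5) (nat_lit 293) (nat_lit 5) (nat_lit 304) (nat_lit 5) (nat_lit 407) (nat_lit 405) (nat_lit 208))) (XT.nd (nat_lit 78) (nat_lit 0) (nat_lit 76) (XT.lf (nat_lit 76) (nat_lit 98527520200) (nat_lit 0) (nat_lit 282382717495) (nat_lit 836) (nat_lit 298139417764) (nat_lit 295) (nat_lit 5) (nat_lit 294) (nat_lit 5) (nat_lit 305) (nat_lit 5) (nat_lit 408) (nat_lit 405) (nat_lit 207)) (XT.lf (nat_lit 0) (nat_lit 445843886141) (nat_lit 760) (nat_lit 22792919369) (nat_lit 836) (nat_lit 238299298099) (nat_lit 295) (nat_lit 5) (nat_lit 305) (nat_lit 5) (nat_lit 306) (nat_lit 5) (nat_lit 409) (nat_lit 405) (nat_lit 206)))) (XT.nd (nat_lit 156) (nat_lit 1216) (nat_lit 0) (XT.nd (nat_lit 78) (nat_lit 0) (nat_lit 0) (XT.lf (nat_lit 0) (nat_lit 531000550077) (nat_lit 760) (nat_lit 143549466655) (nat_lit 836) (nat_lit 61752034701) (nat_lit 296) (nat_lit 5) (nat_lit 306) (nat_lit 5) (nat_lit 307) (nat_lit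 5) (nat_lit 410) (nat_lit 405) (nat_lit 205)) (XT.lf (nat_lit 76) (nat_lit 498401599153) (nat_lit 0) (nat_lit 140655192252) (nat_lit 836) (nat_lit 128156131464) (nat_lit 297) (nat_lit 5) (nat_lit 296) (nat_lit 5) (nat_lit 307) (nat_lit 5) (nat_lit 411) (nat_lit 405) (nat_lit 204))) (XT.nd (nat_lit 78) (nat_lit 532) (nat_lit 0) (XT.lf (nat_lit 0) (nat_lit 402394939321) (nat_lit 760) (nat_lit 368993037754) (nat_lit 836) (nat_lit 28427164691) (nat_lit 287) (nat_lit 5) (nat_lit 297) (nat_lit 5) (nat_lit 298) (nat_lit 5) (nat_lit 412) (nat_lit 405) (nat_lit 203)) (XT.lf (nat_lit 0) (nat_lit 92115403132) (nat_lit 532) (nat_lit 529508727719) (nat_lit 76) (nat_lit 212570880950) (nat_lit 280) (nat_lit 5) (nat_lit 287) (nat_lit 5) (nat_lit 281) (nat_lit 5) (nat_lit 413) (nat_lit 405) (nat_lit 202))))) (XT.nd (nat_lit 312) (nat_lit 1216) (nat_lit 0) (XT.nd (nat_lit 156) (nat_lit 304) (nat_lit 0) (XT.nd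 (nat_lit 78) (nat_lit 380) (nat_lit 0) (XT.lf (nat_lit 0) (nat_lit 205950883454) (nat_lit 380) (nat_lit 31841500151) (nat_lit 456) (nat_lit 632685239051) (nat_lit 275) (nat_lit 5) (nat_lit 280) (nat_lit 5) (nat_lit 281) (nat_lit 5) (nat_lit 414) (nat_lit 405) (nat_lit 201)) (XT.lf (nat_lit 0) (nat_lit 103673488025) (nat_lit 380) (nat_lit 311891237828) (nat_lit 456) (nat_lit 493076056357) (nat_lit 270) (nat_lit 5) (nat_lit 275) (nat_lit 5) (nat_lit 276) (nat_lit 5) (nat_lit 415) (nat_lit 405) (nat_lit 200))) (XT.nd (nat_lit 78) (nat_lit 0) (nat_lit 0) (XT.lf (nat_lit 0) (nat_lit 2060177209) (nat_lit 304) (nat_lit 622893754656) (nat_lit 380) (nat_lit 324033308846) (nat_lit 266) (nat_lit 5) (nat_lit 270) (nat_lit 5) (nat_lit 271) (nat_lit 5) (nat_lit 416) (nat_lit 405) (nat_lit 199)) (XT.lf (nat_lit 0) (nat_lit 870706920137) (nat_lit 380) (nat_lit 95056013452) (nat_lit 76) (nat_lit 25817850013)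 (nat_lit 266) (nat_lit 5) (nat_lit 271) (nat_lit 5) (nat_lit 267) (nat_lit 5) (nat_lit 417) (nat_lit 405) (nat_lit 198)))) (XT.nd (nat_lit 156) (nat_lit 532) (nat_lit 0) (XT.nd (nat_lit 78) (nat_lit 304) (nat_lit 0) (XT.lf (nat_lit 0) (nat_lit 119411619675) (nat_lit 380) (nat_lit 196934468311) (nat_lit 76) (nat_lit 719957442743) (nat_lit 261) (nat_lit 5) (nat_lit 266) (nat_lit 5) (nat_lit 262) (nat_lit 5) (nat_lit 418) (nat_lit 405) (nat_lit 197)) (XT.lf (nat_lit 0) (nat_lit 395043797266) (nat_lit 380) (nat_lit 299413428747) (nat_lit 76) (nat_lit 389029860316) (nat_lit 257) (nat_lit 5) (nat_lit 262) (nat_lit 5) (nat_lit 258) (nat_lit 5) (nat_lit 419) (nat_lit 405) (nat_lit 196))) (XT.nd (nat_lit 78) (nat_lit 228) (nat_lit 0) (XT.lf (nat_lit 0) (nat_lit 713348518324) (nat_lit 380) (nat_lit 399328178151) (nat_lit 76) (nat_lit 20737531440) (nat_lit 253) (nat_lit 5) (nat_lit 258) (nat_lit 5) (nat_lit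 254) (nat_lit 5) (nat_lit 420) (nat_lit 405) (nat_lit 195)) (XT.lf (nat_lit 0) (nat_lit 683978945536) (nat_lit 228) (nat_lit 400828395637) (nat_lit 304) (nat_lit 101143713450) (nat_lit 250) (nat_lit 5) (nat_lit 253) (nat_lit 5) (nat_lit 254) (nat_lit 5) (nat_lit 421) (nat_lit 405) (nat_lit 194)))))) (XT.nd (nat_lit 624) (nat_lit 1292) (nat_lit 0) (XT.nd (nat_lit 312) (nat_lit 836) (nat_lit 0) (XT.nd (nat_lit 156) (nat_lit 532) (nat_lit 0) (XT.nd (nat_lit 78) (nat_lit 228) (nat_lit 0) (XT.lf (nat_lit 0) (nat_lit 258694403141) (nat_lit 380) (nat_lit 605213841427) (nat_lit 76) (nat_lit 377433198093) (nat_lit 245) (nat_lit 5) (nat_lit 250) (nat_lit 5) (nat_lit 246) (nat_lit 5) (nat_lit 422) (nat_lit 405) (nat_lit 193)) (XT.lf (nat_lit 0) (nat_lit 592841803833) (nat_lit 228) (nat_lit 75883541594) (nat_lit 304) (nat_lit 631107343662) (nat_lit 242) (nat_lit 5) (nat_lit 245) (nat_lit 5) (nat_lit 246)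 (nat_lit 5) (nat_lit 423) (nat_lit 405) (nat_lit 192))) (XT.nd (nat_lit 78) (nat_lit 304) (nat_lit 0) (XT.lf (nat_lit 0) (nat_lit 551245452491) (nat_lit 228) (nat_lit 591737829473) (nat_lit 304) (nat_lit 218448727325) (nat_lit 239) (nat_lit 5) (nat_lit 242) (nat_lit 5) (nat_lit 243) (nat_lit 5) (nat_lit 424) (nat_lit 405) (nat_lit 191)) (XT.lf (nat_lit 0) (nat_lit 246196943544) (nat_lit 304) (nat_lit 911376912184) (nat_lit 76) (nat_lit 268895694977) (nat_lit 235) (nat_lit 5) (nat_lit 239) (nat_lit 5) (nat_lit 236) (nat_lit 5) (nat_lit 425) (nat_lit 405) (nat_lit 190)))) (XT.nd (nat_lit 156) (nat_lit 456) (nat_lit 0) (XT.nd (nat_lit 78) (nat_lit 152) (nat_lit 0) (XT.lf (nat_lit 0) (nat_lit 480817794121) (nat_lit 228) (nat_lit 291474383758) (nat_lit 304) (nat_lit 722642296766) (nat_lit 232) (nat_lit 5) (nat_lit 235) (nat_lit 5) (nat_lit 236) (nat_lit 5) (nat_lit 426) (nat_lit 405) (nat_lit 189))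 (XT.lf (nat_lit 0) (nat_lit 453036686161) (nat_lit 152) (nat_lit 920700648875) (nat_lit 228) (nat_lit 193476142260) (nat_lit 230) (nat_lit 5) (nat_lit 232) (nat_lit 5) (nat_lit 233) (nat_lit 5) (nat_lit 427) (nat_lit 405) (nat_lit 188))) (XT.nd (nat_lit 78) (nat_lit 152) (nat_lit 0) (XT.lf (nat_lit 0) (nat_lit 396111184733) (nat_lit 304) (nat_lit 1211961499586) (nat_lit 76) (nat_lit 35397666347) (nat_lit 226) (nat_lit 5) (nat_lit 230) (nat_lit 5) (nat_lit 227) (nat_lit 5) (nat_lit 428) (nat_lit 405) (nat_lit 187)) (XT.lf (nat_lit 0) (nat_lit 409789461280) (nat_lit 152) (nat_lit 658037253358) (nat_lit 228) (nat_lit 655755488350) (nat_lit 224) (nat_lit 5) (nat_lit 226) (nat_lit 5) (nat_lit 227) (nat_lit 5) (nat_lit 429) (nat_lit 405) (nat_lit 186))))) (XT.nd (nat_lit 312) (nat_lit 532) (nat_lit 0) (XT.nd (nat_lit 156) (nat_lit 380) (nat_lit 0) (XT.nd (nat_lit 78) (nat_lit 152) (nat_lit 0) (XT.lf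 (nat_lit 0) (nat_lit 17748030933) (nat_lit 228) (nat_lit 1406418866010) (nat_lit 76) (nat_lit 384247585170) (nat_lit 221) (nat_lit 5) (nat_lit 224) (nat_lit 5) (nat_lit 222) (nat_lit 5) (nat_lit 430) (nat_lit 405) (nat_lit 185)) (XT.lf (nat_lit 0) (nat_lit 393127490678) (nat_lit 152) (nat_lit 369831125621) (nat_lit 228) (nat_lit 1134497159643) (nat_lit 219) (nat_lit 5) (nat_lit 221) (nat_lit 5) (nat_lit 222) (nat_lit 5) (nat_lit 431) (nat_lit 405) (nat_lit 184))) (XT.nd (nat_lit 78) (nat_lit 228) (nat_lit 0) (XT.lf (nat_lit 0) (nat_lit 394691938257) (nat_lit 152) (nat_lit 1216160807606) (nat_lit 228) (nat_lit 380614292546) (nat_lit 217) (nat_lit 5) (nat_lit 219) (nat_lit 5) (nat_lit 220) (nat_lit 5) (nat_lit 432) (nat_lit 405) (nat_lit 183)) (XT.lf (nat_lit 0) (nat_lit 407263855916) (nat_lit 152) (nat_lit 51666666056) (nat_lit 228) (nat_lit 1631768782561) (nat_lit 214) (nat_lit 5) (nat_lit 216)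 (nat_lit 5) (nat_lit 217) (nat_lit 5) (nat_lit 433) (nat_lit 405) (nat_lit 182)))) (XT.nd (nat_lit 156) (nat_lit 228) (nat_lit 0) (XT.nd (nat_lit 78) (nat_lit 152) (nat_lit 0) (XT.lf (nat_lit 0) (nat_lit 419903699203) (nat_lit 152) (nat_lit 986234101224) (nat_lit 228) (nat_lit 788728685114) (nat_lit 212) (nat_lit 5) (nat_lit 214) (nat_lit 5) (nat_lit 215) (nat_lit 5) (nat_lit 434) (nat_lit 405) (nat_lit 181)) (XT.lf (nat_lit 0) (nat_lit 160376797066) (nat_lit 152) (nat_lit 1852986201640) (nat_lit 76) (nat_lit 291783041524) (nat_lit 210) (nat_lit 5) (nat_lit 212) (nat_lit 5) (nat_lit 211) (nat_lit 5) (nat_lit 435) (nat_lit 405) (nat_lit 180))) (XT.nd (nat_lit 78) (nat_lit 76) (nat_lit 0) (XT.lf (nat_lit 0) (nat_lit 483161802807) (nat_lit 152) (nat_lit 730583914428) (nat_lit 228) (nat_lit 1207057332614) (nat_lit 208) (nat_lit 5) (nat_lit 210) (nat_lit 5) (nat_lit 211) (nat_lit 5) (nat_lit 436)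 (nat_lit 405) (nat_lit 179)) (XT.lf (nat_lit 0) (nat_lit 534631306691) (nat_lit 76) (nat_lit 1868130436208) (nat_lit 152) (nat_lit 140381997743) (nat_lit 207) (nat_lit 5) (nat_lit 208) (nat_lit 5) (nat_lit 209) (nat_lit 4) (nat_lit 437) (nat_lit 405) (nat_lit 178)))))))
noncomputable def xc237 : XT := (XT.nd (nat_lit 51480) (nat_lit 0) (nat_lit 1596) (XT.nd (nat_lit 50856) (nat_lit 0) (nat_lit 5624) (XT.nd (nat_lit 312) (nat_lit 228) (nat_lit 0) (XT.nd (nat_lit 156) (nat_lit 304) (nat_lit 0) (XT.nd (nat_lit 78) (nat_lit 76) (nat_lit 0) (XT.lf (nat_lit 0) (nat_lit 590528084057) (nat_lit 152) (nat_lit 444565437646) (nat_lit 228) (nat_lit 1636596220526) (nat_lit 204) (nat_lit 5) (nat_lit 206) (nat_lit 5) (nat_lit 207) (nat_lit 5) (nat_lit 438) (nat_lit 405) (nat_lit 177)) (XT.lf (nat_lit 0) (nat_lit 661617327905) (nat_lit 76) (nat_lit 1701090442947) (nat_lit 152) (nat_lit 444545636404) (nat_lit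 203) (nat_lit 5) (nat_lit 204) (nat_lit 5) (nat_lit 205) (nat_lit 4) (nat_lit 439) (nat_lit 405) (nat_lit 176))) (XT.nd (nat_lit 78) (nat_lit 76) (nat_lit 0) (XT.lf (nat_lit 0) (nat_lit 749009643768) (nat_lit 152) (nat_lit 122919395011) (nat_lit 228) (nat_lit 2078273293550) (nat_lit 200) (nat_lit 5) (nat_lit 202) (nat_lit 5) (nat_lit 203) (nat_lit 5) (nat_lit 440) (nat_lit 405) (nat_lit 175)) (XT.lf (nat_lit 0) (nat_lit 843319798862) (nat_lit 76) (nat_lit 1510882015019) (nat_lit 152) (nat_lit 746218233880) (nat_lit 199) (nat_lit 5) (nat_lit 200) (nat_lit 5) (nat_lit 201) (nat_lit 4) (nat_lit 441) (nat_lit 405) (nat_lit 174)))) (XT.nd (nat_lit 50388) (nat_lit 0) (nat_lit 7372) (XT.nd (nat_lit 50310) (nat_lit 0) (nat_lit 7296) (XT.lf (nat_lit 0) (nat_lit 730129263706) (nat_lit 228) (nat_lit 2296372081025) (nat_lit 76) (nat_lit 232618859682) (nat_lit 196) (nat_lit 5) (nat_lit 199) (nat_lit 5) (nat_lit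 197) (nat_lit 4) (nat_lit 442) (nat_lit 405) (nat_lit 173)) (XT.lf (nat_lit 0) (nat_lit 153297367650) (nat_lit 836) (nat_lit 86341640974) (nat_lit 836) (nat_lit 86341640974) (nat_lit 292) (nat_lit 3) (nat_lit 303) (nat_lit 3) (nat_lit 303) (nat_lit 5) (nat_lit 406) (nat_lit 406) (nat_lit 208))) (XT.nd (nat_lit 78) (nat_lit 0) (nat_lit 0) (XT.lf (nat_lit 0) (nat_lit 325047007039) (nat_lit 760) (nat_lit 317897940518) (nat_lit 836) (nat_lit 34785379493) (nat_lit 293) (nat_lit 5) (nat_lit 303) (nat_lit 5) (nat_lit 304) (nat_lit 5) (nat_lit 407) (nat_lit 406) (nat_lit 207)) (XT.lf (nat_lit 76) (nat_lit 235099107737) (nat_lit 0) (nat_lit 124685731074) (nat_lit 836) (nat_lit 345035569405) (nat_lit 294) (nat_lit 5) (nat_lit 293) (nat_lit 5) (nat_lit 304) (nat_lit 5) (nat_lit 408) (nat_lit 406) (nat_lit 206))))) (XT.nd (nat_lit 312) (nat_lit 1824) (nat_lit 0) (XT.nd (nat_lit 156) (nat_lit 0) (nat_lit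 152) (XT.nd (nat_lit 78) (nat_lit 0) (nat_lit 76) (XT.lf (nat_lit 76) (nat_lit 106410022727) (nat_lit 0) (nat_lit 304973471272) (nat_lit 836) (nat_lit 321990112032) (nat_lit 295) (nat_lit 5) (nat_lit 294) (nat_lit 5) (nat_lit 305) (nat_lit 5) (nat_lit 409) (nat_lit 406) (nat_lit 205)) (XT.lf (nat_lit 0) (nat_lit 481511799958) (nat_lit 760) (nat_lit 24616052081) (nat_lit 836) (nat_lit 257363119713) (nat_lit 295) (nat_lit 5) (nat_lit 305) (nat_lit 5) (nat_lit 306) (nat_lit 5) (nat_lit 410) (nat_lit 406) (nat_lit 204))) (XT.nd (nat_lit 78) (nat_lit 0) (nat_lit 0) (XT.lf (nat_lit 0) (nat_lit 573480970254) (nat_lit 760) (nat_lit 155033115943) (nat_lit 836) (nat_lit 66692110543) (nat_lit 296) (nat_lit 5) (nat_lit 306) (nat_lit 5) (nat_lit 307) (nat_lit 5) (nat_lit 411) (nat_lit 406) (nat_lit 203)) (XT.lf (nat_lit 76) (nat_lit 538274021742) (nat_lit 0) (nat_lit 151907665880) (nat_lit 836) (nat_lit 138408251430)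 (nat_lit 297) (nat_lit 5) (nat_lit 296) (nat_lit 5) (nat_lit 307) (nat_lit 5) (nat_lit 412) (nat_lit 406) (nat_lit 202)))) (XT.nd (nat_lit 156) (nat_lit 760) (nat_lit 0) (XT.nd (nat_lit 78) (nat_lit 532) (nat_lit 0) (XT.lf (nat_lit 0) (nat_lit 434586834067) (nat_lit 760) (nat_lit 398512511775) (nat_lit 836) (nat_lit 30700990736) (nat_lit 287) (nat_lit 5) (nat_lit 297) (nat_lit 5) (nat_lit 298) (nat_lit 5) (nat_lit 413) (nat_lit 406) (nat_lit 201)) (XT.lf (nat_lit 0) (nat_lit 99484950863) (nat_lit 532) (nat_lit 571869112651) (nat_lit 76) (nat_lit 229576533459) (nat_lit 280) (nat_lit 5) (nat_lit 287) (nat_lit 5) (nat_lit 281) (nat_lit 5) (nat_lit 414) (nat_lit 406) (nat_lit 200))) (XT.nd (nat_lit 78) (nat_lit 380) (nat_lit 0) (XT.lf (nat_lit 0) (nat_lit 222427253801) (nat_lit 380) (nat_lit 34388817282) (nat_lit 456) (nat_lit 683299746546) (nat_lit 275) (nat_lit 5) (nat_lit 280) (nat_lit 5) (nat_lit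 281) (nat_lit 5) (nat_lit 415) (nat_lit 406) (nat_lit 199)) (XT.lf (nat_lit 0) (nat_lit 111967667866) (nat_lit 380) (nat_lit 336842515599) (nat_lit 456) (nat_lit 532521847346) (nat_lit 270) (nat_lit 5) (nat_lit 275) (nat_lit 5) (nat_lit 276) (nat_lit 5) (nat_lit 416) (nat_lit 406) (nat_lit 198)))))) (XT.nd (nat_lit 624) (nat_lit 1900) (nat_lit 0) (XT.nd (nat_lit 312) (nat_lit 1140) (nat_lit 0) (XT.nd (nat_lit 156) (nat_lit 684) (nat_lit 0) (XT.nd (nat_lit 78) (nat_lit 0) (nat_lit 0) (XT.lf (nat_lit 0) (nat_lit 2225292165) (nat_lit 304) (nat_lit 672725218089) (nat_lit 380) (nat_lit 349955696522) (nat_lit 266) (nat_lit 5) (nat_lit 270) (nat_lit 5) (nat_lit 271) (nat_lit 5) (nat_lit 417) (nat_lit 406) (nat_lit 197)) (XT.lf (nat_lit 0) (nat_lit 940363718578) (nat_lit 380) (nat_lit 102660204348) (nat_lit 76) (nat_lit 27883311123) (nat_lit 266) (nat_lit 5) (nat_lit 271) (nat_lit 5) (nat_lit 267) (nat_lit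 5) (nat_lit 418) (nat_lit 406) (nat_lit 196))) (XT.nd (nat_lit 78) (nat_lit 304) (nat_lit 0) (XT.lf (nat_lit 0) (nat_lit 128964784065) (nat_lit 380) (nat_lit 212688940442) (nat_lit 76) (nat_lit 777554076939) (nat_lit 261) (nat_lit 5) (nat_lit 266) (nat_lit 5) (nat_lit 262) (nat_lit 5) (nat_lit 419) (nat_lit 406) (nat_lit 195)) (XT.lf (nat_lit 0) (nat_lit 426647523531) (nat_lit 380) (nat_lit 323366219830) (nat_lit 76) (nat_lit 420152298751) (nat_lit 257) (nat_lit 5) (nat_lit 262) (nat_lit 5) (nat_lit 258) (nat_lit 5) (nat_lit 420) (nat_lit 406) (nat_lit 194)))) (XT.nd (nat_lit 156) (nat_lit 608) (nat_lit 0) (XT.nd (nat_lit 78) (nat_lit 228) (nat_lit 0) (XT.lf (nat_lit 0) (nat_lit 770416610970) (nat_lit 380) (nat_lit 431274151930) (nat_lit 76) (nat_lit 22396592690) (nat_lit 253) (nat_lit 5) (nat_lit 258) (nat_lit 5) (nat_lit 254) (nat_lit 5) (nat_lit 421) (nat_lit 406) (nat_lit 193)) (XT.lf (nat_lit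 0) (nat_lit 738697529463) (nat_lit 228) (nat_lit 432894598730) (nat_lit 304) (nat_lit 109235000814) (nat_lit 250) (nat_lit 5) (nat_lit 253) (nat_lit 5) (nat_lit 254) (nat_lit 5) (nat_lit 422) (nat_lit 406) (nat_lit 192))) (XT.nd (nat_lit 78) (nat_lit 228) (nat_lit 0) (XT.lf (nat_lit 0) (nat_lit 279390148570) (nat_lit 380) (nat_lit 653630677201) (nat_lit 76) (nat_lit 407627922644) (nat_lit 245) (nat_lit 5) (nat_lit 250) (nat_lit 5) (nat_lit 246) (nat_lit 5) (nat_lit 423) (nat_lit 406) (nat_lit 191)) (XT.lf (nat_lit 0) (nat_lit 640269407879) (nat_lit 228) (nat_lit 81954148106) (nat_lit 304) (nat_lit 681595739086) (nat_lit 242) (nat_lit 5) (nat_lit 245) (nat_lit 5) (nat_lit 246) (nat_lit 5) (nat_lit 424) (nat_lit 406) (nat_lit 190))))) (XT.nd (nat_lit 312) (nat_lit 988) (nat_lit 0) (XT.nd (nat_lit 156) (nat_lit 380) (nat_lit 0) (XT.nd (nat_lit 78) (nat_lit 304) (nat_lit 0) (XT.lf (nat_lit 0) (nat_lit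 595345344744) (nat_lit 228) (nat_lit 639076774260) (nat_lit 304) (nat_lit 235924442305) (nat_lit 239) (nat_lit 5) (nat_lit 242) (nat_lit 5) (nat_lit 243) (nat_lit 5) (nat_lit 425) (nat_lit 406) (nat_lit 189)) (XT.lf (nat_lit 0) (nat_lit 265892868432) (nat_lit 304) (nat_lit 984286807505) (nat_lit 76) (nat_lit 290407430354) (nat_lit 235) (nat_lit 5) (nat_lit 239) (nat_lit 5) (nat_lit 236) (nat_lit 5) (nat_lit 426) (nat_lit 406) (nat_lit 188))) (XT.nd (nat_lit 78) (nat_lit 152) (nat_lit 0) (XT.lf (nat_lit 0) (nat_lit 519283464107) (nat_lit 228) (nat_lit 314792248706) (nat_lit 304) (nat_lit 780453511768) (nat_lit 232) (nat_lit 5) (nat_lit 235) (nat_lit 5) (nat_lit 236) (nat_lit 5) (nat_lit 427) (nat_lit 406) (nat_lit 187)) (XT.lf (nat_lit 0) (nat_lit 489279863204) (nat_lit 152) (nat_lit 994356612455) (nat_lit 228) (nat_lit 208954072130) (nat_lit 230) (nat_lit 5) (nat_lit 232) (nat_lit 5) (nat_lit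 233) (nat_lit 5) (nat_lit 428) (nat_lit 406) (nat_lit 186)))) (XT.nd (nat_lit 156) (nat_lit 532) (nat_lit 0) (XT.nd (nat_lit 78) (nat_lit 152) (nat_lit 0) (XT.lf (nat_lit 0) (nat_lit 427800229341) (nat_lit 304) (nat_lit 1308918176935) (nat_lit 76) (nat_lit 38229564952) (nat_lit 226) (nat_lit 5) (nat_lit 230) (nat_lit 5) (nat_lit 227) (nat_lit 5) (nat_lit 429) (nat_lit 406) (nat_lit 185)) (XT.lf (nat_lit 0) (nat_lit 442572850257) (nat_lit 152) (nat_lit 710680143907) (nat_lit 228) (nat_lit 708215777946) (nat_lit 224) (nat_lit 5) (nat_lit 226) (nat_lit 5) (nat_lit 227) (nat_lit 5) (nat_lit 430) (nat_lit 406) (nat_lit 184))) (XT.nd (nat_lit 78) (nat_lit 304) (nat_lit 0) (XT.lf (nat_lit 0) (nat_lit 19168012306) (nat_lit 228) (nat_lit 1518932143241) (nat_lit 76) (nat_lit 414987478190) (nat_lit 221) (nat_lit 5) (nat_lit 224) (nat_lit 5) (nat_lit 222) (nat_lit 5) (nat_lit 431) (nat_lit 406) (nat_lit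 183)) (XT.nd (nat_lit 78) (nat_lit 152) (nat_lit 0) (XT.lf (nat_lit 0) (nat_lit 424577911897) (nat_lit 152) (nat_lit 399417525781) (nat_lit 228) (nat_lit 1225256793736) (nat_lit 219) (nat_lit 5) (nat_lit 221) (nat_lit 5) (nat_lit 222) (nat_lit 5) (nat_lit 432) (nat_lit 406) (nat_lit 182)) (XT.lf (nat_lit 0) (nat_lit 426267510611) (nat_lit 152) (nat_lit 1313453581905) (nat_lit 228) (nat_lit 411063302617) (nat_lit 217) (nat_lit 5) (nat_lit 219) (nat_lit 5) (nat_lit 220) (nat_lit 5) (nat_lit 433) (nat_lit 406) (nat_lit 181))))))))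
noncomputable def xc238 : XT := (XT.nd (nat_lit 51558) (nat_lit 0) (nat_lit 2052) (XT.nd (nat_lit 624) (nat_lit 76) (nat_lit 0) (XT.nd (nat_lit 312) (nat_lit 608) (nat_lit 0) (XT.nd (nat_lit 156) (nat_lit 304) (nat_lit 0) (XT.nd (nat_lit 78) (nat_lit 152) (nat_lit 0) (XT.lf (nat_lit 0) (nat_lit 439845176322) (nat_lit 152) (nat_lit 55799910222) (nat_lit 228) (nat_lit 1762310156211) (nat_lit 214) (nat_lit 5) (nat_lit 216) (nat_lit 5) (nat_lit 217) (nat_lit 5) (nat_lit 434) (nat_lit 406) (nat_lit 180)) (XT.lf (nat_lit 0) (nat_lit 453496202405) (nat_lit 152) (nat_lit 1065132740298) (nat_lit 228) (nat_lit 851826855770) (nat_lit 212) (nat_lit 5) (nat_lit 214) (nat_lit 5) (nat_lit 215) (nat_lit 5) (nat_lit 435) (nat_lit 406) (nat_lit 179))) (XT.nd (nat_lit 78) (nat_lit 152) (nat_lit 0) (XT.lf (nat_lit 0) (nat_lit 173207056632) (nat_lit 152) (nat_lit 2001224891360) (nat_lit 76) (nat_lit 315125769668)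 (nat_lit 210) (nat_lit 5) (nat_lit 212) (nat_lit 5) (nat_lit 211) (nat_lit 5) (nat_lit 436) (nat_lit 406) (nat_lit 178)) (XT.lf (nat_lit 0) (nat_lit 521814944473) (nat_lit 152) (nat_lit 789030540445) (nat_lit 228) (nat_lit 1303621803403) (nat_lit 208) (nat_lit 5) (nat_lit 210) (nat_lit 5) (nat_lit 211) (nat_lit 5) (nat_lit 437) (nat_lit 406) (nat_lit 177)))) (XT.nd (nat_lit 156) (nat_lit 304) (nat_lit 0) (XT.nd (nat_lit 78) (nat_lit 228) (nat_lit 0) (XT.lf (nat_lit 0) (nat_lit 577402004062) (nat_lit 76) (nat_lit 2017580784674) (nat_lit 152) (nat_lit 151612445838) (nat_lit 207) (nat_lit 5) (nat_lit 208) (nat_lit 5) (nat_lit 209) (nat_lit 4) (nat_lit 438) (nat_lit 406) (nat_lit 176)) (XT.lf (nat_lit 0) (nat_lit 637770518657) (nat_lit 152) (nat_lit 480130587854) (nat_lit 228) (nat_lit 1767523809943) (nat_lit 204) (nat_lit 5) (nat_lit 206) (nat_lit 5) (nat_lit 207) (nat_lit 5) (nat_lit 439) (nat_lit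 406) (nat_lit 175))) (XT.nd (nat_lit 78) (nat_lit 228) (nat_lit 0) (XT.lf (nat_lit 0) (nat_lit 714546897511) (nat_lit 76) (nat_lit 1837177594534) (nat_lit 152) (nat_lit 480109182815) (nat_lit 203) (nat_lit 5) (nat_lit 204) (nat_lit 5) (nat_lit 205) (nat_lit 4) (nat_lit 440) (nat_lit 406) (nat_lit 174)) (XT.lf (nat_lit 0) (nat_lit 808930593873) (nat_lit 152) (nat_lit 132752864461) (nat_lit 228) (nat_lit 2244535055759) (nat_lit 200) (nat_lit 5) (nat_lit 202) (nat_lit 5) (nat_lit 203) (nat_lit 5) (nat_lit 441) (nat_lit 406) (nat_lit 173))))) (XT.nd (nat_lit 50622) (nat_lit 0) (nat_lit 7220) (XT.nd (nat_lit 50466) (nat_lit 0) (nat_lit 7144) (XT.nd (nat_lit 50388) (nat_lit 0) (nat_lit 7068) (XT.lf (nat_lit 0) (nat_lit 910785556999) (nat_lit 76) (nat_lit 1631752495208) (nat_lit 152) (nat_lit 805915594715) (nat_lit 199) (nat_lit 5) (nat_lit 200) (nat_lit 5) (nat_lit 201) (nat_lit 4) (nat_lit 442) (nat_lit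 406) (nat_lit 172)) (XT.lf (nat_lit 0) (nat_lit 165561389553) (nat_lit 836) (nat_lit 93248850195) (nat_lit 836) (nat_lit 93248850195) (nat_lit 292) (nat_lit 3) (nat_lit 303) (nat_lit 3) (nat_lit 303) (nat_lit 5) (nat_lit 407) (nat_lit 407) (nat_lit 206))) (XT.nd (nat_lit 78) (nat_lit 0) (nat_lit 0) (XT.lf (nat_lit 0) (nat_lit 351051198654) (nat_lit 760) (nat_lit 343329517411) (nat_lit 836) (nat_lit 37568015597) (nat_lit 293) (nat_lit 5) (nat_lit 303) (nat_lit 5) (nat_lit 304) (nat_lit 5) (nat_lit 408) (nat_lit 407) (nat_lit 205)) (XT.lf (nat_lit 76) (nat_lit 253907283477) (nat_lit 0) (nat_lit 134660745419) (nat_lit 836) (nat_lit 372637991828) (nat_lit 294) (nat_lit 5) (nat_lit 293) (nat_lit 5) (nat_lit 304) (nat_lit 5) (nat_lit 409) (nat_lit 407) (nat_lit 204)))) (XT.nd (nat_lit 156) (nat_lit 0) (nat_lit 152) (XT.nd (nat_lit 78) (nat_lit 0) (nat_lit 76) (XT.lf (nat_lit 76) (nat_lit 114923082529)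 (nat_lit 0) (nat_lit 329371465895) (nat_lit 836) (nat_lit 347748927344) (nat_lit 295) (nat_lit 5) (nat_lit 294) (nat_lit 5) (nat_lit 305) (nat_lit 5) (nat_lit 410) (nat_lit 407) (nat_lit 203)) (XT.lf (nat_lit 0) (nat_lit 520033089399) (nat_lit 760) (nat_lit 26585078327) (nat_lit 836) (nat_lit 277952064495) (nat_lit 295) (nat_lit 5) (nat_lit 305) (nat_lit 5) (nat_lit 306) (nat_lit 5) (nat_lit 411) (nat_lit 407) (nat_lit 202))) (XT.nd (nat_lit 78) (nat_lit 0) (nat_lit 0) (XT.lf (nat_lit 0) (nat_lit 619359770379) (nat_lit 760) (nat_lit 167435501119) (nat_lit 836) (nat_lit 72027404855) (nat_lit 296) (nat_lit 5) (nat_lit 306) (nat_lit 5) (nat_lit 307) (nat_lit 5) (nat_lit 412) (nat_lit 407) (nat_lit 201)) (XT.lf (nat_lit 76) (nat_lit 581336196103) (nat_lit 0) (nat_lit 164060329089) (nat_lit 836) (nat_lit 149480593856) (nat_lit 297) (nat_lit 5) (nat_lit 296) (nat_lit 5) (nat_lit 307) (nat_lit 5) (nat_lit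 413) (nat_lit 407) (nat_lit 200)))))) (XT.nd (nat_lit 624) (nat_lit 2356) (nat_lit 0) (XT.nd (nat_lit 312) (nat_lit 988) (nat_lit 0) (XT.nd (nat_lit 156) (nat_lit 760) (nat_lit 0) (XT.nd (nat_lit 78) (nat_lit 532) (nat_lit 0) (XT.lf (nat_lit 0) (nat_lit 469354037652) (nat_lit 760) (nat_lit 430393539294) (nat_lit 836) (nat_lit 33156772387) (nat_lit 287) (nat_lit 5) (nat_lit 297) (nat_lit 5) (nat_lit 298) (nat_lit 5) (nat_lit 414) (nat_lit 407) (nat_lit 199)) (XT.lf (nat_lit 0) (nat_lit 107444017405) (nat_lit 532) (nat_lit 617618373070) (nat_lit 76) (nat_lit 247942640731) (nat_lit 280) (nat_lit 5) (nat_lit 287) (nat_lit 5) (nat_lit 281) (nat_lit 5) (nat_lit 415) (nat_lit 407) (nat_lit 198))) (XT.nd (nat_lit 78) (nat_lit 380) (nat_lit 0) (XT.lf (nat_lit 0) (nat_lit 240221691025) (nat_lit 380) (nat_lit 37139920194) (nat_lit 456) (nat_lit 737963459098) (nat_lit 275) (nat_lit 5) (nat_lit 280) (nat_lit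 5) (nat_lit 281) (nat_lit 5) (nat_lit 416) (nat_lit 407) (nat_lit 197)) (XT.lf (nat_lit 0) (nat_lit 120925339182) (nat_lit 380) (nat_lit 363789898623) (nat_lit 456) (nat_lit 575123343487) (nat_lit 270) (nat_lit 5) (nat_lit 275) (nat_lit 5) (nat_lit 276) (nat_lit 5) (nat_lit 417) (nat_lit 407) (nat_lit 196)))) (XT.nd (nat_lit 156) (nat_lit 684) (nat_lit 0) (XT.nd (nat_lit 78) (nat_lit 0) (nat_lit 0) (XT.lf (nat_lit 0) (nat_lit 2403573408) (nat_lit 304) (nat_lit 726543203866) (nat_lit 380) (nat_lit 377951914733) (nat_lit 266) (nat_lit 5) (nat_lit 270) (nat_lit 5) (nat_lit 271) (nat_lit 5) (nat_lit 418) (nat_lit 407) (nat_lit 195)) (XT.lf (nat_lit 0) (nat_lit 1015593025966) (nat_lit 380) (nat_lit 110872771913) (nat_lit 76) (nat_lit 30114004398) (nat_lit 266) (nat_lit 5) (nat_lit 271) (nat_lit 5) (nat_lit 267) (nat_lit 5) (nat_lit 419) (nat_lit 407) (nat_lit 194))) (XT.nd (nat_lit 78) (nat_lit 304)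 (nat_lit 0) (XT.lf (nat_lit 0) (nat_lit 139282168106) (nat_lit 380) (nat_lit 229703811051) (nat_lit 76) (nat_lit 839758436339) (nat_lit 261) (nat_lit 5) (nat_lit 266) (nat_lit 5) (nat_lit 262) (nat_lit 5) (nat_lit 420) (nat_lit 407) (nat_lit 193)) (XT.lf (nat_lit 0) (nat_lit 460779516157) (nat_lit 380) (nat_lit 349235274604) (nat_lit 76) (nat_lit 453764525183) (nat_lit 257) (nat_lit 5) (nat_lit 262) (nat_lit 5) (nat_lit 258) (nat_lit 5) (nat_lit 421) (nat_lit 407) (nat_lit 192))))) (XT.nd (nat_lit 312) (nat_lit 1216) (nat_lit 0) (XT.nd (nat_lit 156) (nat_lit 608) (nat_lit 0) (XT.nd (nat_lit 78) (nat_lit 228) (nat_lit 0) (XT.lf (nat_lit 0) (nat_lit 832050120900) (nat_lit 380) (nat_lit 465775843624) (nat_lit 76) (nat_lit 24188370460) (nat_lit 253) (nat_lit 5) (nat_lit 258) (nat_lit 5) (nat_lit 254) (nat_lit 5) (nat_lit 422) (nat_lit 407) (nat_lit 191)) (XT.lf (nat_lit 0) (nat_lit 797793561830)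 (nat_lit 228) (nat_lit 467526107850) (nat_lit 304) (nat_lit 117973621085) (nat_lit 250) (nat_lit 5) (nat_lit 253) (nat_lit 5) (nat_lit 254) (nat_lit 5) (nat_lit 423) (nat_lit 407) (nat_lit 190))) (XT.nd (nat_lit 78) (nat_lit 228) (nat_lit 0) (XT.lf (nat_lit 0) (nat_lit 301741526075) (nat_lit 380) (nat_lit 705920898575) (nat_lit 76) (nat_lit 440238215358) (nat_lit 245) (nat_lit 5) (nat_lit 250) (nat_lit 5) (nat_lit 246) (nat_lit 5) (nat_lit 424) (nat_lit 407) (nat_lit 189)) (XT.lf (nat_lit 0) (nat_lit 691491183194) (nat_lit 228) (nat_lit 88510414097) (nat_lit 304) (nat_lit 736123233544) (nat_lit 242) (nat_lit 5) (nat_lit 245) (nat_lit 5) (nat_lit 246) (nat_lit 5) (nat_lit 425) (nat_lit 407) (nat_lit 188)))) (XT.nd (nat_lit 156) (nat_lit 684) (nat_lit 0) (XT.nd (nat_lit 78) (nat_lit 304) (nat_lit 0) (XT.lf (nat_lit 0) (nat_lit 642973191847) (nat_lit 228) (nat_lit 690202846266) (nat_lit 304) (nat_lit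 254798240620) (nat_lit 239) (nat_lit 5) (nat_lit 242) (nat_lit 5) (nat_lit 243) (nat_lit 5) (nat_lit 426) (nat_lit 407) (nat_lit 187)) (XT.lf (nat_lit 0) (nat_lit 287164443143) (nat_lit 304) (nat_lit 1063029531210) (nat_lit 76) (nat_lit 313640093180) (nat_lit 235) (nat_lit 5) (nat_lit 239) (nat_lit 5) (nat_lit 236) (nat_lit 5) (nat_lit 427) (nat_lit 407) (nat_lit 186))) (XT.nd (nat_lit 78) (nat_lit 456) (nat_lit 0) (XT.lf (nat_lit 0) (nat_lit 560826352532) (nat_lit 228) (nat_lit 339975555083) (nat_lit 304) (nat_lit 842889648044) (nat_lit 232) (nat_lit 5) (nat_lit 235) (nat_lit 5) (nat_lit 236) (nat_lit 5) (nat_lit 428) (nat_lit 407) (nat_lit 185)) (XT.nd (nat_lit 78) (nat_lit 304) (nat_lit 0) (XT.lf (nat_lit 0) (nat_lit 528422459866) (nat_lit 152) (nat_lit 1073905065722) (nat_lit 228) (nat_lit 225670259431) (nat_lit 230) (nat_lit 5) (nat_lit 232) (nat_lit 5) (nat_lit 233) (nat_lit 5) (nat_lit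 429) (nat_lit 407) (nat_lit 184)) (XT.lf (nat_lit 0) (nat_lit 462024376143) (nat_lit 304) (nat_lit 1413631423083) (nat_lit 76) (nat_lit 41288003277) (nat_lit 226) (nat_lit 5) (nat_lit 230) (nat_lit 5) (nat_lit 227) (nat_lit 5) (nat_lit 430) (nat_lit 407) (nat_lit 183))))))))
noncomputable def xc239 : XT := (XT.nd (nat_lit 51636) (nat_lit 0) (nat_lit 2660) (XT.nd (nat_lit 624) (nat_lit 608) (nat_lit 0) (XT.nd (nat_lit 312) (nat_lit 684) (nat_lit 0) (XT.nd (nat_lit 156) (nat_lit 304) (nat_lit 0) (XT.nd (nat_lit 78) (nat_lit 228) (nat_lit 0) (XT.lf (nat_lit 0) (nat_lit 477978877244) (nat_lit 152) (nat_lit 767534478499) (nat_lit 228) (nat_lit 764872912033) (nat_lit 224) (nat_lit 5) (nat_lit 226) (nat_lit 5) (nat_lit 227) (nat_lit 5) (nat_lit 431) (nat_lit 407) (nat_lit 182)) (XT.lf (nat_lit 0) (nat_lit 20701572374) (nat_lit 228) (nat_lit 1640446515754) (nat_lit 76) (nat_lit 448186550354) (nat_lit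 221) (nat_lit 5) (nat_lit 224) (nat_lit 5) (nat_lit 222) (nat_lit 5) (nat_lit 432) (nat_lit 407) (nat_lit 181))) (XT.nd (nat_lit 78) (nat_lit 152) (nat_lit 0) (XT.lf (nat_lit 0) (nat_lit 458544335149) (nat_lit 152) (nat_lit 431370850777) (nat_lit 228) (nat_lit 1323277218340) (nat_lit 219) (nat_lit 5) (nat_lit 221) (nat_lit 5) (nat_lit 222) (nat_lit 5) (nat_lit 433) (nat_lit 407) (nat_lit 180)) (XT.lf (nat_lit 0) (nat_lit 460369097754) (nat_lit 152) (nat_lit 1418529791031) (nat_lit 228) (nat_lit 443948252515) (nat_lit 217) (nat_lit 5) (nat_lit 219) (nat_lit 5) (nat_lit 220) (nat_lit 5) (nat_lit 434) (nat_lit 407) (nat_lit 179)))) (XT.nd (nat_lit 156) (nat_lit 304) (nat_lit 0) (XT.nd (nat_lit 78) (nat_lit 152) (nat_lit 0) (XT.lf (nat_lit 0) (nat_lit 475032972125) (nat_lit 152) (nat_lit 60263826635) (nat_lit 228) (nat_lit 1903294858150) (nat_lit 214) (nat_lit 5) (nat_lit 216) (nat_lit 5) (nat_lit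 217) (nat_lit 5) (nat_lit 435) (nat_lit 407) (nat_lit 178)) (XT.lf (nat_lit 0) (nat_lit 489776076293) (nat_lit 152) (nat_lit 1150343283199) (nat_lit 228) (nat_lit 919972897790) (nat_lit 212) (nat_lit 5) (nat_lit 214) (nat_lit 5) (nat_lit 215) (nat_lit 5) (nat_lit 436) (nat_lit 407) (nat_lit 177))) (XT.nd (nat_lit 78) (nat_lit 152) (nat_lit 0) (XT.lf (nat_lit 0) (nat_lit 187063720442) (nat_lit 152) (nat_lit 2161322705703) (nat_lit 76) (nat_lit 340335903963) (nat_lit 210) (nat_lit 5) (nat_lit 212) (nat_lit 5) (nat_lit 211) (nat_lit 5) (nat_lit 437) (nat_lit 407) (nat_lit 176)) (XT.lf (nat_lit 0) (nat_lit 563560309306) (nat_lit 152) (nat_lit 852152908975) (nat_lit 228) (nat_lit 1407911448378) (nat_lit 208) (nat_lit 5) (nat_lit 210) (nat_lit 5) (nat_lit 211) (nat_lit 5) (nat_lit 438) (nat_lit 407) (nat_lit 175))))) (XT.nd (nat_lit 50700) (nat_lit 0) (nat_lit 6992) (XT.nd (nat_lit 156) (nat_lit 304)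 (nat_lit 0) (XT.nd (nat_lit 78) (nat_lit 228) (nat_lit 0) (XT.lf (nat_lit 0) (nat_lit 623594329712) (nat_lit 76) (nat_lit 2178987173347) (nat_lit 152) (nat_lit 163741345719) (nat_lit 207) (nat_lit 5) (nat_lit 208) (nat_lit 5) (nat_lit 209) (nat_lit 4) (nat_lit 439) (nat_lit 407) (nat_lit 174)) (XT.lf (nat_lit 0) (nat_lit 688792321222) (nat_lit 152) (nat_lit 518540962176) (nat_lit 228) (nat_lit 1908925621954) (nat_lit 204) (nat_lit 5) (nat_lit 206) (nat_lit 5) (nat_lit 207) (nat_lit 5) (nat_lit 440) (nat_lit 407) (nat_lit 173))) (XT.nd (nat_lit 78) (nat_lit 228) (nat_lit 0) (XT.lf (nat_lit 0) (nat_lit 771710806525) (nat_lit 76) (nat_lit 1984151730210) (nat_lit 152) (nat_lit 518517827847) (nat_lit 203) (nat_lit 5) (nat_lit 204) (nat_lit 5) (nat_lit 205) (nat_lit 4) (nat_lit 441) (nat_lit 407) (nat_lit 172)) (XT.lf (nat_lit 0) (nat_lit 873645194507) (nat_lit 152) (nat_lit 143373023186) (nat_lit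 228) (nat_lit 2424097773393) (nat_lit 200) (nat_lit 5) (nat_lit 202) (nat_lit 5) (nat_lit 203) (nat_lit 5) (nat_lit 442) (nat_lit 407) (nat_lit 171)))) (XT.nd (nat_lit 156) (nat_lit 0) (nat_lit 76) (XT.nd (nat_lit 78) (nat_lit 0) (nat_lit 76) (XT.lf (nat_lit 0) (nat_lit 178806500041) (nat_lit 836) (nat_lit 100708653565) (nat_lit 836) (nat_lit 100708653565) (nat_lit 292) (nat_lit 3) (nat_lit 303) (nat_lit 3) (nat_lit 303) (nat_lit 5) (nat_lit 408) (nat_lit 408) (nat_lit 204)) (XT.lf (nat_lit 0) (nat_lit 379135664104) (nat_lit 760) (nat_lit 370795657311) (nat_lit 836) (nat_lit 40573290303) (nat_lit 293) (nat_lit 5) (nat_lit 303) (nat_lit 5) (nat_lit 304) (nat_lit 5) (nat_lit 409) (nat_lit 408) (nat_lit 203))) (XT.nd (nat_lit 78) (nat_lit 0) (nat_lit 76) (XT.lf (nat_lit 76) (nat_lit 274220078023) (nat_lit 0) (nat_lit 145433738676) (nat_lit 836) (nat_lit 402448668409) (nat_lit 294) (nat_lit 5) (nat_lit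 293) (nat_lit 5) (nat_lit 304) (nat_lit 5) (nat_lit 410) (nat_lit 408) (nat_lit 202)) (XT.lf (nat_lit 76) (nat_lit 124117150310) (nat_lit 0) (nat_lit 355721283408) (nat_lit 836) (nat_lit 375568504041) (nat_lit 295) (nat_lit 5) (nat_lit 294) (nat_lit 5) (nat_lit 305) (nat_lit 5) (nat_lit 411) (nat_lit 408) (nat_lit 201)))))) (XT.nd (nat_lit 624) (nat_lit 2356) (nat_lit 0) (XT.nd (nat_lit 312) (nat_lit 1596) (nat_lit 0) (XT.nd (nat_lit 156) (nat_lit 608) (nat_lit 0) (XT.nd (nat_lit 78) (nat_lit 0) (nat_lit 76) (XT.lf (nat_lit 0) (nat_lit 561636032713) (nat_lit 760) (nat_lit 28711663469) (nat_lit 836) (nat_lit 300188139809) (nat_lit 295) (nat_lit 5) (nat_lit 305) (nat_lit 5) (nat_lit 306) (nat_lit 5) (nat_lit 412) (nat_lit 408) (nat_lit 200)) (XT.lf (nat_lit 0) (nat_lit 668908828505) (nat_lit 760) (nat_lit 180830114787) (nat_lit 836) (nat_lit 77789533345) (nat_lit 296) (nat_lit 5) (nat_lit 306)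 (nat_lit 5) (nat_lit 307) (nat_lit 5) (nat_lit 413) (nat_lit 408) (nat_lit 199))) (XT.nd (nat_lit 78) (nat_lit 684) (nat_lit 0) (XT.lf (nat_lit 76) (nat_lit 627843308373) (nat_lit 0) (nat_lit 177185198231) (nat_lit 836) (nat_lit 161438768999) (nat_lit 297) (nat_lit 5) (nat_lit 296) (nat_lit 5) (nat_lit 307) (nat_lit 5) (nat_lit 414) (nat_lit 408) (nat_lit 198)) (XT.lf (nat_lit 0) (nat_lit 506902580879) (nat_lit 760) (nat_lit 464825045223) (nat_lit 836) (nat_lit 35809059027) (nat_lit 287) (nat_lit 5) (nat_lit 297) (nat_lit 5) (nat_lit 298) (nat_lit 5) (nat_lit 415) (nat_lit 408) (nat_lit 197)))) (XT.nd (nat_lit 156) (nat_lit 684) (nat_lit 0) (XT.nd (nat_lit 78) (nat_lit 380) (nat_lit 0) (XT.lf (nat_lit 0) (nat_lit 116039770685) (nat_lit 532) (nat_lit 667027612642) (nat_lit 76) (nat_lit 267778038782) (nat_lit 280) (nat_lit 5) (nat_lit 287) (nat_lit 5) (nat_lit 281) (nat_lit 5) (nat_lit 416) (nat_lit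 408) (nat_lit 196)) (XT.lf (nat_lit 0) (nat_lit 259439646574) (nat_lit 380) (nat_lit 40111111692) (nat_lit 456) (nat_lit 797000306769) (nat_lit 275) (nat_lit 5) (nat_lit 280) (nat_lit 5) (nat_lit 281) (nat_lit 5) (nat_lit 417) (nat_lit 408) (nat_lit 195))) (XT.nd (nat_lit 78) (nat_lit 304) (nat_lit 0) (XT.lf (nat_lit 0) (nat_lit 130599587413) (nat_lit 380) (nat_lit 392893074889) (nat_lit 456) (nat_lit 621132995219) (nat_lit 270) (nat_lit 5) (nat_lit 275) (nat_lit 5) (nat_lit 276) (nat_lit 5) (nat_lit 418) (nat_lit 408) (nat_lit 194)) (XT.lf (nat_lit 0) (nat_lit 2596080362) (nat_lit 304) (nat_lit 784666633024) (nat_lit 380) (nat_lit 408187864286) (nat_lit 266) (nat_lit 5) (nat_lit 270) (nat_lit 5) (nat_lit 271) (nat_lit 5) (nat_lit 419) (nat_lit 408) (nat_lit 193))))) (XT.nd (nat_lit 312) (nat_lit 1368) (nat_lit 0) (XT.nd (nat_lit 156) (nat_lit 608) (nat_lit 0) (XT.nd (nat_lit 78) (nat_lit 380)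 (nat_lit 0) (XT.lf (nat_lit 0) (nat_lit 1096840648001) (nat_lit 380) (nat_lit 119742380376) (nat_lit 76) (nat_lit 32523149085) (nat_lit 266) (nat_lit 5) (nat_lit 271) (nat_lit 5) (nat_lit 267) (nat_lit 5) (nat_lit 420) (nat_lit 408) (nat_lit 192)) (XT.lf (nat_lit 0) (nat_lit 150424914151) (nat_lit 380) (nat_lit 248079906206) (nat_lit 76) (nat_lit 906939139749) (nat_lit 261) (nat_lit 5) (nat_lit 266) (nat_lit 5) (nat_lit 262) (nat_lit 5) (nat_lit 421) (nat_lit 408) (nat_lit 191))) (XT.nd (nat_lit 78) (nat_lit 304) (nat_lit 0) (XT.lf (nat_lit 0) (nat_lit 497642040981) (nat_lit 380) (nat_lit 377173888399) (nat_lit 76) (nat_lit 490065723662) (nat_lit 257) (nat_lit 5) (nat_lit 262) (nat_lit 5) (nat_lit 258) (nat_lit 5) (nat_lit 422) (nat_lit 408) (nat_lit 190)) (XT.lf (nat_lit 0) (nat_lit 898614285796) (nat_lit 380) (nat_lit 503037704958) (nat_lit 76) (nat_lit 26123483268) (nat_lit 253) (nat_lit 5)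 (nat_lit 258) (nat_lit 5) (nat_lit 254) (nat_lit 5) (nat_lit 423) (nat_lit 408) (nat_lit 189)))) (XT.nd (nat_lit 156) (nat_lit 760) (nat_lit 0) (XT.nd (nat_lit 78) (nat_lit 380) (nat_lit 0) (XT.lf (nat_lit 0) (nat_lit 861617243973) (nat_lit 228) (nat_lit 504928146086) (nat_lit 304) (nat_lit 127411356627) (nat_lit 250) (nat_lit 5) (nat_lit 253) (nat_lit 5) (nat_lit 254) (nat_lit 5) (nat_lit 424) (nat_lit 408) (nat_lit 188)) (XT.lf (nat_lit 0) (nat_lit 325880990152) (nat_lit 380) (nat_lit 762394370870) (nat_lit 76) (nat_lit 475457323086) (nat_lit 245) (nat_lit 5) (nat_lit 250) (nat_lit 5) (nat_lit 246) (nat_lit 5) (nat_lit 425) (nat_lit 408) (nat_lit 187))) (XT.nd (nat_lit 78) (nat_lit 532) (nat_lit 0) (XT.lf (nat_lit 0) (nat_lit 746810668766) (nat_lit 228) (nat_lit 95591190763) (nat_lit 304) (nat_lit 795012951050) (nat_lit 242) (nat_lit 5) (nat_lit 245) (nat_lit 5) (nat_lit 246) (nat_lit 5) (nat_lit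 426) (nat_lit 408) (nat_lit 186)) (XT.nd (nat_lit 78) (nat_lit 304) (nat_lit 0) (XT.lf (nat_lit 0) (nat_lit 694411235402) (nat_lit 228) (nat_lit 745419014010) (nat_lit 304) (nat_lit 275181965208) (nat_lit 239) (nat_lit 5) (nat_lit 242) (nat_lit 5) (nat_lit 243) (nat_lit 5) (nat_lit 427) (nat_lit 408) (nat_lit 185)) (XT.lf (nat_lit 0) (nat_lit 310137723111) (nat_lit 304) (nat_lit 1148071704324) (nat_lit 76) (nat_lit 338731359275) (nat_lit 235) (nat_lit 5) (nat_lit 239) (nat_lit 5) (nat_lit 236) (nat_lit 5) (nat_lit 428) (nat_lit 408) (nat_lit 184))))))))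
noncomputable def xc240 : XT := (XT.nd (nat_lit 51714) (nat_lit 0) (nat_lit 3192) (XT.nd (nat_lit 624) (nat_lit 836) (nat_lit 0) (XT.nd (nat_lit 312) (nat_lit 760) (nat_lit 0) (XT.nd (nat_lit 156) (nat_lit 456) (nat_lit 0) (XT.nd (nat_lit 78) (nat_lit 152) (nat_lit 0) (XT.lf (nat_lit 0) (nat_lit 605692641887) (nat_lit 228) (nat_lit 367173536459) (nat_lit 304) (nat_lit 910320695859) (nat_lit 232) (nat_lit 5) (nat_lit 235) (nat_lit 5) (nat_lit 236) (nat_lit 5) (nat_lit 429) (nat_lit 408) (nat_lit 183)) (XT.lf (nat_lit 0) (nat_lit 570696434643) (nat_lit 152) (nat_lit 1159817406053) (nat_lit 228) (nat_lit 243723761470) (nat_lit 230) (nat_lit 5) (nat_lit 232) (nat_lit 5) (nat_lit 233) (nat_lit 5) (nat_lit 430) (nat_lit 408) (nat_lit 182))) (XT.nd (nat_lit 78) (nat_lit 152) (nat_lit 0) (XT.lf (nat_lit 0) (nat_lit 498986436364) (nat_lit 304) (nat_lit 1526721758598) (nat_lit 76) (nat_lit 44591106236)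 (nat_lit 226) (nat_lit 5) (nat_lit 230) (nat_lit 5) (nat_lit 227) (nat_lit 5) (nat_lit 431) (nat_lit 408) (nat_lit 181)) (XT.lf (nat_lit 0) (nat_lit 516217358006) (nat_lit 152) (nat_lit 828937170832) (nat_lit 228) (nat_lit 826062635129) (nat_lit 224) (nat_lit 5) (nat_lit 226) (nat_lit 5) (nat_lit 227) (nat_lit 5) (nat_lit 432) (nat_lit 408) (nat_lit 180)))) (XT.nd (nat_lit 156) (nat_lit 380) (nat_lit 0) (XT.nd (nat_lit 78) (nat_lit 152) (nat_lit 0) (XT.lf (nat_lit 0) (nat_lit 22357800258) (nat_lit 228) (nat_lit 1771682066451) (nat_lit 76) (nat_lit 484041537747) (nat_lit 221) (nat_lit 5) (nat_lit 224) (nat_lit 5) (nat_lit 222) (nat_lit 5) (nat_lit 433) (nat_lit 408) (nat_lit 179)) (XT.lf (nat_lit 0) (nat_lit 495228045112) (nat_lit 152) (nat_lit 465880452767) (nat_lit 228) (nat_lit 1429139293874) (nat_lit 219) (nat_lit 5) (nat_lit 221) (nat_lit 5) (nat_lit 222) (nat_lit 5) (nat_lit 434) (nat_lit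 408) (nat_lit 178))) (XT.nd (nat_lit 78) (nat_lit 228) (nat_lit 0) (XT.lf (nat_lit 0) (nat_lit 497198785292) (nat_lit 152) (nat_lit 1532012107934) (nat_lit 228) (nat_lit 479464014712) (nat_lit 217) (nat_lit 5) (nat_lit 219) (nat_lit 5) (nat_lit 220) (nat_lit 5) (nat_lit 435) (nat_lit 408) (nat_lit 177)) (XT.lf (nat_lit 0) (nat_lit 513035765672) (nat_lit 152) (nat_lit 65084867261) (nat_lit 228) (nat_lit 2055558352017) (nat_lit 214) (nat_lit 5) (nat_lit 216) (nat_lit 5) (nat_lit 217) (nat_lit 5) (nat_lit 436) (nat_lit 408) (nat_lit 176))))) (XT.nd (nat_lit 312) (nat_lit 304) (nat_lit 0) (XT.nd (nat_lit 156) (nat_lit 228) (nat_lit 0) (XT.nd (nat_lit 78) (nat_lit 152) (nat_lit 0) (XT.lf (nat_lit 0) (nat_lit 528958314743) (nat_lit 152) (nat_lit 1242370680419) (nat_lit 228) (nat_lit 993570638357) (nat_lit 212) (nat_lit 5) (nat_lit 214) (nat_lit 5) (nat_lit 215) (nat_lit 5) (nat_lit 437) (nat_lit 408)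 (nat_lit 175)) (XT.lf (nat_lit 0) (nat_lit 202028903194) (nat_lit 152) (nat_lit 2334228370441) (nat_lit 76) (nat_lit 367562838627) (nat_lit 210) (nat_lit 5) (nat_lit 212) (nat_lit 5) (nat_lit 211) (nat_lit 5) (nat_lit 438) (nat_lit 408) (nat_lit 174))) (XT.nd (nat_lit 78) (nat_lit 76) (nat_lit 0) (XT.lf (nat_lit 0) (nat_lit 608645279176) (nat_lit 152) (nat_lit 920325077645) (nat_lit 228) (nat_lit 1520544279118) (nat_lit 208) (nat_lit 5) (nat_lit 210) (nat_lit 5) (nat_lit 211) (nat_lit 5) (nat_lit 439) (nat_lit 408) (nat_lit 173)) (XT.lf (nat_lit 0) (nat_lit 673482017828) (nat_lit 76) (nat_lit 2353306083686) (nat_lit 152) (nat_lit 176840571256) (nat_lit 207) (nat_lit 5) (nat_lit 208) (nat_lit 5) (nat_lit 209) (nat_lit 4) (nat_lit 440) (nat_lit 408) (nat_lit 172)))) (XT.nd (nat_lit 50622) (nat_lit 0) (nat_lit 6764) (XT.nd (nat_lit 78) (nat_lit 76) (nat_lit 0) (XT.lf (nat_lit 0) (nat_lit 743895845014)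 (nat_lit 152) (nat_lit 560024176817) (nat_lit 228) (nat_lit 2061639592162) (nat_lit 204) (nat_lit 5) (nat_lit 206) (nat_lit 5) (nat_lit 207) (nat_lit 5) (nat_lit 441) (nat_lit 408) (nat_lit 171)) (XT.lf (nat_lit 0) (nat_lit 833447805832) (nat_lit 76) (nat_lit 2142883806996) (nat_lit 152) (nat_lit 559999177263) (nat_lit 203) (nat_lit 5) (nat_lit 204) (nat_lit 5) (nat_lit 205) (nat_lit 4) (nat_lit 442) (nat_lit 408) (nat_lit 170))) (XT.nd (nat_lit 78) (nat_lit 0) (nat_lit 76) (XT.lf (nat_lit 0) (nat_lit 193111190933) (nat_lit 836) (nat_lit 108765256134) (nat_lit 836) (nat_lit 108765256134) (nat_lit 292) (nat_lit 3) (nat_lit 303) (nat_lit 3) (nat_lit 303) (nat_lit 5) (nat_lit 409) (nat_lit 409) (nat_lit 202)) (XT.lf (nat_lit 0) (nat_lit 409466834068) (nat_lit 760) (nat_lit 400459120001) (nat_lit 836) (nat_lit 43819010744) (nat_lit 293) (nat_lit 5) (nat_lit 303) (nat_lit 5) (nat_lit 304) (nat_lit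 5) (nat_lit 410) (nat_lit 409) (nat_lit 201)))))) (XT.nd (nat_lit 624) (nat_lit 2280) (nat_lit 0) (XT.nd (nat_lit 312) (nat_lit 1368) (nat_lit 0) (XT.nd (nat_lit 156) (nat_lit 0) (nat_lit 152) (XT.nd (nat_lit 78) (nat_lit 0) (nat_lit 76) (XT.lf (nat_lit 76) (nat_lit 296157865906) (nat_lit 0) (nat_lit 157068552331) (nat_lit 836) (nat_lit 434644250870) (nat_lit 294) (nat_lit 5) (nat_lit 293) (nat_lit 5) (nat_lit 304) (nat_lit 5) (nat_lit 411) (nat_lit 409) (nat_lit 200)) (XT.lf (nat_lit 76) (nat_lit 134046711960) (nat_lit 0) (nat_lit 384179072022) (nat_lit 836) (nat_lit 405613695019) (nat_lit 295) (nat_lit 5) (nat_lit 294) (nat_lit 5) (nat_lit 305) (nat_lit 5) (nat_lit 412) (nat_lit 409) (nat_lit 199))) (XT.nd (nat_lit 78) (nat_lit 0) (nat_lit 76) (XT.lf (nat_lit 0) (nat_lit 606567169241) (nat_lit 760) (nat_lit 31008406967) (nat_lit 836) (nat_lit 324203113966) (nat_lit 295) (nat_lit 5) (nat_lit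 305) (nat_lit 5) (nat_lit 306) (nat_lit 5) (nat_lit 413) (nat_lit 409) (nat_lit 198)) (XT.lf (nat_lit 0) (nat_lit 722421771836) (nat_lit 760) (nat_lit 195296329849) (nat_lit 836) (nat_lit 84012641230) (nat_lit 296) (nat_lit 5) (nat_lit 306) (nat_lit 5) (nat_lit 307) (nat_lit 5) (nat_lit 414) (nat_lit 409) (nat_lit 197)))) (XT.nd (nat_lit 156) (nat_lit 912) (nat_lit 0) (XT.nd (nat_lit 78) (nat_lit 684) (nat_lit 0) (XT.lf (nat_lit 76) (nat_lit 678070958728) (nat_lit 0) (nat_lit 191360050796) (nat_lit 836) (nat_lit 174353637009) (nat_lit 297) (nat_lit 5) (nat_lit 296) (nat_lit 5) (nat_lit 307) (nat_lit 5) (nat_lit 415) (nat_lit 409) (nat_lit 196)) (XT.lf (nat_lit 0) (nat_lit 547454976149) (nat_lit 760) (nat_lit 502011068376) (nat_lit 836) (nat_lit 38673564998) (nat_lit 287) (nat_lit 5) (nat_lit 297) (nat_lit 5) (nat_lit 298) (nat_lit 5) (nat_lit 416) (nat_lit 409) (nat_lit 195))) (XT.nd (nat_lit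 78) (nat_lit 380) (nat_lit 0) (XT.lf (nat_lit 0) (nat_lit 125323151146) (nat_lit 532) (nat_lit 720389624230) (nat_lit 76) (nat_lit 289200270562) (nat_lit 280) (nat_lit 5) (nat_lit 287) (nat_lit 5) (nat_lit 281) (nat_lit 5) (nat_lit 417) (nat_lit 409) (nat_lit 194)) (XT.lf (nat_lit 0) (nat_lit 280195007143) (nat_lit 380) (nat_lit 43319998812) (nat_lit 456) (nat_lit 860760134931) (nat_lit 275) (nat_lit 5) (nat_lit 280) (nat_lit 5) (nat_lit 281) (nat_lit 5) (nat_lit 418) (nat_lit 409) (nat_lit 193))))) (XT.nd (nat_lit 312) (nat_lit 1216) (nat_lit 0) (XT.nd (nat_lit 156) (nat_lit 380) (nat_lit 0) (XT.nd (nat_lit 78) (nat_lit 304) (nat_lit 0) (XT.lf (nat_lit 0) (nat_lit 141047743960) (nat_lit 380) (nat_lit 424324507486) (nat_lit 456) (nat_lit 670823449869) (nat_lit 270) (nat_lit 5) (nat_lit 275) (nat_lit 5) (nat_lit 276) (nat_lit 5) (nat_lit 419) (nat_lit 409) (nat_lit 192)) (XT.lf (nat_lit 0) (nat_lit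 2803956333) (nat_lit 304) (nat_lit 847439940388) (nat_lit 380) (nat_lit 440842718851) (nat_lit 266) (nat_lit 5) (nat_lit 270) (nat_lit 5) (nat_lit 271) (nat_lit 5) (nat_lit 420) (nat_lit 409) (nat_lit 191))) (XT.nd (nat_lit 78) (nat_lit 380) (nat_lit 0) (XT.lf (nat_lit 0) (nat_lit 1184588054125) (nat_lit 380) (nat_lit 129321587943) (nat_lit 76) (nat_lit 35125021876) (nat_lit 266) (nat_lit 5) (nat_lit 271) (nat_lit 5) (nat_lit 267) (nat_lit 5) (nat_lit 421) (nat_lit 409) (nat_lit 190)) (XT.lf (nat_lit 0) (nat_lit 162459055257) (nat_lit 380) (nat_lit 267926118895) (nat_lit 76) (nat_lit 979494295365) (nat_lit 261) (nat_lit 5) (nat_lit 266) (nat_lit 5) (nat_lit 262) (nat_lit 5) (nat_lit 422) (nat_lit 409) (nat_lit 189)))) (XT.nd (nat_lit 156) (nat_lit 608) (nat_lit 0) (XT.nd (nat_lit 78) (nat_lit 304) (nat_lit 0) (XT.lf (nat_lit 0) (nat_lit 537453544462) (nat_lit 380) (nat_lit 407347620997) (nat_lit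 76) (nat_lit 529271012818) (nat_lit 257) (nat_lit 5) (nat_lit 262) (nat_lit 5) (nat_lit 258) (nat_lit 5) (nat_lit 423) (nat_lit 409) (nat_lit 188)) (XT.lf (nat_lit 0) (nat_lit 970503561738) (nat_lit 380) (nat_lit 543280544609) (nat_lit 76) (nat_lit 28213398942) (nat_lit 253) (nat_lit 5) (nat_lit 258) (nat_lit 5) (nat_lit 254) (nat_lit 5) (nat_lit 424) (nat_lit 409) (nat_lit 187))) (XT.nd (nat_lit 78) (nat_lit 380) (nat_lit 0) (XT.lf (nat_lit 0) (nat_lit 930546792555) (nat_lit 228) (nat_lit 545322354569) (nat_lit 304) (nat_lit 137604133004) (nat_lit 250) (nat_lit 5) (nat_lit 253) (nat_lit 5) (nat_lit 254) (nat_lit 5) (nat_lit 425) (nat_lit 409) (nat_lit 186)) (XT.lf (nat_lit 0) (nat_lit 351951591099) (nat_lit 380) (nat_lit 823385749424) (nat_lit 76) (nat_lit 513493952228) (nat_lit 245) (nat_lit 5) (nat_lit 250) (nat_lit 5) (nat_lit 246) (nat_lit 5) (nat_lit 426) (nat_lit 409) (nat_lit 185)))))))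
noncomputable def xc241 : XT := (XT.nd (nat_lit 51792) (nat_lit 0) (nat_lit 3496) (XT.nd (nat_lit 624) (nat_lit 1292) (nat_lit 0) (XT.nd (nat_lit 312) (nat_lit 836) (nat_lit 0) (XT.nd (nat_lit 156) (nat_lit 532) (nat_lit 0) (XT.nd (nat_lit 78) (nat_lit 228) (nat_lit 0) (XT.lf (nat_lit 0) (nat_lit 806555685948) (nat_lit 228) (nat_lit 103238437617) (nat_lit 304) (nat_lit 858613866098) (nat_lit 242) (nat_lit 5) (nat_lit 245) (nat_lit 5) (nat_lit 246) (nat_lit 5) (nat_lit 427) (nat_lit 409) (nat_lit 184)) (XT.lf (nat_lit 0) (nat_lit 749964295591) (nat_lit 228) (nat_lit 805052483727) (nat_lit 304) (nat_lit 297196406974) (nat_lit 239) (nat_lit 5) (nat_lit 242) (nat_lit 5) (nat_lit 243) (nat_lit 5) (nat_lit 428) (nat_lit 409) (nat_lit 183))) (XT.nd (nat_lit 78) (nat_lit 228) (nat_lit 0) (XT.lf (nat_lit 0) (nat_lit 334948847713) (nat_lit 304) (nat_lit 1239917278304) (nat_lit 76) (nat_lit 365829918291)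 (nat_lit 235) (nat_lit 5) (nat_lit 239) (nat_lit 5) (nat_lit 236) (nat_lit 5) (nat_lit 429) (nat_lit 409) (nat_lit 182)) (XT.lf (nat_lit 0) (nat_lit 654148208547) (nat_lit 228) (nat_lit 396547365337) (nat_lit 304) (nat_lit 983146245194) (nat_lit 232) (nat_lit 5) (nat_lit 235) (nat_lit 5) (nat_lit 236) (nat_lit 5) (nat_lit 430) (nat_lit 409) (nat_lit 181)))) (XT.nd (nat_lit 156) (nat_lit 380) (nat_lit 0) (XT.nd (nat_lit 78) (nat_lit 304) (nat_lit 0) (XT.lf (nat_lit 0) (nat_lit 616352302011) (nat_lit 152) (nat_lit 1252602742874) (nat_lit 228) (nat_lit 263221560609) (nat_lit 230) (nat_lit 5) (nat_lit 232) (nat_lit 5) (nat_lit 233) (nat_lit 5) (nat_lit 431) (nat_lit 409) (nat_lit 180)) (XT.lf (nat_lit 0) (nat_lit 538905445692) (nat_lit 304) (nat_lit 1648859346395) (nat_lit 76) (nat_lit 48158448486) (nat_lit 226) (nat_lit 5) (nat_lit 230) (nat_lit 5) (nat_lit 227) (nat_lit 5) (nat_lit 432) (nat_lit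 409) (nat_lit 179))) (XT.nd (nat_lit 78) (nat_lit 228) (nat_lit 0) (XT.lf (nat_lit 0) (nat_lit 557514892893) (nat_lit 152) (nat_lit 895252087959) (nat_lit 228) (nat_lit 892147551747) (nat_lit 224) (nat_lit 5) (nat_lit 226) (nat_lit 5) (nat_lit 227) (nat_lit 5) (nat_lit 433) (nat_lit 409) (nat_lit 178)) (XT.lf (nat_lit 0) (nat_lit 24146511809) (nat_lit 228) (nat_lit 1913416485536) (nat_lit 76) (nat_lit 522764915091) (nat_lit 221) (nat_lit 5) (nat_lit 224) (nat_lit 5) (nat_lit 222) (nat_lit 5) (nat_lit 434) (nat_lit 409) (nat_lit 177))))) (XT.nd (nat_lit 312) (nat_lit 608) (nat_lit 0) (XT.nd (nat_lit 156) (nat_lit 380) (nat_lit 0) (XT.nd (nat_lit 78) (nat_lit 152) (nat_lit 0) (XT.lf (nat_lit 0) (nat_lit 534846428597) (nat_lit 152) (nat_lit 503150832342) (nat_lit 228) (nat_lit 1543470349993) (nat_lit 219) (nat_lit 5) (nat_lit 221) (nat_lit 5) (nat_lit 222) (nat_lit 5) (nat_lit 435) (nat_lit 409)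 (nat_lit 176)) (XT.lf (nat_lit 0) (nat_lit 536974825047) (nat_lit 152) (nat_lit 1654573019658) (nat_lit 228) (nat_lit 517821051867) (nat_lit 217) (nat_lit 5) (nat_lit 219) (nat_lit 5) (nat_lit 220) (nat_lit 5) (nat_lit 436) (nat_lit 409) (nat_lit 175))) (XT.nd (nat_lit 78) (nat_lit 152) (nat_lit 0) (XT.lf (nat_lit 0) (nat_lit 554078760479) (nat_lit 152) (nat_lit 70291600483) (nat_lit 228) (nat_lit 2220002938915) (nat_lit 214) (nat_lit 5) (nat_lit 216) (nat_lit 5) (nat_lit 217) (nat_lit 5) (nat_lit 437) (nat_lit 409) (nat_lit 174)) (XT.lf (nat_lit 0) (nat_lit 571275110534) (nat_lit 152) (nat_lit 1341760278753) (nat_lit 228) (nat_lit 1073056211189) (nat_lit 212) (nat_lit 5) (nat_lit 214) (nat_lit 5) (nat_lit 215) (nat_lit 5) (nat_lit 438) (nat_lit 409) (nat_lit 173)))) (XT.nd (nat_lit 156) (nat_lit 304) (nat_lit 0) (XT.nd (nat_lit 78) (nat_lit 152) (nat_lit 0) (XT.lf (nat_lit 0) (nat_lit 218191288423)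 (nat_lit 152) (nat_lit 2520966510002) (nat_lit 76) (nat_lit 396967919169) (nat_lit 210) (nat_lit 5) (nat_lit 212) (nat_lit 5) (nat_lit 211) (nat_lit 5) (nat_lit 439) (nat_lit 409) (nat_lit 172)) (XT.lf (nat_lit 0) (nat_lit 657337025931) (nat_lit 152) (nat_lit 993951028946) (nat_lit 228) (nat_lit 1642187748461) (nat_lit 208) (nat_lit 5) (nat_lit 210) (nat_lit 5) (nat_lit 211) (nat_lit 5) (nat_lit 440) (nat_lit 409) (nat_lit 171))) (XT.nd (nat_lit 78) (nat_lit 228) (nat_lit 0) (XT.lf (nat_lit 0) (nat_lit 727360700774) (nat_lit 76) (nat_lit 2541570515915) (nat_lit 152) (nat_lit 190987746551) (nat_lit 207) (nat_lit 5) (nat_lit 208) (nat_lit 5) (nat_lit 209) (nat_lit 4) (nat_lit 441) (nat_lit 409) (nat_lit 170)) (XT.lf (nat_lit 0) (nat_lit 803407631008) (nat_lit 152) (nat_lit 604826057521) (nat_lit 228) (nat_lit 2226570691335) (nat_lit 204) (nat_lit 5) (nat_lit 206) (nat_lit 5) (nat_lit 207) (nat_lit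 5) (nat_lit 442) (nat_lit 409) (nat_lit 169)))))) (XT.nd (nat_lit 624) (nat_lit 2812) (nat_lit 0) (XT.nd (nat_lit 312) (nat_lit 380) (nat_lit 0) (XT.nd (nat_lit 156) (nat_lit 0) (nat_lit 76) (XT.nd (nat_lit 78) (nat_lit 0) (nat_lit 76) (XT.lf (nat_lit 0) (nat_lit 208560232716) (nat_lit 836) (nat_lit 117466399708) (nat_lit 836) (nat_lit 117466399708) (nat_lit 292) (nat_lit 3) (nat_lit 303) (nat_lit 3) (nat_lit 303) (nat_lit 5) (nat_lit 410) (nat_lit 410) (nat_lit 200)) (XT.lf (nat_lit 0) (nat_lit 442224452430) (nat_lit 760) (nat_lit 432495686798) (nat_lit 836) (nat_lit 47324409189) (nat_lit 293) (nat_lit 5) (nat_lit 303) (nat_lit 5) (nat_lit 304) (nat_lit 5) (nat_lit 411) (nat_lit 410) (nat_lit 199))) (XT.nd (nat_lit 78) (nat_lit 0) (nat_lit 76) (XT.lf (nat_lit 76) (nat_lit 319850650907) (nat_lit 0) (nat_lit 169634134735) (nat_lit 836) (nat_lit 469415524296) (nat_lit 294) (nat_lit 5) (nat_lit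 293) (nat_lit 5) (nat_lit 304) (nat_lit 5) (nat_lit 412) (nat_lit 410) (nat_lit 198)) (XT.lf (nat_lit 76) (nat_lit 144770611490) (nat_lit 0) (nat_lit 414913471464) (nat_lit 836) (nat_lit 438062542555) (nat_lit 295) (nat_lit 5) (nat_lit 294) (nat_lit 5) (nat_lit 305) (nat_lit 5) (nat_lit 413) (nat_lit 410) (nat_lit 197)))) (XT.nd (nat_lit 156) (nat_lit 608) (nat_lit 0) (XT.nd (nat_lit 78) (nat_lit 0) (nat_lit 76) (XT.lf (nat_lit 0) (nat_lit 655092760469) (nat_lit 760) (nat_lit 33488916991) (nat_lit 836) (nat_lit 350139297044) (nat_lit 295) (nat_lit 5) (nat_lit 305) (nat_lit 5) (nat_lit 306) (nat_lit 5) (nat_lit 414) (nat_lit 410) (nat_lit 196)) (XT.lf (nat_lit 0) (nat_lit 780215716816) (nat_lit 760) (nat_lit 210919869810) (nat_lit 836) (nat_lit 90733605561) (nat_lit 296) (nat_lit 5) (nat_lit 306) (nat_lit 5) (nat_lit 307) (nat_lit 5) (nat_lit 415) (nat_lit 410) (nat_lit 195))) (XT.nd (nat_lit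 78) (nat_lit 684) (nat_lit 0) (XT.lf (nat_lit 76) (nat_lit 732316794620) (nat_lit 0) (nat_lit 206668886329) (nat_lit 836) (nat_lit 188301727772) (nat_lit 297) (nat_lit 5) (nat_lit 296) (nat_lit 5) (nat_lit 307) (nat_lit 5) (nat_lit 416) (nat_lit 410) (nat_lit 194)) (XT.lf (nat_lit 0) (nat_lit 591251536105) (nat_lit 760) (nat_lit 542171970595) (nat_lit 836) (nat_lit 41767262654) (nat_lit 287) (nat_lit 5) (nat_lit 297) (nat_lit 5) (nat_lit 298) (nat_lit 5) (nat_lit 417) (nat_lit 410) (nat_lit 193))))) (XT.nd (nat_lit 312) (nat_lit 1216) (nat_lit 0) (XT.nd (nat_lit 156) (nat_lit 684) (nat_lit 0) (XT.nd (nat_lit 78) (nat_lit 380) (nat_lit 0) (XT.lf (nat_lit 0) (nat_lit 135349173681) (nat_lit 532) (nat_lit 778020624909) (nat_lit 76) (nat_lit 312336282499) (nat_lit 280) (nat_lit 5) (nat_lit 287) (nat_lit 5) (nat_lit 281) (nat_lit 5) (nat_lit 418) (nat_lit 410) (nat_lit 192)) (XT.lf (nat_lit 0) (nat_lit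 302610769618) (nat_lit 380) (nat_lit 46785597160) (nat_lit 456) (nat_lit 929620777362) (nat_lit 275) (nat_lit 5) (nat_lit 280) (nat_lit 5) (nat_lit 281) (nat_lit 5) (nat_lit 419) (nat_lit 410) (nat_lit 191))) (XT.nd (nat_lit 78) (nat_lit 304) (nat_lit 0) (XT.lf (nat_lit 0) (nat_lit 152331725990) (nat_lit 380) (nat_lit 458270456601) (nat_lit 456) (nat_lit 724489167279) (nat_lit 270) (nat_lit 5) (nat_lit 275) (nat_lit 5) (nat_lit 276) (nat_lit 5) (nat_lit 420) (nat_lit 410) (nat_lit 190)) (XT.lf (nat_lit 0) (nat_lit 3028435341) (nat_lit 304) (nat_lit 915235115662) (nat_lit 380) (nat_lit 476109986688) (nat_lit 266) (nat_lit 5) (nat_lit 270) (nat_lit 5) (nat_lit 271) (nat_lit 5) (nat_lit 421) (nat_lit 410) (nat_lit 189)))) (XT.nd (nat_lit 156) (nat_lit 836) (nat_lit 0) (XT.nd (nat_lit 78) (nat_lit 380) (nat_lit 0) (XT.lf (nat_lit 0) (nat_lit 1279355230729) (nat_lit 380) (nat_lit 139667158204) (nat_lit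 76) (nat_lit 37935041514) (nat_lit 266) (nat_lit 5) (nat_lit 271) (nat_lit 5) (nat_lit 267) (nat_lit 5) (nat_lit 422) (nat_lit 410) (nat_lit 188)) (XT.lf (nat_lit 0) (nat_lit 175455906541) (nat_lit 380) (nat_lit 289360054250) (nat_lit 76) (nat_lit 1057853859944) (nat_lit 261) (nat_lit 5) (nat_lit 266) (nat_lit 5) (nat_lit 262) (nat_lit 5) (nat_lit 423) (nat_lit 410) (nat_lit 187))) (XT.nd (nat_lit 78) (nat_lit 532) (nat_lit 0) (XT.lf (nat_lit 0) (nat_lit 580449948219) (nat_lit 380) (nat_lit 439935277663) (nat_lit 76) (nat_lit 571612720646) (nat_lit 257) (nat_lit 5) (nat_lit 262) (nat_lit 5) (nat_lit 258) (nat_lit 5) (nat_lit 424) (nat_lit 410) (nat_lit 186)) (XT.nd (nat_lit 78) (nat_lit 228) (nat_lit 0) (XT.lf (nat_lit 0) (nat_lit 1048143960771) (nat_lit 380) (nat_lit 586742836647) (nat_lit 76) (nat_lit 30470502590) (nat_lit 253) (nat_lit 5) (nat_lit 258) (nat_lit 5) (nat_lit 254) (nat_lit 5)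 (nat_lit 425) (nat_lit 410) (nat_lit 185)) (XT.lf (nat_lit 0) (nat_lit 1004990680905) (nat_lit 228) (nat_lit 588948105895) (nat_lit 304) (nat_lit 148612350343) (nat_lit 250) (nat_lit 5) (nat_lit 253) (nat_lit 5) (nat_lit 254) (nat_lit 5) (nat_lit 426) (nat_lit 410) (nat_lit 184))))))))
noncomputable def xc242 : XT := (XT.nd (nat_lit 51870) (nat_lit 0) (nat_lit 3496) (XT.nd (nat_lit 624) (nat_lit 1292) (nat_lit 0) (XT.nd (nat_lit 312) (nat_lit 836) (nat_lit 0) (XT.nd (nat_lit 156) (nat_lit 532) (nat_lit 0) (XT.nd (nat_lit 78) (nat_lit 228) (nat_lit 0) (XT.lf (nat_lit 0) (nat_lit 380107822755) (nat_lit 380) (nat_lit 889256462673) (nat_lit 76) (nat_lit 554573505525) (nat_lit 245) (nat_lit 5) (nat_lit 250) (nat_lit 5) (nat_lit 246) (nat_lit 5) (nat_lit 427) (nat_lit 410) (nat_lit 183)) (XT.lf (nat_lit 0) (nat_lit 871080281153) (nat_lit 228) (nat_lit 111497471125) (nat_lit 304) (nat_lit 927302871617)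 (nat_lit 242) (nat_lit 5) (nat_lit 245) (nat_lit 5) (nat_lit 246) (nat_lit 5) (nat_lit 428) (nat_lit 410) (nat_lit 182))) (XT.nd (nat_lit 78) (nat_lit 304) (nat_lit 0) (XT.lf (nat_lit 0) (nat_lit 809961577576) (nat_lit 228) (nat_lit 869456638355) (nat_lit 304) (nat_lit 320972020551) (nat_lit 239) (nat_lit 5) (nat_lit 242) (nat_lit 5) (nat_lit 243) (nat_lit 5) (nat_lit 429) (nat_lit 410) (nat_lit 181)) (XT.lf (nat_lit 0) (nat_lit 361744847054) (nat_lit 304) (nat_lit 1339110521366) (nat_lit 76) (nat_lit 395096354857) (nat_lit 235) (nat_lit 5) (nat_lit 239) (nat_lit 5) (nat_lit 236) (nat_lit 5) (nat_lit 430) (nat_lit 410) (nat_lit 180)))) (XT.nd (nat_lit 156) (nat_lit 456) (nat_lit 0) (XT.nd (nat_lit 78) (nat_lit 152) (nat_lit 0) (XT.lf (nat_lit 0) (nat_lit 706480198384) (nat_lit 228) (nat_lit 428271108235) (nat_lit 304) (nat_lit 1061797853646) (nat_lit 232) (nat_lit 5) (nat_lit 235) (nat_lit 5)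 (nat_lit 236) (nat_lit 5) (nat_lit 431) (nat_lit 410) (nat_lit 179)) (XT.lf (nat_lit 0) (nat_lit 665660616998) (nat_lit 152) (nat_lit 1352810914582) (nat_lit 228) (nat_lit 284279198198) (nat_lit 230) (nat_lit 5) (nat_lit 232) (nat_lit 5) (nat_lit 233) (nat_lit 5) (nat_lit 432) (nat_lit 410) (nat_lit 178))) (XT.nd (nat_lit 78) (nat_lit 152) (nat_lit 0) (XT.lf (nat_lit 0) (nat_lit 582017962296) (nat_lit 304) (nat_lit 1780767963027) (nat_lit 76) (nat_lit 52011170449) (nat_lit 226) (nat_lit 5) (nat_lit 230) (nat_lit 5) (nat_lit 227) (nat_lit 5) (nat_lit 433) (nat_lit 410) (nat_lit 177)) (XT.lf (nat_lit 0) (nat_lit 602116209707) (nat_lit 152) (nat_lit 966872206523) (nat_lit 228) (nat_lit 963519275131) (nat_lit 224) (nat_lit 5) (nat_lit 226) (nat_lit 5) (nat_lit 227) (nat_lit 5) (nat_lit 434) (nat_lit 410) (nat_lit 176))))) (XT.nd (nat_lit 312) (nat_lit 532) (nat_lit 0) (XT.nd (nat_lit 156) (nat_lit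 380) (nat_lit 0) (XT.nd (nat_lit 78) (nat_lit 152) (nat_lit 0) (XT.lf (nat_lit 0) (nat_lit 26078307796) (nat_lit 228) (nat_lit 2066489679009) (nat_lit 76) (nat_lit 564586154873) (nat_lit 221) (nat_lit 5) (nat_lit 224) (nat_lit 5) (nat_lit 222) (nat_lit 5) (nat_lit 435) (nat_lit 410) (nat_lit 175)) (XT.lf (nat_lit 0) (nat_lit 577634262806) (nat_lit 152) (nat_lit 543402850364) (nat_lit 228) (nat_lit 1666947903068) (nat_lit 219) (nat_lit 5) (nat_lit 221) (nat_lit 5) (nat_lit 222) (nat_lit 5) (nat_lit 436) (nat_lit 410) (nat_lit 174))) (XT.nd (nat_lit 78) (nat_lit 228) (nat_lit 0) (XT.lf (nat_lit 0) (nat_lit 579932928448) (nat_lit 152) (nat_lit 1786938812439) (nat_lit 228) (nat_lit 559246663980) (nat_lit 217) (nat_lit 5) (nat_lit 219) (nat_lit 5) (nat_lit 220) (nat_lit 5) (nat_lit 437) (nat_lit 410) (nat_lit 173)) (XT.lf (nat_lit 0) (nat_lit 598405175818) (nat_lit 152) (nat_lit 75914880374) (nat_lit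 228) (nat_lit 2397603104358) (nat_lit 214) (nat_lit 5) (nat_lit 216) (nat_lit 5) (nat_lit 217) (nat_lit 5) (nat_lit 438) (nat_lit 410) (nat_lit 172)))) (XT.nd (nat_lit 156) (nat_lit 228) (nat_lit 0) (XT.nd (nat_lit 78) (nat_lit 152) (nat_lit 0) (XT.lf (nat_lit 0) (nat_lit 616977231356) (nat_lit 152) (nat_lit 1449101052956) (nat_lit 228) (nat_lit 1158900641008) (nat_lit 212) (nat_lit 5) (nat_lit 214) (nat_lit 5) (nat_lit 215) (nat_lit 5) (nat_lit 439) (nat_lit 410) (nat_lit 171)) (XT.lf (nat_lit 0) (nat_lit 235646654060) (nat_lit 152) (nat_lit 2722643719284) (nat_lit 76) (nat_lit 428725398529) (nat_lit 210) (nat_lit 5) (nat_lit 212) (nat_lit 5) (nat_lit 211) (nat_lit 5) (nat_lit 440) (nat_lit 410) (nat_lit 170))) (XT.nd (nat_lit 78) (nat_lit 76) (nat_lit 0) (XT.lf (nat_lit 0) (nat_lit 709924094677) (nat_lit 152) (nat_lit 1073467064185) (nat_lit 228) (nat_lit 1773562705764) (nat_lit 208) (nat_lit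 5) (nat_lit 210) (nat_lit 5) (nat_lit 211) (nat_lit 5) (nat_lit 441) (nat_lit 410) (nat_lit 169)) (XT.lf (nat_lit 0) (nat_lit 785549661018) (nat_lit 76) (nat_lit 2744896110493) (nat_lit 152) (nat_lit 206266705914) (nat_lit 207) (nat_lit 5) (nat_lit 208) (nat_lit 5) (nat_lit 209) (nat_lit 4) (nat_lit 442) (nat_lit 410) (nat_lit 168)))))) (XT.nd (nat_lit 624) (nat_lit 2584) (nat_lit 0) (XT.nd (nat_lit 312) (nat_lit 380) (nat_lit 0) (XT.nd (nat_lit 156) (nat_lit 0) (nat_lit 76) (XT.nd (nat_lit 78) (nat_lit 0) (nat_lit 76) (XT.lf (nat_lit 0) (nat_lit 225245176941) (nat_lit 836) (nat_lit 126863645740) (nat_lit 836) (nat_lit 126863645740) (nat_lit 292) (nat_lit 3) (nat_lit 303) (nat_lit 3) (nat_lit 303) (nat_lit 5) (nat_lit 411) (nat_lit 411) (nat_lit 198)) (XT.lf (nat_lit 0) (nat_lit 477602641508) (nat_lit 760) (nat_lit 467095202164) (nat_lit 836) (nat_lit 51110256975) (nat_lit 293) (nat_lit 5) (nat_lit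 303) (nat_lit 5) (nat_lit 304) (nat_lit 5) (nat_lit 412) (nat_lit 411) (nat_lit 197))) (XT.nd (nat_lit 78) (nat_lit 0) (nat_lit 76) (XT.lf (nat_lit 76) (nat_lit 345438836492) (nat_lit 0) (nat_lit 183204949719) (nat_lit 836) (nat_lit 506968537636) (nat_lit 294) (nat_lit 5) (nat_lit 293) (nat_lit 5) (nat_lit 304) (nat_lit 5) (nat_lit 413) (nat_lit 411) (nat_lit 196)) (XT.lf (nat_lit 76) (nat_lit 156352399789) (nat_lit 0) (nat_lit 448106612350) (nat_lit 836) (nat_lit 473107333283) (nat_lit 295) (nat_lit 5) (nat_lit 294) (nat_lit 5) (nat_lit 305) (nat_lit 5) (nat_lit 414) (nat_lit 411) (nat_lit 195)))) (XT.nd (nat_lit 156) (nat_lit 608) (nat_lit 0) (XT.nd (nat_lit 78) (nat_lit 0) (nat_lit 76) (XT.lf (nat_lit 0) (nat_lit 707500367939) (nat_lit 760) (nat_lit 36167891004) (nat_lit 836) (nat_lit 378150384190) (nat_lit 295) (nat_lit 5) (nat_lit 305) (nat_lit 5) (nat_lit 306) (nat_lit 5) (nat_lit 415)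 (nat_lit 411) (nat_lit 194)) (XT.lf (nat_lit 0) (nat_lit 842633148401) (nat_lit 760) (nat_lit 227793316711) (nat_lit 836) (nat_lit 97992253738) (nat_lit 296) (nat_lit 5) (nat_lit 306) (nat_lit 5) (nat_lit 307) (nat_lit 5) (nat_lit 416) (nat_lit 411) (nat_lit 193))) (XT.nd (nat_lit 78) (nat_lit 684) (nat_lit 0) (XT.lf (nat_lit 76) (nat_lit 790902274673) (nat_lit 0) (nat_lit 223202424216) (nat_lit 836) (nat_lit 203365694357) (nat_lit 297) (nat_lit 5) (nat_lit 296) (nat_lit 5) (nat_lit 307) (nat_lit 5) (nat_lit 417) (nat_lit 411) (nat_lit 192)) (XT.lf (nat_lit 0) (nat_lit 638551797767) (nat_lit 760) (nat_lit 585545742601) (nat_lit 836) (nat_lit 45108482878) (nat_lit 287) (nat_lit 5) (nat_lit 297) (nat_lit 5) (nat_lit 298) (nat_lit 5) (nat_lit 418) (nat_lit 411) (nat_lit 191))))) (XT.nd (nat_lit 312) (nat_lit 988) (nat_lit 0) (XT.nd (nat_lit 156) (nat_lit 684) (nat_lit 0) (XT.nd (nat_lit 78) (nat_lit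 380) (nat_lit 0) (XT.lf (nat_lit 0) (nat_lit 146177253704) (nat_lit 532) (nat_lit 840262129790) (nat_lit 76) (nat_lit 337323176776) (nat_lit 280) (nat_lit 5) (nat_lit 287) (nat_lit 5) (nat_lit 281) (nat_lit 5) (nat_lit 419) (nat_lit 411) (nat_lit 190)) (XT.lf (nat_lit 0) (nat_lit 326819769993) (nat_lit 380) (nat_lit 50528443599) (nat_lit 456) (nat_lit 1003990295206) (nat_lit 275) (nat_lit 5) (nat_lit 280) (nat_lit 5) (nat_lit 281) (nat_lit 5) (nat_lit 420) (nat_lit 411) (nat_lit 189))) (XT.nd (nat_lit 78) (nat_lit 304) (nat_lit 0) (XT.lf (nat_lit 0) (nat_lit 164518403397) (nat_lit 380) (nat_lit 494932083284) (nat_lit 456) (nat_lit 782448164705) (nat_lit 270) (nat_lit 5) (nat_lit 275) (nat_lit 5) (nat_lit 276) (nat_lit 5) (nat_lit 421) (nat_lit 411) (nat_lit 188)) (XT.lf (nat_lit 0) (nat_lit 3270849488) (nat_lit 304) (nat_lit 988453907805) (nat_lit 380) (nat_lit 514198657304) (nat_lit 266) (nat_lit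 5) (nat_lit 270) (nat_lit 5) (nat_lit 271) (nat_lit 5) (nat_lit 422) (nat_lit 411) (nat_lit 187)))) (XT.nd (nat_lit 156) (nat_lit 608) (nat_lit 0) (XT.nd (nat_lit 78) (nat_lit 380) (nat_lit 0) (XT.lf (nat_lit 0) (nat_lit 1381703762592) (nat_lit 380) (nat_lit 150840396450) (nat_lit 76) (nat_lit 40969860171) (nat_lit 266) (nat_lit 5) (nat_lit 271) (nat_lit 5) (nat_lit 267) (nat_lit 5) (nat_lit 423) (nat_lit 411) (nat_lit 186)) (XT.lf (nat_lit 0) (nat_lit 189492487829) (nat_lit 380) (nat_lit 312508726425) (nat_lit 76) (nat_lit 1142482186700) (nat_lit 261) (nat_lit 5) (nat_lit 266) (nat_lit 5) (nat_lit 262) (nat_lit 5) (nat_lit 424) (nat_lit 411) (nat_lit 185))) (XT.nd (nat_lit 78) (nat_lit 304) (nat_lit 0) (XT.lf (nat_lit 0) (nat_lit 626886047130) (nat_lit 380) (nat_lit 475129968692) (nat_lit 76) (nat_lit 617341761276) (nat_lit 257) (nat_lit 5) (nat_lit 262) (nat_lit 5) (nat_lit 258) (nat_lit 5)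 (nat_lit 425) (nat_lit 411) (nat_lit 184)) (XT.lf (nat_lit 0) (nat_lit 1131995575450) (nat_lit 380) (nat_lit 633682133666) (nat_lit 76) (nat_lit 32908170002) (nat_lit 253) (nat_lit 5) (nat_lit 258) (nat_lit 5) (nat_lit 254) (nat_lit 5) (nat_lit 426) (nat_lit 411) (nat_lit 183)))))))
noncomputable def xc243 : XT := (XT.nd (nat_lit 51948) (nat_lit 0) (nat_lit 3192) (XT.nd (nat_lit 624) (nat_lit 1368) (nat_lit 0) (XT.nd (nat_lit 312) (nat_lit 988) (nat_lit 0) (XT.nd (nat_lit 156) (nat_lit 456) (nat_lit 0) (XT.nd (nat_lit 78) (nat_lit 380) (nat_lit 0) (XT.lf (nat_lit 0) (nat_lit 1085390059645) (nat_lit 228) (nat_lit 636063922611) (nat_lit 304) (nat_lit 160501241234) (nat_lit 250) (nat_lit 5) (nat_lit 253) (nat_lit 5) (nat_lit 254) (nat_lit 5) (nat_lit 427) (nat_lit 411) (nat_lit 182)) (XT.lf (nat_lit 0) (nat_lit 410516538054) (nat_lit 380) (nat_lit 960396853911) (nat_lit 76) (nat_lit 598939417790)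 (nat_lit 245) (nat_lit 5) (nat_lit 250) (nat_lit 5) (nat_lit 246) (nat_lit 5) (nat_lit 428) (nat_lit 411) (nat_lit 181))) (XT.nd (nat_lit 78) (nat_lit 228) (nat_lit 0) (XT.lf (nat_lit 0) (nat_lit 940766823955) (nat_lit 228) (nat_lit 120417233234) (nat_lit 304) (nat_lit 1001487012380) (nat_lit 242) (nat_lit 5) (nat_lit 245) (nat_lit 5) (nat_lit 246) (nat_lit 5) (nat_lit 429) (nat_lit 411) (nat_lit 180)) (XT.lf (nat_lit 0) (nat_lit 874758622384) (nat_lit 228) (nat_lit 939013131640) (nat_lit 304) (nat_lit 346649697336) (nat_lit 239) (nat_lit 5) (nat_lit 242) (nat_lit 5) (nat_lit 243) (nat_lit 5) (nat_lit 430) (nat_lit 411) (nat_lit 179)))) (XT.nd (nat_lit 156) (nat_lit 456) (nat_lit 0) (XT.nd (nat_lit 78) (nat_lit 228) (nat_lit 0) (XT.lf (nat_lit 0) (nat_lit 390684513286) (nat_lit 304) (nat_lit 1446239243732) (nat_lit 76) (nat_lit 426704100198) (nat_lit 235) (nat_lit 5) (nat_lit 239) (nat_lit 5)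 (nat_lit 236) (nat_lit 5) (nat_lit 431) (nat_lit 411) (nat_lit 178)) (XT.lf (nat_lit 0) (nat_lit 762998728411) (nat_lit 228) (nat_lit 462532757174) (nat_lit 304) (nat_lit 1146741603779) (nat_lit 232) (nat_lit 5) (nat_lit 235) (nat_lit 5) (nat_lit 236) (nat_lit 5) (nat_lit 432) (nat_lit 411) (nat_lit 177))) (XT.nd (nat_lit 78) (nat_lit 304) (nat_lit 0) (XT.lf (nat_lit 0) (nat_lit 718913578521) (nat_lit 152) (nat_lit 1461035746834) (nat_lit 228) (nat_lit 307021459243) (nat_lit 230) (nat_lit 5) (nat_lit 232) (nat_lit 5) (nat_lit 233) (nat_lit 5) (nat_lit 433) (nat_lit 411) (nat_lit 176)) (XT.lf (nat_lit 0) (nat_lit 628579468680) (nat_lit 304) (nat_lit 1923229287690) (nat_lit 76) (nat_lit 56172103594) (nat_lit 226) (nat_lit 5) (nat_lit 230) (nat_lit 5) (nat_lit 227) (nat_lit 5) (nat_lit 434) (nat_lit 411) (nat_lit 175))))) (XT.nd (nat_lit 312) (nat_lit 684) (nat_lit 0) (XT.nd (nat_lit 156) (nat_lit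 304) (nat_lit 0) (XT.nd (nat_lit 78) (nat_lit 228) (nat_lit 0) (XT.lf (nat_lit 0) (nat_lit 650285613979) (nat_lit 152) (nat_lit 1044221941487) (nat_lit 228) (nat_lit 1040600747907) (nat_lit 224) (nat_lit 5) (nat_lit 226) (nat_lit 5) (nat_lit 227) (nat_lit 5) (nat_lit 435) (nat_lit 411) (nat_lit 174)) (XT.lf (nat_lit 0) (nat_lit 28164636757) (nat_lit 228) (nat_lit 2231808745846) (nat_lit 76) (nat_lit 609753087194) (nat_lit 221) (nat_lit 5) (nat_lit 224) (nat_lit 5) (nat_lit 222) (nat_lit 5) (nat_lit 436) (nat_lit 411) (nat_lit 173))) (XT.nd (nat_lit 78) (nat_lit 152) (nat_lit 0) (XT.lf (nat_lit 0) (nat_lit 623845106644) (nat_lit 152) (nat_lit 586875036757) (nat_lit 228) (nat_lit 1800303671078) (nat_lit 219) (nat_lit 5) (nat_lit 221) (nat_lit 5) (nat_lit 222) (nat_lit 5) (nat_lit 437) (nat_lit 411) (nat_lit 172)) (XT.lf (nat_lit 0) (nat_lit 626327663373) (nat_lit 152) (nat_lit 1929893875603) (nat_lit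 228) (nat_lit 603986335340) (nat_lit 217) (nat_lit 5) (nat_lit 219) (nat_lit 5) (nat_lit 220) (nat_lit 5) (nat_lit 438) (nat_lit 411) (nat_lit 171)))) (XT.nd (nat_lit 156) (nat_lit 304) (nat_lit 0) (XT.nd (nat_lit 78) (nat_lit 152) (nat_lit 0) (XT.lf (nat_lit 0) (nat_lit 646277688049) (nat_lit 152) (nat_lit 81988029525) (nat_lit 228) (nat_lit 2589411292976) (nat_lit 214) (nat_lit 5) (nat_lit 216) (nat_lit 5) (nat_lit 217) (nat_lit 5) (nat_lit 439) (nat_lit 411) (nat_lit 170)) (XT.lf (nat_lit 0) (nat_lit 666335505868) (nat_lit 152) (nat_lit 1565029095957) (nat_lit 228) (nat_lit 1251612634781) (nat_lit 212) (nat_lit 5) (nat_lit 214) (nat_lit 5) (nat_lit 215) (nat_lit 5) (nat_lit 440) (nat_lit 411) (nat_lit 169))) (XT.nd (nat_lit 78) (nat_lit 152) (nat_lit 0) (XT.lf (nat_lit 0) (nat_lit 254498440023) (nat_lit 152) (nat_lit 2940455121218) (nat_lit 76) (nat_lit 463023469700) (nat_lit 210) (nat_lit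 5) (nat_lit 212) (nat_lit 5) (nat_lit 211) (nat_lit 5) (nat_lit 441) (nat_lit 411) (nat_lit 168)) (XT.lf (nat_lit 0) (nat_lit 766718113705) (nat_lit 152) (nat_lit 1159344388958) (nat_lit 228) (nat_lit 1915447668578) (nat_lit 208) (nat_lit 5) (nat_lit 210) (nat_lit 5) (nat_lit 211) (nat_lit 5) (nat_lit 442) (nat_lit 411) (nat_lit 167)))))) (XT.nd (nat_lit 624) (nat_lit 2812) (nat_lit 0) (XT.nd (nat_lit 312) (nat_lit 380) (nat_lit 0) (XT.nd (nat_lit 156) (nat_lit 0) (nat_lit 76) (XT.nd (nat_lit 78) (nat_lit 0) (nat_lit 76) (XT.lf (nat_lit 0) (nat_lit 243264898785) (nat_lit 836) (nat_lit 137012680863) (nat_lit 836) (nat_lit 137012680863) (nat_lit 292) (nat_lit 3) (nat_lit 303) (nat_lit 3) (nat_lit 303) (nat_lit 5) (nat_lit 412) (nat_lit 412) (nat_lit 196)) (XT.lf (nat_lit 0) (nat_lit 515811052489) (nat_lit 760) (nat_lit 504462698671) (nat_lit 836) (nat_lit 55198987555) (nat_lit 293) (nat_lit 5)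 (nat_lit 303) (nat_lit 5) (nat_lit 304) (nat_lit 5) (nat_lit 413) (nat_lit 412) (nat_lit 195))) (XT.nd (nat_lit 78) (nat_lit 0) (nat_lit 76) (XT.lf (nat_lit 76) (nat_lit 373074057877) (nat_lit 0) (nat_lit 197861417889) (nat_lit 836) (nat_lit 547525824656) (nat_lit 294) (nat_lit 5) (nat_lit 293) (nat_lit 5) (nat_lit 304) (nat_lit 5) (nat_lit 414) (nat_lit 412) (nat_lit 194)) (XT.lf (nat_lit 76) (nat_lit 168860711269) (nat_lit 0) (nat_lit 483955195495) (nat_lit 836) (nat_lit 510955737609) (nat_lit 295) (nat_lit 5) (nat_lit 294) (nat_lit 5) (nat_lit 305) (nat_lit 5) (nat_lit 415) (nat_lit 412) (nat_lit 193)))) (XT.nd (nat_lit 156) (nat_lit 608) (nat_lit 0) (XT.nd (nat_lit 78) (nat_lit 0) (nat_lit 76) (XT.lf (nat_lit 0) (nat_lit 764100557381) (nat_lit 760) (nat_lit 39061202818) (nat_lit 836) (nat_lit 408402366384) (nat_lit 295) (nat_lit 5) (nat_lit 305) (nat_lit 5) (nat_lit 306) (nat_lit 5) (nat_lit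 416) (nat_lit 412) (nat_lit 192)) (XT.lf (nat_lit 0) (nat_lit 910043949655) (nat_lit 760) (nat_lit 246016659719) (nat_lit 836) (nat_lit 105831599515) (nat_lit 296) (nat_lit 5) (nat_lit 306) (nat_lit 5) (nat_lit 307) (nat_lit 5) (nat_lit 417) (nat_lit 412) (nat_lit 191))) (XT.nd (nat_lit 78) (nat_lit 684) (nat_lit 0) (XT.lf (nat_lit 76) (nat_lit 854174573660) (nat_lit 0) (nat_lit 241058641284) (nat_lit 836) (nat_lit 219634802755) (nat_lit 297) (nat_lit 5) (nat_lit 296) (nat_lit 5) (nat_lit 307) (nat_lit 5) (nat_lit 418) (nat_lit 412) (nat_lit 190)) (XT.lf (nat_lit 0) (nat_lit 689636060564) (nat_lit 760) (nat_lit 632389414320) (nat_lit 836) (nat_lit 48717023658) (nat_lit 287) (nat_lit 5) (nat_lit 297) (nat_lit 5) (nat_lit 298) (nat_lit 5) (nat_lit 419) (nat_lit 412) (nat_lit 189))))) (XT.nd (nat_lit 312) (nat_lit 1216) (nat_lit 0) (XT.nd (nat_lit 156) (nat_lit 684) (nat_lit 0) (XT.nd (nat_lit 78)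 (nat_lit 380) (nat_lit 0) (XT.lf (nat_lit 0) (nat_lit 157871559282) (nat_lit 532) (nat_lit 907482975763) (nat_lit 76) (nat_lit 364309023783) (nat_lit 280) (nat_lit 5) (nat_lit 287) (nat_lit 5) (nat_lit 281) (nat_lit 5) (nat_lit 420) (nat_lit 412) (nat_lit 188)) (XT.lf (nat_lit 0) (nat_lit 352965470595) (nat_lit 380) (nat_lit 54570717942) (nat_lit 456) (nat_lit 1084309395070) (nat_lit 275) (nat_lit 5) (nat_lit 280) (nat_lit 5) (nat_lit 281) (nat_lit 5) (nat_lit 421) (nat_lit 412) (nat_lit 187))) (XT.nd (nat_lit 78) (nat_lit 304) (nat_lit 0) (XT.lf (nat_lit 0) (nat_lit 177679995120) (nat_lit 380) (nat_lit 534526641505) (nat_lit 456) (nat_lit 845043901320) (nat_lit 270) (nat_lit 5) (nat_lit 275) (nat_lit 5) (nat_lit 276) (nat_lit 5) (nat_lit 422) (nat_lit 412) (nat_lit 186)) (XT.lf (nat_lit 0) (nat_lit 3532636890) (nat_lit 304) (nat_lit 1067530205760) (nat_lit 380) (nat_lit 555334439875) (nat_lit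 266) (nat_lit 5) (nat_lit 270) (nat_lit 5) (nat_lit 271) (nat_lit 5) (nat_lit 423) (nat_lit 412) (nat_lit 185)))) (XT.nd (nat_lit 156) (nat_lit 836) (nat_lit 0) (XT.nd (nat_lit 78) (nat_lit 380) (nat_lit 0) (XT.lf (nat_lit 0) (nat_lit 1492240160824) (nat_lit 380) (nat_lit 162907512932) (nat_lit 76) (nat_lit 44247462132) (nat_lit 266) (nat_lit 5) (nat_lit 271) (nat_lit 5) (nat_lit 267) (nat_lit 5) (nat_lit 424) (nat_lit 412) (nat_lit 184)) (XT.lf (nat_lit 0) (nat_lit 204651980104) (nat_lit 380) (nat_lit 337509311230) (nat_lit 76) (nat_lit 1233880777035) (nat_lit 261) (nat_lit 5) (nat_lit 266) (nat_lit 5) (nat_lit 262) (nat_lit 5) (nat_lit 425) (nat_lit 412) (nat_lit 183))) (XT.nd (nat_lit 78) (nat_lit 532) (nat_lit 0) (XT.lf (nat_lit 0) (nat_lit 677037019251) (nat_lit 380) (nat_lit 513140253718) (nat_lit 76) (nat_lit 666729121879) (nat_lit 257) (nat_lit 5) (nat_lit 262) (nat_lit 5) (nat_lit 258)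 (nat_lit 5) (nat_lit 426) (nat_lit 412) (nat_lit 182)) (XT.nd (nat_lit 78) (nat_lit 228) (nat_lit 0) (XT.lf (nat_lit 0) (nat_lit 1222555305349) (nat_lit 380) (nat_lit 684376592980) (nat_lit 76) (nat_lit 35540846926) (nat_lit 253) (nat_lit 5) (nat_lit 258) (nat_lit 5) (nat_lit 254) (nat_lit 5) (nat_lit 427) (nat_lit 412) (nat_lit 181)) (XT.lf (nat_lit 0) (nat_lit 1172221370956) (nat_lit 228) (nat_lit 686949009194) (nat_lit 304) (nat_lit 173341257253) (nat_lit 250) (nat_lit 5) (nat_lit 253) (nat_lit 5) (nat_lit 254) (nat_lit 5) (nat_lit 428) (nat_lit 412) (nat_lit 180))))))))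
noncomputable def xc244 : XT := (XT.nd (nat_lit 52026) (nat_lit 0) (nat_lit 2660) (XT.nd (nat_lit 624) (nat_lit 1064) (nat_lit 0) (XT.nd (nat_lit 312) (nat_lit 836) (nat_lit 0) (XT.nd (nat_lit 156) (nat_lit 532) (nat_lit 0) (XT.nd (nat_lit 78) (nat_lit 228) (nat_lit 0) (XT.lf (nat_lit 0) (nat_lit 443357937812) (nat_lit 380) (nat_lit 1037228494391) (nat_lit 76) (nat_lit 646854598496) (nat_lit 245) (nat_lit 5) (nat_lit 250) (nat_lit 5) (nat_lit 246) (nat_lit 5) (nat_lit 429) (nat_lit 412) (nat_lit 179)) (XT.lf (nat_lit 0) (nat_lit 1016028273017) (nat_lit 228) (nat_lit 130050581388) (nat_lit 304) (nat_lit 1081605897097) (nat_lit 242) (nat_lit 5) (nat_lit 245) (nat_lit 5) (nat_lit 246) (nat_lit 5) (nat_lit 430) (nat_lit 412) (nat_lit 178))) (XT.nd (nat_lit 78) (nat_lit 304) (nat_lit 0) (XT.lf (nat_lit 0) (nat_lit 944739413857) (nat_lit 228) (nat_lit 1014134149779) (nat_lit 304) (nat_lit 374381600369)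 (nat_lit 239) (nat_lit 5) (nat_lit 242) (nat_lit 5) (nat_lit 243) (nat_lit 5) (nat_lit 431) (nat_lit 412) (nat_lit 177)) (XT.lf (nat_lit 0) (nat_lit 421939341621) (nat_lit 304) (nat_lit 1561938280913) (nat_lit 76) (nat_lit 460840459896) (nat_lit 235) (nat_lit 5) (nat_lit 239) (nat_lit 5) (nat_lit 236) (nat_lit 5) (nat_lit 432) (nat_lit 412) (nat_lit 176)))) (XT.nd (nat_lit 156) (nat_lit 456) (nat_lit 0) (XT.nd (nat_lit 78) (nat_lit 152) (nat_lit 0) (XT.lf (nat_lit 0) (nat_lit 824038724555) (nat_lit 228) (nat_lit 499535343694) (nat_lit 304) (nat_lit 1238480865073) (nat_lit 232) (nat_lit 5) (nat_lit 235) (nat_lit 5) (nat_lit 236) (nat_lit 5) (nat_lit 433) (nat_lit 412) (nat_lit 175)) (XT.lf (nat_lit 0) (nat_lit 776426760964) (nat_lit 152) (nat_lit 1577918571504) (nat_lit 228) (nat_lit 331583111845) (nat_lit 230) (nat_lit 5) (nat_lit 232) (nat_lit 5) (nat_lit 233) (nat_lit 5) (nat_lit 434) (nat_lit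 412) (nat_lit 174))) (XT.nd (nat_lit 78) (nat_lit 152) (nat_lit 0) (XT.lf (nat_lit 0) (nat_lit 678865885673) (nat_lit 304) (nat_lit 2077087534358) (nat_lit 76) (nat_lit 60665905754) (nat_lit 226) (nat_lit 5) (nat_lit 230) (nat_lit 5) (nat_lit 227) (nat_lit 5) (nat_lit 435) (nat_lit 412) (nat_lit 173)) (XT.lf (nat_lit 0) (nat_lit 702308555258) (nat_lit 152) (nat_lit 1127759661177) (nat_lit 228) (nat_lit 1123848748382) (nat_lit 224) (nat_lit 5) (nat_lit 226) (nat_lit 5) (nat_lit 227) (nat_lit 5) (nat_lit 436) (nat_lit 412) (nat_lit 172))))) (XT.nd (nat_lit 312) (nat_lit 304) (nat_lit 0) (XT.nd (nat_lit 156) (nat_lit 380) (nat_lit 0) (XT.nd (nat_lit 78) (nat_lit 152) (nat_lit 0) (XT.lf (nat_lit 0) (nat_lit 30417862856) (nat_lit 228) (nat_lit 2410353353363) (nat_lit 76) (nat_lit 658533368403) (nat_lit 221) (nat_lit 5) (nat_lit 224) (nat_lit 5) (nat_lit 222) (nat_lit 5) (nat_lit 437) (nat_lit 412)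 (nat_lit 171)) (XT.lf (nat_lit 0) (nat_lit 673752803321) (nat_lit 152) (nat_lit 633825004001) (nat_lit 228) (nat_lit 1944327909693) (nat_lit 219) (nat_lit 5) (nat_lit 221) (nat_lit 5) (nat_lit 222) (nat_lit 5) (nat_lit 438) (nat_lit 412) (nat_lit 170))) (XT.nd (nat_lit 78) (nat_lit 228) (nat_lit 0) (XT.lf (nat_lit 0) (nat_lit 676433962733) (nat_lit 152) (nat_lit 2084285349788) (nat_lit 228) (nat_lit 652305189219) (nat_lit 217) (nat_lit 5) (nat_lit 219) (nat_lit 5) (nat_lit 220) (nat_lit 5) (nat_lit 439) (nat_lit 412) (nat_lit 169)) (XT.lf (nat_lit 0) (nat_lit 697979987254) (nat_lit 152) (nat_lit 88547036497) (nat_lit 228) (nat_lit 2796564145204) (nat_lit 214) (nat_lit 5) (nat_lit 216) (nat_lit 5) (nat_lit 217) (nat_lit 5) (nat_lit 440) (nat_lit 412) (nat_lit 168)))) (XT.nd (nat_lit 50934) (nat_lit 0) (nat_lit 6232) (XT.nd (nat_lit 78) (nat_lit 152) (nat_lit 0) (XT.lf (nat_lit 0) (nat_lit 719642428645)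 (nat_lit 152) (nat_lit 1690231388281) (nat_lit 228) (nat_lit 1351741596261) (nat_lit 212) (nat_lit 5) (nat_lit 214) (nat_lit 5) (nat_lit 215) (nat_lit 5) (nat_lit 441) (nat_lit 412) (nat_lit 167)) (XT.lf (nat_lit 0) (nat_lit 274858361211) (nat_lit 152) (nat_lit 3175691448946) (nat_lit 76) (nat_lit 500065380960) (nat_lit 210) (nat_lit 5) (nat_lit 212) (nat_lit 5) (nat_lit 211) (nat_lit 5) (nat_lit 442) (nat_lit 412) (nat_lit 166))) (XT.nd (nat_lit 78) (nat_lit 0) (nat_lit 76) (XT.lf (nat_lit 0) (nat_lit 262726183013) (nat_lit 836) (nat_lit 147973646861) (nat_lit 836) (nat_lit 147973646861) (nat_lit 292) (nat_lit 3) (nat_lit 303) (nat_lit 3) (nat_lit 303) (nat_lit 5) (nat_lit 413) (nat_lit 413) (nat_lit 194)) (XT.lf (nat_lit 0) (nat_lit 557076107865) (nat_lit 760) (nat_lit 544819611971) (nat_lit 836) (nat_lit 59614829418) (nat_lit 293) (nat_lit 5) (nat_lit 303) (nat_lit 5) (nat_lit 304) (nat_lit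 5) (nat_lit 414) (nat_lit 413) (nat_lit 193)))))) (XT.nd (nat_lit 624) (nat_lit 2280) (nat_lit 0) (XT.nd (nat_lit 312) (nat_lit 1368) (nat_lit 0) (XT.nd (nat_lit 156) (nat_lit 0) (nat_lit 152) (XT.nd (nat_lit 78) (nat_lit 0) (nat_lit 76) (XT.lf (nat_lit 76) (nat_lit 402920080642) (nat_lit 0) (nat_lit 213690393214) (nat_lit 836) (nat_lit 591327722598) (nat_lit 294) (nat_lit 5) (nat_lit 293) (nat_lit 5) (nat_lit 304) (nat_lit 5) (nat_lit 415) (nat_lit 413) (nat_lit 192)) (XT.lf (nat_lit 76) (nat_lit 182369670619) (nat_lit 0) (nat_lit 522671657566) (nat_lit 836) (nat_lit 551832040294) (nat_lit 295) (nat_lit 5) (nat_lit 294) (nat_lit 5) (nat_lit 305) (nat_lit 5) (nat_lit 416) (nat_lit 413) (nat_lit 191))) (XT.nd (nat_lit 78) (nat_lit 0) (nat_lit 76) (XT.lf (nat_lit 0) (nat_lit 825228739152) (nat_lit 760) (nat_lit 42185996619) (nat_lit 836) (nat_lit 441074514079) (nat_lit 295) (nat_lit 5) (nat_lit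 305) (nat_lit 5) (nat_lit 306) (nat_lit 5) (nat_lit 417) (nat_lit 413) (nat_lit 190)) (XT.lf (nat_lit 0) (nat_lit 982847593699) (nat_lit 760) (nat_lit 265697887619) (nat_lit 836) (nat_lit 114298097879) (nat_lit 296) (nat_lit 5) (nat_lit 306) (nat_lit 5) (nat_lit 307) (nat_lit 5) (nat_lit 418) (nat_lit 413) (nat_lit 189)))) (XT.nd (nat_lit 156) (nat_lit 912) (nat_lit 0) (XT.nd (nat_lit 78) (nat_lit 684) (nat_lit 0) (XT.lf (nat_lit 76) (nat_lit 922508639872) (nat_lit 0) (nat_lit 260343352418) (nat_lit 836) (nat_lit 237205460817) (nat_lit 297) (nat_lit 5) (nat_lit 296) (nat_lit 5) (nat_lit 307) (nat_lit 5) (nat_lit 419) (nat_lit 413) (nat_lit 188)) (XT.lf (nat_lit 0) (nat_lit 744807047411) (nat_lit 760) (nat_lit 682980578020) (nat_lit 836) (nat_lit 52614267366) (nat_lit 287) (nat_lit 5) (nat_lit 297) (nat_lit 5) (nat_lit 298) (nat_lit 5) (nat_lit 420) (nat_lit 413) (nat_lit 187))) (XT.nd (nat_lit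 78) (nat_lit 380) (nat_lit 0) (XT.lf (nat_lit 0) (nat_lit 170501391433) (nat_lit 532) (nat_lit 980081507163) (nat_lit 76) (nat_lit 393453739569) (nat_lit 280) (nat_lit 5) (nat_lit 287) (nat_lit 5) (nat_lit 281) (nat_lit 5) (nat_lit 421) (nat_lit 413) (nat_lit 186)) (XT.lf (nat_lit 0) (nat_lit 381202810269) (nat_lit 380) (nat_lit 58936374397) (nat_lit 456) (nat_lit 1171054040578) (nat_lit 275) (nat_lit 5) (nat_lit 280) (nat_lit 5) (nat_lit 281) (nat_lit 5) (nat_lit 422) (nat_lit 413) (nat_lit 185))))) (XT.nd (nat_lit 312) (nat_lit 1216) (nat_lit 0) (XT.nd (nat_lit 156) (nat_lit 380) (nat_lit 0) (XT.nd (nat_lit 78) (nat_lit 304) (nat_lit 0) (XT.lf (nat_lit 0) (nat_lit 191894497140) (nat_lit 380) (nat_lit 577288765589) (nat_lit 456) (nat_lit 912647313493) (nat_lit 270) (nat_lit 5) (nat_lit 275) (nat_lit 5) (nat_lit 276) (nat_lit 5) (nat_lit 423) (nat_lit 413) (nat_lit 184)) (XT.lf (nat_lit 0) (nat_lit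 3815350245) (nat_lit 304) (nat_lit 1152932609644) (nat_lit 380) (nat_lit 599761100747) (nat_lit 266) (nat_lit 5) (nat_lit 270) (nat_lit 5) (nat_lit 271) (nat_lit 5) (nat_lit 424) (nat_lit 413) (nat_lit 183))) (XT.nd (nat_lit 78) (nat_lit 380) (nat_lit 0) (XT.lf (nat_lit 0) (nat_lit 1611619457045) (nat_lit 380) (nat_lit 175940015172) (nat_lit 76) (nat_lit 47787270375) (nat_lit 266) (nat_lit 5) (nat_lit 271) (nat_lit 5) (nat_lit 267) (nat_lit 5) (nat_lit 425) (nat_lit 413) (nat_lit 182)) (XT.lf (nat_lit 0) (nat_lit 221024218458) (nat_lit 380) (nat_lit 364509958983) (nat_lit 76) (nat_lit 1332591252400) (nat_lit 261) (nat_lit 5) (nat_lit 266) (nat_lit 5) (nat_lit 262) (nat_lit 5) (nat_lit 426) (nat_lit 413) (nat_lit 181)))) (XT.nd (nat_lit 156) (nat_lit 608) (nat_lit 0) (XT.nd (nat_lit 78) (nat_lit 304) (nat_lit 0) (XT.lf (nat_lit 0) (nat_lit 731200056538) (nat_lit 380) (nat_lit 554191377591) (nat_lit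 76) (nat_lit 720067468519) (nat_lit 257) (nat_lit 5) (nat_lit 262) (nat_lit 5) (nat_lit 258) (nat_lit 5) (nat_lit 427) (nat_lit 413) (nat_lit 180)) (XT.lf (nat_lit 0) (nat_lit 1320359801675) (nat_lit 380) (nat_lit 739126624928) (nat_lit 76) (nat_lit 38384134677) (nat_lit 253) (nat_lit 5) (nat_lit 258) (nat_lit 5) (nat_lit 254) (nat_lit 5) (nat_lit 428) (nat_lit 413) (nat_lit 179))) (XT.nd (nat_lit 78) (nat_lit 380) (nat_lit 0) (XT.lf (nat_lit 0) (nat_lit 1265999171973) (nat_lit 228) (nat_lit 741904906588) (nat_lit 304) (nat_lit 187208486434) (nat_lit 250) (nat_lit 5) (nat_lit 253) (nat_lit 5) (nat_lit 254) (nat_lit 5) (nat_lit 429) (nat_lit 413) (nat_lit 178)) (XT.lf (nat_lit 0) (nat_lit 478826638607) (nat_lit 380) (nat_lit 1120206681494) (nat_lit 76) (nat_lit 698602989767) (nat_lit 245) (nat_lit 5) (nat_lit 250) (nat_lit 5) (nat_lit 246) (nat_lit 5) (nat_lit 430) (nat_lit 413) (nat_lit 177)))))))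
noncomputable def xc245 : XT := (XT.nd (nat_lit 52182) (nat_lit 0) (nat_lit 1368) (XT.nd (nat_lit 624) (nat_lit 532) (nat_lit 0) (XT.nd (nat_lit 312) (nat_lit 836) (nat_lit 0) (XT.nd (nat_lit 156) (nat_lit 532) (nat_lit 0) (XT.nd (nat_lit 78) (nat_lit 228) (nat_lit 0) (XT.lf (nat_lit 0) (nat_lit 1097310623290) (nat_lit 228) (nat_lit 140454601747) (nat_lit 304) (nat_lit 1168134303473) (nat_lit 242) (nat_lit 5) (nat_lit 245) (nat_lit 5) (nat_lit 246) (nat_lit 5) (nat_lit 431) (nat_lit 413) (nat_lit 176)) (XT.lf (nat_lit 0) (nat_lit 1020318654142) (nat_lit 228) (nat_lit 1095264853989) (nat_lit 304) (nat_lit 404332066024) (nat_lit 239) (nat_lit 5) (nat_lit 242) (nat_lit 5) (nat_lit 243) (nat_lit 5) (nat_lit 432) (nat_lit 413) (nat_lit 175))) (XT.nd (nat_lit 78) (nat_lit 228) (nat_lit 0) (XT.lf (nat_lit 0) (nat_lit 455694546626) (nat_lit 304) (nat_lit 1686893255666) (nat_lit 76) (nat_lit 497707723849)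 (nat_lit 235) (nat_lit 5) (nat_lit 239) (nat_lit 5) (nat_lit 236) (nat_lit 5) (nat_lit 433) (nat_lit 413) (nat_lit 174)) (XT.lf (nat_lit 0) (nat_lit 889961906428) (nat_lit 228) (nat_lit 539498141994) (nat_lit 304) (nat_lit 1337559276830) (nat_lit 232) (nat_lit 5) (nat_lit 235) (nat_lit 5) (nat_lit 236) (nat_lit 5) (nat_lit 434) (nat_lit 413) (nat_lit 173)))) (XT.nd (nat_lit 156) (nat_lit 380) (nat_lit 0) (XT.nd (nat_lit 78) (nat_lit 304) (nat_lit 0) (XT.lf (nat_lit 0) (nat_lit 838540984284) (nat_lit 152) (nat_lit 1704152027151) (nat_lit 228) (nat_lit 358109705804) (nat_lit 230) (nat_lit 5) (nat_lit 232) (nat_lit 5) (nat_lit 233) (nat_lit 5) (nat_lit 435) (nat_lit 413) (nat_lit 172)) (XT.lf (nat_lit 0) (nat_lit 733175207539) (nat_lit 304) (nat_lit 2243254454504) (nat_lit 76) (nat_lit 65519207255) (nat_lit 226) (nat_lit 5) (nat_lit 230) (nat_lit 5) (nat_lit 227) (nat_lit 5) (nat_lit 436) (nat_lit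 413) (nat_lit 171))) (XT.nd (nat_lit 78) (nat_lit 228) (nat_lit 0) (XT.lf (nat_lit 0) (nat_lit 758493318691) (nat_lit 152) (nat_lit 1217980403525) (nat_lit 228) (nat_lit 1213756597363) (nat_lit 224) (nat_lit 5) (nat_lit 226) (nat_lit 5) (nat_lit 227) (nat_lit 5) (nat_lit 437) (nat_lit 413) (nat_lit 170)) (XT.lf (nat_lit 0) (nat_lit 32851339174) (nat_lit 228) (nat_lit 2603181542629) (nat_lit 76) (nat_lit 711216067226) (nat_lit 221) (nat_lit 5) (nat_lit 224) (nat_lit 5) (nat_lit 222) (nat_lit 5) (nat_lit 438) (nat_lit 413) (nat_lit 169))))) (XT.nd (nat_lit 51246) (nat_lit 0) (nat_lit 6004) (XT.nd (nat_lit 156) (nat_lit 228) (nat_lit 0) (XT.nd (nat_lit 78) (nat_lit 152) (nat_lit 0) (XT.lf (nat_lit 0) (nat_lit 727653103157) (nat_lit 152) (nat_lit 684530973716) (nat_lit 228) (nat_lit 2099874095254) (nat_lit 219) (nat_lit 5) (nat_lit 221) (nat_lit 5) (nat_lit 222) (nat_lit 5) (nat_lit 439) (nat_lit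 413) (nat_lit 168)) (XT.lf (nat_lit 0) (nat_lit 730548753731) (nat_lit 152) (nat_lit 2251028147025) (nat_lit 228) (nat_lit 704489558961) (nat_lit 217) (nat_lit 5) (nat_lit 219) (nat_lit 5) (nat_lit 220) (nat_lit 5) (nat_lit 440) (nat_lit 413) (nat_lit 167))) (XT.nd (nat_lit 51012) (nat_lit 0) (nat_lit 5928) (XT.lf (nat_lit 0) (nat_lit 753818458389) (nat_lit 152) (nat_lit 95630769075) (nat_lit 228) (nat_lit 3020289232916) (nat_lit 214) (nat_lit 5) (nat_lit 216) (nat_lit 5) (nat_lit 217) (nat_lit 5) (nat_lit 441) (nat_lit 413) (nat_lit 166)) (XT.lf (nat_lit 0) (nat_lit 283744356809) (nat_lit 836) (nat_lit 159811497054) (nat_lit 836) (nat_lit 159811497054) (nat_lit 292) (nat_lit 3) (nat_lit 303) (nat_lit 3) (nat_lit 303) (nat_lit 5) (nat_lit 414) (nat_lit 414) (nat_lit 192)))) (XT.nd (nat_lit 156) (nat_lit 0) (nat_lit 76) (XT.nd (nat_lit 78) (nat_lit 0) (nat_lit 0) (XT.lf (nat_lit 0) (nat_lit 601642343251)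 (nat_lit 760) (nat_lit 588405092971) (nat_lit 836) (nat_lit 64383949635) (nat_lit 293) (nat_lit 5) (nat_lit 303) (nat_lit 5) (nat_lit 304) (nat_lit 5) (nat_lit 415) (nat_lit 414) (nat_lit 191)) (XT.lf (nat_lit 76) (nat_lit 435153771229) (nat_lit 0) (nat_lit 230785677735) (nat_lit 836) (nat_lit 638633796347) (nat_lit 294) (nat_lit 5) (nat_lit 293) (nat_lit 5) (nat_lit 304) (nat_lit 5) (nat_lit 416) (nat_lit 414) (nat_lit 190))) (XT.nd (nat_lit 78) (nat_lit 0) (nat_lit 76) (XT.lf (nat_lit 76) (nat_lit 196959332102) (nat_lit 0) (nat_lit 564485429979) (nat_lit 836) (nat_lit 595978469495) (nat_lit 295) (nat_lit 5) (nat_lit 294) (nat_lit 5) (nat_lit 305) (nat_lit 5) (nat_lit 417) (nat_lit 414) (nat_lit 189)) (XT.lf (nat_lit 0) (nat_lit 891247155894) (nat_lit 760) (nat_lit 45560788537) (nat_lit 836) (nat_lit 476360439527) (nat_lit 295) (nat_lit 5) (nat_lit 305) (nat_lit 5) (nat_lit 306) (nat_lit 5)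 (nat_lit 418) (nat_lit 414) (nat_lit 188)))))) (XT.nd (nat_lit 624) (nat_lit 2584) (nat_lit 0) (XT.nd (nat_lit 312) (nat_lit 1064) (nat_lit 0) (XT.nd (nat_lit 156) (nat_lit 1216) (nat_lit 0) (XT.nd (nat_lit 78) (nat_lit 0) (nat_lit 0) (XT.lf (nat_lit 0) (nat_lit 1061475510995) (nat_lit 760) (nat_lit 286953628714) (nat_lit 836) (nat_lit 123441920334) (nat_lit 296) (nat_lit 5) (nat_lit 306) (nat_lit 5) (nat_lit 307) (nat_lit 5) (nat_lit 419) (nat_lit 414) (nat_lit 187)) (XT.lf (nat_lit 76) (nat_lit 996309417069) (nat_lit 0) (nat_lit 281170837614) (nat_lit 836) (nat_lit 256181789522) (nat_lit 297) (nat_lit 5) (nat_lit 296) (nat_lit 5) (nat_lit 307) (nat_lit 5) (nat_lit 420) (nat_lit 414) (nat_lit 186))) (XT.nd (nat_lit 78) (nat_lit 532) (nat_lit 0) (XT.lf (nat_lit 0) (nat_lit 804391698654) (nat_lit 760) (nat_lit 737619033310) (nat_lit 836) (nat_lit 56823307432) (nat_lit 287) (nat_lit 5) (nat_lit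 297) (nat_lit 5) (nat_lit 298) (nat_lit 5) (nat_lit 421) (nat_lit 414) (nat_lit 185)) (XT.lf (nat_lit 0) (nat_lit 184141594833) (nat_lit 532) (nat_lit 1058487936291) (nat_lit 76) (nat_lit 424930033489) (nat_lit 280) (nat_lit 5) (nat_lit 287) (nat_lit 5) (nat_lit 281) (nat_lit 5) (nat_lit 422) (nat_lit 414) (nat_lit 184)))) (XT.nd (nat_lit 156) (nat_lit 304) (nat_lit 0) (XT.nd (nat_lit 78) (nat_lit 380) (nat_lit 0) (XT.lf (nat_lit 0) (nat_lit 411699122562) (nat_lit 380) (nat_lit 63651283508) (nat_lit 456) (nat_lit 1264738272863) (nat_lit 275) (nat_lit 5) (nat_lit 280) (nat_lit 5) (nat_lit 281) (nat_lit 5) (nat_lit 423) (nat_lit 414) (nat_lit 183)) (XT.lf (nat_lit 0) (nat_lit 207246144712) (nat_lit 380) (nat_lit 623471860632) (nat_lit 456) (nat_lit 985659012897) (nat_lit 270) (nat_lit 5) (nat_lit 275) (nat_lit 5) (nat_lit 276) (nat_lit 5) (nat_lit 424) (nat_lit 414) (nat_lit 182))) (XT.nd (nat_lit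 78) (nat_lit 0) (nat_lit 0) (XT.lf (nat_lit 0) (nat_lit 4120666059) (nat_lit 304) (nat_lit 1245167207634) (nat_lit 380) (nat_lit 647741907944) (nat_lit 266) (nat_lit 5) (nat_lit 270) (nat_lit 5) (nat_lit 271) (nat_lit 5) (nat_lit 425) (nat_lit 414) (nat_lit 181)) (XT.lf (nat_lit 0) (nat_lit 1740549085073) (nat_lit 380) (nat_lit 190015131685) (nat_lit 76) (nat_lit 51610261669) (nat_lit 266) (nat_lit 5) (nat_lit 271) (nat_lit 5) (nat_lit 267) (nat_lit 5) (nat_lit 426) (nat_lit 414) (nat_lit 180))))) (XT.nd (nat_lit 312) (nat_lit 1368) (nat_lit 0) (XT.nd (nat_lit 156) (nat_lit 532) (nat_lit 0) (XT.nd (nat_lit 78) (nat_lit 304) (nat_lit 0) (XT.lf (nat_lit 0) (nat_lit 238706224475) (nat_lit 380) (nat_lit 393670672416) (nat_lit 76) (nat_lit 1439198563911) (nat_lit 261) (nat_lit 5) (nat_lit 266) (nat_lit 5) (nat_lit 262) (nat_lit 5) (nat_lit 427) (nat_lit 414) (nat_lit 179)) (XT.lf (nat_lit 0) (nat_lit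 789696126002) (nat_lit 380) (nat_lit 598526605130) (nat_lit 76) (nat_lit 777672880482) (nat_lit 257) (nat_lit 5) (nat_lit 262) (nat_lit 5) (nat_lit 258) (nat_lit 5) (nat_lit 428) (nat_lit 414) (nat_lit 178))) (XT.nd (nat_lit 78) (nat_lit 228) (nat_lit 0) (XT.lf (nat_lit 0) (nat_lit 1425988647451) (nat_lit 380) (nat_lit 798256673055) (nat_lit 76) (nat_lit 41454882595) (nat_lit 253) (nat_lit 5) (nat_lit 258) (nat_lit 5) (nat_lit 254) (nat_lit 5) (nat_lit 429) (nat_lit 414) (nat_lit 177)) (XT.lf (nat_lit 0) (nat_lit 1367279184040) (nat_lit 228) (nat_lit 801257279104) (nat_lit 304) (nat_lit 202185104136) (nat_lit 250) (nat_lit 5) (nat_lit 253) (nat_lit 5) (nat_lit 254) (nat_lit 5) (nat_lit 430) (nat_lit 414) (nat_lit 176)))) (XT.nd (nat_lit 156) (nat_lit 760) (nat_lit 0) (XT.nd (nat_lit 78) (nat_lit 228) (nat_lit 0) (XT.lf (nat_lit 0) (nat_lit 517132826082) (nat_lit 380) (nat_lit 1209823136753) (nat_lit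 76) (nat_lit 754491249002) (nat_lit 245) (nat_lit 5) (nat_lit 250) (nat_lit 5) (nat_lit 246) (nat_lit 5) (nat_lit 431) (nat_lit 414) (nat_lit 175)) (XT.lf (nat_lit 0) (nat_lit 1185095548968) (nat_lit 228) (nat_lit 151690947465) (nat_lit 304) (nat_lit 1261584991688) (nat_lit 242) (nat_lit 5) (nat_lit 245) (nat_lit 5) (nat_lit 246) (nat_lit 5) (nat_lit 432) (nat_lit 414) (nat_lit 174))) (XT.nd (nat_lit 78) (nat_lit 532) (nat_lit 0) (XT.lf (nat_lit 0) (nat_lit 1101944221213) (nat_lit 228) (nat_lit 1182886018498) (nat_lit 304) (nat_lit 436678577830) (nat_lit 239) (nat_lit 5) (nat_lit 242) (nat_lit 5) (nat_lit 243) (nat_lit 5) (nat_lit 433) (nat_lit 414) (nat_lit 173)) (XT.nd (nat_lit 78) (nat_lit 228) (nat_lit 0) (XT.lf (nat_lit 0) (nat_lit 492150159804) (nat_lit 304) (nat_lit 1821844640912) (nat_lit 76) (nat_lit 537524365044) (nat_lit 235) (nat_lit 5) (nat_lit 239) (nat_lit 5) (nat_lit 236) (nat_lit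 5) (nat_lit 434) (nat_lit 414) (nat_lit 172)) (XT.lf (nat_lit 0) (nat_lit 961158930881) (nat_lit 228) (nat_lit 582657968323) (nat_lit 304) (nat_lit 1444563969723) (nat_lit 232) (nat_lit 5) (nat_lit 235) (nat_lit 5) (nat_lit 236) (nat_lit 5) (nat_lit 435) (nat_lit 414) (nat_lit 171))))))))
noncomputable def xc246 : XT := (XT.nd (nat_lit 52260) (nat_lit 0) (nat_lit 152) (XT.nd (nat_lit 51636) (nat_lit 0) (nat_lit 4408) (XT.nd (nat_lit 312) (nat_lit 304) (nat_lit 0) (XT.nd (nat_lit 156) (nat_lit 380) (nat_lit 0) (XT.nd (nat_lit 78) (nat_lit 304) (nat_lit 0) (XT.lf (nat_lit 0) (nat_lit 905624333708) (nat_lit 152) (nat_lit 1840484163540) (nat_lit 228) (nat_lit 386758435125) (nat_lit 230) (nat_lit 5) (nat_lit 232) (nat_lit 5) (nat_lit 233) (nat_lit 5) (nat_lit 436) (nat_lit 414) (nat_lit 170)) (XT.lf (nat_lit 0) (nat_lit 791829267876) (nat_lit 304) (nat_lit 2422714740046) (nat_lit 76) (nat_lit 70760768733)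 (nat_lit 226) (nat_lit 5) (nat_lit 230) (nat_lit 5) (nat_lit 227) (nat_lit 5) (nat_lit 437) (nat_lit 414) (nat_lit 169))) (XT.nd (nat_lit 78) (nat_lit 228) (nat_lit 0) (XT.lf (nat_lit 0) (nat_lit 819172851927) (nat_lit 152) (nat_lit 1315418809619) (nat_lit 228) (nat_lit 1310857081522) (nat_lit 224) (nat_lit 5) (nat_lit 226) (nat_lit 5) (nat_lit 227) (nat_lit 5) (nat_lit 438) (nat_lit 414) (nat_lit 168)) (XT.lf (nat_lit 0) (nat_lit 35479486851) (nat_lit 228) (nat_lit 2811435998306) (nat_lit 76) (nat_lit 768113377767) (nat_lit 221) (nat_lit 5) (nat_lit 224) (nat_lit 5) (nat_lit 222) (nat_lit 5) (nat_lit 439) (nat_lit 414) (nat_lit 167)))) (XT.nd (nat_lit 51168) (nat_lit 0) (nat_lit 5700) (XT.nd (nat_lit 78) (nat_lit 152) (nat_lit 0) (XT.lf (nat_lit 0) (nat_lit 785865416200) (nat_lit 152) (nat_lit 739293425376) (nat_lit 228) (nat_lit 2267863982395) (nat_lit 219) (nat_lit 5) (nat_lit 221) (nat_lit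 5) (nat_lit 222) (nat_lit 5) (nat_lit 440) (nat_lit 414) (nat_lit 166)) (XT.lf (nat_lit 0) (nat_lit 788992717456) (nat_lit 152) (nat_lit 2431110372426) (nat_lit 228) (nat_lit 760848684760) (nat_lit 217) (nat_lit 5) (nat_lit 219) (nat_lit 5) (nat_lit 220) (nat_lit 5) (nat_lit 441) (nat_lit 414) (nat_lit 165))) (XT.nd (nat_lit 78) (nat_lit 0) (nat_lit 76) (XT.lf (nat_lit 0) (nat_lit 306443973215) (nat_lit 836) (nat_lit 172596381191) (nat_lit 836) (nat_lit 172596381191) (nat_lit 292) (nat_lit 3) (nat_lit 303) (nat_lit 3) (nat_lit 303) (nat_lit 5) (nat_lit 415) (nat_lit 415) (nat_lit 190)) (XT.lf (nat_lit 0) (nat_lit 649773856531) (nat_lit 760) (nat_lit 635477424999) (nat_lit 836) (nat_lit 69534608904) (nat_lit 293) (nat_lit 5) (nat_lit 303) (nat_lit 5) (nat_lit 304) (nat_lit 5) (nat_lit 416) (nat_lit 415) (nat_lit 189))))) (XT.nd (nat_lit 312) (nat_lit 1368) (nat_lit 0) (XT.nd (nat_lit 156) (nat_lit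 0) (nat_lit 152) (XT.nd (nat_lit 78) (nat_lit 0) (nat_lit 76) (XT.lf (nat_lit 76) (nat_lit 469966145060) (nat_lit 0) (nat_lit 249248577448) (nat_lit 836) (nat_lit 689724376547) (nat_lit 294) (nat_lit 5) (nat_lit 293) (nat_lit 5) (nat_lit 304) (nat_lit 5) (nat_lit 417) (nat_lit 415) (nat_lit 188)) (XT.lf (nat_lit 76) (nat_lit 212716153972) (nat_lit 0) (nat_lit 609644298505) (nat_lit 836) (nat_lit 643656632152) (nat_lit 295) (nat_lit 5) (nat_lit 294) (nat_lit 5) (nat_lit 305) (nat_lit 5) (nat_lit 418) (nat_lit 415) (nat_lit 187))) (XT.nd (nat_lit 78) (nat_lit 0) (nat_lit 76) (XT.lf (nat_lit 0) (nat_lit 962547029198) (nat_lit 760) (nat_lit 49205576336) (nat_lit 836) (nat_lit 514469244100) (nat_lit 295) (nat_lit 5) (nat_lit 305) (nat_lit 5) (nat_lit 306) (nat_lit 5) (nat_lit 419) (nat_lit 415) (nat_lit 186)) (XT.lf (nat_lit 0) (nat_lit 1146393646011) (nat_lit 760) (nat_lit 309909841923) (nat_lit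 836) (nat_lit 133317252206) (nat_lit 296) (nat_lit 5) (nat_lit 306) (nat_lit 5) (nat_lit 307) (nat_lit 5) (nat_lit 420) (nat_lit 415) (nat_lit 185)))) (XT.nd (nat_lit 156) (nat_lit 912) (nat_lit 0) (XT.nd (nat_lit 78) (nat_lit 684) (nat_lit 0) (XT.lf (nat_lit 76) (nat_lit 1076014244173) (nat_lit 0) (nat_lit 303664519200) (nat_lit 836) (nat_lit 276676239954) (nat_lit 297) (nat_lit 5) (nat_lit 296) (nat_lit 5) (nat_lit 307) (nat_lit 5) (nat_lit 421) (nat_lit 415) (nat_lit 184)) (XT.lf (nat_lit 0) (nat_lit 868743109522) (nat_lit 760) (nat_lit 796628563732) (nat_lit 836) (nat_lit 61369085157) (nat_lit 287) (nat_lit 5) (nat_lit 297) (nat_lit 5) (nat_lit 298) (nat_lit 5) (nat_lit 422) (nat_lit 415) (nat_lit 183))) (XT.nd (nat_lit 78) (nat_lit 380) (nat_lit 0) (XT.lf (nat_lit 0) (nat_lit 198873001369) (nat_lit 532) (nat_lit 1143166892794) (nat_lit 76) (nat_lit 458924431672) (nat_lit 280) (nat_lit 5)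 (nat_lit 287) (nat_lit 5) (nat_lit 281) (nat_lit 5) (nat_lit 423) (nat_lit 415) (nat_lit 182)) (XT.lf (nat_lit 0) (nat_lit 444635127359) (nat_lit 380) (nat_lit 68743385467) (nat_lit 456) (nat_lit 1365917256707) (nat_lit 275) (nat_lit 5) (nat_lit 280) (nat_lit 5) (nat_lit 281) (nat_lit 5) (nat_lit 424) (nat_lit 415) (nat_lit 181)))))) (XT.nd (nat_lit 624) (nat_lit 1976) (nat_lit 0) (XT.nd (nat_lit 312) (nat_lit 1216) (nat_lit 0) (XT.nd (nat_lit 156) (nat_lit 380) (nat_lit 0) (XT.nd (nat_lit 78) (nat_lit 304) (nat_lit 0) (XT.lf (nat_lit 0) (nat_lit 223825911564) (nat_lit 380) (nat_lit 673349604163) (nat_lit 456) (nat_lit 1064511660476) (nat_lit 270) (nat_lit 5) (nat_lit 275) (nat_lit 5) (nat_lit 276) (nat_lit 5) (nat_lit 425) (nat_lit 415) (nat_lit 180)) (XT.lf (nat_lit 0) (nat_lit 4450394614) (nat_lit 304) (nat_lit 1344780575001) (nat_lit 380) (nat_lit 699561191252) (nat_lit 266) (nat_lit 5) (nat_lit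 270) (nat_lit 5) (nat_lit 271) (nat_lit 5) (nat_lit 426) (nat_lit 415) (nat_lit 179))) (XT.nd (nat_lit 78) (nat_lit 380) (nat_lit 0) (XT.lf (nat_lit 0) (nat_lit 1879793073147) (nat_lit 380) (nat_lit 205216269602) (nat_lit 76) (nat_lit 55739090888) (nat_lit 266) (nat_lit 5) (nat_lit 271) (nat_lit 5) (nat_lit 267) (nat_lit 5) (nat_lit 427) (nat_lit 415) (nat_lit 178)) (XT.lf (nat_lit 0) (nat_lit 257802781195) (nat_lit 380) (nat_lit 425164254805) (nat_lit 76) (nat_lit 1554334458728) (nat_lit 261) (nat_lit 5) (nat_lit 266) (nat_lit 5) (nat_lit 262) (nat_lit 5) (nat_lit 428) (nat_lit 415) (nat_lit 177)))) (XT.nd (nat_lit 156) (nat_lit 608) (nat_lit 0) (XT.nd (nat_lit 78) (nat_lit 304) (nat_lit 0) (XT.lf (nat_lit 0) (nat_lit 852871871758) (nat_lit 380) (nat_lit 646408662666) (nat_lit 76) (nat_lit 839886723335) (nat_lit 257) (nat_lit 5) (nat_lit 262) (nat_lit 5) (nat_lit 258) (nat_lit 5) (nat_lit 429)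 (nat_lit 415) (nat_lit 176)) (XT.lf (nat_lit 0) (nat_lit 1540067792094) (nat_lit 380) (nat_lit 862117136711) (nat_lit 76) (nat_lit 44771287901) (nat_lit 253) (nat_lit 5) (nat_lit 258) (nat_lit 5) (nat_lit 254) (nat_lit 5) (nat_lit 430) (nat_lit 415) (nat_lit 175))) (XT.nd (nat_lit 78) (nat_lit 380) (nat_lit 0) (XT.lf (nat_lit 0) (nat_lit 1476661585901) (nat_lit 228) (nat_lit 865357844276) (nat_lit 304) (nat_lit 218359859987) (nat_lit 250) (nat_lit 5) (nat_lit 253) (nat_lit 5) (nat_lit 254) (nat_lit 5) (nat_lit 431) (nat_lit 415) (nat_lit 174)) (XT.lf (nat_lit 0) (nat_lit 558503500511) (nat_lit 380) (nat_lit 1306608919741) (nat_lit 76) (nat_lit 814850566116) (nat_lit 245) (nat_lit 5) (nat_lit 250) (nat_lit 5) (nat_lit 246) (nat_lit 5) (nat_lit 432) (nat_lit 415) (nat_lit 173))))) (XT.nd (nat_lit 312) (nat_lit 988) (nat_lit 0) (XT.nd (nat_lit 156) (nat_lit 532) (nat_lit 0) (XT.nd (nat_lit 78) (nat_lit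 228) (nat_lit 0) (XT.lf (nat_lit 0) (nat_lit 1279903257885) (nat_lit 228) (nat_lit 163826204039) (nat_lit 304) (nat_lit 1362511742957) (nat_lit 242) (nat_lit 5) (nat_lit 245) (nat_lit 5) (nat_lit 246) (nat_lit 5) (nat_lit 433) (nat_lit 415) (nat_lit 172)) (XT.lf (nat_lit 0) (nat_lit 1190099822987) (nat_lit 228) (nat_lit 1277516879565) (nat_lit 304) (nat_lit 471612818209) (nat_lit 239) (nat_lit 5) (nat_lit 242) (nat_lit 5) (nat_lit 243) (nat_lit 5) (nat_lit 434) (nat_lit 415) (nat_lit 171))) (XT.nd (nat_lit 78) (nat_lit 228) (nat_lit 0) (XT.lf (nat_lit 0) (nat_lit 531522214981) (nat_lit 304) (nat_lit 1967592147708) (nat_lit 76) (nat_lit 580526334212) (nat_lit 235) (nat_lit 5) (nat_lit 239) (nat_lit 5) (nat_lit 236) (nat_lit 5) (nat_lit 435) (nat_lit 415) (nat_lit 170)) (XT.lf (nat_lit 0) (nat_lit 1038051707027) (nat_lit 228) (nat_lit 629270584330) (nat_lit 304) (nat_lit 1560129045074) (nat_lit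 232) (nat_lit 5) (nat_lit 235) (nat_lit 5) (nat_lit 236) (nat_lit 5) (nat_lit 436) (nat_lit 415) (nat_lit 169)))) (XT.nd (nat_lit 234) (nat_lit 532) (nat_lit 0) (XT.nd (nat_lit 78) (nat_lit 304) (nat_lit 0) (XT.lf (nat_lit 0) (nat_lit 978074341003) (nat_lit 152) (nat_lit 1987722874518) (nat_lit 228) (nat_lit 417699069517) (nat_lit 230) (nat_lit 5) (nat_lit 232) (nat_lit 5) (nat_lit 233) (nat_lit 5) (nat_lit 437) (nat_lit 415) (nat_lit 168)) (XT.lf (nat_lit 0) (nat_lit 855175646801) (nat_lit 304) (nat_lit 2616531858535) (nat_lit 76) (nat_lit 76421651577) (nat_lit 226) (nat_lit 5) (nat_lit 230) (nat_lit 5) (nat_lit 227) (nat_lit 5) (nat_lit 438) (nat_lit 415) (nat_lit 167))) (XT.nd (nat_lit 78) (nat_lit 152) (nat_lit 0) (XT.lf (nat_lit 0) (nat_lit 38317880558) (nat_lit 228) (nat_lit 3036350820100) (nat_lit 76) (nat_lit 829562469561) (nat_lit 221) (nat_lit 5) (nat_lit 224) (nat_lit 5) (nat_lit 222)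 (nat_lit 5) (nat_lit 440) (nat_lit 415) (nat_lit 165)) (XT.nd (nat_lit 51168) (nat_lit 0) (nat_lit 5548) (XT.lf (nat_lit 0) (nat_lit 848734705042) (nat_lit 152) (nat_lit 798436876911) (nat_lit 228) (nat_lit 2449293066283) (nat_lit 219) (nat_lit 5) (nat_lit 221) (nat_lit 5) (nat_lit 222) (nat_lit 5) (nat_lit 441) (nat_lit 415) (nat_lit 164)) (XT.lf (nat_lit 0) (nat_lit 330959549253) (nat_lit 836) (nat_lit 186404061142) (nat_lit 836) (nat_lit 186404061142) (nat_lit 292) (nat_lit 3) (nat_lit 303) (nat_lit 3) (nat_lit 303) (nat_lit 5) (nat_lit 416) (nat_lit 416) (nat_lit 188))))))))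
noncomputable def xc247 : XT := (XT.nd (nat_lit 1248) (nat_lit 2204) (nat_lit 0) (XT.nd (nat_lit 624) (nat_lit 2280) (nat_lit 0) (XT.nd (nat_lit 312) (nat_lit 988) (nat_lit 0) (XT.nd (nat_lit 156) (nat_lit 0) (nat_lit 76) (XT.nd (nat_lit 78) (nat_lit 0) (nat_lit 0) (XT.lf (nat_lit 0) (nat_lit 701755872923) (nat_lit 760) (nat_lit 686315554347) (nat_lit 836) (nat_lit 75097329005) (nat_lit 293) (nat_lit 5) (nat_lit 303) (nat_lit 5) (nat_lit 304) (nat_lit 5) (nat_lit 417) (nat_lit 416) (nat_lit 187)) (XT.lf (nat_lit 76) (nat_lit 507563498507) (nat_lit 0) (nat_lit 269188502647) (nat_lit 836) (nat_lit 744902220784) (nat_lit 294) (nat_lit 5) (nat_lit 293) (nat_lit 5) (nat_lit 304) (nat_lit 5) (nat_lit 418) (nat_lit 416) (nat_lit 186))) (XT.nd (nat_lit 78) (nat_lit 0) (nat_lit 76) (XT.lf (nat_lit 76) (nat_lit 229733510850) (nat_lit 0) (nat_lit 658415871645) (nat_lit 836) (nat_lit 695149064214) (nat_lit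 295) (nat_lit 5) (nat_lit 294) (nat_lit 5) (nat_lit 305) (nat_lit 5) (nat_lit 419) (nat_lit 416) (nat_lit 185)) (XT.lf (nat_lit 0) (nat_lit 1039550877981) (nat_lit 760) (nat_lit 53141957898) (nat_lit 836) (nat_lit 555626757403) (nat_lit 295) (nat_lit 5) (nat_lit 305) (nat_lit 5) (nat_lit 306) (nat_lit 5) (nat_lit 420) (nat_lit 416) (nat_lit 184)))) (XT.nd (nat_lit 156) (nat_lit 1216) (nat_lit 0) (XT.nd (nat_lit 78) (nat_lit 0) (nat_lit 0) (XT.lf (nat_lit 0) (nat_lit 1238105218399) (nat_lit 760) (nat_lit 334702563186) (nat_lit 836) (nat_lit 143982613731) (nat_lit 296) (nat_lit 5) (nat_lit 306) (nat_lit 5) (nat_lit 307) (nat_lit 5) (nat_lit 421) (nat_lit 416) (nat_lit 183)) (XT.lf (nat_lit 76) (nat_lit 1162095446925) (nat_lit 0) (nat_lit 327957693233) (nat_lit 836) (nat_lit 298810259649) (nat_lit 297) (nat_lit 5) (nat_lit 296) (nat_lit 5) (nat_lit 307) (nat_lit 5) (nat_lit 422) (nat_lit 416) (nat_lit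 182))) (XT.nd (nat_lit 78) (nat_lit 532) (nat_lit 0) (XT.lf (nat_lit 0) (nat_lit 938242622562) (nat_lit 760) (nat_lit 860358855482) (nat_lit 836) (nat_lit 66278537494) (nat_lit 287) (nat_lit 5) (nat_lit 297) (nat_lit 5) (nat_lit 298) (nat_lit 5) (nat_lit 423) (nat_lit 416) (nat_lit 181)) (XT.lf (nat_lit 0) (nat_lit 214782909164) (nat_lit 532) (nat_lit 1234620177003) (nat_lit 76) (nat_lit 495638382351) (nat_lit 280) (nat_lit 5) (nat_lit 287) (nat_lit 5) (nat_lit 281) (nat_lit 5) (nat_lit 424) (nat_lit 416) (nat_lit 180))))) (XT.nd (nat_lit 312) (nat_lit 1216) (nat_lit 0) (XT.nd (nat_lit 156) (nat_lit 304) (nat_lit 0) (XT.nd (nat_lit 78) (nat_lit 380) (nat_lit 0) (XT.lf (nat_lit 0) (nat_lit 480206001842) (nat_lit 380) (nat_lit 74242855687) (nat_lit 456) (nat_lit 1475190570384) (nat_lit 275) (nat_lit 5) (nat_lit 280) (nat_lit 5) (nat_lit 281) (nat_lit 5) (nat_lit 425) (nat_lit 416) (nat_lit 179))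 (XT.lf (nat_lit 0) (nat_lit 241732049025) (nat_lit 380) (nat_lit 727217567936) (nat_lit 456) (nat_lit 1149672530339) (nat_lit 270) (nat_lit 5) (nat_lit 275) (nat_lit 5) (nat_lit 276) (nat_lit 5) (nat_lit 426) (nat_lit 416) (nat_lit 178))) (XT.nd (nat_lit 78) (nat_lit 0) (nat_lit 0) (XT.lf (nat_lit 0) (nat_lit 4806490714) (nat_lit 304) (nat_lit 1452363013075) (nat_lit 380) (nat_lit 755526027116) (nat_lit 266) (nat_lit 5) (nat_lit 270) (nat_lit 5) (nat_lit 271) (nat_lit 5) (nat_lit 427) (nat_lit 416) (nat_lit 177)) (XT.lf (nat_lit 0) (nat_lit 2030176571526) (nat_lit 380) (nat_lit 221633508913) (nat_lit 76) (nat_lit 60198225262) (nat_lit 266) (nat_lit 5) (nat_lit 271) (nat_lit 5) (nat_lit 267) (nat_lit 5) (nat_lit 428) (nat_lit 416) (nat_lit 176)))) (XT.nd (nat_lit 156) (nat_lit 532) (nat_lit 0) (XT.nd (nat_lit 78) (nat_lit 304) (nat_lit 0) (XT.lf (nat_lit 0) (nat_lit 278427054070) (nat_lit 380)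 (nat_lit 459177333972) (nat_lit 76) (nat_lit 1678681223746) (nat_lit 261) (nat_lit 5) (nat_lit 266) (nat_lit 5) (nat_lit 262) (nat_lit 5) (nat_lit 429) (nat_lit 416) (nat_lit 175)) (XT.lf (nat_lit 0) (nat_lit 921101669232) (nat_lit 380) (nat_lit 698121294916) (nat_lit 76) (nat_lit 907077671845) (nat_lit 257) (nat_lit 5) (nat_lit 262) (nat_lit 5) (nat_lit 258) (nat_lit 5) (nat_lit 430) (nat_lit 416) (nat_lit 174))) (XT.nd (nat_lit 78) (nat_lit 228) (nat_lit 0) (XT.lf (nat_lit 0) (nat_lit 1663273260770) (nat_lit 380) (nat_lit 931086447473) (nat_lit 76) (nat_lit 48353003535) (nat_lit 253) (nat_lit 5) (nat_lit 258) (nat_lit 5) (nat_lit 254) (nat_lit 5) (nat_lit 431) (nat_lit 416) (nat_lit 173)) (XT.lf (nat_lit 0) (nat_lit 1594794570333) (nat_lit 228) (nat_lit 934586457109) (nat_lit 304) (nat_lit 235828603793) (nat_lit 250) (nat_lit 5) (nat_lit 253) (nat_lit 5) (nat_lit 254) (nat_lit 5) (nat_lit 432)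 (nat_lit 416) (nat_lit 172)))))) (XT.nd (nat_lit 51870) (nat_lit 0) (nat_lit 4484) (XT.nd (nat_lit 312) (nat_lit 1064) (nat_lit 0) (XT.nd (nat_lit 156) (nat_lit 532) (nat_lit 0) (XT.nd (nat_lit 78) (nat_lit 228) (nat_lit 0) (XT.lf (nat_lit 0) (nat_lit 603183821998) (nat_lit 380) (nat_lit 1411137575062) (nat_lit 76) (nat_lit 880038626145) (nat_lit 245) (nat_lit 5) (nat_lit 250) (nat_lit 5) (nat_lit 246) (nat_lit 5) (nat_lit 433) (nat_lit 416) (nat_lit 171)) (XT.lf (nat_lit 0) (nat_lit 1382295574243) (nat_lit 228) (nat_lit 176932283881) (nat_lit 304) (nat_lit 1471512641186) (nat_lit 242) (nat_lit 5) (nat_lit 245) (nat_lit 5) (nat_lit 246) (nat_lit 5) (nat_lit 434) (nat_lit 416) (nat_lit 170))) (XT.nd (nat_lit 78) (nat_lit 304) (nat_lit 0) (XT.lf (nat_lit 0) (nat_lit 1285307863761) (nat_lit 228) (nat_lit 1379718212429) (nat_lit 304) (nat_lit 509341804360) (nat_lit 239) (nat_lit 5) (nat_lit 242)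 (nat_lit 5) (nat_lit 243) (nat_lit 5) (nat_lit 435) (nat_lit 416) (nat_lit 169)) (XT.lf (nat_lit 0) (nat_lit 574044028525) (nat_lit 304) (nat_lit 2124999464246) (nat_lit 76) (nat_lit 626968458065) (nat_lit 235) (nat_lit 5) (nat_lit 239) (nat_lit 5) (nat_lit 236) (nat_lit 5) (nat_lit 436) (nat_lit 416) (nat_lit 168)))) (XT.nd (nat_lit 234) (nat_lit 684) (nat_lit 0) (XT.nd (nat_lit 78) (nat_lit 152) (nat_lit 0) (XT.lf (nat_lit 0) (nat_lit 1121095896465) (nat_lit 228) (nat_lit 679612212678) (nat_lit 304) (nat_lit 1684939332477) (nat_lit 232) (nat_lit 5) (nat_lit 235) (nat_lit 5) (nat_lit 236) (nat_lit 5) (nat_lit 437) (nat_lit 416) (nat_lit 167)) (XT.lf (nat_lit 0) (nat_lit 1056320340236) (nat_lit 152) (nat_lit 2146740685529) (nat_lit 228) (nat_lit 451114960427) (nat_lit 230) (nat_lit 5) (nat_lit 232) (nat_lit 5) (nat_lit 233) (nat_lit 5) (nat_lit 438) (nat_lit 416) (nat_lit 166))) (XT.nd (nat_lit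 78) (nat_lit 228) (nat_lit 0) (XT.lf (nat_lit 0) (nat_lit 955483327001) (nat_lit 152) (nat_lit 1534304456041) (nat_lit 228) (nat_lit 1528983627421) (nat_lit 224) (nat_lit 5) (nat_lit 226) (nat_lit 5) (nat_lit 227) (nat_lit 5) (nat_lit 440) (nat_lit 416) (nat_lit 164)) (XT.lf (nat_lit 0) (nat_lit 41383340803) (nat_lit 228) (nat_lit 3279258835922) (nat_lit 76) (nat_lit 895927485622) (nat_lit 221) (nat_lit 5) (nat_lit 224) (nat_lit 5) (nat_lit 222) (nat_lit 5) (nat_lit 441) (nat_lit 416) (nat_lit 163))))) (XT.nd (nat_lit 312) (nat_lit 912) (nat_lit 0) (XT.nd (nat_lit 156) (nat_lit 0) (nat_lit 76) (XT.nd (nat_lit 78) (nat_lit 0) (nat_lit 76) (XT.lf (nat_lit 0) (nat_lit 357436363074) (nat_lit 836) (nat_lit 201316359846) (nat_lit 836) (nat_lit 201316359846) (nat_lit 292) (nat_lit 3) (nat_lit 303) (nat_lit 3) (nat_lit 303) (nat_lit 5) (nat_lit 417) (nat_lit 417) (nat_lit 186)) (XT.lf (nat_lit 0) (nat_lit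 757896435239) (nat_lit 760) (nat_lit 741220743266) (nat_lit 836) (nat_lit 81105073648) (nat_lit 293) (nat_lit 5) (nat_lit 303) (nat_lit 5) (nat_lit 304) (nat_lit 5) (nat_lit 418) (nat_lit 417) (nat_lit 185))) (XT.nd (nat_lit 78) (nat_lit 0) (nat_lit 76) (XT.lf (nat_lit 76) (nat_lit 548168631407) (nat_lit 0) (nat_lit 290723616298) (nat_lit 836) (nat_lit 804494307665) (nat_lit 294) (nat_lit 5) (nat_lit 293) (nat_lit 5) (nat_lit 304) (nat_lit 5) (nat_lit 419) (nat_lit 417) (nat_lit 184)) (XT.lf (nat_lit 76) (nat_lit 248112247068) (nat_lit 0) (nat_lit 711089166462) (nat_lit 836) (nat_lit 750760904894) (nat_lit 295) (nat_lit 5) (nat_lit 294) (nat_lit 5) (nat_lit 305) (nat_lit 5) (nat_lit 420) (nat_lit 417) (nat_lit 183)))) (XT.nd (nat_lit 156) (nat_lit 1140) (nat_lit 0) (XT.nd (nat_lit 78) (nat_lit 0) (nat_lit 76) (XT.lf (nat_lit 0) (nat_lit 1122715022333) (nat_lit 760) (nat_lit 57393259194) (nat_lit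 836) (nat_lit 600076875512) (nat_lit 295) (nat_lit 5) (nat_lit 305) (nat_lit 5) (nat_lit 306) (nat_lit 5) (nat_lit 421) (nat_lit 417) (nat_lit 182)) (XT.lf (nat_lit 0) (nat_lit 1337153705063) (nat_lit 760) (nat_lit 361478711579) (nat_lit 836) (nat_lit 155501206839) (nat_lit 296) (nat_lit 5) (nat_lit 306) (nat_lit 5) (nat_lit 307) (nat_lit 5) (nat_lit 422) (nat_lit 417) (nat_lit 181))) (XT.nd (nat_lit 78) (nat_lit 1216) (nat_lit 0) (XT.lf (nat_lit 76) (nat_lit 1255063136878) (nat_lit 0) (nat_lit 354194319406) (nat_lit 836) (nat_lit 322715012262) (nat_lit 297) (nat_lit 5) (nat_lit 296) (nat_lit 5) (nat_lit 307) (nat_lit 5) (nat_lit 423) (nat_lit 417) (nat_lit 180)) (XT.nd (nat_lit 78) (nat_lit 532) (nat_lit 0) (XT.lf (nat_lit 0) (nat_lit 1013302087476) (nat_lit 760) (nat_lit 929187569622) (nat_lit 836) (nat_lit 71580756642) (nat_lit 287) (nat_lit 5) (nat_lit 297) (nat_lit 5) (nat_lit 298) (nat_lit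 5) (nat_lit 424) (nat_lit 417) (nat_lit 179)) (XT.lf (nat_lit 0) (nat_lit 231965599926) (nat_lit 532) (nat_lit 1333389733537) (nat_lit 76) (nat_lit 535289449634) (nat_lit 280) (nat_lit 5) (nat_lit 287) (nat_lit 5) (nat_lit 281) (nat_lit 5) (nat_lit 425) (nat_lit 417) (nat_lit 178))))))))
noncomputable def xc248 : XT := (XT.nd (nat_lit 52494) (nat_lit 0) (nat_lit 2204) (XT.nd (nat_lit 624) (nat_lit 1976) (nat_lit 0) (XT.nd (nat_lit 312) (nat_lit 1216) (nat_lit 0) (XT.nd (nat_lit 156) (nat_lit 304) (nat_lit 0) (XT.nd (nat_lit 78) (nat_lit 380) (nat_lit 0) (XT.lf (nat_lit 0) (nat_lit 518622537111) (nat_lit 380) (nat_lit 80182283612) (nat_lit 456) (nat_lit 1593205758694) (nat_lit 275) (nat_lit 5) (nat_lit 280) (nat_lit 5) (nat_lit 281) (nat_lit 5) (nat_lit 426) (nat_lit 417) (nat_lit 177)) (XT.lf (nat_lit 0) (nat_lit 261070668276) (nat_lit 380) (nat_lit 785394969461) (nat_lit 456) (nat_lit 1241646278776)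 (nat_lit 270) (nat_lit 5) (nat_lit 275) (nat_lit 5) (nat_lit 276) (nat_lit 5) (nat_lit 427) (nat_lit 417) (nat_lit 176))) (XT.nd (nat_lit 78) (nat_lit 0) (nat_lit 0) (XT.lf (nat_lit 0) (nat_lit 5191065297) (nat_lit 304) (nat_lit 1568552047327) (nat_lit 380) (nat_lit 815968058328) (nat_lit 266) (nat_lit 5) (nat_lit 270) (nat_lit 5) (nat_lit 271) (nat_lit 5) (nat_lit 428) (nat_lit 417) (nat_lit 175)) (XT.lf (nat_lit 0) (nat_lit 2192590742283) (nat_lit 380) (nat_lit 239364136250) (nat_lit 76) (nat_lit 65014089373) (nat_lit 266) (nat_lit 5) (nat_lit 271) (nat_lit 5) (nat_lit 267) (nat_lit 5) (nat_lit 429) (nat_lit 417) (nat_lit 174)))) (XT.nd (nat_lit 156) (nat_lit 532) (nat_lit 0) (XT.nd (nat_lit 78) (nat_lit 304) (nat_lit 0) (XT.lf (nat_lit 0) (nat_lit 300701261587) (nat_lit 380) (nat_lit 495911468205) (nat_lit 76) (nat_lit 1812975728778) (nat_lit 261) (nat_lit 5) (nat_lit 266) (nat_lit 5) (nat_lit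 262) (nat_lit 5) (nat_lit 430) (nat_lit 417) (nat_lit 173)) (XT.lf (nat_lit 0) (nat_lit 994789843695) (nat_lit 380) (nat_lit 753970946414) (nat_lit 76) (nat_lit 979643894718) (nat_lit 257) (nat_lit 5) (nat_lit 262) (nat_lit 5) (nat_lit 258) (nat_lit 5) (nat_lit 431) (nat_lit 417) (nat_lit 172))) (XT.nd (nat_lit 78) (nat_lit 228) (nat_lit 0) (XT.lf (nat_lit 0) (nat_lit 1796335160476) (nat_lit 380) (nat_lit 1005573311681) (nat_lit 76) (nat_lit 52221254621) (nat_lit 253) (nat_lit 5) (nat_lit 258) (nat_lit 5) (nat_lit 254) (nat_lit 5) (nat_lit 432) (nat_lit 417) (nat_lit 171)) (XT.lf (nat_lit 0) (nat_lit 1722378185308) (nat_lit 228) (nat_lit 1009353361067) (nat_lit 304) (nat_lit 254694853522) (nat_lit 250) (nat_lit 5) (nat_lit 253) (nat_lit 5) (nat_lit 254) (nat_lit 5) (nat_lit 433) (nat_lit 417) (nat_lit 170))))) (XT.nd (nat_lit 312) (nat_lit 836) (nat_lit 0) (XT.nd (nat_lit 156) (nat_lit 532) (nat_lit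 0) (XT.nd (nat_lit 78) (nat_lit 228) (nat_lit 0) (XT.lf (nat_lit 0) (nat_lit 651438563291) (nat_lit 380) (nat_lit 1524028531120) (nat_lit 76) (nat_lit 950441728874) (nat_lit 245) (nat_lit 5) (nat_lit 250) (nat_lit 5) (nat_lit 246) (nat_lit 5) (nat_lit 434) (nat_lit 417) (nat_lit 169)) (XT.lf (nat_lit 0) (nat_lit 1492879267959) (nat_lit 228) (nat_lit 191086852462) (nat_lit 304) (nat_lit 1589233617151) (nat_lit 242) (nat_lit 5) (nat_lit 245) (nat_lit 5) (nat_lit 246) (nat_lit 5) (nat_lit 435) (nat_lit 417) (nat_lit 168))) (XT.nd (nat_lit 78) (nat_lit 304) (nat_lit 0) (XT.lf (nat_lit 0) (nat_lit 1388132539961) (nat_lit 228) (nat_lit 1490095654420) (nat_lit 304) (nat_lit 550089115009) (nat_lit 239) (nat_lit 5) (nat_lit 242) (nat_lit 5) (nat_lit 243) (nat_lit 5) (nat_lit 436) (nat_lit 417) (nat_lit 167)) (XT.lf (nat_lit 0) (nat_lit 619967581968) (nat_lit 304) (nat_lit 2294999373992) (nat_lit 76) (nat_lit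 677125949385) (nat_lit 235) (nat_lit 5) (nat_lit 239) (nat_lit 5) (nat_lit 236) (nat_lit 5) (nat_lit 437) (nat_lit 417) (nat_lit 166)))) (XT.nd (nat_lit 156) (nat_lit 456) (nat_lit 0) (XT.nd (nat_lit 78) (nat_lit 152) (nat_lit 0) (XT.lf (nat_lit 0) (nat_lit 1210783613516) (nat_lit 228) (nat_lit 733981173919) (nat_lit 304) (nat_lit 1819734448038) (nat_lit 232) (nat_lit 5) (nat_lit 235) (nat_lit 5) (nat_lit 236) (nat_lit 5) (nat_lit 438) (nat_lit 417) (nat_lit 165)) (XT.lf (nat_lit 0) (nat_lit 1140826011996) (nat_lit 152) (nat_lit 2318479924123) (nat_lit 228) (nat_lit 487204127553) (nat_lit 230) (nat_lit 5) (nat_lit 232) (nat_lit 5) (nat_lit 233) (nat_lit 5) (nat_lit 439) (nat_lit 417) (nat_lit 164))) (XT.nd (nat_lit 78) (nat_lit 152) (nat_lit 0) (XT.lf (nat_lit 0) (nat_lit 997476936705) (nat_lit 304) (nat_lit 3051922658950) (nat_lit 76) (nat_lit 89138249854) (nat_lit 226) (nat_lit 5) (nat_lit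 230) (nat_lit 5) (nat_lit 227) (nat_lit 5) (nat_lit 440) (nat_lit 417) (nat_lit 163)) (XT.lf (nat_lit 0) (nat_lit 1031922035849) (nat_lit 152) (nat_lit 1657048796022) (nat_lit 228) (nat_lit 1651302290121) (nat_lit 224) (nat_lit 5) (nat_lit 226) (nat_lit 5) (nat_lit 227) (nat_lit 5) (nat_lit 441) (nat_lit 417) (nat_lit 162)))))) (XT.nd (nat_lit 624) (nat_lit 2584) (nat_lit 0) (XT.nd (nat_lit 312) (nat_lit 380) (nat_lit 0) (XT.nd (nat_lit 156) (nat_lit 0) (nat_lit 76) (XT.nd (nat_lit 78) (nat_lit 0) (nat_lit 76) (XT.lf (nat_lit 0) (nat_lit 386031314885) (nat_lit 836) (nat_lit 217421646182) (nat_lit 836) (nat_lit 217421646182) (nat_lit 292) (nat_lit 3) (nat_lit 303) (nat_lit 3) (nat_lit 303) (nat_lit 5) (nat_lit 418) (nat_lit 418) (nat_lit 184)) (XT.lf (nat_lit 0) (nat_lit 818528229346) (nat_lit 760) (nat_lit 800518355207) (nat_lit 836) (nat_lit 87593443808) (nat_lit 293) (nat_lit 5) (nat_lit 303)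 (nat_lit 5) (nat_lit 304) (nat_lit 5) (nat_lit 419) (nat_lit 418) (nat_lit 183))) (XT.nd (nat_lit 78) (nat_lit 0) (nat_lit 76) (XT.lf (nat_lit 76) (nat_lit 592022167375) (nat_lit 0) (nat_lit 313981534270) (nat_lit 836) (nat_lit 868853774447) (nat_lit 294) (nat_lit 5) (nat_lit 293) (nat_lit 5) (nat_lit 304) (nat_lit 5) (nat_lit 420) (nat_lit 418) (nat_lit 182)) (XT.lf (nat_lit 76) (nat_lit 267961274287) (nat_lit 0) (nat_lit 767976321286) (nat_lit 836) (nat_lit 810821704878) (nat_lit 295) (nat_lit 5) (nat_lit 294) (nat_lit 5) (nat_lit 305) (nat_lit 5) (nat_lit 421) (nat_lit 418) (nat_lit 181)))) (XT.nd (nat_lit 156) (nat_lit 608) (nat_lit 0) (XT.nd (nat_lit 78) (nat_lit 0) (nat_lit 76) (XT.lf (nat_lit 0) (nat_lit 1212532287661) (nat_lit 760) (nat_lit 61984672488) (nat_lit 836) (nat_lit 648083006277) (nat_lit 295) (nat_lit 5) (nat_lit 305) (nat_lit 5) (nat_lit 306) (nat_lit 5) (nat_lit 422) (nat_lit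 418) (nat_lit 180)) (XT.lf (nat_lit 0) (nat_lit 1444126060790) (nat_lit 760) (nat_lit 390396959927) (nat_lit 836) (nat_lit 167941289676) (nat_lit 296) (nat_lit 5) (nat_lit 306) (nat_lit 5) (nat_lit 307) (nat_lit 5) (nat_lit 423) (nat_lit 418) (nat_lit 179))) (XT.nd (nat_lit 78) (nat_lit 684) (nat_lit 0) (XT.lf (nat_lit 76) (nat_lit 1355468234296) (nat_lit 0) (nat_lit 382529874144) (nat_lit 836) (nat_lit 348532154807) (nat_lit 297) (nat_lit 5) (nat_lit 296) (nat_lit 5) (nat_lit 307) (nat_lit 5) (nat_lit 424) (nat_lit 418) (nat_lit 178)) (XT.lf (nat_lit 0) (nat_lit 1094366301721) (nat_lit 760) (nat_lit 1003522580081) (nat_lit 836) (nat_lit 77307162431) (nat_lit 287) (nat_lit 5) (nat_lit 297) (nat_lit 5) (nat_lit 298) (nat_lit 5) (nat_lit 425) (nat_lit 418) (nat_lit 177))))) (XT.nd (nat_lit 312) (nat_lit 988) (nat_lit 0) (XT.nd (nat_lit 156) (nat_lit 684) (nat_lit 0) (XT.nd (nat_lit 78) (nat_lit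 380) (nat_lit 0) (XT.lf (nat_lit 0) (nat_lit 250522897672) (nat_lit 532) (nat_lit 1440060862816) (nat_lit 76) (nat_lit 578112602771) (nat_lit 280) (nat_lit 5) (nat_lit 287) (nat_lit 5) (nat_lit 281) (nat_lit 5) (nat_lit 426) (nat_lit 418) (nat_lit 176)) (XT.lf (nat_lit 0) (nat_lit 560112387338) (nat_lit 380) (nat_lit 86596865846) (nat_lit 456) (nat_lit 1720662170246) (nat_lit 275) (nat_lit 5) (nat_lit 280) (nat_lit 5) (nat_lit 281) (nat_lit 5) (nat_lit 427) (nat_lit 418) (nat_lit 175))) (XT.nd (nat_lit 78) (nat_lit 304) (nat_lit 0) (XT.lf (nat_lit 0) (nat_lit 281956369174) (nat_lit 380) (nat_lit 848226563666) (nat_lit 456) (nat_lit 1340977934790) (nat_lit 270) (nat_lit 5) (nat_lit 275) (nat_lit 5) (nat_lit 276) (nat_lit 5) (nat_lit 428) (nat_lit 418) (nat_lit 174)) (XT.lf (nat_lit 0) (nat_lit 5606397953) (nat_lit 304) (nat_lit 1694036205288) (nat_lit 380) (nat_lit 881245459306) (nat_lit 266)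 (nat_lit 5) (nat_lit 270) (nat_lit 5) (nat_lit 271) (nat_lit 5) (nat_lit 429) (nat_lit 418) (nat_lit 173)))) (XT.nd (nat_lit 156) (nat_lit 608) (nat_lit 0) (XT.nd (nat_lit 78) (nat_lit 380) (nat_lit 0) (XT.lf (nat_lit 0) (nat_lit 2367998040275) (nat_lit 380) (nat_lit 258513221389) (nat_lit 76) (nat_lit 70215221744) (nat_lit 266) (nat_lit 5) (nat_lit 271) (nat_lit 5) (nat_lit 267) (nat_lit 5) (nat_lit 430) (nat_lit 418) (nat_lit 172)) (XT.lf (nat_lit 0) (nat_lit 324757399545) (nat_lit 380) (nat_lit 535584340665) (nat_lit 76) (nat_lit 1958013793195) (nat_lit 261) (nat_lit 5) (nat_lit 266) (nat_lit 5) (nat_lit 262) (nat_lit 5) (nat_lit 431) (nat_lit 418) (nat_lit 171))) (XT.nd (nat_lit 78) (nat_lit 304) (nat_lit 0) (XT.lf (nat_lit 0) (nat_lit 1074373066276) (nat_lit 380) (nat_lit 814288577464) (nat_lit 76) (nat_lit 1058015414119) (nat_lit 257) (nat_lit 5) (nat_lit 262) (nat_lit 5) (nat_lit 258)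 (nat_lit 5) (nat_lit 432) (nat_lit 418) (nat_lit 170)) (XT.lf (nat_lit 0) (nat_lit 1940042006617) (nat_lit 380) (nat_lit 1086019132385) (nat_lit 76) (nat_lit 56398964253) (nat_lit 253) (nat_lit 5) (nat_lit 258) (nat_lit 5) (nat_lit 254) (nat_lit 5) (nat_lit 433) (nat_lit 418) (nat_lit 169)))))))
noncomputable def xc249 : XT := (XT.nd (nat_lit 52572) (nat_lit 0) (nat_lit 304) (XT.nd (nat_lit 51948) (nat_lit 0) (nat_lit 4636) (XT.nd (nat_lit 312) (nat_lit 988) (nat_lit 0) (XT.nd (nat_lit 156) (nat_lit 456) (nat_lit 0) (XT.nd (nat_lit 78) (nat_lit 380) (nat_lit 0) (XT.lf (nat_lit 0) (nat_lit 1860168482441) (nat_lit 228) (nat_lit 1090101619141) (nat_lit 304) (nat_lit 275070408732) (nat_lit 250) (nat_lit 5) (nat_lit 253) (nat_lit 5) (nat_lit 254) (nat_lit 5) (nat_lit 434) (nat_lit 418) (nat_lit 168)) (XT.lf (nat_lit 0) (nat_lit 703553678818) (nat_lit 380) (nat_lit 1645950770787) (nat_lit 76) (nat_lit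 1026477078019) (nat_lit 245) (nat_lit 5) (nat_lit 250) (nat_lit 5) (nat_lit 246) (nat_lit 5) (nat_lit 435) (nat_lit 418) (nat_lit 167))) (XT.nd (nat_lit 78) (nat_lit 228) (nat_lit 0) (XT.lf (nat_lit 0) (nat_lit 1612309650357) (nat_lit 228) (nat_lit 206373788545) (nat_lit 304) (nat_lit 1716372276234) (nat_lit 242) (nat_lit 5) (nat_lit 245) (nat_lit 5) (nat_lit 246) (nat_lit 5) (nat_lit 436) (nat_lit 418) (nat_lit 166)) (XT.lf (nat_lit 0) (nat_lit 1499183183537) (nat_lit 228) (nat_lit 1609303293909) (nat_lit 304) (nat_lit 594096215319) (nat_lit 239) (nat_lit 5) (nat_lit 242) (nat_lit 5) (nat_lit 243) (nat_lit 5) (nat_lit 437) (nat_lit 418) (nat_lit 165)))) (XT.nd (nat_lit 156) (nat_lit 456) (nat_lit 0) (XT.nd (nat_lit 78) (nat_lit 228) (nat_lit 0) (XT.lf (nat_lit 0) (nat_lit 669565015240) (nat_lit 304) (nat_lit 2478599283280) (nat_lit 76) (nat_lit 731296037917) (nat_lit 235) (nat_lit 5) (nat_lit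 239) (nat_lit 5) (nat_lit 236) (nat_lit 5) (nat_lit 438) (nat_lit 418) (nat_lit 164)) (XT.lf (nat_lit 0) (nat_lit 1307646341463) (nat_lit 228) (nat_lit 792699654310) (nat_lit 304) (nat_lit 1965313177271) (nat_lit 232) (nat_lit 5) (nat_lit 235) (nat_lit 5) (nat_lit 236) (nat_lit 5) (nat_lit 439) (nat_lit 418) (nat_lit 163))) (XT.nd (nat_lit 78) (nat_lit 304) (nat_lit 0) (XT.lf (nat_lit 0) (nat_lit 1232092131143) (nat_lit 152) (nat_lit 2503958304123) (nat_lit 228) (nat_lit 526180432287) (nat_lit 230) (nat_lit 5) (nat_lit 232) (nat_lit 5) (nat_lit 233) (nat_lit 5) (nat_lit 440) (nat_lit 418) (nat_lit 162)) (XT.lf (nat_lit 0) (nat_lit 1077275115270) (nat_lit 304) (nat_lit 3296076433405) (nat_lit 76) (nat_lit 96269323294) (nat_lit 226) (nat_lit 5) (nat_lit 230) (nat_lit 5) (nat_lit 227) (nat_lit 5) (nat_lit 441) (nat_lit 418) (nat_lit 161))))) (XT.nd (nat_lit 312) (nat_lit 380) (nat_lit 0) (XT.nd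 (nat_lit 156) (nat_lit 0) (nat_lit 76) (XT.nd (nat_lit 78) (nat_lit 0) (nat_lit 76) (XT.lf (nat_lit 0) (nat_lit 416913856739) (nat_lit 836) (nat_lit 234815358628) (nat_lit 836) (nat_lit 234815358628) (nat_lit 292) (nat_lit 3) (nat_lit 303) (nat_lit 3) (nat_lit 303) (nat_lit 5) (nat_lit 419) (nat_lit 419) (nat_lit 182)) (XT.lf (nat_lit 0) (nat_lit 884010555670) (nat_lit 760) (nat_lit 864559782882) (nat_lit 836) (nat_lit 94600888679) (nat_lit 293) (nat_lit 5) (nat_lit 303) (nat_lit 5) (nat_lit 304) (nat_lit 5) (nat_lit 420) (nat_lit 419) (nat_lit 181))) (XT.nd (nat_lit 78) (nat_lit 0) (nat_lit 76) (XT.lf (nat_lit 76) (nat_lit 639383979736) (nat_lit 0) (nat_lit 339100081591) (nat_lit 836) (nat_lit 938362009676) (nat_lit 294) (nat_lit 5) (nat_lit 293) (nat_lit 5) (nat_lit 304) (nat_lit 5) (nat_lit 421) (nat_lit 419) (nat_lit 180)) (XT.lf (nat_lit 76) (nat_lit 289398216914) (nat_lit 0) (nat_lit 829414445427)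 (nat_lit 836) (nat_lit 875687379190) (nat_lit 295) (nat_lit 5) (nat_lit 294) (nat_lit 5) (nat_lit 305) (nat_lit 5) (nat_lit 422) (nat_lit 419) (nat_lit 179)))) (XT.nd (nat_lit 156) (nat_lit 608) (nat_lit 0) (XT.nd (nat_lit 78) (nat_lit 0) (nat_lit 76) (XT.lf (nat_lit 0) (nat_lit 1309534925150) (nat_lit 760) (nat_lit 66943405613) (nat_lit 836) (nat_lit 699929630253) (nat_lit 295) (nat_lit 5) (nat_lit 305) (nat_lit 5) (nat_lit 306) (nat_lit 5) (nat_lit 423) (nat_lit 419) (nat_lit 178)) (XT.lf (nat_lit 0) (nat_lit 1559656196512) (nat_lit 760) (nat_lit 421628675073) (nat_lit 836) (nat_lit 181376581097) (nat_lit 296) (nat_lit 5) (nat_lit 306) (nat_lit 5) (nat_lit 307) (nat_lit 5) (nat_lit 424) (nat_lit 419) (nat_lit 177))) (XT.nd (nat_lit 78) (nat_lit 684) (nat_lit 0) (XT.lf (nat_lit 76) (nat_lit 1463905732878) (nat_lit 0) (nat_lit 413132271951) (nat_lit 836) (nat_lit 376414677093) (nat_lit 297) (nat_lit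 5) (nat_lit 296) (nat_lit 5) (nat_lit 307) (nat_lit 5) (nat_lit 425) (nat_lit 419) (nat_lit 176)) (XT.lf (nat_lit 0) (nat_lit 1181915646365) (nat_lit 760) (nat_lit 1083804390679) (nat_lit 836) (nat_lit 83491688493) (nat_lit 287) (nat_lit 5) (nat_lit 297) (nat_lit 5) (nat_lit 298) (nat_lit 5) (nat_lit 426) (nat_lit 419) (nat_lit 175)))))) (XT.nd (nat_lit 624) (nat_lit 1748) (nat_lit 0) (XT.nd (nat_lit 312) (nat_lit 988) (nat_lit 0) (XT.nd (nat_lit 156) (nat_lit 684) (nat_lit 0) (XT.nd (nat_lit 78) (nat_lit 380) (nat_lit 0) (XT.lf (nat_lit 0) (nat_lit 270564772139) (nat_lit 532) (nat_lit 1555265689484) (nat_lit 76) (nat_lit 624361608564) (nat_lit 280) (nat_lit 5) (nat_lit 287) (nat_lit 5) (nat_lit 281) (nat_lit 5) (nat_lit 427) (nat_lit 419) (nat_lit 174)) (XT.lf (nat_lit 0) (nat_lit 604921418841) (nat_lit 380) (nat_lit 93524614724) (nat_lit 456) (nat_lit 1858315101733) (nat_lit 275) (nat_lit 5)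 (nat_lit 280) (nat_lit 5) (nat_lit 281) (nat_lit 5) (nat_lit 428) (nat_lit 419) (nat_lit 173))) (XT.nd (nat_lit 78) (nat_lit 304) (nat_lit 0) (XT.lf (nat_lit 0) (nat_lit 304512919376) (nat_lit 380) (nat_lit 916084685885) (nat_lit 456) (nat_lit 1448256129889) (nat_lit 270) (nat_lit 5) (nat_lit 275) (nat_lit 5) (nat_lit 276) (nat_lit 5) (nat_lit 429) (nat_lit 419) (nat_lit 172)) (XT.lf (nat_lit 0) (nat_lit 6054950456) (nat_lit 304) (nat_lit 1829559096716) (nat_lit 380) (nat_lit 951745058596) (nat_lit 266) (nat_lit 5) (nat_lit 270) (nat_lit 5) (nat_lit 271) (nat_lit 5) (nat_lit 430) (nat_lit 419) (nat_lit 171)))) (XT.nd (nat_lit 156) (nat_lit 608) (nat_lit 0) (XT.nd (nat_lit 78) (nat_lit 380) (nat_lit 0) (XT.lf (nat_lit 0) (nat_lit 2557437916598) (nat_lit 380) (nat_lit 279194239867) (nat_lit 76) (nat_lit 75832443960) (nat_lit 266) (nat_lit 5) (nat_lit 271) (nat_lit 5) (nat_lit 267) (nat_lit 5) (nat_lit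 431) (nat_lit 419) (nat_lit 170)) (XT.lf (nat_lit 0) (nat_lit 350738023256) (nat_lit 380) (nat_lit 578431049341) (nat_lit 76) (nat_lit 2114654901894) (nat_lit 261) (nat_lit 5) (nat_lit 266) (nat_lit 5) (nat_lit 262) (nat_lit 5) (nat_lit 432) (nat_lit 419) (nat_lit 169))) (XT.nd (nat_lit 78) (nat_lit 304) (nat_lit 0) (XT.lf (nat_lit 0) (nat_lit 1160322941658) (nat_lit 380) (nat_lit 879431625370) (nat_lit 76) (nat_lit 1142656653956) (nat_lit 257) (nat_lit 5) (nat_lit 262) (nat_lit 5) (nat_lit 258) (nat_lit 5) (nat_lit 433) (nat_lit 419) (nat_lit 168)) (XT.lf (nat_lit 0) (nat_lit 2095245395699) (nat_lit 380) (nat_lit 1172900625055) (nat_lit 76) (nat_lit 60910889334) (nat_lit 253) (nat_lit 5) (nat_lit 258) (nat_lit 5) (nat_lit 254) (nat_lit 5) (nat_lit 434) (nat_lit 419) (nat_lit 167))))) (XT.nd (nat_lit 312) (nat_lit 684) (nat_lit 0) (XT.nd (nat_lit 156) (nat_lit 456) (nat_lit 0) (XT.nd (nat_lit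 78) (nat_lit 380) (nat_lit 0) (XT.lf (nat_lit 0) (nat_lit 2008981997309) (nat_lit 228) (nat_lit 1177309739403) (nat_lit 304) (nat_lit 297076013077) (nat_lit 250) (nat_lit 5) (nat_lit 253) (nat_lit 5) (nat_lit 254) (nat_lit 5) (nat_lit 435) (nat_lit 419) (nat_lit 166)) (XT.lf (nat_lit 0) (nat_lit 759837999242) (nat_lit 380) (nat_lit 1777626795738) (nat_lit 76) (nat_lit 1108595253549) (nat_lit 245) (nat_lit 5) (nat_lit 250) (nat_lit 5) (nat_lit 246) (nat_lit 5) (nat_lit 436) (nat_lit 419) (nat_lit 165))) (XT.nd (nat_lit 78) (nat_lit 228) (nat_lit 0) (XT.lf (nat_lit 0) (nat_lit 1741294457502) (nat_lit 228) (nat_lit 222883681243) (nat_lit 304) (nat_lit 1853682032365) (nat_lit 242) (nat_lit 5) (nat_lit 245) (nat_lit 5) (nat_lit 246) (nat_lit 5) (nat_lit 437) (nat_lit 419) (nat_lit 164)) (XT.lf (nat_lit 0) (nat_lit 1619117872839) (nat_lit 228) (nat_lit 1738047546394) (nat_lit 304) (nat_lit 641623887775)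 (nat_lit 239) (nat_lit 5) (nat_lit 242) (nat_lit 5) (nat_lit 243) (nat_lit 5) (nat_lit 438) (nat_lit 419) (nat_lit 163)))) (XT.nd (nat_lit 156) (nat_lit 152) (nat_lit 0) (XT.nd (nat_lit 78) (nat_lit 228) (nat_lit 0) (XT.lf (nat_lit 0) (nat_lit 723130239363) (nat_lit 304) (nat_lit 2676887191107) (nat_lit 76) (nat_lit 789799731737) (nat_lit 235) (nat_lit 5) (nat_lit 239) (nat_lit 5) (nat_lit 236) (nat_lit 5) (nat_lit 439) (nat_lit 419) (nat_lit 162)) (XT.lf (nat_lit 0) (nat_lit 1412258082102) (nat_lit 228) (nat_lit 856115615060) (nat_lit 304) (nat_lit 2122538208639) (nat_lit 232) (nat_lit 5) (nat_lit 235) (nat_lit 5) (nat_lit 236) (nat_lit 5) (nat_lit 440) (nat_lit 419) (nat_lit 161))) (XT.nd (nat_lit 51480) (nat_lit 0) (nat_lit 4712) (XT.lf (nat_lit 0) (nat_lit 1330659534373) (nat_lit 152) (nat_lit 2704274956511) (nat_lit 228) (nat_lit 568274845033) (nat_lit 230) (nat_lit 5) (nat_lit 232) (nat_lit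 5) (nat_lit 233) (nat_lit 5) (nat_lit 441) (nat_lit 419) (nat_lit 160)) (XT.nd (nat_lit 78) (nat_lit 0) (nat_lit 76) (XT.lf (nat_lit 0) (nat_lit 450266996712) (nat_lit 836) (nat_lit 253600570816) (nat_lit 836) (nat_lit 253600570816) (nat_lit 292) (nat_lit 3) (nat_lit 303) (nat_lit 3) (nat_lit 303) (nat_lit 5) (nat_lit 420) (nat_lit 420) (nat_lit 180)) (XT.lf (nat_lit 0) (nat_lit 954731458403) (nat_lit 760) (nat_lit 933724530583) (nat_lit 836) (nat_lit 102168933510) (nat_lit 293) (nat_lit 5) (nat_lit 303) (nat_lit 5) (nat_lit 304) (nat_lit 5) (nat_lit 421) (nat_lit 420) (nat_lit 179))))))))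
noncomputable def xc250 : XT := (XT.nd (nat_lit 1248) (nat_lit 760) (nat_lit 0) (XT.nd (nat_lit 624) (nat_lit 2280) (nat_lit 0) (XT.nd (nat_lit 312) (nat_lit 1368) (nat_lit 0) (XT.nd (nat_lit 156) (nat_lit 0) (nat_lit 152) (XT.nd (nat_lit 78) (nat_lit 0) (nat_lit 76) (XT.lf (nat_lit 76) (nat_lit 690534731526) (nat_lit 0) (nat_lit 366228109191) (nat_lit 836) (nat_lit 1013430913242) (nat_lit 294) (nat_lit 5) (nat_lit 293) (nat_lit 5) (nat_lit 304) (nat_lit 5) (nat_lit 422) (nat_lit 420) (nat_lit 178)) (XT.lf (nat_lit 76) (nat_lit 312550109147) (nat_lit 0) (nat_lit 895767616870) (nat_lit 836) (nat_lit 945742316303) (nat_lit 295) (nat_lit 5) (nat_lit 294) (nat_lit 5) (nat_lit 305) (nat_lit 5) (nat_lit 423) (nat_lit 420) (nat_lit 177))) (XT.nd (nat_lit 78) (nat_lit 0) (nat_lit 76) (XT.lf (nat_lit 0) (nat_lit 1414297765867) (nat_lit 760) (nat_lit 72298843191) (nat_lit 836) (nat_lit 755923986504) (nat_lit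 295) (nat_lit 5) (nat_lit 305) (nat_lit 5) (nat_lit 306) (nat_lit 5) (nat_lit 424) (nat_lit 420) (nat_lit 176)) (XT.lf (nat_lit 0) (nat_lit 1684428735837) (nat_lit 760) (nat_lit 455358933373) (nat_lit 836) (nat_lit 195886697508) (nat_lit 296) (nat_lit 5) (nat_lit 306) (nat_lit 5) (nat_lit 307) (nat_lit 5) (nat_lit 425) (nat_lit 420) (nat_lit 175)))) (XT.nd (nat_lit 156) (nat_lit 912) (nat_lit 0) (XT.nd (nat_lit 78) (nat_lit 684) (nat_lit 0) (XT.lf (nat_lit 76) (nat_lit 1581018225663) (nat_lit 0) (nat_lit 446182860458) (nat_lit 836) (nat_lit 406527808308) (nat_lit 297) (nat_lit 5) (nat_lit 296) (nat_lit 5) (nat_lit 307) (nat_lit 5) (nat_lit 426) (nat_lit 420) (nat_lit 174)) (XT.lf (nat_lit 0) (nat_lit 1276468932802) (nat_lit 760) (nat_lit 1170508745526) (nat_lit 836) (nat_lit 90170983336) (nat_lit 287) (nat_lit 5) (nat_lit 297) (nat_lit 5) (nat_lit 298) (nat_lit 5) (nat_lit 427) (nat_lit 420)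 (nat_lit 173))) (XT.nd (nat_lit 78) (nat_lit 380) (nat_lit 0) (XT.lf (nat_lit 0) (nat_lit 292209990478) (nat_lit 532) (nat_lit 1679686908329) (nat_lit 76) (nat_lit 674310535166) (nat_lit 280) (nat_lit 5) (nat_lit 287) (nat_lit 5) (nat_lit 281) (nat_lit 5) (nat_lit 428) (nat_lit 420) (nat_lit 172)) (XT.lf (nat_lit 0) (nat_lit 653315167084) (nat_lit 380) (nat_lit 101006583568) (nat_lit 456) (nat_lit 2006980273749) (nat_lit 275) (nat_lit 5) (nat_lit 280) (nat_lit 5) (nat_lit 281) (nat_lit 5) (nat_lit 429) (nat_lit 420) (nat_lit 171))))) (XT.nd (nat_lit 312) (nat_lit 1216) (nat_lit 0) (XT.nd (nat_lit 156) (nat_lit 380) (nat_lit 0) (XT.nd (nat_lit 78) (nat_lit 304) (nat_lit 0) (XT.lf (nat_lit 0) (nat_lit 328873987793) (nat_lit 380) (nat_lit 989371458292) (nat_lit 456) (nat_lit 1564116586257) (nat_lit 270) (nat_lit 5) (nat_lit 275) (nat_lit 5) (nat_lit 276) (nat_lit 5) (nat_lit 430) (nat_lit 420) (nat_lit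 170)) (XT.lf (nat_lit 0) (nat_lit 6539381356) (nat_lit 304) (nat_lit 1975923820172) (nat_lit 380) (nat_lit 1027884631172) (nat_lit 266) (nat_lit 5) (nat_lit 270) (nat_lit 5) (nat_lit 271) (nat_lit 5) (nat_lit 431) (nat_lit 420) (nat_lit 169))) (XT.nd (nat_lit 78) (nat_lit 380) (nat_lit 0) (XT.lf (nat_lit 0) (nat_lit 2762032978306) (nat_lit 380) (nat_lit 301529745421) (nat_lit 76) (nat_lit 81899043315) (nat_lit 266) (nat_lit 5) (nat_lit 271) (nat_lit 5) (nat_lit 267) (nat_lit 5) (nat_lit 432) (nat_lit 420) (nat_lit 168)) (XT.lf (nat_lit 0) (nat_lit 378797092335) (nat_lit 380) (nat_lit 624705500214) (nat_lit 76) (nat_lit 2283827298540) (nat_lit 261) (nat_lit 5) (nat_lit 266) (nat_lit 5) (nat_lit 262) (nat_lit 5) (nat_lit 433) (nat_lit 420) (nat_lit 167)))) (XT.nd (nat_lit 156) (nat_lit 608) (nat_lit 0) (XT.nd (nat_lit 78) (nat_lit 304) (nat_lit 0) (XT.lf (nat_lit 0) (nat_lit 1253148802780) (nat_lit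 380) (nat_lit 949786122570) (nat_lit 76) (nat_lit 1234069192023) (nat_lit 257) (nat_lit 5) (nat_lit 262) (nat_lit 5) (nat_lit 258) (nat_lit 5) (nat_lit 434) (nat_lit 420) (nat_lit 166)) (XT.lf (nat_lit 0) (nat_lit 2262865051833) (nat_lit 380) (nat_lit 1266732642549) (nat_lit 76) (nat_lit 65783767289) (nat_lit 253) (nat_lit 5) (nat_lit 258) (nat_lit 5) (nat_lit 254) (nat_lit 5) (nat_lit 435) (nat_lit 420) (nat_lit 165))) (XT.nd (nat_lit 78) (nat_lit 380) (nat_lit 0) (XT.lf (nat_lit 0) (nat_lit 2169700588191) (nat_lit 228) (nat_lit 1271494510608) (nat_lit 304) (nat_lit 320842069815) (nat_lit 250) (nat_lit 5) (nat_lit 253) (nat_lit 5) (nat_lit 254) (nat_lit 5) (nat_lit 436) (nat_lit 420) (nat_lit 164)) (XT.lf (nat_lit 0) (nat_lit 820625061573) (nat_lit 380) (nat_lit 1919836907922) (nat_lit 76) (nat_lit 1197282881797) (nat_lit 245) (nat_lit 5) (nat_lit 250) (nat_lit 5) (nat_lit 246) (nat_lit 5) (nat_lit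 437) (nat_lit 420) (nat_lit 163)))))) (XT.nd (nat_lit 52182) (nat_lit 0) (nat_lit 1976) (XT.nd (nat_lit 51870) (nat_lit 0) (nat_lit 4408) (XT.nd (nat_lit 156) (nat_lit 304) (nat_lit 0) (XT.nd (nat_lit 78) (nat_lit 228) (nat_lit 0) (XT.lf (nat_lit 0) (nat_lit 1880598044210) (nat_lit 228) (nat_lit 240714366839) (nat_lit 304) (nat_lit 2001976572690) (nat_lit 242) (nat_lit 5) (nat_lit 245) (nat_lit 5) (nat_lit 246) (nat_lit 5) (nat_lit 438) (nat_lit 420) (nat_lit 162)) (XT.lf (nat_lit 0) (nat_lit 1748647332346) (nat_lit 228) (nat_lit 1877091340650) (nat_lit 304) (nat_lit 692953777560) (nat_lit 239) (nat_lit 5) (nat_lit 242) (nat_lit 5) (nat_lit 243) (nat_lit 5) (nat_lit 439) (nat_lit 420) (nat_lit 161))) (XT.nd (nat_lit 51636) (nat_lit 0) (nat_lit 4332) (XT.lf (nat_lit 0) (nat_lit 780980678148) (nat_lit 304) (nat_lit 2891038136530) (nat_lit 76) (nat_lit 852983719523) (nat_lit 235) (nat_lit 5) (nat_lit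 239) (nat_lit 5) (nat_lit 236) (nat_lit 5) (nat_lit 440) (nat_lit 420) (nat_lit 160)) (XT.lf (nat_lit 0) (nat_lit 486288383398) (nat_lit 836) (nat_lit 273888602333) (nat_lit 836) (nat_lit 273888602333) (nat_lit 292) (nat_lit 3) (nat_lit 303) (nat_lit 3) (nat_lit 303) (nat_lit 5) (nat_lit 421) (nat_lit 421) (nat_lit 178)))) (XT.nd (nat_lit 156) (nat_lit 0) (nat_lit 76) (XT.nd (nat_lit 78) (nat_lit 0) (nat_lit 0) (XT.lf (nat_lit 0) (nat_lit 1031110025040) (nat_lit 760) (nat_lit 1008422463084) (nat_lit 836) (nat_lit 110342425674) (nat_lit 293) (nat_lit 5) (nat_lit 303) (nat_lit 5) (nat_lit 304) (nat_lit 5) (nat_lit 422) (nat_lit 421) (nat_lit 177)) (XT.lf (nat_lit 76) (nat_lit 745777538693) (nat_lit 0) (nat_lit 395526375992) (nat_lit 836) (nat_lit 1094505337255) (nat_lit 294) (nat_lit 5) (nat_lit 293) (nat_lit 5) (nat_lit 304) (nat_lit 5) (nat_lit 423) (nat_lit 421) (nat_lit 176))) (XT.nd (nat_lit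 78) (nat_lit 0) (nat_lit 76) (XT.lf (nat_lit 76) (nat_lit 337554147782) (nat_lit 0) (nat_lit 967429039772) (nat_lit 836) (nat_lit 1021401655977) (nat_lit 295) (nat_lit 5) (nat_lit 294) (nat_lit 5) (nat_lit 305) (nat_lit 5) (nat_lit 424) (nat_lit 421) (nat_lit 175)) (XT.lf (nat_lit 0) (nat_lit 1527441627178) (nat_lit 760) (nat_lit 78082720749) (nat_lit 836) (nat_lit 816397893277) (nat_lit 295) (nat_lit 5) (nat_lit 305) (nat_lit 5) (nat_lit 306) (nat_lit 5) (nat_lit 425) (nat_lit 421) (nat_lit 174))))) (XT.nd (nat_lit 312) (nat_lit 1444) (nat_lit 0) (XT.nd (nat_lit 156) (nat_lit 1216) (nat_lit 0) (XT.nd (nat_lit 78) (nat_lit 0) (nat_lit 0) (XT.lf (nat_lit 0) (nat_lit 1819183072086) (nat_lit 760) (nat_lit 491787617430) (nat_lit 836) (nat_lit 211557624669) (nat_lit 296) (nat_lit 5) (nat_lit 306) (nat_lit 5) (nat_lit 307) (nat_lit 5) (nat_lit 426) (nat_lit 421) (nat_lit 173)) (XT.lf (nat_lit 76) (nat_lit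 1707499712998) (nat_lit 0) (nat_lit 481877495084) (nat_lit 836) (nat_lit 439049996148) (nat_lit 297) (nat_lit 5) (nat_lit 296) (nat_lit 5) (nat_lit 307) (nat_lit 5) (nat_lit 427) (nat_lit 421) (nat_lit 172))) (XT.nd (nat_lit 78) (nat_lit 532) (nat_lit 0) (XT.lf (nat_lit 0) (nat_lit 1378586477199) (nat_lit 760) (nat_lit 1264149448249) (nat_lit 836) (nat_lit 97384627506) (nat_lit 287) (nat_lit 5) (nat_lit 297) (nat_lit 5) (nat_lit 298) (nat_lit 5) (nat_lit 428) (nat_lit 421) (nat_lit 171)) (XT.lf (nat_lit 0) (nat_lit 315586821068) (nat_lit 532) (nat_lit 1814061829861) (nat_lit 76) (nat_lit 728255376194) (nat_lit 280) (nat_lit 5) (nat_lit 287) (nat_lit 5) (nat_lit 281) (nat_lit 5) (nat_lit 429) (nat_lit 421) (nat_lit 170)))) (XT.nd (nat_lit 156) (nat_lit 684) (nat_lit 0) (XT.nd (nat_lit 78) (nat_lit 380) (nat_lit 0) (XT.lf (nat_lit 0) (nat_lit 705580410232) (nat_lit 380) (nat_lit 109087109968) (nat_lit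 456) (nat_lit 2167538664680) (nat_lit 275) (nat_lit 5) (nat_lit 280) (nat_lit 5) (nat_lit 281) (nat_lit 5) (nat_lit 430) (nat_lit 421) (nat_lit 169)) (XT.lf (nat_lit 0) (nat_lit 355183936709) (nat_lit 380) (nat_lit 1068521172843) (nat_lit 456) (nat_lit 1689245883989) (nat_lit 270) (nat_lit 5) (nat_lit 275) (nat_lit 5) (nat_lit 276) (nat_lit 5) (nat_lit 431) (nat_lit 421) (nat_lit 168))) (XT.nd (nat_lit 78) (nat_lit 380) (nat_lit 0) (XT.lf (nat_lit 0) (nat_lit 7062561756) (nat_lit 304) (nat_lit 2133997722115) (nat_lit 380) (nat_lit 1110115374135) (nat_lit 266) (nat_lit 5) (nat_lit 270) (nat_lit 5) (nat_lit 271) (nat_lit 5) (nat_lit 432) (nat_lit 421) (nat_lit 167)) (XT.nd (nat_lit 78) (nat_lit 380) (nat_lit 0) (XT.lf (nat_lit 0) (nat_lit 2982995640901) (nat_lit 380) (nat_lit 325652096217) (nat_lit 76) (nat_lit 88450970070) (nat_lit 266) (nat_lit 5) (nat_lit 271) (nat_lit 5) (nat_lit 267) (nat_lit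 5) (nat_lit 433) (nat_lit 421) (nat_lit 166)) (XT.lf (nat_lit 0) (nat_lit 409100883057) (nat_lit 380) (nat_lit 674681911875) (nat_lit 76) (nat_lit 2466533486277) (nat_lit 261) (nat_lit 5) (nat_lit 266) (nat_lit 5) (nat_lit 262) (nat_lit 5) (nat_lit 434) (nat_lit 421) (nat_lit 165))))))))
noncomputable def xc251 : XT := (XT.nd (nat_lit 52884) (nat_lit 0) (nat_lit 228) (XT.nd (nat_lit 52260) (nat_lit 0) (nat_lit 2736) (XT.nd (nat_lit 312) (nat_lit 456) (nat_lit 0) (XT.nd (nat_lit 156) (nat_lit 608) (nat_lit 0) (XT.nd (nat_lit 78) (nat_lit 304) (nat_lit 0) (XT.lf (nat_lit 0) (nat_lit 1353400729112) (nat_lit 380) (nat_lit 1025768984231) (nat_lit 76) (nat_lit 1332794732315) (nat_lit 257) (nat_lit 5) (nat_lit 262) (nat_lit 5) (nat_lit 258) (nat_lit 5) (nat_lit 435) (nat_lit 421) (nat_lit 164)) (XT.lf (nat_lit 0) (nat_lit 2443894276966) (nat_lit 380) (nat_lit 1368071226080) (nat_lit 76) (nat_lit 71046474509)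 (nat_lit 253) (nat_lit 5) (nat_lit 258) (nat_lit 5) (nat_lit 254) (nat_lit 5) (nat_lit 436) (nat_lit 421) (nat_lit 163))) (XT.nd (nat_lit 78) (nat_lit 380) (nat_lit 0) (XT.lf (nat_lit 0) (nat_lit 2343276661908) (nat_lit 228) (nat_lit 1373214064643) (nat_lit 304) (nat_lit 346509414560) (nat_lit 250) (nat_lit 5) (nat_lit 253) (nat_lit 5) (nat_lit 254) (nat_lit 5) (nat_lit 437) (nat_lit 421) (nat_lit 162)) (XT.lf (nat_lit 0) (nat_lit 886275085696) (nat_lit 380) (nat_lit 2073423833570) (nat_lit 76) (nat_lit 1293065519168) (nat_lit 245) (nat_lit 5) (nat_lit 250) (nat_lit 5) (nat_lit 246) (nat_lit 5) (nat_lit 438) (nat_lit 421) (nat_lit 161)))) (XT.nd (nat_lit 51792) (nat_lit 0) (nat_lit 4028) (XT.nd (nat_lit 78) (nat_lit 228) (nat_lit 0) (XT.lf (nat_lit 0) (nat_lit 2031045913559) (nat_lit 228) (nat_lit 259971508552) (nat_lit 304) (nat_lit 2162134679418) (nat_lit 242) (nat_lit 5) (nat_lit 245) (nat_lit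 5) (nat_lit 246) (nat_lit 5) (nat_lit 439) (nat_lit 421) (nat_lit 160)) (XT.lf (nat_lit 0) (nat_lit 1888539144380) (nat_lit 228) (nat_lit 2027258639796) (nat_lit 304) (nat_lit 748390061559) (nat_lit 239) (nat_lit 5) (nat_lit 242) (nat_lit 5) (nat_lit 243) (nat_lit 5) (nat_lit 440) (nat_lit 421) (nat_lit 159))) (XT.nd (nat_lit 78) (nat_lit 0) (nat_lit 76) (XT.lf (nat_lit 0) (nat_lit 525191477174) (nat_lit 836) (nat_lit 295799678390) (nat_lit 836) (nat_lit 295799678390) (nat_lit 292) (nat_lit 3) (nat_lit 303) (nat_lit 3) (nat_lit 303) (nat_lit 5) (nat_lit 422) (nat_lit 422) (nat_lit 176)) (XT.lf (nat_lit 0) (nat_lit 1113598869880) (nat_lit 760) (nat_lit 1089096234456) (nat_lit 836) (nat_lit 119169800423) (nat_lit 293) (nat_lit 5) (nat_lit 303) (nat_lit 5) (nat_lit 304) (nat_lit 5) (nat_lit 423) (nat_lit 422) (nat_lit 175))))) (XT.nd (nat_lit 312) (nat_lit 1368) (nat_lit 0) (XT.nd (nat_lit 156)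 (nat_lit 0) (nat_lit 152) (XT.nd (nat_lit 78) (nat_lit 0) (nat_lit 76) (XT.lf (nat_lit 76) (nat_lit 805439766347) (nat_lit 0) (nat_lit 427168501560) (nat_lit 836) (nat_lit 1182065722186) (nat_lit 294) (nat_lit 5) (nat_lit 293) (nat_lit 5) (nat_lit 304) (nat_lit 5) (nat_lit 424) (nat_lit 422) (nat_lit 174)) (XT.lf (nat_lit 76) (nat_lit 364558505243) (nat_lit 0) (nat_lit 1044823374573) (nat_lit 836) (nat_lit 1103113749336) (nat_lit 295) (nat_lit 5) (nat_lit 294) (nat_lit 5) (nat_lit 305) (nat_lit 5) (nat_lit 425) (nat_lit 422) (nat_lit 173))) (XT.nd (nat_lit 78) (nat_lit 0) (nat_lit 76) (XT.lf (nat_lit 0) (nat_lit 1649636991682) (nat_lit 760) (nat_lit 84329312778) (nat_lit 836) (nat_lit 881709714325) (nat_lit 295) (nat_lit 5) (nat_lit 305) (nat_lit 5) (nat_lit 306) (nat_lit 5) (nat_lit 426) (nat_lit 422) (nat_lit 172)) (XT.lf (nat_lit 0) (nat_lit 1964717749903) (nat_lit 760) (nat_lit 531130600579)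 (nat_lit 836) (nat_lit 228482227236) (nat_lit 296) (nat_lit 5) (nat_lit 306) (nat_lit 5) (nat_lit 307) (nat_lit 5) (nat_lit 427) (nat_lit 422) (nat_lit 171)))) (XT.nd (nat_lit 156) (nat_lit 912) (nat_lit 0) (XT.nd (nat_lit 78) (nat_lit 684) (nat_lit 0) (XT.lf (nat_lit 76) (nat_lit 1844099715143) (nat_lit 0) (nat_lit 520427699653) (nat_lit 836) (nat_lit 474173964269) (nat_lit 297) (nat_lit 5) (nat_lit 296) (nat_lit 5) (nat_lit 307) (nat_lit 5) (nat_lit 428) (nat_lit 422) (nat_lit 170)) (XT.lf (nat_lit 0) (nat_lit 1488873420901) (nat_lit 760) (nat_lit 1365281406750) (nat_lit 836) (nat_lit 105175368131) (nat_lit 287) (nat_lit 5) (nat_lit 297) (nat_lit 5) (nat_lit 298) (nat_lit 5) (nat_lit 429) (nat_lit 422) (nat_lit 169))) (XT.nd (nat_lit 78) (nat_lit 380) (nat_lit 0) (XT.lf (nat_lit 0) (nat_lit 340833793633) (nat_lit 532) (nat_lit 1959186749558) (nat_lit 76) (nat_lit 786515804758) (nat_lit 280)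 (nat_lit 5) (nat_lit 287) (nat_lit 5) (nat_lit 281) (nat_lit 5) (nat_lit 430) (nat_lit 422) (nat_lit 168)) (XT.lf (nat_lit 0) (nat_lit 762026868582) (nat_lit 380) (nat_lit 117814078520) (nat_lit 456) (nat_lit 2340941731304) (nat_lit 275) (nat_lit 5) (nat_lit 280) (nat_lit 5) (nat_lit 281) (nat_lit 5) (nat_lit 431) (nat_lit 422) (nat_lit 167)))))) (XT.nd (nat_lit 624) (nat_lit 228) (nat_lit 0) (XT.nd (nat_lit 312) (nat_lit 1216) (nat_lit 0) (XT.nd (nat_lit 156) (nat_lit 380) (nat_lit 0) (XT.nd (nat_lit 78) (nat_lit 304) (nat_lit 0) (XT.lf (nat_lit 0) (nat_lit 383598677274) (nat_lit 380) (nat_lit 1154002864860) (nat_lit 456) (nat_lit 1824385529700) (nat_lit 270) (nat_lit 5) (nat_lit 275) (nat_lit 5) (nat_lit 276) (nat_lit 5) (nat_lit 432) (nat_lit 422) (nat_lit 166)) (XT.lf (nat_lit 0) (nat_lit 7627592323) (nat_lit 304) (nat_lit 2304717536737) (nat_lit 380) (nat_lit 1198924580462) (nat_lit 266)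 (nat_lit 5) (nat_lit 270) (nat_lit 5) (nat_lit 271) (nat_lit 5) (nat_lit 433) (nat_lit 422) (nat_lit 165))) (XT.nd (nat_lit 78) (nat_lit 380) (nat_lit 0) (XT.lf (nat_lit 0) (nat_lit 3221635313032) (nat_lit 380) (nat_lit 351704239192) (nat_lit 76) (nat_lit 95527050496) (nat_lit 266) (nat_lit 5) (nat_lit 271) (nat_lit 5) (nat_lit 267) (nat_lit 5) (nat_lit 434) (nat_lit 422) (nat_lit 164)) (XT.lf (nat_lit 0) (nat_lit 441828973708) (nat_lit 380) (nat_lit 728656440515) (nat_lit 76) (nat_lit 2663856168483) (nat_lit 261) (nat_lit 5) (nat_lit 266) (nat_lit 5) (nat_lit 262) (nat_lit 5) (nat_lit 435) (nat_lit 422) (nat_lit 163)))) (XT.nd (nat_lit 156) (nat_lit 608) (nat_lit 0) (XT.nd (nat_lit 78) (nat_lit 304) (nat_lit 0) (XT.lf (nat_lit 0) (nat_lit 1461672806396) (nat_lit 380) (nat_lit 1107830478839) (nat_lit 76) (nat_lit 1439418315127) (nat_lit 257) (nat_lit 5) (nat_lit 262) (nat_lit 5) (nat_lit 258)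 (nat_lit 5) (nat_lit 436) (nat_lit 422) (nat_lit 162)) (XT.lf (nat_lit 0) (nat_lit 2639405837116) (nat_lit 380) (nat_lit 1477516900271) (nat_lit 76) (nat_lit 76730197474) (nat_lit 253) (nat_lit 5) (nat_lit 258) (nat_lit 5) (nat_lit 254) (nat_lit 5) (nat_lit 437) (nat_lit 422) (nat_lit 161))) (XT.nd (nat_lit 78) (nat_lit 380) (nat_lit 0) (XT.lf (nat_lit 0) (nat_lit 2530738817718) (nat_lit 228) (nat_lit 1483071183974) (nat_lit 304) (nat_lit 374230149857) (nat_lit 250) (nat_lit 5) (nat_lit 253) (nat_lit 5) (nat_lit 254) (nat_lit 5) (nat_lit 438) (nat_lit 422) (nat_lit 160)) (XT.lf (nat_lit 0) (nat_lit 957177109011) (nat_lit 380) (nat_lit 2239297717121) (nat_lit 76) (nat_lit 1396510766556) (nat_lit 245) (nat_lit 5) (nat_lit 250) (nat_lit 5) (nat_lit 246) (nat_lit 5) (nat_lit 439) (nat_lit 422) (nat_lit 159))))) (XT.nd (nat_lit 52026) (nat_lit 0) (nat_lit 3420) (XT.nd (nat_lit 51870) (nat_lit 0) (nat_lit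 3876) (XT.nd (nat_lit 51792) (nat_lit 0) (nat_lit 3800) (XT.lf (nat_lit 0) (nat_lit 2193529608774) (nat_lit 228) (nat_lit 280769222691) (nat_lit 304) (nat_lit 2335105437408) (nat_lit 242) (nat_lit 5) (nat_lit 245) (nat_lit 5) (nat_lit 246) (nat_lit 5) (nat_lit 440) (nat_lit 422) (nat_lit 158)) (XT.lf (nat_lit 0) (nat_lit 567206815156) (nat_lit 836) (nat_lit 319463642262) (nat_lit 836) (nat_lit 319463642262) (nat_lit 292) (nat_lit 3) (nat_lit 303) (nat_lit 3) (nat_lit 303) (nat_lit 5) (nat_lit 423) (nat_lit 423) (nat_lit 174))) (XT.nd (nat_lit 78) (nat_lit 0) (nat_lit 0) (XT.lf (nat_lit 0) (nat_lit 1202686816196) (nat_lit 760) (nat_lit 1176223911201) (nat_lit 836) (nat_lit 128703367907) (nat_lit 293) (nat_lit 5) (nat_lit 303) (nat_lit 5) (nat_lit 304) (nat_lit 5) (nat_lit 424) (nat_lit 423) (nat_lit 173)) (XT.lf (nat_lit 76) (nat_lit 869874968710) (nat_lit 0) (nat_lit 461341994964) (nat_lit 836)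 (nat_lit 1276630943910) (nat_lit 294) (nat_lit 5) (nat_lit 293) (nat_lit 5) (nat_lit 304) (nat_lit 5) (nat_lit 425) (nat_lit 423) (nat_lit 172)))) (XT.nd (nat_lit 156) (nat_lit 532) (nat_lit 0) (XT.nd (nat_lit 78) (nat_lit 0) (nat_lit 76) (XT.lf (nat_lit 76) (nat_lit 393723207642) (nat_lit 0) (nat_lit 1128409254501) (nat_lit 836) (nat_lit 1191362815744) (nat_lit 295) (nat_lit 5) (nat_lit 294) (nat_lit 5) (nat_lit 305) (nat_lit 5) (nat_lit 426) (nat_lit 423) (nat_lit 171)) (XT.lf (nat_lit 0) (nat_lit 1781607980448) (nat_lit 760) (nat_lit 91075635825) (nat_lit 836) (nat_lit 952246482543) (nat_lit 295) (nat_lit 5) (nat_lit 305) (nat_lit 5) (nat_lit 306) (nat_lit 5) (nat_lit 427) (nat_lit 423) (nat_lit 170))) (XT.nd (nat_lit 78) (nat_lit 684) (nat_lit 0) (XT.lf (nat_lit 0) (nat_lit 2121895197373) (nat_lit 760) (nat_lit 573621026124) (nat_lit 836) (nat_lit 246760799065) (nat_lit 296) (nat_lit 5) (nat_lit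 306) (nat_lit 5) (nat_lit 307) (nat_lit 5) (nat_lit 428) (nat_lit 423) (nat_lit 169)) (XT.nd (nat_lit 78) (nat_lit 684) (nat_lit 0) (XT.lf (nat_lit 76) (nat_lit 1991627713878) (nat_lit 0) (nat_lit 562061919880) (nat_lit 836) (nat_lit 512107854344) (nat_lit 297) (nat_lit 5) (nat_lit 296) (nat_lit 5) (nat_lit 307) (nat_lit 5) (nat_lit 429) (nat_lit 423) (nat_lit 168)) (XT.lf (nat_lit 0) (nat_lit 1607983316458) (nat_lit 760) (nat_lit 1474503921555) (nat_lit 836) (nat_lit 113589372225) (nat_lit 287) (nat_lit 5) (nat_lit 297) (nat_lit 5) (nat_lit 298) (nat_lit 5) (nat_lit 430) (nat_lit 423) (nat_lit 167))))))))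
noncomputable def xc252 : XT := (XT.nd (nat_lit 53040) (nat_lit 0) (nat_lit 380) (XT.nd (nat_lit 624) (nat_lit 608) (nat_lit 0) (XT.nd (nat_lit 312) (nat_lit 988) (nat_lit 0) (XT.nd (nat_lit 156) (nat_lit 684) (nat_lit 0) (XT.nd (nat_lit 78) (nat_lit 380) (nat_lit 0) (XT.lf (nat_lit 0) (nat_lit 368100520168) (nat_lit 532) (nat_lit 2115921666639) (nat_lit 76) (nat_lit 849437067827) (nat_lit 280) (nat_lit 5) (nat_lit 287) (nat_lit 5) (nat_lit 281) (nat_lit 5) (nat_lit 431) (nat_lit 423) (nat_lit 166)) (XT.lf (nat_lit 0) (nat_lit 822989039958) (nat_lit 380) (nat_lit 127239204591) (nat_lit 456) (nat_lit 2528217047045) (nat_lit 275) (nat_lit 5) (nat_lit 280) (nat_lit 5) (nat_lit 281) (nat_lit 5) (nat_lit 432) (nat_lit 423) (nat_lit 165))) (XT.nd (nat_lit 78) (nat_lit 304) (nat_lit 0) (XT.lf (nat_lit 0) (nat_lit 414286593428) (nat_lit 380) (nat_lit 1246323092496) (nat_lit 456) (nat_lit 1970336350635)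 (nat_lit 270) (nat_lit 5) (nat_lit 275) (nat_lit 5) (nat_lit 276) (nat_lit 5) (nat_lit 433) (nat_lit 423) (nat_lit 164)) (XT.lf (nat_lit 0) (nat_lit 8237821679) (nat_lit 304) (nat_lit 2489094936978) (nat_lit 380) (nat_lit 1294838526664) (nat_lit 266) (nat_lit 5) (nat_lit 270) (nat_lit 5) (nat_lit 271) (nat_lit 5) (nat_lit 434) (nat_lit 423) (nat_lit 163)))) (XT.nd (nat_lit 156) (nat_lit 608) (nat_lit 0) (XT.nd (nat_lit 78) (nat_lit 380) (nat_lit 0) (XT.lf (nat_lit 0) (nat_lit 3479366155958) (nat_lit 380) (nat_lit 379840557131) (nat_lit 76) (nat_lit 103169216955) (nat_lit 266) (nat_lit 5) (nat_lit 271) (nat_lit 5) (nat_lit 267) (nat_lit 5) (nat_lit 435) (nat_lit 423) (nat_lit 162)) (XT.lf (nat_lit 0) (nat_lit 477175308757) (nat_lit 380) (nat_lit 786948934914) (nat_lit 76) (nat_lit 2876964664794) (nat_lit 261) (nat_lit 5) (nat_lit 266) (nat_lit 5) (nat_lit 262) (nat_lit 5) (nat_lit 436) (nat_lit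 423) (nat_lit 161))) (XT.nd (nat_lit 78) (nat_lit 304) (nat_lit 0) (XT.lf (nat_lit 0) (nat_lit 1578606647159) (nat_lit 380) (nat_lit 1196456896459) (nat_lit 76) (nat_lit 1554571783961) (nat_lit 257) (nat_lit 5) (nat_lit 262) (nat_lit 5) (nat_lit 258) (nat_lit 5) (nat_lit 437) (nat_lit 423) (nat_lit 160)) (XT.lf (nat_lit 0) (nat_lit 2850558319511) (nat_lit 380) (nat_lit 1595718231805) (nat_lit 76) (nat_lit 82868617562) (nat_lit 253) (nat_lit 5) (nat_lit 258) (nat_lit 5) (nat_lit 254) (nat_lit 5) (nat_lit 438) (nat_lit 423) (nat_lit 159))))) (XT.nd (nat_lit 52104) (nat_lit 0) (nat_lit 3648) (XT.nd (nat_lit 51948) (nat_lit 0) (nat_lit 3572) (XT.nd (nat_lit 78) (nat_lit 380) (nat_lit 0) (XT.lf (nat_lit 0) (nat_lit 2733197942733) (nat_lit 228) (nat_lit 1601716873684) (nat_lit 304) (nat_lit 404168546527) (nat_lit 250) (nat_lit 5) (nat_lit 253) (nat_lit 5) (nat_lit 254) (nat_lit 5) (nat_lit 439) (nat_lit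 423) (nat_lit 158)) (XT.lf (nat_lit 0) (nat_lit 1033751291843) (nat_lit 380) (nat_lit 2418441514656) (nat_lit 76) (nat_lit 1508231632899) (nat_lit 245) (nat_lit 5) (nat_lit 250) (nat_lit 5) (nat_lit 246) (nat_lit 5) (nat_lit 440) (nat_lit 423) (nat_lit 157))) (XT.nd (nat_lit 78) (nat_lit 0) (nat_lit 76) (XT.lf (nat_lit 0) (nat_lit 612583377351) (nat_lit 836) (nat_lit 345020724728) (nat_lit 836) (nat_lit 345020724728) (nat_lit 292) (nat_lit 3) (nat_lit 303) (nat_lit 3) (nat_lit 303) (nat_lit 5) (nat_lit 424) (nat_lit 424) (nat_lit 172)) (XT.lf (nat_lit 0) (nat_lit 1298901792978) (nat_lit 760) (nat_lit 1270321805226) (nat_lit 836) (nat_lit 138999623150) (nat_lit 293) (nat_lit 5) (nat_lit 303) (nat_lit 5) (nat_lit 304) (nat_lit 5) (nat_lit 425) (nat_lit 424) (nat_lit 171)))) (XT.nd (nat_lit 156) (nat_lit 0) (nat_lit 152) (XT.nd (nat_lit 78) (nat_lit 0) (nat_lit 76) (XT.lf (nat_lit 76) (nat_lit 939464984257)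 (nat_lit 0) (nat_lit 498249365946) (nat_lit 836) (nat_lit 1378761388515) (nat_lit 294) (nat_lit 5) (nat_lit 293) (nat_lit 5) (nat_lit 304) (nat_lit 5) (nat_lit 426) (nat_lit 424) (nat_lit 170)) (XT.lf (nat_lit 76) (nat_lit 425221083098) (nat_lit 0) (nat_lit 1218682003401) (nat_lit 836) (nat_lit 1286671812249) (nat_lit 295) (nat_lit 5) (nat_lit 294) (nat_lit 5) (nat_lit 305) (nat_lit 5) (nat_lit 427) (nat_lit 424) (nat_lit 169))) (XT.nd (nat_lit 78) (nat_lit 0) (nat_lit 76) (XT.lf (nat_lit 0) (nat_lit 1924136644117) (nat_lit 760) (nat_lit 98361667852) (nat_lit 836) (nat_lit 1028426193491) (nat_lit 295) (nat_lit 5) (nat_lit 305) (nat_lit 5) (nat_lit 306) (nat_lit 5) (nat_lit 428) (nat_lit 424) (nat_lit 168)) (XT.lf (nat_lit 0) (nat_lit 2291646836720) (nat_lit 760) (nat_lit 619510688923) (nat_lit 836) (nat_lit 266501657546) (nat_lit 296) (nat_lit 5) (nat_lit 306) (nat_lit 5) (nat_lit 307) (nat_lit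 5) (nat_lit 429) (nat_lit 424) (nat_lit 167)))))) (XT.nd (nat_lit 624) (nat_lit 836) (nat_lit 0) (XT.nd (nat_lit 312) (nat_lit 1064) (nat_lit 0) (XT.nd (nat_lit 156) (nat_lit 912) (nat_lit 0) (XT.nd (nat_lit 78) (nat_lit 684) (nat_lit 0) (XT.lf (nat_lit 76) (nat_lit 2150957949441) (nat_lit 0) (nat_lit 607026877118) (nat_lit 836) (nat_lit 553076459486) (nat_lit 297) (nat_lit 5) (nat_lit 296) (nat_lit 5) (nat_lit 307) (nat_lit 5) (nat_lit 430) (nat_lit 424) (nat_lit 166)) (XT.lf (nat_lit 0) (nat_lit 1736622000537) (nat_lit 760) (nat_lit 1592464237220) (nat_lit 836) (nat_lit 122676500264) (nat_lit 287) (nat_lit 5) (nat_lit 297) (nat_lit 5) (nat_lit 298) (nat_lit 5) (nat_lit 431) (nat_lit 424) (nat_lit 165))) (XT.nd (nat_lit 78) (nat_lit 380) (nat_lit 0) (XT.lf (nat_lit 0) (nat_lit 397548581538) (nat_lit 532) (nat_lit 2285195380351) (nat_lit 76) (nat_lit 917392032128) (nat_lit 280) (nat_lit 5) (nat_lit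 287) (nat_lit 5) (nat_lit 281) (nat_lit 5) (nat_lit 432) (nat_lit 424) (nat_lit 164)) (XT.lf (nat_lit 0) (nat_lit 888828181922) (nat_lit 380) (nat_lit 137418340778) (nat_lit 456) (nat_lit 2730474391293) (nat_lit 275) (nat_lit 5) (nat_lit 280) (nat_lit 5) (nat_lit 281) (nat_lit 5) (nat_lit 433) (nat_lit 424) (nat_lit 163)))) (XT.nd (nat_lit 156) (nat_lit 380) (nat_lit 0) (XT.nd (nat_lit 78) (nat_lit 304) (nat_lit 0) (XT.lf (nat_lit 0) (nat_lit 447429539740) (nat_lit 380) (nat_lit 1346028938565) (nat_lit 456) (nat_lit 2127963240305) (nat_lit 270) (nat_lit 5) (nat_lit 275) (nat_lit 5) (nat_lit 276) (nat_lit 5) (nat_lit 434) (nat_lit 424) (nat_lit 162)) (XT.lf (nat_lit 0) (nat_lit 8896866249) (nat_lit 304) (nat_lit 2688222529622) (nat_lit 380) (nat_lit 1398425591448) (nat_lit 266) (nat_lit 5) (nat_lit 270) (nat_lit 5) (nat_lit 271) (nat_lit 5) (nat_lit 435) (nat_lit 424) (nat_lit 161))) (XT.nd (nat_lit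 78) (nat_lit 380) (nat_lit 0) (XT.lf (nat_lit 0) (nat_lit 3757715463768) (nat_lit 380) (nat_lit 410227783529) (nat_lit 76) (nat_lit 111422756384) (nat_lit 266) (nat_lit 5) (nat_lit 271) (nat_lit 5) (nat_lit 267) (nat_lit 5) (nat_lit 436) (nat_lit 424) (nat_lit 160)) (XT.lf (nat_lit 0) (nat_lit 515349348162) (nat_lit 380) (nat_lit 849904831838) (nat_lit 76) (nat_lit 3107121840406) (nat_lit 261) (nat_lit 5) (nat_lit 266) (nat_lit 5) (nat_lit 262) (nat_lit 5) (nat_lit 437) (nat_lit 424) (nat_lit 159))))) (XT.nd (nat_lit 52182) (nat_lit 0) (nat_lit 3268) (XT.nd (nat_lit 156) (nat_lit 228) (nat_lit 0) (XT.nd (nat_lit 78) (nat_lit 304) (nat_lit 0) (XT.lf (nat_lit 0) (nat_lit 1704895192865) (nat_lit 380) (nat_lit 1292173430439) (nat_lit 76) (nat_lit 1678937529784) (nat_lit 257) (nat_lit 5) (nat_lit 262) (nat_lit 5) (nat_lit 258) (nat_lit 5) (nat_lit 438) (nat_lit 424) (nat_lit 158)) (XT.lf (nat_lit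 0) (nat_lit 3078602998297) (nat_lit 380) (nat_lit 1723375672785) (nat_lit 76) (nat_lit 89498110645) (nat_lit 253) (nat_lit 5) (nat_lit 258) (nat_lit 5) (nat_lit 254) (nat_lit 5) (nat_lit 439) (nat_lit 424) (nat_lit 157))) (XT.nd (nat_lit 51948) (nat_lit 0) (nat_lit 3192) (XT.lf (nat_lit 0) (nat_lit 2951853794953) (nat_lit 228) (nat_lit 1729854219285) (nat_lit 304) (nat_lit 436502017116) (nat_lit 250) (nat_lit 5) (nat_lit 253) (nat_lit 5) (nat_lit 254) (nat_lit 5) (nat_lit 440) (nat_lit 424) (nat_lit 156)) (XT.lf (nat_lit 0) (nat_lit 661590062099) (nat_lit 836) (nat_lit 372622375062) (nat_lit 836) (nat_lit 372622375062) (nat_lit 292) (nat_lit 3) (nat_lit 303) (nat_lit 3) (nat_lit 303) (nat_lit 5) (nat_lit 425) (nat_lit 425) (nat_lit 170)))) (XT.nd (nat_lit 156) (nat_lit 0) (nat_lit 76) (XT.nd (nat_lit 78) (nat_lit 0) (nat_lit 0) (XT.lf (nat_lit 0) (nat_lit 1402813963410) (nat_lit 760) (nat_lit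 1371947533466) (nat_lit 836) (nat_lit 150119580837) (nat_lit 293) (nat_lit 5) (nat_lit 303) (nat_lit 5) (nat_lit 304) (nat_lit 5) (nat_lit 426) (nat_lit 425) (nat_lit 169)) (XT.lf (nat_lit 76) (nat_lit 1014622198474) (nat_lit 0) (nat_lit 538109324983) (nat_lit 836) (nat_lit 1489062273098) (nat_lit 294) (nat_lit 5) (nat_lit 293) (nat_lit 5) (nat_lit 304) (nat_lit 5) (nat_lit 427) (nat_lit 425) (nat_lit 168))) (XT.nd (nat_lit 78) (nat_lit 0) (nat_lit 76) (XT.lf (nat_lit 76) (nat_lit 459238785902) (nat_lit 0) (nat_lit 1316176570996) (nat_lit 836) (nat_lit 1389605532577) (nat_lit 295) (nat_lit 5) (nat_lit 294) (nat_lit 5) (nat_lit 305) (nat_lit 5) (nat_lit 428) (nat_lit 425) (nat_lit 167)) (XT.lf (nat_lit 0) (nat_lit 2078067597280) (nat_lit 760) (nat_lit 106230585128) (nat_lit 836) (nat_lit 1110700282408) (nat_lit 295) (nat_lit 5) (nat_lit 305) (nat_lit 5) (nat_lit 306) (nat_lit 5) (nat_lit 429)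 (nat_lit 425) (nat_lit 166)))))))
noncomputable def xc253 : XT := (XT.nd (nat_lit 53196) (nat_lit 0) (nat_lit 608) (XT.nd (nat_lit 624) (nat_lit 988) (nat_lit 0) (XT.nd (nat_lit 312) (nat_lit 1064) (nat_lit 0) (XT.nd (nat_lit 156) (nat_lit 1216) (nat_lit 0) (XT.nd (nat_lit 78) (nat_lit 0) (nat_lit 0) (XT.lf (nat_lit 0) (nat_lit 2474978603854) (nat_lit 760) (nat_lit 669071527498) (nat_lit 836) (nat_lit 287821785483) (nat_lit 296) (nat_lit 5) (nat_lit 306) (nat_lit 5) (nat_lit 307) (nat_lit 5) (nat_lit 430) (nat_lit 425) (nat_lit 165)) (XT.lf (nat_lit 76) (nat_lit 2323034601216) (nat_lit 0) (nat_lit 655589030415) (nat_lit 836) (nat_lit 597322556350) (nat_lit 297) (nat_lit 5) (nat_lit 296) (nat_lit 5) (nat_lit 307) (nat_lit 5) (nat_lit 431) (nat_lit 425) (nat_lit 164))) (XT.nd (nat_lit 78) (nat_lit 532) (nat_lit 0) (XT.lf (nat_lit 0) (nat_lit 1875551776666) (nat_lit 760) (nat_lit 1719861377862)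 (nat_lit 836) (nat_lit 132490601648) (nat_lit 287) (nat_lit 5) (nat_lit 297) (nat_lit 5) (nat_lit 298) (nat_lit 5) (nat_lit 432) (nat_lit 425) (nat_lit 163)) (XT.lf (nat_lit 0) (nat_lit 429352484999) (nat_lit 532) (nat_lit 2468010993959) (nat_lit 76) (nat_lit 990783393733) (nat_lit 280) (nat_lit 5) (nat_lit 287) (nat_lit 5) (nat_lit 281) (nat_lit 5) (nat_lit 433) (nat_lit 425) (nat_lit 162)))) (XT.nd (nat_lit 156) (nat_lit 304) (nat_lit 0) (XT.nd (nat_lit 78) (nat_lit 380) (nat_lit 0) (XT.lf (nat_lit 0) (nat_lit 959934452565) (nat_lit 380) (nat_lit 148411807885) (nat_lit 456) (nat_lit 2948912325865) (nat_lit 275) (nat_lit 5) (nat_lit 280) (nat_lit 5) (nat_lit 281) (nat_lit 5) (nat_lit 434) (nat_lit 425) (nat_lit 161)) (XT.lf (nat_lit 0) (nat_lit 483223919069) (nat_lit 380) (nat_lit 1453711252509) (nat_lit 456) (nat_lit 2298200283770) (nat_lit 270) (nat_lit 5) (nat_lit 275) (nat_lit 5) (nat_lit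 276) (nat_lit 5) (nat_lit 435) (nat_lit 425) (nat_lit 160))) (XT.nd (nat_lit 78) (nat_lit 0) (nat_lit 0) (XT.lf (nat_lit 0) (nat_lit 9608631698) (nat_lit 304) (nat_lit 2903280330009) (nat_lit 380) (nat_lit 1510299623890) (nat_lit 266) (nat_lit 5) (nat_lit 270) (nat_lit 5) (nat_lit 271) (nat_lit 5) (nat_lit 436) (nat_lit 425) (nat_lit 159)) (XT.lf (nat_lit 0) (nat_lit 4058332714014) (nat_lit 380) (nat_lit 443045990631) (nat_lit 76) (nat_lit 120336578673) (nat_lit 266) (nat_lit 5) (nat_lit 271) (nat_lit 5) (nat_lit 267) (nat_lit 5) (nat_lit 437) (nat_lit 425) (nat_lit 158))))) (XT.nd (nat_lit 52260) (nat_lit 0) (nat_lit 3040) (XT.nd (nat_lit 156) (nat_lit 304) (nat_lit 0) (XT.nd (nat_lit 78) (nat_lit 304) (nat_lit 0) (XT.lf (nat_lit 0) (nat_lit 556577308623) (nat_lit 380) (nat_lit 917897203066) (nat_lit 76) (nat_lit 3355691589720) (nat_lit 261) (nat_lit 5) (nat_lit 266) (nat_lit 5) (nat_lit 262)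 (nat_lit 5) (nat_lit 438) (nat_lit 425) (nat_lit 157)) (XT.lf (nat_lit 0) (nat_lit 1841286820240) (nat_lit 380) (nat_lit 1395547289668) (nat_lit 76) (nat_lit 1813252534831) (nat_lit 257) (nat_lit 5) (nat_lit 262) (nat_lit 5) (nat_lit 258) (nat_lit 5) (nat_lit 439) (nat_lit 425) (nat_lit 156))) (XT.nd (nat_lit 52026) (nat_lit 0) (nat_lit 2964) (XT.lf (nat_lit 0) (nat_lit 3324891249500) (nat_lit 380) (nat_lit 1861245711549) (nat_lit 76) (nat_lit 96657962650) (nat_lit 253) (nat_lit 5) (nat_lit 258) (nat_lit 5) (nat_lit 254) (nat_lit 5) (nat_lit 440) (nat_lit 425) (nat_lit 155)) (XT.lf (nat_lit 0) (nat_lit 714517279549) (nat_lit 836) (nat_lit 402432158514) (nat_lit 836) (nat_lit 402432158514) (nat_lit 292) (nat_lit 3) (nat_lit 303) (nat_lit 3) (nat_lit 303) (nat_lit 5) (nat_lit 426) (nat_lit 426) (nat_lit 168)))) (XT.nd (nat_lit 156) (nat_lit 0) (nat_lit 76) (XT.nd (nat_lit 78) (nat_lit 0) (nat_lit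 0) (XT.lf (nat_lit 0) (nat_lit 1515039103627) (nat_lit 760) (nat_lit 1481703322272) (nat_lit 836) (nat_lit 162129136874) (nat_lit 293) (nat_lit 5) (nat_lit 303) (nat_lit 5) (nat_lit 304) (nat_lit 5) (nat_lit 427) (nat_lit 426) (nat_lit 167)) (XT.lf (nat_lit 76) (nat_lit 1095791987620) (nat_lit 0) (nat_lit 581158079349) (nat_lit 836) (nat_lit 1608187232228) (nat_lit 294) (nat_lit 5) (nat_lit 293) (nat_lit 5) (nat_lit 304) (nat_lit 5) (nat_lit 428) (nat_lit 426) (nat_lit 166))) (XT.nd (nat_lit 78) (nat_lit 0) (nat_lit 76) (XT.lf (nat_lit 76) (nat_lit 495977902626) (nat_lit 0) (nat_lit 1421470702953) (nat_lit 836) (nat_lit 1500773954048) (nat_lit 295) (nat_lit 5) (nat_lit 294) (nat_lit 5) (nat_lit 305) (nat_lit 5) (nat_lit 429) (nat_lit 426) (nat_lit 165)) (XT.lf (nat_lit 0) (nat_lit 2244313023609) (nat_lit 760) (nat_lit 114729018090) (nat_lit 836) (nat_lit 1199556299374) (nat_lit 295) (nat_lit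 5) (nat_lit 305) (nat_lit 5) (nat_lit 306) (nat_lit 5) (nat_lit 430) (nat_lit 426) (nat_lit 164)))))) (XT.nd (nat_lit 624) (nat_lit 380) (nat_lit 0) (XT.nd (nat_lit 312) (nat_lit 1064) (nat_lit 0) (XT.nd (nat_lit 156) (nat_lit 1216) (nat_lit 0) (XT.nd (nat_lit 78) (nat_lit 0) (nat_lit 0) (XT.lf (nat_lit 0) (nat_lit 2672976909478) (nat_lit 760) (nat_lit 722597235518) (nat_lit 836) (nat_lit 310847524320) (nat_lit 296) (nat_lit 5) (nat_lit 306) (nat_lit 5) (nat_lit 307) (nat_lit 5) (nat_lit 431) (nat_lit 426) (nat_lit 163)) (XT.lf (nat_lit 76) (nat_lit 2508877382877) (nat_lit 0) (nat_lit 708036155530) (nat_lit 836) (nat_lit 645108343801) (nat_lit 297) (nat_lit 5) (nat_lit 296) (nat_lit 5) (nat_lit 307) (nat_lit 5) (nat_lit 432) (nat_lit 426) (nat_lit 162))) (XT.nd (nat_lit 78) (nat_lit 532) (nat_lit 0) (XT.lf (nat_lit 0) (nat_lit 2025595932590) (nat_lit 760) (nat_lit 1857450289518) (nat_lit 836)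 (nat_lit 143089833801) (nat_lit 287) (nat_lit 5) (nat_lit 297) (nat_lit 5) (nat_lit 298) (nat_lit 5) (nat_lit 433) (nat_lit 426) (nat_lit 161)) (XT.lf (nat_lit 0) (nat_lit 463700698321) (nat_lit 532) (nat_lit 2665451859054) (nat_lit 76) (nat_lit 1070046064405) (nat_lit 280) (nat_lit 5) (nat_lit 287) (nat_lit 5) (nat_lit 281) (nat_lit 5) (nat_lit 434) (nat_lit 426) (nat_lit 160)))) (XT.nd (nat_lit 156) (nat_lit 304) (nat_lit 0) (XT.nd (nat_lit 78) (nat_lit 380) (nat_lit 0) (XT.lf (nat_lit 0) (nat_lit 1036729222564) (nat_lit 380) (nat_lit 160284752383) (nat_lit 456) (nat_lit 3184825297590) (nat_lit 275) (nat_lit 5) (nat_lit 280) (nat_lit 5) (nat_lit 281) (nat_lit 5) (nat_lit 435) (nat_lit 426) (nat_lit 159)) (XT.lf (nat_lit 0) (nat_lit 521881846441) (nat_lit 380) (nat_lit 1570008151731) (nat_lit 456) (nat_lit 2482056292961) (nat_lit 270) (nat_lit 5) (nat_lit 275) (nat_lit 5) (nat_lit 276) (nat_lit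 5) (nat_lit 436) (nat_lit 426) (nat_lit 158))) (XT.nd (nat_lit 78) (nat_lit 0) (nat_lit 0) (XT.lf (nat_lit 0) (nat_lit 10377336079) (nat_lit 304) (nat_lit 3135542754709) (nat_lit 380) (nat_lit 1631123581049) (nat_lit 266) (nat_lit 5) (nat_lit 270) (nat_lit 5) (nat_lit 271) (nat_lit 5) (nat_lit 437) (nat_lit 426) (nat_lit 157)) (XT.lf (nat_lit 0) (nat_lit 4382999342405) (nat_lit 380) (nat_lit 478489656524) (nat_lit 76) (nat_lit 129963506491) (nat_lit 266) (nat_lit 5) (nat_lit 271) (nat_lit 5) (nat_lit 267) (nat_lit 5) (nat_lit 438) (nat_lit 426) (nat_lit 156))))) (XT.nd (nat_lit 52416) (nat_lit 0) (nat_lit 1976) (XT.nd (nat_lit 52260) (nat_lit 0) (nat_lit 2432) (XT.nd (nat_lit 52182) (nat_lit 0) (nat_lit 2356) (XT.lf (nat_lit 0) (nat_lit 601103504121) (nat_lit 380) (nat_lit 991328966177) (nat_lit 76) (nat_lit 3624146918683) (nat_lit 261) (nat_lit 5) (nat_lit 266) (nat_lit 5) (nat_lit 262) (nat_lit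 5) (nat_lit 439) (nat_lit 426) (nat_lit 155)) (XT.lf (nat_lit 0) (nat_lit 771678672615) (nat_lit 836) (nat_lit 434626725576) (nat_lit 836) (nat_lit 434626725576) (nat_lit 292) (nat_lit 3) (nat_lit 303) (nat_lit 3) (nat_lit 303) (nat_lit 5) (nat_lit 427) (nat_lit 427) (nat_lit 166))) (XT.nd (nat_lit 78) (nat_lit 0) (nat_lit 0) (XT.lf (nat_lit 0) (nat_lit 1636242251759) (nat_lit 760) (nat_lit 1600239576162) (nat_lit 836) (nat_lit 175099458882) (nat_lit 293) (nat_lit 5) (nat_lit 303) (nat_lit 5) (nat_lit 304) (nat_lit 5) (nat_lit 428) (nat_lit 427) (nat_lit 165)) (XT.lf (nat_lit 76) (nat_lit 1183455358005) (nat_lit 0) (nat_lit 627650732872) (nat_lit 836) (nat_lit 1736842191330) (nat_lit 294) (nat_lit 5) (nat_lit 293) (nat_lit 5) (nat_lit 304) (nat_lit 5) (nat_lit 429) (nat_lit 427) (nat_lit 164)))) (XT.nd (nat_lit 156) (nat_lit 532) (nat_lit 0) (XT.nd (nat_lit 78) (nat_lit 0) (nat_lit 76) (XT.lf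 (nat_lit 76) (nat_lit 535656146711) (nat_lit 0) (nat_lit 1535188364571) (nat_lit 836) (nat_lit 1620835852251) (nat_lit 295) (nat_lit 5) (nat_lit 294) (nat_lit 5) (nat_lit 305) (nat_lit 5) (nat_lit 430) (nat_lit 427) (nat_lit 163)) (XT.lf (nat_lit 0) (nat_lit 2423858081399) (nat_lit 760) (nat_lit 123907327665) (nat_lit 836) (nat_lit 1295520798500) (nat_lit 295) (nat_lit 5) (nat_lit 305) (nat_lit 5) (nat_lit 306) (nat_lit 5) (nat_lit 431) (nat_lit 427) (nat_lit 162))) (XT.nd (nat_lit 78) (nat_lit 684) (nat_lit 0) (XT.lf (nat_lit 0) (nat_lit 2886815077082) (nat_lit 760) (nat_lit 780405002202) (nat_lit 836) (nat_lit 335715322834) (nat_lit 296) (nat_lit 5) (nat_lit 306) (nat_lit 5) (nat_lit 307) (nat_lit 5) (nat_lit 432) (nat_lit 427) (nat_lit 161)) (XT.nd (nat_lit 78) (nat_lit 684) (nat_lit 0) (XT.lf (nat_lit 76) (nat_lit 2709587585136) (nat_lit 0) (nat_lit 764679050271) (nat_lit 836) (nat_lit 696716996682)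 (nat_lit 297) (nat_lit 5) (nat_lit 296) (nat_lit 5) (nat_lit 307) (nat_lit 5) (nat_lit 433) (nat_lit 427) (nat_lit 160)) (XT.lf (nat_lit 0) (nat_lit 2187643619020) (nat_lit 760) (nat_lit 2006046313903) (nat_lit 836) (nat_lit 154537006806) (nat_lit 287) (nat_lit 5) (nat_lit 297) (nat_lit 5) (nat_lit 298) (nat_lit 5) (nat_lit 434) (nat_lit 427) (nat_lit 159))))))))
noncomputable def xc254 : XT := (XT.nd (nat_lit 53430) (nat_lit 0) (nat_lit 0) (XT.nd (nat_lit 52806) (nat_lit 0) (nat_lit 304) (XT.nd (nat_lit 312) (nat_lit 0) (nat_lit 0) (XT.nd (nat_lit 156) (nat_lit 684) (nat_lit 0) (XT.nd (nat_lit 78) (nat_lit 380) (nat_lit 0) (XT.lf (nat_lit 0) (nat_lit 500796766637) (nat_lit 532) (nat_lit 2878687995415) (nat_lit 76) (nat_lit 1155649748848) (nat_lit 280) (nat_lit 5) (nat_lit 287) (nat_lit 5) (nat_lit 281) (nat_lit 5) (nat_lit 435) (nat_lit 427) (nat_lit 158)) (XT.lf (nat_lit 0) (nat_lit 1119667572196)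 (nat_lit 380) (nat_lit 173107532460) (nat_lit 456) (nat_lit 3439611309099) (nat_lit 275) (nat_lit 5) (nat_lit 280) (nat_lit 5) (nat_lit 281) (nat_lit 5) (nat_lit 436) (nat_lit 427) (nat_lit 157))) (XT.nd (nat_lit 78) (nat_lit 304) (nat_lit 0) (XT.lf (nat_lit 0) (nat_lit 563632406027) (nat_lit 380) (nat_lit 1695608803031) (nat_lit 456) (nat_lit 2680620784814) (nat_lit 270) (nat_lit 5) (nat_lit 275) (nat_lit 5) (nat_lit 276) (nat_lit 5) (nat_lit 437) (nat_lit 427) (nat_lit 156)) (XT.lf (nat_lit 0) (nat_lit 11207534836) (nat_lit 304) (nat_lit 3386386173628) (nat_lit 380) (nat_lit 1761613456600) (nat_lit 266) (nat_lit 5) (nat_lit 270) (nat_lit 5) (nat_lit 271) (nat_lit 5) (nat_lit 438) (nat_lit 427) (nat_lit 155)))) (XT.nd (nat_lit 52338) (nat_lit 0) (nat_lit 2052) (XT.nd (nat_lit 52260) (nat_lit 0) (nat_lit 1976) (XT.lf (nat_lit 0) (nat_lit 4733639299459) (nat_lit 380) (nat_lit 516768817595) (nat_lit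 76) (nat_lit 140360588317) (nat_lit 266) (nat_lit 5) (nat_lit 271) (nat_lit 5) (nat_lit 267) (nat_lit 5) (nat_lit 439) (nat_lit 427) (nat_lit 154)) (XT.lf (nat_lit 0) (nat_lit 833412975600) (nat_lit 836) (nat_lit 469396858806) (nat_lit 836) (nat_lit 469396858806) (nat_lit 292) (nat_lit 3) (nat_lit 303) (nat_lit 3) (nat_lit 303) (nat_lit 5) (nat_lit 428) (nat_lit 428) (nat_lit 164))) (XT.nd (nat_lit 78) (nat_lit 0) (nat_lit 0) (XT.lf (nat_lit 0) (nat_lit 1767141648910) (nat_lit 760) (nat_lit 1728258732059) (nat_lit 836) (nat_lit 189107407927) (nat_lit 293) (nat_lit 5) (nat_lit 303) (nat_lit 5) (nat_lit 304) (nat_lit 5) (nat_lit 429) (nat_lit 428) (nat_lit 163)) (XT.lf (nat_lit 76) (nat_lit 1278131796398) (nat_lit 0) (nat_lit 677862797652) (nat_lit 836) (nat_lit 1875789549937) (nat_lit 294) (nat_lit 5) (nat_lit 293) (nat_lit 5) (nat_lit 304) (nat_lit 5) (nat_lit 430) (nat_lit 428) (nat_lit 162)))))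 (XT.nd (nat_lit 312) (nat_lit 1824) (nat_lit 0) (XT.nd (nat_lit 156) (nat_lit 0) (nat_lit 152) (XT.nd (nat_lit 78) (nat_lit 0) (nat_lit 76) (XT.lf (nat_lit 76) (nat_lit 578508648629) (nat_lit 0) (nat_lit 1658003438351) (nat_lit 836) (nat_lit 1750502704897) (nat_lit 295) (nat_lit 5) (nat_lit 294) (nat_lit 5) (nat_lit 305) (nat_lit 5) (nat_lit 431) (nat_lit 428) (nat_lit 161)) (XT.lf (nat_lit 0) (nat_lit 2617766741543) (nat_lit 760) (nat_lit 133819903700) (nat_lit 836) (nat_lit 1399162458245) (nat_lit 295) (nat_lit 5) (nat_lit 305) (nat_lit 5) (nat_lit 306) (nat_lit 5) (nat_lit 432) (nat_lit 428) (nat_lit 160))) (XT.nd (nat_lit 78) (nat_lit 0) (nat_lit 0) (XT.lf (nat_lit 0) (nat_lit 3117760295976) (nat_lit 760) (nat_lit 842837391956) (nat_lit 836) (nat_lit 362572545720) (nat_lit 296) (nat_lit 5) (nat_lit 306) (nat_lit 5) (nat_lit 307) (nat_lit 5) (nat_lit 433) (nat_lit 428) (nat_lit 159)) (XT.lf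 (nat_lit 76) (nat_lit 2926354601916) (nat_lit 0) (nat_lit 825853376264) (nat_lit 836) (nat_lit 752454343879) (nat_lit 297) (nat_lit 5) (nat_lit 296) (nat_lit 5) (nat_lit 307) (nat_lit 5) (nat_lit 434) (nat_lit 428) (nat_lit 158)))) (XT.nd (nat_lit 156) (nat_lit 760) (nat_lit 0) (XT.nd (nat_lit 78) (nat_lit 532) (nat_lit 0) (XT.lf (nat_lit 0) (nat_lit 2362655118679) (nat_lit 760) (nat_lit 2166530020065) (nat_lit 836) (nat_lit 166899955605) (nat_lit 287) (nat_lit 5) (nat_lit 297) (nat_lit 5) (nat_lit 298) (nat_lit 5) (nat_lit 435) (nat_lit 428) (nat_lit 157)) (XT.lf (nat_lit 0) (nat_lit 540860518642) (nat_lit 532) (nat_lit 3108983024449) (nat_lit 76) (nat_lit 1248101728148) (nat_lit 280) (nat_lit 5) (nat_lit 287) (nat_lit 5) (nat_lit 281) (nat_lit 5) (nat_lit 436) (nat_lit 428) (nat_lit 156))) (XT.nd (nat_lit 78) (nat_lit 380) (nat_lit 0) (XT.lf (nat_lit 0) (nat_lit 1209240988111) (nat_lit 380)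 (nat_lit 186956134960) (nat_lit 456) (nat_lit 3714780203283) (nat_lit 275) (nat_lit 5) (nat_lit 280) (nat_lit 5) (nat_lit 281) (nat_lit 5) (nat_lit 437) (nat_lit 428) (nat_lit 155)) (XT.lf (nat_lit 0) (nat_lit 608723008686) (nat_lit 380) (nat_lit 1831257506554) (nat_lit 456) (nat_lit 2895070437668) (nat_lit 270) (nat_lit 5) (nat_lit 275) (nat_lit 5) (nat_lit 276) (nat_lit 5) (nat_lit 438) (nat_lit 428) (nat_lit 154)))))) (XT.nd (nat_lit 52884) (nat_lit 0) (nat_lit 304) (XT.nd (nat_lit 52572) (nat_lit 0) (nat_lit 2128) (XT.nd (nat_lit 52416) (nat_lit 0) (nat_lit 2052) (XT.nd (nat_lit 52338) (nat_lit 0) (nat_lit 1976) (XT.lf (nat_lit 0) (nat_lit 12104147799) (nat_lit 304) (nat_lit 3657297066269) (nat_lit 380) (nat_lit 1902542523755) (nat_lit 266) (nat_lit 5) (nat_lit 270) (nat_lit 5) (nat_lit 271) (nat_lit 5) (nat_lit 439) (nat_lit 428) (nat_lit 153)) (XT.lf (nat_lit 0) (nat_lit 900086021514) (nat_lit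 836) (nat_lit 506948603380) (nat_lit 836) (nat_lit 506948603380) (nat_lit 292) (nat_lit 3) (nat_lit 303) (nat_lit 3) (nat_lit 303) (nat_lit 5) (nat_lit 429) (nat_lit 429) (nat_lit 162))) (XT.nd (nat_lit 78) (nat_lit 0) (nat_lit 0) (XT.lf (nat_lit 0) (nat_lit 1908512995408) (nat_lit 760) (nat_lit 1866519421883) (nat_lit 836) (nat_lit 204235993989) (nat_lit 293) (nat_lit 5) (nat_lit 303) (nat_lit 5) (nat_lit 304) (nat_lit 5) (nat_lit 430) (nat_lit 429) (nat_lit 161)) (XT.lf (nat_lit 76) (nat_lit 1380382348471) (nat_lit 0) (nat_lit 732091826738) (nat_lit 836) (nat_lit 2025852699616) (nat_lit 294) (nat_lit 5) (nat_lit 293) (nat_lit 5) (nat_lit 304) (nat_lit 5) (nat_lit 431) (nat_lit 429) (nat_lit 160)))) (XT.nd (nat_lit 156) (nat_lit 0) (nat_lit 152) (XT.nd (nat_lit 78) (nat_lit 0) (nat_lit 76) (XT.lf (nat_lit 76) (nat_lit 624789349248) (nat_lit 0) (nat_lit 1790643717375) (nat_lit 836) (nat_lit 1890542907970)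 (nat_lit 295) (nat_lit 5) (nat_lit 294) (nat_lit 5) (nat_lit 305) (nat_lit 5) (nat_lit 432) (nat_lit 429) (nat_lit 159)) (XT.lf (nat_lit 0) (nat_lit 2827188092555) (nat_lit 760) (nat_lit 144525487269) (nat_lit 836) (nat_lit 1511095451359) (nat_lit 295) (nat_lit 5) (nat_lit 305) (nat_lit 5) (nat_lit 306) (nat_lit 5) (nat_lit 433) (nat_lit 429) (nat_lit 158))) (XT.nd (nat_lit 78) (nat_lit 0) (nat_lit 0) (XT.lf (nat_lit 0) (nat_lit 3367181130566) (nat_lit 760) (nat_lit 910264374377) (nat_lit 836) (nat_lit 391578346856) (nat_lit 296) (nat_lit 5) (nat_lit 306) (nat_lit 5) (nat_lit 307) (nat_lit 5) (nat_lit 434) (nat_lit 429) (nat_lit 157)) (XT.lf (nat_lit 76) (nat_lit 3160462978617) (nat_lit 0) (nat_lit 891921648054) (nat_lit 836) (nat_lit 812650680641) (nat_lit 297) (nat_lit 5) (nat_lit 296) (nat_lit 5) (nat_lit 307) (nat_lit 5) (nat_lit 435) (nat_lit 429) (nat_lit 156))))) (XT.nd (nat_lit 52650)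 (nat_lit 0) (nat_lit 1672) (XT.nd (nat_lit 156) (nat_lit 760) (nat_lit 0) (XT.nd (nat_lit 78) (nat_lit 532) (nat_lit 0) (XT.lf (nat_lit 0) (nat_lit 2551667536864) (nat_lit 760) (nat_lit 2339852422569) (nat_lit 836) (nat_lit 180251941984) (nat_lit 287) (nat_lit 5) (nat_lit 297) (nat_lit 5) (nat_lit 298) (nat_lit 5) (nat_lit 436) (nat_lit 429) (nat_lit 155)) (XT.lf (nat_lit 0) (nat_lit 584129369285) (nat_lit 532) (nat_lit 3357701657317) (nat_lit 76) (nat_lit 1347949865879) (nat_lit 280) (nat_lit 5) (nat_lit 287) (nat_lit 5) (nat_lit 281) (nat_lit 5) (nat_lit 437) (nat_lit 429) (nat_lit 154))) (XT.nd (nat_lit 78) (nat_lit 380) (nat_lit 0) (XT.lf (nat_lit 0) (nat_lit 1305980275852) (nat_lit 380) (nat_lit 201912625673) (nat_lit 456) (nat_lit 4011962610506) (nat_lit 275) (nat_lit 5) (nat_lit 280) (nat_lit 5) (nat_lit 281) (nat_lit 5) (nat_lit 438) (nat_lit 429) (nat_lit 153)) (XT.lf (nat_lit 0) (nat_lit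 657420858107) (nat_lit 380) (nat_lit 1977758106462) (nat_lit 456) (nat_lit 3126676064167) (nat_lit 270) (nat_lit 5) (nat_lit 275) (nat_lit 5) (nat_lit 276) (nat_lit 5) (nat_lit 439) (nat_lit 429) (nat_lit 152)))) (XT.nd (nat_lit 156) (nat_lit 0) (nat_lit 76) (XT.nd (nat_lit 78) (nat_lit 0) (nat_lit 76) (XT.lf (nat_lit 0) (nat_lit 972092909979) (nat_lit 836) (nat_lit 547504488110) (nat_lit 836) (nat_lit 547504488110) (nat_lit 292) (nat_lit 3) (nat_lit 303) (nat_lit 3) (nat_lit 303) (nat_lit 5) (nat_lit 430) (nat_lit 430) (nat_lit 160)) (XT.lf (nat_lit 0) (nat_lit 2061194047544) (nat_lit 760) (nat_lit 2015840968140) (nat_lit 836) (nat_lit 220574867873) (nat_lit 293) (nat_lit 5) (nat_lit 303) (nat_lit 5) (nat_lit 304) (nat_lit 5) (nat_lit 431) (nat_lit 430) (nat_lit 159))) (XT.nd (nat_lit 78) (nat_lit 0) (nat_lit 76) (XT.lf (nat_lit 76) (nat_lit 1490812943517) (nat_lit 0) (nat_lit 790659177398)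 (nat_lit 836) (nat_lit 2187920903312) (nat_lit 294) (nat_lit 5) (nat_lit 293) (nat_lit 5) (nat_lit 304) (nat_lit 5) (nat_lit 432) (nat_lit 430) (nat_lit 158)) (XT.nd (nat_lit 78) (nat_lit 0) (nat_lit 76) (XT.lf (nat_lit 76) (nat_lit 674772504671) (nat_lit 0) (nat_lit 1933895218157) (nat_lit 836) (nat_lit 2041786329188) (nat_lit 295) (nat_lit 5) (nat_lit 294) (nat_lit 5) (nat_lit 305) (nat_lit 5) (nat_lit 433) (nat_lit 430) (nat_lit 157)) (XT.lf (nat_lit 0) (nat_lit 3053363149980) (nat_lit 760) (nat_lit 156087518769) (nat_lit 836) (nat_lit 1631983084427) (nat_lit 295) (nat_lit 5) (nat_lit 305) (nat_lit 5) (nat_lit 306) (nat_lit 5) (nat_lit 434) (nat_lit 430) (nat_lit 156))))))))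
noncomputable def xc255 : XT := (XT.nd (nat_lit 106236) (nat_lit 0) (nat_lit 1292) (XT.nd (nat_lit 53040) (nat_lit 0) (nat_lit 912) (XT.nd (nat_lit 312) (nat_lit 380) (nat_lit 0) (XT.nd (nat_lit 156) (nat_lit 1216) (nat_lit 0) (XT.nd (nat_lit 78) (nat_lit 0) (nat_lit 0) (XT.lf (nat_lit 0) (nat_lit 3636555630366) (nat_lit 760) (nat_lit 983085516667) (nat_lit 836) (nat_lit 422904612442) (nat_lit 296) (nat_lit 5) (nat_lit 306) (nat_lit 5) (nat_lit 307) (nat_lit 5) (nat_lit 435) (nat_lit 430) (nat_lit 155)) (XT.lf (nat_lit 76) (nat_lit 3413300024234) (nat_lit 0) (nat_lit 963275381347) (nat_lit 836) (nat_lit 877662725877) (nat_lit 297) (nat_lit 5) (nat_lit 296) (nat_lit 5) (nat_lit 307) (nat_lit 5) (nat_lit 436) (nat_lit 430) (nat_lit 154))) (XT.nd (nat_lit 78) (nat_lit 532) (nat_lit 0) (XT.lf (nat_lit 0) (nat_lit 2755800947264) (nat_lit 760) (nat_lit 2527040617145) (nat_lit 836) (nat_lit 194672088710)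 (nat_lit 287) (nat_lit 5) (nat_lit 297) (nat_lit 5) (nat_lit 298) (nat_lit 5) (nat_lit 437) (nat_lit 430) (nat_lit 153)) (XT.lf (nat_lit 0) (nat_lit 630859726673) (nat_lit 532) (nat_lit 3626317782111) (nat_lit 76) (nat_lit 1455785854702) (nat_lit 280) (nat_lit 5) (nat_lit 287) (nat_lit 5) (nat_lit 281) (nat_lit 5) (nat_lit 438) (nat_lit 430) (nat_lit 152)))) (XT.nd (nat_lit 52572) (nat_lit 0) (nat_lit 1368) (XT.nd (nat_lit 52494) (nat_lit 0) (nat_lit 1292) (XT.lf (nat_lit 0) (nat_lit 1410458705373) (nat_lit 380) (nat_lit 218065635655) (nat_lit 456) (nat_lit 4332919611597) (nat_lit 275) (nat_lit 5) (nat_lit 280) (nat_lit 5) (nat_lit 281) (nat_lit 5) (nat_lit 439) (nat_lit 430) (nat_lit 151)) (XT.lf (nat_lit 0) (nat_lit 1049860348559) (nat_lit 836) (nat_lit 591304844124) (nat_lit 836) (nat_lit 591304844124) (nat_lit 292) (nat_lit 3) (nat_lit 303) (nat_lit 3) (nat_lit 303) (nat_lit 5) (nat_lit 431)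 (nat_lit 431) (nat_lit 158))) (XT.nd (nat_lit 78) (nat_lit 0) (nat_lit 0) (XT.lf (nat_lit 0) (nat_lit 2226089582067) (nat_lit 760) (nat_lit 2177108239166) (nat_lit 836) (nat_lit 238220852472) (nat_lit 293) (nat_lit 5) (nat_lit 303) (nat_lit 5) (nat_lit 304) (nat_lit 5) (nat_lit 432) (nat_lit 431) (nat_lit 157)) (XT.lf (nat_lit 76) (nat_lit 1610077985144) (nat_lit 0) (nat_lit 853911915466) (nat_lit 836) (nat_lit 2362954565054) (nat_lit 294) (nat_lit 5) (nat_lit 293) (nat_lit 5) (nat_lit 304) (nat_lit 5) (nat_lit 433) (nat_lit 431) (nat_lit 156))))) (XT.nd (nat_lit 312) (nat_lit 532) (nat_lit 0) (XT.nd (nat_lit 156) (nat_lit 0) (nat_lit 152) (XT.nd (nat_lit 78) (nat_lit 0) (nat_lit 76) (XT.lf (nat_lit 76) (nat_lit 728754311461) (nat_lit 0) (nat_lit 2088606838517) (nat_lit 836) (nat_lit 2205129225734) (nat_lit 295) (nat_lit 5) (nat_lit 294) (nat_lit 5) (nat_lit 305) (nat_lit 5) (nat_lit 434) (nat_lit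 431) (nat_lit 155)) (XT.lf (nat_lit 0) (nat_lit 3297632210569) (nat_lit 760) (nat_lit 168574513856) (nat_lit 836) (nat_lit 1762541728576) (nat_lit 295) (nat_lit 5) (nat_lit 305) (nat_lit 5) (nat_lit 306) (nat_lit 5) (nat_lit 435) (nat_lit 431) (nat_lit 154))) (XT.nd (nat_lit 78) (nat_lit 0) (nat_lit 0) (XT.lf (nat_lit 0) (nat_lit 3927480088816) (nat_lit 760) (nat_lit 1061732351432) (nat_lit 836) (nat_lit 456736979584) (nat_lit 296) (nat_lit 5) (nat_lit 306) (nat_lit 5) (nat_lit 307) (nat_lit 5) (nat_lit 436) (nat_lit 431) (nat_lit 153)) (XT.lf (nat_lit 76) (nat_lit 3686364032455) (nat_lit 0) (nat_lit 1040337413097) (nat_lit 836) (nat_lit 947875736046) (nat_lit 297) (nat_lit 5) (nat_lit 296) (nat_lit 5) (nat_lit 307) (nat_lit 5) (nat_lit 437) (nat_lit 431) (nat_lit 152)))) (XT.nd (nat_lit 52728) (nat_lit 0) (nat_lit 456) (XT.nd (nat_lit 52650) (nat_lit 0) (nat_lit 380) (XT.lf (nat_lit 0) (nat_lit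 2976265029433) (nat_lit 760) (nat_lit 2729203867178) (nat_lit 836) (nat_lit 210245848406) (nat_lit 287) (nat_lit 5) (nat_lit 297) (nat_lit 5) (nat_lit 298) (nat_lit 5) (nat_lit 438) (nat_lit 431) (nat_lit 151)) (XT.lf (nat_lit 0) (nat_lit 1133849181401) (nat_lit 836) (nat_lit 638609229051) (nat_lit 836) (nat_lit 638609229051) (nat_lit 292) (nat_lit 3) (nat_lit 303) (nat_lit 3) (nat_lit 303) (nat_lit 5) (nat_lit 432) (nat_lit 432) (nat_lit 156))) (XT.nd (nat_lit 78) (nat_lit 0) (nat_lit 0) (XT.lf (nat_lit 0) (nat_lit 2404176757823) (nat_lit 760) (nat_lit 2351276892791) (nat_lit 836) (nat_lit 257278516528) (nat_lit 293) (nat_lit 5) (nat_lit 303) (nat_lit 5) (nat_lit 304) (nat_lit 5) (nat_lit 433) (nat_lit 432) (nat_lit 155)) (XT.lf (nat_lit 76) (nat_lit 1738884229224) (nat_lit 0) (nat_lit 922224872026) (nat_lit 836) (nat_lit 2551990921237) (nat_lit 294) (nat_lit 5) (nat_lit 293) (nat_lit 5) (nat_lit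 304) (nat_lit 5) (nat_lit 434) (nat_lit 432) (nat_lit 154)))))) (XT.nd (nat_lit 53274) (nat_lit 0) (nat_lit 0) (XT.nd (nat_lit 52962) (nat_lit 152) (nat_lit 0) (XT.nd (nat_lit 156) (nat_lit 0) (nat_lit 152) (XT.nd (nat_lit 78) (nat_lit 0) (nat_lit 76) (XT.lf (nat_lit 76) (nat_lit 787054661878) (nat_lit 0) (nat_lit 2255695388092) (nat_lit 836) (nat_lit 2381539555400) (nat_lit 295) (nat_lit 5) (nat_lit 294) (nat_lit 5) (nat_lit 305) (nat_lit 5) (nat_lit 435) (nat_lit 432) (nat_lit 153)) (XT.lf (nat_lit 0) (nat_lit 3561442794780) (nat_lit 760) (nat_lit 182060469466) (nat_lit 836) (nat_lit 1903545064627) (nat_lit 295) (nat_lit 5) (nat_lit 305) (nat_lit 5) (nat_lit 306) (nat_lit 5) (nat_lit 436) (nat_lit 432) (nat_lit 152))) (XT.nd (nat_lit 78) (nat_lit 0) (nat_lit 0) (XT.lf (nat_lit 0) (nat_lit 4241678502797) (nat_lit 760) (nat_lit 1146670933916) (nat_lit 836) (nat_lit 493275936362) (nat_lit 296)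 (nat_lit 5) (nat_lit 306) (nat_lit 5) (nat_lit 307) (nat_lit 5) (nat_lit 437) (nat_lit 432) (nat_lit 151)) (XT.lf (nat_lit 76) (nat_lit 3981273160438) (nat_lit 0) (nat_lit 1123564407209) (nat_lit 836) (nat_lit 1023705788156) (nat_lit 297) (nat_lit 5) (nat_lit 296) (nat_lit 5) (nat_lit 307) (nat_lit 5) (nat_lit 438) (nat_lit 432) (nat_lit 150)))) (XT.nd (nat_lit 156) (nat_lit 0) (nat_lit 76) (XT.nd (nat_lit 78) (nat_lit 0) (nat_lit 76) (XT.lf (nat_lit 0) (nat_lit 1224557120163) (nat_lit 836) (nat_lit 689697965144) (nat_lit 836) (nat_lit 689697965144) (nat_lit 292) (nat_lit 3) (nat_lit 303) (nat_lit 3) (nat_lit 303) (nat_lit 5) (nat_lit 433) (nat_lit 433) (nat_lit 154)) (XT.lf (nat_lit 0) (nat_lit 2596510906328) (nat_lit 760) (nat_lit 2539379039492) (nat_lit 836) (nat_lit 277860794299) (nat_lit 293) (nat_lit 5) (nat_lit 303) (nat_lit 5) (nat_lit 304) (nat_lit 5) (nat_lit 434) (nat_lit 433) (nat_lit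 153))) (XT.nd (nat_lit 78) (nat_lit 0) (nat_lit 76) (XT.lf (nat_lit 76) (nat_lit 1877994972080) (nat_lit 0) (nat_lit 996002864637) (nat_lit 836) (nat_lit 2756150187201) (nat_lit 294) (nat_lit 5) (nat_lit 293) (nat_lit 5) (nat_lit 304) (nat_lit 5) (nat_lit 435) (nat_lit 433) (nat_lit 152)) (XT.lf (nat_lit 76) (nat_lit 850019039544) (nat_lit 0) (nat_lit 2436151021276) (nat_lit 836) (nat_lit 2572062712636) (nat_lit 295) (nat_lit 5) (nat_lit 294) (nat_lit 5) (nat_lit 305) (nat_lit 5) (nat_lit 436) (nat_lit 433) (nat_lit 151))))) (XT.nd (nat_lit 53040) (nat_lit 0) (nat_lit 76) (XT.nd (nat_lit 52884) (nat_lit 228) (nat_lit 0) (XT.nd (nat_lit 78) (nat_lit 0) (nat_lit 76) (XT.lf (nat_lit 0) (nat_lit 3846358224677) (nat_lit 760) (nat_lit 196625302308) (nat_lit 836) (nat_lit 2055828667882) (nat_lit 295) (nat_lit 5) (nat_lit 305) (nat_lit 5) (nat_lit 306) (nat_lit 5) (nat_lit 437) (nat_lit 433) (nat_lit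 150)) (XT.lf (nat_lit 0) (nat_lit 4581012788916) (nat_lit 760) (nat_lit 1238404603802) (nat_lit 836) (nat_lit 532738009908) (nat_lit 296) (nat_lit 5) (nat_lit 306) (nat_lit 5) (nat_lit 307) (nat_lit 5) (nat_lit 438) (nat_lit 433) (nat_lit 149))) (XT.nd (nat_lit 78) (nat_lit 0) (nat_lit 76) (XT.lf (nat_lit 0) (nat_lit 1322521693419) (nat_lit 836) (nat_lit 744873800443) (nat_lit 836) (nat_lit 744873800443) (nat_lit 292) (nat_lit 3) (nat_lit 303) (nat_lit 3) (nat_lit 303) (nat_lit 5) (nat_lit 434) (nat_lit 434) (nat_lit 152)) (XT.lf (nat_lit 0) (nat_lit 2804231785590) (nat_lit 760) (nat_lit 2742529358602) (nat_lit 836) (nat_lit 300089654799) (nat_lit 293) (nat_lit 5) (nat_lit 303) (nat_lit 5) (nat_lit 304) (nat_lit 5) (nat_lit 435) (nat_lit 434) (nat_lit 151)))) (XT.nd (nat_lit 53118) (nat_lit 0) (nat_lit 0) (XT.nd (nat_lit 78) (nat_lit 0) (nat_lit 76) (XT.lf (nat_lit 76) (nat_lit 2028234573719)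 (nat_lit 0) (nat_lit 1075683096251) (nat_lit 836) (nat_lit 2976642195546) (nat_lit 294) (nat_lit 5) (nat_lit 293) (nat_lit 5) (nat_lit 304) (nat_lit 5) (nat_lit 436) (nat_lit 434) (nat_lit 150)) (XT.lf (nat_lit 76) (nat_lit 918020566751) (nat_lit 0) (nat_lit 2631043104811) (nat_lit 836) (nat_lit 2777827723478) (nat_lit 295) (nat_lit 5) (nat_lit 294) (nat_lit 5) (nat_lit 305) (nat_lit 5) (nat_lit 437) (nat_lit 434) (nat_lit 149))) (XT.nd (nat_lit 78) (nat_lit 0) (nat_lit 0) (XT.lf (nat_lit 0) (nat_lit 3028570334229) (nat_lit 760) (nat_lit 2961931703819) (nat_lit 836) (nat_lit 324096824573) (nat_lit 293) (nat_lit 5) (nat_lit 303) (nat_lit 5) (nat_lit 304) (nat_lit 5) (nat_lit 436) (nat_lit 435) (nat_lit 149)) (XT.nd (nat_lit 53118) (nat_lit 0) (nat_lit 0) (XT.lf (nat_lit 76) (nat_lit 2190493342937) (nat_lit 0) (nat_lit 1161737746045) (nat_lit 836) (nat_lit 3214773565505) (nat_lit 294) (nat_lit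 5) (nat_lit 293) (nat_lit 5) (nat_lit 304) (nat_lit 5) (nat_lit 437) (nat_lit 435) (nat_lit 148)) (XT.lf (nat_lit 0) (nat_lit 3270855965933) (nat_lit 760) (nat_lit 3198886237149) (nat_lit 836) (nat_lit 350024568301) (nat_lit 293) (nat_lit 5) (nat_lit 303) (nat_lit 5) (nat_lit 304) (nat_lit 5) (nat_lit 437) (nat_lit 436) (nat_lit 147))))))))
noncomputable def ec0 : XT := (XT.nd (nat_lit 159510) (nat_lit 1596) (nat_lit 0) (XT.nd (nat_lit 106158) (nat_lit 380) (nat_lit 0) (XT.nd (nat_lit 53118) (nat_lit 0) (nat_lit 0) (XT.nd (nat_lit 234) (nat_lit 0) (nat_lit 0) (XT.nd (nat_lit 78) (nat_lit 0) (nat_lit 76) (XT.lf (nat_lit 836) (nat_lit 39250210) (nat_lit 0) (nat_lit 69688658) (nat_lit 836) (nat_lit 39250210) (nat_lit 303) (nat_lit 1) (nat_lit 292) (nat_lit 0) (nat_lit 303) (nat_lit 0) (nat_lit 408) (nat_lit 306) (nat_lit 306)) (XT.nd (nat_lit 78) (nat_lit 0) (nat_lit 0) (XT.lf (nat_lit 836) (nat_lit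 14641532) (nat_lit 0) (nat_lit 136819958) (nat_lit 760) (nat_lit 133809462) (nat_lit 304) (nat_lit 1) (nat_lit 293) (nat_lit 1) (nat_lit 303) (nat_lit 1) (nat_lit 409) (nat_lit 306) (nat_lit 305)) (XT.lf (nat_lit 836) (nat_lit 134474028) (nat_lit 76) (nat_lit 91628372) (nat_lit 0) (nat_lit 48595508) (nat_lit 304) (nat_lit 1) (nat_lit 294) (nat_lit 1) (nat_lit 293) (nat_lit 1) (nat_lit 410) (nat_lit 306) (nat_lit 304)))) (XT.nd (nat_lit 52728) (nat_lit 152) (nat_lit 0) (XT.lf (nat_lit 836) (nat_lit 116196577) (nat_lit 76) (nat_lit 38400815) (nat_lit 0) (nat_lit 110056575) (nat_lit 305) (nat_lit 1) (nat_lit 295) (nat_lit 1) (nat_lit 294) (nat_lit 1) (nat_lit 411) (nat_lit 306) (nat_lit 303)) (XT.nd (nat_lit 78) (nat_lit 0) (nat_lit 76) (XT.lf (nat_lit 836) (nat_lit 42390227) (nat_lit 0) (nat_lit 75263751) (nat_lit 836) (nat_lit 42390227) (nat_lit 303) (nat_lit 1) (nat_lit 292) (nat_lit 0) (nat_lit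 303) (nat_lit 0) (nat_lit 406) (nat_lit 307) (nat_lit 307)) (XT.lf (nat_lit 836) (nat_lit 15812855) (nat_lit 0) (nat_lit 147765555) (nat_lit 760) (nat_lit 144514219) (nat_lit 304) (nat_lit 1) (nat_lit 293) (nat_lit 1) (nat_lit 303) (nat_lit 1) (nat_lit 407) (nat_lit 307) (nat_lit 306))))) (XT.nd (nat_lit 234) (nat_lit 76) (nat_lit 0) (XT.nd (nat_lit 78) (nat_lit 0) (nat_lit 76) (XT.lf (nat_lit 836) (nat_lit 145231951) (nat_lit 76) (nat_lit 98958642) (nat_lit 0) (nat_lit 52483149) (nat_lit 304) (nat_lit 1) (nat_lit 294) (nat_lit 1) (nat_lit 293) (nat_lit 1) (nat_lit 408) (nat_lit 307) (nat_lit 305)) (XT.nd (nat_lit 78) (nat_lit 0) (nat_lit 76) (XT.lf (nat_lit 836) (nat_lit 125492303) (nat_lit 76) (nat_lit 41472880) (nat_lit 0) (nat_lit 118861101) (nat_lit 305) (nat_lit 1) (nat_lit 295) (nat_lit 1) (nat_lit 294) (nat_lit 1) (nat_lit 409) (nat_lit 307) (nat_lit 304)) (XT.lf (nat_lit 836) (nat_lit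 92874973) (nat_lit 0) (nat_lit 173764685) (nat_lit 760) (nat_lit 8882825) (nat_lit 306) (nat_lit 1) (nat_lit 295) (nat_lit 1) (nat_lit 305) (nat_lit 1) (nat_lit 410) (nat_lit 307) (nat_lit 303)))) (XT.nd (nat_lit 52650) (nat_lit 0) (nat_lit 76) (XT.nd (nat_lit 52572) (nat_lit 304) (nat_lit 0) (XT.lf (nat_lit 836) (nat_lit 22284439) (nat_lit 0) (nat_lit 191623839) (nat_lit 760) (nat_lit 51802483) (nat_lit 307) (nat_lit 1) (nat_lit 296) (nat_lit 1) (nat_lit 306) (nat_lit 1) (nat_lit 411) (nat_lit 307) (nat_lit 302)) (XT.lf (nat_lit 836) (nat_lit 45781445) (nat_lit 0) (nat_lit 81284851) (nat_lit 836) (nat_lit 45781445) (nat_lit 303) (nat_lit 1) (nat_lit 292) (nat_lit 0) (nat_lit 303) (nat_lit 0) (nat_lit 404) (nat_lit 308) (nat_lit 308))) (XT.nd (nat_lit 78) (nat_lit 0) (nat_lit 0) (XT.lf (nat_lit 836) (nat_lit 17077884) (nat_lit 0) (nat_lit 159586799) (nat_lit 760) (nat_lit 156075356) (nat_lit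 304) (nat_lit 1) (nat_lit 293) (nat_lit 1) (nat_lit 303) (nat_lit 1) (nat_lit 405) (nat_lit 308) (nat_lit 307)) (XT.lf (nat_lit 836) (nat_lit 156850507) (nat_lit 76) (nat_lit 106875333) (nat_lit 0) (nat_lit 56681801) (nat_lit 304) (nat_lit 1) (nat_lit 294) (nat_lit 1) (nat_lit 293) (nat_lit 1) (nat_lit 406) (nat_lit 308) (nat_lit 306)))))) (XT.nd (nat_lit 52806) (nat_lit 0) (nat_lit 0) (XT.nd (nat_lit 234) (nat_lit 532) (nat_lit 0) (XT.nd (nat_lit 78) (nat_lit 0) (nat_lit 76) (XT.lf (nat_lit 836) (nat_lit 135531687) (nat_lit 76) (nat_lit 44790711) (nat_lit 0) (nat_lit 128369989) (nat_lit 305) (nat_lit 1) (nat_lit 295) (nat_lit 1) (nat_lit 294) (nat_lit 1) (nat_lit 407) (nat_lit 308) (nat_lit 305)) (XT.nd (nat_lit 78) (nat_lit 0) (nat_lit 76) (XT.lf (nat_lit 836) (nat_lit 100304971) (nat_lit 0) (nat_lit 187665860) (nat_lit 760) (nat_lit 9593451) (nat_lit 306) (nat_lit 1) (nat_lit 295) (nat_lit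 1) (nat_lit 305) (nat_lit 1) (nat_lit 408) (nat_lit 308) (nat_lit 304)) (XT.lf (nat_lit 836) (nat_lit 24067194) (nat_lit 0) (nat_lit 206953746) (nat_lit 760) (nat_lit 55946682) (nat_lit 307) (nat_lit 1) (nat_lit 296) (nat_lit 1) (nat_lit 306) (nat_lit 1) (nat_lit 409) (nat_lit 308) (nat_lit 303)))) (XT.nd (nat_lit 78) (nat_lit 684) (nat_lit 0) (XT.lf (nat_lit 836) (nat_lit 46247358) (nat_lit 76) (nat_lit 179859658) (nat_lit 0) (nat_lit 50758614) (nat_lit 307) (nat_lit 1) (nat_lit 297) (nat_lit 1) (nat_lit 296) (nat_lit 1) (nat_lit 410) (nat_lit 308) (nat_lit 302)) (XT.nd (nat_lit 52416) (nat_lit 0) (nat_lit 380) (XT.lf (nat_lit 836) (nat_lit 9498152) (nat_lit 0) (nat_lit 134456992) (nat_lit 760) (nat_lit 123295653) (nat_lit 298) (nat_lit 1) (nat_lit 287) (nat_lit 1) (nat_lit 297) (nat_lit 1) (nat_lit 411) (nat_lit 308) (nat_lit 301)) (XT.lf (nat_lit 836) (nat_lit 49443961) (nat_lit 0) (nat_lit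 87787639) (nat_lit 836) (nat_lit 49443961) (nat_lit 303) (nat_lit 1) (nat_lit 292) (nat_lit 0) (nat_lit 303) (nat_lit 0) (nat_lit 402) (nat_lit 309) (nat_lit 309))))) (XT.nd (nat_lit 234) (nat_lit 456) (nat_lit 0) (XT.nd (nat_lit 78) (nat_lit 0) (nat_lit 0) (XT.lf (nat_lit 836) (nat_lit 18444114) (nat_lit 0) (nat_lit 172353743) (nat_lit 760) (nat_lit 168561385) (nat_lit 304) (nat_lit 1) (nat_lit 293) (nat_lit 1) (nat_lit 303) (nat_lit 1) (nat_lit 403) (nat_lit 309) (nat_lit 308)) (XT.nd (nat_lit 78) (nat_lit 0) (nat_lit 76) (XT.lf (nat_lit 836) (nat_lit 169398547) (nat_lit 76) (nat_lit 115425360) (nat_lit 0) (nat_lit 61216345) (nat_lit 304) (nat_lit 1) (nat_lit 294) (nat_lit 1) (nat_lit 293) (nat_lit 1) (nat_lit 404) (nat_lit 309) (nat_lit 307)) (XT.lf (nat_lit 836) (nat_lit 146374222) (nat_lit 76) (nat_lit 48373968) (nat_lit 0) (nat_lit 138639588) (nat_lit 305) (nat_lit 1) (nat_lit 295) (nat_lit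 1) (nat_lit 294) (nat_lit 1) (nat_lit 405) (nat_lit 309) (nat_lit 306)))) (XT.nd (nat_lit 156) (nat_lit 608) (nat_lit 0) (XT.nd (nat_lit 78) (nat_lit 0) (nat_lit 76) (XT.lf (nat_lit 836) (nat_lit 108329369) (nat_lit 0) (nat_lit 202679129) (nat_lit 760) (nat_lit 10360928) (nat_lit 306) (nat_lit 1) (nat_lit 295) (nat_lit 1) (nat_lit 305) (nat_lit 1) (nat_lit 406) (nat_lit 309) (nat_lit 305)) (XT.lf (nat_lit 836) (nat_lit 25992569) (nat_lit 0) (nat_lit 223510046) (nat_lit 760) (nat_lit 60422416) (nat_lit 307) (nat_lit 1) (nat_lit 296) (nat_lit 1) (nat_lit 306) (nat_lit 1) (nat_lit 407) (nat_lit 309) (nat_lit 304))) (XT.nd (nat_lit 78) (nat_lit 684) (nat_lit 0) (XT.lf (nat_lit 836) (nat_lit 49947147) (nat_lit 76) (nat_lit 194248431) (nat_lit 0) (nat_lit 54819303) (nat_lit 307) (nat_lit 1) (nat_lit 297) (nat_lit 1) (nat_lit 296) (nat_lit 1) (nat_lit 408) (nat_lit 309) (nat_lit 303)) (XT.lf (nat_lit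 836) (nat_lit 10258005) (nat_lit 0) (nat_lit 145213551) (nat_lit 760) (nat_lit 133159305) (nat_lit 298) (nat_lit 1) (nat_lit 287) (nat_lit 1) (nat_lit 297) (nat_lit 1) (nat_lit 409) (nat_lit 309) (nat_lit 302))))))) (XT.nd (nat_lit 53196) (nat_lit 304) (nat_lit 0) (XT.nd (nat_lit 52650) (nat_lit 380) (nat_lit 0) (XT.nd (nat_lit 52416) (nat_lit 0) (nat_lit 1368) (XT.nd (nat_lit 78) (nat_lit 380) (nat_lit 0) (XT.lf (nat_lit 76) (nat_lit 71028564) (nat_lit 0) (nat_lit 30779982) (nat_lit 532) (nat_lit 176929967) (nat_lit 281) (nat_lit 1) (nat_lit 280) (nat_lit 1) (nat_lit 287) (nat_lit 1) (nat_lit 410) (nat_lit 309) (nat_lit 301)) (XT.nd (nat_lit 52260) (nat_lit 0) (nat_lit 1292) (XT.lf (nat_lit 456) (nat_lit 195745783) (nat_lit 0) (nat_lit 63719472) (nat_lit 380) (nat_lit 9851424) (nat_lit 281) (nat_lit 1) (nat_lit 275) (nat_lit 1) (nat_lit 280) (nat_lit 1) (nat_lit 411) (nat_lit 309) (nat_lit 300))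 (XT.lf (nat_lit 836) (nat_lit 53399478) (nat_lit 0) (nat_lit 94810651) (nat_lit 836) (nat_lit 53399478) (nat_lit 303) (nat_lit 1) (nat_lit 292) (nat_lit 0) (nat_lit 303) (nat_lit 0) (nat_lit 400) (nat_lit 310) (nat_lit 310)))) (XT.nd (nat_lit 78) (nat_lit 0) (nat_lit 0) (XT.lf (nat_lit 836) (nat_lit 19919643) (nat_lit 0) (nat_lit 186142042) (nat_lit 760) (nat_lit 182046296) (nat_lit 304) (nat_lit 1) (nat_lit 293) (nat_lit 1) (nat_lit 303) (nat_lit 1) (nat_lit 401) (nat_lit 310) (nat_lit 309)) (XT.nd (nat_lit 78) (nat_lit 0) (nat_lit 76) (XT.lf (nat_lit 836) (nat_lit 182950431) (nat_lit 76) (nat_lit 124659388) (nat_lit 0) (nat_lit 66113653) (nat_lit 304) (nat_lit 1) (nat_lit 294) (nat_lit 1) (nat_lit 293) (nat_lit 1) (nat_lit 402) (nat_lit 310) (nat_lit 308)) (XT.lf (nat_lit 836) (nat_lit 158084160) (nat_lit 76) (nat_lit 52243885) (nat_lit 0) (nat_lit 149730756) (nat_lit 305) (nat_lit 1) (nat_lit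 295) (nat_lit 1) (nat_lit 294) (nat_lit 1) (nat_lit 403) (nat_lit 310) (nat_lit 307))))) (XT.nd (nat_lit 234) (nat_lit 1900) (nat_lit 0) (XT.nd (nat_lit 78) (nat_lit 0) (nat_lit 76) (XT.lf (nat_lit 836) (nat_lit 116995718) (nat_lit 0) (nat_lit 218893459) (nat_lit 760) (nat_lit 11189802) (nat_lit 306) (nat_lit 1) (nat_lit 295) (nat_lit 1) (nat_lit 305) (nat_lit 1) (nat_lit 404) (nat_lit 310) (nat_lit 306)) (XT.nd (nat_lit 78) (nat_lit 0) (nat_lit 0) (XT.lf (nat_lit 836) (nat_lit 28071975) (nat_lit 0) (nat_lit 241390850) (nat_lit 760) (nat_lit 65256210) (nat_lit 307) (nat_lit 1) (nat_lit 296) (nat_lit 1) (nat_lit 306) (nat_lit 1) (nat_lit 405) (nat_lit 310) (nat_lit 305)) (XT.lf (nat_lit 836) (nat_lit 53942919) (nat_lit 76) (nat_lit 209788305) (nat_lit 0) (nat_lit 59204848) (nat_lit 307) (nat_lit 1) (nat_lit 297) (nat_lit 1) (nat_lit 296) (nat_lit 1) (nat_lit 406) (nat_lit 310) (nat_lit 304))))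 (XT.nd (nat_lit 156) (nat_lit 760) (nat_lit 0) (XT.nd (nat_lit 78) (nat_lit 532) (nat_lit 0) (XT.lf (nat_lit 836) (nat_lit 11078645) (nat_lit 0) (nat_lit 156830635) (nat_lit 760) (nat_lit 143812049) (nat_lit 298) (nat_lit 1) (nat_lit 287) (nat_lit 1) (nat_lit 297) (nat_lit 1) (nat_lit 407) (nat_lit 310) (nat_lit 303)) (XT.lf (nat_lit 76) (nat_lit 76710849) (nat_lit 0) (nat_lit 33242380) (nat_lit 532) (nat_lit 191084365) (nat_lit 281) (nat_lit 1) (nat_lit 280) (nat_lit 1) (nat_lit 287) (nat_lit 1) (nat_lit 408) (nat_lit 310) (nat_lit 302))) (XT.nd (nat_lit 78) (nat_lit 380) (nat_lit 0) (XT.lf (nat_lit 456) (nat_lit 211405445) (nat_lit 0) (nat_lit 68817030) (nat_lit 380) (nat_lit 10639538) (nat_lit 281) (nat_lit 1) (nat_lit 275) (nat_lit 1) (nat_lit 280) (nat_lit 1) (nat_lit 409) (nat_lit 310) (nat_lit 301)) (XT.lf (nat_lit 456) (nat_lit 152552182) (nat_lit 0) (nat_lit 32075914) (nat_lit 380) (nat_lit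 96495867) (nat_lit 276) (nat_lit 1) (nat_lit 270) (nat_lit 1) (nat_lit 275) (nat_lit 1) (nat_lit 410) (nat_lit 310) (nat_lit 300)))))) (XT.nd (nat_lit 52572) (nat_lit 0) (nat_lit 0) (XT.nd (nat_lit 52260) (nat_lit 0) (nat_lit 2052) (XT.nd (nat_lit 52104) (nat_lit 0) (nat_lit 1976) (XT.lf (nat_lit 380) (nat_lit 92826057) (nat_lit 0) (nat_lit 590569) (nat_lit 304) (nat_lit 178441464) (nat_lit 271) (nat_lit 1) (nat_lit 266) (nat_lit 1) (nat_lit 270) (nat_lit 1) (nat_lit 411) (nat_lit 310) (nat_lit 299)) (XT.nd (nat_lit 78) (nat_lit 0) (nat_lit 76) (XT.lf (nat_lit 836) (nat_lit 57671436) (nat_lit 0) (nat_lit 102395503) (nat_lit 836) (nat_lit 57671436) (nat_lit 303) (nat_lit 1) (nat_lit 292) (nat_lit 0) (nat_lit 303) (nat_lit 0) (nat_lit 398) (nat_lit 311) (nat_lit 311)) (XT.lf (nat_lit 836) (nat_lit 21513215) (nat_lit 0) (nat_lit 201033406) (nat_lit 760) (nat_lit 196609999) (nat_lit 304) (nat_lit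 1) (nat_lit 293) (nat_lit 1) (nat_lit 303) (nat_lit 1) (nat_lit 399) (nat_lit 311) (nat_lit 310)))) (XT.nd (nat_lit 156) (nat_lit 0) (nat_lit 152) (XT.nd (nat_lit 78) (nat_lit 0) (nat_lit 76) (XT.lf (nat_lit 836) (nat_lit 197586466) (nat_lit 76) (nat_lit 134632139) (nat_lit 0) (nat_lit 71402745) (nat_lit 304) (nat_lit 1) (nat_lit 294) (nat_lit 1) (nat_lit 293) (nat_lit 1) (nat_lit 400) (nat_lit 311) (nat_lit 309)) (XT.lf (nat_lit 836) (nat_lit 170730893) (nat_lit 76) (nat_lit 56423396) (nat_lit 0) (nat_lit 161709216) (nat_lit 305) (nat_lit 1) (nat_lit 295) (nat_lit 1) (nat_lit 294) (nat_lit 1) (nat_lit 401) (nat_lit 311) (nat_lit 308))) (XT.nd (nat_lit 78) (nat_lit 0) (nat_lit 76) (XT.lf (nat_lit 836) (nat_lit 126355376) (nat_lit 0) (nat_lit 236404936) (nat_lit 760) (nat_lit 12084986) (nat_lit 306) (nat_lit 1) (nat_lit 295) (nat_lit 1) (nat_lit 305) (nat_lit 1) (nat_lit 402) (nat_lit 311) (nat_lit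 307)) (XT.lf (nat_lit 836) (nat_lit 30317733) (nat_lit 0) (nat_lit 260702118) (nat_lit 760) (nat_lit 70476707) (nat_lit 307) (nat_lit 1) (nat_lit 296) (nat_lit 1) (nat_lit 306) (nat_lit 1) (nat_lit 403) (nat_lit 311) (nat_lit 306))))) (XT.nd (nat_lit 234) (nat_lit 1064) (nat_lit 0) (XT.nd (nat_lit 78) (nat_lit 1216) (nat_lit 0) (XT.lf (nat_lit 836) (nat_lit 58258352) (nat_lit 76) (nat_lit 226571370) (nat_lit 0) (nat_lit 63941236) (nat_lit 307) (nat_lit 1) (nat_lit 297) (nat_lit 1) (nat_lit 296) (nat_lit 1) (nat_lit 404) (nat_lit 311) (nat_lit 305)) (XT.nd (nat_lit 78) (nat_lit 532) (nat_lit 0) (XT.lf (nat_lit 836) (nat_lit 11964937) (nat_lit 0) (nat_lit 169377086) (nat_lit 760) (nat_lit 155317013) (nat_lit 298) (nat_lit 1) (nat_lit 287) (nat_lit 1) (nat_lit 297) (nat_lit 1) (nat_lit 405) (nat_lit 311) (nat_lit 304)) (XT.lf (nat_lit 76) (nat_lit 82847717) (nat_lit 0) (nat_lit 35901771) (nat_lit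 532) (nat_lit 206371114) (nat_lit 281) (nat_lit 1) (nat_lit 280) (nat_lit 1) (nat_lit 287) (nat_lit 1) (nat_lit 406) (nat_lit 311) (nat_lit 303)))) (XT.nd (nat_lit 156) (nat_lit 304) (nat_lit 0) (XT.nd (nat_lit 78) (nat_lit 380) (nat_lit 0) (XT.lf (nat_lit 456) (nat_lit 228317881) (nat_lit 0) (nat_lit 74322392) (nat_lit 380) (nat_lit 11490701) (nat_lit 281) (nat_lit 1) (nat_lit 275) (nat_lit 1) (nat_lit 280) (nat_lit 1) (nat_lit 407) (nat_lit 311) (nat_lit 302)) (XT.lf (nat_lit 456) (nat_lit 164756357) (nat_lit 0) (nat_lit 34641987) (nat_lit 380) (nat_lit 104215536) (nat_lit 276) (nat_lit 1) (nat_lit 270) (nat_lit 1) (nat_lit 275) (nat_lit 1) (nat_lit 408) (nat_lit 311) (nat_lit 301))) (XT.nd (nat_lit 78) (nat_lit 0) (nat_lit 0) (XT.lf (nat_lit 380) (nat_lit 100252142) (nat_lit 0) (nat_lit 637815) (nat_lit 304) (nat_lit 192716781) (nat_lit 271) (nat_lit 1) (nat_lit 266) (nat_lit 1) (nat_lit 270)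 (nat_lit 1) (nat_lit 409) (nat_lit 311) (nat_lit 300)) (XT.lf (nat_lit 76) (nat_lit 7396129) (nat_lit 0) (nat_lit 249433317) (nat_lit 380) (nat_lit 27230496) (nat_lit 267) (nat_lit 1) (nat_lit 266) (nat_lit 1) (nat_lit 271) (nat_lit 1) (nat_lit 410) (nat_lit 311) (nat_lit 299))))))))
noncomputable def ec1 : XT := (XT.nd (nat_lit 105612) (nat_lit 608) (nat_lit 0) (XT.nd (nat_lit 52884) (nat_lit 608) (nat_lit 0) (XT.nd (nat_lit 52338) (nat_lit 0) (nat_lit 380) (XT.nd (nat_lit 52104) (nat_lit 0) (nat_lit 2432) (XT.nd (nat_lit 51948) (nat_lit 0) (nat_lit 2356) (XT.lf (nat_lit 76) (nat_lit 190969976) (nat_lit 0) (nat_lit 31674413) (nat_lit 380) (nat_lit 52236861) (nat_lit 262) (nat_lit 1) (nat_lit 261) (nat_lit 1) (nat_lit 266) (nat_lit 1) (nat_lit 411) (nat_lit 311) (nat_lit 298)) (XT.nd (nat_lit 78) (nat_lit 0) (nat_lit 76) (XT.lf (nat_lit 836) (nat_lit 62285151) (nat_lit 0) (nat_lit 110587143)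 (nat_lit 836) (nat_lit 62285151) (nat_lit 303) (nat_lit 1) (nat_lit 292) (nat_lit 0) (nat_lit 303) (nat_lit 0) (nat_lit 396) (nat_lit 312) (nat_lit 312)) (XT.lf (nat_lit 836) (nat_lit 23234272) (nat_lit 0) (nat_lit 217116078) (nat_lit 760) (nat_lit 212338799) (nat_lit 304) (nat_lit 1) (nat_lit 293) (nat_lit 1) (nat_lit 303) (nat_lit 1) (nat_lit 397) (nat_lit 312) (nat_lit 311)))) (XT.nd (nat_lit 78) (nat_lit 0) (nat_lit 76) (XT.lf (nat_lit 836) (nat_lit 213393383) (nat_lit 76) (nat_lit 145402711) (nat_lit 0) (nat_lit 77114965) (nat_lit 304) (nat_lit 1) (nat_lit 294) (nat_lit 1) (nat_lit 293) (nat_lit 1) (nat_lit 398) (nat_lit 312) (nat_lit 310)) (XT.nd (nat_lit 78) (nat_lit 0) (nat_lit 76) (XT.lf (nat_lit 836) (nat_lit 184389364) (nat_lit 76) (nat_lit 60937268) (nat_lit 0) (nat_lit 174645953) (nat_lit 305) (nat_lit 1) (nat_lit 295) (nat_lit 1) (nat_lit 294) (nat_lit 1) (nat_lit 399) (nat_lit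 312) (nat_lit 309)) (XT.lf (nat_lit 836) (nat_lit 136463806) (nat_lit 0) (nat_lit 255317331) (nat_lit 760) (nat_lit 13051785) (nat_lit 306) (nat_lit 1) (nat_lit 295) (nat_lit 1) (nat_lit 305) (nat_lit 1) (nat_lit 400) (nat_lit 312) (nat_lit 308))))) (XT.nd (nat_lit 234) (nat_lit 1596) (nat_lit 0) (XT.nd (nat_lit 78) (nat_lit 684) (nat_lit 0) (XT.lf (nat_lit 836) (nat_lit 32743152) (nat_lit 0) (nat_lit 281558287) (nat_lit 760) (nat_lit 76114843) (nat_lit 307) (nat_lit 1) (nat_lit 296) (nat_lit 1) (nat_lit 306) (nat_lit 1) (nat_lit 401) (nat_lit 312) (nat_lit 307)) (XT.nd (nat_lit 78) (nat_lit 684) (nat_lit 0) (XT.lf (nat_lit 836) (nat_lit 62919020) (nat_lit 76) (nat_lit 244697080) (nat_lit 0) (nat_lit 69056534) (nat_lit 307) (nat_lit 1) (nat_lit 297) (nat_lit 1) (nat_lit 296) (nat_lit 1) (nat_lit 402) (nat_lit 312) (nat_lit 306)) (XT.lf (nat_lit 836) (nat_lit 12922132) (nat_lit 0) (nat_lit 182927253)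 (nat_lit 760) (nat_lit 167742374) (nat_lit 298) (nat_lit 1) (nat_lit 287) (nat_lit 1) (nat_lit 297) (nat_lit 1) (nat_lit 403) (nat_lit 312) (nat_lit 305)))) (XT.nd (nat_lit 156) (nat_lit 684) (nat_lit 0) (XT.nd (nat_lit 78) (nat_lit 380) (nat_lit 0) (XT.lf (nat_lit 76) (nat_lit 89475534) (nat_lit 0) (nat_lit 38773913) (nat_lit 532) (nat_lit 222880803) (nat_lit 281) (nat_lit 1) (nat_lit 280) (nat_lit 1) (nat_lit 287) (nat_lit 1) (nat_lit 404) (nat_lit 312) (nat_lit 304)) (XT.lf (nat_lit 456) (nat_lit 246583312) (nat_lit 0) (nat_lit 80268184) (nat_lit 380) (nat_lit 12409957) (nat_lit 281) (nat_lit 1) (nat_lit 275) (nat_lit 1) (nat_lit 280) (nat_lit 1) (nat_lit 405) (nat_lit 312) (nat_lit 303))) (XT.nd (nat_lit 78) (nat_lit 304) (nat_lit 0) (XT.lf (nat_lit 456) (nat_lit 177936866) (nat_lit 0) (nat_lit 37413346) (nat_lit 380) (nat_lit 112552779) (nat_lit 276) (nat_lit 1) (nat_lit 270) (nat_lit 1)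 (nat_lit 275) (nat_lit 1) (nat_lit 406) (nat_lit 312) (nat_lit 302)) (XT.lf (nat_lit 380) (nat_lit 108272313) (nat_lit 0) (nat_lit 688840) (nat_lit 304) (nat_lit 208134124) (nat_lit 271) (nat_lit 1) (nat_lit 266) (nat_lit 1) (nat_lit 270) (nat_lit 1) (nat_lit 407) (nat_lit 312) (nat_lit 301)))))) (XT.nd (nat_lit 52182) (nat_lit 0) (nat_lit 2052) (XT.nd (nat_lit 234) (nat_lit 304) (nat_lit 0) (XT.nd (nat_lit 78) (nat_lit 684) (nat_lit 0) (XT.lf (nat_lit 76) (nat_lit 7987819) (nat_lit 0) (nat_lit 269387982) (nat_lit 380) (nat_lit 29408936) (nat_lit 267) (nat_lit 1) (nat_lit 266) (nat_lit 1) (nat_lit 271) (nat_lit 1) (nat_lit 408) (nat_lit 312) (nat_lit 300)) (XT.nd (nat_lit 78) (nat_lit 304) (nat_lit 0) (XT.lf (nat_lit 76) (nat_lit 206247574) (nat_lit 0) (nat_lit 34208367) (nat_lit 380) (nat_lit 56415809) (nat_lit 262) (nat_lit 1) (nat_lit 261) (nat_lit 1) (nat_lit 266) (nat_lit 1) (nat_lit 409)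 (nat_lit 312) (nat_lit 299)) (XT.lf (nat_lit 76) (nat_lit 103190887) (nat_lit 0) (nat_lit 104786300) (nat_lit 380) (nat_lit 79419581) (nat_lit 258) (nat_lit 1) (nat_lit 257) (nat_lit 1) (nat_lit 262) (nat_lit 1) (nat_lit 410) (nat_lit 312) (nat_lit 298)))) (XT.nd (nat_lit 51792) (nat_lit 0) (nat_lit 2964) (XT.lf (nat_lit 76) (nat_lit 5093273) (nat_lit 0) (nat_lit 175201067) (nat_lit 380) (nat_lit 98076056) (nat_lit 254) (nat_lit 1) (nat_lit 253) (nat_lit 1) (nat_lit 258) (nat_lit 1) (nat_lit 411) (nat_lit 312) (nat_lit 297)) (XT.nd (nat_lit 78) (nat_lit 0) (nat_lit 76) (XT.lf (nat_lit 836) (nat_lit 67267963) (nat_lit 0) (nat_lit 119434114) (nat_lit 836) (nat_lit 67267963) (nat_lit 303) (nat_lit 1) (nat_lit 292) (nat_lit 0) (nat_lit 303) (nat_lit 0) (nat_lit 394) (nat_lit 313) (nat_lit 313)) (XT.lf (nat_lit 836) (nat_lit 25093014) (nat_lit 0) (nat_lit 234485365) (nat_lit 760) (nat_lit 229325903)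 (nat_lit 304) (nat_lit 1) (nat_lit 293) (nat_lit 1) (nat_lit 303) (nat_lit 1) (nat_lit 395) (nat_lit 313) (nat_lit 312))))) (XT.nd (nat_lit 234) (nat_lit 988) (nat_lit 0) (XT.nd (nat_lit 78) (nat_lit 0) (nat_lit 76) (XT.lf (nat_lit 836) (nat_lit 230464854) (nat_lit 76) (nat_lit 157034928) (nat_lit 0) (nat_lit 83284162) (nat_lit 304) (nat_lit 1) (nat_lit 294) (nat_lit 1) (nat_lit 293) (nat_lit 1) (nat_lit 396) (nat_lit 313) (nat_lit 311)) (XT.nd (nat_lit 78) (nat_lit 0) (nat_lit 76) (XT.lf (nat_lit 836) (nat_lit 199140514) (nat_lit 76) (nat_lit 65812249) (nat_lit 0) (nat_lit 188617630) (nat_lit 305) (nat_lit 1) (nat_lit 295) (nat_lit 1) (nat_lit 294) (nat_lit 1) (nat_lit 397) (nat_lit 313) (nat_lit 310)) (XT.lf (nat_lit 836) (nat_lit 147380910) (nat_lit 0) (nat_lit 275742717) (nat_lit 760) (nat_lit 14095928) (nat_lit 306) (nat_lit 1) (nat_lit 295) (nat_lit 1) (nat_lit 305) (nat_lit 1) (nat_lit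 398) (nat_lit 313) (nat_lit 309)))) (XT.nd (nat_lit 156) (nat_lit 1216) (nat_lit 0) (XT.nd (nat_lit 78) (nat_lit 0) (nat_lit 0) (XT.lf (nat_lit 836) (nat_lit 35362604) (nat_lit 0) (nat_lit 304082950) (nat_lit 760) (nat_lit 82204031) (nat_lit 307) (nat_lit 1) (nat_lit 296) (nat_lit 1) (nat_lit 306) (nat_lit 1) (nat_lit 399) (nat_lit 313) (nat_lit 308)) (XT.lf (nat_lit 836) (nat_lit 67952542) (nat_lit 76) (nat_lit 264272846) (nat_lit 0) (nat_lit 74581057) (nat_lit 307) (nat_lit 1) (nat_lit 297) (nat_lit 1) (nat_lit 296) (nat_lit 1) (nat_lit 400) (nat_lit 313) (nat_lit 307))) (XT.nd (nat_lit 78) (nat_lit 532) (nat_lit 0) (XT.lf (nat_lit 836) (nat_lit 13955902) (nat_lit 0) (nat_lit 197561433) (nat_lit 760) (nat_lit 181161764) (nat_lit 298) (nat_lit 1) (nat_lit 287) (nat_lit 1) (nat_lit 297) (nat_lit 1) (nat_lit 401) (nat_lit 313) (nat_lit 306)) (XT.lf (nat_lit 76) (nat_lit 96633577) (nat_lit 0) (nat_lit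 41875826) (nat_lit 532) (nat_lit 240711267) (nat_lit 281) (nat_lit 1) (nat_lit 280) (nat_lit 1) (nat_lit 287) (nat_lit 1) (nat_lit 402) (nat_lit 313) (nat_lit 305))))))) (XT.nd (nat_lit 52572) (nat_lit 0) (nat_lit 0) (XT.nd (nat_lit 468) (nat_lit 912) (nat_lit 0) (XT.nd (nat_lit 234) (nat_lit 684) (nat_lit 0) (XT.nd (nat_lit 78) (nat_lit 684) (nat_lit 0) (XT.lf (nat_lit 456) (nat_lit 266309977) (nat_lit 0) (nat_lit 86689638) (nat_lit 380) (nat_lit 13402753) (nat_lit 281) (nat_lit 1) (nat_lit 275) (nat_lit 1) (nat_lit 280) (nat_lit 1) (nat_lit 403) (nat_lit 313) (nat_lit 304)) (XT.nd (nat_lit 78) (nat_lit 304) (nat_lit 0) (XT.lf (nat_lit 456) (nat_lit 192171815) (nat_lit 0) (nat_lit 40406414) (nat_lit 380) (nat_lit 121557002) (nat_lit 276) (nat_lit 1) (nat_lit 270) (nat_lit 1) (nat_lit 275) (nat_lit 1) (nat_lit 404) (nat_lit 313) (nat_lit 303)) (XT.lf (nat_lit 380) (nat_lit 116934098) (nat_lit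 0) (nat_lit 743947) (nat_lit 304) (nat_lit 224784854) (nat_lit 271) (nat_lit 1) (nat_lit 266) (nat_lit 1) (nat_lit 270) (nat_lit 1) (nat_lit 405) (nat_lit 313) (nat_lit 302)))) (XT.nd (nat_lit 78) (nat_lit 684) (nat_lit 0) (XT.lf (nat_lit 76) (nat_lit 8626845) (nat_lit 0) (nat_lit 290939021) (nat_lit 380) (nat_lit 31761651) (nat_lit 267) (nat_lit 1) (nat_lit 266) (nat_lit 1) (nat_lit 271) (nat_lit 1) (nat_lit 406) (nat_lit 313) (nat_lit 301)) (XT.nd (nat_lit 78) (nat_lit 304) (nat_lit 0) (XT.lf (nat_lit 76) (nat_lit 222747380) (nat_lit 0) (nat_lit 36945036) (nat_lit 380) (nat_lit 60929074) (nat_lit 262) (nat_lit 1) (nat_lit 261) (nat_lit 1) (nat_lit 266) (nat_lit 1) (nat_lit 407) (nat_lit 313) (nat_lit 300)) (XT.lf (nat_lit 76) (nat_lit 111446158) (nat_lit 0) (nat_lit 113169204) (nat_lit 380) (nat_lit 85773147) (nat_lit 258) (nat_lit 1) (nat_lit 257) (nat_lit 1) (nat_lit 262) (nat_lit 1) (nat_lit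 408) (nat_lit 313) (nat_lit 299))))) (XT.nd (nat_lit 51792) (nat_lit 0) (nat_lit 3572) (XT.nd (nat_lit 78) (nat_lit 608) (nat_lit 0) (XT.lf (nat_lit 76) (nat_lit 5500735) (nat_lit 0) (nat_lit 189217153) (nat_lit 380) (nat_lit 105922140) (nat_lit 254) (nat_lit 1) (nat_lit 253) (nat_lit 1) (nat_lit 258) (nat_lit 1) (nat_lit 409) (nat_lit 313) (nat_lit 298)) (XT.nd (nat_lit 78) (nat_lit 380) (nat_lit 0) (XT.lf (nat_lit 304) (nat_lit 24841010) (nat_lit 0) (nat_lit 167987863) (nat_lit 228) (nat_lit 98444748) (nat_lit 254) (nat_lit 1) (nat_lit 250) (nat_lit 1) (nat_lit 253) (nat_lit 1) (nat_lit 410) (nat_lit 313) (nat_lit 297)) (XT.lf (nat_lit 76) (nat_lit 85832369) (nat_lit 0) (nat_lit 58830039) (nat_lit 380) (nat_lit 137631748) (nat_lit 246) (nat_lit 1) (nat_lit 245) (nat_lit 1) (nat_lit 250) (nat_lit 1) (nat_lit 411) (nat_lit 313) (nat_lit 296)))) (XT.nd (nat_lit 156) (nat_lit 0) (nat_lit 76) (XT.nd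 (nat_lit 78) (nat_lit 0) (nat_lit 76) (XT.lf (nat_lit 836) (nat_lit 72649400) (nat_lit 0) (nat_lit 128988844) (nat_lit 836) (nat_lit 72649400) (nat_lit 303) (nat_lit 1) (nat_lit 292) (nat_lit 0) (nat_lit 303) (nat_lit 0) (nat_lit 392) (nat_lit 314) (nat_lit 314)) (XT.lf (nat_lit 836) (nat_lit 27100455) (nat_lit 0) (nat_lit 253244194) (nat_lit 760) (nat_lit 247671975) (nat_lit 304) (nat_lit 1) (nat_lit 293) (nat_lit 1) (nat_lit 303) (nat_lit 1) (nat_lit 393) (nat_lit 314) (nat_lit 313))) (XT.nd (nat_lit 78) (nat_lit 0) (nat_lit 76) (XT.lf (nat_lit 836) (nat_lit 248902042) (nat_lit 76) (nat_lit 169597722) (nat_lit 0) (nat_lit 89946895) (nat_lit 304) (nat_lit 1) (nat_lit 294) (nat_lit 1) (nat_lit 293) (nat_lit 1) (nat_lit 394) (nat_lit 314) (nat_lit 312)) (XT.lf (nat_lit 836) (nat_lit 215071755) (nat_lit 76) (nat_lit 71077229) (nat_lit 0) (nat_lit 203707040) (nat_lit 305) (nat_lit 1) (nat_lit 295)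 (nat_lit 1) (nat_lit 294) (nat_lit 1) (nat_lit 395) (nat_lit 314) (nat_lit 311)))))) (XT.nd (nat_lit 546) (nat_lit 1900) (nat_lit 0) (XT.nd (nat_lit 234) (nat_lit 1900) (nat_lit 0) (XT.nd (nat_lit 78) (nat_lit 0) (nat_lit 76) (XT.lf (nat_lit 836) (nat_lit 159171383) (nat_lit 0) (nat_lit 297802135) (nat_lit 760) (nat_lit 15223602) (nat_lit 306) (nat_lit 1) (nat_lit 295) (nat_lit 1) (nat_lit 305) (nat_lit 1) (nat_lit 396) (nat_lit 314) (nat_lit 310)) (XT.nd (nat_lit 78) (nat_lit 0) (nat_lit 0) (XT.lf (nat_lit 836) (nat_lit 38191612) (nat_lit 0) (nat_lit 328409586) (nat_lit 760) (nat_lit 88780353) (nat_lit 307) (nat_lit 1) (nat_lit 296) (nat_lit 1) (nat_lit 306) (nat_lit 1) (nat_lit 397) (nat_lit 314) (nat_lit 309)) (XT.lf (nat_lit 836) (nat_lit 73388746) (nat_lit 76) (nat_lit 285414674) (nat_lit 0) (nat_lit 80547542) (nat_lit 307) (nat_lit 1) (nat_lit 297) (nat_lit 1) (nat_lit 296) (nat_lit 1)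 (nat_lit 398) (nat_lit 314) (nat_lit 308)))) (XT.nd (nat_lit 156) (nat_lit 760) (nat_lit 0) (XT.nd (nat_lit 78) (nat_lit 532) (nat_lit 0) (XT.lf (nat_lit 836) (nat_lit 15072374) (nat_lit 0) (nat_lit 213366348) (nat_lit 760) (nat_lit 195654705) (nat_lit 298) (nat_lit 1) (nat_lit 287) (nat_lit 1) (nat_lit 297) (nat_lit 1) (nat_lit 399) (nat_lit 314) (nat_lit 307)) (XT.lf (nat_lit 76) (nat_lit 104364263) (nat_lit 0) (nat_lit 45225892) (nat_lit 532) (nat_lit 259968169) (nat_lit 281) (nat_lit 1) (nat_lit 280) (nat_lit 1) (nat_lit 287) (nat_lit 1) (nat_lit 400) (nat_lit 314) (nat_lit 306))) (XT.nd (nat_lit 78) (nat_lit 380) (nat_lit 0) (XT.lf (nat_lit 456) (nat_lit 287614775) (nat_lit 0) (nat_lit 93624809) (nat_lit 380) (nat_lit 14474974) (nat_lit 281) (nat_lit 1) (nat_lit 275) (nat_lit 1) (nat_lit 280) (nat_lit 1) (nat_lit 401) (nat_lit 314) (nat_lit 305)) (XT.lf (nat_lit 456) (nat_lit 207545560)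 (nat_lit 0) (nat_lit 43638927) (nat_lit 380) (nat_lit 131281562) (nat_lit 276) (nat_lit 1) (nat_lit 270) (nat_lit 1) (nat_lit 275) (nat_lit 1) (nat_lit 402) (nat_lit 314) (nat_lit 304))))) (XT.nd (nat_lit 234) (nat_lit 1216) (nat_lit 0) (XT.nd (nat_lit 78) (nat_lit 380) (nat_lit 0) (XT.lf (nat_lit 380) (nat_lit 126288826) (nat_lit 0) (nat_lit 803463) (nat_lit 304) (nat_lit 242767642) (nat_lit 271) (nat_lit 1) (nat_lit 266) (nat_lit 1) (nat_lit 270) (nat_lit 1) (nat_lit 403) (nat_lit 314) (nat_lit 303)) (XT.nd (nat_lit 78) (nat_lit 380) (nat_lit 0) (XT.lf (nat_lit 76) (nat_lit 9316992) (nat_lit 0) (nat_lit 314214143) (nat_lit 380) (nat_lit 34302583) (nat_lit 267) (nat_lit 1) (nat_lit 266) (nat_lit 1) (nat_lit 271) (nat_lit 1) (nat_lit 404) (nat_lit 314) (nat_lit 302)) (XT.lf (nat_lit 76) (nat_lit 240567170) (nat_lit 0) (nat_lit 39900639) (nat_lit 380) (nat_lit 65803400) (nat_lit 262) (nat_lit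 1) (nat_lit 261) (nat_lit 1) (nat_lit 266) (nat_lit 1) (nat_lit 405) (nat_lit 314) (nat_lit 301)))) (XT.nd (nat_lit 156) (nat_lit 608) (nat_lit 0) (XT.nd (nat_lit 78) (nat_lit 304) (nat_lit 0) (XT.lf (nat_lit 76) (nat_lit 120361851) (nat_lit 0) (nat_lit 122222741) (nat_lit 380) (nat_lit 92634999) (nat_lit 258) (nat_lit 1) (nat_lit 257) (nat_lit 1) (nat_lit 262) (nat_lit 1) (nat_lit 406) (nat_lit 314) (nat_lit 300)) (XT.lf (nat_lit 76) (nat_lit 5940794) (nat_lit 0) (nat_lit 204354525) (nat_lit 380) (nat_lit 114395912) (nat_lit 254) (nat_lit 1) (nat_lit 253) (nat_lit 1) (nat_lit 258) (nat_lit 1) (nat_lit 407) (nat_lit 314) (nat_lit 299))) (XT.nd (nat_lit 78) (nat_lit 380) (nat_lit 0) (XT.lf (nat_lit 304) (nat_lit 26828291) (nat_lit 0) (nat_lit 181426892) (nat_lit 228) (nat_lit 106320328) (nat_lit 254) (nat_lit 1) (nat_lit 250) (nat_lit 1) (nat_lit 253) (nat_lit 1) (nat_lit 408) (nat_lit 314) (nat_lit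 298)) (XT.lf (nat_lit 76) (nat_lit 92698959) (nat_lit 0) (nat_lit 63536442) (nat_lit 380) (nat_lit 148642288) (nat_lit 246) (nat_lit 1) (nat_lit 245) (nat_lit 1) (nat_lit 250) (nat_lit 1) (nat_lit 409) (nat_lit 314) (nat_lit 297))))))))
noncomputable def ec2 : XT := (XT.nd (nat_lit 104598) (nat_lit 456) (nat_lit 0) (XT.nd (nat_lit 52416) (nat_lit 684) (nat_lit 0) (XT.nd (nat_lit 51870) (nat_lit 0) (nat_lit 2356) (XT.nd (nat_lit 51636) (nat_lit 0) (nat_lit 4104) (XT.nd (nat_lit 78) (nat_lit 228) (nat_lit 0) (XT.lf (nat_lit 304) (nat_lit 143520286) (nat_lit 0) (nat_lit 134818759) (nat_lit 228) (nat_lit 17256641) (nat_lit 246) (nat_lit 1) (nat_lit 242) (nat_lit 1) (nat_lit 245) (nat_lit 1) (nat_lit 410) (nat_lit 314) (nat_lit 296)) (XT.nd (nat_lit 51480) (nat_lit 0) (nat_lit 4028) (XT.lf (nat_lit 304) (nat_lit 45997558) (nat_lit 0) (nat_lit 116073431) (nat_lit 228) (nat_lit 124599403) (nat_lit 243)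 (nat_lit 1) (nat_lit 239) (nat_lit 1) (nat_lit 242) (nat_lit 1) (nat_lit 411) (nat_lit 314) (nat_lit 295)) (XT.lf (nat_lit 836) (nat_lit 78461352) (nat_lit 0) (nat_lit 139307951) (nat_lit 836) (nat_lit 78461352) (nat_lit 303) (nat_lit 1) (nat_lit 292) (nat_lit 0) (nat_lit 303) (nat_lit 0) (nat_lit 390) (nat_lit 315) (nat_lit 315)))) (XT.nd (nat_lit 78) (nat_lit 0) (nat_lit 0) (XT.lf (nat_lit 836) (nat_lit 29268492) (nat_lit 0) (nat_lit 273503729) (nat_lit 760) (nat_lit 267485734) (nat_lit 304) (nat_lit 1) (nat_lit 293) (nat_lit 1) (nat_lit 303) (nat_lit 1) (nat_lit 391) (nat_lit 315) (nat_lit 314)) (XT.nd (nat_lit 78) (nat_lit 0) (nat_lit 76) (XT.lf (nat_lit 836) (nat_lit 268814206) (nat_lit 76) (nat_lit 183165540) (nat_lit 0) (nat_lit 97142647) (nat_lit 304) (nat_lit 1) (nat_lit 294) (nat_lit 1) (nat_lit 293) (nat_lit 1) (nat_lit 392) (nat_lit 315) (nat_lit 313)) (XT.lf (nat_lit 836) (nat_lit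 232277495) (nat_lit 76) (nat_lit 76763408) (nat_lit 0) (nat_lit 220003603) (nat_lit 305) (nat_lit 1) (nat_lit 295) (nat_lit 1) (nat_lit 294) (nat_lit 1) (nat_lit 393) (nat_lit 315) (nat_lit 312))))) (XT.nd (nat_lit 234) (nat_lit 1900) (nat_lit 0) (XT.nd (nat_lit 78) (nat_lit 0) (nat_lit 76) (XT.lf (nat_lit 836) (nat_lit 171905094) (nat_lit 0) (nat_lit 321626305) (nat_lit 760) (nat_lit 16441490) (nat_lit 306) (nat_lit 1) (nat_lit 295) (nat_lit 1) (nat_lit 305) (nat_lit 1) (nat_lit 394) (nat_lit 315) (nat_lit 311)) (XT.nd (nat_lit 78) (nat_lit 0) (nat_lit 0) (XT.lf (nat_lit 836) (nat_lit 41246941) (nat_lit 0) (nat_lit 354682353) (nat_lit 760) (nat_lit 95882782) (nat_lit 307) (nat_lit 1) (nat_lit 296) (nat_lit 1) (nat_lit 306) (nat_lit 1) (nat_lit 395) (nat_lit 315) (nat_lit 310)) (XT.lf (nat_lit 836) (nat_lit 79259845) (nat_lit 76) (nat_lit 308247848) (nat_lit 0) (nat_lit 86991345) (nat_lit 307)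 (nat_lit 1) (nat_lit 297) (nat_lit 1) (nat_lit 296) (nat_lit 1) (nat_lit 396) (nat_lit 315) (nat_lit 309)))) (XT.nd (nat_lit 156) (nat_lit 760) (nat_lit 0) (XT.nd (nat_lit 78) (nat_lit 532) (nat_lit 0) (XT.lf (nat_lit 836) (nat_lit 16278164) (nat_lit 0) (nat_lit 230435656) (nat_lit 760) (nat_lit 211307082) (nat_lit 298) (nat_lit 1) (nat_lit 287) (nat_lit 1) (nat_lit 297) (nat_lit 1) (nat_lit 397) (nat_lit 315) (nat_lit 308)) (XT.lf (nat_lit 76) (nat_lit 112713405) (nat_lit 0) (nat_lit 48843963) (nat_lit 532) (nat_lit 280765622) (nat_lit 281) (nat_lit 1) (nat_lit 280) (nat_lit 1) (nat_lit 287) (nat_lit 1) (nat_lit 398) (nat_lit 315) (nat_lit 307))) (XT.nd (nat_lit 78) (nat_lit 380) (nat_lit 0) (XT.lf (nat_lit 456) (nat_lit 310623957) (nat_lit 0) (nat_lit 101114794) (nat_lit 380) (nat_lit 15632972) (nat_lit 281) (nat_lit 1) (nat_lit 275) (nat_lit 1) (nat_lit 280) (nat_lit 1) (nat_lit 399) (nat_lit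 315) (nat_lit 306)) (XT.lf (nat_lit 456) (nat_lit 224149205) (nat_lit 0) (nat_lit 47130041) (nat_lit 380) (nat_lit 141784087) (nat_lit 276) (nat_lit 1) (nat_lit 270) (nat_lit 1) (nat_lit 275) (nat_lit 1) (nat_lit 400) (nat_lit 315) (nat_lit 305)))))) (XT.nd (nat_lit 468) (nat_lit 1520) (nat_lit 0) (XT.nd (nat_lit 234) (nat_lit 836) (nat_lit 0) (XT.nd (nat_lit 78) (nat_lit 380) (nat_lit 0) (XT.lf (nat_lit 380) (nat_lit 136391932) (nat_lit 0) (nat_lit 867740) (nat_lit 304) (nat_lit 262189054) (nat_lit 271) (nat_lit 1) (nat_lit 266) (nat_lit 1) (nat_lit 270) (nat_lit 1) (nat_lit 401) (nat_lit 315) (nat_lit 304)) (XT.nd (nat_lit 78) (nat_lit 380) (nat_lit 0) (XT.lf (nat_lit 76) (nat_lit 10062352) (nat_lit 0) (nat_lit 339351274) (nat_lit 380) (nat_lit 37046789) (nat_lit 267) (nat_lit 1) (nat_lit 266) (nat_lit 1) (nat_lit 271) (nat_lit 1) (nat_lit 402) (nat_lit 315) (nat_lit 303)) (XT.lf (nat_lit 76)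 (nat_lit 259812544) (nat_lit 0) (nat_lit 43092690) (nat_lit 380) (nat_lit 71067672) (nat_lit 262) (nat_lit 1) (nat_lit 261) (nat_lit 1) (nat_lit 266) (nat_lit 1) (nat_lit 403) (nat_lit 315) (nat_lit 302)))) (XT.nd (nat_lit 78) (nat_lit 532) (nat_lit 0) (XT.lf (nat_lit 76) (nat_lit 129990799) (nat_lit 0) (nat_lit 132000560) (nat_lit 380) (nat_lit 100045799) (nat_lit 258) (nat_lit 1) (nat_lit 257) (nat_lit 1) (nat_lit 262) (nat_lit 1) (nat_lit 404) (nat_lit 315) (nat_lit 301)) (XT.nd (nat_lit 78) (nat_lit 228) (nat_lit 0) (XT.lf (nat_lit 76) (nat_lit 6416057) (nat_lit 0) (nat_lit 220702887) (nat_lit 380) (nat_lit 123547585) (nat_lit 254) (nat_lit 1) (nat_lit 253) (nat_lit 1) (nat_lit 258) (nat_lit 1) (nat_lit 405) (nat_lit 315) (nat_lit 300)) (XT.lf (nat_lit 304) (nat_lit 28974554) (nat_lit 0) (nat_lit 195941043) (nat_lit 228) (nat_lit 114825954) (nat_lit 254) (nat_lit 1) (nat_lit 250) (nat_lit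 1) (nat_lit 253) (nat_lit 1) (nat_lit 406) (nat_lit 315) (nat_lit 299))))) (XT.nd (nat_lit 234) (nat_lit 684) (nat_lit 0) (XT.nd (nat_lit 78) (nat_lit 456) (nat_lit 0) (XT.lf (nat_lit 76) (nat_lit 100114876) (nat_lit 0) (nat_lit 68619358) (nat_lit 380) (nat_lit 160533671) (nat_lit 246) (nat_lit 1) (nat_lit 245) (nat_lit 1) (nat_lit 250) (nat_lit 1) (nat_lit 407) (nat_lit 315) (nat_lit 298)) (XT.nd (nat_lit 78) (nat_lit 228) (nat_lit 0) (XT.lf (nat_lit 304) (nat_lit 155001909) (nat_lit 0) (nat_lit 145604260) (nat_lit 228) (nat_lit 18637172) (nat_lit 246) (nat_lit 1) (nat_lit 242) (nat_lit 1) (nat_lit 245) (nat_lit 1) (nat_lit 408) (nat_lit 315) (nat_lit 297)) (XT.lf (nat_lit 304) (nat_lit 49677363) (nat_lit 0) (nat_lit 125359305) (nat_lit 228) (nat_lit 134567355) (nat_lit 243) (nat_lit 1) (nat_lit 239) (nat_lit 1) (nat_lit 242) (nat_lit 1) (nat_lit 409) (nat_lit 315) (nat_lit 296)))) (XT.nd (nat_lit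 156) (nat_lit 152) (nat_lit 0) (XT.nd (nat_lit 78) (nat_lit 228) (nat_lit 0) (XT.lf (nat_lit 76) (nat_lit 56620190) (nat_lit 0) (nat_lit 51840704) (nat_lit 304) (nat_lit 191904150) (nat_lit 236) (nat_lit 1) (nat_lit 235) (nat_lit 1) (nat_lit 239) (nat_lit 1) (nat_lit 410) (nat_lit 315) (nat_lit 295)) (XT.lf (nat_lit 304) (nat_lit 140891912) (nat_lit 0) (nat_lit 93744257) (nat_lit 228) (nat_lit 56828076) (nat_lit 236) (nat_lit 1) (nat_lit 232) (nat_lit 1) (nat_lit 235) (nat_lit 1) (nat_lit 411) (nat_lit 315) (nat_lit 294))) (XT.nd (nat_lit 51246) (nat_lit 0) (nat_lit 4712) (XT.lf (nat_lit 228) (nat_lit 34927313) (nat_lit 0) (nat_lit 81785026) (nat_lit 152) (nat_lit 166210190) (nat_lit 233) (nat_lit 1) (nat_lit 230) (nat_lit 1) (nat_lit 232) (nat_lit 1) (nat_lit 412) (nat_lit 315) (nat_lit 293)) (XT.lf (nat_lit 836) (nat_lit 84738261) (nat_lit 0) (nat_lit 150452587) (nat_lit 836) (nat_lit 84738261)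 (nat_lit 303) (nat_lit 1) (nat_lit 292) (nat_lit 0) (nat_lit 303) (nat_lit 0) (nat_lit 388) (nat_lit 316) (nat_lit 316))))))) (XT.nd (nat_lit 1014) (nat_lit 2812) (nat_lit 0) (XT.nd (nat_lit 468) (nat_lit 2432) (nat_lit 0) (XT.nd (nat_lit 234) (nat_lit 0) (nat_lit 152) (XT.nd (nat_lit 78) (nat_lit 0) (nat_lit 0) (XT.lf (nat_lit 836) (nat_lit 31609971) (nat_lit 0) (nat_lit 295384028) (nat_lit 760) (nat_lit 288884592) (nat_lit 304) (nat_lit 1) (nat_lit 293) (nat_lit 1) (nat_lit 303) (nat_lit 1) (nat_lit 389) (nat_lit 316) (nat_lit 315)) (XT.nd (nat_lit 78) (nat_lit 0) (nat_lit 76) (XT.lf (nat_lit 836) (nat_lit 290319342) (nat_lit 76) (nat_lit 197818783) (nat_lit 0) (nat_lit 104914058) (nat_lit 304) (nat_lit 1) (nat_lit 294) (nat_lit 1) (nat_lit 293) (nat_lit 1) (nat_lit 390) (nat_lit 316) (nat_lit 314)) (XT.lf (nat_lit 836) (nat_lit 250859695) (nat_lit 76) (nat_lit 82904480) (nat_lit 0) (nat_lit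 237603892) (nat_lit 305) (nat_lit 1) (nat_lit 295) (nat_lit 1) (nat_lit 294) (nat_lit 1) (nat_lit 391) (nat_lit 316) (nat_lit 313)))) (XT.nd (nat_lit 78) (nat_lit 0) (nat_lit 76) (XT.lf (nat_lit 836) (nat_lit 185657501) (nat_lit 0) (nat_lit 347356410) (nat_lit 760) (nat_lit 17756810) (nat_lit 306) (nat_lit 1) (nat_lit 295) (nat_lit 1) (nat_lit 305) (nat_lit 1) (nat_lit 392) (nat_lit 316) (nat_lit 312)) (XT.nd (nat_lit 78) (nat_lit 0) (nat_lit 0) (XT.lf (nat_lit 836) (nat_lit 44546697) (nat_lit 0) (nat_lit 383056941) (nat_lit 760) (nat_lit 103553404) (nat_lit 307) (nat_lit 1) (nat_lit 296) (nat_lit 1) (nat_lit 306) (nat_lit 1) (nat_lit 393) (nat_lit 316) (nat_lit 311)) (XT.lf (nat_lit 836) (nat_lit 85600633) (nat_lit 76) (nat_lit 332907675) (nat_lit 0) (nat_lit 93950653) (nat_lit 307) (nat_lit 1) (nat_lit 297) (nat_lit 1) (nat_lit 296) (nat_lit 1) (nat_lit 394) (nat_lit 316) (nat_lit 310)))))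 (XT.nd (nat_lit 234) (nat_lit 1064) (nat_lit 0) (XT.nd (nat_lit 78) (nat_lit 912) (nat_lit 0) (XT.lf (nat_lit 836) (nat_lit 17580418) (nat_lit 0) (nat_lit 248870508) (nat_lit 760) (nat_lit 228211648) (nat_lit 298) (nat_lit 1) (nat_lit 287) (nat_lit 1) (nat_lit 297) (nat_lit 1) (nat_lit 395) (nat_lit 316) (nat_lit 309)) (XT.nd (nat_lit 78) (nat_lit 380) (nat_lit 0) (XT.lf (nat_lit 76) (nat_lit 121730477) (nat_lit 0) (nat_lit 52751480) (nat_lit 532) (nat_lit 303226872) (nat_lit 281) (nat_lit 1) (nat_lit 280) (nat_lit 1) (nat_lit 287) (nat_lit 1) (nat_lit 396) (nat_lit 316) (nat_lit 308)) (XT.lf (nat_lit 456) (nat_lit 335473873) (nat_lit 0) (nat_lit 109203978) (nat_lit 380) (nat_lit 16883609) (nat_lit 281) (nat_lit 1) (nat_lit 275) (nat_lit 1) (nat_lit 280) (nat_lit 1) (nat_lit 397) (nat_lit 316) (nat_lit 307)))) (XT.nd (nat_lit 156) (nat_lit 380) (nat_lit 0) (XT.nd (nat_lit 78) (nat_lit 304) (nat_lit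 0) (XT.lf (nat_lit 456) (nat_lit 242081142) (nat_lit 0) (nat_lit 50900444) (nat_lit 380) (nat_lit 153126814) (nat_lit 276) (nat_lit 1) (nat_lit 270) (nat_lit 1) (nat_lit 275) (nat_lit 1) (nat_lit 398) (nat_lit 316) (nat_lit 306)) (XT.lf (nat_lit 380) (nat_lit 147303287) (nat_lit 0) (nat_lit 937159) (nat_lit 304) (nat_lit 283164178) (nat_lit 271) (nat_lit 1) (nat_lit 266) (nat_lit 1) (nat_lit 270) (nat_lit 1) (nat_lit 399) (nat_lit 316) (nat_lit 305))) (XT.nd (nat_lit 78) (nat_lit 380) (nat_lit 0) (XT.lf (nat_lit 76) (nat_lit 10867340) (nat_lit 0) (nat_lit 366499376) (nat_lit 380) (nat_lit 40010533) (nat_lit 267) (nat_lit 1) (nat_lit 266) (nat_lit 1) (nat_lit 271) (nat_lit 1) (nat_lit 400) (nat_lit 316) (nat_lit 304)) (XT.lf (nat_lit 76) (nat_lit 280597547) (nat_lit 0) (nat_lit 46540105) (nat_lit 380) (nat_lit 76753086) (nat_lit 262) (nat_lit 1) (nat_lit 261) (nat_lit 1) (nat_lit 266) (nat_lit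 1) (nat_lit 401) (nat_lit 316) (nat_lit 303)))))) (XT.nd (nat_lit 546) (nat_lit 836) (nat_lit 0) (XT.nd (nat_lit 234) (nat_lit 1140) (nat_lit 0) (XT.nd (nat_lit 78) (nat_lit 532) (nat_lit 0) (XT.lf (nat_lit 76) (nat_lit 140390063) (nat_lit 0) (nat_lit 142560605) (nat_lit 380) (nat_lit 108049463) (nat_lit 258) (nat_lit 1) (nat_lit 257) (nat_lit 1) (nat_lit 262) (nat_lit 1) (nat_lit 402) (nat_lit 316) (nat_lit 302)) (XT.nd (nat_lit 78) (nat_lit 228) (nat_lit 0) (XT.lf (nat_lit 76) (nat_lit 6929342) (nat_lit 0) (nat_lit 238359118) (nat_lit 380) (nat_lit 133431391) (nat_lit 254) (nat_lit 1) (nat_lit 253) (nat_lit 1) (nat_lit 258) (nat_lit 1) (nat_lit 403) (nat_lit 316) (nat_lit 301)) (XT.lf (nat_lit 304) (nat_lit 31292518) (nat_lit 0) (nat_lit 211616327) (nat_lit 228) (nat_lit 124012031) (nat_lit 254) (nat_lit 1) (nat_lit 250) (nat_lit 1) (nat_lit 253) (nat_lit 1) (nat_lit 404) (nat_lit 316) (nat_lit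 300)))) (XT.nd (nat_lit 156) (nat_lit 532) (nat_lit 0) (XT.nd (nat_lit 78) (nat_lit 228) (nat_lit 0) (XT.lf (nat_lit 76) (nat_lit 108124066) (nat_lit 0) (nat_lit 74108906) (nat_lit 380) (nat_lit 173376365) (nat_lit 246) (nat_lit 1) (nat_lit 245) (nat_lit 1) (nat_lit 250) (nat_lit 1) (nat_lit 405) (nat_lit 316) (nat_lit 299)) (XT.lf (nat_lit 304) (nat_lit 167402061) (nat_lit 0) (nat_lit 157252600) (nat_lit 228) (nat_lit 20128146) (nat_lit 246) (nat_lit 1) (nat_lit 242) (nat_lit 1) (nat_lit 245) (nat_lit 1) (nat_lit 406) (nat_lit 316) (nat_lit 298))) (XT.nd (nat_lit 78) (nat_lit 304) (nat_lit 0) (XT.lf (nat_lit 304) (nat_lit 53651552) (nat_lit 0) (nat_lit 135388050) (nat_lit 228) (nat_lit 145332743) (nat_lit 243) (nat_lit 1) (nat_lit 239) (nat_lit 1) (nat_lit 242) (nat_lit 1) (nat_lit 407) (nat_lit 316) (nat_lit 297)) (XT.lf (nat_lit 76) (nat_lit 61149805) (nat_lit 0) (nat_lit 55987960) (nat_lit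 304) (nat_lit 207256482) (nat_lit 236) (nat_lit 1) (nat_lit 235) (nat_lit 1) (nat_lit 239) (nat_lit 1) (nat_lit 408) (nat_lit 316) (nat_lit 296))))) (XT.nd (nat_lit 234) (nat_lit 152) (nat_lit 0) (XT.nd (nat_lit 78) (nat_lit 456) (nat_lit 0) (XT.lf (nat_lit 304) (nat_lit 152163265) (nat_lit 0) (nat_lit 101243797) (nat_lit 228) (nat_lit 61374323) (nat_lit 236) (nat_lit 1) (nat_lit 232) (nat_lit 1) (nat_lit 235) (nat_lit 1) (nat_lit 409) (nat_lit 316) (nat_lit 295)) (XT.nd (nat_lit 78) (nat_lit 304) (nat_lit 0) (XT.lf (nat_lit 228) (nat_lit 37721498) (nat_lit 0) (nat_lit 88327828) (nat_lit 152) (nat_lit 179507005) (nat_lit 233) (nat_lit 1) (nat_lit 230) (nat_lit 1) (nat_lit 232) (nat_lit 1) (nat_lit 410) (nat_lit 316) (nat_lit 294)) (XT.lf (nat_lit 76) (nat_lit 6390262) (nat_lit 0) (nat_lit 71508427) (nat_lit 304) (nat_lit 218790176) (nat_lit 227) (nat_lit 1) (nat_lit 226) (nat_lit 1) (nat_lit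 230) (nat_lit 1) (nat_lit 411) (nat_lit 316) (nat_lit 293)))) (XT.nd (nat_lit 51168) (nat_lit 0) (nat_lit 5244) (XT.nd (nat_lit 51090) (nat_lit 0) (nat_lit 5168) (XT.lf (nat_lit 228) (nat_lit 109611752) (nat_lit 0) (nat_lit 68497941) (nat_lit 152) (nat_lit 109993202) (nat_lit 227) (nat_lit 1) (nat_lit 224) (nat_lit 1) (nat_lit 226) (nat_lit 1) (nat_lit 412) (nat_lit 316) (nat_lit 292)) (XT.lf (nat_lit 836) (nat_lit 91517321) (nat_lit 0) (nat_lit 162488794) (nat_lit 836) (nat_lit 91517321) (nat_lit 303) (nat_lit 1) (nat_lit 292) (nat_lit 0) (nat_lit 303) (nat_lit 0) (nat_lit 386) (nat_lit 317) (nat_lit 317))) (XT.nd (nat_lit 78) (nat_lit 0) (nat_lit 0) (XT.lf (nat_lit 836) (nat_lit 34138769) (nat_lit 0) (nat_lit 319014750) (nat_lit 760) (nat_lit 311995360) (nat_lit 304) (nat_lit 1) (nat_lit 293) (nat_lit 1) (nat_lit 303) (nat_lit 1) (nat_lit 387) (nat_lit 317) (nat_lit 316)) (XT.lf (nat_lit 836)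 (nat_lit 313544889) (nat_lit 76) (nat_lit 213644285) (nat_lit 0) (nat_lit 113307183) (nat_lit 304) (nat_lit 1) (nat_lit 294) (nat_lit 1) (nat_lit 293) (nat_lit 1) (nat_lit 388) (nat_lit 317) (nat_lit 315))))))))
noncomputable def ec3 : XT := (XT.nd (nat_lit 52962) (nat_lit 532) (nat_lit 0) (XT.nd (nat_lit 1014) (nat_lit 2584) (nat_lit 0) (XT.nd (nat_lit 468) (nat_lit 2052) (nat_lit 0) (XT.nd (nat_lit 234) (nat_lit 1064) (nat_lit 0) (XT.nd (nat_lit 78) (nat_lit 0) (nat_lit 76) (XT.lf (nat_lit 836) (nat_lit 270928470) (nat_lit 76) (nat_lit 89536839) (nat_lit 0) (nat_lit 256612203) (nat_lit 305) (nat_lit 1) (nat_lit 295) (nat_lit 1) (nat_lit 294) (nat_lit 1) (nat_lit 389) (nat_lit 317) (nat_lit 314)) (XT.nd (nat_lit 78) (nat_lit 0) (nat_lit 76) (XT.lf (nat_lit 836) (nat_lit 200510101) (nat_lit 0) (nat_lit 375144923) (nat_lit 760) (nat_lit 19177354) (nat_lit 306) (nat_lit 1) (nat_lit 295) (nat_lit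 1) (nat_lit 305) (nat_lit 1) (nat_lit 390) (nat_lit 317) (nat_lit 313)) (XT.lf (nat_lit 836) (nat_lit 48110433) (nat_lit 0) (nat_lit 413701497) (nat_lit 760) (nat_lit 111837676) (nat_lit 307) (nat_lit 1) (nat_lit 296) (nat_lit 1) (nat_lit 306) (nat_lit 1) (nat_lit 391) (nat_lit 317) (nat_lit 312)))) (XT.nd (nat_lit 78) (nat_lit 1216) (nat_lit 0) (XT.lf (nat_lit 836) (nat_lit 92448684) (nat_lit 76) (nat_lit 359540290) (nat_lit 0) (nat_lit 101466705) (nat_lit 307) (nat_lit 1) (nat_lit 297) (nat_lit 1) (nat_lit 296) (nat_lit 1) (nat_lit 392) (nat_lit 317) (nat_lit 311)) (XT.nd (nat_lit 78) (nat_lit 532) (nat_lit 0) (XT.lf (nat_lit 836) (nat_lit 18986851) (nat_lit 0) (nat_lit 268780149) (nat_lit 760) (nat_lit 246468580) (nat_lit 298) (nat_lit 1) (nat_lit 287) (nat_lit 1) (nat_lit 297) (nat_lit 1) (nat_lit 393) (nat_lit 317) (nat_lit 310)) (XT.lf (nat_lit 76) (nat_lit 131468915) (nat_lit 0) (nat_lit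 56971599) (nat_lit 532) (nat_lit 327485022) (nat_lit 281) (nat_lit 1) (nat_lit 280) (nat_lit 1) (nat_lit 287) (nat_lit 1) (nat_lit 394) (nat_lit 317) (nat_lit 309))))) (XT.nd (nat_lit 234) (nat_lit 988) (nat_lit 0) (XT.nd (nat_lit 78) (nat_lit 684) (nat_lit 0) (XT.lf (nat_lit 456) (nat_lit 362311783) (nat_lit 0) (nat_lit 117940296) (nat_lit 380) (nat_lit 18234298) (nat_lit 281) (nat_lit 1) (nat_lit 275) (nat_lit 1) (nat_lit 280) (nat_lit 1) (nat_lit 395) (nat_lit 317) (nat_lit 308)) (XT.nd (nat_lit 78) (nat_lit 304) (nat_lit 0) (XT.lf (nat_lit 456) (nat_lit 261447633) (nat_lit 0) (nat_lit 54972480) (nat_lit 380) (nat_lit 165376959) (nat_lit 276) (nat_lit 1) (nat_lit 270) (nat_lit 1) (nat_lit 275) (nat_lit 1) (nat_lit 396) (nat_lit 317) (nat_lit 307)) (XT.lf (nat_lit 380) (nat_lit 159087550) (nat_lit 0) (nat_lit 1012132) (nat_lit 304) (nat_lit 305817312) (nat_lit 271) (nat_lit 1) (nat_lit 266)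 (nat_lit 1) (nat_lit 270) (nat_lit 1) (nat_lit 397) (nat_lit 317) (nat_lit 306)))) (XT.nd (nat_lit 156) (nat_lit 608) (nat_lit 0) (XT.nd (nat_lit 78) (nat_lit 380) (nat_lit 0) (XT.lf (nat_lit 76) (nat_lit 11736727) (nat_lit 0) (nat_lit 395819326) (nat_lit 380) (nat_lit 43211375) (nat_lit 267) (nat_lit 1) (nat_lit 266) (nat_lit 1) (nat_lit 271) (nat_lit 1) (nat_lit 398) (nat_lit 317) (nat_lit 305)) (XT.lf (nat_lit 76) (nat_lit 303045351) (nat_lit 0) (nat_lit 50263314) (nat_lit 380) (nat_lit 82893333) (nat_lit 262) (nat_lit 1) (nat_lit 261) (nat_lit 1) (nat_lit 266) (nat_lit 1) (nat_lit 399) (nat_lit 317) (nat_lit 304))) (XT.nd (nat_lit 78) (nat_lit 304) (nat_lit 0) (XT.lf (nat_lit 76) (nat_lit 151621268) (nat_lit 0) (nat_lit 153965453) (nat_lit 380) (nat_lit 116693420) (nat_lit 258) (nat_lit 1) (nat_lit 257) (nat_lit 1) (nat_lit 262) (nat_lit 1) (nat_lit 400) (nat_lit 317) (nat_lit 303)) (XT.lf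 (nat_lit 76) (nat_lit 7483689) (nat_lit 0) (nat_lit 257427847) (nat_lit 380) (nat_lit 144105903) (nat_lit 254) (nat_lit 1) (nat_lit 253) (nat_lit 1) (nat_lit 258) (nat_lit 1) (nat_lit 401) (nat_lit 317) (nat_lit 302)))))) (XT.nd (nat_lit 546) (nat_lit 836) (nat_lit 0) (XT.nd (nat_lit 234) (nat_lit 912) (nat_lit 0) (XT.nd (nat_lit 78) (nat_lit 608) (nat_lit 0) (XT.lf (nat_lit 304) (nat_lit 33795920) (nat_lit 0) (nat_lit 228545633) (nat_lit 228) (nat_lit 133932993) (nat_lit 254) (nat_lit 1) (nat_lit 250) (nat_lit 1) (nat_lit 253) (nat_lit 1) (nat_lit 402) (nat_lit 317) (nat_lit 301)) (XT.nd (nat_lit 78) (nat_lit 228) (nat_lit 0) (XT.lf (nat_lit 76) (nat_lit 116773991) (nat_lit 0) (nat_lit 80037619) (nat_lit 380) (nat_lit 187246475) (nat_lit 246) (nat_lit 1) (nat_lit 245) (nat_lit 1) (nat_lit 250) (nat_lit 1) (nat_lit 403) (nat_lit 317) (nat_lit 300)) (XT.lf (nat_lit 304) (nat_lit 180794226) (nat_lit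 0) (nat_lit 169832809) (nat_lit 228) (nat_lit 21738397) (nat_lit 246) (nat_lit 1) (nat_lit 242) (nat_lit 1) (nat_lit 245) (nat_lit 1) (nat_lit 404) (nat_lit 317) (nat_lit 299)))) (XT.nd (nat_lit 156) (nat_lit 380) (nat_lit 0) (XT.nd (nat_lit 78) (nat_lit 304) (nat_lit 0) (XT.lf (nat_lit 304) (nat_lit 57943676) (nat_lit 0) (nat_lit 146219094) (nat_lit 228) (nat_lit 156959363) (nat_lit 243) (nat_lit 1) (nat_lit 239) (nat_lit 1) (nat_lit 242) (nat_lit 1) (nat_lit 405) (nat_lit 317) (nat_lit 298)) (XT.lf (nat_lit 76) (nat_lit 66041789) (nat_lit 0) (nat_lit 60466997) (nat_lit 304) (nat_lit 223837000) (nat_lit 236) (nat_lit 1) (nat_lit 235) (nat_lit 1) (nat_lit 239) (nat_lit 1) (nat_lit 406) (nat_lit 317) (nat_lit 297))) (XT.nd (nat_lit 78) (nat_lit 152) (nat_lit 0) (XT.lf (nat_lit 304) (nat_lit 164336326) (nat_lit 0) (nat_lit 109343301) (nat_lit 228) (nat_lit 66284268) (nat_lit 236) (nat_lit 1) (nat_lit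 232) (nat_lit 1) (nat_lit 235) (nat_lit 1) (nat_lit 407) (nat_lit 317) (nat_lit 296)) (XT.lf (nat_lit 228) (nat_lit 40739217) (nat_lit 0) (nat_lit 95394055) (nat_lit 152) (nat_lit 193867566) (nat_lit 233) (nat_lit 1) (nat_lit 230) (nat_lit 1) (nat_lit 232) (nat_lit 1) (nat_lit 408) (nat_lit 317) (nat_lit 295))))) (XT.nd (nat_lit 234) (nat_lit 152) (nat_lit 0) (XT.nd (nat_lit 78) (nat_lit 380) (nat_lit 0) (XT.lf (nat_lit 76) (nat_lit 6901483) (nat_lit 0) (nat_lit 77229101) (nat_lit 304) (nat_lit 236293390) (nat_lit 227) (nat_lit 1) (nat_lit 226) (nat_lit 1) (nat_lit 230) (nat_lit 1) (nat_lit 409) (nat_lit 317) (nat_lit 294)) (XT.nd (nat_lit 78) (nat_lit 228) (nat_lit 0) (XT.lf (nat_lit 228) (nat_lit 118380692) (nat_lit 0) (nat_lit 73977776) (nat_lit 152) (nat_lit 118792658) (nat_lit 227) (nat_lit 1) (nat_lit 224) (nat_lit 1) (nat_lit 226) (nat_lit 1) (nat_lit 410) (nat_lit 317) (nat_lit 293))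 (XT.lf (nat_lit 76) (nat_lit 64228416) (nat_lit 0) (nat_lit 2966750) (nat_lit 228) (nat_lit 235087745) (nat_lit 222) (nat_lit 1) (nat_lit 221) (nat_lit 1) (nat_lit 224) (nat_lit 1) (nat_lit 411) (nat_lit 317) (nat_lit 292)))) (XT.nd (nat_lit 51012) (nat_lit 0) (nat_lit 5624) (XT.nd (nat_lit 50934) (nat_lit 0) (nat_lit 5548) (XT.lf (nat_lit 228) (nat_lit 175588087) (nat_lit 0) (nat_lit 60845209) (nat_lit 152) (nat_lit 57239371) (nat_lit 222) (nat_lit 1) (nat_lit 219) (nat_lit 1) (nat_lit 221) (nat_lit 1) (nat_lit 412) (nat_lit 317) (nat_lit 291)) (XT.lf (nat_lit 836) (nat_lit 98838707) (nat_lit 0) (nat_lit 175487898) (nat_lit 836) (nat_lit 98838707) (nat_lit 303) (nat_lit 1) (nat_lit 292) (nat_lit 0) (nat_lit 303) (nat_lit 0) (nat_lit 384) (nat_lit 318) (nat_lit 318))) (XT.nd (nat_lit 78) (nat_lit 0) (nat_lit 0) (XT.lf (nat_lit 836) (nat_lit 36869870) (nat_lit 0) (nat_lit 344535930) (nat_lit 760)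 (nat_lit 336954988) (nat_lit 304) (nat_lit 1) (nat_lit 293) (nat_lit 1) (nat_lit 303) (nat_lit 1) (nat_lit 385) (nat_lit 318) (nat_lit 317)) (XT.lf (nat_lit 836) (nat_lit 338628481) (nat_lit 76) (nat_lit 230735828) (nat_lit 0) (nat_lit 122371758) (nat_lit 304) (nat_lit 1) (nat_lit 294) (nat_lit 1) (nat_lit 293) (nat_lit 1) (nat_lit 386) (nat_lit 318) (nat_lit 316))))))) (XT.nd (nat_lit 1014) (nat_lit 3116) (nat_lit 0) (XT.nd (nat_lit 468) (nat_lit 2052) (nat_lit 0) (XT.nd (nat_lit 234) (nat_lit 1064) (nat_lit 0) (XT.nd (nat_lit 78) (nat_lit 0) (nat_lit 76) (XT.lf (nat_lit 836) (nat_lit 292602748) (nat_lit 76) (nat_lit 96699786) (nat_lit 0) (nat_lit 277141179) (nat_lit 305) (nat_lit 1) (nat_lit 295) (nat_lit 1) (nat_lit 294) (nat_lit 1) (nat_lit 387) (nat_lit 318) (nat_lit 315)) (XT.nd (nat_lit 78) (nat_lit 0) (nat_lit 76) (XT.lf (nat_lit 836) (nat_lit 216550910) (nat_lit 0) (nat_lit 405156516)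 (nat_lit 760) (nat_lit 20711543) (nat_lit 306) (nat_lit 1) (nat_lit 295) (nat_lit 1) (nat_lit 305) (nat_lit 1) (nat_lit 388) (nat_lit 318) (nat_lit 314)) (XT.lf (nat_lit 836) (nat_lit 51959267) (nat_lit 0) (nat_lit 446797616) (nat_lit 760) (nat_lit 120784691) (nat_lit 307) (nat_lit 1) (nat_lit 296) (nat_lit 1) (nat_lit 306) (nat_lit 1) (nat_lit 389) (nat_lit 318) (nat_lit 313)))) (XT.nd (nat_lit 78) (nat_lit 1216) (nat_lit 0) (XT.lf (nat_lit 836) (nat_lit 99844578) (nat_lit 76) (nat_lit 388303513) (nat_lit 0) (nat_lit 109584042) (nat_lit 307) (nat_lit 1) (nat_lit 297) (nat_lit 1) (nat_lit 296) (nat_lit 1) (nat_lit 390) (nat_lit 318) (nat_lit 312)) (XT.nd (nat_lit 78) (nat_lit 532) (nat_lit 0) (XT.lf (nat_lit 836) (nat_lit 20505799) (nat_lit 0) (nat_lit 290282561) (nat_lit 760) (nat_lit 266186067) (nat_lit 298) (nat_lit 1) (nat_lit 287) (nat_lit 1) (nat_lit 297) (nat_lit 1) (nat_lit 391) (nat_lit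 318) (nat_lit 311)) (XT.lf (nat_lit 76) (nat_lit 141986428) (nat_lit 0) (nat_lit 61529327) (nat_lit 532) (nat_lit 353683824) (nat_lit 281) (nat_lit 1) (nat_lit 280) (nat_lit 1) (nat_lit 287) (nat_lit 1) (nat_lit 392) (nat_lit 318) (nat_lit 310))))) (XT.nd (nat_lit 234) (nat_lit 988) (nat_lit 0) (XT.nd (nat_lit 78) (nat_lit 684) (nat_lit 0) (XT.lf (nat_lit 456) (nat_lit 391296726) (nat_lit 0) (nat_lit 127375520) (nat_lit 380) (nat_lit 19693042) (nat_lit 281) (nat_lit 1) (nat_lit 275) (nat_lit 1) (nat_lit 280) (nat_lit 1) (nat_lit 393) (nat_lit 318) (nat_lit 309)) (XT.nd (nat_lit 78) (nat_lit 304) (nat_lit 0) (XT.lf (nat_lit 456) (nat_lit 282363444) (nat_lit 0) (nat_lit 59370278) (nat_lit 380) (nat_lit 178607116) (nat_lit 276) (nat_lit 1) (nat_lit 270) (nat_lit 1) (nat_lit 275) (nat_lit 1) (nat_lit 394) (nat_lit 318) (nat_lit 308)) (XT.lf (nat_lit 380) (nat_lit 171814554) (nat_lit 0) (nat_lit 1093103)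 (nat_lit 304) (nat_lit 330282697) (nat_lit 271) (nat_lit 1) (nat_lit 266) (nat_lit 1) (nat_lit 270) (nat_lit 1) (nat_lit 395) (nat_lit 318) (nat_lit 307)))) (XT.nd (nat_lit 156) (nat_lit 608) (nat_lit 0) (XT.nd (nat_lit 78) (nat_lit 380) (nat_lit 0) (XT.lf (nat_lit 76) (nat_lit 12675665) (nat_lit 0) (nat_lit 427484872) (nat_lit 380) (nat_lit 46668285) (nat_lit 267) (nat_lit 1) (nat_lit 266) (nat_lit 1) (nat_lit 271) (nat_lit 1) (nat_lit 396) (nat_lit 318) (nat_lit 306)) (XT.lf (nat_lit 76) (nat_lit 327288979) (nat_lit 0) (nat_lit 54284379) (nat_lit 380) (nat_lit 89524800) (nat_lit 262) (nat_lit 1) (nat_lit 261) (nat_lit 1) (nat_lit 266) (nat_lit 1) (nat_lit 397) (nat_lit 318) (nat_lit 305))) (XT.nd (nat_lit 78) (nat_lit 304) (nat_lit 0) (XT.lf (nat_lit 76) (nat_lit 163750970) (nat_lit 0) (nat_lit 166282689) (nat_lit 380) (nat_lit 126028894) (nat_lit 258) (nat_lit 1) (nat_lit 257) (nat_lit 1)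 (nat_lit 262) (nat_lit 1) (nat_lit 398) (nat_lit 318) (nat_lit 304)) (XT.lf (nat_lit 76) (nat_lit 8082384) (nat_lit 0) (nat_lit 278022075) (nat_lit 380) (nat_lit 155634375) (nat_lit 254) (nat_lit 1) (nat_lit 253) (nat_lit 1) (nat_lit 258) (nat_lit 1) (nat_lit 399) (nat_lit 318) (nat_lit 303)))))) (XT.nd (nat_lit 546) (nat_lit 1368) (nat_lit 0) (XT.nd (nat_lit 234) (nat_lit 912) (nat_lit 0) (XT.nd (nat_lit 78) (nat_lit 608) (nat_lit 0) (XT.lf (nat_lit 304) (nat_lit 36499594) (nat_lit 0) (nat_lit 246829283) (nat_lit 228) (nat_lit 144647633) (nat_lit 254) (nat_lit 1) (nat_lit 250) (nat_lit 1) (nat_lit 253) (nat_lit 1) (nat_lit 400) (nat_lit 318) (nat_lit 302)) (XT.nd (nat_lit 78) (nat_lit 228) (nat_lit 0) (XT.lf (nat_lit 76) (nat_lit 126115911) (nat_lit 0) (nat_lit 86440629) (nat_lit 380) (nat_lit 202226193) (nat_lit 246) (nat_lit 1) (nat_lit 245) (nat_lit 1) (nat_lit 250) (nat_lit 1) (nat_lit 401)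 (nat_lit 318) (nat_lit 301)) (XT.lf (nat_lit 304) (nat_lit 195257765) (nat_lit 0) (nat_lit 183419433) (nat_lit 228) (nat_lit 23477469) (nat_lit 246) (nat_lit 1) (nat_lit 242) (nat_lit 1) (nat_lit 245) (nat_lit 1) (nat_lit 402) (nat_lit 318) (nat_lit 300)))) (XT.nd (nat_lit 156) (nat_lit 380) (nat_lit 0) (XT.nd (nat_lit 78) (nat_lit 304) (nat_lit 0) (XT.lf (nat_lit 304) (nat_lit 62579170) (nat_lit 0) (nat_lit 157916621) (nat_lit 228) (nat_lit 169516112) (nat_lit 243) (nat_lit 1) (nat_lit 239) (nat_lit 1) (nat_lit 242) (nat_lit 1) (nat_lit 403) (nat_lit 318) (nat_lit 299)) (XT.lf (nat_lit 76) (nat_lit 71325133) (nat_lit 0) (nat_lit 65304357) (nat_lit 304) (nat_lit 241743961) (nat_lit 236) (nat_lit 1) (nat_lit 235) (nat_lit 1) (nat_lit 239) (nat_lit 1) (nat_lit 404) (nat_lit 318) (nat_lit 298))) (XT.nd (nat_lit 78) (nat_lit 152) (nat_lit 0) (XT.lf (nat_lit 304) (nat_lit 177483232) (nat_lit 0) (nat_lit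 118090765) (nat_lit 228) (nat_lit 71587010) (nat_lit 236) (nat_lit 1) (nat_lit 232) (nat_lit 1) (nat_lit 235) (nat_lit 1) (nat_lit 405) (nat_lit 318) (nat_lit 297)) (XT.lf (nat_lit 228) (nat_lit 43998355) (nat_lit 0) (nat_lit 103025579) (nat_lit 152) (nat_lit 209376971) (nat_lit 233) (nat_lit 1) (nat_lit 230) (nat_lit 1) (nat_lit 232) (nat_lit 1) (nat_lit 406) (nat_lit 318) (nat_lit 296))))) (XT.nd (nat_lit 234) (nat_lit 684) (nat_lit 0) (XT.nd (nat_lit 78) (nat_lit 380) (nat_lit 0) (XT.lf (nat_lit 76) (nat_lit 7453602) (nat_lit 0) (nat_lit 83407430) (nat_lit 304) (nat_lit 255196861) (nat_lit 227) (nat_lit 1) (nat_lit 226) (nat_lit 1) (nat_lit 230) (nat_lit 1) (nat_lit 407) (nat_lit 318) (nat_lit 295)) (XT.nd (nat_lit 78) (nat_lit 228) (nat_lit 0) (XT.lf (nat_lit 228) (nat_lit 127851147) (nat_lit 0) (nat_lit 79895998) (nat_lit 152) (nat_lit 128296070) (nat_lit 227) (nat_lit 1) (nat_lit 224) (nat_lit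 1) (nat_lit 226) (nat_lit 1) (nat_lit 408) (nat_lit 318) (nat_lit 294)) (XT.lf (nat_lit 76) (nat_lit 69366689) (nat_lit 0) (nat_lit 3204090) (nat_lit 228) (nat_lit 253894765) (nat_lit 222) (nat_lit 1) (nat_lit 221) (nat_lit 1) (nat_lit 224) (nat_lit 1) (nat_lit 409) (nat_lit 318) (nat_lit 293)))) (XT.nd (nat_lit 156) (nat_lit 380) (nat_lit 0) (XT.nd (nat_lit 78) (nat_lit 152) (nat_lit 0) (XT.lf (nat_lit 228) (nat_lit 189635134) (nat_lit 0) (nat_lit 65712826) (nat_lit 152) (nat_lit 61818521) (nat_lit 222) (nat_lit 1) (nat_lit 219) (nat_lit 1) (nat_lit 221) (nat_lit 1) (nat_lit 410) (nat_lit 318) (nat_lit 292)) (XT.lf (nat_lit 228) (nat_lit 58908272) (nat_lit 0) (nat_lit 61087338) (nat_lit 152) (nat_lit 188227352) (nat_lit 220) (nat_lit 1) (nat_lit 217) (nat_lit 1) (nat_lit 219) (nat_lit 1) (nat_lit 411) (nat_lit 318) (nat_lit 291))) (XT.nd (nat_lit 78) (nat_lit 152) (nat_lit 0) (XT.lf (nat_lit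 228) (nat_lit 233844190) (nat_lit 0) (nat_lit 58363993) (nat_lit 152) (nat_lit 7404149) (nat_lit 217) (nat_lit 1) (nat_lit 214) (nat_lit 1) (nat_lit 216) (nat_lit 1) (nat_lit 412) (nat_lit 318) (nat_lit 290)) (XT.lf (nat_lit 228) (nat_lit 104657821) (nat_lit 0) (nat_lit 55717936) (nat_lit 152) (nat_lit 130865208) (nat_lit 215) (nat_lit 1) (nat_lit 212) (nat_lit 1) (nat_lit 214) (nat_lit 1) (nat_lit 413) (nat_lit 318) (nat_lit 289))))))))
noncomputable def ec4 : XT := (XT.nd (nat_lit 2028) (nat_lit 988) (nat_lit 0) (XT.nd (nat_lit 1014) (nat_lit 3420) (nat_lit 0) (XT.nd (nat_lit 468) (nat_lit 1976) (nat_lit 0) (XT.nd (nat_lit 234) (nat_lit 0) (nat_lit 152) (XT.nd (nat_lit 78) (nat_lit 0) (nat_lit 76) (XT.lf (nat_lit 836) (nat_lit 106745804) (nat_lit 0) (nat_lit 189526930) (nat_lit 836) (nat_lit 106745804) (nat_lit 303) (nat_lit 1) (nat_lit 292) (nat_lit 0) (nat_lit 303) (nat_lit 0) (nat_lit 382)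 (nat_lit 319) (nat_lit 319)) (XT.nd (nat_lit 78) (nat_lit 0) (nat_lit 0) (XT.lf (nat_lit 836) (nat_lit 39819460) (nat_lit 0) (nat_lit 372098804) (nat_lit 760) (nat_lit 363911388) (nat_lit 304) (nat_lit 1) (nat_lit 293) (nat_lit 1) (nat_lit 303) (nat_lit 1) (nat_lit 383) (nat_lit 319) (nat_lit 318)) (XT.lf (nat_lit 836) (nat_lit 365718759) (nat_lit 76) (nat_lit 249194695) (nat_lit 0) (nat_lit 132161498) (nat_lit 304) (nat_lit 1) (nat_lit 294) (nat_lit 1) (nat_lit 293) (nat_lit 1) (nat_lit 384) (nat_lit 319) (nat_lit 317)))) (XT.nd (nat_lit 78) (nat_lit 0) (nat_lit 76) (XT.lf (nat_lit 836) (nat_lit 316010968) (nat_lit 76) (nat_lit 104435769) (nat_lit 0) (nat_lit 299312474) (nat_lit 305) (nat_lit 1) (nat_lit 295) (nat_lit 1) (nat_lit 294) (nat_lit 1) (nat_lit 385) (nat_lit 319) (nat_lit 316)) (XT.nd (nat_lit 78) (nat_lit 0) (nat_lit 76) (XT.lf (nat_lit 836) (nat_lit 233874982) (nat_lit 0) (nat_lit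 437569038) (nat_lit 760) (nat_lit 22368466) (nat_lit 306) (nat_lit 1) (nat_lit 295) (nat_lit 1) (nat_lit 305) (nat_lit 1) (nat_lit 386) (nat_lit 319) (nat_lit 315)) (XT.lf (nat_lit 836) (nat_lit 56116009) (nat_lit 0) (nat_lit 482541426) (nat_lit 760) (nat_lit 130447466) (nat_lit 307) (nat_lit 1) (nat_lit 296) (nat_lit 1) (nat_lit 306) (nat_lit 1) (nat_lit 387) (nat_lit 319) (nat_lit 314))))) (XT.nd (nat_lit 234) (nat_lit 1064) (nat_lit 0) (XT.nd (nat_lit 78) (nat_lit 1216) (nat_lit 0) (XT.lf (nat_lit 836) (nat_lit 107832145) (nat_lit 76) (nat_lit 419367794) (nat_lit 0) (nat_lit 118350765) (nat_lit 307) (nat_lit 1) (nat_lit 297) (nat_lit 1) (nat_lit 296) (nat_lit 1) (nat_lit 388) (nat_lit 319) (nat_lit 313)) (XT.nd (nat_lit 78) (nat_lit 532) (nat_lit 0) (XT.lf (nat_lit 836) (nat_lit 22146263) (nat_lit 0) (nat_lit 313505166) (nat_lit 760) (nat_lit 287480952) (nat_lit 298) (nat_lit 1) (nat_lit 287)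 (nat_lit 1) (nat_lit 297) (nat_lit 1) (nat_lit 389) (nat_lit 319) (nat_lit 312)) (XT.lf (nat_lit 76) (nat_lit 153345343) (nat_lit 0) (nat_lit 66451673) (nat_lit 532) (nat_lit 381978530) (nat_lit 281) (nat_lit 1) (nat_lit 280) (nat_lit 1) (nat_lit 287) (nat_lit 1) (nat_lit 390) (nat_lit 319) (nat_lit 311)))) (XT.nd (nat_lit 156) (nat_lit 304) (nat_lit 0) (XT.nd (nat_lit 78) (nat_lit 380) (nat_lit 0) (XT.lf (nat_lit 456) (nat_lit 422600464) (nat_lit 0) (nat_lit 137565561) (nat_lit 380) (nat_lit 21268485) (nat_lit 281) (nat_lit 1) (nat_lit 275) (nat_lit 1) (nat_lit 280) (nat_lit 1) (nat_lit 391) (nat_lit 319) (nat_lit 310)) (XT.lf (nat_lit 456) (nat_lit 304952519) (nat_lit 0) (nat_lit 64119900) (nat_lit 380) (nat_lit 192895685) (nat_lit 276) (nat_lit 1) (nat_lit 270) (nat_lit 1) (nat_lit 275) (nat_lit 1) (nat_lit 392) (nat_lit 319) (nat_lit 309))) (XT.nd (nat_lit 78) (nat_lit 0) (nat_lit 0) (XT.lf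 (nat_lit 380) (nat_lit 185559718) (nat_lit 0) (nat_lit 1180551) (nat_lit 304) (nat_lit 356705313) (nat_lit 271) (nat_lit 1) (nat_lit 266) (nat_lit 1) (nat_lit 270) (nat_lit 1) (nat_lit 393) (nat_lit 319) (nat_lit 308)) (XT.lf (nat_lit 76) (nat_lit 13689719) (nat_lit 0) (nat_lit 461683662) (nat_lit 380) (nat_lit 50401748) (nat_lit 267) (nat_lit 1) (nat_lit 266) (nat_lit 1) (nat_lit 271) (nat_lit 1) (nat_lit 394) (nat_lit 319) (nat_lit 307)))))) (XT.nd (nat_lit 468) (nat_lit 1596) (nat_lit 0) (XT.nd (nat_lit 234) (nat_lit 836) (nat_lit 0) (XT.nd (nat_lit 78) (nat_lit 608) (nat_lit 0) (XT.lf (nat_lit 76) (nat_lit 353472097) (nat_lit 0) (nat_lit 58627129) (nat_lit 380) (nat_lit 96686784) (nat_lit 262) (nat_lit 1) (nat_lit 261) (nat_lit 1) (nat_lit 266) (nat_lit 1) (nat_lit 395) (nat_lit 319) (nat_lit 306)) (XT.nd (nat_lit 78) (nat_lit 304) (nat_lit 0) (XT.lf (nat_lit 76) (nat_lit 176851047) (nat_lit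 0) (nat_lit 179585305) (nat_lit 380) (nat_lit 136111205) (nat_lit 258) (nat_lit 1) (nat_lit 257) (nat_lit 1) (nat_lit 262) (nat_lit 1) (nat_lit 396) (nat_lit 319) (nat_lit 305)) (XT.lf (nat_lit 76) (nat_lit 8728975) (nat_lit 0) (nat_lit 300263841) (nat_lit 380) (nat_lit 168085125) (nat_lit 254) (nat_lit 1) (nat_lit 253) (nat_lit 1) (nat_lit 258) (nat_lit 1) (nat_lit 397) (nat_lit 319) (nat_lit 304)))) (XT.nd (nat_lit 78) (nat_lit 608) (nat_lit 0) (XT.lf (nat_lit 304) (nat_lit 39419561) (nat_lit 0) (nat_lit 266575626) (nat_lit 228) (nat_lit 156219443) (nat_lit 254) (nat_lit 1) (nat_lit 250) (nat_lit 1) (nat_lit 253) (nat_lit 1) (nat_lit 398) (nat_lit 319) (nat_lit 303)) (XT.nd (nat_lit 78) (nat_lit 228) (nat_lit 0) (XT.lf (nat_lit 76) (nat_lit 136205183) (nat_lit 0) (nat_lit 93355879) (nat_lit 380) (nat_lit 218404288) (nat_lit 246) (nat_lit 1) (nat_lit 245) (nat_lit 1) (nat_lit 250) (nat_lit 1)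 (nat_lit 399) (nat_lit 319) (nat_lit 302)) (XT.lf (nat_lit 304) (nat_lit 210878386) (nat_lit 0) (nat_lit 198092988) (nat_lit 228) (nat_lit 25355667) (nat_lit 246) (nat_lit 1) (nat_lit 242) (nat_lit 1) (nat_lit 245) (nat_lit 1) (nat_lit 400) (nat_lit 319) (nat_lit 301))))) (XT.nd (nat_lit 234) (nat_lit 836) (nat_lit 0) (XT.nd (nat_lit 78) (nat_lit 532) (nat_lit 0) (XT.lf (nat_lit 304) (nat_lit 67585504) (nat_lit 0) (nat_lit 170549951) (nat_lit 228) (nat_lit 183077401) (nat_lit 243) (nat_lit 1) (nat_lit 239) (nat_lit 1) (nat_lit 242) (nat_lit 1) (nat_lit 401) (nat_lit 319) (nat_lit 300)) (XT.nd (nat_lit 78) (nat_lit 228) (nat_lit 0) (XT.lf (nat_lit 76) (nat_lit 77031143) (nat_lit 0) (nat_lit 70528706) (nat_lit 304) (nat_lit 261083477) (nat_lit 236) (nat_lit 1) (nat_lit 235) (nat_lit 1) (nat_lit 239) (nat_lit 1) (nat_lit 402) (nat_lit 319) (nat_lit 299)) (XT.lf (nat_lit 304) (nat_lit 191681890)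 (nat_lit 0) (nat_lit 127538027) (nat_lit 228) (nat_lit 77313971) (nat_lit 236) (nat_lit 1) (nat_lit 232) (nat_lit 1) (nat_lit 235) (nat_lit 1) (nat_lit 403) (nat_lit 319) (nat_lit 298)))) (XT.nd (nat_lit 156) (nat_lit 380) (nat_lit 0) (XT.nd (nat_lit 78) (nat_lit 304) (nat_lit 0) (XT.lf (nat_lit 228) (nat_lit 47518223) (nat_lit 0) (nat_lit 111267625) (nat_lit 152) (nat_lit 226127129) (nat_lit 233) (nat_lit 1) (nat_lit 230) (nat_lit 1) (nat_lit 232) (nat_lit 1) (nat_lit 404) (nat_lit 319) (nat_lit 297)) (XT.lf (nat_lit 76) (nat_lit 8049890) (nat_lit 0) (nat_lit 90080024) (nat_lit 304) (nat_lit 275612610) (nat_lit 227) (nat_lit 1) (nat_lit 226) (nat_lit 1) (nat_lit 230) (nat_lit 1) (nat_lit 405) (nat_lit 319) (nat_lit 296))) (XT.nd (nat_lit 78) (nat_lit 228) (nat_lit 0) (XT.lf (nat_lit 228) (nat_lit 138079239) (nat_lit 0) (nat_lit 86287678) (nat_lit 152) (nat_lit 138559756) (nat_lit 227) (nat_lit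 1) (nat_lit 224) (nat_lit 1) (nat_lit 226) (nat_lit 1) (nat_lit 406) (nat_lit 319) (nat_lit 295)) (XT.lf (nat_lit 76) (nat_lit 74916024) (nat_lit 0) (nat_lit 3460418) (nat_lit 228) (nat_lit 274206346) (nat_lit 222) (nat_lit 1) (nat_lit 221) (nat_lit 1) (nat_lit 224) (nat_lit 1) (nat_lit 407) (nat_lit 319) (nat_lit 294))))))) (XT.nd (nat_lit 51480) (nat_lit 0) (nat_lit 2052) (XT.nd (nat_lit 50934) (nat_lit 0) (nat_lit 6384) (XT.nd (nat_lit 234) (nat_lit 456) (nat_lit 0) (XT.nd (nat_lit 78) (nat_lit 380) (nat_lit 0) (XT.lf (nat_lit 228) (nat_lit 204805945) (nat_lit 0) (nat_lit 70969852) (nat_lit 152) (nat_lit 66764003) (nat_lit 222) (nat_lit 1) (nat_lit 219) (nat_lit 1) (nat_lit 221) (nat_lit 1) (nat_lit 408) (nat_lit 319) (nat_lit 293)) (XT.nd (nat_lit 78) (nat_lit 228) (nat_lit 0) (XT.lf (nat_lit 228) (nat_lit 63620933) (nat_lit 0) (nat_lit 65974325) (nat_lit 152) (nat_lit 203285540) (nat_lit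 220) (nat_lit 1) (nat_lit 217) (nat_lit 1) (nat_lit 219) (nat_lit 1) (nat_lit 409) (nat_lit 319) (nat_lit 292)) (XT.lf (nat_lit 228) (nat_lit 252551725) (nat_lit 0) (nat_lit 63033113) (nat_lit 152) (nat_lit 7996481) (nat_lit 217) (nat_lit 1) (nat_lit 214) (nat_lit 1) (nat_lit 216) (nat_lit 1) (nat_lit 410) (nat_lit 319) (nat_lit 291)))) (XT.nd (nat_lit 78) (nat_lit 304) (nat_lit 0) (XT.lf (nat_lit 228) (nat_lit 113030447) (nat_lit 0) (nat_lit 60175371) (nat_lit 152) (nat_lit 141334425) (nat_lit 215) (nat_lit 1) (nat_lit 212) (nat_lit 1) (nat_lit 214) (nat_lit 1) (nat_lit 411) (nat_lit 319) (nat_lit 290)) (XT.nd (nat_lit 78) (nat_lit 152) (nat_lit 0) (XT.lf (nat_lit 76) (nat_lit 38717292) (nat_lit 0) (nat_lit 21280768) (nat_lit 152) (nat_lit 245876108) (nat_lit 211) (nat_lit 1) (nat_lit 210) (nat_lit 1) (nat_lit 212) (nat_lit 1) (nat_lit 412) (nat_lit 319) (nat_lit 289)) (XT.lf (nat_lit 228) (nat_lit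 148302447) (nat_lit 0) (nat_lit 59362748) (nat_lit 152) (nat_lit 89761578) (nat_lit 211) (nat_lit 1) (nat_lit 208) (nat_lit 1) (nat_lit 210) (nat_lit 1) (nat_lit 413) (nat_lit 319) (nat_lit 288))))) (XT.nd (nat_lit 234) (nat_lit 0) (nat_lit 152) (XT.nd (nat_lit 78) (nat_lit 0) (nat_lit 76) (XT.lf (nat_lit 836) (nat_lit 115285468) (nat_lit 0) (nat_lit 204689084) (nat_lit 836) (nat_lit 115285468) (nat_lit 303) (nat_lit 1) (nat_lit 292) (nat_lit 0) (nat_lit 303) (nat_lit 0) (nat_lit 380) (nat_lit 320) (nat_lit 320)) (XT.nd (nat_lit 78) (nat_lit 0) (nat_lit 0) (XT.lf (nat_lit 836) (nat_lit 43005017) (nat_lit 0) (nat_lit 401866709) (nat_lit 760) (nat_lit 393024299) (nat_lit 304) (nat_lit 1) (nat_lit 293) (nat_lit 1) (nat_lit 303) (nat_lit 1) (nat_lit 381) (nat_lit 320) (nat_lit 319)) (XT.lf (nat_lit 836) (nat_lit 394976260) (nat_lit 76) (nat_lit 269130270) (nat_lit 0) (nat_lit 142734418) (nat_lit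 304) (nat_lit 1) (nat_lit 294) (nat_lit 1) (nat_lit 293) (nat_lit 1) (nat_lit 382) (nat_lit 320) (nat_lit 318)))) (XT.nd (nat_lit 156) (nat_lit 0) (nat_lit 152) (XT.nd (nat_lit 78) (nat_lit 0) (nat_lit 76) (XT.lf (nat_lit 836) (nat_lit 341291845) (nat_lit 76) (nat_lit 112790631) (nat_lit 0) (nat_lit 323257472) (nat_lit 305) (nat_lit 1) (nat_lit 295) (nat_lit 1) (nat_lit 294) (nat_lit 1) (nat_lit 383) (nat_lit 320) (nat_lit 317)) (XT.lf (nat_lit 836) (nat_lit 252584981) (nat_lit 0) (nat_lit 472574561) (nat_lit 760) (nat_lit 24157944) (nat_lit 306) (nat_lit 1) (nat_lit 295) (nat_lit 1) (nat_lit 305) (nat_lit 1) (nat_lit 384) (nat_lit 320) (nat_lit 316))) (XT.nd (nat_lit 78) (nat_lit 0) (nat_lit 0) (XT.lf (nat_lit 836) (nat_lit 60605289) (nat_lit 0) (nat_lit 521144740) (nat_lit 760) (nat_lit 140883263) (nat_lit 307) (nat_lit 1) (nat_lit 296) (nat_lit 1) (nat_lit 306) (nat_lit 1) (nat_lit 385) (nat_lit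 320) (nat_lit 315)) (XT.lf (nat_lit 836) (nat_lit 116458716) (nat_lit 76) (nat_lit 452917217) (nat_lit 0) (nat_lit 127818826) (nat_lit 307) (nat_lit 1) (nat_lit 297) (nat_lit 1) (nat_lit 296) (nat_lit 1) (nat_lit 386) (nat_lit 320) (nat_lit 314)))))) (XT.nd (nat_lit 546) (nat_lit 1976) (nat_lit 0) (XT.nd (nat_lit 234) (nat_lit 1064) (nat_lit 0) (XT.nd (nat_lit 78) (nat_lit 912) (nat_lit 0) (XT.lf (nat_lit 836) (nat_lit 23917964) (nat_lit 0) (nat_lit 338585579) (nat_lit 760) (nat_lit 310479428) (nat_lit 298) (nat_lit 1) (nat_lit 287) (nat_lit 1) (nat_lit 297) (nat_lit 1) (nat_lit 387) (nat_lit 320) (nat_lit 313)) (XT.nd (nat_lit 78) (nat_lit 380) (nat_lit 0) (XT.lf (nat_lit 76) (nat_lit 165612970) (nat_lit 0) (nat_lit 71767807) (nat_lit 532) (nat_lit 412536812) (nat_lit 281) (nat_lit 1) (nat_lit 280) (nat_lit 1) (nat_lit 287) (nat_lit 1) (nat_lit 388) (nat_lit 320) (nat_lit 312)) (XT.lf (nat_lit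 456) (nat_lit 456408501) (nat_lit 0) (nat_lit 148570806) (nat_lit 380) (nat_lit 22969964) (nat_lit 281) (nat_lit 1) (nat_lit 275) (nat_lit 1) (nat_lit 280) (nat_lit 1) (nat_lit 389) (nat_lit 320) (nat_lit 311)))) (XT.nd (nat_lit 156) (nat_lit 380) (nat_lit 0) (XT.nd (nat_lit 78) (nat_lit 304) (nat_lit 0) (XT.lf (nat_lit 456) (nat_lit 329348721) (nat_lit 0) (nat_lit 69249493) (nat_lit 380) (nat_lit 208327340) (nat_lit 276) (nat_lit 1) (nat_lit 270) (nat_lit 1) (nat_lit 275) (nat_lit 1) (nat_lit 390) (nat_lit 320) (nat_lit 310)) (XT.lf (nat_lit 380) (nat_lit 200404496) (nat_lit 0) (nat_lit 1274995) (nat_lit 304) (nat_lit 385241738) (nat_lit 271) (nat_lit 1) (nat_lit 266) (nat_lit 1) (nat_lit 270) (nat_lit 1) (nat_lit 391) (nat_lit 320) (nat_lit 309))) (XT.nd (nat_lit 78) (nat_lit 380) (nat_lit 0) (XT.lf (nat_lit 76) (nat_lit 14784896) (nat_lit 0) (nat_lit 498618355) (nat_lit 380) (nat_lit 54433888)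 (nat_lit 267) (nat_lit 1) (nat_lit 266) (nat_lit 1) (nat_lit 271) (nat_lit 1) (nat_lit 392) (nat_lit 320) (nat_lit 308)) (XT.lf (nat_lit 76) (nat_lit 381749865) (nat_lit 0) (nat_lit 63317299) (nat_lit 380) (nat_lit 104421726) (nat_lit 262) (nat_lit 1) (nat_lit 261) (nat_lit 1) (nat_lit 266) (nat_lit 1) (nat_lit 393) (nat_lit 320) (nat_lit 307))))) (XT.nd (nat_lit 234) (nat_lit 1140) (nat_lit 0) (XT.nd (nat_lit 78) (nat_lit 532) (nat_lit 0) (XT.lf (nat_lit 76) (nat_lit 190999131) (nat_lit 0) (nat_lit 193952129) (nat_lit 380) (nat_lit 147000102) (nat_lit 258) (nat_lit 1) (nat_lit 257) (nat_lit 1) (nat_lit 262) (nat_lit 1) (nat_lit 394) (nat_lit 320) (nat_lit 306)) (XT.nd (nat_lit 78) (nat_lit 228) (nat_lit 0) (XT.lf (nat_lit 76) (nat_lit 9427293) (nat_lit 0) (nat_lit 324284948) (nat_lit 380) (nat_lit 181531935) (nat_lit 254) (nat_lit 1) (nat_lit 253) (nat_lit 1) (nat_lit 258) (nat_lit 1) (nat_lit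 395) (nat_lit 320) (nat_lit 305)) (XT.lf (nat_lit 304) (nat_lit 42573126) (nat_lit 0) (nat_lit 287901676) (nat_lit 228) (nat_lit 168716999) (nat_lit 254) (nat_lit 1) (nat_lit 250) (nat_lit 1) (nat_lit 253) (nat_lit 1) (nat_lit 396) (nat_lit 320) (nat_lit 304)))) (XT.nd (nat_lit 156) (nat_lit 532) (nat_lit 0) (XT.nd (nat_lit 78) (nat_lit 228) (nat_lit 0) (XT.lf (nat_lit 76) (nat_lit 147101598) (nat_lit 0) (nat_lit 100824349) (nat_lit 380) (nat_lit 235876631) (nat_lit 246) (nat_lit 1) (nat_lit 245) (nat_lit 1) (nat_lit 250) (nat_lit 1) (nat_lit 397) (nat_lit 320) (nat_lit 303)) (XT.lf (nat_lit 304) (nat_lit 227748657) (nat_lit 0) (nat_lit 213940427) (nat_lit 228) (nat_lit 27384120) (nat_lit 246) (nat_lit 1) (nat_lit 242) (nat_lit 1) (nat_lit 245) (nat_lit 1) (nat_lit 398) (nat_lit 320) (nat_lit 302))) (XT.nd (nat_lit 78) (nat_lit 304) (nat_lit 0) (XT.lf (nat_lit 304) (nat_lit 72992344) (nat_lit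 0) (nat_lit 184193947) (nat_lit 228) (nat_lit 197723593) (nat_lit 243) (nat_lit 1) (nat_lit 239) (nat_lit 1) (nat_lit 242) (nat_lit 1) (nat_lit 399) (nat_lit 320) (nat_lit 301)) (XT.lf (nat_lit 76) (nat_lit 83193635) (nat_lit 0) (nat_lit 76171002) (nat_lit 304) (nat_lit 281970156) (nat_lit 236) (nat_lit 1) (nat_lit 235) (nat_lit 1) (nat_lit 239) (nat_lit 1) (nat_lit 400) (nat_lit 320) (nat_lit 300))))))))
noncomputable def ec5 : XT := (XT.nd (nat_lit 52416) (nat_lit 304) (nat_lit 0) (XT.nd (nat_lit 51324) (nat_lit 0) (nat_lit 4332) (XT.nd (nat_lit 468) (nat_lit 1140) (nat_lit 0) (XT.nd (nat_lit 234) (nat_lit 532) (nat_lit 0) (XT.nd (nat_lit 78) (nat_lit 456) (nat_lit 0) (XT.lf (nat_lit 304) (nat_lit 207016442) (nat_lit 0) (nat_lit 137741069) (nat_lit 228) (nat_lit 83499089) (nat_lit 236) (nat_lit 1) (nat_lit 232) (nat_lit 1) (nat_lit 235) (nat_lit 1) (nat_lit 401) (nat_lit 320) (nat_lit 299))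 (XT.nd (nat_lit 78) (nat_lit 304) (nat_lit 0) (XT.lf (nat_lit 228) (nat_lit 51319681) (nat_lit 0) (nat_lit 120169036) (nat_lit 152) (nat_lit 244217299) (nat_lit 233) (nat_lit 1) (nat_lit 230) (nat_lit 1) (nat_lit 232) (nat_lit 1) (nat_lit 402) (nat_lit 320) (nat_lit 298)) (XT.lf (nat_lit 76) (nat_lit 8693881) (nat_lit 0) (nat_lit 97286426) (nat_lit 304) (nat_lit 297661619) (nat_lit 227) (nat_lit 1) (nat_lit 226) (nat_lit 1) (nat_lit 230) (nat_lit 1) (nat_lit 403) (nat_lit 320) (nat_lit 297)))) (XT.nd (nat_lit 78) (nat_lit 380) (nat_lit 0) (XT.lf (nat_lit 228) (nat_lit 149125578) (nat_lit 0) (nat_lit 93190693) (nat_lit 152) (nat_lit 149644537) (nat_lit 227) (nat_lit 1) (nat_lit 224) (nat_lit 1) (nat_lit 226) (nat_lit 1) (nat_lit 404) (nat_lit 320) (nat_lit 296)) (XT.nd (nat_lit 78) (nat_lit 152) (nat_lit 0) (XT.lf (nat_lit 76) (nat_lit 80909306) (nat_lit 0) (nat_lit 3737251) (nat_lit 228) (nat_lit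 296142854) (nat_lit 222) (nat_lit 1) (nat_lit 221) (nat_lit 1) (nat_lit 224) (nat_lit 1) (nat_lit 405) (nat_lit 320) (nat_lit 295)) (XT.lf (nat_lit 228) (nat_lit 221190421) (nat_lit 0) (nat_lit 76647440) (nat_lit 152) (nat_lit 72105123) (nat_lit 222) (nat_lit 1) (nat_lit 219) (nat_lit 1) (nat_lit 221) (nat_lit 1) (nat_lit 406) (nat_lit 320) (nat_lit 294))))) (XT.nd (nat_lit 234) (nat_lit 608) (nat_lit 0) (XT.nd (nat_lit 78) (nat_lit 380) (nat_lit 0) (XT.lf (nat_lit 228) (nat_lit 68710608) (nat_lit 0) (nat_lit 71252271) (nat_lit 152) (nat_lit 219548383) (nat_lit 220) (nat_lit 1) (nat_lit 217) (nat_lit 1) (nat_lit 219) (nat_lit 1) (nat_lit 407) (nat_lit 320) (nat_lit 293)) (XT.nd (nat_lit 78) (nat_lit 152) (nat_lit 0) (XT.lf (nat_lit 228) (nat_lit 272755863) (nat_lit 0) (nat_lit 68075762) (nat_lit 152) (nat_lit 8636200) (nat_lit 217) (nat_lit 1) (nat_lit 214) (nat_lit 1) (nat_lit 216) (nat_lit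 1) (nat_lit 408) (nat_lit 320) (nat_lit 292)) (XT.lf (nat_lit 228) (nat_lit 122072883) (nat_lit 0) (nat_lit 64989401) (nat_lit 152) (nat_lit 152641179) (nat_lit 215) (nat_lit 1) (nat_lit 212) (nat_lit 1) (nat_lit 214) (nat_lit 1) (nat_lit 409) (nat_lit 320) (nat_lit 291)))) (XT.nd (nat_lit 156) (nat_lit 304) (nat_lit 0) (XT.nd (nat_lit 78) (nat_lit 152) (nat_lit 0) (XT.lf (nat_lit 76) (nat_lit 41814675) (nat_lit 0) (nat_lit 22983229) (nat_lit 152) (nat_lit 265546197) (nat_lit 211) (nat_lit 1) (nat_lit 210) (nat_lit 1) (nat_lit 212) (nat_lit 1) (nat_lit 410) (nat_lit 320) (nat_lit 290)) (XT.lf (nat_lit 228) (nat_lit 160166643) (nat_lit 0) (nat_lit 64111768) (nat_lit 152) (nat_lit 96942504) (nat_lit 211) (nat_lit 1) (nat_lit 208) (nat_lit 1) (nat_lit 210) (nat_lit 1) (nat_lit 411) (nat_lit 320) (nat_lit 289))) (XT.nd (nat_lit 78) (nat_lit 228) (nat_lit 0) (XT.lf (nat_lit 152) (nat_lit 17247671)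 (nat_lit 0) (nat_lit 65686435) (nat_lit 76) (nat_lit 229523793) (nat_lit 209) (nat_lit 1) (nat_lit 207) (nat_lit 1) (nat_lit 208) (nat_lit 1) (nat_lit 412) (nat_lit 320) (nat_lit 288)) (XT.lf (nat_lit 228) (nat_lit 186182247) (nat_lit 0) (nat_lit 67179695) (nat_lit 152) (nat_lit 50574567) (nat_lit 207) (nat_lit 1) (nat_lit 204) (nat_lit 1) (nat_lit 206) (nat_lit 1) (nat_lit 413) (nat_lit 320) (nat_lit 287)))))) (XT.nd (nat_lit 546) (nat_lit 2356) (nat_lit 0) (XT.nd (nat_lit 234) (nat_lit 0) (nat_lit 152) (XT.nd (nat_lit 78) (nat_lit 0) (nat_lit 76) (XT.lf (nat_lit 836) (nat_lit 124508306) (nat_lit 0) (nat_lit 221064211) (nat_lit 836) (nat_lit 124508306) (nat_lit 303) (nat_lit 1) (nat_lit 292) (nat_lit 0) (nat_lit 303) (nat_lit 0) (nat_lit 378) (nat_lit 321) (nat_lit 321)) (XT.nd (nat_lit 78) (nat_lit 0) (nat_lit 0) (XT.lf (nat_lit 836) (nat_lit 46445418) (nat_lit 0) (nat_lit 434016046) (nat_lit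 760) (nat_lit 424466243) (nat_lit 304) (nat_lit 1) (nat_lit 293) (nat_lit 1) (nat_lit 303) (nat_lit 1) (nat_lit 379) (nat_lit 321) (nat_lit 320)) (XT.lf (nat_lit 836) (nat_lit 426574361) (nat_lit 76) (nat_lit 290660692) (nat_lit 0) (nat_lit 154153172) (nat_lit 304) (nat_lit 1) (nat_lit 294) (nat_lit 1) (nat_lit 293) (nat_lit 1) (nat_lit 380) (nat_lit 321) (nat_lit 319)))) (XT.nd (nat_lit 156) (nat_lit 0) (nat_lit 152) (XT.nd (nat_lit 78) (nat_lit 0) (nat_lit 76) (XT.lf (nat_lit 836) (nat_lit 368595193) (nat_lit 76) (nat_lit 121813881) (nat_lit 0) (nat_lit 349118069) (nat_lit 305) (nat_lit 1) (nat_lit 295) (nat_lit 1) (nat_lit 294) (nat_lit 1) (nat_lit 381) (nat_lit 321) (nat_lit 318)) (XT.lf (nat_lit 836) (nat_lit 272791780) (nat_lit 0) (nat_lit 510380526) (nat_lit 760) (nat_lit 26090579) (nat_lit 306) (nat_lit 1) (nat_lit 295) (nat_lit 1) (nat_lit 305) (nat_lit 1) (nat_lit 382) (nat_lit 321)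 (nat_lit 317))) (XT.nd (nat_lit 78) (nat_lit 0) (nat_lit 0) (XT.lf (nat_lit 836) (nat_lit 65453712) (nat_lit 0) (nat_lit 562836319) (nat_lit 760) (nat_lit 152153924) (nat_lit 307) (nat_lit 1) (nat_lit 296) (nat_lit 1) (nat_lit 306) (nat_lit 1) (nat_lit 383) (nat_lit 321) (nat_lit 316)) (XT.lf (nat_lit 836) (nat_lit 125775414) (nat_lit 76) (nat_lit 489150595) (nat_lit 0) (nat_lit 138044332) (nat_lit 307) (nat_lit 1) (nat_lit 297) (nat_lit 1) (nat_lit 296) (nat_lit 1) (nat_lit 384) (nat_lit 321) (nat_lit 315))))) (XT.nd (nat_lit 234) (nat_lit 1064) (nat_lit 0) (XT.nd (nat_lit 78) (nat_lit 912) (nat_lit 0) (XT.lf (nat_lit 836) (nat_lit 25831401) (nat_lit 0) (nat_lit 365672426) (nat_lit 760) (nat_lit 335317783) (nat_lit 298) (nat_lit 1) (nat_lit 287) (nat_lit 1) (nat_lit 297) (nat_lit 1) (nat_lit 385) (nat_lit 321) (nat_lit 314)) (XT.nd (nat_lit 78) (nat_lit 380) (nat_lit 0) (XT.lf (nat_lit 76) (nat_lit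 178862008) (nat_lit 0) (nat_lit 77509231) (nat_lit 532) (nat_lit 445539757) (nat_lit 281) (nat_lit 1) (nat_lit 280) (nat_lit 1) (nat_lit 287) (nat_lit 1) (nat_lit 386) (nat_lit 321) (nat_lit 313)) (XT.lf (nat_lit 456) (nat_lit 492921181) (nat_lit 0) (nat_lit 160456471) (nat_lit 380) (nat_lit 24807561) (nat_lit 281) (nat_lit 1) (nat_lit 275) (nat_lit 1) (nat_lit 280) (nat_lit 1) (nat_lit 387) (nat_lit 321) (nat_lit 312)))) (XT.nd (nat_lit 156) (nat_lit 380) (nat_lit 0) (XT.nd (nat_lit 78) (nat_lit 304) (nat_lit 0) (XT.lf (nat_lit 456) (nat_lit 355696618) (nat_lit 0) (nat_lit 74789452) (nat_lit 380) (nat_lit 224993527) (nat_lit 276) (nat_lit 1) (nat_lit 270) (nat_lit 1) (nat_lit 275) (nat_lit 1) (nat_lit 388) (nat_lit 321) (nat_lit 311)) (XT.lf (nat_lit 380) (nat_lit 216436856) (nat_lit 0) (nat_lit 1376995) (nat_lit 304) (nat_lit 416061077) (nat_lit 271) (nat_lit 1) (nat_lit 266) (nat_lit 1) (nat_lit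 270) (nat_lit 1) (nat_lit 389) (nat_lit 321) (nat_lit 310))) (XT.nd (nat_lit 78) (nat_lit 380) (nat_lit 0) (XT.lf (nat_lit 76) (nat_lit 15967688) (nat_lit 0) (nat_lit 538507824) (nat_lit 380) (nat_lit 58788599) (nat_lit 267) (nat_lit 1) (nat_lit 266) (nat_lit 1) (nat_lit 271) (nat_lit 1) (nat_lit 390) (nat_lit 321) (nat_lit 309)) (XT.lf (nat_lit 76) (nat_lit 412289855) (nat_lit 0) (nat_lit 68382683) (nat_lit 380) (nat_lit 112775465) (nat_lit 262) (nat_lit 1) (nat_lit 261) (nat_lit 1) (nat_lit 266) (nat_lit 1) (nat_lit 391) (nat_lit 321) (nat_lit 308))))))) (XT.nd (nat_lit 1014) (nat_lit 1444) (nat_lit 0) (XT.nd (nat_lit 468) (nat_lit 1520) (nat_lit 0) (XT.nd (nat_lit 234) (nat_lit 836) (nat_lit 0) (XT.nd (nat_lit 78) (nat_lit 532) (nat_lit 0) (XT.lf (nat_lit 76) (nat_lit 206279062) (nat_lit 0) (nat_lit 209468299) (nat_lit 380) (nat_lit 158760110) (nat_lit 258) (nat_lit 1) (nat_lit 257) (nat_lit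 1) (nat_lit 262) (nat_lit 1) (nat_lit 392) (nat_lit 321) (nat_lit 307)) (XT.nd (nat_lit 78) (nat_lit 228) (nat_lit 0) (XT.lf (nat_lit 76) (nat_lit 10181477) (nat_lit 0) (nat_lit 350227744) (nat_lit 380) (nat_lit 196054490) (nat_lit 254) (nat_lit 1) (nat_lit 253) (nat_lit 1) (nat_lit 258) (nat_lit 1) (nat_lit 393) (nat_lit 321) (nat_lit 306)) (XT.lf (nat_lit 304) (nat_lit 45978976) (nat_lit 0) (nat_lit 310933810) (nat_lit 228) (nat_lit 182214359) (nat_lit 254) (nat_lit 1) (nat_lit 250) (nat_lit 1) (nat_lit 253) (nat_lit 1) (nat_lit 394) (nat_lit 321) (nat_lit 305)))) (XT.nd (nat_lit 78) (nat_lit 456) (nat_lit 0) (XT.lf (nat_lit 76) (nat_lit 158869726) (nat_lit 0) (nat_lit 108890297) (nat_lit 380) (nat_lit 254746762) (nat_lit 246) (nat_lit 1) (nat_lit 245) (nat_lit 1) (nat_lit 250) (nat_lit 1) (nat_lit 395) (nat_lit 321) (nat_lit 304)) (XT.nd (nat_lit 78) (nat_lit 228) (nat_lit 0) (XT.lf (nat_lit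 304) (nat_lit 245968549) (nat_lit 0) (nat_lit 231055661) (nat_lit 228) (nat_lit 29574850) (nat_lit 246) (nat_lit 1) (nat_lit 242) (nat_lit 1) (nat_lit 245) (nat_lit 1) (nat_lit 396) (nat_lit 321) (nat_lit 303)) (XT.lf (nat_lit 304) (nat_lit 78831731) (nat_lit 0) (nat_lit 198929463) (nat_lit 228) (nat_lit 213541480) (nat_lit 243) (nat_lit 1) (nat_lit 239) (nat_lit 1) (nat_lit 242) (nat_lit 1) (nat_lit 397) (nat_lit 321) (nat_lit 302))))) (XT.nd (nat_lit 234) (nat_lit 836) (nat_lit 0) (XT.nd (nat_lit 78) (nat_lit 380) (nat_lit 0) (XT.lf (nat_lit 76) (nat_lit 89849126) (nat_lit 0) (nat_lit 82264682) (nat_lit 304) (nat_lit 304527768) (nat_lit 236) (nat_lit 1) (nat_lit 235) (nat_lit 1) (nat_lit 239) (nat_lit 1) (nat_lit 398) (nat_lit 321) (nat_lit 301)) (XT.nd (nat_lit 78) (nat_lit 152) (nat_lit 0) (XT.lf (nat_lit 304) (nat_lit 223577757) (nat_lit 0) (nat_lit 148760354) (nat_lit 228) (nat_lit 90179016)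 (nat_lit 236) (nat_lit 1) (nat_lit 232) (nat_lit 1) (nat_lit 235) (nat_lit 1) (nat_lit 399) (nat_lit 321) (nat_lit 300)) (XT.lf (nat_lit 228) (nat_lit 55425256) (nat_lit 0) (nat_lit 129782558) (nat_lit 152) (nat_lit 263754683) (nat_lit 233) (nat_lit 1) (nat_lit 230) (nat_lit 1) (nat_lit 232) (nat_lit 1) (nat_lit 400) (nat_lit 321) (nat_lit 299)))) (XT.nd (nat_lit 156) (nat_lit 380) (nat_lit 0) (XT.nd (nat_lit 78) (nat_lit 152) (nat_lit 0) (XT.lf (nat_lit 76) (nat_lit 9389392) (nat_lit 0) (nat_lit 105069340) (nat_lit 304) (nat_lit 321474549) (nat_lit 227) (nat_lit 1) (nat_lit 226) (nat_lit 1) (nat_lit 230) (nat_lit 1) (nat_lit 401) (nat_lit 321) (nat_lit 298)) (XT.lf (nat_lit 228) (nat_lit 161055624) (nat_lit 0) (nat_lit 100645948) (nat_lit 152) (nat_lit 161616099) (nat_lit 227) (nat_lit 1) (nat_lit 224) (nat_lit 1) (nat_lit 226) (nat_lit 1) (nat_lit 402) (nat_lit 321) (nat_lit 297))) (XT.nd (nat_lit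 78) (nat_lit 152) (nat_lit 0) (XT.lf (nat_lit 76) (nat_lit 87382051) (nat_lit 0) (nat_lit 4036231) (nat_lit 228) (nat_lit 319834282) (nat_lit 222) (nat_lit 1) (nat_lit 221) (nat_lit 1) (nat_lit 224) (nat_lit 1) (nat_lit 403) (nat_lit 321) (nat_lit 296)) (XT.lf (nat_lit 228) (nat_lit 238885654) (nat_lit 0) (nat_lit 82779235) (nat_lit 152) (nat_lit 77873533) (nat_lit 222) (nat_lit 1) (nat_lit 219) (nat_lit 1) (nat_lit 221) (nat_lit 1) (nat_lit 404) (nat_lit 321) (nat_lit 295)))))) (XT.nd (nat_lit 546) (nat_lit 304) (nat_lit 0) (XT.nd (nat_lit 234) (nat_lit 608) (nat_lit 0) (XT.nd (nat_lit 78) (nat_lit 380) (nat_lit 0) (XT.lf (nat_lit 228) (nat_lit 74207457) (nat_lit 0) (nat_lit 76952453) (nat_lit 152) (nat_lit 237112254) (nat_lit 220) (nat_lit 1) (nat_lit 217) (nat_lit 1) (nat_lit 219) (nat_lit 1) (nat_lit 405) (nat_lit 321) (nat_lit 294)) (XT.nd (nat_lit 78) (nat_lit 152) (nat_lit 0) (XT.lf (nat_lit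 228) (nat_lit 294576333) (nat_lit 0) (nat_lit 73521823) (nat_lit 152) (nat_lit 9327096) (nat_lit 217) (nat_lit 1) (nat_lit 214) (nat_lit 1) (nat_lit 216) (nat_lit 1) (nat_lit 406) (nat_lit 321) (nat_lit 293)) (XT.lf (nat_lit 228) (nat_lit 131838714) (nat_lit 0) (nat_lit 70188553) (nat_lit 152) (nat_lit 164852473) (nat_lit 215) (nat_lit 1) (nat_lit 212) (nat_lit 1) (nat_lit 214) (nat_lit 1) (nat_lit 407) (nat_lit 321) (nat_lit 292)))) (XT.nd (nat_lit 156) (nat_lit 304) (nat_lit 0) (XT.nd (nat_lit 78) (nat_lit 152) (nat_lit 0) (XT.lf (nat_lit 76) (nat_lit 45159849) (nat_lit 0) (nat_lit 24821888) (nat_lit 152) (nat_lit 286789893) (nat_lit 211) (nat_lit 1) (nat_lit 210) (nat_lit 1) (nat_lit 212) (nat_lit 1) (nat_lit 408) (nat_lit 321) (nat_lit 291)) (XT.lf (nat_lit 228) (nat_lit 172979975) (nat_lit 0) (nat_lit 69240709) (nat_lit 152) (nat_lit 104697905) (nat_lit 211) (nat_lit 1) (nat_lit 208) (nat_lit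 1) (nat_lit 210) (nat_lit 1) (nat_lit 409) (nat_lit 321) (nat_lit 290))) (XT.nd (nat_lit 78) (nat_lit 228) (nat_lit 0) (XT.lf (nat_lit 152) (nat_lit 18627485) (nat_lit 0) (nat_lit 70941350) (nat_lit 76) (nat_lit 247885697) (nat_lit 209) (nat_lit 1) (nat_lit 207) (nat_lit 1) (nat_lit 208) (nat_lit 1) (nat_lit 410) (nat_lit 321) (nat_lit 289)) (XT.lf (nat_lit 228) (nat_lit 201076826) (nat_lit 0) (nat_lit 72554070) (nat_lit 152) (nat_lit 54620532) (nat_lit 207) (nat_lit 1) (nat_lit 204) (nat_lit 1) (nat_lit 206) (nat_lit 1) (nat_lit 411) (nat_lit 321) (nat_lit 288))))) (XT.nd (nat_lit 50388) (nat_lit 0) (nat_lit 7068) (XT.nd (nat_lit 78) (nat_lit 228) (nat_lit 0) (XT.lf (nat_lit 152) (nat_lit 50572304) (nat_lit 0) (nat_lit 75266940) (nat_lit 76) (nat_lit 193519245) (nat_lit 205) (nat_lit 1) (nat_lit 203) (nat_lit 1) (nat_lit 204) (nat_lit 1) (nat_lit 412) (nat_lit 321) (nat_lit 287)) (XT.nd (nat_lit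 50232) (nat_lit 0) (nat_lit 6992) (XT.lf (nat_lit 228) (nat_lit 218915069) (nat_lit 0) (nat_lit 78897087) (nat_lit 152) (nat_lit 12947687) (nat_lit 203) (nat_lit 1) (nat_lit 200) (nat_lit 1) (nat_lit 202) (nat_lit 1) (nat_lit 413) (nat_lit 321) (nat_lit 286)) (XT.lf (nat_lit 836) (nat_lit 134468970) (nat_lit 0) (nat_lit 238749348) (nat_lit 836) (nat_lit 134468970) (nat_lit 303) (nat_lit 1) (nat_lit 292) (nat_lit 0) (nat_lit 303) (nat_lit 0) (nat_lit 376) (nat_lit 322) (nat_lit 322)))) (XT.nd (nat_lit 156) (nat_lit 0) (nat_lit 76) (XT.nd (nat_lit 78) (nat_lit 0) (nat_lit 0) (XT.lf (nat_lit 836) (nat_lit 50161052) (nat_lit 0) (nat_lit 468737329) (nat_lit 760) (nat_lit 458423542) (nat_lit 304) (nat_lit 1) (nat_lit 293) (nat_lit 1) (nat_lit 303) (nat_lit 1) (nat_lit 377) (nat_lit 322) (nat_lit 321)) (XT.lf (nat_lit 836) (nat_lit 460700310) (nat_lit 76) (nat_lit 313913547) (nat_lit 0) (nat_lit 166485426)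 (nat_lit 304) (nat_lit 1) (nat_lit 294) (nat_lit 1) (nat_lit 293) (nat_lit 1) (nat_lit 378) (nat_lit 322) (nat_lit 320))) (XT.nd (nat_lit 78) (nat_lit 0) (nat_lit 76) (XT.lf (nat_lit 836) (nat_lit 398082809) (nat_lit 76) (nat_lit 131558992) (nat_lit 0) (nat_lit 377047515) (nat_lit 305) (nat_lit 1) (nat_lit 295) (nat_lit 1) (nat_lit 294) (nat_lit 1) (nat_lit 379) (nat_lit 322) (nat_lit 319)) (XT.lf (nat_lit 836) (nat_lit 294615122) (nat_lit 0) (nat_lit 551210968) (nat_lit 760) (nat_lit 28177825) (nat_lit 306) (nat_lit 1) (nat_lit 295) (nat_lit 1) (nat_lit 305) (nat_lit 1) (nat_lit 380) (nat_lit 322) (nat_lit 318))))))))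
noncomputable def ec6 : XT := (XT.nd (nat_lit 2028) (nat_lit 1064) (nat_lit 0) (XT.nd (nat_lit 1014) (nat_lit 2660) (nat_lit 0) (XT.nd (nat_lit 468) (nat_lit 1900) (nat_lit 0) (XT.nd (nat_lit 234) (nat_lit 1292) (nat_lit 0) (XT.nd (nat_lit 78) (nat_lit 684) (nat_lit 0) (XT.lf (nat_lit 836) (nat_lit 70690010) (nat_lit 0) (nat_lit 607863224) (nat_lit 760) (nat_lit 164326238) (nat_lit 307) (nat_lit 1) (nat_lit 296) (nat_lit 1) (nat_lit 306) (nat_lit 1) (nat_lit 381) (nat_lit 322) (nat_lit 317)) (XT.nd (nat_lit 78) (nat_lit 684) (nat_lit 0) (XT.lf (nat_lit 836) (nat_lit 135837447) (nat_lit 76) (nat_lit 528282642) (nat_lit 0) (nat_lit 149087879) (nat_lit 307) (nat_lit 1) (nat_lit 297) (nat_lit 1) (nat_lit 296) (nat_lit 1) (nat_lit 382) (nat_lit 322) (nat_lit 316)) (XT.lf (nat_lit 836) (nat_lit 27897914) (nat_lit 0) (nat_lit 394926220) (nat_lit 760) (nat_lit 362143205) (nat_lit 298) (nat_lit 1) (nat_lit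 287) (nat_lit 1) (nat_lit 297) (nat_lit 1) (nat_lit 383) (nat_lit 322) (nat_lit 315)))) (XT.nd (nat_lit 78) (nat_lit 760) (nat_lit 0) (XT.lf (nat_lit 76) (nat_lit 193170968) (nat_lit 0) (nat_lit 83709970) (nat_lit 532) (nat_lit 481182937) (nat_lit 281) (nat_lit 1) (nat_lit 280) (nat_lit 1) (nat_lit 287) (nat_lit 1) (nat_lit 384) (nat_lit 322) (nat_lit 314)) (XT.nd (nat_lit 78) (nat_lit 380) (nat_lit 0) (XT.lf (nat_lit 456) (nat_lit 532354876) (nat_lit 0) (nat_lit 173292988) (nat_lit 380) (nat_lit 26792166) (nat_lit 281) (nat_lit 1) (nat_lit 275) (nat_lit 1) (nat_lit 280) (nat_lit 1) (nat_lit 385) (nat_lit 322) (nat_lit 313)) (XT.lf (nat_lit 456) (nat_lit 384152348) (nat_lit 0) (nat_lit 80772608) (nat_lit 380) (nat_lit 242993010) (nat_lit 276) (nat_lit 1) (nat_lit 270) (nat_lit 1) (nat_lit 275) (nat_lit 1) (nat_lit 386) (nat_lit 322) (nat_lit 312))))) (XT.nd (nat_lit 234) (nat_lit 1216) (nat_lit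 0) (XT.nd (nat_lit 78) (nat_lit 380) (nat_lit 0) (XT.lf (nat_lit 380) (nat_lit 233751804) (nat_lit 0) (nat_lit 1487154) (nat_lit 304) (nat_lit 449345963) (nat_lit 271) (nat_lit 1) (nat_lit 266) (nat_lit 1) (nat_lit 270) (nat_lit 1) (nat_lit 387) (nat_lit 322) (nat_lit 311)) (XT.nd (nat_lit 78) (nat_lit 380) (nat_lit 0) (XT.lf (nat_lit 76) (nat_lit 17245103) (nat_lit 0) (nat_lit 581588450) (nat_lit 380) (nat_lit 63491687) (nat_lit 267) (nat_lit 1) (nat_lit 266) (nat_lit 1) (nat_lit 271) (nat_lit 1) (nat_lit 388) (nat_lit 322) (nat_lit 310)) (XT.lf (nat_lit 76) (nat_lit 445273043) (nat_lit 0) (nat_lit 73853298) (nat_lit 380) (nat_lit 121797502) (nat_lit 262) (nat_lit 1) (nat_lit 261) (nat_lit 1) (nat_lit 266) (nat_lit 1) (nat_lit 389) (nat_lit 322) (nat_lit 309)))) (XT.nd (nat_lit 156) (nat_lit 608) (nat_lit 0) (XT.nd (nat_lit 78) (nat_lit 304) (nat_lit 0) (XT.lf (nat_lit 76) (nat_lit 222781387)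 (nat_lit 0) (nat_lit 226225763) (nat_lit 380) (nat_lit 171460919) (nat_lit 258) (nat_lit 1) (nat_lit 257) (nat_lit 1) (nat_lit 262) (nat_lit 1) (nat_lit 390) (nat_lit 322) (nat_lit 308)) (XT.lf (nat_lit 76) (nat_lit 10995995) (nat_lit 0) (nat_lit 378245964) (nat_lit 380) (nat_lit 211738849) (nat_lit 254) (nat_lit 1) (nat_lit 253) (nat_lit 1) (nat_lit 258) (nat_lit 1) (nat_lit 391) (nat_lit 322) (nat_lit 307))) (XT.nd (nat_lit 78) (nat_lit 380) (nat_lit 0) (XT.lf (nat_lit 304) (nat_lit 49657294) (nat_lit 0) (nat_lit 335808515) (nat_lit 228) (nat_lit 196791507) (nat_lit 254) (nat_lit 1) (nat_lit 250) (nat_lit 1) (nat_lit 253) (nat_lit 1) (nat_lit 392) (nat_lit 322) (nat_lit 306)) (XT.lf (nat_lit 76) (nat_lit 171579304) (nat_lit 0) (nat_lit 117601521) (nat_lit 380) (nat_lit 275126503) (nat_lit 246) (nat_lit 1) (nat_lit 245) (nat_lit 1) (nat_lit 250) (nat_lit 1) (nat_lit 393) (nat_lit 322) (nat_lit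 305)))))) (XT.nd (nat_lit 468) (nat_lit 1216) (nat_lit 0) (XT.nd (nat_lit 234) (nat_lit 684) (nat_lit 0) (XT.nd (nat_lit 78) (nat_lit 532) (nat_lit 0) (XT.lf (nat_lit 304) (nat_lit 265646033) (nat_lit 0) (nat_lit 249540114) (nat_lit 228) (nat_lit 31940838) (nat_lit 246) (nat_lit 1) (nat_lit 242) (nat_lit 1) (nat_lit 245) (nat_lit 1) (nat_lit 394) (nat_lit 322) (nat_lit 304)) (XT.nd (nat_lit 78) (nat_lit 304) (nat_lit 0) (XT.lf (nat_lit 304) (nat_lit 85138270) (nat_lit 0) (nat_lit 214843820) (nat_lit 228) (nat_lit 230624799) (nat_lit 243) (nat_lit 1) (nat_lit 239) (nat_lit 1) (nat_lit 242) (nat_lit 1) (nat_lit 395) (nat_lit 322) (nat_lit 303)) (XT.lf (nat_lit 76) (nat_lit 97037056) (nat_lit 0) (nat_lit 88845857) (nat_lit 304) (nat_lit 328889990) (nat_lit 236) (nat_lit 1) (nat_lit 235) (nat_lit 1) (nat_lit 239) (nat_lit 1) (nat_lit 396) (nat_lit 322) (nat_lit 302)))) (XT.nd (nat_lit 78) (nat_lit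 456) (nat_lit 0) (XT.lf (nat_lit 304) (nat_lit 241463978) (nat_lit 0) (nat_lit 160661183) (nat_lit 228) (nat_lit 97393337) (nat_lit 236) (nat_lit 1) (nat_lit 232) (nat_lit 1) (nat_lit 235) (nat_lit 1) (nat_lit 397) (nat_lit 322) (nat_lit 301)) (XT.nd (nat_lit 78) (nat_lit 304) (nat_lit 0) (XT.lf (nat_lit 228) (nat_lit 59859276) (nat_lit 0) (nat_lit 140165163) (nat_lit 152) (nat_lit 284855058) (nat_lit 233) (nat_lit 1) (nat_lit 230) (nat_lit 1) (nat_lit 232) (nat_lit 1) (nat_lit 398) (nat_lit 322) (nat_lit 300)) (XT.lf (nat_lit 76) (nat_lit 10140543) (nat_lit 0) (nat_lit 113474887) (nat_lit 304) (nat_lit 347192513) (nat_lit 227) (nat_lit 1) (nat_lit 226) (nat_lit 1) (nat_lit 230) (nat_lit 1) (nat_lit 399) (nat_lit 322) (nat_lit 299))))) (XT.nd (nat_lit 234) (nat_lit 684) (nat_lit 0) (XT.nd (nat_lit 78) (nat_lit 380) (nat_lit 0) (XT.lf (nat_lit 228) (nat_lit 173940074) (nat_lit 0) (nat_lit 108697624)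 (nat_lit 152) (nat_lit 174545387) (nat_lit 227) (nat_lit 1) (nat_lit 224) (nat_lit 1) (nat_lit 226) (nat_lit 1) (nat_lit 400) (nat_lit 322) (nat_lit 298)) (XT.nd (nat_lit 78) (nat_lit 152) (nat_lit 0) (XT.lf (nat_lit 76) (nat_lit 94372615) (nat_lit 0) (nat_lit 4359130) (nat_lit 228) (nat_lit 345421025) (nat_lit 222) (nat_lit 1) (nat_lit 221) (nat_lit 1) (nat_lit 224) (nat_lit 1) (nat_lit 401) (nat_lit 322) (nat_lit 297)) (XT.lf (nat_lit 228) (nat_lit 257996507) (nat_lit 0) (nat_lit 89401574) (nat_lit 152) (nat_lit 84103416) (nat_lit 222) (nat_lit 1) (nat_lit 219) (nat_lit 1) (nat_lit 221) (nat_lit 1) (nat_lit 402) (nat_lit 322) (nat_lit 296)))) (XT.nd (nat_lit 156) (nat_lit 304) (nat_lit 0) (XT.nd (nat_lit 78) (nat_lit 228) (nat_lit 0) (XT.lf (nat_lit 228) (nat_lit 80144053) (nat_lit 0) (nat_lit 83108649) (nat_lit 152) (nat_lit 256081234) (nat_lit 220) (nat_lit 1) (nat_lit 217) (nat_lit 1) (nat_lit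 219) (nat_lit 1) (nat_lit 403) (nat_lit 322) (nat_lit 295)) (XT.lf (nat_lit 228) (nat_lit 318142439) (nat_lit 0) (nat_lit 79403569) (nat_lit 152) (nat_lit 10073263) (nat_lit 217) (nat_lit 1) (nat_lit 214) (nat_lit 1) (nat_lit 216) (nat_lit 1) (nat_lit 404) (nat_lit 322) (nat_lit 294))) (XT.nd (nat_lit 78) (nat_lit 152) (nat_lit 0) (XT.lf (nat_lit 228) (nat_lit 142385811) (nat_lit 0) (nat_lit 75803637) (nat_lit 152) (nat_lit 178040671) (nat_lit 215) (nat_lit 1) (nat_lit 212) (nat_lit 1) (nat_lit 214) (nat_lit 1) (nat_lit 405) (nat_lit 322) (nat_lit 293)) (XT.lf (nat_lit 76) (nat_lit 48772637) (nat_lit 0) (nat_lit 26807639) (nat_lit 152) (nat_lit 309733084) (nat_lit 211) (nat_lit 1) (nat_lit 210) (nat_lit 1) (nat_lit 212) (nat_lit 1) (nat_lit 406) (nat_lit 322) (nat_lit 292))))))) (XT.nd (nat_lit 51012) (nat_lit 0) (nat_lit 3268) (XT.nd (nat_lit 468) (nat_lit 228) (nat_lit 0) (XT.nd (nat_lit 234)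 (nat_lit 380) (nat_lit 0) (XT.nd (nat_lit 78) (nat_lit 304) (nat_lit 0) (XT.lf (nat_lit 228) (nat_lit 186818373) (nat_lit 0) (nat_lit 74779966) (nat_lit 152) (nat_lit 113073737) (nat_lit 211) (nat_lit 1) (nat_lit 208) (nat_lit 1) (nat_lit 210) (nat_lit 1) (nat_lit 407) (nat_lit 322) (nat_lit 291)) (XT.nd (nat_lit 78) (nat_lit 228) (nat_lit 0) (XT.lf (nat_lit 152) (nat_lit 20117684) (nat_lit 0) (nat_lit 76616658) (nat_lit 76) (nat_lit 267716553) (nat_lit 209) (nat_lit 1) (nat_lit 207) (nat_lit 1) (nat_lit 208) (nat_lit 1) (nat_lit 408) (nat_lit 322) (nat_lit 290)) (XT.lf (nat_lit 228) (nat_lit 217162972) (nat_lit 0) (nat_lit 78358396) (nat_lit 152) (nat_lit 58990175) (nat_lit 207) (nat_lit 1) (nat_lit 204) (nat_lit 1) (nat_lit 206) (nat_lit 1) (nat_lit 409) (nat_lit 322) (nat_lit 289)))) (XT.nd (nat_lit 78) (nat_lit 304) (nat_lit 0) (XT.lf (nat_lit 152) (nat_lit 54618089) (nat_lit 0) (nat_lit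 81288295) (nat_lit 76) (nat_lit 209000784) (nat_lit 205) (nat_lit 1) (nat_lit 203) (nat_lit 1) (nat_lit 204) (nat_lit 1) (nat_lit 410) (nat_lit 322) (nat_lit 288)) (XT.nd (nat_lit 78) (nat_lit 76) (nat_lit 0) (XT.lf (nat_lit 228) (nat_lit 236428275) (nat_lit 0) (nat_lit 85208854) (nat_lit 152) (nat_lit 13983502) (nat_lit 203) (nat_lit 1) (nat_lit 200) (nat_lit 1) (nat_lit 202) (nat_lit 1) (nat_lit 411) (nat_lit 322) (nat_lit 287)) (XT.lf (nat_lit 152) (nat_lit 78602923) (nat_lit 0) (nat_lit 88831254) (nat_lit 76) (nat_lit 159148864) (nat_lit 201) (nat_lit 1) (nat_lit 199) (nat_lit 1) (nat_lit 200) (nat_lit 1) (nat_lit 412) (nat_lit 322) (nat_lit 286))))) (XT.nd (nat_lit 50232) (nat_lit 0) (nat_lit 7372) (XT.nd (nat_lit 50076) (nat_lit 0) (nat_lit 7296) (XT.lf (nat_lit 76) (nat_lit 22687931) (nat_lit 0) (nat_lit 71211370) (nat_lit 228) (nat_lit 223970826) (nat_lit 197) (nat_lit 1) (nat_lit 196)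 (nat_lit 1) (nat_lit 199) (nat_lit 1) (nat_lit 413) (nat_lit 322) (nat_lit 285)) (XT.nd (nat_lit 78) (nat_lit 0) (nat_lit 76) (XT.lf (nat_lit 836) (nat_lit 145226488) (nat_lit 0) (nat_lit 257849296) (nat_lit 836) (nat_lit 145226488) (nat_lit 303) (nat_lit 1) (nat_lit 292) (nat_lit 0) (nat_lit 303) (nat_lit 0) (nat_lit 374) (nat_lit 323) (nat_lit 323)) (XT.lf (nat_lit 836) (nat_lit 54173936) (nat_lit 0) (nat_lit 506236316) (nat_lit 760) (nat_lit 495097425) (nat_lit 304) (nat_lit 1) (nat_lit 293) (nat_lit 1) (nat_lit 303) (nat_lit 1) (nat_lit 375) (nat_lit 323) (nat_lit 322)))) (XT.nd (nat_lit 156) (nat_lit 0) (nat_lit 152) (XT.nd (nat_lit 78) (nat_lit 0) (nat_lit 76) (XT.lf (nat_lit 836) (nat_lit 497556334) (nat_lit 76) (nat_lit 339026631) (nat_lit 0) (nat_lit 179804260) (nat_lit 304) (nat_lit 1) (nat_lit 294) (nat_lit 1) (nat_lit 293) (nat_lit 1) (nat_lit 376) (nat_lit 323) (nat_lit 321)) (XT.lf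 (nat_lit 836) (nat_lit 429929433) (nat_lit 76) (nat_lit 142083711) (nat_lit 0) (nat_lit 407211316) (nat_lit 305) (nat_lit 1) (nat_lit 295) (nat_lit 1) (nat_lit 294) (nat_lit 1) (nat_lit 377) (nat_lit 323) (nat_lit 320))) (XT.nd (nat_lit 78) (nat_lit 0) (nat_lit 76) (XT.lf (nat_lit 836) (nat_lit 318184332) (nat_lit 0) (nat_lit 595307845) (nat_lit 760) (nat_lit 30432052) (nat_lit 306) (nat_lit 1) (nat_lit 295) (nat_lit 1) (nat_lit 305) (nat_lit 1) (nat_lit 378) (nat_lit 323) (nat_lit 319)) (XT.lf (nat_lit 836) (nat_lit 76345210) (nat_lit 0) (nat_lit 656492282) (nat_lit 760) (nat_lit 177472337) (nat_lit 307) (nat_lit 1) (nat_lit 296) (nat_lit 1) (nat_lit 306) (nat_lit 1) (nat_lit 379) (nat_lit 323) (nat_lit 318)))))) (XT.nd (nat_lit 546) (nat_lit 2052) (nat_lit 0) (XT.nd (nat_lit 234) (nat_lit 1064) (nat_lit 0) (XT.nd (nat_lit 78) (nat_lit 1216) (nat_lit 0) (XT.lf (nat_lit 836) (nat_lit 146704442)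 (nat_lit 76) (nat_lit 570545254) (nat_lit 0) (nat_lit 161014909) (nat_lit 307) (nat_lit 1) (nat_lit 297) (nat_lit 1) (nat_lit 296) (nat_lit 1) (nat_lit 380) (nat_lit 323) (nat_lit 317)) (XT.nd (nat_lit 78) (nat_lit 532) (nat_lit 0) (XT.lf (nat_lit 836) (nat_lit 30129747) (nat_lit 0) (nat_lit 426520317) (nat_lit 760) (nat_lit 391114662) (nat_lit 298) (nat_lit 1) (nat_lit 287) (nat_lit 1) (nat_lit 297) (nat_lit 1) (nat_lit 381) (nat_lit 323) (nat_lit 316)) (XT.lf (nat_lit 76) (nat_lit 208624646) (nat_lit 0) (nat_lit 90406767) (nat_lit 532) (nat_lit 519677573) (nat_lit 281) (nat_lit 1) (nat_lit 280) (nat_lit 1) (nat_lit 287) (nat_lit 1) (nat_lit 382) (nat_lit 323) (nat_lit 315)))) (XT.nd (nat_lit 156) (nat_lit 304) (nat_lit 0) (XT.nd (nat_lit 78) (nat_lit 380) (nat_lit 0) (XT.lf (nat_lit 456) (nat_lit 574943266) (nat_lit 0) (nat_lit 187156428) (nat_lit 380) (nat_lit 28935540) (nat_lit 281) (nat_lit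 1) (nat_lit 275) (nat_lit 1) (nat_lit 280) (nat_lit 1) (nat_lit 383) (nat_lit 323) (nat_lit 314)) (XT.lf (nat_lit 456) (nat_lit 414884536) (nat_lit 0) (nat_lit 87234417) (nat_lit 380) (nat_lit 262432450) (nat_lit 276) (nat_lit 1) (nat_lit 270) (nat_lit 1) (nat_lit 275) (nat_lit 1) (nat_lit 384) (nat_lit 323) (nat_lit 313))) (XT.nd (nat_lit 78) (nat_lit 0) (nat_lit 0) (XT.lf (nat_lit 380) (nat_lit 252451948) (nat_lit 0) (nat_lit 1606127) (nat_lit 304) (nat_lit 485293640) (nat_lit 271) (nat_lit 1) (nat_lit 266) (nat_lit 1) (nat_lit 270) (nat_lit 1) (nat_lit 385) (nat_lit 323) (nat_lit 312)) (XT.lf (nat_lit 76) (nat_lit 18624711) (nat_lit 0) (nat_lit 628115526) (nat_lit 380) (nat_lit 68571022) (nat_lit 267) (nat_lit 1) (nat_lit 266) (nat_lit 1) (nat_lit 271) (nat_lit 1) (nat_lit 386) (nat_lit 323) (nat_lit 311))))) (XT.nd (nat_lit 234) (nat_lit 1064) (nat_lit 0) (XT.nd (nat_lit 78) (nat_lit 608)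 (nat_lit 0) (XT.lf (nat_lit 76) (nat_lit 480894886) (nat_lit 0) (nat_lit 79761562) (nat_lit 380) (nat_lit 131541302) (nat_lit 262) (nat_lit 1) (nat_lit 261) (nat_lit 1) (nat_lit 266) (nat_lit 1) (nat_lit 387) (nat_lit 323) (nat_lit 310)) (XT.nd (nat_lit 78) (nat_lit 304) (nat_lit 0) (XT.lf (nat_lit 76) (nat_lit 240603898) (nat_lit 0) (nat_lit 244323825) (nat_lit 380) (nat_lit 185177792) (nat_lit 258) (nat_lit 1) (nat_lit 257) (nat_lit 1) (nat_lit 262) (nat_lit 1) (nat_lit 388) (nat_lit 323) (nat_lit 309)) (XT.lf (nat_lit 76) (nat_lit 11875674) (nat_lit 0) (nat_lit 408505641) (nat_lit 380) (nat_lit 228677957) (nat_lit 254) (nat_lit 1) (nat_lit 253) (nat_lit 1) (nat_lit 258) (nat_lit 1) (nat_lit 389) (nat_lit 323) (nat_lit 308)))) (XT.nd (nat_lit 156) (nat_lit 456) (nat_lit 0) (XT.nd (nat_lit 78) (nat_lit 380) (nat_lit 0) (XT.lf (nat_lit 304) (nat_lit 53629878) (nat_lit 0) (nat_lit 362673196) (nat_lit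 228) (nat_lit 212534828) (nat_lit 254) (nat_lit 1) (nat_lit 250) (nat_lit 1) (nat_lit 253) (nat_lit 1) (nat_lit 390) (nat_lit 323) (nat_lit 307)) (XT.lf (nat_lit 76) (nat_lit 185305648) (nat_lit 0) (nat_lit 127009643) (nat_lit 380) (nat_lit 297136623) (nat_lit 246) (nat_lit 1) (nat_lit 245) (nat_lit 1) (nat_lit 250) (nat_lit 1) (nat_lit 391) (nat_lit 323) (nat_lit 306))) (XT.nd (nat_lit 78) (nat_lit 228) (nat_lit 0) (XT.lf (nat_lit 304) (nat_lit 286897716) (nat_lit 0) (nat_lit 269503323) (nat_lit 228) (nat_lit 34496105) (nat_lit 246) (nat_lit 1) (nat_lit 242) (nat_lit 1) (nat_lit 245) (nat_lit 1) (nat_lit 392) (nat_lit 323) (nat_lit 305)) (XT.lf (nat_lit 304) (nat_lit 91949332) (nat_lit 0) (nat_lit 232031325) (nat_lit 228) (nat_lit 249074783) (nat_lit 243) (nat_lit 1) (nat_lit 239) (nat_lit 1) (nat_lit 242) (nat_lit 1) (nat_lit 393) (nat_lit 323) (nat_lit 304))))))))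
noncomputable def ec7 : XT := (XT.nd (nat_lit 51948) (nat_lit 0) (nat_lit 912) (XT.nd (nat_lit 1014) (nat_lit 1140) (nat_lit 0) (XT.nd (nat_lit 468) (nat_lit 1064) (nat_lit 0) (XT.nd (nat_lit 234) (nat_lit 684) (nat_lit 0) (XT.nd (nat_lit 78) (nat_lit 380) (nat_lit 0) (XT.lf (nat_lit 76) (nat_lit 104800020) (nat_lit 0) (nat_lit 95953526) (nat_lit 304) (nat_lit 355201189) (nat_lit 236) (nat_lit 1) (nat_lit 235) (nat_lit 1) (nat_lit 239) (nat_lit 1) (nat_lit 394) (nat_lit 323) (nat_lit 303)) (XT.nd (nat_lit 78) (nat_lit 152) (nat_lit 0) (XT.lf (nat_lit 304) (nat_lit 260781096) (nat_lit 0) (nat_lit 173514077) (nat_lit 228) (nat_lit 105184804) (nat_lit 236) (nat_lit 1) (nat_lit 232) (nat_lit 1) (nat_lit 235) (nat_lit 1) (nat_lit 395) (nat_lit 323) (nat_lit 302)) (XT.lf (nat_lit 228) (nat_lit 64648018) (nat_lit 0) (nat_lit 151378376) (nat_lit 152) (nat_lit 307643463) (nat_lit 233) (nat_lit 1) (nat_lit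 230) (nat_lit 1) (nat_lit 232) (nat_lit 1) (nat_lit 396) (nat_lit 323) (nat_lit 301)))) (XT.nd (nat_lit 78) (nat_lit 380) (nat_lit 0) (XT.lf (nat_lit 76) (nat_lit 10951787) (nat_lit 0) (nat_lit 122552878) (nat_lit 304) (nat_lit 374967914) (nat_lit 227) (nat_lit 1) (nat_lit 226) (nat_lit 1) (nat_lit 230) (nat_lit 1) (nat_lit 397) (nat_lit 323) (nat_lit 300)) (XT.nd (nat_lit 78) (nat_lit 228) (nat_lit 0) (XT.lf (nat_lit 228) (nat_lit 187855280) (nat_lit 0) (nat_lit 117393434) (nat_lit 152) (nat_lit 188509019) (nat_lit 227) (nat_lit 1) (nat_lit 224) (nat_lit 1) (nat_lit 226) (nat_lit 1) (nat_lit 398) (nat_lit 323) (nat_lit 299)) (XT.lf (nat_lit 76) (nat_lit 101922424) (nat_lit 0) (nat_lit 4707860) (nat_lit 228) (nat_lit 373054707) (nat_lit 222) (nat_lit 1) (nat_lit 221) (nat_lit 1) (nat_lit 224) (nat_lit 1) (nat_lit 399) (nat_lit 323) (nat_lit 298))))) (XT.nd (nat_lit 234) (nat_lit 532) (nat_lit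 0) (XT.nd (nat_lit 78) (nat_lit 380) (nat_lit 0) (XT.lf (nat_lit 228) (nat_lit 278636227) (nat_lit 0) (nat_lit 96553700) (nat_lit 152) (nat_lit 90831689) (nat_lit 222) (nat_lit 1) (nat_lit 219) (nat_lit 1) (nat_lit 221) (nat_lit 1) (nat_lit 400) (nat_lit 323) (nat_lit 297)) (XT.nd (nat_lit 78) (nat_lit 228) (nat_lit 0) (XT.lf (nat_lit 228) (nat_lit 86555578) (nat_lit 0) (nat_lit 89757341) (nat_lit 152) (nat_lit 276567733) (nat_lit 220) (nat_lit 1) (nat_lit 217) (nat_lit 1) (nat_lit 219) (nat_lit 1) (nat_lit 401) (nat_lit 323) (nat_lit 296)) (XT.lf (nat_lit 228) (nat_lit 343593834) (nat_lit 0) (nat_lit 85755854) (nat_lit 152) (nat_lit 10879125) (nat_lit 217) (nat_lit 1) (nat_lit 214) (nat_lit 1) (nat_lit 216) (nat_lit 1) (nat_lit 402) (nat_lit 323) (nat_lit 295)))) (XT.nd (nat_lit 156) (nat_lit 228) (nat_lit 0) (XT.nd (nat_lit 78) (nat_lit 152) (nat_lit 0) (XT.lf (nat_lit 228) (nat_lit 153776676)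 (nat_lit 0) (nat_lit 81867929) (nat_lit 152) (nat_lit 192283925) (nat_lit 215) (nat_lit 1) (nat_lit 212) (nat_lit 1) (nat_lit 214) (nat_lit 1) (nat_lit 403) (nat_lit 323) (nat_lit 294)) (XT.lf (nat_lit 76) (nat_lit 52674448) (nat_lit 0) (nat_lit 28952250) (nat_lit 152) (nat_lit 334511731) (nat_lit 211) (nat_lit 1) (nat_lit 210) (nat_lit 1) (nat_lit 212) (nat_lit 1) (nat_lit 404) (nat_lit 323) (nat_lit 293))) (XT.nd (nat_lit 78) (nat_lit 76) (nat_lit 0) (XT.lf (nat_lit 228) (nat_lit 201763843) (nat_lit 0) (nat_lit 80762363) (nat_lit 152) (nat_lit 122119636) (nat_lit 211) (nat_lit 1) (nat_lit 208) (nat_lit 1) (nat_lit 210) (nat_lit 1) (nat_lit 405) (nat_lit 323) (nat_lit 292)) (XT.lf (nat_lit 152) (nat_lit 21727098) (nat_lit 0) (nat_lit 82745991) (nat_lit 76) (nat_lit 289133877) (nat_lit 209) (nat_lit 1) (nat_lit 207) (nat_lit 1) (nat_lit 208) (nat_lit 1) (nat_lit 406) (nat_lit 323) (nat_lit 291))))))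 (XT.nd (nat_lit 50388) (nat_lit 0) (nat_lit 7600) (XT.nd (nat_lit 234) (nat_lit 608) (nat_lit 0) (XT.nd (nat_lit 78) (nat_lit 304) (nat_lit 0) (XT.lf (nat_lit 228) (nat_lit 234536010) (nat_lit 0) (nat_lit 84627068) (nat_lit 152) (nat_lit 63709389) (nat_lit 207) (nat_lit 1) (nat_lit 204) (nat_lit 1) (nat_lit 206) (nat_lit 1) (nat_lit 407) (nat_lit 323) (nat_lit 290)) (XT.nd (nat_lit 78) (nat_lit 228) (nat_lit 0) (XT.lf (nat_lit 152) (nat_lit 58987536) (nat_lit 0) (nat_lit 87791359) (nat_lit 76) (nat_lit 225720847) (nat_lit 205) (nat_lit 1) (nat_lit 203) (nat_lit 1) (nat_lit 204) (nat_lit 1) (nat_lit 408) (nat_lit 323) (nat_lit 289)) (XT.lf (nat_lit 228) (nat_lit 255342537) (nat_lit 0) (nat_lit 92025562) (nat_lit 152) (nat_lit 15102182) (nat_lit 203) (nat_lit 1) (nat_lit 200) (nat_lit 1) (nat_lit 202) (nat_lit 1) (nat_lit 409) (nat_lit 323) (nat_lit 288)))) (XT.nd (nat_lit 156) (nat_lit 304) (nat_lit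 0) (XT.nd (nat_lit 78) (nat_lit 228) (nat_lit 0) (XT.lf (nat_lit 152) (nat_lit 84891157) (nat_lit 0) (nat_lit 95937755) (nat_lit 76) (nat_lit 171880773) (nat_lit 201) (nat_lit 1) (nat_lit 199) (nat_lit 1) (nat_lit 200) (nat_lit 1) (nat_lit 410) (nat_lit 323) (nat_lit 287)) (XT.lf (nat_lit 76) (nat_lit 24502966) (nat_lit 0) (nat_lit 76908279) (nat_lit 228) (nat_lit 241888492) (nat_lit 197) (nat_lit 1) (nat_lit 196) (nat_lit 1) (nat_lit 199) (nat_lit 1) (nat_lit 411) (nat_lit 323) (nat_lit 286))) (XT.nd (nat_lit 78) (nat_lit 228) (nat_lit 0) (XT.lf (nat_lit 152) (nat_lit 101877047) (nat_lit 0) (nat_lit 106151054) (nat_lit 76) (nat_lit 126095379) (nat_lit 197) (nat_lit 1) (nat_lit 195) (nat_lit 1) (nat_lit 196) (nat_lit 1) (nat_lit 412) (nat_lit 323) (nat_lit 285)) (XT.lf (nat_lit 76) (nat_lit 56984775) (nat_lit 0) (nat_lit 55193608) (nat_lit 228) (nat_lit 213091316) (nat_lit 193) (nat_lit 1) (nat_lit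 192) (nat_lit 1) (nat_lit 195) (nat_lit 1) (nat_lit 413) (nat_lit 323) (nat_lit 284))))) (XT.nd (nat_lit 234) (nat_lit 0) (nat_lit 152) (XT.nd (nat_lit 78) (nat_lit 0) (nat_lit 76) (XT.lf (nat_lit 836) (nat_lit 156844607) (nat_lit 0) (nat_lit 278477239) (nat_lit 836) (nat_lit 156844607) (nat_lit 303) (nat_lit 1) (nat_lit 292) (nat_lit 0) (nat_lit 303) (nat_lit 0) (nat_lit 372) (nat_lit 324) (nat_lit 324)) (XT.nd (nat_lit 78) (nat_lit 0) (nat_lit 0) (XT.lf (nat_lit 836) (nat_lit 58507851) (nat_lit 0) (nat_lit 546735221) (nat_lit 760) (nat_lit 534705219) (nat_lit 304) (nat_lit 1) (nat_lit 293) (nat_lit 1) (nat_lit 303) (nat_lit 1) (nat_lit 373) (nat_lit 324) (nat_lit 323)) (XT.lf (nat_lit 836) (nat_lit 537360841) (nat_lit 76) (nat_lit 366148762) (nat_lit 0) (nat_lit 194188601) (nat_lit 304) (nat_lit 1) (nat_lit 294) (nat_lit 1) (nat_lit 293) (nat_lit 1) (nat_lit 374) (nat_lit 324) (nat_lit 322))))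 (XT.nd (nat_lit 156) (nat_lit 0) (nat_lit 152) (XT.nd (nat_lit 78) (nat_lit 0) (nat_lit 76) (XT.lf (nat_lit 836) (nat_lit 464323788) (nat_lit 76) (nat_lit 153450408) (nat_lit 0) (nat_lit 439788222) (nat_lit 305) (nat_lit 1) (nat_lit 295) (nat_lit 1) (nat_lit 294) (nat_lit 1) (nat_lit 375) (nat_lit 324) (nat_lit 321)) (XT.lf (nat_lit 836) (nat_lit 343639078) (nat_lit 0) (nat_lit 642932473) (nat_lit 760) (nat_lit 32866616) (nat_lit 306) (nat_lit 1) (nat_lit 295) (nat_lit 1) (nat_lit 305) (nat_lit 1) (nat_lit 376) (nat_lit 324) (nat_lit 320))) (XT.nd (nat_lit 78) (nat_lit 0) (nat_lit 0) (XT.lf (nat_lit 836) (nat_lit 82452827) (nat_lit 0) (nat_lit 709011665) (nat_lit 760) (nat_lit 191670124) (nat_lit 307) (nat_lit 1) (nat_lit 296) (nat_lit 1) (nat_lit 306) (nat_lit 1) (nat_lit 377) (nat_lit 324) (nat_lit 319)) (XT.lf (nat_lit 836) (nat_lit 158440798) (nat_lit 76) (nat_lit 616188874) (nat_lit 0) (nat_lit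 173896102) (nat_lit 307) (nat_lit 1) (nat_lit 297) (nat_lit 1) (nat_lit 296) (nat_lit 1) (nat_lit 378) (nat_lit 324) (nat_lit 318))))))) (XT.nd (nat_lit 1014) (nat_lit 2660) (nat_lit 0) (XT.nd (nat_lit 468) (nat_lit 2052) (nat_lit 0) (XT.nd (nat_lit 234) (nat_lit 684) (nat_lit 0) (XT.nd (nat_lit 78) (nat_lit 912) (nat_lit 0) (XT.lf (nat_lit 836) (nat_lit 32540127) (nat_lit 0) (nat_lit 460641943) (nat_lit 760) (nat_lit 422403835) (nat_lit 298) (nat_lit 1) (nat_lit 287) (nat_lit 1) (nat_lit 297) (nat_lit 1) (nat_lit 379) (nat_lit 324) (nat_lit 317)) (XT.nd (nat_lit 78) (nat_lit 380) (nat_lit 0) (XT.lf (nat_lit 76) (nat_lit 225314618) (nat_lit 0) (nat_lit 97639309) (nat_lit 532) (nat_lit 561251778) (nat_lit 281) (nat_lit 1) (nat_lit 280) (nat_lit 1) (nat_lit 287) (nat_lit 1) (nat_lit 380) (nat_lit 324) (nat_lit 316)) (XT.lf (nat_lit 456) (nat_lit 620938728) (nat_lit 0) (nat_lit 202128942) (nat_lit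 380) (nat_lit 31250383) (nat_lit 281) (nat_lit 1) (nat_lit 275) (nat_lit 1) (nat_lit 280) (nat_lit 1) (nat_lit 381) (nat_lit 324) (nat_lit 315)))) (XT.nd (nat_lit 78) (nat_lit 304) (nat_lit 0) (XT.lf (nat_lit 456) (nat_lit 448075299) (nat_lit 0) (nat_lit 94213170) (nat_lit 380) (nat_lit 283427046) (nat_lit 276) (nat_lit 1) (nat_lit 270) (nat_lit 1) (nat_lit 275) (nat_lit 1) (nat_lit 382) (nat_lit 324) (nat_lit 314)) (XT.nd (nat_lit 78) (nat_lit 0) (nat_lit 0) (XT.lf (nat_lit 380) (nat_lit 272648104) (nat_lit 0) (nat_lit 1734617) (nat_lit 304) (nat_lit 524117132) (nat_lit 271) (nat_lit 1) (nat_lit 266) (nat_lit 1) (nat_lit 270) (nat_lit 1) (nat_lit 383) (nat_lit 324) (nat_lit 313)) (XT.lf (nat_lit 76) (nat_lit 20114688) (nat_lit 0) (nat_lit 678364768) (nat_lit 380) (nat_lit 74056704) (nat_lit 267) (nat_lit 1) (nat_lit 266) (nat_lit 1) (nat_lit 271) (nat_lit 1) (nat_lit 384) (nat_lit 324) (nat_lit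 312))))) (XT.nd (nat_lit 234) (nat_lit 1064) (nat_lit 0) (XT.nd (nat_lit 78) (nat_lit 608) (nat_lit 0) (XT.lf (nat_lit 76) (nat_lit 519366477) (nat_lit 0) (nat_lit 86142487) (nat_lit 380) (nat_lit 142064606) (nat_lit 262) (nat_lit 1) (nat_lit 261) (nat_lit 1) (nat_lit 266) (nat_lit 1) (nat_lit 385) (nat_lit 324) (nat_lit 311)) (XT.nd (nat_lit 78) (nat_lit 304) (nat_lit 0) (XT.lf (nat_lit 76) (nat_lit 259852209) (nat_lit 0) (nat_lit 263869731) (nat_lit 380) (nat_lit 199992016) (nat_lit 258) (nat_lit 1) (nat_lit 257) (nat_lit 1) (nat_lit 262) (nat_lit 1) (nat_lit 386) (nat_lit 324) (nat_lit 310)) (XT.lf (nat_lit 76) (nat_lit 12825728) (nat_lit 0) (nat_lit 441186092) (nat_lit 380) (nat_lit 246972194) (nat_lit 254) (nat_lit 1) (nat_lit 253) (nat_lit 1) (nat_lit 258) (nat_lit 1) (nat_lit 387) (nat_lit 324) (nat_lit 309)))) (XT.nd (nat_lit 156) (nat_lit 456) (nat_lit 0) (XT.nd (nat_lit 78) (nat_lit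 380) (nat_lit 0) (XT.lf (nat_lit 304) (nat_lit 57920268) (nat_lit 0) (nat_lit 391687052) (nat_lit 228) (nat_lit 229537614) (nat_lit 254) (nat_lit 1) (nat_lit 250) (nat_lit 1) (nat_lit 253) (nat_lit 1) (nat_lit 388) (nat_lit 324) (nat_lit 308)) (XT.lf (nat_lit 76) (nat_lit 200130100) (nat_lit 0) (nat_lit 137170414) (nat_lit 380) (nat_lit 320907553) (nat_lit 246) (nat_lit 1) (nat_lit 245) (nat_lit 1) (nat_lit 250) (nat_lit 1) (nat_lit 389) (nat_lit 324) (nat_lit 307))) (XT.nd (nat_lit 78) (nat_lit 228) (nat_lit 0) (XT.lf (nat_lit 304) (nat_lit 309849533) (nat_lit 0) (nat_lit 291063589) (nat_lit 228) (nat_lit 37255794) (nat_lit 246) (nat_lit 1) (nat_lit 242) (nat_lit 1) (nat_lit 245) (nat_lit 1) (nat_lit 390) (nat_lit 324) (nat_lit 306)) (XT.lf (nat_lit 304) (nat_lit 99305278) (nat_lit 0) (nat_lit 250593831) (nat_lit 228) (nat_lit 269000766) (nat_lit 243) (nat_lit 1) (nat_lit 239) (nat_lit 1) (nat_lit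 242) (nat_lit 1) (nat_lit 391) (nat_lit 324) (nat_lit 305)))))) (XT.nd (nat_lit 546) (nat_lit 1140) (nat_lit 0) (XT.nd (nat_lit 234) (nat_lit 836) (nat_lit 0) (XT.nd (nat_lit 78) (nat_lit 380) (nat_lit 0) (XT.lf (nat_lit 76) (nat_lit 113184022) (nat_lit 0) (nat_lit 103629808) (nat_lit 304) (nat_lit 383617284) (nat_lit 236) (nat_lit 1) (nat_lit 235) (nat_lit 1) (nat_lit 239) (nat_lit 1) (nat_lit 392) (nat_lit 324) (nat_lit 304)) (XT.nd (nat_lit 78) (nat_lit 152) (nat_lit 0) (XT.lf (nat_lit 304) (nat_lit 281643584) (nat_lit 0) (nat_lit 187395203) (nat_lit 228) (nat_lit 113599588) (nat_lit 236) (nat_lit 1) (nat_lit 232) (nat_lit 1) (nat_lit 235) (nat_lit 1) (nat_lit 393) (nat_lit 324) (nat_lit 303)) (XT.lf (nat_lit 228) (nat_lit 69819860) (nat_lit 0) (nat_lit 163488646) (nat_lit 152) (nat_lit 332254940) (nat_lit 233) (nat_lit 1) (nat_lit 230) (nat_lit 1) (nat_lit 232) (nat_lit 1) (nat_lit 394) (nat_lit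 324) (nat_lit 302)))) (XT.nd (nat_lit 156) (nat_lit 380) (nat_lit 0) (XT.nd (nat_lit 78) (nat_lit 152) (nat_lit 0) (XT.lf (nat_lit 76) (nat_lit 11827930) (nat_lit 0) (nat_lit 132357109) (nat_lit 304) (nat_lit 404965347) (nat_lit 227) (nat_lit 1) (nat_lit 226) (nat_lit 1) (nat_lit 230) (nat_lit 1) (nat_lit 395) (nat_lit 324) (nat_lit 301)) (XT.lf (nat_lit 228) (nat_lit 202883703) (nat_lit 0) (nat_lit 126784909) (nat_lit 152) (nat_lit 203589740) (nat_lit 227) (nat_lit 1) (nat_lit 224) (nat_lit 1) (nat_lit 226) (nat_lit 1) (nat_lit 396) (nat_lit 324) (nat_lit 300))) (XT.nd (nat_lit 78) (nat_lit 152) (nat_lit 0) (XT.lf (nat_lit 76) (nat_lit 110076218) (nat_lit 0) (nat_lit 5084489) (nat_lit 228) (nat_lit 402899084) (nat_lit 222) (nat_lit 1) (nat_lit 221) (nat_lit 1) (nat_lit 224) (nat_lit 1) (nat_lit 397) (nat_lit 324) (nat_lit 299)) (XT.lf (nat_lit 228) (nat_lit 300927125) (nat_lit 0) (nat_lit 104277996)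 (nat_lit 152) (nat_lit 98098224) (nat_lit 222) (nat_lit 1) (nat_lit 219) (nat_lit 1) (nat_lit 221) (nat_lit 1) (nat_lit 398) (nat_lit 324) (nat_lit 298))))) (XT.nd (nat_lit 234) (nat_lit 608) (nat_lit 0) (XT.nd (nat_lit 78) (nat_lit 380) (nat_lit 0) (XT.lf (nat_lit 228) (nat_lit 93480024) (nat_lit 0) (nat_lit 96937928) (nat_lit 152) (nat_lit 298693152) (nat_lit 220) (nat_lit 1) (nat_lit 217) (nat_lit 1) (nat_lit 219) (nat_lit 1) (nat_lit 399) (nat_lit 324) (nat_lit 297)) (XT.nd (nat_lit 78) (nat_lit 152) (nat_lit 0) (XT.lf (nat_lit 228) (nat_lit 371081341) (nat_lit 0) (nat_lit 92616323) (nat_lit 152) (nat_lit 11749455) (nat_lit 217) (nat_lit 1) (nat_lit 214) (nat_lit 1) (nat_lit 216) (nat_lit 1) (nat_lit 400) (nat_lit 324) (nat_lit 296)) (XT.lf (nat_lit 228) (nat_lit 166078810) (nat_lit 0) (nat_lit 88417363) (nat_lit 152) (nat_lit 207666639) (nat_lit 215) (nat_lit 1) (nat_lit 212) (nat_lit 1)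 (nat_lit 214) (nat_lit 1) (nat_lit 401) (nat_lit 324) (nat_lit 295)))) (XT.nd (nat_lit 156) (nat_lit 304) (nat_lit 0) (XT.nd (nat_lit 78) (nat_lit 152) (nat_lit 0) (XT.lf (nat_lit 76) (nat_lit 56888404) (nat_lit 0) (nat_lit 31268430) (nat_lit 152) (nat_lit 361272670) (nat_lit 211) (nat_lit 1) (nat_lit 210) (nat_lit 1) (nat_lit 212) (nat_lit 1) (nat_lit 402) (nat_lit 324) (nat_lit 294)) (XT.lf (nat_lit 228) (nat_lit 217904950) (nat_lit 0) (nat_lit 87223352) (nat_lit 152) (nat_lit 131889207) (nat_lit 211) (nat_lit 1) (nat_lit 208) (nat_lit 1) (nat_lit 210) (nat_lit 1) (nat_lit 403) (nat_lit 324) (nat_lit 293))) (XT.nd (nat_lit 78) (nat_lit 228) (nat_lit 0) (XT.lf (nat_lit 152) (nat_lit 23465266) (nat_lit 0) (nat_lit 89365670) (nat_lit 76) (nat_lit 312264587) (nat_lit 209) (nat_lit 1) (nat_lit 207) (nat_lit 1) (nat_lit 208) (nat_lit 1) (nat_lit 404) (nat_lit 324) (nat_lit 292)) (XT.lf (nat_lit 228)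 (nat_lit 253298891) (nat_lit 0) (nat_lit 91397233) (nat_lit 152) (nat_lit 68806140) (nat_lit 207) (nat_lit 1) (nat_lit 204) (nat_lit 1) (nat_lit 206) (nat_lit 1) (nat_lit 405) (nat_lit 324) (nat_lit 291))))))))
noncomputable def ec8 : XT := (XT.nd (nat_lit 51636) (nat_lit 152) (nat_lit 0) (XT.nd (nat_lit 50622) (nat_lit 0) (nat_lit 4712) (XT.nd (nat_lit 468) (nat_lit 304) (nat_lit 0) (XT.nd (nat_lit 234) (nat_lit 532) (nat_lit 0) (XT.nd (nat_lit 78) (nat_lit 304) (nat_lit 0) (XT.lf (nat_lit 152) (nat_lit 63706539) (nat_lit 0) (nat_lit 94814668) (nat_lit 76) (nat_lit 243778515) (nat_lit 205) (nat_lit 1) (nat_lit 203) (nat_lit 1) (nat_lit 204) (nat_lit 1) (nat_lit 406) (nat_lit 324) (nat_lit 290)) (XT.nd (nat_lit 78) (nat_lit 76) (nat_lit 0) (XT.lf (nat_lit 228) (nat_lit 275769940) (nat_lit 0) (nat_lit 99387607) (nat_lit 152) (nat_lit 16310357) (nat_lit 203) (nat_lit 1) (nat_lit 200) (nat_lit 1)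 (nat_lit 202) (nat_lit 1) (nat_lit 407) (nat_lit 324) (nat_lit 289)) (XT.lf (nat_lit 152) (nat_lit 91682449) (nat_lit 0) (nat_lit 103612775) (nat_lit 76) (nat_lit 185631235) (nat_lit 201) (nat_lit 1) (nat_lit 199) (nat_lit 1) (nat_lit 200) (nat_lit 1) (nat_lit 408) (nat_lit 324) (nat_lit 288)))) (XT.nd (nat_lit 78) (nat_lit 304) (nat_lit 0) (XT.lf (nat_lit 76) (nat_lit 26463203) (nat_lit 0) (nat_lit 83060942) (nat_lit 228) (nat_lit 261239572) (nat_lit 197) (nat_lit 1) (nat_lit 196) (nat_lit 1) (nat_lit 199) (nat_lit 1) (nat_lit 409) (nat_lit 324) (nat_lit 287)) (XT.nd (nat_lit 78) (nat_lit 228) (nat_lit 0) (XT.lf (nat_lit 152) (nat_lit 110027211) (nat_lit 0) (nat_lit 114643139) (nat_lit 76) (nat_lit 136183009) (nat_lit 197) (nat_lit 1) (nat_lit 195) (nat_lit 1) (nat_lit 196) (nat_lit 1) (nat_lit 410) (nat_lit 324) (nat_lit 286)) (XT.lf (nat_lit 76) (nat_lit 61543558) (nat_lit 0) (nat_lit 59609097)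 (nat_lit 228) (nat_lit 230138621) (nat_lit 193) (nat_lit 1) (nat_lit 192) (nat_lit 1) (nat_lit 195) (nat_lit 1) (nat_lit 411) (nat_lit 324) (nat_lit 285))))) (XT.nd (nat_lit 49842) (nat_lit 0) (nat_lit 7904) (XT.nd (nat_lit 78) (nat_lit 228) (nat_lit 0) (XT.lf (nat_lit 152) (nat_lit 120865138) (nat_lit 0) (nat_lit 127033929) (nat_lit 76) (nat_lit 94074433) (nat_lit 193) (nat_lit 1) (nat_lit 191) (nat_lit 1) (nat_lit 192) (nat_lit 1) (nat_lit 412) (nat_lit 324) (nat_lit 284)) (XT.nd (nat_lit 78) (nat_lit 76) (nat_lit 0) (XT.lf (nat_lit 76) (nat_lit 90606348) (nat_lit 0) (nat_lit 43172303) (nat_lit 152) (nat_lit 199184796) (nat_lit 190) (nat_lit 1) (nat_lit 189) (nat_lit 1) (nat_lit 191) (nat_lit 1) (nat_lit 413) (nat_lit 324) (nat_lit 283)) (XT.lf (nat_lit 152) (nat_lit 125905925) (nat_lit 0) (nat_lit 140110586) (nat_lit 76) (nat_lit 58176429) (nat_lit 190) (nat_lit 1) (nat_lit 188) (nat_lit 1)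 (nat_lit 189) (nat_lit 1) (nat_lit 414) (nat_lit 324) (nat_lit 282)))) (XT.nd (nat_lit 156) (nat_lit 0) (nat_lit 76) (XT.nd (nat_lit 78) (nat_lit 0) (nat_lit 76) (XT.lf (nat_lit 836) (nat_lit 169392175) (nat_lit 0) (nat_lit 300755418) (nat_lit 836) (nat_lit 169392175) (nat_lit 303) (nat_lit 1) (nat_lit 292) (nat_lit 0) (nat_lit 303) (nat_lit 0) (nat_lit 370) (nat_lit 325) (nat_lit 325)) (XT.lf (nat_lit 836) (nat_lit 63188479) (nat_lit 0) (nat_lit 590474039) (nat_lit 760) (nat_lit 577481637) (nat_lit 304) (nat_lit 1) (nat_lit 293) (nat_lit 1) (nat_lit 303) (nat_lit 1) (nat_lit 371) (nat_lit 325) (nat_lit 324))) (XT.nd (nat_lit 78) (nat_lit 0) (nat_lit 76) (XT.lf (nat_lit 836) (nat_lit 580349709) (nat_lit 76) (nat_lit 395440663) (nat_lit 0) (nat_lit 209723689) (nat_lit 304) (nat_lit 1) (nat_lit 294) (nat_lit 1) (nat_lit 293) (nat_lit 1) (nat_lit 372) (nat_lit 325) (nat_lit 323)) (XT.lf (nat_lit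 836) (nat_lit 501469691) (nat_lit 76) (nat_lit 165726440) (nat_lit 0) (nat_lit 474971279) (nat_lit 305) (nat_lit 1) (nat_lit 295) (nat_lit 1) (nat_lit 294) (nat_lit 1) (nat_lit 373) (nat_lit 325) (nat_lit 322)))))) (XT.nd (nat_lit 468) (nat_lit 1900) (nat_lit 0) (XT.nd (nat_lit 234) (nat_lit 1520) (nat_lit 0) (XT.nd (nat_lit 78) (nat_lit 0) (nat_lit 76) (XT.lf (nat_lit 836) (nat_lit 371130205) (nat_lit 0) (nat_lit 694367071) (nat_lit 760) (nat_lit 35495945) (nat_lit 306) (nat_lit 1) (nat_lit 295) (nat_lit 1) (nat_lit 305) (nat_lit 1) (nat_lit 374) (nat_lit 325) (nat_lit 321)) (XT.nd (nat_lit 78) (nat_lit 0) (nat_lit 0) (XT.lf (nat_lit 836) (nat_lit 89049053) (nat_lit 0) (nat_lit 765732598) (nat_lit 760) (nat_lit 207003734) (nat_lit 307) (nat_lit 1) (nat_lit 296) (nat_lit 1) (nat_lit 306) (nat_lit 1) (nat_lit 375) (nat_lit 325) (nat_lit 320)) (XT.lf (nat_lit 836) (nat_lit 171116062) (nat_lit 76)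 (nat_lit 665483984) (nat_lit 0) (nat_lit 187807790) (nat_lit 307) (nat_lit 1) (nat_lit 297) (nat_lit 1) (nat_lit 296) (nat_lit 1) (nat_lit 376) (nat_lit 325) (nat_lit 319)))) (XT.nd (nat_lit 78) (nat_lit 912) (nat_lit 0) (XT.lf (nat_lit 836) (nat_lit 35143337) (nat_lit 0) (nat_lit 497493298) (nat_lit 760) (nat_lit 456196142) (nat_lit 298) (nat_lit 1) (nat_lit 287) (nat_lit 1) (nat_lit 297) (nat_lit 1) (nat_lit 377) (nat_lit 325) (nat_lit 318)) (XT.nd (nat_lit 78) (nat_lit 380) (nat_lit 0) (XT.lf (nat_lit 76) (nat_lit 243339787) (nat_lit 0) (nat_lit 105450454) (nat_lit 532) (nat_lit 606151921) (nat_lit 281) (nat_lit 1) (nat_lit 280) (nat_lit 1) (nat_lit 287) (nat_lit 1) (nat_lit 378) (nat_lit 325) (nat_lit 317)) (XT.lf (nat_lit 456) (nat_lit 670613826) (nat_lit 0) (nat_lit 218299257) (nat_lit 380) (nat_lit 33750414) (nat_lit 281) (nat_lit 1) (nat_lit 275) (nat_lit 1) (nat_lit 280) (nat_lit 1)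 (nat_lit 379) (nat_lit 325) (nat_lit 316))))) (XT.nd (nat_lit 234) (nat_lit 1216) (nat_lit 0) (XT.nd (nat_lit 78) (nat_lit 304) (nat_lit 0) (XT.lf (nat_lit 456) (nat_lit 483921323) (nat_lit 0) (nat_lit 101750224) (nat_lit 380) (nat_lit 306101210) (nat_lit 276) (nat_lit 1) (nat_lit 270) (nat_lit 1) (nat_lit 275) (nat_lit 1) (nat_lit 380) (nat_lit 325) (nat_lit 315)) (XT.nd (nat_lit 78) (nat_lit 0) (nat_lit 0) (XT.lf (nat_lit 380) (nat_lit 294459953) (nat_lit 0) (nat_lit 1873386) (nat_lit 304) (nat_lit 566046502) (nat_lit 271) (nat_lit 1) (nat_lit 266) (nat_lit 1) (nat_lit 270) (nat_lit 1) (nat_lit 381) (nat_lit 325) (nat_lit 314)) (XT.lf (nat_lit 76) (nat_lit 21723863) (nat_lit 0) (nat_lit 732633949) (nat_lit 380) (nat_lit 79981240) (nat_lit 267) (nat_lit 1) (nat_lit 266) (nat_lit 1) (nat_lit 271) (nat_lit 1) (nat_lit 382) (nat_lit 325) (nat_lit 313)))) (XT.nd (nat_lit 156) (nat_lit 532) (nat_lit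 0) (XT.nd (nat_lit 78) (nat_lit 304) (nat_lit 0) (XT.lf (nat_lit 76) (nat_lit 560915796) (nat_lit 0) (nat_lit 93033886) (nat_lit 380) (nat_lit 153429775) (nat_lit 262) (nat_lit 1) (nat_lit 261) (nat_lit 1) (nat_lit 266) (nat_lit 1) (nat_lit 383) (nat_lit 325) (nat_lit 312)) (XT.lf (nat_lit 76) (nat_lit 280640386) (nat_lit 0) (nat_lit 284979309) (nat_lit 380) (nat_lit 215991377) (nat_lit 258) (nat_lit 1) (nat_lit 257) (nat_lit 1) (nat_lit 262) (nat_lit 1) (nat_lit 384) (nat_lit 325) (nat_lit 311))) (XT.nd (nat_lit 78) (nat_lit 228) (nat_lit 0) (XT.lf (nat_lit 76) (nat_lit 13851787) (nat_lit 0) (nat_lit 476480980) (nat_lit 380) (nat_lit 266729969) (nat_lit 254) (nat_lit 1) (nat_lit 253) (nat_lit 1) (nat_lit 258) (nat_lit 1) (nat_lit 385) (nat_lit 325) (nat_lit 310)) (XT.lf (nat_lit 304) (nat_lit 62553890) (nat_lit 0) (nat_lit 423022016) (nat_lit 228) (nat_lit 247900624) (nat_lit 254) (nat_lit 1)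 (nat_lit 250) (nat_lit 1) (nat_lit 253) (nat_lit 1) (nat_lit 386) (nat_lit 325) (nat_lit 309))))))) (XT.nd (nat_lit 1014) (nat_lit 1976) (nat_lit 0) (XT.nd (nat_lit 468) (nat_lit 1368) (nat_lit 0) (XT.nd (nat_lit 234) (nat_lit 684) (nat_lit 0) (XT.nd (nat_lit 78) (nat_lit 456) (nat_lit 0) (XT.lf (nat_lit 76) (nat_lit 216140508) (nat_lit 0) (nat_lit 148144047) (nat_lit 380) (nat_lit 346580157) (nat_lit 246) (nat_lit 1) (nat_lit 245) (nat_lit 1) (nat_lit 250) (nat_lit 1) (nat_lit 387) (nat_lit 325) (nat_lit 308)) (XT.nd (nat_lit 78) (nat_lit 228) (nat_lit 0) (XT.lf (nat_lit 304) (nat_lit 334637496) (nat_lit 0) (nat_lit 314348676) (nat_lit 228) (nat_lit 40236257) (nat_lit 246) (nat_lit 1) (nat_lit 242) (nat_lit 1) (nat_lit 245) (nat_lit 1) (nat_lit 388) (nat_lit 325) (nat_lit 307)) (XT.lf (nat_lit 304) (nat_lit 107249700) (nat_lit 0) (nat_lit 270641338) (nat_lit 228) (nat_lit 290520827) (nat_lit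 243) (nat_lit 1) (nat_lit 239) (nat_lit 1) (nat_lit 242) (nat_lit 1) (nat_lit 389) (nat_lit 325) (nat_lit 306)))) (XT.nd (nat_lit 78) (nat_lit 380) (nat_lit 0) (XT.lf (nat_lit 76) (nat_lit 122238744) (nat_lit 0) (nat_lit 111920192) (nat_lit 304) (nat_lit 414306667) (nat_lit 236) (nat_lit 1) (nat_lit 235) (nat_lit 1) (nat_lit 239) (nat_lit 1) (nat_lit 390) (nat_lit 325) (nat_lit 305)) (XT.nd (nat_lit 78) (nat_lit 152) (nat_lit 0) (XT.lf (nat_lit 304) (nat_lit 304175070) (nat_lit 0) (nat_lit 202386820) (nat_lit 228) (nat_lit 122687555) (nat_lit 236) (nat_lit 1) (nat_lit 232) (nat_lit 1) (nat_lit 235) (nat_lit 1) (nat_lit 391) (nat_lit 325) (nat_lit 304)) (XT.lf (nat_lit 228) (nat_lit 75405449) (nat_lit 0) (nat_lit 176567738) (nat_lit 152) (nat_lit 358835335) (nat_lit 233) (nat_lit 1) (nat_lit 230) (nat_lit 1) (nat_lit 232) (nat_lit 1) (nat_lit 392) (nat_lit 325) (nat_lit 303))))) (XT.nd (nat_lit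 234) (nat_lit 684) (nat_lit 0) (XT.nd (nat_lit 78) (nat_lit 380) (nat_lit 0) (XT.lf (nat_lit 76) (nat_lit 12774164) (nat_lit 0) (nat_lit 142945677) (nat_lit 304) (nat_lit 437362575) (nat_lit 227) (nat_lit 1) (nat_lit 226) (nat_lit 1) (nat_lit 230) (nat_lit 1) (nat_lit 393) (nat_lit 325) (nat_lit 302)) (XT.nd (nat_lit 78) (nat_lit 228) (nat_lit 0) (XT.lf (nat_lit 228) (nat_lit 219114399) (nat_lit 0) (nat_lit 136927701) (nat_lit 152) (nat_lit 219876919) (nat_lit 227) (nat_lit 1) (nat_lit 224) (nat_lit 1) (nat_lit 226) (nat_lit 1) (nat_lit 394) (nat_lit 325) (nat_lit 301)) (XT.lf (nat_lit 76) (nat_lit 118882316) (nat_lit 0) (nat_lit 5491248) (nat_lit 228) (nat_lit 435131010) (nat_lit 222) (nat_lit 1) (nat_lit 221) (nat_lit 1) (nat_lit 224) (nat_lit 1) (nat_lit 395) (nat_lit 325) (nat_lit 300)))) (XT.nd (nat_lit 156) (nat_lit 380) (nat_lit 0) (XT.nd (nat_lit 78) (nat_lit 152) (nat_lit 0) (XT.lf (nat_lit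 228) (nat_lit 325001296) (nat_lit 0) (nat_lit 112620236) (nat_lit 152) (nat_lit 105946082) (nat_lit 222) (nat_lit 1) (nat_lit 219) (nat_lit 1) (nat_lit 221) (nat_lit 1) (nat_lit 396) (nat_lit 325) (nat_lit 299)) (XT.lf (nat_lit 228) (nat_lit 100958426) (nat_lit 0) (nat_lit 104692963) (nat_lit 152) (nat_lit 322588604) (nat_lit 220) (nat_lit 1) (nat_lit 217) (nat_lit 1) (nat_lit 219) (nat_lit 1) (nat_lit 397) (nat_lit 325) (nat_lit 298))) (XT.nd (nat_lit 78) (nat_lit 152) (nat_lit 0) (XT.lf (nat_lit 228) (nat_lit 400767849) (nat_lit 0) (nat_lit 100025629) (nat_lit 152) (nat_lit 12689411) (nat_lit 217) (nat_lit 1) (nat_lit 214) (nat_lit 1) (nat_lit 216) (nat_lit 1) (nat_lit 398) (nat_lit 325) (nat_lit 297)) (XT.lf (nat_lit 228) (nat_lit 179365115) (nat_lit 0) (nat_lit 95490752) (nat_lit 152) (nat_lit 224279970) (nat_lit 215) (nat_lit 1) (nat_lit 212) (nat_lit 1) (nat_lit 214) (nat_lit 1) (nat_lit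 399) (nat_lit 325) (nat_lit 296)))))) (XT.nd (nat_lit 546) (nat_lit 988) (nat_lit 0) (XT.nd (nat_lit 234) (nat_lit 608) (nat_lit 0) (XT.nd (nat_lit 78) (nat_lit 228) (nat_lit 0) (XT.lf (nat_lit 76) (nat_lit 61439477) (nat_lit 0) (nat_lit 33769905) (nat_lit 152) (nat_lit 390174483) (nat_lit 211) (nat_lit 1) (nat_lit 210) (nat_lit 1) (nat_lit 212) (nat_lit 1) (nat_lit 400) (nat_lit 325) (nat_lit 295)) (XT.nd (nat_lit 78) (nat_lit 76) (nat_lit 0) (XT.lf (nat_lit 228) (nat_lit 235337346) (nat_lit 0) (nat_lit 94201220) (nat_lit 152) (nat_lit 142440344) (nat_lit 211) (nat_lit 1) (nat_lit 208) (nat_lit 1) (nat_lit 210) (nat_lit 1) (nat_lit 401) (nat_lit 325) (nat_lit 294)) (XT.lf (nat_lit 152) (nat_lit 25342488) (nat_lit 0) (nat_lit 96514924) (nat_lit 76) (nat_lit 337245754) (nat_lit 209) (nat_lit 1) (nat_lit 207) (nat_lit 1) (nat_lit 208) (nat_lit 1) (nat_lit 402) (nat_lit 325) (nat_lit 293)))) (XT.nd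 (nat_lit 156) (nat_lit 304) (nat_lit 0) (XT.nd (nat_lit 78) (nat_lit 76) (nat_lit 0) (XT.lf (nat_lit 228) (nat_lit 273562802) (nat_lit 0) (nat_lit 98709012) (nat_lit 152) (nat_lit 74310631) (nat_lit 207) (nat_lit 1) (nat_lit 204) (nat_lit 1) (nat_lit 206) (nat_lit 1) (nat_lit 403) (nat_lit 325) (nat_lit 292)) (XT.lf (nat_lit 152) (nat_lit 68803062) (nat_lit 0) (nat_lit 102399841) (nat_lit 76) (nat_lit 263280796) (nat_lit 205) (nat_lit 1) (nat_lit 203) (nat_lit 1) (nat_lit 204) (nat_lit 1) (nat_lit 404) (nat_lit 325) (nat_lit 291))) (XT.nd (nat_lit 78) (nat_lit 76) (nat_lit 0) (XT.lf (nat_lit 228) (nat_lit 297831535) (nat_lit 0) (nat_lit 107338616) (nat_lit 152) (nat_lit 17615185) (nat_lit 203) (nat_lit 1) (nat_lit 200) (nat_lit 1) (nat_lit 202) (nat_lit 1) (nat_lit 405) (nat_lit 325) (nat_lit 290)) (XT.lf (nat_lit 152) (nat_lit 99017045) (nat_lit 0) (nat_lit 111901797) (nat_lit 76) (nat_lit 200481734)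 (nat_lit 201) (nat_lit 1) (nat_lit 199) (nat_lit 1) (nat_lit 200) (nat_lit 1) (nat_lit 406) (nat_lit 325) (nat_lit 289))))) (XT.nd (nat_lit 234) (nat_lit 456) (nat_lit 0) (XT.nd (nat_lit 78) (nat_lit 304) (nat_lit 0) (XT.lf (nat_lit 76) (nat_lit 28580259) (nat_lit 0) (nat_lit 89705817) (nat_lit 228) (nat_lit 282138737) (nat_lit 197) (nat_lit 1) (nat_lit 196) (nat_lit 1) (nat_lit 199) (nat_lit 1) (nat_lit 407) (nat_lit 325) (nat_lit 288)) (XT.nd (nat_lit 78) (nat_lit 228) (nat_lit 0) (XT.lf (nat_lit 152) (nat_lit 118829388) (nat_lit 0) (nat_lit 123814590) (nat_lit 76) (nat_lit 147077650) (nat_lit 197) (nat_lit 1) (nat_lit 195) (nat_lit 1) (nat_lit 196) (nat_lit 1) (nat_lit 408) (nat_lit 325) (nat_lit 287)) (XT.lf (nat_lit 76) (nat_lit 66467042) (nat_lit 0) (nat_lit 64377825) (nat_lit 228) (nat_lit 248549711) (nat_lit 193) (nat_lit 1) (nat_lit 192) (nat_lit 1) (nat_lit 195) (nat_lit 1) (nat_lit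 409) (nat_lit 325) (nat_lit 286)))) (XT.nd (nat_lit 156) (nat_lit 228) (nat_lit 0) (XT.nd (nat_lit 78) (nat_lit 152) (nat_lit 0) (XT.lf (nat_lit 152) (nat_lit 130534349) (nat_lit 0) (nat_lit 137196644) (nat_lit 76) (nat_lit 101600387) (nat_lit 193) (nat_lit 1) (nat_lit 191) (nat_lit 1) (nat_lit 192) (nat_lit 1) (nat_lit 410) (nat_lit 325) (nat_lit 285)) (XT.lf (nat_lit 76) (nat_lit 97854856) (nat_lit 0) (nat_lit 46626088) (nat_lit 152) (nat_lit 215119580) (nat_lit 190) (nat_lit 1) (nat_lit 189) (nat_lit 1) (nat_lit 191) (nat_lit 1) (nat_lit 411) (nat_lit 325) (nat_lit 284))) (XT.nd (nat_lit 78) (nat_lit 152) (nat_lit 0) (XT.lf (nat_lit 152) (nat_lit 135978399) (nat_lit 0) (nat_lit 151319433) (nat_lit 76) (nat_lit 62830543) (nat_lit 190) (nat_lit 1) (nat_lit 188) (nat_lit 1) (nat_lit 189) (nat_lit 1) (nat_lit 412) (nat_lit 325) (nat_lit 283)) (XT.lf (nat_lit 76) (nat_lit 123777295) (nat_lit 0)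 (nat_lit 34783669) (nat_lit 152) (nat_lit 182386616) (nat_lit 187) (nat_lit 1) (nat_lit 186) (nat_lit 1) (nat_lit 188) (nat_lit 1) (nat_lit 413) (nat_lit 325) (nat_lit 282))))))))
noncomputable def ec9 : XT := (XT.nd (nat_lit 51558) (nat_lit 228) (nat_lit 0) (XT.nd (nat_lit 50466) (nat_lit 0) (nat_lit 2736) (XT.nd (nat_lit 49920) (nat_lit 0) (nat_lit 6156) (XT.nd (nat_lit 49686) (nat_lit 0) (nat_lit 8208) (XT.nd (nat_lit 49530) (nat_lit 0) (nat_lit 8132) (XT.lf (nat_lit 152) (nat_lit 136644120) (nat_lit 0) (nat_lit 165625568) (nat_lit 76) (nat_lit 29753271) (nat_lit 187) (nat_lit 1) (nat_lit 185) (nat_lit 1) (nat_lit 186) (nat_lit 1) (nat_lit 414) (nat_lit 325) (nat_lit 281)) (XT.nd (nat_lit 78) (nat_lit 0) (nat_lit 76) (XT.lf (nat_lit 836) (nat_lit 182943549) (nat_lit 0) (nat_lit 324815852) (nat_lit 836) (nat_lit 182943549) (nat_lit 303) (nat_lit 1) (nat_lit 292) (nat_lit 0) (nat_lit 303) (nat_lit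 0) (nat_lit 368) (nat_lit 326) (nat_lit 326)) (XT.lf (nat_lit 836) (nat_lit 68243557) (nat_lit 0) (nat_lit 637711962) (nat_lit 760) (nat_lit 623680168) (nat_lit 304) (nat_lit 1) (nat_lit 293) (nat_lit 1) (nat_lit 303) (nat_lit 1) (nat_lit 369) (nat_lit 326) (nat_lit 325)))) (XT.nd (nat_lit 78) (nat_lit 0) (nat_lit 76) (XT.lf (nat_lit 836) (nat_lit 626777685) (nat_lit 76) (nat_lit 427075916) (nat_lit 0) (nat_lit 226501584) (nat_lit 304) (nat_lit 1) (nat_lit 294) (nat_lit 1) (nat_lit 293) (nat_lit 1) (nat_lit 370) (nat_lit 326) (nat_lit 324)) (XT.nd (nat_lit 78) (nat_lit 0) (nat_lit 76) (XT.lf (nat_lit 836) (nat_lit 541587266) (nat_lit 76) (nat_lit 178984556) (nat_lit 0) (nat_lit 512968982) (nat_lit 305) (nat_lit 1) (nat_lit 295) (nat_lit 1) (nat_lit 294) (nat_lit 1) (nat_lit 371) (nat_lit 326) (nat_lit 323)) (XT.lf (nat_lit 836) (nat_lit 400820621) (nat_lit 0) (nat_lit 749916437) (nat_lit 760)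 (nat_lit 38335621) (nat_lit 306) (nat_lit 1) (nat_lit 295) (nat_lit 1) (nat_lit 305) (nat_lit 1) (nat_lit 372) (nat_lit 326) (nat_lit 322))))) (XT.nd (nat_lit 234) (nat_lit 1596) (nat_lit 0) (XT.nd (nat_lit 78) (nat_lit 684) (nat_lit 0) (XT.lf (nat_lit 836) (nat_lit 96172978) (nat_lit 0) (nat_lit 826991206) (nat_lit 760) (nat_lit 223564033) (nat_lit 307) (nat_lit 1) (nat_lit 296) (nat_lit 1) (nat_lit 306) (nat_lit 1) (nat_lit 373) (nat_lit 326) (nat_lit 321)) (XT.nd (nat_lit 78) (nat_lit 684) (nat_lit 0) (XT.lf (nat_lit 836) (nat_lit 184805347) (nat_lit 76) (nat_lit 718722703) (nat_lit 0) (nat_lit 202832414) (nat_lit 307) (nat_lit 1) (nat_lit 297) (nat_lit 1) (nat_lit 296) (nat_lit 1) (nat_lit 374) (nat_lit 326) (nat_lit 320)) (XT.lf (nat_lit 836) (nat_lit 37954804) (nat_lit 0) (nat_lit 537292762) (nat_lit 760) (nat_lit 492691833) (nat_lit 298) (nat_lit 1) (nat_lit 287) (nat_lit 1) (nat_lit 297)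 (nat_lit 1) (nat_lit 375) (nat_lit 326) (nat_lit 319)))) (XT.nd (nat_lit 156) (nat_lit 684) (nat_lit 0) (XT.nd (nat_lit 78) (nat_lit 380) (nat_lit 0) (XT.lf (nat_lit 76) (nat_lit 262806970) (nat_lit 0) (nat_lit 113886490) (nat_lit 532) (nat_lit 654644074) (nat_lit 281) (nat_lit 1) (nat_lit 280) (nat_lit 1) (nat_lit 287) (nat_lit 1) (nat_lit 376) (nat_lit 326) (nat_lit 318)) (XT.lf (nat_lit 456) (nat_lit 724262932) (nat_lit 0) (nat_lit 235763198) (nat_lit 380) (nat_lit 36450447) (nat_lit 281) (nat_lit 1) (nat_lit 275) (nat_lit 1) (nat_lit 280) (nat_lit 1) (nat_lit 377) (nat_lit 326) (nat_lit 317))) (XT.nd (nat_lit 78) (nat_lit 304) (nat_lit 0) (XT.lf (nat_lit 456) (nat_lit 522635028) (nat_lit 0) (nat_lit 109890242) (nat_lit 380) (nat_lit 330589307) (nat_lit 276) (nat_lit 1) (nat_lit 270) (nat_lit 1) (nat_lit 275) (nat_lit 1) (nat_lit 378) (nat_lit 326) (nat_lit 316)) (XT.lf (nat_lit 380) (nat_lit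 318016749) (nat_lit 0) (nat_lit 2023257) (nat_lit 304) (nat_lit 611330223) (nat_lit 271) (nat_lit 1) (nat_lit 266) (nat_lit 1) (nat_lit 270) (nat_lit 1) (nat_lit 379) (nat_lit 326) (nat_lit 315)))))) (XT.nd (nat_lit 546) (nat_lit 1596) (nat_lit 0) (XT.nd (nat_lit 234) (nat_lit 1140) (nat_lit 0) (XT.nd (nat_lit 78) (nat_lit 684) (nat_lit 0) (XT.lf (nat_lit 76) (nat_lit 23461772) (nat_lit 0) (nat_lit 791244665) (nat_lit 380) (nat_lit 86379740) (nat_lit 267) (nat_lit 1) (nat_lit 266) (nat_lit 1) (nat_lit 271) (nat_lit 1) (nat_lit 380) (nat_lit 326) (nat_lit 314)) (XT.nd (nat_lit 78) (nat_lit 304) (nat_lit 0) (XT.lf (nat_lit 76) (nat_lit 605789059) (nat_lit 0) (nat_lit 100476597) (nat_lit 380) (nat_lit 165704157) (nat_lit 262) (nat_lit 1) (nat_lit 261) (nat_lit 1) (nat_lit 266) (nat_lit 1) (nat_lit 381) (nat_lit 326) (nat_lit 313)) (XT.lf (nat_lit 76) (nat_lit 303091617) (nat_lit 0) (nat_lit 307777654)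 (nat_lit 380) (nat_lit 233270687) (nat_lit 258) (nat_lit 1) (nat_lit 257) (nat_lit 1) (nat_lit 262) (nat_lit 1) (nat_lit 382) (nat_lit 326) (nat_lit 312)))) (XT.nd (nat_lit 156) (nat_lit 608) (nat_lit 0) (XT.nd (nat_lit 78) (nat_lit 228) (nat_lit 0) (XT.lf (nat_lit 76) (nat_lit 14959930) (nat_lit 0) (nat_lit 514599458) (nat_lit 380) (nat_lit 288068367) (nat_lit 254) (nat_lit 1) (nat_lit 253) (nat_lit 1) (nat_lit 258) (nat_lit 1) (nat_lit 383) (nat_lit 326) (nat_lit 311)) (XT.lf (nat_lit 304) (nat_lit 67558201) (nat_lit 0) (nat_lit 456863778) (nat_lit 228) (nat_lit 267732673) (nat_lit 254) (nat_lit 1) (nat_lit 250) (nat_lit 1) (nat_lit 253) (nat_lit 1) (nat_lit 384) (nat_lit 326) (nat_lit 310))) (XT.nd (nat_lit 78) (nat_lit 228) (nat_lit 0) (XT.lf (nat_lit 76) (nat_lit 233431749) (nat_lit 0) (nat_lit 159995571) (nat_lit 380) (nat_lit 374306569) (nat_lit 246) (nat_lit 1) (nat_lit 245) (nat_lit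 1) (nat_lit 250) (nat_lit 1) (nat_lit 385) (nat_lit 326) (nat_lit 309)) (XT.lf (nat_lit 304) (nat_lit 361408496) (nat_lit 0) (nat_lit 339496571) (nat_lit 228) (nat_lit 43455158) (nat_lit 246) (nat_lit 1) (nat_lit 242) (nat_lit 1) (nat_lit 245) (nat_lit 1) (nat_lit 386) (nat_lit 326) (nat_lit 308))))) (XT.nd (nat_lit 234) (nat_lit 836) (nat_lit 0) (XT.nd (nat_lit 78) (nat_lit 532) (nat_lit 0) (XT.lf (nat_lit 304) (nat_lit 115829677) (nat_lit 0) (nat_lit 292292645) (nat_lit 228) (nat_lit 313762493) (nat_lit 243) (nat_lit 1) (nat_lit 239) (nat_lit 1) (nat_lit 242) (nat_lit 1) (nat_lit 387) (nat_lit 326) (nat_lit 307)) (XT.nd (nat_lit 78) (nat_lit 228) (nat_lit 0) (XT.lf (nat_lit 76) (nat_lit 132017843) (nat_lit 0) (nat_lit 120873808) (nat_lit 304) (nat_lit 447451200) (nat_lit 236) (nat_lit 1) (nat_lit 235) (nat_lit 1) (nat_lit 239) (nat_lit 1) (nat_lit 388) (nat_lit 326) (nat_lit 306)) (XT.lf (nat_lit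 304) (nat_lit 328509076) (nat_lit 0) (nat_lit 218577765) (nat_lit 228) (nat_lit 132502560) (nat_lit 236) (nat_lit 1) (nat_lit 232) (nat_lit 1) (nat_lit 235) (nat_lit 1) (nat_lit 389) (nat_lit 326) (nat_lit 305)))) (XT.nd (nat_lit 156) (nat_lit 380) (nat_lit 0) (XT.nd (nat_lit 78) (nat_lit 304) (nat_lit 0) (XT.lf (nat_lit 228) (nat_lit 81437885) (nat_lit 0) (nat_lit 190693157) (nat_lit 152) (nat_lit 387542162) (nat_lit 233) (nat_lit 1) (nat_lit 230) (nat_lit 1) (nat_lit 232) (nat_lit 1) (nat_lit 390) (nat_lit 326) (nat_lit 304)) (XT.lf (nat_lit 76) (nat_lit 13796098) (nat_lit 0) (nat_lit 154381331) (nat_lit 304) (nat_lit 472351581) (nat_lit 227) (nat_lit 1) (nat_lit 226) (nat_lit 1) (nat_lit 230) (nat_lit 1) (nat_lit 391) (nat_lit 326) (nat_lit 303))) (XT.nd (nat_lit 78) (nat_lit 228) (nat_lit 0) (XT.lf (nat_lit 228) (nat_lit 236643551) (nat_lit 0) (nat_lit 147881918) (nat_lit 152) (nat_lit 237467073)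 (nat_lit 227) (nat_lit 1) (nat_lit 224) (nat_lit 1) (nat_lit 226) (nat_lit 1) (nat_lit 392) (nat_lit 326) (nat_lit 302)) (XT.lf (nat_lit 76) (nat_lit 128392901) (nat_lit 0) (nat_lit 5930548) (nat_lit 228) (nat_lit 469941491) (nat_lit 222) (nat_lit 1) (nat_lit 221) (nat_lit 1) (nat_lit 224) (nat_lit 1) (nat_lit 393) (nat_lit 326) (nat_lit 301))))))) (XT.nd (nat_lit 1014) (nat_lit 988) (nat_lit 0) (XT.nd (nat_lit 468) (nat_lit 988) (nat_lit 0) (XT.nd (nat_lit 234) (nat_lit 456) (nat_lit 0) (XT.nd (nat_lit 78) (nat_lit 380) (nat_lit 0) (XT.lf (nat_lit 228) (nat_lit 351001399) (nat_lit 0) (nat_lit 121629855) (nat_lit 152) (nat_lit 114421769) (nat_lit 222) (nat_lit 1) (nat_lit 219) (nat_lit 1) (nat_lit 221) (nat_lit 1) (nat_lit 394) (nat_lit 326) (nat_lit 300)) (XT.nd (nat_lit 78) (nat_lit 228) (nat_lit 0) (XT.lf (nat_lit 228) (nat_lit 109035100) (nat_lit 0) (nat_lit 113068400) (nat_lit 152) (nat_lit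 348395692) (nat_lit 220) (nat_lit 1) (nat_lit 217) (nat_lit 1) (nat_lit 219) (nat_lit 1) (nat_lit 395) (nat_lit 326) (nat_lit 299)) (XT.lf (nat_lit 228) (nat_lit 432829276) (nat_lit 0) (nat_lit 108027679) (nat_lit 152) (nat_lit 13704564) (nat_lit 217) (nat_lit 1) (nat_lit 214) (nat_lit 1) (nat_lit 216) (nat_lit 1) (nat_lit 396) (nat_lit 326) (nat_lit 298)))) (XT.nd (nat_lit 78) (nat_lit 304) (nat_lit 0) (XT.lf (nat_lit 228) (nat_lit 193714324) (nat_lit 0) (nat_lit 103130012) (nat_lit 152) (nat_lit 242222368) (nat_lit 215) (nat_lit 1) (nat_lit 212) (nat_lit 1) (nat_lit 214) (nat_lit 1) (nat_lit 397) (nat_lit 326) (nat_lit 297)) (XT.nd (nat_lit 78) (nat_lit 152) (nat_lit 0) (XT.lf (nat_lit 76) (nat_lit 66354635) (nat_lit 0) (nat_lit 36471497) (nat_lit 152) (nat_lit 421388442) (nat_lit 211) (nat_lit 1) (nat_lit 210) (nat_lit 1) (nat_lit 212) (nat_lit 1) (nat_lit 398) (nat_lit 326) (nat_lit 296))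 (XT.lf (nat_lit 228) (nat_lit 254164334) (nat_lit 0) (nat_lit 101737318) (nat_lit 152) (nat_lit 153835571) (nat_lit 211) (nat_lit 1) (nat_lit 208) (nat_lit 1) (nat_lit 210) (nat_lit 1) (nat_lit 399) (nat_lit 326) (nat_lit 295))))) (XT.nd (nat_lit 234) (nat_lit 608) (nat_lit 0) (XT.nd (nat_lit 78) (nat_lit 304) (nat_lit 0) (XT.lf (nat_lit 152) (nat_lit 27369887) (nat_lit 0) (nat_lit 104236118) (nat_lit 76) (nat_lit 364225415) (nat_lit 209) (nat_lit 1) (nat_lit 207) (nat_lit 1) (nat_lit 208) (nat_lit 1) (nat_lit 400) (nat_lit 326) (nat_lit 294)) (XT.nd (nat_lit 78) (nat_lit 76) (nat_lit 0) (XT.lf (nat_lit 228) (nat_lit 295447827) (nat_lit 0) (nat_lit 106605733) (nat_lit 152) (nat_lit 80255482) (nat_lit 207) (nat_lit 1) (nat_lit 204) (nat_lit 1) (nat_lit 206) (nat_lit 1) (nat_lit 401) (nat_lit 326) (nat_lit 293)) (XT.lf (nat_lit 152) (nat_lit 74307307) (nat_lit 0) (nat_lit 110591829) (nat_lit 76)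 (nat_lit 284343260) (nat_lit 205) (nat_lit 1) (nat_lit 203) (nat_lit 1) (nat_lit 204) (nat_lit 1) (nat_lit 402) (nat_lit 326) (nat_lit 292)))) (XT.nd (nat_lit 156) (nat_lit 304) (nat_lit 0) (XT.nd (nat_lit 78) (nat_lit 76) (nat_lit 0) (XT.lf (nat_lit 228) (nat_lit 321658058) (nat_lit 0) (nat_lit 115925705) (nat_lit 152) (nat_lit 19024400) (nat_lit 203) (nat_lit 1) (nat_lit 200) (nat_lit 1) (nat_lit 202) (nat_lit 1) (nat_lit 403) (nat_lit 326) (nat_lit 291)) (XT.lf (nat_lit 152) (nat_lit 106938409) (nat_lit 0) (nat_lit 120853941) (nat_lit 76) (nat_lit 216520272) (nat_lit 201) (nat_lit 1) (nat_lit 199) (nat_lit 1) (nat_lit 200) (nat_lit 1) (nat_lit 404) (nat_lit 326) (nat_lit 290))) (XT.nd (nat_lit 78) (nat_lit 76) (nat_lit 0) (XT.lf (nat_lit 76) (nat_lit 30866680) (nat_lit 0) (nat_lit 96882282) (nat_lit 228) (nat_lit 304709836) (nat_lit 197) (nat_lit 1) (nat_lit 196) (nat_lit 1) (nat_lit 199)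 (nat_lit 1) (nat_lit 405) (nat_lit 326) (nat_lit 289)) (XT.lf (nat_lit 152) (nat_lit 128335739) (nat_lit 0) (nat_lit 133719757) (nat_lit 76) (nat_lit 158843862) (nat_lit 197) (nat_lit 1) (nat_lit 195) (nat_lit 1) (nat_lit 196) (nat_lit 1) (nat_lit 406) (nat_lit 326) (nat_lit 288)))))) (XT.nd (nat_lit 546) (nat_lit 76) (nat_lit 0) (XT.nd (nat_lit 234) (nat_lit 456) (nat_lit 0) (XT.nd (nat_lit 78) (nat_lit 228) (nat_lit 0) (XT.lf (nat_lit 76) (nat_lit 71784406) (nat_lit 0) (nat_lit 69528051) (nat_lit 228) (nat_lit 268433688) (nat_lit 193) (nat_lit 1) (nat_lit 192) (nat_lit 1) (nat_lit 195) (nat_lit 1) (nat_lit 407) (nat_lit 326) (nat_lit 287)) (XT.nd (nat_lit 78) (nat_lit 152) (nat_lit 0) (XT.lf (nat_lit 152) (nat_lit 140977097) (nat_lit 0) (nat_lit 148172375) (nat_lit 76) (nat_lit 109728419) (nat_lit 193) (nat_lit 1) (nat_lit 191) (nat_lit 1) (nat_lit 192) (nat_lit 1) (nat_lit 408) (nat_lit 326)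 (nat_lit 286)) (XT.lf (nat_lit 76) (nat_lit 105683245) (nat_lit 0) (nat_lit 50356175) (nat_lit 152) (nat_lit 232329146) (nat_lit 190) (nat_lit 1) (nat_lit 189) (nat_lit 1) (nat_lit 191) (nat_lit 1) (nat_lit 409) (nat_lit 326) (nat_lit 285)))) (XT.nd (nat_lit 156) (nat_lit 228) (nat_lit 0) (XT.nd (nat_lit 78) (nat_lit 152) (nat_lit 0) (XT.lf (nat_lit 152) (nat_lit 146856671) (nat_lit 0) (nat_lit 163424988) (nat_lit 76) (nat_lit 67856987) (nat_lit 190) (nat_lit 1) (nat_lit 188) (nat_lit 1) (nat_lit 189) (nat_lit 1) (nat_lit 410) (nat_lit 326) (nat_lit 284)) (XT.lf (nat_lit 76) (nat_lit 133679478) (nat_lit 0) (nat_lit 37566363) (nat_lit 152) (nat_lit 196977545) (nat_lit 187) (nat_lit 1) (nat_lit 186) (nat_lit 1) (nat_lit 188) (nat_lit 1) (nat_lit 411) (nat_lit 326) (nat_lit 283))) (XT.nd (nat_lit 78) (nat_lit 152) (nat_lit 0) (XT.lf (nat_lit 152) (nat_lit 147575650) (nat_lit 0) (nat_lit 178875614)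 (nat_lit 76) (nat_lit 32133533) (nat_lit 187) (nat_lit 1) (nat_lit 185) (nat_lit 1) (nat_lit 186) (nat_lit 1) (nat_lit 412) (nat_lit 326) (nat_lit 282)) (XT.lf (nat_lit 76) (nat_lit 156700861) (nat_lit 0) (nat_lit 29711013) (nat_lit 152) (nat_lit 162807711) (nat_lit 184) (nat_lit 1) (nat_lit 183) (nat_lit 1) (nat_lit 185) (nat_lit 1) (nat_lit 413) (nat_lit 326) (nat_lit 281))))) (XT.nd (nat_lit 49530) (nat_lit 0) (nat_lit 8436) (XT.nd (nat_lit 49374) (nat_lit 0) (nat_lit 8360) (XT.lf (nat_lit 152) (nat_lit 144416101) (nat_lit 0) (nat_lit 194070337) (nat_lit 76) (nat_lit 1643869) (nat_lit 184) (nat_lit 1) (nat_lit 182) (nat_lit 1) (nat_lit 183) (nat_lit 1) (nat_lit 414) (nat_lit 326) (nat_lit 280)) (XT.nd (nat_lit 78) (nat_lit 0) (nat_lit 76) (XT.lf (nat_lit 836) (nat_lit 197579033) (nat_lit 0) (nat_lit 350801120) (nat_lit 836) (nat_lit 197579033) (nat_lit 303) (nat_lit 1) (nat_lit 292) (nat_lit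 0) (nat_lit 303) (nat_lit 0) (nat_lit 366) (nat_lit 327) (nat_lit 327)) (XT.lf (nat_lit 836) (nat_lit 73703042) (nat_lit 0) (nat_lit 688728919) (nat_lit 760) (nat_lit 673574582) (nat_lit 304) (nat_lit 1) (nat_lit 293) (nat_lit 1) (nat_lit 303) (nat_lit 1) (nat_lit 367) (nat_lit 327) (nat_lit 326)))) (XT.nd (nat_lit 156) (nat_lit 0) (nat_lit 152) (XT.nd (nat_lit 78) (nat_lit 0) (nat_lit 76) (XT.lf (nat_lit 836) (nat_lit 676919900) (nat_lit 76) (nat_lit 461241989) (nat_lit 0) (nat_lit 244621711) (nat_lit 304) (nat_lit 1) (nat_lit 294) (nat_lit 1) (nat_lit 293) (nat_lit 1) (nat_lit 368) (nat_lit 327) (nat_lit 325)) (XT.lf (nat_lit 836) (nat_lit 584914248) (nat_lit 76) (nat_lit 193303320) (nat_lit 0) (nat_lit 554006500) (nat_lit 305) (nat_lit 1) (nat_lit 295) (nat_lit 1) (nat_lit 294) (nat_lit 1) (nat_lit 369) (nat_lit 327) (nat_lit 324))) (XT.nd (nat_lit 78) (nat_lit 0) (nat_lit 76) (XT.lf (nat_lit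 836) (nat_lit 432886271) (nat_lit 0) (nat_lit 809909752) (nat_lit 760) (nat_lit 41402470) (nat_lit 306) (nat_lit 1) (nat_lit 295) (nat_lit 1) (nat_lit 305) (nat_lit 1) (nat_lit 370) (nat_lit 327) (nat_lit 323)) (XT.lf (nat_lit 836) (nat_lit 103866816) (nat_lit 0) (nat_lit 893150503) (nat_lit 760) (nat_lit 241449156) (nat_lit 307) (nat_lit 1) (nat_lit 296) (nat_lit 1) (nat_lit 306) (nat_lit 1) (nat_lit 371) (nat_lit 327) (nat_lit 322))))))))
noncomputable def ec10 : XT := (XT.nd (nat_lit 2028) (nat_lit 2204) (nat_lit 0) (XT.nd (nat_lit 1014) (nat_lit 2584) (nat_lit 0) (XT.nd (nat_lit 468) (nat_lit 1824) (nat_lit 0) (XT.nd (nat_lit 234) (nat_lit 1064) (nat_lit 0) (XT.nd (nat_lit 78) (nat_lit 1216) (nat_lit 0) (XT.lf (nat_lit 836) (nat_lit 199589775) (nat_lit 76) (nat_lit 776220519) (nat_lit 0) (nat_lit 219059007) (nat_lit 307) (nat_lit 1) (nat_lit 297) (nat_lit 1) (nat_lit 296) (nat_lit 1) (nat_lit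 372) (nat_lit 327) (nat_lit 321)) (XT.nd (nat_lit 78) (nat_lit 532) (nat_lit 0) (XT.lf (nat_lit 836) (nat_lit 40991188) (nat_lit 0) (nat_lit 580276183) (nat_lit 760) (nat_lit 532107180) (nat_lit 298) (nat_lit 1) (nat_lit 287) (nat_lit 1) (nat_lit 297) (nat_lit 1) (nat_lit 373) (nat_lit 327) (nat_lit 320)) (XT.lf (nat_lit 76) (nat_lit 283831528) (nat_lit 0) (nat_lit 122997409) (nat_lit 532) (nat_lit 707015600) (nat_lit 281) (nat_lit 1) (nat_lit 280) (nat_lit 1) (nat_lit 287) (nat_lit 1) (nat_lit 374) (nat_lit 327) (nat_lit 319)))) (XT.nd (nat_lit 78) (nat_lit 684) (nat_lit 0) (XT.lf (nat_lit 456) (nat_lit 782203966) (nat_lit 0) (nat_lit 254624254) (nat_lit 380) (nat_lit 39366482) (nat_lit 281) (nat_lit 1) (nat_lit 275) (nat_lit 1) (nat_lit 280) (nat_lit 1) (nat_lit 375) (nat_lit 327) (nat_lit 318)) (XT.nd (nat_lit 78) (nat_lit 304) (nat_lit 0) (XT.lf (nat_lit 456) (nat_lit 564445831) (nat_lit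 0) (nat_lit 118681461) (nat_lit 380) (nat_lit 357036452) (nat_lit 276) (nat_lit 1) (nat_lit 270) (nat_lit 1) (nat_lit 275) (nat_lit 1) (nat_lit 376) (nat_lit 327) (nat_lit 317)) (XT.lf (nat_lit 380) (nat_lit 343458089) (nat_lit 0) (nat_lit 2185118) (nat_lit 304) (nat_lit 660236640) (nat_lit 271) (nat_lit 1) (nat_lit 266) (nat_lit 1) (nat_lit 270) (nat_lit 1) (nat_lit 377) (nat_lit 327) (nat_lit 316))))) (XT.nd (nat_lit 234) (nat_lit 1140) (nat_lit 0) (XT.nd (nat_lit 78) (nat_lit 684) (nat_lit 0) (XT.lf (nat_lit 76) (nat_lit 25338714) (nat_lit 0) (nat_lit 854544239) (nat_lit 380) (nat_lit 93290119) (nat_lit 267) (nat_lit 1) (nat_lit 266) (nat_lit 1) (nat_lit 271) (nat_lit 1) (nat_lit 378) (nat_lit 327) (nat_lit 315)) (XT.nd (nat_lit 78) (nat_lit 304) (nat_lit 0) (XT.lf (nat_lit 76) (nat_lit 654252184) (nat_lit 0) (nat_lit 108514725) (nat_lit 380) (nat_lit 178960489) (nat_lit 262) (nat_lit 1) (nat_lit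 261) (nat_lit 1) (nat_lit 266) (nat_lit 1) (nat_lit 379) (nat_lit 327) (nat_lit 314)) (XT.lf (nat_lit 76) (nat_lit 327338947) (nat_lit 0) (nat_lit 332399866) (nat_lit 380) (nat_lit 251932342) (nat_lit 258) (nat_lit 1) (nat_lit 257) (nat_lit 1) (nat_lit 262) (nat_lit 1) (nat_lit 380) (nat_lit 327) (nat_lit 313)))) (XT.nd (nat_lit 156) (nat_lit 608) (nat_lit 0) (XT.nd (nat_lit 78) (nat_lit 228) (nat_lit 0) (XT.lf (nat_lit 76) (nat_lit 16156724) (nat_lit 0) (nat_lit 555767415) (nat_lit 380) (nat_lit 311113836) (nat_lit 254) (nat_lit 1) (nat_lit 253) (nat_lit 1) (nat_lit 258) (nat_lit 1) (nat_lit 381) (nat_lit 327) (nat_lit 312)) (XT.lf (nat_lit 304) (nat_lit 72962857) (nat_lit 0) (nat_lit 493412880) (nat_lit 228) (nat_lit 289151287) (nat_lit 254) (nat_lit 1) (nat_lit 250) (nat_lit 1) (nat_lit 253) (nat_lit 1) (nat_lit 382) (nat_lit 327) (nat_lit 311))) (XT.nd (nat_lit 78) (nat_lit 228) (nat_lit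 0) (XT.lf (nat_lit 76) (nat_lit 252106289) (nat_lit 0) (nat_lit 172795217) (nat_lit 380) (nat_lit 404251095) (nat_lit 246) (nat_lit 1) (nat_lit 245) (nat_lit 1) (nat_lit 250) (nat_lit 1) (nat_lit 383) (nat_lit 327) (nat_lit 310)) (XT.lf (nat_lit 304) (nat_lit 390321175) (nat_lit 0) (nat_lit 366656296) (nat_lit 228) (nat_lit 46931570) (nat_lit 246) (nat_lit 1) (nat_lit 242) (nat_lit 1) (nat_lit 245) (nat_lit 1) (nat_lit 384) (nat_lit 327) (nat_lit 309)))))) (XT.nd (nat_lit 468) (nat_lit 1216) (nat_lit 0) (XT.nd (nat_lit 234) (nat_lit 608) (nat_lit 0) (XT.nd (nat_lit 78) (nat_lit 532) (nat_lit 0) (XT.lf (nat_lit 304) (nat_lit 125096051) (nat_lit 0) (nat_lit 315676057) (nat_lit 228) (nat_lit 338863493) (nat_lit 243) (nat_lit 1) (nat_lit 239) (nat_lit 1) (nat_lit 242) (nat_lit 1) (nat_lit 385) (nat_lit 327) (nat_lit 308)) (XT.nd (nat_lit 78) (nat_lit 228) (nat_lit 0) (XT.lf (nat_lit 76) (nat_lit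 142579271) (nat_lit 0) (nat_lit 130543713) (nat_lit 304) (nat_lit 483247296) (nat_lit 236) (nat_lit 1) (nat_lit 235) (nat_lit 1) (nat_lit 239) (nat_lit 1) (nat_lit 386) (nat_lit 327) (nat_lit 307)) (XT.lf (nat_lit 304) (nat_lit 354789802) (nat_lit 0) (nat_lit 236063987) (nat_lit 228) (nat_lit 143102765) (nat_lit 236) (nat_lit 1) (nat_lit 232) (nat_lit 1) (nat_lit 235) (nat_lit 1) (nat_lit 387) (nat_lit 327) (nat_lit 306)))) (XT.nd (nat_lit 78) (nat_lit 456) (nat_lit 0) (XT.lf (nat_lit 228) (nat_lit 87952915) (nat_lit 0) (nat_lit 205948610) (nat_lit 152) (nat_lit 418545535) (nat_lit 233) (nat_lit 1) (nat_lit 230) (nat_lit 1) (nat_lit 232) (nat_lit 1) (nat_lit 388) (nat_lit 327) (nat_lit 305)) (XT.nd (nat_lit 78) (nat_lit 152) (nat_lit 0) (XT.lf (nat_lit 76) (nat_lit 14899785) (nat_lit 0) (nat_lit 166731838) (nat_lit 304) (nat_lit 510139707) (nat_lit 227) (nat_lit 1) (nat_lit 226) (nat_lit 1) (nat_lit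 230) (nat_lit 1) (nat_lit 389) (nat_lit 327) (nat_lit 304)) (XT.lf (nat_lit 228) (nat_lit 255575035) (nat_lit 0) (nat_lit 159712471) (nat_lit 152) (nat_lit 256464439) (nat_lit 227) (nat_lit 1) (nat_lit 224) (nat_lit 1) (nat_lit 226) (nat_lit 1) (nat_lit 390) (nat_lit 327) (nat_lit 303))))) (XT.nd (nat_lit 234) (nat_lit 684) (nat_lit 0) (XT.nd (nat_lit 78) (nat_lit 304) (nat_lit 0) (XT.lf (nat_lit 76) (nat_lit 138664333) (nat_lit 0) (nat_lit 6404992) (nat_lit 228) (nat_lit 507536810) (nat_lit 222) (nat_lit 1) (nat_lit 221) (nat_lit 1) (nat_lit 224) (nat_lit 1) (nat_lit 391) (nat_lit 327) (nat_lit 302)) (XT.nd (nat_lit 78) (nat_lit 152) (nat_lit 0) (XT.lf (nat_lit 228) (nat_lit 379081511) (nat_lit 0) (nat_lit 131360243) (nat_lit 152) (nat_lit 123575510) (nat_lit 222) (nat_lit 1) (nat_lit 219) (nat_lit 1) (nat_lit 221) (nat_lit 1) (nat_lit 392) (nat_lit 327) (nat_lit 301)) (XT.lf (nat_lit 228) (nat_lit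 117757908) (nat_lit 0) (nat_lit 122113872) (nat_lit 152) (nat_lit 376267348) (nat_lit 220) (nat_lit 1) (nat_lit 217) (nat_lit 1) (nat_lit 219) (nat_lit 1) (nat_lit 393) (nat_lit 327) (nat_lit 300)))) (XT.nd (nat_lit 156) (nat_lit 304) (nat_lit 0) (XT.nd (nat_lit 78) (nat_lit 152) (nat_lit 0) (XT.lf (nat_lit 228) (nat_lit 467455619) (nat_lit 0) (nat_lit 116669893) (nat_lit 152) (nat_lit 14800929) (nat_lit 217) (nat_lit 1) (nat_lit 214) (nat_lit 1) (nat_lit 216) (nat_lit 1) (nat_lit 394) (nat_lit 327) (nat_lit 299)) (XT.lf (nat_lit 228) (nat_lit 209211470) (nat_lit 0) (nat_lit 111380413) (nat_lit 152) (nat_lit 261600158) (nat_lit 215) (nat_lit 1) (nat_lit 212) (nat_lit 1) (nat_lit 214) (nat_lit 1) (nat_lit 395) (nat_lit 327) (nat_lit 298))) (XT.nd (nat_lit 78) (nat_lit 152) (nat_lit 0) (XT.lf (nat_lit 76) (nat_lit 71663006) (nat_lit 0) (nat_lit 39389217) (nat_lit 152) (nat_lit 455099517) (nat_lit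 211) (nat_lit 1) (nat_lit 210) (nat_lit 1) (nat_lit 212) (nat_lit 1) (nat_lit 396) (nat_lit 327) (nat_lit 297)) (XT.lf (nat_lit 228) (nat_lit 274497481) (nat_lit 0) (nat_lit 109876303) (nat_lit 152) (nat_lit 166142417) (nat_lit 211) (nat_lit 1) (nat_lit 208) (nat_lit 1) (nat_lit 210) (nat_lit 1) (nat_lit 397) (nat_lit 327) (nat_lit 296))))))) (XT.nd (nat_lit 1014) (nat_lit 456) (nat_lit 0) (XT.nd (nat_lit 468) (nat_lit 836) (nat_lit 0) (XT.nd (nat_lit 234) (nat_lit 532) (nat_lit 0) (XT.nd (nat_lit 78) (nat_lit 304) (nat_lit 0) (XT.lf (nat_lit 152) (nat_lit 29559478) (nat_lit 0) (nat_lit 112575007) (nat_lit 76) (nat_lit 393363448) (nat_lit 209) (nat_lit 1) (nat_lit 207) (nat_lit 1) (nat_lit 208) (nat_lit 1) (nat_lit 398) (nat_lit 327) (nat_lit 295)) (XT.nd (nat_lit 78) (nat_lit 76) (nat_lit 0) (XT.lf (nat_lit 228) (nat_lit 319083653) (nat_lit 0) (nat_lit 115134192) (nat_lit 152) (nat_lit 86675920)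 (nat_lit 207) (nat_lit 1) (nat_lit 204) (nat_lit 1) (nat_lit 206) (nat_lit 1) (nat_lit 399) (nat_lit 327) (nat_lit 294)) (XT.lf (nat_lit 152) (nat_lit 80251891) (nat_lit 0) (nat_lit 119439175) (nat_lit 76) (nat_lit 307090720) (nat_lit 205) (nat_lit 1) (nat_lit 203) (nat_lit 1) (nat_lit 204) (nat_lit 1) (nat_lit 400) (nat_lit 327) (nat_lit 293)))) (XT.nd (nat_lit 78) (nat_lit 304) (nat_lit 0) (XT.lf (nat_lit 228) (nat_lit 347390703) (nat_lit 0) (nat_lit 125199762) (nat_lit 152) (nat_lit 20546352) (nat_lit 203) (nat_lit 1) (nat_lit 200) (nat_lit 1) (nat_lit 202) (nat_lit 1) (nat_lit 401) (nat_lit 327) (nat_lit 292)) (XT.nd (nat_lit 78) (nat_lit 228) (nat_lit 0) (XT.lf (nat_lit 152) (nat_lit 115493482) (nat_lit 0) (nat_lit 130522256) (nat_lit 76) (nat_lit 233841894) (nat_lit 201) (nat_lit 1) (nat_lit 199) (nat_lit 1) (nat_lit 200) (nat_lit 1) (nat_lit 402) (nat_lit 327) (nat_lit 291)) (XT.lf (nat_lit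 76) (nat_lit 33336015) (nat_lit 0) (nat_lit 104632865) (nat_lit 228) (nat_lit 329086623) (nat_lit 197) (nat_lit 1) (nat_lit 196) (nat_lit 1) (nat_lit 199) (nat_lit 1) (nat_lit 403) (nat_lit 327) (nat_lit 290))))) (XT.nd (nat_lit 234) (nat_lit 456) (nat_lit 0) (XT.nd (nat_lit 78) (nat_lit 304) (nat_lit 0) (XT.lf (nat_lit 152) (nat_lit 138602598) (nat_lit 0) (nat_lit 144417338) (nat_lit 76) (nat_lit 171551371) (nat_lit 197) (nat_lit 1) (nat_lit 195) (nat_lit 1) (nat_lit 196) (nat_lit 1) (nat_lit 404) (nat_lit 327) (nat_lit 289)) (XT.nd (nat_lit 78) (nat_lit 76) (nat_lit 0) (XT.lf (nat_lit 76) (nat_lit 77527158) (nat_lit 0) (nat_lit 75090295) (nat_lit 228) (nat_lit 289908383) (nat_lit 193) (nat_lit 1) (nat_lit 192) (nat_lit 1) (nat_lit 195) (nat_lit 1) (nat_lit 405) (nat_lit 327) (nat_lit 288)) (XT.lf (nat_lit 152) (nat_lit 152255265) (nat_lit 0) (nat_lit 160026165) (nat_lit 76) (nat_lit 118506692)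 (nat_lit 193) (nat_lit 1) (nat_lit 191) (nat_lit 1) (nat_lit 192) (nat_lit 1) (nat_lit 406) (nat_lit 327) (nat_lit 287)))) (XT.nd (nat_lit 156) (nat_lit 228) (nat_lit 0) (XT.nd (nat_lit 78) (nat_lit 76) (nat_lit 0) (XT.lf (nat_lit 76) (nat_lit 114137904) (nat_lit 0) (nat_lit 54384669) (nat_lit 152) (nat_lit 250915478) (nat_lit 190) (nat_lit 1) (nat_lit 189) (nat_lit 1) (nat_lit 191) (nat_lit 1) (nat_lit 407) (nat_lit 327) (nat_lit 286)) (XT.lf (nat_lit 152) (nat_lit 158605205) (nat_lit 0) (nat_lit 176498987) (nat_lit 76) (nat_lit 73285546) (nat_lit 190) (nat_lit 1) (nat_lit 188) (nat_lit 1) (nat_lit 189) (nat_lit 1) (nat_lit 408) (nat_lit 327) (nat_lit 285))) (XT.nd (nat_lit 78) (nat_lit 76) (nat_lit 0) (XT.lf (nat_lit 76) (nat_lit 144373837) (nat_lit 0) (nat_lit 40571672) (nat_lit 152) (nat_lit 212735748) (nat_lit 187) (nat_lit 1) (nat_lit 186) (nat_lit 1) (nat_lit 188) (nat_lit 1) (nat_lit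 409) (nat_lit 327) (nat_lit 284)) (XT.lf (nat_lit 152) (nat_lit 159381702) (nat_lit 0) (nat_lit 193185663) (nat_lit 76) (nat_lit 34704216) (nat_lit 187) (nat_lit 1) (nat_lit 185) (nat_lit 1) (nat_lit 186) (nat_lit 1) (nat_lit 410) (nat_lit 327) (nat_lit 283)))))) (XT.nd (nat_lit 49686) (nat_lit 0) (nat_lit 7296) (XT.nd (nat_lit 234) (nat_lit 76) (nat_lit 0) (XT.nd (nat_lit 78) (nat_lit 228) (nat_lit 0) (XT.lf (nat_lit 76) (nat_lit 169236930) (nat_lit 0) (nat_lit 32087894) (nat_lit 152) (nat_lit 175832328) (nat_lit 184) (nat_lit 1) (nat_lit 183) (nat_lit 1) (nat_lit 185) (nat_lit 1) (nat_lit 411) (nat_lit 327) (nat_lit 282)) (XT.nd (nat_lit 78) (nat_lit 152) (nat_lit 0) (XT.lf (nat_lit 152) (nat_lit 155969389) (nat_lit 0) (nat_lit 209595964) (nat_lit 76) (nat_lit 1775379) (nat_lit 184) (nat_lit 1) (nat_lit 182) (nat_lit 1) (nat_lit 183) (nat_lit 1) (nat_lit 412) (nat_lit 327) (nat_lit 281)) (XT.lf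 (nat_lit 76) (nat_lit 189561589) (nat_lit 0) (nat_lit 27679310) (nat_lit 152) (nat_lit 140537211) (nat_lit 181) (nat_lit 1) (nat_lit 180) (nat_lit 1) (nat_lit 182) (nat_lit 1) (nat_lit 413) (nat_lit 327) (nat_lit 280)))) (XT.nd (nat_lit 49296) (nat_lit 0) (nat_lit 8664) (XT.nd (nat_lit 49218) (nat_lit 0) (nat_lit 8588) (XT.lf (nat_lit 0) (nat_lit 25483846) (nat_lit 0) (nat_lit 199451921) (nat_lit 152) (nat_lit 123557840) (nat_lit 179) (nat_lit 3) (nat_lit 179) (nat_lit 1) (nat_lit 181) (nat_lit 1) (nat_lit 414) (nat_lit 327) (nat_lit 279)) (XT.lf (nat_lit 836) (nat_lit 213385356) (nat_lit 0) (nat_lit 378865210) (nat_lit 836) (nat_lit 213385356) (nat_lit 303) (nat_lit 1) (nat_lit 292) (nat_lit 0) (nat_lit 303) (nat_lit 0) (nat_lit 364) (nat_lit 328) (nat_lit 328))) (XT.nd (nat_lit 78) (nat_lit 0) (nat_lit 0) (XT.lf (nat_lit 836) (nat_lit 79599285) (nat_lit 0) (nat_lit 743827232) (nat_lit 760)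 (nat_lit 727460548) (nat_lit 304) (nat_lit 1) (nat_lit 293) (nat_lit 1) (nat_lit 303) (nat_lit 1) (nat_lit 365) (nat_lit 328) (nat_lit 327)) (XT.lf (nat_lit 836) (nat_lit 731073492) (nat_lit 76) (nat_lit 498141348) (nat_lit 0) (nat_lit 264191448) (nat_lit 304) (nat_lit 1) (nat_lit 294) (nat_lit 1) (nat_lit 293) (nat_lit 1) (nat_lit 366) (nat_lit 328) (nat_lit 326))))) (XT.nd (nat_lit 234) (nat_lit 1444) (nat_lit 0) (XT.nd (nat_lit 78) (nat_lit 0) (nat_lit 76) (XT.lf (nat_lit 836) (nat_lit 631707388) (nat_lit 76) (nat_lit 208767586) (nat_lit 0) (nat_lit 598327020) (nat_lit 305) (nat_lit 1) (nat_lit 295) (nat_lit 1) (nat_lit 294) (nat_lit 1) (nat_lit 367) (nat_lit 328) (nat_lit 325)) (XT.nd (nat_lit 78) (nat_lit 0) (nat_lit 76) (XT.lf (nat_lit 836) (nat_lit 467517173) (nat_lit 0) (nat_lit 874702532) (nat_lit 760) (nat_lit 44714668) (nat_lit 306) (nat_lit 1) (nat_lit 295) (nat_lit 1) (nat_lit 305)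 (nat_lit 1) (nat_lit 368) (nat_lit 328) (nat_lit 324)) (XT.lf (nat_lit 836) (nat_lit 112176161) (nat_lit 0) (nat_lit 964602543) (nat_lit 760) (nat_lit 260765088) (nat_lit 307) (nat_lit 1) (nat_lit 296) (nat_lit 1) (nat_lit 306) (nat_lit 1) (nat_lit 369) (nat_lit 328) (nat_lit 323)))) (XT.nd (nat_lit 156) (nat_lit 912) (nat_lit 0) (XT.nd (nat_lit 78) (nat_lit 684) (nat_lit 0) (XT.lf (nat_lit 836) (nat_lit 215556957) (nat_lit 76) (nat_lit 838318161) (nat_lit 0) (nat_lit 236583728) (nat_lit 307) (nat_lit 1) (nat_lit 297) (nat_lit 1) (nat_lit 296) (nat_lit 1) (nat_lit 370) (nat_lit 328) (nat_lit 322)) (XT.lf (nat_lit 836) (nat_lit 44270483) (nat_lit 0) (nat_lit 626698278) (nat_lit 760) (nat_lit 574675754) (nat_lit 298) (nat_lit 1) (nat_lit 287) (nat_lit 1) (nat_lit 297) (nat_lit 1) (nat_lit 371) (nat_lit 328) (nat_lit 321))) (XT.nd (nat_lit 78) (nat_lit 380) (nat_lit 0) (XT.lf (nat_lit 76) (nat_lit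 306538050) (nat_lit 0) (nat_lit 132837202) (nat_lit 532) (nat_lit 763576848) (nat_lit 281) (nat_lit 1) (nat_lit 280) (nat_lit 1) (nat_lit 287) (nat_lit 1) (nat_lit 372) (nat_lit 328) (nat_lit 320)) (XT.lf (nat_lit 456) (nat_lit 844780284) (nat_lit 0) (nat_lit 274994194) (nat_lit 380) (nat_lit 42515801) (nat_lit 281) (nat_lit 1) (nat_lit 275) (nat_lit 1) (nat_lit 280) (nat_lit 1) (nat_lit 373) (nat_lit 328) (nat_lit 319))))))))
noncomputable def ec11 : XT := (XT.nd (nat_lit 2106) (nat_lit 1976) (nat_lit 0) (XT.nd (nat_lit 1014) (nat_lit 2356) (nat_lit 0) (XT.nd (nat_lit 468) (nat_lit 1748) (nat_lit 0) (XT.nd (nat_lit 234) (nat_lit 988) (nat_lit 0) (XT.nd (nat_lit 78) (nat_lit 304) (nat_lit 0) (XT.lf (nat_lit 456) (nat_lit 609601497) (nat_lit 0) (nat_lit 128175978) (nat_lit 380) (nat_lit 385599368) (nat_lit 276) (nat_lit 1) (nat_lit 270) (nat_lit 1) (nat_lit 275) (nat_lit 1) (nat_lit 374) (nat_lit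 328) (nat_lit 318)) (XT.nd (nat_lit 78) (nat_lit 0) (nat_lit 0) (XT.lf (nat_lit 380) (nat_lit 370934736) (nat_lit 0) (nat_lit 2359928) (nat_lit 304) (nat_lit 713055572) (nat_lit 271) (nat_lit 1) (nat_lit 266) (nat_lit 1) (nat_lit 270) (nat_lit 1) (nat_lit 375) (nat_lit 328) (nat_lit 317)) (XT.lf (nat_lit 76) (nat_lit 27365811) (nat_lit 0) (nat_lit 922907778) (nat_lit 380) (nat_lit 100753328) (nat_lit 267) (nat_lit 1) (nat_lit 266) (nat_lit 1) (nat_lit 271) (nat_lit 1) (nat_lit 376) (nat_lit 328) (nat_lit 316)))) (XT.nd (nat_lit 78) (nat_lit 608) (nat_lit 0) (XT.lf (nat_lit 76) (nat_lit 706592359) (nat_lit 0) (nat_lit 117195903) (nat_lit 380) (nat_lit 193277328) (nat_lit 262) (nat_lit 1) (nat_lit 261) (nat_lit 1) (nat_lit 266) (nat_lit 1) (nat_lit 377) (nat_lit 328) (nat_lit 315)) (XT.nd (nat_lit 78) (nat_lit 304) (nat_lit 0) (XT.lf (nat_lit 76) (nat_lit 353526062) (nat_lit 0) (nat_lit 358991855)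 (nat_lit 380) (nat_lit 272086929) (nat_lit 258) (nat_lit 1) (nat_lit 257) (nat_lit 1) (nat_lit 262) (nat_lit 1) (nat_lit 378) (nat_lit 328) (nat_lit 314)) (XT.lf (nat_lit 76) (nat_lit 17449262) (nat_lit 0) (nat_lit 600228808) (nat_lit 380) (nat_lit 336002943) (nat_lit 254) (nat_lit 1) (nat_lit 253) (nat_lit 1) (nat_lit 258) (nat_lit 1) (nat_lit 379) (nat_lit 328) (nat_lit 313))))) (XT.nd (nat_lit 234) (nat_lit 912) (nat_lit 0) (XT.nd (nat_lit 78) (nat_lit 608) (nat_lit 0) (XT.lf (nat_lit 304) (nat_lit 78799886) (nat_lit 0) (nat_lit 532885911) (nat_lit 228) (nat_lit 312283390) (nat_lit 254) (nat_lit 1) (nat_lit 250) (nat_lit 1) (nat_lit 253) (nat_lit 1) (nat_lit 380) (nat_lit 328) (nat_lit 312)) (XT.nd (nat_lit 78) (nat_lit 228) (nat_lit 0) (XT.lf (nat_lit 76) (nat_lit 272274792) (nat_lit 0) (nat_lit 186618834) (nat_lit 380) (nat_lit 436591183) (nat_lit 246) (nat_lit 1) (nat_lit 245) (nat_lit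 1) (nat_lit 250) (nat_lit 1) (nat_lit 381) (nat_lit 328) (nat_lit 311)) (XT.lf (nat_lit 304) (nat_lit 421546869) (nat_lit 0) (nat_lit 395988800) (nat_lit 228) (nat_lit 50686096) (nat_lit 246) (nat_lit 1) (nat_lit 242) (nat_lit 1) (nat_lit 245) (nat_lit 1) (nat_lit 382) (nat_lit 328) (nat_lit 310)))) (XT.nd (nat_lit 156) (nat_lit 380) (nat_lit 0) (XT.nd (nat_lit 78) (nat_lit 304) (nat_lit 0) (XT.lf (nat_lit 304) (nat_lit 135103735) (nat_lit 0) (nat_lit 340930141) (nat_lit 228) (nat_lit 365972572) (nat_lit 243) (nat_lit 1) (nat_lit 239) (nat_lit 1) (nat_lit 242) (nat_lit 1) (nat_lit 383) (nat_lit 328) (nat_lit 309)) (XT.lf (nat_lit 76) (nat_lit 153985612) (nat_lit 0) (nat_lit 140987210) (nat_lit 304) (nat_lit 521907080) (nat_lit 236) (nat_lit 1) (nat_lit 235) (nat_lit 1) (nat_lit 239) (nat_lit 1) (nat_lit 384) (nat_lit 328) (nat_lit 308))) (XT.nd (nat_lit 78) (nat_lit 152) (nat_lit 0) (XT.lf (nat_lit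 304) (nat_lit 383172986) (nat_lit 0) (nat_lit 254949106) (nat_lit 228) (nat_lit 154550986) (nat_lit 236) (nat_lit 1) (nat_lit 232) (nat_lit 1) (nat_lit 235) (nat_lit 1) (nat_lit 385) (nat_lit 328) (nat_lit 307)) (XT.lf (nat_lit 228) (nat_lit 94989149) (nat_lit 0) (nat_lit 222424499) (nat_lit 152) (nat_lit 452029177) (nat_lit 233) (nat_lit 1) (nat_lit 230) (nat_lit 1) (nat_lit 232) (nat_lit 1) (nat_lit 386) (nat_lit 328) (nat_lit 306)))))) (XT.nd (nat_lit 546) (nat_lit 988) (nat_lit 0) (XT.nd (nat_lit 234) (nat_lit 684) (nat_lit 0) (XT.nd (nat_lit 78) (nat_lit 380) (nat_lit 0) (XT.lf (nat_lit 76) (nat_lit 16091768) (nat_lit 0) (nat_lit 180070385) (nat_lit 304) (nat_lit 550950884) (nat_lit 227) (nat_lit 1) (nat_lit 226) (nat_lit 1) (nat_lit 230) (nat_lit 1) (nat_lit 387) (nat_lit 328) (nat_lit 305)) (XT.nd (nat_lit 78) (nat_lit 228) (nat_lit 0) (XT.lf (nat_lit 228) (nat_lit 276021038) (nat_lit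 0) (nat_lit 172489469) (nat_lit 152) (nat_lit 276981594) (nat_lit 227) (nat_lit 1) (nat_lit 224) (nat_lit 1) (nat_lit 226) (nat_lit 1) (nat_lit 388) (nat_lit 328) (nat_lit 304)) (XT.lf (nat_lit 76) (nat_lit 149757480) (nat_lit 0) (nat_lit 6917391) (nat_lit 228) (nat_lit 548139755) (nat_lit 222) (nat_lit 1) (nat_lit 221) (nat_lit 1) (nat_lit 224) (nat_lit 1) (nat_lit 389) (nat_lit 328) (nat_lit 303)))) (XT.nd (nat_lit 156) (nat_lit 380) (nat_lit 0) (XT.nd (nat_lit 78) (nat_lit 152) (nat_lit 0) (XT.lf (nat_lit 228) (nat_lit 409408032) (nat_lit 0) (nat_lit 141869063) (nat_lit 152) (nat_lit 133461551) (nat_lit 222) (nat_lit 1) (nat_lit 219) (nat_lit 1) (nat_lit 221) (nat_lit 1) (nat_lit 390) (nat_lit 328) (nat_lit 302)) (XT.lf (nat_lit 228) (nat_lit 127178541) (nat_lit 0) (nat_lit 131882982) (nat_lit 152) (nat_lit 406368736) (nat_lit 220) (nat_lit 1) (nat_lit 217) (nat_lit 1) (nat_lit 219) (nat_lit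 1) (nat_lit 391) (nat_lit 328) (nat_lit 301))) (XT.nd (nat_lit 78) (nat_lit 152) (nat_lit 0) (XT.lf (nat_lit 228) (nat_lit 504852068) (nat_lit 0) (nat_lit 126003485) (nat_lit 152) (nat_lit 15985003) (nat_lit 217) (nat_lit 1) (nat_lit 214) (nat_lit 1) (nat_lit 216) (nat_lit 1) (nat_lit 392) (nat_lit 328) (nat_lit 300)) (XT.lf (nat_lit 228) (nat_lit 225948387) (nat_lit 0) (nat_lit 120290846) (nat_lit 152) (nat_lit 282528170) (nat_lit 215) (nat_lit 1) (nat_lit 212) (nat_lit 1) (nat_lit 214) (nat_lit 1) (nat_lit 393) (nat_lit 328) (nat_lit 299))))) (XT.nd (nat_lit 234) (nat_lit 608) (nat_lit 0) (XT.nd (nat_lit 78) (nat_lit 228) (nat_lit 0) (XT.lf (nat_lit 76) (nat_lit 77396046) (nat_lit 0) (nat_lit 42540354) (nat_lit 152) (nat_lit 491507479) (nat_lit 211) (nat_lit 1) (nat_lit 210) (nat_lit 1) (nat_lit 212) (nat_lit 1) (nat_lit 394) (nat_lit 328) (nat_lit 298)) (XT.nd (nat_lit 78) (nat_lit 76) (nat_lit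 0) (XT.lf (nat_lit 228) (nat_lit 296457279) (nat_lit 0) (nat_lit 118666408) (nat_lit 152) (nat_lit 179433810) (nat_lit 211) (nat_lit 1) (nat_lit 208) (nat_lit 1) (nat_lit 210) (nat_lit 1) (nat_lit 395) (nat_lit 328) (nat_lit 297)) (XT.lf (nat_lit 152) (nat_lit 31924236) (nat_lit 0) (nat_lit 121581008) (nat_lit 76) (nat_lit 424832524) (nat_lit 209) (nat_lit 1) (nat_lit 207) (nat_lit 1) (nat_lit 208) (nat_lit 1) (nat_lit 396) (nat_lit 328) (nat_lit 296)))) (XT.nd (nat_lit 156) (nat_lit 304) (nat_lit 0) (XT.nd (nat_lit 78) (nat_lit 76) (nat_lit 0) (XT.lf (nat_lit 228) (nat_lit 344610345) (nat_lit 0) (nat_lit 124344927) (nat_lit 152) (nat_lit 93609994) (nat_lit 207) (nat_lit 1) (nat_lit 204) (nat_lit 1) (nat_lit 206) (nat_lit 1) (nat_lit 397) (nat_lit 328) (nat_lit 295)) (XT.lf (nat_lit 152) (nat_lit 86672043) (nat_lit 0) (nat_lit 128994309) (nat_lit 76) (nat_lit 331657978) (nat_lit 205) (nat_lit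 1) (nat_lit 203) (nat_lit 1) (nat_lit 204) (nat_lit 1) (nat_lit 398) (nat_lit 328) (nat_lit 294))) (XT.nd (nat_lit 78) (nat_lit 76) (nat_lit 0) (XT.lf (nat_lit 228) (nat_lit 375181959) (nat_lit 0) (nat_lit 135215743) (nat_lit 152) (nat_lit 22190060) (nat_lit 203) (nat_lit 1) (nat_lit 200) (nat_lit 1) (nat_lit 202) (nat_lit 1) (nat_lit 399) (nat_lit 328) (nat_lit 293)) (XT.lf (nat_lit 152) (nat_lit 124732960) (nat_lit 0) (nat_lit 140964037) (nat_lit 76) (nat_lit 252549246) (nat_lit 201) (nat_lit 1) (nat_lit 199) (nat_lit 1) (nat_lit 200) (nat_lit 1) (nat_lit 400) (nat_lit 328) (nat_lit 292))))))) (XT.nd (nat_lit 1014) (nat_lit 304) (nat_lit 0) (XT.nd (nat_lit 468) (nat_lit 836) (nat_lit 0) (XT.nd (nat_lit 234) (nat_lit 304) (nat_lit 0) (XT.nd (nat_lit 78) (nat_lit 304) (nat_lit 0) (XT.lf (nat_lit 76) (nat_lit 36002896) (nat_lit 0) (nat_lit 113003494) (nat_lit 228) (nat_lit 355413553) (nat_lit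 197) (nat_lit 1) (nat_lit 196) (nat_lit 1) (nat_lit 199) (nat_lit 1) (nat_lit 401) (nat_lit 328) (nat_lit 291)) (XT.nd (nat_lit 78) (nat_lit 228) (nat_lit 0) (XT.lf (nat_lit 152) (nat_lit 149690806) (nat_lit 0) (nat_lit 155970725) (nat_lit 76) (nat_lit 185275481) (nat_lit 197) (nat_lit 1) (nat_lit 195) (nat_lit 1) (nat_lit 196) (nat_lit 1) (nat_lit 402) (nat_lit 328) (nat_lit 290)) (XT.lf (nat_lit 76) (nat_lit 83729331) (nat_lit 0) (nat_lit 81097519) (nat_lit 228) (nat_lit 313101054) (nat_lit 193) (nat_lit 1) (nat_lit 192) (nat_lit 1) (nat_lit 195) (nat_lit 1) (nat_lit 403) (nat_lit 328) (nat_lit 289)))) (XT.nd (nat_lit 78) (nat_lit 228) (nat_lit 0) (XT.lf (nat_lit 152) (nat_lit 164435686) (nat_lit 0) (nat_lit 172828259) (nat_lit 76) (nat_lit 127987227) (nat_lit 193) (nat_lit 1) (nat_lit 191) (nat_lit 1) (nat_lit 192) (nat_lit 1) (nat_lit 404) (nat_lit 328) (nat_lit 288)) (XT.nd (nat_lit 78)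 (nat_lit 76) (nat_lit 0) (XT.lf (nat_lit 76) (nat_lit 123268937) (nat_lit 0) (nat_lit 58735442) (nat_lit 152) (nat_lit 270988716) (nat_lit 190) (nat_lit 1) (nat_lit 189) (nat_lit 1) (nat_lit 191) (nat_lit 1) (nat_lit 405) (nat_lit 328) (nat_lit 287)) (XT.lf (nat_lit 152) (nat_lit 171293621) (nat_lit 0) (nat_lit 190618906) (nat_lit 76) (nat_lit 79148389) (nat_lit 190) (nat_lit 1) (nat_lit 188) (nat_lit 1) (nat_lit 189) (nat_lit 1) (nat_lit 406) (nat_lit 328) (nat_lit 286))))) (XT.nd (nat_lit 234) (nat_lit 456) (nat_lit 0) (XT.nd (nat_lit 78) (nat_lit 228) (nat_lit 0) (XT.lf (nat_lit 76) (nat_lit 155923744) (nat_lit 0) (nat_lit 43817406) (nat_lit 152) (nat_lit 229754608) (nat_lit 187) (nat_lit 1) (nat_lit 186) (nat_lit 1) (nat_lit 188) (nat_lit 1) (nat_lit 407) (nat_lit 328) (nat_lit 285)) (XT.nd (nat_lit 78) (nat_lit 152) (nat_lit 0) (XT.lf (nat_lit 152) (nat_lit 172132238) (nat_lit 0) (nat_lit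 208640516) (nat_lit 76) (nat_lit 37480553) (nat_lit 187) (nat_lit 1) (nat_lit 185) (nat_lit 1) (nat_lit 186) (nat_lit 1) (nat_lit 408) (nat_lit 328) (nat_lit 284)) (XT.lf (nat_lit 76) (nat_lit 182775884) (nat_lit 0) (nat_lit 34654926) (nat_lit 152) (nat_lit 189898915) (nat_lit 184) (nat_lit 1) (nat_lit 183) (nat_lit 1) (nat_lit 185) (nat_lit 1) (nat_lit 409) (nat_lit 328) (nat_lit 283)))) (XT.nd (nat_lit 156) (nat_lit 228) (nat_lit 0) (XT.nd (nat_lit 78) (nat_lit 152) (nat_lit 0) (XT.lf (nat_lit 152) (nat_lit 168446940) (nat_lit 0) (nat_lit 226363641) (nat_lit 76) (nat_lit 1917409) (nat_lit 184) (nat_lit 1) (nat_lit 182) (nat_lit 1) (nat_lit 183) (nat_lit 1) (nat_lit 410) (nat_lit 328) (nat_lit 282)) (XT.lf (nat_lit 76) (nat_lit 204726516) (nat_lit 0) (nat_lit 29893654) (nat_lit 152) (nat_lit 151780188) (nat_lit 181) (nat_lit 1) (nat_lit 180) (nat_lit 1) (nat_lit 182) (nat_lit 1) (nat_lit 411)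 (nat_lit 328) (nat_lit 281))) (XT.nd (nat_lit 78) (nat_lit 152) (nat_lit 0) (XT.lf (nat_lit 0) (nat_lit 27522554) (nat_lit 0) (nat_lit 215408075) (nat_lit 152) (nat_lit 133442467) (nat_lit 179) (nat_lit 3) (nat_lit 179) (nat_lit 1) (nat_lit 181) (nat_lit 1) (nat_lit 412) (nat_lit 328) (nat_lit 280)) (XT.lf (nat_lit 76) (nat_lit 222527704) (nat_lit 0) (nat_lit 28450418) (nat_lit 152) (nat_lit 115644717) (nat_lit 178) (nat_lit 1) (nat_lit 177) (nat_lit 1) (nat_lit 179) (nat_lit 1) (nat_lit 413) (nat_lit 328) (nat_lit 279)))))) (XT.nd (nat_lit 49374) (nat_lit 0) (nat_lit 7372) (XT.nd (nat_lit 49062) (nat_lit 0) (nat_lit 9044) (XT.nd (nat_lit 78) (nat_lit 228) (nat_lit 0) (XT.lf (nat_lit 0) (nat_lit 52578260) (nat_lit 0) (nat_lit 205989261) (nat_lit 152) (nat_lit 98564731) (nat_lit 176) (nat_lit 3) (nat_lit 176) (nat_lit 1) (nat_lit 178) (nat_lit 1) (nat_lit 414) (nat_lit 328) (nat_lit 278)) (XT.nd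 (nat_lit 78) (nat_lit 76) (nat_lit 0) (XT.lf (nat_lit 76) (nat_lit 236808532) (nat_lit 0) (nat_lit 29461920) (nat_lit 152) (nat_lit 81650287) (nat_lit 175) (nat_lit 1) (nat_lit 174) (nat_lit 1) (nat_lit 176) (nat_lit 1) (nat_lit 415) (nat_lit 328) (nat_lit 277)) (XT.lf (nat_lit 0) (nat_lit 73919182) (nat_lit 0) (nat_lit 199181284) (nat_lit 152) (nat_lit 65833256) (nat_lit 173) (nat_lit 3) (nat_lit 173) (nat_lit 1) (nat_lit 175) (nat_lit 1) (nat_lit 416) (nat_lit 328) (nat_lit 276)))) (XT.nd (nat_lit 156) (nat_lit 0) (nat_lit 76) (XT.nd (nat_lit 78) (nat_lit 0) (nat_lit 76) (XT.lf (nat_lit 836) (nat_lit 230456185) (nat_lit 0) (nat_lit 409174427) (nat_lit 836) (nat_lit 230456185) (nat_lit 303) (nat_lit 1) (nat_lit 292) (nat_lit 0) (nat_lit 303) (nat_lit 0) (nat_lit 362) (nat_lit 329) (nat_lit 329)) (XT.lf (nat_lit 836) (nat_lit 85967228) (nat_lit 0) (nat_lit 803333411) (nat_lit 760) (nat_lit 785657392)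 (nat_lit 304) (nat_lit 1) (nat_lit 293) (nat_lit 1) (nat_lit 303) (nat_lit 1) (nat_lit 363) (nat_lit 329) (nat_lit 328))) (XT.nd (nat_lit 78) (nat_lit 0) (nat_lit 76) (XT.lf (nat_lit 836) (nat_lit 789559372) (nat_lit 76) (nat_lit 537992656) (nat_lit 0) (nat_lit 285326763) (nat_lit 304) (nat_lit 1) (nat_lit 294) (nat_lit 1) (nat_lit 293) (nat_lit 1) (nat_lit 364) (nat_lit 329) (nat_lit 327)) (XT.lf (nat_lit 836) (nat_lit 682243979) (nat_lit 76) (nat_lit 225468993) (nat_lit 0) (nat_lit 646193182) (nat_lit 305) (nat_lit 1) (nat_lit 295) (nat_lit 1) (nat_lit 294) (nat_lit 1) (nat_lit 365) (nat_lit 329) (nat_lit 326))))) (XT.nd (nat_lit 234) (nat_lit 1900) (nat_lit 0) (XT.nd (nat_lit 78) (nat_lit 0) (nat_lit 76) (XT.lf (nat_lit 836) (nat_lit 504918546) (nat_lit 0) (nat_lit 944678734) (nat_lit 760) (nat_lit 48291841) (nat_lit 306) (nat_lit 1) (nat_lit 295) (nat_lit 1) (nat_lit 305) (nat_lit 1) (nat_lit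 366) (nat_lit 329) (nat_lit 325)) (XT.nd (nat_lit 78) (nat_lit 0) (nat_lit 0) (XT.lf (nat_lit 836) (nat_lit 121150254) (nat_lit 0) (nat_lit 1041770747) (nat_lit 760) (nat_lit 281626295) (nat_lit 307) (nat_lit 1) (nat_lit 296) (nat_lit 1) (nat_lit 306) (nat_lit 1) (nat_lit 367) (nat_lit 329) (nat_lit 324)) (XT.lf (nat_lit 836) (nat_lit 232801513) (nat_lit 76) (nat_lit 905383614) (nat_lit 0) (nat_lit 255510426) (nat_lit 307) (nat_lit 1) (nat_lit 297) (nat_lit 1) (nat_lit 296) (nat_lit 1) (nat_lit 368) (nat_lit 329) (nat_lit 323)))) (XT.nd (nat_lit 156) (nat_lit 760) (nat_lit 0) (XT.nd (nat_lit 78) (nat_lit 532) (nat_lit 0) (XT.lf (nat_lit 836) (nat_lit 47812122) (nat_lit 0) (nat_lit 676834140) (nat_lit 760) (nat_lit 620649815) (nat_lit 298) (nat_lit 1) (nat_lit 287) (nat_lit 1) (nat_lit 297) (nat_lit 1) (nat_lit 369) (nat_lit 329) (nat_lit 322)) (XT.lf (nat_lit 76) (nat_lit 331061094) (nat_lit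 0) (nat_lit 143464178) (nat_lit 532) (nat_lit 824662996) (nat_lit 281) (nat_lit 1) (nat_lit 280) (nat_lit 1) (nat_lit 287) (nat_lit 1) (nat_lit 370) (nat_lit 329) (nat_lit 321))) (XT.nd (nat_lit 78) (nat_lit 380) (nat_lit 0) (XT.lf (nat_lit 456) (nat_lit 912362707) (nat_lit 0) (nat_lit 296993730) (nat_lit 380) (nat_lit 45917065) (nat_lit 281) (nat_lit 1) (nat_lit 275) (nat_lit 1) (nat_lit 280) (nat_lit 1) (nat_lit 371) (nat_lit 329) (nat_lit 320)) (XT.lf (nat_lit 456) (nat_lit 658369617) (nat_lit 0) (nat_lit 138430056) (nat_lit 380) (nat_lit 416447317) (nat_lit 276) (nat_lit 1) (nat_lit 270) (nat_lit 1) (nat_lit 275) (nat_lit 1) (nat_lit 372) (nat_lit 329) (nat_lit 319))))))))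
noncomputable def ec12 : XT := (XT.nd (nat_lit 2028) (nat_lit 2204) (nat_lit 0) (XT.nd (nat_lit 1014) (nat_lit 2052) (nat_lit 0) (XT.nd (nat_lit 468) (nat_lit 1824) (nat_lit 0) (XT.nd (nat_lit 234) (nat_lit 836) (nat_lit 0) (XT.nd (nat_lit 78) (nat_lit 380) (nat_lit 0) (XT.lf (nat_lit 380) (nat_lit 400609515) (nat_lit 0) (nat_lit 2548722) (nat_lit 304) (nat_lit 770100017) (nat_lit 271) (nat_lit 1) (nat_lit 266) (nat_lit 1) (nat_lit 270) (nat_lit 1) (nat_lit 373) (nat_lit 329) (nat_lit 318)) (XT.nd (nat_lit 78) (nat_lit 380) (nat_lit 0) (XT.lf (nat_lit 76) (nat_lit 29555076) (nat_lit 0) (nat_lit 996740400) (nat_lit 380) (nat_lit 108813595) (nat_lit 267) (nat_lit 1) (nat_lit 266) (nat_lit 1) (nat_lit 271) (nat_lit 1) (nat_lit 374) (nat_lit 329) (nat_lit 317)) (XT.lf (nat_lit 76) (nat_lit 763119748) (nat_lit 0) (nat_lit 126571575) (nat_lit 380) (nat_lit 208739515) (nat_lit 262) (nat_lit 1) (nat_lit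 261) (nat_lit 1) (nat_lit 266) (nat_lit 1) (nat_lit 375) (nat_lit 329) (nat_lit 316)))) (XT.nd (nat_lit 78) (nat_lit 532) (nat_lit 0) (XT.lf (nat_lit 76) (nat_lit 381808147) (nat_lit 0) (nat_lit 387711204) (nat_lit 380) (nat_lit 293853884) (nat_lit 258) (nat_lit 1) (nat_lit 257) (nat_lit 1) (nat_lit 262) (nat_lit 1) (nat_lit 376) (nat_lit 329) (nat_lit 315)) (XT.nd (nat_lit 78) (nat_lit 228) (nat_lit 0) (XT.lf (nat_lit 76) (nat_lit 18845203) (nat_lit 0) (nat_lit 648247113) (nat_lit 380) (nat_lit 362883179) (nat_lit 254) (nat_lit 1) (nat_lit 253) (nat_lit 1) (nat_lit 258) (nat_lit 1) (nat_lit 377) (nat_lit 329) (nat_lit 314)) (XT.lf (nat_lit 304) (nat_lit 85103877) (nat_lit 0) (nat_lit 575516783) (nat_lit 228) (nat_lit 337266062) (nat_lit 254) (nat_lit 1) (nat_lit 250) (nat_lit 1) (nat_lit 253) (nat_lit 1) (nat_lit 378) (nat_lit 329) (nat_lit 313))))) (XT.nd (nat_lit 234) (nat_lit 988) (nat_lit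 0) (XT.nd (nat_lit 78) (nat_lit 456) (nat_lit 0) (XT.lf (nat_lit 76) (nat_lit 294056776) (nat_lit 0) (nat_lit 201548341) (nat_lit 380) (nat_lit 471518477) (nat_lit 246) (nat_lit 1) (nat_lit 245) (nat_lit 1) (nat_lit 250) (nat_lit 1) (nat_lit 379) (nat_lit 329) (nat_lit 312)) (XT.nd (nat_lit 78) (nat_lit 228) (nat_lit 0) (XT.lf (nat_lit 304) (nat_lit 455270619) (nat_lit 0) (nat_lit 427667904) (nat_lit 228) (nat_lit 54740984) (nat_lit 246) (nat_lit 1) (nat_lit 242) (nat_lit 1) (nat_lit 245) (nat_lit 1) (nat_lit 380) (nat_lit 329) (nat_lit 311)) (XT.lf (nat_lit 304) (nat_lit 145912034) (nat_lit 0) (nat_lit 368204553) (nat_lit 228) (nat_lit 395250378) (nat_lit 243) (nat_lit 1) (nat_lit 239) (nat_lit 1) (nat_lit 242) (nat_lit 1) (nat_lit 381) (nat_lit 329) (nat_lit 310)))) (XT.nd (nat_lit 156) (nat_lit 456) (nat_lit 0) (XT.nd (nat_lit 78) (nat_lit 228) (nat_lit 0) (XT.lf (nat_lit 76) (nat_lit 166304461)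 (nat_lit 0) (nat_lit 152266186) (nat_lit 304) (nat_lit 563659646) (nat_lit 236) (nat_lit 1) (nat_lit 235) (nat_lit 1) (nat_lit 239) (nat_lit 1) (nat_lit 382) (nat_lit 329) (nat_lit 309)) (XT.lf (nat_lit 304) (nat_lit 413826825) (nat_lit 0) (nat_lit 275345034) (nat_lit 228) (nat_lit 166915065) (nat_lit 236) (nat_lit 1) (nat_lit 232) (nat_lit 1) (nat_lit 235) (nat_lit 1) (nat_lit 383) (nat_lit 329) (nat_lit 308))) (XT.nd (nat_lit 78) (nat_lit 304) (nat_lit 0) (XT.lf (nat_lit 228) (nat_lit 102588281) (nat_lit 0) (nat_lit 240218459) (nat_lit 152) (nat_lit 488191512) (nat_lit 233) (nat_lit 1) (nat_lit 230) (nat_lit 1) (nat_lit 232) (nat_lit 1) (nat_lit 384) (nat_lit 329) (nat_lit 307)) (XT.lf (nat_lit 76) (nat_lit 17379110) (nat_lit 0) (nat_lit 194476016) (nat_lit 304) (nat_lit 595026955) (nat_lit 227) (nat_lit 1) (nat_lit 226) (nat_lit 1) (nat_lit 230) (nat_lit 1) (nat_lit 385) (nat_lit 329) (nat_lit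 306)))))) (XT.nd (nat_lit 468) (nat_lit 988) (nat_lit 0) (XT.nd (nat_lit 234) (nat_lit 532) (nat_lit 0) (XT.nd (nat_lit 78) (nat_lit 380) (nat_lit 0) (XT.lf (nat_lit 228) (nat_lit 298102721) (nat_lit 0) (nat_lit 186288626) (nat_lit 152) (nat_lit 299140121) (nat_lit 227) (nat_lit 1) (nat_lit 224) (nat_lit 1) (nat_lit 226) (nat_lit 1) (nat_lit 386) (nat_lit 329) (nat_lit 305)) (XT.nd (nat_lit 78) (nat_lit 152) (nat_lit 0) (XT.lf (nat_lit 76) (nat_lit 161738078) (nat_lit 0) (nat_lit 7470783) (nat_lit 228) (nat_lit 591990936) (nat_lit 222) (nat_lit 1) (nat_lit 221) (nat_lit 1) (nat_lit 224) (nat_lit 1) (nat_lit 387) (nat_lit 329) (nat_lit 304)) (XT.lf (nat_lit 228) (nat_lit 442160675) (nat_lit 0) (nat_lit 153218588) (nat_lit 152) (nat_lit 144138475) (nat_lit 222) (nat_lit 1) (nat_lit 219) (nat_lit 1) (nat_lit 221) (nat_lit 1) (nat_lit 388) (nat_lit 329) (nat_lit 303)))) (XT.nd (nat_lit 78) (nat_lit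 380) (nat_lit 0) (XT.lf (nat_lit 228) (nat_lit 137352824) (nat_lit 0) (nat_lit 142433620) (nat_lit 152) (nat_lit 438878234) (nat_lit 220) (nat_lit 1) (nat_lit 217) (nat_lit 1) (nat_lit 219) (nat_lit 1) (nat_lit 389) (nat_lit 329) (nat_lit 302)) (XT.nd (nat_lit 78) (nat_lit 152) (nat_lit 0) (XT.lf (nat_lit 228) (nat_lit 545240234) (nat_lit 0) (nat_lit 136083764) (nat_lit 152) (nat_lit 17263804) (nat_lit 217) (nat_lit 1) (nat_lit 214) (nat_lit 1) (nat_lit 216) (nat_lit 1) (nat_lit 390) (nat_lit 329) (nat_lit 301)) (XT.lf (nat_lit 228) (nat_lit 244024259) (nat_lit 0) (nat_lit 129914114) (nat_lit 152) (nat_lit 305130424) (nat_lit 215) (nat_lit 1) (nat_lit 212) (nat_lit 1) (nat_lit 214) (nat_lit 1) (nat_lit 391) (nat_lit 329) (nat_lit 300))))) (XT.nd (nat_lit 234) (nat_lit 608) (nat_lit 0) (XT.nd (nat_lit 78) (nat_lit 228) (nat_lit 0) (XT.lf (nat_lit 76) (nat_lit 83587730) (nat_lit 0) (nat_lit 45943583)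 (nat_lit 152) (nat_lit 530828077) (nat_lit 211) (nat_lit 1) (nat_lit 210) (nat_lit 1) (nat_lit 212) (nat_lit 1) (nat_lit 392) (nat_lit 329) (nat_lit 299)) (XT.nd (nat_lit 78) (nat_lit 76) (nat_lit 0) (XT.lf (nat_lit 228) (nat_lit 320173861) (nat_lit 0) (nat_lit 128159720) (nat_lit 152) (nat_lit 193788515) (nat_lit 211) (nat_lit 1) (nat_lit 208) (nat_lit 1) (nat_lit 210) (nat_lit 1) (nat_lit 393) (nat_lit 329) (nat_lit 298)) (XT.lf (nat_lit 152) (nat_lit 34478175) (nat_lit 0) (nat_lit 131307489) (nat_lit 76) (nat_lit 458819126) (nat_lit 209) (nat_lit 1) (nat_lit 207) (nat_lit 1) (nat_lit 208) (nat_lit 1) (nat_lit 394) (nat_lit 329) (nat_lit 297)))) (XT.nd (nat_lit 156) (nat_lit 304) (nat_lit 0) (XT.nd (nat_lit 78) (nat_lit 76) (nat_lit 0) (XT.lf (nat_lit 228) (nat_lit 372179173) (nat_lit 0) (nat_lit 134292521) (nat_lit 152) (nat_lit 101098794) (nat_lit 207) (nat_lit 1) (nat_lit 204) (nat_lit 1)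 (nat_lit 206) (nat_lit 1) (nat_lit 395) (nat_lit 329) (nat_lit 296)) (XT.lf (nat_lit 152) (nat_lit 93605806) (nat_lit 0) (nat_lit 139313854) (nat_lit 76) (nat_lit 358190616) (nat_lit 205) (nat_lit 1) (nat_lit 203) (nat_lit 1) (nat_lit 204) (nat_lit 1) (nat_lit 396) (nat_lit 329) (nat_lit 295))) (XT.nd (nat_lit 78) (nat_lit 76) (nat_lit 0) (XT.lf (nat_lit 228) (nat_lit 405196516) (nat_lit 0) (nat_lit 146033002) (nat_lit 152) (nat_lit 23965265) (nat_lit 203) (nat_lit 1) (nat_lit 200) (nat_lit 1) (nat_lit 202) (nat_lit 1) (nat_lit 397) (nat_lit 329) (nat_lit 294)) (XT.lf (nat_lit 152) (nat_lit 134711597) (nat_lit 0) (nat_lit 152241160) (nat_lit 76) (nat_lit 272753186) (nat_lit 201) (nat_lit 1) (nat_lit 199) (nat_lit 1) (nat_lit 200) (nat_lit 1) (nat_lit 398) (nat_lit 329) (nat_lit 293))))))) (XT.nd (nat_lit 1014) (nat_lit 532) (nat_lit 0) (XT.nd (nat_lit 468) (nat_lit 836) (nat_lit 0) (XT.nd (nat_lit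 234) (nat_lit 304) (nat_lit 0) (XT.nd (nat_lit 78) (nat_lit 304) (nat_lit 0) (XT.lf (nat_lit 76) (nat_lit 38883128) (nat_lit 0) (nat_lit 122043774) (nat_lit 228) (nat_lit 383846638) (nat_lit 197) (nat_lit 1) (nat_lit 196) (nat_lit 1) (nat_lit 199) (nat_lit 1) (nat_lit 399) (nat_lit 329) (nat_lit 292)) (XT.nd (nat_lit 78) (nat_lit 228) (nat_lit 0) (XT.lf (nat_lit 152) (nat_lit 161666071) (nat_lit 0) (nat_lit 168448383) (nat_lit 76) (nat_lit 200097519) (nat_lit 197) (nat_lit 1) (nat_lit 195) (nat_lit 1) (nat_lit 196) (nat_lit 1) (nat_lit 400) (nat_lit 329) (nat_lit 291)) (XT.lf (nat_lit 76) (nat_lit 90427677) (nat_lit 0) (nat_lit 87585320) (nat_lit 228) (nat_lit 338149138) (nat_lit 193) (nat_lit 1) (nat_lit 192) (nat_lit 1) (nat_lit 195) (nat_lit 1) (nat_lit 401) (nat_lit 329) (nat_lit 290)))) (XT.nd (nat_lit 78) (nat_lit 228) (nat_lit 0) (XT.lf (nat_lit 152) (nat_lit 177590541) (nat_lit 0) (nat_lit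 186654519) (nat_lit 76) (nat_lit 138226206) (nat_lit 193) (nat_lit 1) (nat_lit 191) (nat_lit 1) (nat_lit 192) (nat_lit 1) (nat_lit 402) (nat_lit 329) (nat_lit 289)) (XT.nd (nat_lit 78) (nat_lit 76) (nat_lit 0) (XT.lf (nat_lit 76) (nat_lit 133130452) (nat_lit 0) (nat_lit 63434278) (nat_lit 152) (nat_lit 292667814) (nat_lit 190) (nat_lit 1) (nat_lit 189) (nat_lit 1) (nat_lit 191) (nat_lit 1) (nat_lit 403) (nat_lit 329) (nat_lit 288)) (XT.lf (nat_lit 152) (nat_lit 184997111) (nat_lit 0) (nat_lit 205868418) (nat_lit 76) (nat_lit 85480261) (nat_lit 190) (nat_lit 1) (nat_lit 188) (nat_lit 1) (nat_lit 189) (nat_lit 1) (nat_lit 404) (nat_lit 329) (nat_lit 287))))) (XT.nd (nat_lit 234) (nat_lit 456) (nat_lit 0) (XT.nd (nat_lit 78) (nat_lit 228) (nat_lit 0) (XT.lf (nat_lit 76) (nat_lit 168397643) (nat_lit 0) (nat_lit 47322798) (nat_lit 152) (nat_lit 248134977) (nat_lit 187) (nat_lit 1) (nat_lit 186) (nat_lit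 1) (nat_lit 188) (nat_lit 1) (nat_lit 405) (nat_lit 329) (nat_lit 286)) (XT.nd (nat_lit 78) (nat_lit 152) (nat_lit 0) (XT.lf (nat_lit 152) (nat_lit 185902817) (nat_lit 0) (nat_lit 225331758) (nat_lit 76) (nat_lit 40478997) (nat_lit 187) (nat_lit 1) (nat_lit 185) (nat_lit 1) (nat_lit 186) (nat_lit 1) (nat_lit 406) (nat_lit 329) (nat_lit 285)) (XT.lf (nat_lit 76) (nat_lit 197397955) (nat_lit 0) (nat_lit 37427320) (nat_lit 152) (nat_lit 205090828) (nat_lit 184) (nat_lit 1) (nat_lit 183) (nat_lit 1) (nat_lit 185) (nat_lit 1) (nat_lit 407) (nat_lit 329) (nat_lit 284)))) (XT.nd (nat_lit 156) (nat_lit 228) (nat_lit 0) (XT.nd (nat_lit 78) (nat_lit 152) (nat_lit 0) (XT.lf (nat_lit 152) (nat_lit 181922695) (nat_lit 0) (nat_lit 244472732) (nat_lit 76) (nat_lit 2070802) (nat_lit 184) (nat_lit 1) (nat_lit 182) (nat_lit 1) (nat_lit 183) (nat_lit 1) (nat_lit 408) (nat_lit 329) (nat_lit 283)) (XT.lf (nat_lit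 76) (nat_lit 221104638) (nat_lit 0) (nat_lit 32285147) (nat_lit 152) (nat_lit 163922603) (nat_lit 181) (nat_lit 1) (nat_lit 180) (nat_lit 1) (nat_lit 182) (nat_lit 1) (nat_lit 409) (nat_lit 329) (nat_lit 282))) (XT.nd (nat_lit 78) (nat_lit 152) (nat_lit 0) (XT.lf (nat_lit 0) (nat_lit 29724358) (nat_lit 0) (nat_lit 232640721) (nat_lit 152) (nat_lit 144117865) (nat_lit 179) (nat_lit 3) (nat_lit 179) (nat_lit 1) (nat_lit 181) (nat_lit 1) (nat_lit 410) (nat_lit 329) (nat_lit 281)) (XT.lf (nat_lit 76) (nat_lit 240329920) (nat_lit 0) (nat_lit 30726452) (nat_lit 152) (nat_lit 124896294) (nat_lit 178) (nat_lit 1) (nat_lit 177) (nat_lit 1) (nat_lit 179) (nat_lit 1) (nat_lit 411) (nat_lit 329) (nat_lit 280)))))) (XT.nd (nat_lit 49218) (nat_lit 0) (nat_lit 8360) (XT.nd (nat_lit 234) (nat_lit 228) (nat_lit 0) (XT.nd (nat_lit 78) (nat_lit 228) (nat_lit 0) (XT.lf (nat_lit 0) (nat_lit 56784521) (nat_lit 0)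 (nat_lit 222468402) (nat_lit 152) (nat_lit 106449910) (nat_lit 176) (nat_lit 3) (nat_lit 176) (nat_lit 1) (nat_lit 178) (nat_lit 1) (nat_lit 412) (nat_lit 329) (nat_lit 279)) (XT.nd (nat_lit 78) (nat_lit 76) (nat_lit 0) (XT.lf (nat_lit 76) (nat_lit 255753215) (nat_lit 0) (nat_lit 31818873) (nat_lit 152) (nat_lit 88182310) (nat_lit 175) (nat_lit 1) (nat_lit 174) (nat_lit 1) (nat_lit 176) (nat_lit 1) (nat_lit 413) (nat_lit 329) (nat_lit 278)) (XT.lf (nat_lit 0) (nat_lit 79832717) (nat_lit 0) (nat_lit 215115787) (nat_lit 152) (nat_lit 71099916) (nat_lit 173) (nat_lit 3) (nat_lit 173) (nat_lit 1) (nat_lit 175) (nat_lit 1) (nat_lit 414) (nat_lit 329) (nat_lit 277)))) (XT.nd (nat_lit 48828) (nat_lit 0) (nat_lit 9272) (XT.nd (nat_lit 78) (nat_lit 76) (nat_lit 0) (XT.lf (nat_lit 76) (nat_lit 267944246) (nat_lit 0) (nat_lit 34822384) (nat_lit 152) (nat_lit 53876214) (nat_lit 172) (nat_lit 1) (nat_lit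 171) (nat_lit 1) (nat_lit 173) (nat_lit 1) (nat_lit 415) (nat_lit 329) (nat_lit 276)) (XT.lf (nat_lit 0) (nat_lit 99422655) (nat_lit 0) (nat_lit 209883063) (nat_lit 152) (nat_lit 38142250) (nat_lit 170) (nat_lit 3) (nat_lit 170) (nat_lit 1) (nat_lit 172) (nat_lit 1) (nat_lit 416) (nat_lit 329) (nat_lit 275))) (XT.nd (nat_lit 78) (nat_lit 0) (nat_lit 76) (XT.lf (nat_lit 836) (nat_lit 248892680) (nat_lit 0) (nat_lit 441908381) (nat_lit 836) (nat_lit 248892680) (nat_lit 303) (nat_lit 1) (nat_lit 292) (nat_lit 0) (nat_lit 303) (nat_lit 0) (nat_lit 360) (nat_lit 330) (nat_lit 330)) (XT.lf (nat_lit 836) (nat_lit 92844606) (nat_lit 0) (nat_lit 867600084) (nat_lit 760) (nat_lit 848509983) (nat_lit 304) (nat_lit 1) (nat_lit 293) (nat_lit 1) (nat_lit 303) (nat_lit 1) (nat_lit 361) (nat_lit 330) (nat_lit 329))))) (XT.nd (nat_lit 234) (nat_lit 988) (nat_lit 0) (XT.nd (nat_lit 78) (nat_lit 0) (nat_lit 76)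 (XT.lf (nat_lit 836) (nat_lit 852724121) (nat_lit 76) (nat_lit 581032068) (nat_lit 0) (nat_lit 308152904) (nat_lit 304) (nat_lit 1) (nat_lit 294) (nat_lit 1) (nat_lit 293) (nat_lit 1) (nat_lit 362) (nat_lit 330) (nat_lit 328)) (XT.nd (nat_lit 78) (nat_lit 0) (nat_lit 76) (XT.lf (nat_lit 836) (nat_lit 736823497) (nat_lit 76) (nat_lit 243506512) (nat_lit 0) (nat_lit 697888637) (nat_lit 305) (nat_lit 1) (nat_lit 295) (nat_lit 1) (nat_lit 294) (nat_lit 1) (nat_lit 363) (nat_lit 330) (nat_lit 327)) (XT.lf (nat_lit 836) (nat_lit 545312030) (nat_lit 0) (nat_lit 1020253033) (nat_lit 760) (nat_lit 52155189) (nat_lit 306) (nat_lit 1) (nat_lit 295) (nat_lit 1) (nat_lit 305) (nat_lit 1) (nat_lit 364) (nat_lit 330) (nat_lit 326)))) (XT.nd (nat_lit 156) (nat_lit 1216) (nat_lit 0) (XT.nd (nat_lit 78) (nat_lit 0) (nat_lit 0) (XT.lf (nat_lit 836) (nat_lit 130842275) (nat_lit 0) (nat_lit 1125112406) (nat_lit 760)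 (nat_lit 304156399) (nat_lit 307) (nat_lit 1) (nat_lit 296) (nat_lit 1) (nat_lit 306) (nat_lit 1) (nat_lit 365) (nat_lit 330) (nat_lit 325)) (XT.lf (nat_lit 836) (nat_lit 251425634) (nat_lit 76) (nat_lit 977814303) (nat_lit 0) (nat_lit 275951260) (nat_lit 307) (nat_lit 1) (nat_lit 297) (nat_lit 1) (nat_lit 296) (nat_lit 1) (nat_lit 366) (nat_lit 330) (nat_lit 324))) (XT.nd (nat_lit 78) (nat_lit 532) (nat_lit 0) (XT.lf (nat_lit 836) (nat_lit 51637092) (nat_lit 0) (nat_lit 730980871) (nat_lit 760) (nat_lit 670301800) (nat_lit 298) (nat_lit 1) (nat_lit 287) (nat_lit 1) (nat_lit 297) (nat_lit 1) (nat_lit 367) (nat_lit 330) (nat_lit 323)) (XT.lf (nat_lit 76) (nat_lit 357545982) (nat_lit 0) (nat_lit 154941312) (nat_lit 532) (nat_lit 890636036) (nat_lit 281) (nat_lit 1) (nat_lit 280) (nat_lit 1) (nat_lit 287) (nat_lit 1) (nat_lit 368) (nat_lit 330) (nat_lit 322))))))))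
noncomputable def ec13 : XT := (XT.nd (nat_lit 2106) (nat_lit 2508) (nat_lit 0) (XT.nd (nat_lit 1014) (nat_lit 2432) (nat_lit 0) (XT.nd (nat_lit 468) (nat_lit 1900) (nat_lit 0) (XT.nd (nat_lit 234) (nat_lit 684) (nat_lit 0) (XT.nd (nat_lit 78) (nat_lit 684) (nat_lit 0) (XT.lf (nat_lit 456) (nat_lit 985351723) (nat_lit 0) (nat_lit 320753228) (nat_lit 380) (nat_lit 49590431) (nat_lit 281) (nat_lit 1) (nat_lit 275) (nat_lit 1) (nat_lit 280) (nat_lit 1) (nat_lit 369) (nat_lit 330) (nat_lit 321)) (XT.nd (nat_lit 78) (nat_lit 304) (nat_lit 0) (XT.lf (nat_lit 456) (nat_lit 711039186) (nat_lit 0) (nat_lit 149504461) (nat_lit 380) (nat_lit 449763103) (nat_lit 276) (nat_lit 1) (nat_lit 270) (nat_lit 1) (nat_lit 275) (nat_lit 1) (nat_lit 370) (nat_lit 330) (nat_lit 320)) (XT.lf (nat_lit 380) (nat_lit 432658276) (nat_lit 0) (nat_lit 2752620) (nat_lit 304) (nat_lit 831708019) (nat_lit 271) (nat_lit 1) (nat_lit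 266) (nat_lit 1) (nat_lit 270) (nat_lit 1) (nat_lit 371) (nat_lit 330) (nat_lit 319)))) (XT.nd (nat_lit 78) (nat_lit 684) (nat_lit 0) (XT.lf (nat_lit 76) (nat_lit 31919482) (nat_lit 0) (nat_lit 1076479632) (nat_lit 380) (nat_lit 117518682) (nat_lit 267) (nat_lit 1) (nat_lit 266) (nat_lit 1) (nat_lit 271) (nat_lit 1) (nat_lit 372) (nat_lit 330) (nat_lit 318)) (XT.nd (nat_lit 78) (nat_lit 304) (nat_lit 0) (XT.lf (nat_lit 76) (nat_lit 824169327) (nat_lit 0) (nat_lit 136697301) (nat_lit 380) (nat_lit 225438676) (nat_lit 262) (nat_lit 1) (nat_lit 261) (nat_lit 1) (nat_lit 266) (nat_lit 1) (nat_lit 373) (nat_lit 330) (nat_lit 317)) (XT.lf (nat_lit 76) (nat_lit 412352799) (nat_lit 0) (nat_lit 418728100) (nat_lit 380) (nat_lit 317362195) (nat_lit 258) (nat_lit 1) (nat_lit 257) (nat_lit 1) (nat_lit 262) (nat_lit 1) (nat_lit 374) (nat_lit 330) (nat_lit 316))))) (XT.nd (nat_lit 234) (nat_lit 988) (nat_lit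 0) (XT.nd (nat_lit 78) (nat_lit 608) (nat_lit 0) (XT.lf (nat_lit 76) (nat_lit 20352819) (nat_lit 0) (nat_lit 700106882) (nat_lit 380) (nat_lit 391913833) (nat_lit 254) (nat_lit 1) (nat_lit 253) (nat_lit 1) (nat_lit 258) (nat_lit 1) (nat_lit 375) (nat_lit 330) (nat_lit 315)) (XT.nd (nat_lit 78) (nat_lit 380) (nat_lit 0) (XT.lf (nat_lit 304) (nat_lit 91912187) (nat_lit 0) (nat_lit 621558126) (nat_lit 228) (nat_lit 364247347) (nat_lit 254) (nat_lit 1) (nat_lit 250) (nat_lit 1) (nat_lit 253) (nat_lit 1) (nat_lit 376) (nat_lit 330) (nat_lit 314)) (XT.lf (nat_lit 76) (nat_lit 317581318) (nat_lit 0) (nat_lit 217672208) (nat_lit 380) (nat_lit 509239956) (nat_lit 246) (nat_lit 1) (nat_lit 245) (nat_lit 1) (nat_lit 250) (nat_lit 1) (nat_lit 377) (nat_lit 330) (nat_lit 313)))) (XT.nd (nat_lit 156) (nat_lit 532) (nat_lit 0) (XT.nd (nat_lit 78) (nat_lit 228) (nat_lit 0) (XT.lf (nat_lit 304) (nat_lit 491692269)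 (nat_lit 0) (nat_lit 461881337) (nat_lit 228) (nat_lit 59120262) (nat_lit 246) (nat_lit 1) (nat_lit 242) (nat_lit 1) (nat_lit 245) (nat_lit 1) (nat_lit 378) (nat_lit 330) (nat_lit 312)) (XT.lf (nat_lit 304) (nat_lit 157584996) (nat_lit 0) (nat_lit 397660917) (nat_lit 228) (nat_lit 426870408) (nat_lit 243) (nat_lit 1) (nat_lit 239) (nat_lit 1) (nat_lit 242) (nat_lit 1) (nat_lit 379) (nat_lit 330) (nat_lit 311))) (XT.nd (nat_lit 78) (nat_lit 228) (nat_lit 0) (XT.lf (nat_lit 76) (nat_lit 179608818) (nat_lit 0) (nat_lit 164447481) (nat_lit 304) (nat_lit 608752418) (nat_lit 236) (nat_lit 1) (nat_lit 235) (nat_lit 1) (nat_lit 239) (nat_lit 1) (nat_lit 380) (nat_lit 330) (nat_lit 310)) (XT.lf (nat_lit 304) (nat_lit 446932971) (nat_lit 0) (nat_lit 297372637) (nat_lit 228) (nat_lit 180268270) (nat_lit 236) (nat_lit 1) (nat_lit 232) (nat_lit 1) (nat_lit 235) (nat_lit 1) (nat_lit 381) (nat_lit 330) (nat_lit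 309)))))) (XT.nd (nat_lit 546) (nat_lit 1064) (nat_lit 0) (XT.nd (nat_lit 234) (nat_lit 760) (nat_lit 0) (XT.nd (nat_lit 78) (nat_lit 456) (nat_lit 0) (XT.lf (nat_lit 228) (nat_lit 110795343) (nat_lit 0) (nat_lit 259435935) (nat_lit 152) (nat_lit 527246833) (nat_lit 233) (nat_lit 1) (nat_lit 230) (nat_lit 1) (nat_lit 232) (nat_lit 1) (nat_lit 382) (nat_lit 330) (nat_lit 308)) (XT.nd (nat_lit 78) (nat_lit 152) (nat_lit 0) (XT.lf (nat_lit 76) (nat_lit 18769439) (nat_lit 0) (nat_lit 210034097) (nat_lit 304) (nat_lit 642629111) (nat_lit 227) (nat_lit 1) (nat_lit 226) (nat_lit 1) (nat_lit 230) (nat_lit 1) (nat_lit 383) (nat_lit 330) (nat_lit 307)) (XT.lf (nat_lit 228) (nat_lit 321950939) (nat_lit 0) (nat_lit 201191716) (nat_lit 152) (nat_lit 323071331) (nat_lit 227) (nat_lit 1) (nat_lit 224) (nat_lit 1) (nat_lit 226) (nat_lit 1) (nat_lit 384) (nat_lit 330) (nat_lit 306)))) (XT.nd (nat_lit 156) (nat_lit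 380) (nat_lit 0) (XT.nd (nat_lit 78) (nat_lit 152) (nat_lit 0) (XT.lf (nat_lit 76) (nat_lit 174677125) (nat_lit 0) (nat_lit 8068445) (nat_lit 228) (nat_lit 639350211) (nat_lit 222) (nat_lit 1) (nat_lit 221) (nat_lit 1) (nat_lit 224) (nat_lit 1) (nat_lit 385) (nat_lit 330) (nat_lit 305)) (XT.lf (nat_lit 228) (nat_lit 477533529) (nat_lit 0) (nat_lit 165476075) (nat_lit 152) (nat_lit 155669553) (nat_lit 222) (nat_lit 1) (nat_lit 219) (nat_lit 1) (nat_lit 221) (nat_lit 1) (nat_lit 386) (nat_lit 330) (nat_lit 304))) (XT.nd (nat_lit 78) (nat_lit 228) (nat_lit 0) (XT.lf (nat_lit 228) (nat_lit 148341050) (nat_lit 0) (nat_lit 153828310) (nat_lit 152) (nat_lit 473988493) (nat_lit 220) (nat_lit 1) (nat_lit 217) (nat_lit 1) (nat_lit 219) (nat_lit 1) (nat_lit 387) (nat_lit 330) (nat_lit 303)) (XT.lf (nat_lit 228) (nat_lit 588859452) (nat_lit 0) (nat_lit 146970465) (nat_lit 152) (nat_lit 18644908) (nat_lit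 217) (nat_lit 1) (nat_lit 214) (nat_lit 1) (nat_lit 216) (nat_lit 1) (nat_lit 388) (nat_lit 330) (nat_lit 302))))) (XT.nd (nat_lit 234) (nat_lit 608) (nat_lit 0) (XT.nd (nat_lit 78) (nat_lit 304) (nat_lit 0) (XT.lf (nat_lit 228) (nat_lit 263546199) (nat_lit 0) (nat_lit 140307243) (nat_lit 152) (nat_lit 329540858) (nat_lit 215) (nat_lit 1) (nat_lit 212) (nat_lit 1) (nat_lit 214) (nat_lit 1) (nat_lit 389) (nat_lit 330) (nat_lit 301)) (XT.nd (nat_lit 78) (nat_lit 152) (nat_lit 0) (XT.lf (nat_lit 76) (nat_lit 90274748) (nat_lit 0) (nat_lit 49619069) (nat_lit 152) (nat_lit 573294323) (nat_lit 211) (nat_lit 1) (nat_lit 210) (nat_lit 1) (nat_lit 212) (nat_lit 1) (nat_lit 390) (nat_lit 330) (nat_lit 300)) (XT.lf (nat_lit 228) (nat_lit 345787770) (nat_lit 0) (nat_lit 138412498) (nat_lit 152) (nat_lit 209291596) (nat_lit 211) (nat_lit 1) (nat_lit 208) (nat_lit 1) (nat_lit 210) (nat_lit 1) (nat_lit 391)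 (nat_lit 330) (nat_lit 299)))) (XT.nd (nat_lit 156) (nat_lit 304) (nat_lit 0) (XT.nd (nat_lit 78) (nat_lit 228) (nat_lit 0) (XT.lf (nat_lit 152) (nat_lit 37236429) (nat_lit 0) (nat_lit 141812088) (nat_lit 76) (nat_lit 495524656) (nat_lit 209) (nat_lit 1) (nat_lit 207) (nat_lit 1) (nat_lit 208) (nat_lit 1) (nat_lit 392) (nat_lit 330) (nat_lit 298)) (XT.lf (nat_lit 228) (nat_lit 401953507) (nat_lit 0) (nat_lit 145035923) (nat_lit 152) (nat_lit 109186697) (nat_lit 207) (nat_lit 1) (nat_lit 204) (nat_lit 1) (nat_lit 206) (nat_lit 1) (nat_lit 393) (nat_lit 330) (nat_lit 297))) (XT.nd (nat_lit 78) (nat_lit 228) (nat_lit 0) (XT.lf (nat_lit 152) (nat_lit 101094271) (nat_lit 0) (nat_lit 150458962) (nat_lit 76) (nat_lit 386845866) (nat_lit 205) (nat_lit 1) (nat_lit 203) (nat_lit 1) (nat_lit 204) (nat_lit 1) (nat_lit 394) (nat_lit 330) (nat_lit 296)) (XT.lf (nat_lit 228) (nat_lit 437612237) (nat_lit 0)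 (nat_lit 157715643) (nat_lit 152) (nat_lit 25882487) (nat_lit 203) (nat_lit 1) (nat_lit 200) (nat_lit 1) (nat_lit 202) (nat_lit 1) (nat_lit 395) (nat_lit 330) (nat_lit 295))))))) (XT.nd (nat_lit 1014) (nat_lit 912) (nat_lit 0) (XT.nd (nat_lit 468) (nat_lit 760) (nat_lit 0) (XT.nd (nat_lit 234) (nat_lit 456) (nat_lit 0) (XT.nd (nat_lit 78) (nat_lit 304) (nat_lit 0) (XT.lf (nat_lit 152) (nat_lit 145488525) (nat_lit 0) (nat_lit 164420453) (nat_lit 76) (nat_lit 294573441) (nat_lit 201) (nat_lit 1) (nat_lit 199) (nat_lit 1) (nat_lit 200) (nat_lit 1) (nat_lit 396) (nat_lit 330) (nat_lit 294)) (XT.nd (nat_lit 78) (nat_lit 76) (nat_lit 0) (XT.lf (nat_lit 76) (nat_lit 41993778) (nat_lit 0) (nat_lit 131807276) (nat_lit 228) (nat_lit 414554369) (nat_lit 197) (nat_lit 1) (nat_lit 196) (nat_lit 1) (nat_lit 199) (nat_lit 1) (nat_lit 397) (nat_lit 330) (nat_lit 293)) (XT.lf (nat_lit 152) (nat_lit 174599356)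 (nat_lit 0) (nat_lit 181924253) (nat_lit 76) (nat_lit 216105321) (nat_lit 197) (nat_lit 1) (nat_lit 195) (nat_lit 1) (nat_lit 196) (nat_lit 1) (nat_lit 398) (nat_lit 330) (nat_lit 292)))) (XT.nd (nat_lit 78) (nat_lit 228) (nat_lit 0) (XT.lf (nat_lit 76) (nat_lit 97661891) (nat_lit 0) (nat_lit 94592146) (nat_lit 228) (nat_lit 365201069) (nat_lit 193) (nat_lit 1) (nat_lit 192) (nat_lit 1) (nat_lit 195) (nat_lit 1) (nat_lit 399) (nat_lit 330) (nat_lit 291)) (XT.nd (nat_lit 78) (nat_lit 152) (nat_lit 0) (XT.lf (nat_lit 152) (nat_lit 191797785) (nat_lit 0) (nat_lit 201586881) (nat_lit 76) (nat_lit 149284302) (nat_lit 193) (nat_lit 1) (nat_lit 191) (nat_lit 1) (nat_lit 192) (nat_lit 1) (nat_lit 400) (nat_lit 330) (nat_lit 290)) (XT.lf (nat_lit 76) (nat_lit 143780888) (nat_lit 0) (nat_lit 68509020) (nat_lit 152) (nat_lit 316081239) (nat_lit 190) (nat_lit 1) (nat_lit 189) (nat_lit 1) (nat_lit 191) (nat_lit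 1) (nat_lit 401) (nat_lit 330) (nat_lit 289))))) (XT.nd (nat_lit 234) (nat_lit 456) (nat_lit 0) (XT.nd (nat_lit 78) (nat_lit 228) (nat_lit 0) (XT.lf (nat_lit 152) (nat_lit 199796880) (nat_lit 0) (nat_lit 222337892) (nat_lit 76) (nat_lit 92318682) (nat_lit 190) (nat_lit 1) (nat_lit 188) (nat_lit 1) (nat_lit 189) (nat_lit 1) (nat_lit 402) (nat_lit 330) (nat_lit 288)) (XT.nd (nat_lit 78) (nat_lit 76) (nat_lit 0) (XT.lf (nat_lit 76) (nat_lit 181869455) (nat_lit 0) (nat_lit 51108622) (nat_lit 152) (nat_lit 267985775) (nat_lit 187) (nat_lit 1) (nat_lit 186) (nat_lit 1) (nat_lit 188) (nat_lit 1) (nat_lit 403) (nat_lit 330) (nat_lit 287)) (XT.lf (nat_lit 152) (nat_lit 200775042) (nat_lit 0) (nat_lit 243358298) (nat_lit 76) (nat_lit 43717317) (nat_lit 187) (nat_lit 1) (nat_lit 185) (nat_lit 1) (nat_lit 186) (nat_lit 1) (nat_lit 404) (nat_lit 330) (nat_lit 286)))) (XT.nd (nat_lit 156) (nat_lit 228) (nat_lit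 0) (XT.nd (nat_lit 78) (nat_lit 76) (nat_lit 0) (XT.lf (nat_lit 76) (nat_lit 213189791) (nat_lit 0) (nat_lit 40421506) (nat_lit 152) (nat_lit 221498094) (nat_lit 184) (nat_lit 1) (nat_lit 183) (nat_lit 1) (nat_lit 185) (nat_lit 1) (nat_lit 405) (nat_lit 330) (nat_lit 285)) (XT.lf (nat_lit 152) (nat_lit 196476511) (nat_lit 0) (nat_lit 264030551) (nat_lit 76) (nat_lit 2236466) (nat_lit 184) (nat_lit 1) (nat_lit 182) (nat_lit 1) (nat_lit 183) (nat_lit 1) (nat_lit 406) (nat_lit 330) (nat_lit 284))) (XT.nd (nat_lit 78) (nat_lit 76) (nat_lit 0) (XT.lf (nat_lit 76) (nat_lit 238793009) (nat_lit 0) (nat_lit 34867959) (nat_lit 152) (nat_lit 177036412) (nat_lit 181) (nat_lit 1) (nat_lit 180) (nat_lit 1) (nat_lit 182) (nat_lit 1) (nat_lit 407) (nat_lit 330) (nat_lit 283)) (XT.lf (nat_lit 0) (nat_lit 32102307) (nat_lit 0) (nat_lit 251251979) (nat_lit 152) (nat_lit 155647294) (nat_lit 179) (nat_lit 3) (nat_lit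 179) (nat_lit 1) (nat_lit 181) (nat_lit 1) (nat_lit 408) (nat_lit 330) (nat_lit 282)))))) (XT.nd (nat_lit 546) (nat_lit 76) (nat_lit 0) (XT.nd (nat_lit 234) (nat_lit 456) (nat_lit 0) (XT.nd (nat_lit 78) (nat_lit 228) (nat_lit 0) (XT.lf (nat_lit 76) (nat_lit 259556313) (nat_lit 0) (nat_lit 33184568) (nat_lit 152) (nat_lit 134887998) (nat_lit 178) (nat_lit 1) (nat_lit 177) (nat_lit 1) (nat_lit 179) (nat_lit 1) (nat_lit 409) (nat_lit 330) (nat_lit 281)) (XT.nd (nat_lit 78) (nat_lit 152) (nat_lit 0) (XT.lf (nat_lit 0) (nat_lit 61327282) (nat_lit 0) (nat_lit 240265874) (nat_lit 152) (nat_lit 114965902) (nat_lit 176) (nat_lit 3) (nat_lit 176) (nat_lit 1) (nat_lit 178) (nat_lit 1) (nat_lit 410) (nat_lit 330) (nat_lit 280)) (XT.lf (nat_lit 76) (nat_lit 276213472) (nat_lit 0) (nat_lit 34364383) (nat_lit 152) (nat_lit 95236894) (nat_lit 175) (nat_lit 1) (nat_lit 174) (nat_lit 1) (nat_lit 176) (nat_lit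 1) (nat_lit 411) (nat_lit 330) (nat_lit 279)))) (XT.nd (nat_lit 156) (nat_lit 228) (nat_lit 0) (XT.nd (nat_lit 78) (nat_lit 152) (nat_lit 0) (XT.lf (nat_lit 0) (nat_lit 86219334) (nat_lit 0) (nat_lit 232325050) (nat_lit 152) (nat_lit 76787909) (nat_lit 173) (nat_lit 3) (nat_lit 173) (nat_lit 1) (nat_lit 175) (nat_lit 1) (nat_lit 412) (nat_lit 330) (nat_lit 278)) (XT.lf (nat_lit 76) (nat_lit 289379786) (nat_lit 0) (nat_lit 37608174) (nat_lit 152) (nat_lit 58186311) (nat_lit 172) (nat_lit 1) (nat_lit 171) (nat_lit 1) (nat_lit 173) (nat_lit 1) (nat_lit 413) (nat_lit 330) (nat_lit 277))) (XT.nd (nat_lit 78) (nat_lit 152) (nat_lit 0) (XT.lf (nat_lit 0) (nat_lit 107376468) (nat_lit 0) (nat_lit 226673708) (nat_lit 152) (nat_lit 41193630) (nat_lit 170) (nat_lit 3) (nat_lit 170) (nat_lit 1) (nat_lit 172) (nat_lit 1) (nat_lit 414) (nat_lit 330) (nat_lit 276)) (XT.lf (nat_lit 76) (nat_lit 299572573) (nat_lit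 0) (nat_lit 42284741) (nat_lit 152) (nat_lit 23776686) (nat_lit 169) (nat_lit 1) (nat_lit 168) (nat_lit 1) (nat_lit 170) (nat_lit 1) (nat_lit 415) (nat_lit 330) (nat_lit 275))))) (XT.nd (nat_lit 48750) (nat_lit 0) (nat_lit 9576) (XT.nd (nat_lit 48594) (nat_lit 0) (nat_lit 9500) (XT.lf (nat_lit 0) (nat_lit 125304454) (nat_lit 0) (nat_lit 222712220) (nat_lit 152) (nat_lit 8206321) (nat_lit 167) (nat_lit 3) (nat_lit 167) (nat_lit 1) (nat_lit 169) (nat_lit 1) (nat_lit 416) (nat_lit 330) (nat_lit 274)) (XT.nd (nat_lit 78) (nat_lit 0) (nat_lit 76) (XT.lf (nat_lit 836) (nat_lit 268804094) (nat_lit 0) (nat_lit 477261051) (nat_lit 836) (nat_lit 268804094) (nat_lit 303) (nat_lit 1) (nat_lit 292) (nat_lit 0) (nat_lit 303) (nat_lit 0) (nat_lit 358) (nat_lit 331) (nat_lit 331)) (XT.lf (nat_lit 836) (nat_lit 100272175) (nat_lit 0) (nat_lit 937008091) (nat_lit 760) (nat_lit 916390782) (nat_lit 304) (nat_lit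 1) (nat_lit 293) (nat_lit 1) (nat_lit 303) (nat_lit 1) (nat_lit 359) (nat_lit 331) (nat_lit 330)))) (XT.nd (nat_lit 156) (nat_lit 0) (nat_lit 152) (XT.nd (nat_lit 78) (nat_lit 0) (nat_lit 76) (XT.lf (nat_lit 836) (nat_lit 920942051) (nat_lit 76) (nat_lit 627514634) (nat_lit 0) (nat_lit 332805137) (nat_lit 304) (nat_lit 1) (nat_lit 294) (nat_lit 1) (nat_lit 293) (nat_lit 1) (nat_lit 360) (nat_lit 331) (nat_lit 329)) (XT.lf (nat_lit 836) (nat_lit 795769377) (nat_lit 76) (nat_lit 262987033) (nat_lit 0) (nat_lit 753719728) (nat_lit 305) (nat_lit 1) (nat_lit 295) (nat_lit 1) (nat_lit 294) (nat_lit 1) (nat_lit 361) (nat_lit 331) (nat_lit 328))) (XT.nd (nat_lit 78) (nat_lit 0) (nat_lit 76) (XT.lf (nat_lit 836) (nat_lit 588936993) (nat_lit 0) (nat_lit 1101873276) (nat_lit 760) (nat_lit 56327604) (nat_lit 306) (nat_lit 1) (nat_lit 295) (nat_lit 1) (nat_lit 305) (nat_lit 1) (nat_lit 362) (nat_lit 331)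 (nat_lit 327)) (XT.lf (nat_lit 836) (nat_lit 141309657) (nat_lit 0) (nat_lit 1215121399) (nat_lit 760) (nat_lit 328488911) (nat_lit 307) (nat_lit 1) (nat_lit 296) (nat_lit 1) (nat_lit 306) (nat_lit 1) (nat_lit 363) (nat_lit 331) (nat_lit 326))))))))
noncomputable def ec14 : XT := (XT.nd (nat_lit 2028) (nat_lit 3344) (nat_lit 0) (XT.nd (nat_lit 1014) (nat_lit 2584) (nat_lit 0) (XT.nd (nat_lit 468) (nat_lit 1824) (nat_lit 0) (XT.nd (nat_lit 234) (nat_lit 1064) (nat_lit 0) (XT.nd (nat_lit 78) (nat_lit 1216) (nat_lit 0) (XT.lf (nat_lit 836) (nat_lit 271539685) (nat_lit 76) (nat_lit 1056039447) (nat_lit 0) (nat_lit 298027361) (nat_lit 307) (nat_lit 1) (nat_lit 297) (nat_lit 1) (nat_lit 296) (nat_lit 1) (nat_lit 364) (nat_lit 331) (nat_lit 325)) (XT.nd (nat_lit 78) (nat_lit 532) (nat_lit 0) (XT.lf (nat_lit 836) (nat_lit 55768059) (nat_lit 0) (nat_lit 789459341) (nat_lit 760) (nat_lit 723925944) (nat_lit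 298) (nat_lit 1) (nat_lit 287) (nat_lit 1) (nat_lit 297) (nat_lit 1) (nat_lit 365) (nat_lit 331) (nat_lit 324)) (XT.lf (nat_lit 76) (nat_lit 386149660) (nat_lit 0) (nat_lit 167336617) (nat_lit 532) (nat_lit 961886919) (nat_lit 281) (nat_lit 1) (nat_lit 280) (nat_lit 1) (nat_lit 287) (nat_lit 1) (nat_lit 366) (nat_lit 331) (nat_lit 323)))) (XT.nd (nat_lit 78) (nat_lit 684) (nat_lit 0) (XT.lf (nat_lit 456) (nat_lit 1064179861) (nat_lit 0) (nat_lit 346413486) (nat_lit 380) (nat_lit 53557665) (nat_lit 281) (nat_lit 1) (nat_lit 275) (nat_lit 1) (nat_lit 280) (nat_lit 1) (nat_lit 367) (nat_lit 331) (nat_lit 322)) (XT.nd (nat_lit 78) (nat_lit 304) (nat_lit 0) (XT.lf (nat_lit 456) (nat_lit 767922321) (nat_lit 0) (nat_lit 161464818) (nat_lit 380) (nat_lit 485744151) (nat_lit 276) (nat_lit 1) (nat_lit 270) (nat_lit 1) (nat_lit 275) (nat_lit 1) (nat_lit 368) (nat_lit 331) (nat_lit 321)) (XT.lf (nat_lit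 380) (nat_lit 467270938) (nat_lit 0) (nat_lit 2972829) (nat_lit 304) (nat_lit 898244660) (nat_lit 271) (nat_lit 1) (nat_lit 266) (nat_lit 1) (nat_lit 270) (nat_lit 1) (nat_lit 369) (nat_lit 331) (nat_lit 320))))) (XT.nd (nat_lit 234) (nat_lit 1140) (nat_lit 0) (XT.nd (nat_lit 78) (nat_lit 684) (nat_lit 0) (XT.lf (nat_lit 76) (nat_lit 34473041) (nat_lit 0) (nat_lit 1162598003) (nat_lit 380) (nat_lit 126920177) (nat_lit 267) (nat_lit 1) (nat_lit 266) (nat_lit 1) (nat_lit 271) (nat_lit 1) (nat_lit 370) (nat_lit 331) (nat_lit 319)) (XT.nd (nat_lit 78) (nat_lit 304) (nat_lit 0) (XT.lf (nat_lit 76) (nat_lit 890102874) (nat_lit 0) (nat_lit 147633085) (nat_lit 380) (nat_lit 243473770) (nat_lit 262) (nat_lit 1) (nat_lit 261) (nat_lit 1) (nat_lit 266) (nat_lit 1) (nat_lit 371) (nat_lit 331) (nat_lit 318)) (XT.lf (nat_lit 76) (nat_lit 445341023) (nat_lit 0) (nat_lit 452226348) (nat_lit 380) (nat_lit 342751170)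 (nat_lit 258) (nat_lit 1) (nat_lit 257) (nat_lit 1) (nat_lit 262) (nat_lit 1) (nat_lit 372) (nat_lit 331) (nat_lit 317)))) (XT.nd (nat_lit 156) (nat_lit 608) (nat_lit 0) (XT.nd (nat_lit 78) (nat_lit 228) (nat_lit 0) (XT.lf (nat_lit 76) (nat_lit 21981045) (nat_lit 0) (nat_lit 756115433) (nat_lit 380) (nat_lit 423266940) (nat_lit 254) (nat_lit 1) (nat_lit 253) (nat_lit 1) (nat_lit 258) (nat_lit 1) (nat_lit 373) (nat_lit 331) (nat_lit 316)) (XT.lf (nat_lit 304) (nat_lit 99265162) (nat_lit 0) (nat_lit 671282776) (nat_lit 228) (nat_lit 393387134) (nat_lit 254) (nat_lit 1) (nat_lit 250) (nat_lit 1) (nat_lit 253) (nat_lit 1) (nat_lit 374) (nat_lit 331) (nat_lit 315))) (XT.nd (nat_lit 78) (nat_lit 228) (nat_lit 0) (XT.lf (nat_lit 76) (nat_lit 342987823) (nat_lit 0) (nat_lit 235085985) (nat_lit 380) (nat_lit 549979152) (nat_lit 246) (nat_lit 1) (nat_lit 245) (nat_lit 1) (nat_lit 250) (nat_lit 1) (nat_lit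 375) (nat_lit 331) (nat_lit 314)) (XT.lf (nat_lit 304) (nat_lit 531027650) (nat_lit 0) (nat_lit 498831843) (nat_lit 228) (nat_lit 63849884) (nat_lit 246) (nat_lit 1) (nat_lit 242) (nat_lit 1) (nat_lit 245) (nat_lit 1) (nat_lit 376) (nat_lit 331) (nat_lit 313)))))) (XT.nd (nat_lit 468) (nat_lit 1216) (nat_lit 0) (XT.nd (nat_lit 234) (nat_lit 608) (nat_lit 0) (XT.nd (nat_lit 78) (nat_lit 532) (nat_lit 0) (XT.lf (nat_lit 304) (nat_lit 170191796) (nat_lit 0) (nat_lit 429473790) (nat_lit 228) (nat_lit 461020041) (nat_lit 243) (nat_lit 1) (nat_lit 239) (nat_lit 1) (nat_lit 242) (nat_lit 1) (nat_lit 377) (nat_lit 331) (nat_lit 312)) (XT.nd (nat_lit 78) (nat_lit 228) (nat_lit 0) (XT.lf (nat_lit 76) (nat_lit 193977524) (nat_lit 0) (nat_lit 177603280) (nat_lit 304) (nat_lit 657452612) (nat_lit 236) (nat_lit 1) (nat_lit 235) (nat_lit 1) (nat_lit 239) (nat_lit 1) (nat_lit 378) (nat_lit 331) (nat_lit 311))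 (XT.lf (nat_lit 304) (nat_lit 482687609) (nat_lit 0) (nat_lit 321162448) (nat_lit 228) (nat_lit 194689732) (nat_lit 236) (nat_lit 1) (nat_lit 232) (nat_lit 1) (nat_lit 235) (nat_lit 1) (nat_lit 379) (nat_lit 331) (nat_lit 310)))) (XT.nd (nat_lit 78) (nat_lit 456) (nat_lit 0) (XT.lf (nat_lit 228) (nat_lit 119658971) (nat_lit 0) (nat_lit 280190810) (nat_lit 152) (nat_lit 569426579) (nat_lit 233) (nat_lit 1) (nat_lit 230) (nat_lit 1) (nat_lit 232) (nat_lit 1) (nat_lit 380) (nat_lit 331) (nat_lit 309)) (XT.nd (nat_lit 78) (nat_lit 152) (nat_lit 0) (XT.lf (nat_lit 76) (nat_lit 20270994) (nat_lit 0) (nat_lit 226836825) (nat_lit 304) (nat_lit 694039440) (nat_lit 227) (nat_lit 1) (nat_lit 226) (nat_lit 1) (nat_lit 230) (nat_lit 1) (nat_lit 381) (nat_lit 331) (nat_lit 308)) (XT.lf (nat_lit 228) (nat_lit 347707014) (nat_lit 0) (nat_lit 217287054) (nat_lit 152) (nat_lit 348917038) (nat_lit 227) (nat_lit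 1) (nat_lit 224) (nat_lit 1) (nat_lit 226) (nat_lit 1) (nat_lit 382) (nat_lit 331) (nat_lit 307))))) (XT.nd (nat_lit 234) (nat_lit 684) (nat_lit 0) (XT.nd (nat_lit 78) (nat_lit 304) (nat_lit 0) (XT.lf (nat_lit 76) (nat_lit 188651295) (nat_lit 0) (nat_lit 8713921) (nat_lit 228) (nat_lit 690498228) (nat_lit 222) (nat_lit 1) (nat_lit 221) (nat_lit 1) (nat_lit 224) (nat_lit 1) (nat_lit 383) (nat_lit 331) (nat_lit 306)) (XT.nd (nat_lit 78) (nat_lit 152) (nat_lit 0) (XT.lf (nat_lit 228) (nat_lit 515736211) (nat_lit 0) (nat_lit 178714161) (nat_lit 152) (nat_lit 168123118) (nat_lit 222) (nat_lit 1) (nat_lit 219) (nat_lit 1) (nat_lit 221) (nat_lit 1) (nat_lit 384) (nat_lit 331) (nat_lit 305)) (XT.lf (nat_lit 228) (nat_lit 160208334) (nat_lit 0) (nat_lit 166134575) (nat_lit 152) (nat_lit 511907573) (nat_lit 220) (nat_lit 1) (nat_lit 217) (nat_lit 1) (nat_lit 219) (nat_lit 1) (nat_lit 385) (nat_lit 331)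 (nat_lit 304)))) (XT.nd (nat_lit 156) (nat_lit 304) (nat_lit 0) (XT.nd (nat_lit 78) (nat_lit 152) (nat_lit 0) (XT.lf (nat_lit 228) (nat_lit 635968209) (nat_lit 0) (nat_lit 158728102) (nat_lit 152) (nat_lit 20136501) (nat_lit 217) (nat_lit 1) (nat_lit 214) (nat_lit 1) (nat_lit 216) (nat_lit 1) (nat_lit 386) (nat_lit 331) (nat_lit 303)) (XT.lf (nat_lit 228) (nat_lit 284629895) (nat_lit 0) (nat_lit 151531823) (nat_lit 152) (nat_lit 355904126) (nat_lit 215) (nat_lit 1) (nat_lit 212) (nat_lit 1) (nat_lit 214) (nat_lit 1) (nat_lit 387) (nat_lit 331) (nat_lit 302))) (XT.nd (nat_lit 78) (nat_lit 152) (nat_lit 0) (XT.lf (nat_lit 76) (nat_lit 97496728) (nat_lit 0) (nat_lit 53588595) (nat_lit 152) (nat_lit 619157869) (nat_lit 211) (nat_lit 1) (nat_lit 210) (nat_lit 1) (nat_lit 212) (nat_lit 1) (nat_lit 388) (nat_lit 331) (nat_lit 301)) (XT.lf (nat_lit 228) (nat_lit 373450792) (nat_lit 0) (nat_lit 149485498)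 (nat_lit 152) (nat_lit 226034924) (nat_lit 211) (nat_lit 1) (nat_lit 208) (nat_lit 1) (nat_lit 210) (nat_lit 1) (nat_lit 389) (nat_lit 331) (nat_lit 300))))))) (XT.nd (nat_lit 1014) (nat_lit 1596) (nat_lit 0) (XT.nd (nat_lit 468) (nat_lit 836) (nat_lit 0) (XT.nd (nat_lit 234) (nat_lit 532) (nat_lit 0) (XT.nd (nat_lit 78) (nat_lit 304) (nat_lit 0) (XT.lf (nat_lit 152) (nat_lit 40215343) (nat_lit 0) (nat_lit 153157055) (nat_lit 76) (nat_lit 535166628) (nat_lit 209) (nat_lit 1) (nat_lit 207) (nat_lit 1) (nat_lit 208) (nat_lit 1) (nat_lit 390) (nat_lit 331) (nat_lit 299)) (XT.nd (nat_lit 78) (nat_lit 76) (nat_lit 0) (XT.lf (nat_lit 228) (nat_lit 434109787) (nat_lit 0) (nat_lit 156638797) (nat_lit 152) (nat_lit 117921633) (nat_lit 207) (nat_lit 1) (nat_lit 204) (nat_lit 1) (nat_lit 206) (nat_lit 1) (nat_lit 391) (nat_lit 331) (nat_lit 298)) (XT.lf (nat_lit 152) (nat_lit 109181812) (nat_lit 0) (nat_lit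 162495679) (nat_lit 76) (nat_lit 417793535) (nat_lit 205) (nat_lit 1) (nat_lit 203) (nat_lit 1) (nat_lit 204) (nat_lit 1) (nat_lit 392) (nat_lit 331) (nat_lit 297)))) (XT.nd (nat_lit 78) (nat_lit 304) (nat_lit 0) (XT.lf (nat_lit 228) (nat_lit 472621216) (nat_lit 0) (nat_lit 170332894) (nat_lit 152) (nat_lit 27953086) (nat_lit 203) (nat_lit 1) (nat_lit 200) (nat_lit 1) (nat_lit 202) (nat_lit 1) (nat_lit 393) (nat_lit 331) (nat_lit 296)) (XT.nd (nat_lit 78) (nat_lit 228) (nat_lit 0) (XT.lf (nat_lit 152) (nat_lit 157127607) (nat_lit 0) (nat_lit 177574089) (nat_lit 76) (nat_lit 318139316) (nat_lit 201) (nat_lit 1) (nat_lit 199) (nat_lit 1) (nat_lit 200) (nat_lit 1) (nat_lit 394) (nat_lit 331) (nat_lit 295)) (XT.lf (nat_lit 76) (nat_lit 45353280) (nat_lit 0) (nat_lit 142351858) (nat_lit 228) (nat_lit 447718718) (nat_lit 197) (nat_lit 1) (nat_lit 196) (nat_lit 1) (nat_lit 199) (nat_lit 1) (nat_lit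 395) (nat_lit 331) (nat_lit 294))))) (XT.nd (nat_lit 234) (nat_lit 456) (nat_lit 0) (XT.nd (nat_lit 78) (nat_lit 304) (nat_lit 0) (XT.lf (nat_lit 152) (nat_lit 188567305) (nat_lit 0) (nat_lit 196478194) (nat_lit 76) (nat_lit 233393747) (nat_lit 197) (nat_lit 1) (nat_lit 195) (nat_lit 1) (nat_lit 196) (nat_lit 1) (nat_lit 396) (nat_lit 331) (nat_lit 293)) (XT.nd (nat_lit 78) (nat_lit 76) (nat_lit 0) (XT.lf (nat_lit 76) (nat_lit 105474843) (nat_lit 0) (nat_lit 102159517) (nat_lit 228) (nat_lit 394417155) (nat_lit 193) (nat_lit 1) (nat_lit 192) (nat_lit 1) (nat_lit 195) (nat_lit 1) (nat_lit 397) (nat_lit 331) (nat_lit 292)) (XT.lf (nat_lit 152) (nat_lit 207141608) (nat_lit 0) (nat_lit 217713831) (nat_lit 76) (nat_lit 161227046) (nat_lit 193) (nat_lit 1) (nat_lit 191) (nat_lit 1) (nat_lit 192) (nat_lit 1) (nat_lit 398) (nat_lit 331) (nat_lit 291)))) (XT.nd (nat_lit 156) (nat_lit 228) (nat_lit 0)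 (XT.nd (nat_lit 78) (nat_lit 76) (nat_lit 0) (XT.lf (nat_lit 76) (nat_lit 155283359) (nat_lit 0) (nat_lit 73989742) (nat_lit 152) (nat_lit 341367738) (nat_lit 190) (nat_lit 1) (nat_lit 189) (nat_lit 1) (nat_lit 191) (nat_lit 1) (nat_lit 399) (nat_lit 331) (nat_lit 290)) (XT.lf (nat_lit 152) (nat_lit 215780630) (nat_lit 0) (nat_lit 240124923) (nat_lit 76) (nat_lit 99704176) (nat_lit 190) (nat_lit 1) (nat_lit 188) (nat_lit 1) (nat_lit 189) (nat_lit 1) (nat_lit 400) (nat_lit 331) (nat_lit 289))) (XT.nd (nat_lit 78) (nat_lit 76) (nat_lit 0) (XT.lf (nat_lit 76) (nat_lit 196419011) (nat_lit 0) (nat_lit 55197312) (nat_lit 152) (nat_lit 289424637) (nat_lit 187) (nat_lit 1) (nat_lit 186) (nat_lit 1) (nat_lit 188) (nat_lit 1) (nat_lit 401) (nat_lit 331) (nat_lit 288)) (XT.lf (nat_lit 152) (nat_lit 216837046) (nat_lit 0) (nat_lit 262826962) (nat_lit 76) (nat_lit 47214703) (nat_lit 187) (nat_lit 1) (nat_lit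 185) (nat_lit 1) (nat_lit 186) (nat_lit 1) (nat_lit 402) (nat_lit 331) (nat_lit 287)))))) (XT.nd (nat_lit 546) (nat_lit 760) (nat_lit 0) (XT.nd (nat_lit 234) (nat_lit 456) (nat_lit 0) (XT.nd (nat_lit 78) (nat_lit 228) (nat_lit 0) (XT.lf (nat_lit 76) (nat_lit 230244975) (nat_lit 0) (nat_lit 43655226) (nat_lit 152) (nat_lit 239217942) (nat_lit 184) (nat_lit 1) (nat_lit 183) (nat_lit 1) (nat_lit 185) (nat_lit 1) (nat_lit 403) (nat_lit 331) (nat_lit 286)) (XT.nd (nat_lit 78) (nat_lit 152) (nat_lit 0) (XT.lf (nat_lit 152) (nat_lit 212194632) (nat_lit 0) (nat_lit 285152995) (nat_lit 76) (nat_lit 2415384) (nat_lit 184) (nat_lit 1) (nat_lit 182) (nat_lit 1) (nat_lit 183) (nat_lit 1) (nat_lit 404) (nat_lit 331) (nat_lit 285)) (XT.lf (nat_lit 76) (nat_lit 257896449) (nat_lit 0) (nat_lit 37657395) (nat_lit 152) (nat_lit 191199325) (nat_lit 181) (nat_lit 1) (nat_lit 180) (nat_lit 1) (nat_lit 182) (nat_lit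 1) (nat_lit 405) (nat_lit 331) (nat_lit 284)))) (XT.nd (nat_lit 156) (nat_lit 228) (nat_lit 0) (XT.nd (nat_lit 78) (nat_lit 152) (nat_lit 0) (XT.lf (nat_lit 0) (nat_lit 34670491) (nat_lit 0) (nat_lit 271352137) (nat_lit 152) (nat_lit 168099077) (nat_lit 179) (nat_lit 3) (nat_lit 179) (nat_lit 1) (nat_lit 181) (nat_lit 1) (nat_lit 406) (nat_lit 331) (nat_lit 283)) (XT.lf (nat_lit 76) (nat_lit 280320819) (nat_lit 0) (nat_lit 35839333) (nat_lit 152) (nat_lit 145679038) (nat_lit 178) (nat_lit 1) (nat_lit 177) (nat_lit 1) (nat_lit 179) (nat_lit 1) (nat_lit 407) (nat_lit 331) (nat_lit 282))) (XT.nd (nat_lit 78) (nat_lit 152) (nat_lit 0) (XT.lf (nat_lit 0) (nat_lit 66233465) (nat_lit 0) (nat_lit 259487144) (nat_lit 152) (nat_lit 124163175) (nat_lit 176) (nat_lit 3) (nat_lit 176) (nat_lit 1) (nat_lit 178) (nat_lit 1) (nat_lit 408) (nat_lit 331) (nat_lit 281)) (XT.lf (nat_lit 76) (nat_lit 298310550) (nat_lit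 0) (nat_lit 37113534) (nat_lit 152) (nat_lit 102855846) (nat_lit 175) (nat_lit 1) (nat_lit 174) (nat_lit 1) (nat_lit 176) (nat_lit 1) (nat_lit 409) (nat_lit 331) (nat_lit 280))))) (XT.nd (nat_lit 234) (nat_lit 456) (nat_lit 0) (XT.nd (nat_lit 78) (nat_lit 228) (nat_lit 0) (XT.lf (nat_lit 0) (nat_lit 93116881) (nat_lit 0) (nat_lit 250911054) (nat_lit 152) (nat_lit 82930942) (nat_lit 173) (nat_lit 3) (nat_lit 173) (nat_lit 1) (nat_lit 175) (nat_lit 1) (nat_lit 410) (nat_lit 331) (nat_lit 279)) (XT.nd (nat_lit 78) (nat_lit 76) (nat_lit 0) (XT.lf (nat_lit 76) (nat_lit 312530169) (nat_lit 0) (nat_lit 40616828) (nat_lit 152) (nat_lit 62841216) (nat_lit 172) (nat_lit 1) (nat_lit 171) (nat_lit 1) (nat_lit 173) (nat_lit 1) (nat_lit 411) (nat_lit 331) (nat_lit 278)) (XT.lf (nat_lit 0) (nat_lit 115966585) (nat_lit 0) (nat_lit 244807604) (nat_lit 152) (nat_lit 44489120) (nat_lit 170) (nat_lit 3) (nat_lit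 170) (nat_lit 1) (nat_lit 172) (nat_lit 1) (nat_lit 412) (nat_lit 331) (nat_lit 277)))) (XT.nd (nat_lit 156) (nat_lit 228) (nat_lit 0) (XT.nd (nat_lit 78) (nat_lit 76) (nat_lit 0) (XT.lf (nat_lit 76) (nat_lit 323538379) (nat_lit 0) (nat_lit 45667521) (nat_lit 152) (nat_lit 25678821) (nat_lit 169) (nat_lit 1) (nat_lit 168) (nat_lit 1) (nat_lit 170) (nat_lit 1) (nat_lit 413) (nat_lit 331) (nat_lit 276)) (XT.lf (nat_lit 0) (nat_lit 135328810) (nat_lit 0) (nat_lit 240529198) (nat_lit 152) (nat_lit 8862827) (nat_lit 167) (nat_lit 3) (nat_lit 167) (nat_lit 1) (nat_lit 169) (nat_lit 1) (nat_lit 414) (nat_lit 331) (nat_lit 275))) (XT.nd (nat_lit 48516) (nat_lit 0) (nat_lit 9728) (XT.lf (nat_lit 152) (nat_lit 323020151) (nat_lit 0) (nat_lit 8925419) (nat_lit 76) (nat_lit 42944427) (nat_lit 166) (nat_lit 1) (nat_lit 164) (nat_lit 1) (nat_lit 165) (nat_lit 1) (nat_lit 415) (nat_lit 331) (nat_lit 274)) (XT.lf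 (nat_lit 836) (nat_lit 290308421) (nat_lit 0) (nat_lit 515441935) (nat_lit 836) (nat_lit 290308421) (nat_lit 303) (nat_lit 1) (nat_lit 292) (nat_lit 0) (nat_lit 303) (nat_lit 0) (nat_lit 356) (nat_lit 332) (nat_lit 332))))))))
noncomputable def ec15 : XT := (XT.nd (nat_lit 2106) (nat_lit 3572) (nat_lit 0) (XT.nd (nat_lit 1014) (nat_lit 3344) (nat_lit 0) (XT.nd (nat_lit 468) (nat_lit 2432) (nat_lit 0) (XT.nd (nat_lit 234) (nat_lit 0) (nat_lit 152) (XT.nd (nat_lit 78) (nat_lit 0) (nat_lit 0) (XT.lf (nat_lit 836) (nat_lit 108293949) (nat_lit 0) (nat_lit 1011968738) (nat_lit 760) (nat_lit 989702045) (nat_lit 304) (nat_lit 1) (nat_lit 293) (nat_lit 1) (nat_lit 303) (nat_lit 1) (nat_lit 357) (nat_lit 332) (nat_lit 331)) (XT.nd (nat_lit 78) (nat_lit 0) (nat_lit 76) (XT.lf (nat_lit 836) (nat_lit 994617415) (nat_lit 76) (nat_lit 677715805) (nat_lit 0) (nat_lit 359429548) (nat_lit 304) (nat_lit 1) (nat_lit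 294) (nat_lit 1) (nat_lit 293) (nat_lit 1) (nat_lit 358) (nat_lit 332) (nat_lit 330)) (XT.lf (nat_lit 836) (nat_lit 859430927) (nat_lit 76) (nat_lit 284025996) (nat_lit 0) (nat_lit 814017306) (nat_lit 305) (nat_lit 1) (nat_lit 295) (nat_lit 1) (nat_lit 294) (nat_lit 1) (nat_lit 359) (nat_lit 332) (nat_lit 329)))) (XT.nd (nat_lit 78) (nat_lit 0) (nat_lit 76) (XT.lf (nat_lit 836) (nat_lit 636051952) (nat_lit 0) (nat_lit 1190023138) (nat_lit 760) (nat_lit 60833812) (nat_lit 306) (nat_lit 1) (nat_lit 295) (nat_lit 1) (nat_lit 305) (nat_lit 1) (nat_lit 360) (nat_lit 332) (nat_lit 328)) (XT.nd (nat_lit 78) (nat_lit 0) (nat_lit 0) (XT.lf (nat_lit 836) (nat_lit 152614429) (nat_lit 0) (nat_lit 1312331111) (nat_lit 760) (nat_lit 354768024) (nat_lit 307) (nat_lit 1) (nat_lit 296) (nat_lit 1) (nat_lit 306) (nat_lit 1) (nat_lit 361) (nat_lit 332) (nat_lit 327)) (XT.lf (nat_lit 836) (nat_lit 293262860) (nat_lit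 76) (nat_lit 1140522603) (nat_lit 0) (nat_lit 321869550) (nat_lit 307) (nat_lit 1) (nat_lit 297) (nat_lit 1) (nat_lit 296) (nat_lit 1) (nat_lit 362) (nat_lit 332) (nat_lit 326))))) (XT.nd (nat_lit 234) (nat_lit 1064) (nat_lit 0) (XT.nd (nat_lit 78) (nat_lit 912) (nat_lit 0) (XT.lf (nat_lit 836) (nat_lit 60229504) (nat_lit 0) (nat_lit 852616088) (nat_lit 760) (nat_lit 781840019) (nat_lit 298) (nat_lit 1) (nat_lit 287) (nat_lit 1) (nat_lit 297) (nat_lit 1) (nat_lit 363) (nat_lit 332) (nat_lit 325)) (XT.nd (nat_lit 78) (nat_lit 380) (nat_lit 0) (XT.lf (nat_lit 76) (nat_lit 417041633) (nat_lit 0) (nat_lit 180723547) (nat_lit 532) (nat_lit 1038837873) (nat_lit 281) (nat_lit 1) (nat_lit 280) (nat_lit 1) (nat_lit 287) (nat_lit 1) (nat_lit 364) (nat_lit 332) (nat_lit 324)) (XT.lf (nat_lit 456) (nat_lit 1149314250) (nat_lit 0) (nat_lit 374126565) (nat_lit 380) (nat_lit 57842278) (nat_lit 281) (nat_lit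 1) (nat_lit 275) (nat_lit 1) (nat_lit 280) (nat_lit 1) (nat_lit 365) (nat_lit 332) (nat_lit 323)))) (XT.nd (nat_lit 156) (nat_lit 380) (nat_lit 0) (XT.nd (nat_lit 78) (nat_lit 304) (nat_lit 0) (XT.lf (nat_lit 456) (nat_lit 829356107) (nat_lit 0) (nat_lit 174382003) (nat_lit 380) (nat_lit 524603683) (nat_lit 276) (nat_lit 1) (nat_lit 270) (nat_lit 1) (nat_lit 275) (nat_lit 1) (nat_lit 366) (nat_lit 332) (nat_lit 322)) (XT.lf (nat_lit 380) (nat_lit 504652613) (nat_lit 0) (nat_lit 3210656) (nat_lit 304) (nat_lit 970104233) (nat_lit 271) (nat_lit 1) (nat_lit 266) (nat_lit 1) (nat_lit 270) (nat_lit 1) (nat_lit 367) (nat_lit 332) (nat_lit 321))) (XT.nd (nat_lit 78) (nat_lit 380) (nat_lit 0) (XT.lf (nat_lit 76) (nat_lit 37230884) (nat_lit 0) (nat_lit 1255605843) (nat_lit 380) (nat_lit 137073791) (nat_lit 267) (nat_lit 1) (nat_lit 266) (nat_lit 1) (nat_lit 271) (nat_lit 1) (nat_lit 368) (nat_lit 332)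 (nat_lit 320)) (XT.lf (nat_lit 76) (nat_lit 961311104) (nat_lit 0) (nat_lit 159443732) (nat_lit 380) (nat_lit 262951672) (nat_lit 262) (nat_lit 1) (nat_lit 261) (nat_lit 1) (nat_lit 266) (nat_lit 1) (nat_lit 369) (nat_lit 332) (nat_lit 319)))))) (XT.nd (nat_lit 546) (nat_lit 1368) (nat_lit 0) (XT.nd (nat_lit 234) (nat_lit 1140) (nat_lit 0) (XT.nd (nat_lit 78) (nat_lit 532) (nat_lit 0) (XT.lf (nat_lit 76) (nat_lit 480968305) (nat_lit 0) (nat_lit 488404456) (nat_lit 380) (nat_lit 370171264) (nat_lit 258) (nat_lit 1) (nat_lit 257) (nat_lit 1) (nat_lit 262) (nat_lit 1) (nat_lit 370) (nat_lit 332) (nat_lit 318)) (XT.nd (nat_lit 78) (nat_lit 228) (nat_lit 0) (XT.lf (nat_lit 76) (nat_lit 23739529) (nat_lit 0) (nat_lit 816604667) (nat_lit 380) (nat_lit 457128295) (nat_lit 254) (nat_lit 1) (nat_lit 253) (nat_lit 1) (nat_lit 258) (nat_lit 1) (nat_lit 371) (nat_lit 332) (nat_lit 317)) (XT.lf (nat_lit 304)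 (nat_lit 107206375) (nat_lit 0) (nat_lit 724985398) (nat_lit 228) (nat_lit 424858105) (nat_lit 254) (nat_lit 1) (nat_lit 250) (nat_lit 1) (nat_lit 253) (nat_lit 1) (nat_lit 372) (nat_lit 332) (nat_lit 316)))) (XT.nd (nat_lit 156) (nat_lit 532) (nat_lit 0) (XT.nd (nat_lit 78) (nat_lit 228) (nat_lit 0) (XT.lf (nat_lit 76) (nat_lit 370426849) (nat_lit 0) (nat_lit 253892864) (nat_lit 380) (nat_lit 593977484) (nat_lit 246) (nat_lit 1) (nat_lit 245) (nat_lit 1) (nat_lit 250) (nat_lit 1) (nat_lit 373) (nat_lit 332) (nat_lit 315)) (XT.lf (nat_lit 304) (nat_lit 573509862) (nat_lit 0) (nat_lit 538738391) (nat_lit 228) (nat_lit 68957874) (nat_lit 246) (nat_lit 1) (nat_lit 242) (nat_lit 1) (nat_lit 245) (nat_lit 1) (nat_lit 374) (nat_lit 332) (nat_lit 314))) (XT.nd (nat_lit 78) (nat_lit 304) (nat_lit 0) (XT.lf (nat_lit 304) (nat_lit 183807140) (nat_lit 0) (nat_lit 463831693) (nat_lit 228) (nat_lit 497901644)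 (nat_lit 243) (nat_lit 1) (nat_lit 239) (nat_lit 1) (nat_lit 242) (nat_lit 1) (nat_lit 375) (nat_lit 332) (nat_lit 313)) (XT.lf (nat_lit 76) (nat_lit 209495726) (nat_lit 0) (nat_lit 191811542) (nat_lit 304) (nat_lit 710048821) (nat_lit 236) (nat_lit 1) (nat_lit 235) (nat_lit 1) (nat_lit 239) (nat_lit 1) (nat_lit 376) (nat_lit 332) (nat_lit 312))))) (XT.nd (nat_lit 234) (nat_lit 684) (nat_lit 0) (XT.nd (nat_lit 78) (nat_lit 456) (nat_lit 0) (XT.lf (nat_lit 304) (nat_lit 521302618) (nat_lit 0) (nat_lit 346855444) (nat_lit 228) (nat_lit 210264910) (nat_lit 236) (nat_lit 1) (nat_lit 232) (nat_lit 1) (nat_lit 235) (nat_lit 1) (nat_lit 377) (nat_lit 332) (nat_lit 311)) (XT.nd (nat_lit 78) (nat_lit 304) (nat_lit 0) (XT.lf (nat_lit 228) (nat_lit 129231688) (nat_lit 0) (nat_lit 302606075) (nat_lit 152) (nat_lit 614980706) (nat_lit 233) (nat_lit 1) (nat_lit 230) (nat_lit 1) (nat_lit 232) (nat_lit 1) (nat_lit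 378) (nat_lit 332) (nat_lit 310)) (XT.lf (nat_lit 76) (nat_lit 21892673) (nat_lit 0) (nat_lit 244983771) (nat_lit 304) (nat_lit 749562595) (nat_lit 227) (nat_lit 1) (nat_lit 226) (nat_lit 1) (nat_lit 230) (nat_lit 1) (nat_lit 379) (nat_lit 332) (nat_lit 309)))) (XT.nd (nat_lit 156) (nat_lit 304) (nat_lit 0) (XT.nd (nat_lit 78) (nat_lit 228) (nat_lit 0) (XT.lf (nat_lit 228) (nat_lit 375523575) (nat_lit 0) (nat_lit 234670018) (nat_lit 152) (nat_lit 376830401) (nat_lit 227) (nat_lit 1) (nat_lit 224) (nat_lit 1) (nat_lit 226) (nat_lit 1) (nat_lit 380) (nat_lit 332) (nat_lit 308)) (XT.lf (nat_lit 76) (nat_lit 203743398) (nat_lit 0) (nat_lit 9411035) (nat_lit 228) (nat_lit 745738086) (nat_lit 222) (nat_lit 1) (nat_lit 221) (nat_lit 1) (nat_lit 224) (nat_lit 1) (nat_lit 381) (nat_lit 332) (nat_lit 307))) (XT.nd (nat_lit 78) (nat_lit 152) (nat_lit 0) (XT.lf (nat_lit 228) (nat_lit 556995108) (nat_lit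 0) (nat_lit 193011293) (nat_lit 152) (nat_lit 181572967) (nat_lit 222) (nat_lit 1) (nat_lit 219) (nat_lit 1) (nat_lit 221) (nat_lit 1) (nat_lit 382) (nat_lit 332) (nat_lit 306)) (XT.lf (nat_lit 228) (nat_lit 173025001) (nat_lit 0) (nat_lit 179425341) (nat_lit 152) (nat_lit 552860179) (nat_lit 220) (nat_lit 1) (nat_lit 217) (nat_lit 1) (nat_lit 219) (nat_lit 1) (nat_lit 383) (nat_lit 332) (nat_lit 305))))))) (XT.nd (nat_lit 1014) (nat_lit 1596) (nat_lit 0) (XT.nd (nat_lit 468) (nat_lit 988) (nat_lit 0) (XT.nd (nat_lit 234) (nat_lit 456) (nat_lit 0) (XT.nd (nat_lit 78) (nat_lit 304) (nat_lit 0) (XT.lf (nat_lit 228) (nat_lit 686845665) (nat_lit 0) (nat_lit 171426350) (nat_lit 152) (nat_lit 21747421) (nat_lit 217) (nat_lit 1) (nat_lit 214) (nat_lit 1) (nat_lit 216) (nat_lit 1) (nat_lit 384) (nat_lit 332) (nat_lit 304)) (XT.nd (nat_lit 78) (nat_lit 152) (nat_lit 0) (XT.lf (nat_lit 228) (nat_lit 307400287)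 (nat_lit 0) (nat_lit 163654368) (nat_lit 152) (nat_lit 384376457) (nat_lit 215) (nat_lit 1) (nat_lit 212) (nat_lit 1) (nat_lit 214) (nat_lit 1) (nat_lit 385) (nat_lit 332) (nat_lit 303)) (XT.lf (nat_lit 76) (nat_lit 105296466) (nat_lit 0) (nat_lit 57875682) (nat_lit 152) (nat_lit 668690499) (nat_lit 211) (nat_lit 1) (nat_lit 210) (nat_lit 1) (nat_lit 212) (nat_lit 1) (nat_lit 386) (nat_lit 332) (nat_lit 302)))) (XT.nd (nat_lit 78) (nat_lit 304) (nat_lit 0) (XT.lf (nat_lit 228) (nat_lit 403326855) (nat_lit 0) (nat_lit 161444338) (nat_lit 152) (nat_lit 244117718) (nat_lit 211) (nat_lit 1) (nat_lit 208) (nat_lit 1) (nat_lit 210) (nat_lit 1) (nat_lit 387) (nat_lit 332) (nat_lit 301)) (XT.nd (nat_lit 78) (nat_lit 228) (nat_lit 0) (XT.lf (nat_lit 152) (nat_lit 43432571) (nat_lit 0) (nat_lit 165409619) (nat_lit 76) (nat_lit 577979958) (nat_lit 209) (nat_lit 1) (nat_lit 207) (nat_lit 1) (nat_lit 208)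 (nat_lit 1) (nat_lit 388) (nat_lit 332) (nat_lit 300)) (XT.lf (nat_lit 228) (nat_lit 468838570) (nat_lit 0) (nat_lit 169169901) (nat_lit 152) (nat_lit 127355364) (nat_lit 207) (nat_lit 1) (nat_lit 204) (nat_lit 1) (nat_lit 206) (nat_lit 1) (nat_lit 389) (nat_lit 332) (nat_lit 299))))) (XT.nd (nat_lit 234) (nat_lit 608) (nat_lit 0) (XT.nd (nat_lit 78) (nat_lit 304) (nat_lit 0) (XT.lf (nat_lit 152) (nat_lit 117916357) (nat_lit 0) (nat_lit 175495334) (nat_lit 76) (nat_lit 451217018) (nat_lit 205) (nat_lit 1) (nat_lit 203) (nat_lit 1) (nat_lit 204) (nat_lit 1) (nat_lit 390) (nat_lit 332) (nat_lit 298)) (XT.nd (nat_lit 78) (nat_lit 76) (nat_lit 0) (XT.lf (nat_lit 228) (nat_lit 510430913) (nat_lit 0) (nat_lit 183959526) (nat_lit 152) (nat_lit 30189333) (nat_lit 203) (nat_lit 1) (nat_lit 200) (nat_lit 1) (nat_lit 202) (nat_lit 1) (nat_lit 391) (nat_lit 332) (nat_lit 297)) (XT.lf (nat_lit 152) (nat_lit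 169697815) (nat_lit 0) (nat_lit 191780016) (nat_lit 76) (nat_lit 343590461) (nat_lit 201) (nat_lit 1) (nat_lit 199) (nat_lit 1) (nat_lit 200) (nat_lit 1) (nat_lit 392) (nat_lit 332) (nat_lit 296)))) (XT.nd (nat_lit 156) (nat_lit 304) (nat_lit 0) (XT.nd (nat_lit 78) (nat_lit 76) (nat_lit 0) (XT.lf (nat_lit 76) (nat_lit 48981543) (nat_lit 0) (nat_lit 153740007) (nat_lit 228) (nat_lit 483536216) (nat_lit 197) (nat_lit 1) (nat_lit 196) (nat_lit 1) (nat_lit 199) (nat_lit 1) (nat_lit 393) (nat_lit 332) (nat_lit 295)) (XT.lf (nat_lit 152) (nat_lit 203652689) (nat_lit 0) (nat_lit 212196449) (nat_lit 76) (nat_lit 252065246) (nat_lit 197) (nat_lit 1) (nat_lit 195) (nat_lit 1) (nat_lit 196) (nat_lit 1) (nat_lit 394) (nat_lit 332) (nat_lit 294))) (XT.nd (nat_lit 78) (nat_lit 76) (nat_lit 0) (XT.lf (nat_lit 76) (nat_lit 113912830) (nat_lit 0) (nat_lit 110332279) (nat_lit 228) (nat_lit 425970527) (nat_lit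 193) (nat_lit 1) (nat_lit 192) (nat_lit 1) (nat_lit 195) (nat_lit 1) (nat_lit 395) (nat_lit 332) (nat_lit 293)) (XT.lf (nat_lit 152) (nat_lit 223712936) (nat_lit 0) (nat_lit 235130938) (nat_lit 76) (nat_lit 174125210) (nat_lit 193) (nat_lit 1) (nat_lit 191) (nat_lit 1) (nat_lit 192) (nat_lit 1) (nat_lit 396) (nat_lit 332) (nat_lit 292)))))) (XT.nd (nat_lit 546) (nat_lit 760) (nat_lit 0) (XT.nd (nat_lit 234) (nat_lit 456) (nat_lit 0) (XT.nd (nat_lit 78) (nat_lit 228) (nat_lit 0) (XT.lf (nat_lit 76) (nat_lit 167706028) (nat_lit 0) (nat_lit 79908921) (nat_lit 152) (nat_lit 368677157) (nat_lit 190) (nat_lit 1) (nat_lit 189) (nat_lit 1) (nat_lit 191) (nat_lit 1) (nat_lit 397) (nat_lit 332) (nat_lit 291)) (XT.nd (nat_lit 78) (nat_lit 152) (nat_lit 0) (XT.lf (nat_lit 152) (nat_lit 233043080) (nat_lit 0) (nat_lit 259334917) (nat_lit 76) (nat_lit 107680510) (nat_lit 190) (nat_lit 1) (nat_lit 188) (nat_lit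 1) (nat_lit 189) (nat_lit 1) (nat_lit 398) (nat_lit 332) (nat_lit 290)) (XT.lf (nat_lit 76) (nat_lit 212132532) (nat_lit 0) (nat_lit 59613097) (nat_lit 152) (nat_lit 312578608) (nat_lit 187) (nat_lit 1) (nat_lit 186) (nat_lit 1) (nat_lit 188) (nat_lit 1) (nat_lit 399) (nat_lit 332) (nat_lit 289)))) (XT.nd (nat_lit 156) (nat_lit 228) (nat_lit 0) (XT.nd (nat_lit 78) (nat_lit 152) (nat_lit 0) (XT.lf (nat_lit 152) (nat_lit 234184010) (nat_lit 0) (nat_lit 283853119) (nat_lit 76) (nat_lit 50991879) (nat_lit 187) (nat_lit 1) (nat_lit 185) (nat_lit 1) (nat_lit 186) (nat_lit 1) (nat_lit 400) (nat_lit 332) (nat_lit 288)) (XT.lf (nat_lit 76) (nat_lit 248664573) (nat_lit 0) (nat_lit 47147644) (nat_lit 152) (nat_lit 258355377) (nat_lit 184) (nat_lit 1) (nat_lit 183) (nat_lit 1) (nat_lit 185) (nat_lit 1) (nat_lit 401) (nat_lit 332) (nat_lit 287))) (XT.nd (nat_lit 78) (nat_lit 152) (nat_lit 0) (XT.lf (nat_lit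 152) (nat_lit 229170202) (nat_lit 0) (nat_lit 307965235) (nat_lit 76) (nat_lit 2608614) (nat_lit 184) (nat_lit 1) (nat_lit 182) (nat_lit 1) (nat_lit 183) (nat_lit 1) (nat_lit 402) (nat_lit 332) (nat_lit 286)) (XT.lf (nat_lit 76) (nat_lit 278528165) (nat_lit 0) (nat_lit 40669987) (nat_lit 152) (nat_lit 206495271) (nat_lit 181) (nat_lit 1) (nat_lit 180) (nat_lit 1) (nat_lit 182) (nat_lit 1) (nat_lit 403) (nat_lit 332) (nat_lit 285))))) (XT.nd (nat_lit 234) (nat_lit 456) (nat_lit 0) (XT.nd (nat_lit 78) (nat_lit 228) (nat_lit 0) (XT.lf (nat_lit 0) (nat_lit 37444131) (nat_lit 0) (nat_lit 293060308) (nat_lit 152) (nat_lit 181547004) (nat_lit 179) (nat_lit 3) (nat_lit 179) (nat_lit 1) (nat_lit 181) (nat_lit 1) (nat_lit 404) (nat_lit 332) (nat_lit 284)) (XT.nd (nat_lit 78) (nat_lit 76) (nat_lit 0) (XT.lf (nat_lit 76) (nat_lit 302746484) (nat_lit 0) (nat_lit 38706480) (nat_lit 152) (nat_lit 157333361)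 (nat_lit 178) (nat_lit 1) (nat_lit 177) (nat_lit 1) (nat_lit 179) (nat_lit 1) (nat_lit 405) (nat_lit 332) (nat_lit 283)) (XT.lf (nat_lit 0) (nat_lit 71532142) (nat_lit 0) (nat_lit 280246116) (nat_lit 152) (nat_lit 134096229) (nat_lit 176) (nat_lit 3) (nat_lit 176) (nat_lit 1) (nat_lit 178) (nat_lit 1) (nat_lit 406) (nat_lit 332) (nat_lit 282)))) (XT.nd (nat_lit 156) (nat_lit 228) (nat_lit 0) (XT.nd (nat_lit 78) (nat_lit 76) (nat_lit 0) (XT.lf (nat_lit 76) (nat_lit 322175394) (nat_lit 0) (nat_lit 40082617) (nat_lit 152) (nat_lit 111084314) (nat_lit 175) (nat_lit 1) (nat_lit 174) (nat_lit 1) (nat_lit 176) (nat_lit 1) (nat_lit 407) (nat_lit 332) (nat_lit 281)) (XT.lf (nat_lit 0) (nat_lit 100566232) (nat_lit 0) (nat_lit 270983938) (nat_lit 152) (nat_lit 89565418) (nat_lit 173) (nat_lit 3) (nat_lit 173) (nat_lit 1) (nat_lit 175) (nat_lit 1) (nat_lit 408) (nat_lit 332) (nat_lit 280))) (XT.nd (nat_lit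 78) (nat_lit 76) (nat_lit 0) (XT.lf (nat_lit 76) (nat_lit 337532582) (nat_lit 0) (nat_lit 43866175) (nat_lit 152) (nat_lit 67868513) (nat_lit 172) (nat_lit 1) (nat_lit 171) (nat_lit 1) (nat_lit 173) (nat_lit 1) (nat_lit 409) (nat_lit 332) (nat_lit 279)) (XT.lf (nat_lit 0) (nat_lit 125243912) (nat_lit 0) (nat_lit 264392213) (nat_lit 152) (nat_lit 48048250) (nat_lit 170) (nat_lit 3) (nat_lit 170) (nat_lit 1) (nat_lit 172) (nat_lit 1) (nat_lit 410) (nat_lit 332) (nat_lit 278))))))))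
noncomputable def ec16 : XT := (XT.nd (nat_lit 50310) (nat_lit 0) (nat_lit 1444) (XT.nd (nat_lit 49296) (nat_lit 0) (nat_lit 5624) (XT.nd (nat_lit 48750) (nat_lit 0) (nat_lit 9576) (XT.nd (nat_lit 234) (nat_lit 228) (nat_lit 0) (XT.nd (nat_lit 78) (nat_lit 304) (nat_lit 0) (XT.lf (nat_lit 76) (nat_lit 349421449) (nat_lit 0) (nat_lit 49320922) (nat_lit 152) (nat_lit 27733126) (nat_lit 169) (nat_lit 1) (nat_lit 168) (nat_lit 1) (nat_lit 170) (nat_lit 1) (nat_lit 411) (nat_lit 332) (nat_lit 277)) (XT.nd (nat_lit 78) (nat_lit 228) (nat_lit 0) (XT.lf (nat_lit 0) (nat_lit 146155115) (nat_lit 0) (nat_lit 259771534) (nat_lit 152) (nat_lit 9571853) (nat_lit 167) (nat_lit 3) (nat_lit 167) (nat_lit 1) (nat_lit 169) (nat_lit 1) (nat_lit 412) (nat_lit 332) (nat_lit 276)) (XT.lf (nat_lit 152) (nat_lit 348861763) (nat_lit 0) (nat_lit 9639453) (nat_lit 76) (nat_lit 46379981) (nat_lit 166) (nat_lit 1) (nat_lit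 164) (nat_lit 1) (nat_lit 165) (nat_lit 1) (nat_lit 413) (nat_lit 332) (nat_lit 275)))) (XT.nd (nat_lit 78) (nat_lit 152) (nat_lit 0) (XT.lf (nat_lit 76) (nat_lit 137474448) (nat_lit 0) (nat_lit 26743530) (nat_lit 76) (nat_lit 230243749) (nat_lit 164) (nat_lit 3) (nat_lit 163) (nat_lit 1) (nat_lit 164) (nat_lit 1) (nat_lit 414) (nat_lit 332) (nat_lit 274)) (XT.nd (nat_lit 48360) (nat_lit 0) (nat_lit 9956) (XT.lf (nat_lit 152) (nat_lit 320640578) (nat_lit 0) (nat_lit 44809561) (nat_lit 76) (nat_lit 18949981) (nat_lit 163) (nat_lit 1) (nat_lit 161) (nat_lit 1) (nat_lit 162) (nat_lit 1) (nat_lit 415) (nat_lit 332) (nat_lit 273)) (XT.lf (nat_lit 836) (nat_lit 313533095) (nat_lit 0) (nat_lit 556677290) (nat_lit 836) (nat_lit 313533095) (nat_lit 303) (nat_lit 1) (nat_lit 292) (nat_lit 0) (nat_lit 303) (nat_lit 0) (nat_lit 354) (nat_lit 333) (nat_lit 333))))) (XT.nd (nat_lit 234) (nat_lit 456) (nat_lit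 0) (XT.nd (nat_lit 78) (nat_lit 0) (nat_lit 0) (XT.lf (nat_lit 836) (nat_lit 116957465) (nat_lit 0) (nat_lit 1092926237) (nat_lit 760) (nat_lit 1068878208) (nat_lit 304) (nat_lit 1) (nat_lit 293) (nat_lit 1) (nat_lit 303) (nat_lit 1) (nat_lit 355) (nat_lit 333) (nat_lit 332)) (XT.nd (nat_lit 78) (nat_lit 0) (nat_lit 76) (XT.lf (nat_lit 836) (nat_lit 1074186809) (nat_lit 76) (nat_lit 731933069) (nat_lit 0) (nat_lit 388183912) (nat_lit 304) (nat_lit 1) (nat_lit 294) (nat_lit 1) (nat_lit 293) (nat_lit 1) (nat_lit 356) (nat_lit 333) (nat_lit 331)) (XT.lf (nat_lit 836) (nat_lit 928185401) (nat_lit 76) (nat_lit 306748076) (nat_lit 0) (nat_lit 879138690) (nat_lit 305) (nat_lit 1) (nat_lit 295) (nat_lit 1) (nat_lit 294) (nat_lit 1) (nat_lit 357) (nat_lit 333) (nat_lit 330)))) (XT.nd (nat_lit 156) (nat_lit 608) (nat_lit 0) (XT.nd (nat_lit 78) (nat_lit 0) (nat_lit 76) (XT.lf (nat_lit 836) (nat_lit 686936108)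 (nat_lit 0) (nat_lit 1285224989) (nat_lit 760) (nat_lit 65700517) (nat_lit 306) (nat_lit 1) (nat_lit 295) (nat_lit 1) (nat_lit 305) (nat_lit 1) (nat_lit 358) (nat_lit 333) (nat_lit 329)) (XT.lf (nat_lit 836) (nat_lit 164823584) (nat_lit 0) (nat_lit 1417317600) (nat_lit 760) (nat_lit 383149466) (nat_lit 307) (nat_lit 1) (nat_lit 296) (nat_lit 1) (nat_lit 306) (nat_lit 1) (nat_lit 359) (nat_lit 333) (nat_lit 328))) (XT.nd (nat_lit 78) (nat_lit 684) (nat_lit 0) (XT.lf (nat_lit 836) (nat_lit 316723889) (nat_lit 76) (nat_lit 1231764411) (nat_lit 0) (nat_lit 347619114) (nat_lit 307) (nat_lit 1) (nat_lit 297) (nat_lit 1) (nat_lit 296) (nat_lit 1) (nat_lit 360) (nat_lit 333) (nat_lit 327)) (XT.lf (nat_lit 836) (nat_lit 65047864) (nat_lit 0) (nat_lit 920825375) (nat_lit 760) (nat_lit 844387221) (nat_lit 298) (nat_lit 1) (nat_lit 287) (nat_lit 1) (nat_lit 297) (nat_lit 1) (nat_lit 361) (nat_lit 333) (nat_lit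 326)))))) (XT.nd (nat_lit 468) (nat_lit 1976) (nat_lit 0) (XT.nd (nat_lit 234) (nat_lit 684) (nat_lit 0) (XT.nd (nat_lit 78) (nat_lit 760) (nat_lit 0) (XT.lf (nat_lit 76) (nat_lit 450404964) (nat_lit 0) (nat_lit 195181431) (nat_lit 532) (nat_lit 1121944902) (nat_lit 281) (nat_lit 1) (nat_lit 280) (nat_lit 1) (nat_lit 287) (nat_lit 1) (nat_lit 362) (nat_lit 333) (nat_lit 325)) (XT.nd (nat_lit 78) (nat_lit 380) (nat_lit 0) (XT.lf (nat_lit 456) (nat_lit 1241259390) (nat_lit 0) (nat_lit 404056690) (nat_lit 380) (nat_lit 62469661) (nat_lit 281) (nat_lit 1) (nat_lit 275) (nat_lit 1) (nat_lit 280) (nat_lit 1) (nat_lit 363) (nat_lit 333) (nat_lit 324)) (XT.lf (nat_lit 456) (nat_lit 895704596) (nat_lit 0) (nat_lit 188332564) (nat_lit 380) (nat_lit 566571978) (nat_lit 276) (nat_lit 1) (nat_lit 270) (nat_lit 1) (nat_lit 275) (nat_lit 1) (nat_lit 364) (nat_lit 333) (nat_lit 323)))) (XT.nd (nat_lit 78) (nat_lit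 380) (nat_lit 0) (XT.lf (nat_lit 380) (nat_lit 545024823) (nat_lit 0) (nat_lit 3467508) (nat_lit 304) (nat_lit 1047712572) (nat_lit 271) (nat_lit 1) (nat_lit 266) (nat_lit 1) (nat_lit 270) (nat_lit 1) (nat_lit 365) (nat_lit 333) (nat_lit 322)) (XT.nd (nat_lit 78) (nat_lit 380) (nat_lit 0) (XT.lf (nat_lit 76) (nat_lit 40209355) (nat_lit 0) (nat_lit 1356054310) (nat_lit 380) (nat_lit 148039694) (nat_lit 267) (nat_lit 1) (nat_lit 266) (nat_lit 1) (nat_lit 271) (nat_lit 1) (nat_lit 366) (nat_lit 333) (nat_lit 321)) (XT.lf (nat_lit 76) (nat_lit 1038215992) (nat_lit 0) (nat_lit 172199231) (nat_lit 380) (nat_lit 283987805) (nat_lit 262) (nat_lit 1) (nat_lit 261) (nat_lit 1) (nat_lit 266) (nat_lit 1) (nat_lit 367) (nat_lit 333) (nat_lit 320))))) (XT.nd (nat_lit 234) (nat_lit 1140) (nat_lit 0) (XT.nd (nat_lit 78) (nat_lit 532) (nat_lit 0) (XT.lf (nat_lit 76) (nat_lit 519445770) (nat_lit 0) (nat_lit 527476813)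 (nat_lit 380) (nat_lit 399784965) (nat_lit 258) (nat_lit 1) (nat_lit 257) (nat_lit 1) (nat_lit 262) (nat_lit 1) (nat_lit 368) (nat_lit 333) (nat_lit 319)) (XT.nd (nat_lit 78) (nat_lit 228) (nat_lit 0) (XT.lf (nat_lit 76) (nat_lit 25638691) (nat_lit 0) (nat_lit 881933041) (nat_lit 380) (nat_lit 493698558) (nat_lit 254) (nat_lit 1) (nat_lit 253) (nat_lit 1) (nat_lit 258) (nat_lit 1) (nat_lit 369) (nat_lit 333) (nat_lit 318)) (XT.lf (nat_lit 304) (nat_lit 115782885) (nat_lit 0) (nat_lit 782984230) (nat_lit 228) (nat_lit 458846754) (nat_lit 254) (nat_lit 1) (nat_lit 250) (nat_lit 1) (nat_lit 253) (nat_lit 1) (nat_lit 370) (nat_lit 333) (nat_lit 317)))) (XT.nd (nat_lit 156) (nat_lit 532) (nat_lit 0) (XT.nd (nat_lit 78) (nat_lit 228) (nat_lit 0) (XT.lf (nat_lit 76) (nat_lit 400060997) (nat_lit 0) (nat_lit 274204293) (nat_lit 380) (nat_lit 641495683) (nat_lit 246) (nat_lit 1) (nat_lit 245) (nat_lit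 1) (nat_lit 250) (nat_lit 1) (nat_lit 371) (nat_lit 333) (nat_lit 316)) (XT.lf (nat_lit 304) (nat_lit 619390651) (nat_lit 0) (nat_lit 581837462) (nat_lit 228) (nat_lit 74474504) (nat_lit 246) (nat_lit 1) (nat_lit 242) (nat_lit 1) (nat_lit 245) (nat_lit 1) (nat_lit 372) (nat_lit 333) (nat_lit 315))) (XT.nd (nat_lit 78) (nat_lit 304) (nat_lit 0) (XT.lf (nat_lit 304) (nat_lit 198511711) (nat_lit 0) (nat_lit 500938229) (nat_lit 228) (nat_lit 537733776) (nat_lit 243) (nat_lit 1) (nat_lit 239) (nat_lit 1) (nat_lit 242) (nat_lit 1) (nat_lit 373) (nat_lit 333) (nat_lit 314)) (XT.lf (nat_lit 76) (nat_lit 226255384) (nat_lit 0) (nat_lit 207156466) (nat_lit 304) (nat_lit 766852726) (nat_lit 236) (nat_lit 1) (nat_lit 235) (nat_lit 1) (nat_lit 239) (nat_lit 1) (nat_lit 374) (nat_lit 333) (nat_lit 313))))))) (XT.nd (nat_lit 1014) (nat_lit 1824) (nat_lit 0) (XT.nd (nat_lit 468) (nat_lit 1140) (nat_lit 0) (XT.nd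 (nat_lit 234) (nat_lit 532) (nat_lit 0) (XT.nd (nat_lit 78) (nat_lit 456) (nat_lit 0) (XT.lf (nat_lit 304) (nat_lit 563006827) (nat_lit 0) (nat_lit 374603879) (nat_lit 228) (nat_lit 227086103) (nat_lit 236) (nat_lit 1) (nat_lit 232) (nat_lit 1) (nat_lit 235) (nat_lit 1) (nat_lit 375) (nat_lit 333) (nat_lit 312)) (XT.nd (nat_lit 78) (nat_lit 304) (nat_lit 0) (XT.lf (nat_lit 228) (nat_lit 139570223) (nat_lit 0) (nat_lit 326814561) (nat_lit 152) (nat_lit 664179162) (nat_lit 233) (nat_lit 1) (nat_lit 230) (nat_lit 1) (nat_lit 232) (nat_lit 1) (nat_lit 376) (nat_lit 333) (nat_lit 311)) (XT.lf (nat_lit 76) (nat_lit 23644087) (nat_lit 0) (nat_lit 264582473) (nat_lit 304) (nat_lit 809527603) (nat_lit 227) (nat_lit 1) (nat_lit 226) (nat_lit 1) (nat_lit 230) (nat_lit 1) (nat_lit 377) (nat_lit 333) (nat_lit 310)))) (XT.nd (nat_lit 78) (nat_lit 380) (nat_lit 0) (XT.lf (nat_lit 228) (nat_lit 405565461) (nat_lit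 0) (nat_lit 253443620) (nat_lit 152) (nat_lit 406976833) (nat_lit 227) (nat_lit 1) (nat_lit 224) (nat_lit 1) (nat_lit 226) (nat_lit 1) (nat_lit 378) (nat_lit 333) (nat_lit 309)) (XT.nd (nat_lit 78) (nat_lit 152) (nat_lit 0) (XT.lf (nat_lit 76) (nat_lit 220042870) (nat_lit 0) (nat_lit 10163918) (nat_lit 228) (nat_lit 805397133) (nat_lit 222) (nat_lit 1) (nat_lit 221) (nat_lit 1) (nat_lit 224) (nat_lit 1) (nat_lit 379) (nat_lit 333) (nat_lit 308)) (XT.lf (nat_lit 228) (nat_lit 601554717) (nat_lit 0) (nat_lit 208452197) (nat_lit 152) (nat_lit 196098805) (nat_lit 222) (nat_lit 1) (nat_lit 219) (nat_lit 1) (nat_lit 221) (nat_lit 1) (nat_lit 380) (nat_lit 333) (nat_lit 307))))) (XT.nd (nat_lit 234) (nat_lit 608) (nat_lit 0) (XT.nd (nat_lit 78) (nat_lit 380) (nat_lit 0) (XT.lf (nat_lit 228) (nat_lit 186867001) (nat_lit 0) (nat_lit 193779368) (nat_lit 152) (nat_lit 597088993) (nat_lit 220) (nat_lit 1)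 (nat_lit 217) (nat_lit 1) (nat_lit 219) (nat_lit 1) (nat_lit 381) (nat_lit 333) (nat_lit 306)) (XT.nd (nat_lit 78) (nat_lit 152) (nat_lit 0) (XT.lf (nat_lit 228) (nat_lit 741793319) (nat_lit 0) (nat_lit 185140458) (nat_lit 152) (nat_lit 23487215) (nat_lit 217) (nat_lit 1) (nat_lit 214) (nat_lit 1) (nat_lit 216) (nat_lit 1) (nat_lit 382) (nat_lit 333) (nat_lit 305)) (XT.lf (nat_lit 228) (nat_lit 331992310) (nat_lit 0) (nat_lit 176746718) (nat_lit 152) (nat_lit 415126573) (nat_lit 215) (nat_lit 1) (nat_lit 212) (nat_lit 1) (nat_lit 214) (nat_lit 1) (nat_lit 383) (nat_lit 333) (nat_lit 304)))) (XT.nd (nat_lit 156) (nat_lit 304) (nat_lit 0) (XT.nd (nat_lit 78) (nat_lit 152) (nat_lit 0) (XT.lf (nat_lit 76) (nat_lit 113720184) (nat_lit 0) (nat_lit 62505737) (nat_lit 152) (nat_lit 722185739) (nat_lit 211) (nat_lit 1) (nat_lit 210) (nat_lit 1) (nat_lit 212) (nat_lit 1) (nat_lit 384) (nat_lit 333) (nat_lit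 303)) (XT.lf (nat_lit 228) (nat_lit 435593004) (nat_lit 0) (nat_lit 174359885) (nat_lit 152) (nat_lit 263647136) (nat_lit 211) (nat_lit 1) (nat_lit 208) (nat_lit 1) (nat_lit 210) (nat_lit 1) (nat_lit 385) (nat_lit 333) (nat_lit 302))) (XT.nd (nat_lit 78) (nat_lit 228) (nat_lit 0) (XT.lf (nat_lit 152) (nat_lit 46907176) (nat_lit 0) (nat_lit 178642389) (nat_lit 76) (nat_lit 624218355) (nat_lit 209) (nat_lit 1) (nat_lit 207) (nat_lit 1) (nat_lit 208) (nat_lit 1) (nat_lit 386) (nat_lit 333) (nat_lit 301)) (XT.lf (nat_lit 228) (nat_lit 506345656) (nat_lit 0) (nat_lit 182703493) (nat_lit 152) (nat_lit 137543793) (nat_lit 207) (nat_lit 1) (nat_lit 204) (nat_lit 1) (nat_lit 206) (nat_lit 1) (nat_lit 387) (nat_lit 333) (nat_lit 300)))))) (XT.nd (nat_lit 546) (nat_lit 836) (nat_lit 0) (XT.nd (nat_lit 234) (nat_lit 608) (nat_lit 0) (XT.nd (nat_lit 78) (nat_lit 304) (nat_lit 0) (XT.lf (nat_lit 152) (nat_lit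 127349666) (nat_lit 0) (nat_lit 189534960) (nat_lit 76) (nat_lit 487314379) (nat_lit 205) (nat_lit 1) (nat_lit 203) (nat_lit 1) (nat_lit 204) (nat_lit 1) (nat_lit 388) (nat_lit 333) (nat_lit 299)) (XT.nd (nat_lit 78) (nat_lit 76) (nat_lit 0) (XT.lf (nat_lit 228) (nat_lit 551265386) (nat_lit 0) (nat_lit 198676288) (nat_lit 152) (nat_lit 32604479) (nat_lit 203) (nat_lit 1) (nat_lit 200) (nat_lit 1) (nat_lit 202) (nat_lit 1) (nat_lit 389) (nat_lit 333) (nat_lit 298)) (XT.lf (nat_lit 152) (nat_lit 183273641) (nat_lit 0) (nat_lit 207122417) (nat_lit 76) (nat_lit 371077698) (nat_lit 201) (nat_lit 1) (nat_lit 199) (nat_lit 1) (nat_lit 200) (nat_lit 1) (nat_lit 390) (nat_lit 333) (nat_lit 297)))) (XT.nd (nat_lit 156) (nat_lit 304) (nat_lit 0) (XT.nd (nat_lit 78) (nat_lit 76) (nat_lit 0) (XT.lf (nat_lit 76) (nat_lit 52900066) (nat_lit 0) (nat_lit 166039207) (nat_lit 228) (nat_lit 522219113) (nat_lit 197)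 (nat_lit 1) (nat_lit 196) (nat_lit 1) (nat_lit 199) (nat_lit 1) (nat_lit 391) (nat_lit 333) (nat_lit 296)) (XT.lf (nat_lit 152) (nat_lit 219944904) (nat_lit 0) (nat_lit 229172165) (nat_lit 76) (nat_lit 272230466) (nat_lit 197) (nat_lit 1) (nat_lit 195) (nat_lit 1) (nat_lit 196) (nat_lit 1) (nat_lit 392) (nat_lit 333) (nat_lit 295))) (XT.nd (nat_lit 78) (nat_lit 76) (nat_lit 0) (XT.lf (nat_lit 76) (nat_lit 123025857) (nat_lit 0) (nat_lit 119158861) (nat_lit 228) (nat_lit 460048169) (nat_lit 193) (nat_lit 1) (nat_lit 192) (nat_lit 1) (nat_lit 195) (nat_lit 1) (nat_lit 393) (nat_lit 333) (nat_lit 294)) (XT.lf (nat_lit 152) (nat_lit 241609971) (nat_lit 0) (nat_lit 253941413) (nat_lit 76) (nat_lit 188055227) (nat_lit 193) (nat_lit 1) (nat_lit 191) (nat_lit 1) (nat_lit 192) (nat_lit 1) (nat_lit 394) (nat_lit 333) (nat_lit 293))))) (XT.nd (nat_lit 234) (nat_lit 456) (nat_lit 0) (XT.nd (nat_lit 78) (nat_lit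 228) (nat_lit 0) (XT.lf (nat_lit 76) (nat_lit 181122510) (nat_lit 0) (nat_lit 86301635) (nat_lit 152) (nat_lit 398171330) (nat_lit 190) (nat_lit 1) (nat_lit 189) (nat_lit 1) (nat_lit 191) (nat_lit 1) (nat_lit 395) (nat_lit 333) (nat_lit 292)) (XT.nd (nat_lit 78) (nat_lit 152) (nat_lit 0) (XT.lf (nat_lit 152) (nat_lit 251686527) (nat_lit 0) (nat_lit 280081710) (nat_lit 76) (nat_lit 116294951) (nat_lit 190) (nat_lit 1) (nat_lit 188) (nat_lit 1) (nat_lit 189) (nat_lit 1) (nat_lit 396) (nat_lit 333) (nat_lit 291)) (XT.lf (nat_lit 76) (nat_lit 229103135) (nat_lit 0) (nat_lit 64382145) (nat_lit 152) (nat_lit 337584897) (nat_lit 187) (nat_lit 1) (nat_lit 186) (nat_lit 1) (nat_lit 188) (nat_lit 1) (nat_lit 397) (nat_lit 333) (nat_lit 290)))) (XT.nd (nat_lit 156) (nat_lit 228) (nat_lit 0) (XT.nd (nat_lit 78) (nat_lit 152) (nat_lit 0) (XT.lf (nat_lit 152) (nat_lit 252918730) (nat_lit 0) (nat_lit 306561369)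 (nat_lit 76) (nat_lit 55071229) (nat_lit 187) (nat_lit 1) (nat_lit 185) (nat_lit 1) (nat_lit 186) (nat_lit 1) (nat_lit 398) (nat_lit 333) (nat_lit 289)) (XT.lf (nat_lit 76) (nat_lit 268557738) (nat_lit 0) (nat_lit 50919456) (nat_lit 152) (nat_lit 279023807) (nat_lit 184) (nat_lit 1) (nat_lit 183) (nat_lit 1) (nat_lit 185) (nat_lit 1) (nat_lit 399) (nat_lit 333) (nat_lit 288))) (XT.nd (nat_lit 78) (nat_lit 152) (nat_lit 0) (XT.lf (nat_lit 152) (nat_lit 247503818) (nat_lit 0) (nat_lit 332602453) (nat_lit 76) (nat_lit 2817304) (nat_lit 184) (nat_lit 1) (nat_lit 182) (nat_lit 1) (nat_lit 183) (nat_lit 1) (nat_lit 400) (nat_lit 333) (nat_lit 287)) (XT.lf (nat_lit 76) (nat_lit 300810419) (nat_lit 0) (nat_lit 43923586) (nat_lit 152) (nat_lit 223014892) (nat_lit 181) (nat_lit 1) (nat_lit 180) (nat_lit 1) (nat_lit 182) (nat_lit 1) (nat_lit 401) (nat_lit 333) (nat_lit 286))))))))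
noncomputable def ec17 : XT := (XT.nd (nat_lit 50154) (nat_lit 0) (nat_lit 2812) (XT.nd (nat_lit 1014) (nat_lit 152) (nat_lit 0) (XT.nd (nat_lit 468) (nat_lit 836) (nat_lit 0) (XT.nd (nat_lit 234) (nat_lit 380) (nat_lit 0) (XT.nd (nat_lit 78) (nat_lit 228) (nat_lit 0) (XT.lf (nat_lit 0) (nat_lit 40439661) (nat_lit 0) (nat_lit 316505133) (nat_lit 152) (nat_lit 196070764) (nat_lit 179) (nat_lit 3) (nat_lit 179) (nat_lit 1) (nat_lit 181) (nat_lit 1) (nat_lit 402) (nat_lit 333) (nat_lit 285)) (XT.nd (nat_lit 78) (nat_lit 76) (nat_lit 0) (XT.lf (nat_lit 76) (nat_lit 326966203) (nat_lit 0) (nat_lit 41802998) (nat_lit 152) (nat_lit 169920029) (nat_lit 178) (nat_lit 1) (nat_lit 177) (nat_lit 1) (nat_lit 179) (nat_lit 1) (nat_lit 403) (nat_lit 333) (nat_lit 284)) (XT.lf (nat_lit 0) (nat_lit 77254714) (nat_lit 0) (nat_lit 302665805) (nat_lit 152) (nat_lit 144823927) (nat_lit 176) (nat_lit 3) (nat_lit 176)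 (nat_lit 1) (nat_lit 178) (nat_lit 1) (nat_lit 404) (nat_lit 333) (nat_lit 283)))) (XT.nd (nat_lit 78) (nat_lit 228) (nat_lit 0) (XT.lf (nat_lit 76) (nat_lit 347949426) (nat_lit 0) (nat_lit 43289226) (nat_lit 152) (nat_lit 119971059) (nat_lit 175) (nat_lit 1) (nat_lit 174) (nat_lit 1) (nat_lit 176) (nat_lit 1) (nat_lit 405) (nat_lit 333) (nat_lit 282)) (XT.nd (nat_lit 78) (nat_lit 152) (nat_lit 0) (XT.lf (nat_lit 0) (nat_lit 108611530) (nat_lit 0) (nat_lit 292662653) (nat_lit 152) (nat_lit 96730651) (nat_lit 173) (nat_lit 3) (nat_lit 173) (nat_lit 1) (nat_lit 175) (nat_lit 1) (nat_lit 406) (nat_lit 333) (nat_lit 281)) (XT.lf (nat_lit 76) (nat_lit 364535189) (nat_lit 0) (nat_lit 47375469) (nat_lit 152) (nat_lit 73297994) (nat_lit 172) (nat_lit 1) (nat_lit 171) (nat_lit 1) (nat_lit 173) (nat_lit 1) (nat_lit 407) (nat_lit 333) (nat_lit 280))))) (XT.nd (nat_lit 234) (nat_lit 532) (nat_lit 0) (XT.nd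 (nat_lit 78) (nat_lit 228) (nat_lit 0) (XT.lf (nat_lit 0) (nat_lit 135263425) (nat_lit 0) (nat_lit 285543590) (nat_lit 152) (nat_lit 51892110) (nat_lit 170) (nat_lit 3) (nat_lit 170) (nat_lit 1) (nat_lit 172) (nat_lit 1) (nat_lit 408) (nat_lit 333) (nat_lit 279)) (XT.nd (nat_lit 78) (nat_lit 76) (nat_lit 0) (XT.lf (nat_lit 76) (nat_lit 377375165) (nat_lit 0) (nat_lit 53266596) (nat_lit 152) (nat_lit 29951776) (nat_lit 169) (nat_lit 1) (nat_lit 168) (nat_lit 1) (nat_lit 170) (nat_lit 1) (nat_lit 409) (nat_lit 333) (nat_lit 278)) (XT.lf (nat_lit 0) (nat_lit 157847524) (nat_lit 0) (nat_lit 280553256) (nat_lit 152) (nat_lit 10337602) (nat_lit 167) (nat_lit 3) (nat_lit 167) (nat_lit 1) (nat_lit 169) (nat_lit 1) (nat_lit 410) (nat_lit 333) (nat_lit 277)))) (XT.nd (nat_lit 156) (nat_lit 228) (nat_lit 0) (XT.nd (nat_lit 78) (nat_lit 76) (nat_lit 0) (XT.lf (nat_lit 152) (nat_lit 376770704) (nat_lit 0)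 (nat_lit 10410609) (nat_lit 76) (nat_lit 50090379) (nat_lit 166) (nat_lit 1) (nat_lit 164) (nat_lit 1) (nat_lit 165) (nat_lit 1) (nat_lit 411) (nat_lit 333) (nat_lit 276)) (XT.lf (nat_lit 76) (nat_lit 148472404) (nat_lit 0) (nat_lit 28883012) (nat_lit 76) (nat_lit 248663249) (nat_lit 164) (nat_lit 3) (nat_lit 163) (nat_lit 1) (nat_lit 164) (nat_lit 1) (nat_lit 412) (nat_lit 333) (nat_lit 275))) (XT.nd (nat_lit 78) (nat_lit 76) (nat_lit 0) (XT.lf (nat_lit 152) (nat_lit 346291824) (nat_lit 0) (nat_lit 48394325) (nat_lit 76) (nat_lit 20465980) (nat_lit 163) (nat_lit 1) (nat_lit 161) (nat_lit 1) (nat_lit 162) (nat_lit 1) (nat_lit 413) (nat_lit 333) (nat_lit 274)) (XT.lf (nat_lit 76) (nat_lit 128763035) (nat_lit 0) (nat_lit 65148754) (nat_lit 76) (nat_lit 210570179) (nat_lit 161) (nat_lit 3) (nat_lit 160) (nat_lit 1) (nat_lit 161) (nat_lit 1) (nat_lit 414) (nat_lit 333) (nat_lit 273)))))) (XT.nd (nat_lit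 48594) (nat_lit 0) (nat_lit 8208) (XT.nd (nat_lit 48360) (nat_lit 0) (nat_lit 10260) (XT.nd (nat_lit 48204) (nat_lit 0) (nat_lit 10184) (XT.lf (nat_lit 0) (nat_lit 5434873) (nat_lit 0) (nat_lit 77575212) (nat_lit 152) (nat_lit 311172988) (nat_lit 158) (nat_lit 3) (nat_lit 158) (nat_lit 1) (nat_lit 160) (nat_lit 1) (nat_lit 415) (nat_lit 333) (nat_lit 272)) (XT.nd (nat_lit 78) (nat_lit 0) (nat_lit 76) (XT.lf (nat_lit 836) (nat_lit 338615743) (nat_lit 0) (nat_lit 601211474) (nat_lit 836) (nat_lit 338615743) (nat_lit 303) (nat_lit 1) (nat_lit 292) (nat_lit 0) (nat_lit 303) (nat_lit 0) (nat_lit 352) (nat_lit 334) (nat_lit 334)) (XT.lf (nat_lit 836) (nat_lit 126314062) (nat_lit 0) (nat_lit 1180360336) (nat_lit 760) (nat_lit 1154388465) (nat_lit 304) (nat_lit 1) (nat_lit 293) (nat_lit 1) (nat_lit 303) (nat_lit 1) (nat_lit 353) (nat_lit 334) (nat_lit 333)))) (XT.nd (nat_lit 78) (nat_lit 0) (nat_lit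 76) (XT.lf (nat_lit 836) (nat_lit 1160121753) (nat_lit 76) (nat_lit 790487715) (nat_lit 0) (nat_lit 419238625) (nat_lit 304) (nat_lit 1) (nat_lit 294) (nat_lit 1) (nat_lit 293) (nat_lit 1) (nat_lit 354) (nat_lit 334) (nat_lit 332)) (XT.nd (nat_lit 78) (nat_lit 0) (nat_lit 76) (XT.lf (nat_lit 836) (nat_lit 1002440233) (nat_lit 76) (nat_lit 331287922) (nat_lit 0) (nat_lit 949469786) (nat_lit 305) (nat_lit 1) (nat_lit 295) (nat_lit 1) (nat_lit 294) (nat_lit 1) (nat_lit 355) (nat_lit 334) (nat_lit 331)) (XT.lf (nat_lit 836) (nat_lit 741890997) (nat_lit 0) (nat_lit 1388042988) (nat_lit 760) (nat_lit 70956559) (nat_lit 306) (nat_lit 1) (nat_lit 295) (nat_lit 1) (nat_lit 305) (nat_lit 1) (nat_lit 356) (nat_lit 334) (nat_lit 330))))) (XT.nd (nat_lit 234) (nat_lit 1596) (nat_lit 0) (XT.nd (nat_lit 78) (nat_lit 684) (nat_lit 0) (XT.lf (nat_lit 836) (nat_lit 178009470) (nat_lit 0) (nat_lit 1530703008) (nat_lit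 760) (nat_lit 413801423) (nat_lit 307) (nat_lit 1) (nat_lit 296) (nat_lit 1) (nat_lit 306) (nat_lit 1) (nat_lit 357) (nat_lit 334) (nat_lit 329)) (XT.nd (nat_lit 78) (nat_lit 684) (nat_lit 0) (XT.lf (nat_lit 836) (nat_lit 342061800) (nat_lit 76) (nat_lit 1330305564) (nat_lit 0) (nat_lit 375428643) (nat_lit 307) (nat_lit 1) (nat_lit 297) (nat_lit 1) (nat_lit 296) (nat_lit 1) (nat_lit 358) (nat_lit 334) (nat_lit 328)) (XT.lf (nat_lit 836) (nat_lit 70251693) (nat_lit 0) (nat_lit 994491405) (nat_lit 760) (nat_lit 911938199) (nat_lit 298) (nat_lit 1) (nat_lit 287) (nat_lit 1) (nat_lit 297) (nat_lit 1) (nat_lit 359) (nat_lit 334) (nat_lit 327)))) (XT.nd (nat_lit 156) (nat_lit 684) (nat_lit 0) (XT.nd (nat_lit 78) (nat_lit 380) (nat_lit 0) (XT.lf (nat_lit 76) (nat_lit 486437361) (nat_lit 0) (nat_lit 210795945) (nat_lit 532) (nat_lit 1211700495) (nat_lit 281) (nat_lit 1) (nat_lit 280) (nat_lit 1) (nat_lit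 287) (nat_lit 1) (nat_lit 360) (nat_lit 334) (nat_lit 326)) (XT.lf (nat_lit 456) (nat_lit 1340560141) (nat_lit 0) (nat_lit 436381226) (nat_lit 380) (nat_lit 67467233) (nat_lit 281) (nat_lit 1) (nat_lit 275) (nat_lit 1) (nat_lit 280) (nat_lit 1) (nat_lit 361) (nat_lit 334) (nat_lit 325))) (XT.nd (nat_lit 78) (nat_lit 304) (nat_lit 0) (XT.lf (nat_lit 456) (nat_lit 967360964) (nat_lit 0) (nat_lit 203399169) (nat_lit 380) (nat_lit 611897736) (nat_lit 276) (nat_lit 1) (nat_lit 270) (nat_lit 1) (nat_lit 275) (nat_lit 1) (nat_lit 362) (nat_lit 334) (nat_lit 324)) (XT.lf (nat_lit 380) (nat_lit 588626808) (nat_lit 0) (nat_lit 3744909) (nat_lit 304) (nat_lit 1131529578) (nat_lit 271) (nat_lit 1) (nat_lit 266) (nat_lit 1) (nat_lit 270) (nat_lit 1) (nat_lit 363) (nat_lit 334) (nat_lit 323))))))) (XT.nd (nat_lit 1014) (nat_lit 2204) (nat_lit 0) (XT.nd (nat_lit 468) (nat_lit 1596) (nat_lit 0) (XT.nd (nat_lit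 234) (nat_lit 912) (nat_lit 0) (XT.nd (nat_lit 78) (nat_lit 684) (nat_lit 0) (XT.lf (nat_lit 76) (nat_lit 43426104) (nat_lit 0) (nat_lit 1464538655) (nat_lit 380) (nat_lit 159882870) (nat_lit 267) (nat_lit 1) (nat_lit 266) (nat_lit 1) (nat_lit 271) (nat_lit 1) (nat_lit 364) (nat_lit 334) (nat_lit 322)) (XT.nd (nat_lit 78) (nat_lit 304) (nat_lit 0) (XT.lf (nat_lit 76) (nat_lit 1121273271) (nat_lit 0) (nat_lit 185975169) (nat_lit 380) (nat_lit 306706830) (nat_lit 262) (nat_lit 1) (nat_lit 261) (nat_lit 1) (nat_lit 266) (nat_lit 1) (nat_lit 365) (nat_lit 334) (nat_lit 321)) (XT.lf (nat_lit 76) (nat_lit 561001431) (nat_lit 0) (nat_lit 569674958) (nat_lit 380) (nat_lit 431767762) (nat_lit 258) (nat_lit 1) (nat_lit 257) (nat_lit 1) (nat_lit 262) (nat_lit 1) (nat_lit 366) (nat_lit 334) (nat_lit 320)))) (XT.nd (nat_lit 78) (nat_lit 608) (nat_lit 0) (XT.lf (nat_lit 76) (nat_lit 27689786) (nat_lit 0) (nat_lit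 952487684) (nat_lit 380) (nat_lit 533194443) (nat_lit 254) (nat_lit 1) (nat_lit 253) (nat_lit 1) (nat_lit 258) (nat_lit 1) (nat_lit 367) (nat_lit 334) (nat_lit 319)) (XT.nd (nat_lit 78) (nat_lit 380) (nat_lit 0) (XT.lf (nat_lit 304) (nat_lit 125045516) (nat_lit 0) (nat_lit 845622969) (nat_lit 228) (nat_lit 495554494) (nat_lit 254) (nat_lit 1) (nat_lit 250) (nat_lit 1) (nat_lit 253) (nat_lit 1) (nat_lit 368) (nat_lit 334) (nat_lit 318)) (XT.lf (nat_lit 76) (nat_lit 432065877) (nat_lit 0) (nat_lit 296140637) (nat_lit 380) (nat_lit 692815338) (nat_lit 246) (nat_lit 1) (nat_lit 245) (nat_lit 1) (nat_lit 250) (nat_lit 1) (nat_lit 369) (nat_lit 334) (nat_lit 317))))) (XT.nd (nat_lit 234) (nat_lit 836) (nat_lit 0) (XT.nd (nat_lit 78) (nat_lit 532) (nat_lit 0) (XT.lf (nat_lit 304) (nat_lit 668941903) (nat_lit 0) (nat_lit 628384459) (nat_lit 228) (nat_lit 80432465) (nat_lit 246) (nat_lit 1) (nat_lit 242)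 (nat_lit 1) (nat_lit 245) (nat_lit 1) (nat_lit 370) (nat_lit 334) (nat_lit 316)) (XT.nd (nat_lit 78) (nat_lit 304) (nat_lit 0) (XT.lf (nat_lit 304) (nat_lit 214392648) (nat_lit 0) (nat_lit 541013287) (nat_lit 228) (nat_lit 580752478) (nat_lit 243) (nat_lit 1) (nat_lit 239) (nat_lit 1) (nat_lit 242) (nat_lit 1) (nat_lit 371) (nat_lit 334) (nat_lit 315)) (XT.lf (nat_lit 76) (nat_lit 244355815) (nat_lit 0) (nat_lit 223728983) (nat_lit 304) (nat_lit 828200945) (nat_lit 236) (nat_lit 1) (nat_lit 235) (nat_lit 1) (nat_lit 239) (nat_lit 1) (nat_lit 372) (nat_lit 334) (nat_lit 314)))) (XT.nd (nat_lit 156) (nat_lit 456) (nat_lit 0) (XT.nd (nat_lit 78) (nat_lit 152) (nat_lit 0) (XT.lf (nat_lit 304) (nat_lit 608047374) (nat_lit 0) (nat_lit 404572190) (nat_lit 228) (nat_lit 245252991) (nat_lit 236) (nat_lit 1) (nat_lit 232) (nat_lit 1) (nat_lit 235) (nat_lit 1) (nat_lit 373) (nat_lit 334) (nat_lit 313))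 (XT.lf (nat_lit 228) (nat_lit 150735841) (nat_lit 0) (nat_lit 352959726) (nat_lit 152) (nat_lit 717313495) (nat_lit 233) (nat_lit 1) (nat_lit 230) (nat_lit 1) (nat_lit 232) (nat_lit 1) (nat_lit 374) (nat_lit 334) (nat_lit 312))) (XT.nd (nat_lit 78) (nat_lit 152) (nat_lit 0) (XT.lf (nat_lit 76) (nat_lit 25535614) (nat_lit 0) (nat_lit 285749071) (nat_lit 304) (nat_lit 874289811) (nat_lit 227) (nat_lit 1) (nat_lit 226) (nat_lit 1) (nat_lit 230) (nat_lit 1) (nat_lit 375) (nat_lit 334) (nat_lit 311)) (XT.lf (nat_lit 228) (nat_lit 438010698) (nat_lit 0) (nat_lit 273719109) (nat_lit 152) (nat_lit 439534980) (nat_lit 227) (nat_lit 1) (nat_lit 224) (nat_lit 1) (nat_lit 226) (nat_lit 1) (nat_lit 376) (nat_lit 334) (nat_lit 310)))))) (XT.nd (nat_lit 546) (nat_lit 988) (nat_lit 0) (XT.nd (nat_lit 234) (nat_lit 684) (nat_lit 0) (XT.nd (nat_lit 78) (nat_lit 304) (nat_lit 0) (XT.lf (nat_lit 76) (nat_lit 237646300)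 (nat_lit 0) (nat_lit 10977031) (nat_lit 228) (nat_lit 869828903) (nat_lit 222) (nat_lit 1) (nat_lit 221) (nat_lit 1) (nat_lit 224) (nat_lit 1) (nat_lit 377) (nat_lit 334) (nat_lit 309)) (XT.nd (nat_lit 78) (nat_lit 152) (nat_lit 0) (XT.lf (nat_lit 228) (nat_lit 649679094) (nat_lit 0) (nat_lit 225128373) (nat_lit 152) (nat_lit 211786709) (nat_lit 222) (nat_lit 1) (nat_lit 219) (nat_lit 1) (nat_lit 221) (nat_lit 1) (nat_lit 378) (nat_lit 334) (nat_lit 308)) (XT.lf (nat_lit 228) (nat_lit 201816361) (nat_lit 0) (nat_lit 209281718) (nat_lit 152) (nat_lit 644856112) (nat_lit 220) (nat_lit 1) (nat_lit 217) (nat_lit 1) (nat_lit 219) (nat_lit 1) (nat_lit 379) (nat_lit 334) (nat_lit 307)))) (XT.nd (nat_lit 156) (nat_lit 304) (nat_lit 0) (XT.nd (nat_lit 78) (nat_lit 152) (nat_lit 0) (XT.lf (nat_lit 228) (nat_lit 801136784) (nat_lit 0) (nat_lit 199951695) (nat_lit 152) (nat_lit 25366192) (nat_lit 217) (nat_lit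 1) (nat_lit 214) (nat_lit 1) (nat_lit 216) (nat_lit 1) (nat_lit 380) (nat_lit 334) (nat_lit 306)) (XT.lf (nat_lit 228) (nat_lit 358551695) (nat_lit 0) (nat_lit 190886455) (nat_lit 152) (nat_lit 448336699) (nat_lit 215) (nat_lit 1) (nat_lit 212) (nat_lit 1) (nat_lit 214) (nat_lit 1) (nat_lit 381) (nat_lit 334) (nat_lit 305))) (XT.nd (nat_lit 78) (nat_lit 152) (nat_lit 0) (XT.lf (nat_lit 76) (nat_lit 122817798) (nat_lit 0) (nat_lit 67506196) (nat_lit 152) (nat_lit 779960598) (nat_lit 211) (nat_lit 1) (nat_lit 210) (nat_lit 1) (nat_lit 212) (nat_lit 1) (nat_lit 382) (nat_lit 334) (nat_lit 304)) (XT.lf (nat_lit 228) (nat_lit 470440444) (nat_lit 0) (nat_lit 188308676) (nat_lit 152) (nat_lit 284738907) (nat_lit 211) (nat_lit 1) (nat_lit 208) (nat_lit 1) (nat_lit 210) (nat_lit 1) (nat_lit 383) (nat_lit 334) (nat_lit 303))))) (XT.nd (nat_lit 234) (nat_lit 608) (nat_lit 0) (XT.nd (nat_lit 78) (nat_lit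 304) (nat_lit 0) (XT.lf (nat_lit 152) (nat_lit 50659751) (nat_lit 0) (nat_lit 192933780) (nat_lit 76) (nat_lit 674155824) (nat_lit 209) (nat_lit 1) (nat_lit 207) (nat_lit 1) (nat_lit 208) (nat_lit 1) (nat_lit 384) (nat_lit 334) (nat_lit 302)) (XT.nd (nat_lit 78) (nat_lit 76) (nat_lit 0) (XT.lf (nat_lit 228) (nat_lit 546853308) (nat_lit 0) (nat_lit 197319772) (nat_lit 152) (nat_lit 148547296) (nat_lit 207) (nat_lit 1) (nat_lit 204) (nat_lit 1) (nat_lit 206) (nat_lit 1) (nat_lit 385) (nat_lit 334) (nat_lit 301)) (XT.lf (nat_lit 152) (nat_lit 137537639) (nat_lit 0) (nat_lit 204697757) (nat_lit 76) (nat_lit 526299530) (nat_lit 205) (nat_lit 1) (nat_lit 203) (nat_lit 1) (nat_lit 204) (nat_lit 1) (nat_lit 386) (nat_lit 334) (nat_lit 300)))) (XT.nd (nat_lit 156) (nat_lit 304) (nat_lit 0) (XT.nd (nat_lit 78) (nat_lit 76) (nat_lit 0) (XT.lf (nat_lit 228) (nat_lit 595366617) (nat_lit 0) (nat_lit 214570391)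 (nat_lit 152) (nat_lit 35212838) (nat_lit 203) (nat_lit 1) (nat_lit 200) (nat_lit 1) (nat_lit 202) (nat_lit 1) (nat_lit 387) (nat_lit 334) (nat_lit 299)) (XT.lf (nat_lit 152) (nat_lit 197935532) (nat_lit 0) (nat_lit 223692211) (nat_lit 76) (nat_lit 400763914) (nat_lit 201) (nat_lit 1) (nat_lit 199) (nat_lit 1) (nat_lit 200) (nat_lit 1) (nat_lit 388) (nat_lit 334) (nat_lit 298))) (XT.nd (nat_lit 78) (nat_lit 76) (nat_lit 0) (XT.lf (nat_lit 76) (nat_lit 57132071) (nat_lit 0) (nat_lit 179322344) (nat_lit 228) (nat_lit 563996642) (nat_lit 197) (nat_lit 1) (nat_lit 196) (nat_lit 1) (nat_lit 199) (nat_lit 1) (nat_lit 389) (nat_lit 334) (nat_lit 297)) (XT.lf (nat_lit 152) (nat_lit 237540497) (nat_lit 0) (nat_lit 247505939) (nat_lit 76) (nat_lit 294008903) (nat_lit 197) (nat_lit 1) (nat_lit 195) (nat_lit 1) (nat_lit 196) (nat_lit 1) (nat_lit 390) (nat_lit 334) (nat_lit 296))))))))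
noncomputable def ec18 : XT := (XT.nd (nat_lit 2028) (nat_lit 152) (nat_lit 0) (XT.nd (nat_lit 1014) (nat_lit 1520) (nat_lit 0) (XT.nd (nat_lit 468) (nat_lit 836) (nat_lit 0) (XT.nd (nat_lit 234) (nat_lit 304) (nat_lit 0) (XT.nd (nat_lit 78) (nat_lit 228) (nat_lit 0) (XT.lf (nat_lit 76) (nat_lit 132867925) (nat_lit 0) (nat_lit 128691570) (nat_lit 228) (nat_lit 496852023) (nat_lit 193) (nat_lit 1) (nat_lit 192) (nat_lit 1) (nat_lit 195) (nat_lit 1) (nat_lit 391) (nat_lit 334) (nat_lit 295)) (XT.nd (nat_lit 78) (nat_lit 152) (nat_lit 0) (XT.lf (nat_lit 152) (nat_lit 260938769) (nat_lit 0) (nat_lit 274256726) (nat_lit 76) (nat_lit 203099645) (nat_lit 193) (nat_lit 1) (nat_lit 191) (nat_lit 1) (nat_lit 192) (nat_lit 1) (nat_lit 392) (nat_lit 334) (nat_lit 294)) (XT.lf (nat_lit 76) (nat_lit 195612311) (nat_lit 0) (nat_lit 93205766) (nat_lit 152) (nat_lit 430025036) (nat_lit 190) (nat_lit 1) (nat_lit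 189) (nat_lit 1) (nat_lit 191) (nat_lit 1) (nat_lit 393) (nat_lit 334) (nat_lit 293)))) (XT.nd (nat_lit 78) (nat_lit 228) (nat_lit 0) (XT.lf (nat_lit 152) (nat_lit 271821449) (nat_lit 0) (nat_lit 302488247) (nat_lit 76) (nat_lit 125598547) (nat_lit 190) (nat_lit 1) (nat_lit 188) (nat_lit 1) (nat_lit 189) (nat_lit 1) (nat_lit 394) (nat_lit 334) (nat_lit 292)) (XT.nd (nat_lit 78) (nat_lit 76) (nat_lit 0) (XT.lf (nat_lit 76) (nat_lit 247431386) (nat_lit 0) (nat_lit 69532716) (nat_lit 152) (nat_lit 364591689) (nat_lit 187) (nat_lit 1) (nat_lit 186) (nat_lit 1) (nat_lit 188) (nat_lit 1) (nat_lit 395) (nat_lit 334) (nat_lit 291)) (XT.lf (nat_lit 152) (nat_lit 273152229) (nat_lit 0) (nat_lit 331086278) (nat_lit 76) (nat_lit 59476928) (nat_lit 187) (nat_lit 1) (nat_lit 185) (nat_lit 1) (nat_lit 186) (nat_lit 1) (nat_lit 396) (nat_lit 334) (nat_lit 290))))) (XT.nd (nat_lit 234) (nat_lit 456) (nat_lit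 0) (XT.nd (nat_lit 78) (nat_lit 228) (nat_lit 0) (XT.lf (nat_lit 76) (nat_lit 290042358) (nat_lit 0) (nat_lit 54993013) (nat_lit 152) (nat_lit 301345712) (nat_lit 184) (nat_lit 1) (nat_lit 183) (nat_lit 1) (nat_lit 185) (nat_lit 1) (nat_lit 397) (nat_lit 334) (nat_lit 289)) (XT.nd (nat_lit 78) (nat_lit 152) (nat_lit 0) (XT.lf (nat_lit 152) (nat_lit 267304124) (nat_lit 0) (nat_lit 359210650) (nat_lit 76) (nat_lit 3042688) (nat_lit 184) (nat_lit 1) (nat_lit 182) (nat_lit 1) (nat_lit 183) (nat_lit 1) (nat_lit 398) (nat_lit 334) (nat_lit 288)) (XT.lf (nat_lit 76) (nat_lit 324875252) (nat_lit 0) (nat_lit 47437473) (nat_lit 152) (nat_lit 240856084) (nat_lit 181) (nat_lit 1) (nat_lit 180) (nat_lit 1) (nat_lit 182) (nat_lit 1) (nat_lit 399) (nat_lit 334) (nat_lit 287)))) (XT.nd (nat_lit 156) (nat_lit 228) (nat_lit 0) (XT.nd (nat_lit 78) (nat_lit 152) (nat_lit 0) (XT.lf (nat_lit 0) (nat_lit 43674834)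 (nat_lit 0) (nat_lit 341825543) (nat_lit 152) (nat_lit 211756425) (nat_lit 179) (nat_lit 3) (nat_lit 179) (nat_lit 1) (nat_lit 181) (nat_lit 1) (nat_lit 400) (nat_lit 334) (nat_lit 286)) (XT.lf (nat_lit 76) (nat_lit 353123499) (nat_lit 0) (nat_lit 45147238) (nat_lit 152) (nat_lit 183513632) (nat_lit 178) (nat_lit 1) (nat_lit 177) (nat_lit 1) (nat_lit 179) (nat_lit 1) (nat_lit 401) (nat_lit 334) (nat_lit 285))) (XT.nd (nat_lit 78) (nat_lit 152) (nat_lit 0) (XT.lf (nat_lit 0) (nat_lit 83435091) (nat_lit 0) (nat_lit 326879070) (nat_lit 152) (nat_lit 156409841) (nat_lit 176) (nat_lit 3) (nat_lit 176) (nat_lit 1) (nat_lit 178) (nat_lit 1) (nat_lit 402) (nat_lit 334) (nat_lit 284)) (XT.lf (nat_lit 76) (nat_lit 375785380) (nat_lit 0) (nat_lit 46752364) (nat_lit 152) (nat_lit 129568744) (nat_lit 175) (nat_lit 1) (nat_lit 174) (nat_lit 1) (nat_lit 176) (nat_lit 1) (nat_lit 403) (nat_lit 334) (nat_lit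 283)))))) (XT.nd (nat_lit 468) (nat_lit 760) (nat_lit 0) (XT.nd (nat_lit 234) (nat_lit 456) (nat_lit 0) (XT.nd (nat_lit 78) (nat_lit 228) (nat_lit 0) (XT.lf (nat_lit 0) (nat_lit 117300453) (nat_lit 0) (nat_lit 316075665) (nat_lit 152) (nat_lit 104469103) (nat_lit 173) (nat_lit 3) (nat_lit 173) (nat_lit 1) (nat_lit 175) (nat_lit 1) (nat_lit 404) (nat_lit 334) (nat_lit 282)) (XT.nd (nat_lit 78) (nat_lit 76) (nat_lit 0) (XT.lf (nat_lit 76) (nat_lit 393698004) (nat_lit 0) (nat_lit 51165506) (nat_lit 152) (nat_lit 79161834) (nat_lit 172) (nat_lit 1) (nat_lit 171) (nat_lit 1) (nat_lit 173) (nat_lit 1) (nat_lit 405) (nat_lit 334) (nat_lit 281)) (XT.lf (nat_lit 0) (nat_lit 146084499) (nat_lit 0) (nat_lit 308387077) (nat_lit 152) (nat_lit 56043479) (nat_lit 170) (nat_lit 3) (nat_lit 170) (nat_lit 1) (nat_lit 172) (nat_lit 1) (nat_lit 406) (nat_lit 334) (nat_lit 280)))) (XT.nd (nat_lit 78) (nat_lit 304)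 (nat_lit 0) (XT.lf (nat_lit 76) (nat_lit 407565178) (nat_lit 0) (nat_lit 57527924) (nat_lit 152) (nat_lit 32347919) (nat_lit 169) (nat_lit 1) (nat_lit 168) (nat_lit 1) (nat_lit 170) (nat_lit 1) (nat_lit 407) (nat_lit 334) (nat_lit 279)) (XT.nd (nat_lit 78) (nat_lit 228) (nat_lit 0) (XT.lf (nat_lit 0) (nat_lit 170475326) (nat_lit 0) (nat_lit 302997517) (nat_lit 152) (nat_lit 11164610) (nat_lit 167) (nat_lit 3) (nat_lit 167) (nat_lit 1) (nat_lit 169) (nat_lit 1) (nat_lit 408) (nat_lit 334) (nat_lit 278)) (XT.lf (nat_lit 152) (nat_lit 406912361) (nat_lit 0) (nat_lit 11243458) (nat_lit 76) (nat_lit 54097610) (nat_lit 166) (nat_lit 1) (nat_lit 164) (nat_lit 1) (nat_lit 165) (nat_lit 1) (nat_lit 409) (nat_lit 334) (nat_lit 277))))) (XT.nd (nat_lit 234) (nat_lit 456) (nat_lit 0) (XT.nd (nat_lit 78) (nat_lit 228) (nat_lit 0) (XT.lf (nat_lit 76) (nat_lit 160350196) (nat_lit 0) (nat_lit 31193653) (nat_lit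 76) (nat_lit 268556309) (nat_lit 164) (nat_lit 3) (nat_lit 163) (nat_lit 1) (nat_lit 164) (nat_lit 1) (nat_lit 410) (nat_lit 334) (nat_lit 276)) (XT.nd (nat_lit 78) (nat_lit 76) (nat_lit 0) (XT.lf (nat_lit 152) (nat_lit 373995170) (nat_lit 0) (nat_lit 52265872) (nat_lit 76) (nat_lit 22103258) (nat_lit 163) (nat_lit 1) (nat_lit 161) (nat_lit 1) (nat_lit 162) (nat_lit 1) (nat_lit 411) (nat_lit 334) (nat_lit 275)) (XT.lf (nat_lit 76) (nat_lit 139064078) (nat_lit 0) (nat_lit 70360655) (nat_lit 76) (nat_lit 227415794) (nat_lit 161) (nat_lit 3) (nat_lit 160) (nat_lit 1) (nat_lit 161) (nat_lit 1) (nat_lit 412) (nat_lit 334) (nat_lit 274)))) (XT.nd (nat_lit 156) (nat_lit 228) (nat_lit 0) (XT.nd (nat_lit 78) (nat_lit 76) (nat_lit 0) (XT.lf (nat_lit 0) (nat_lit 5869663) (nat_lit 0) (nat_lit 83781229) (nat_lit 152) (nat_lit 336066828) (nat_lit 158) (nat_lit 3) (nat_lit 158) (nat_lit 1) (nat_lit 160) (nat_lit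 1) (nat_lit 413) (nat_lit 334) (nat_lit 273)) (XT.lf (nat_lit 76) (nat_lit 118288143) (nat_lit 0) (nat_lit 106076352) (nat_lit 76) (nat_lit 190428482) (nat_lit 158) (nat_lit 3) (nat_lit 157) (nat_lit 1) (nat_lit 158) (nat_lit 1) (nat_lit 414) (nat_lit 334) (nat_lit 272))) (XT.nd (nat_lit 78) (nat_lit 76) (nat_lit 0) (XT.lf (nat_lit 0) (nat_lit 29851822) (nat_lit 0) (nat_lit 93467641) (nat_lit 152) (nat_lit 280912902) (nat_lit 155) (nat_lit 3) (nat_lit 155) (nat_lit 1) (nat_lit 157) (nat_lit 1) (nat_lit 415) (nat_lit 334) (nat_lit 271)) (XT.lf (nat_lit 76) (nat_lit 98255269) (nat_lit 0) (nat_lit 138474397) (nat_lit 76) (nat_lit 157158805) (nat_lit 155) (nat_lit 3) (nat_lit 154) (nat_lit 1) (nat_lit 155) (nat_lit 1) (nat_lit 416) (nat_lit 334) (nat_lit 270))))))) (XT.nd (nat_lit 48828) (nat_lit 0) (nat_lit 5244) (XT.nd (nat_lit 48282) (nat_lit 0) (nat_lit 8664) (XT.nd (nat_lit 48048) (nat_lit 0)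 (nat_lit 10716) (XT.nd (nat_lit 47892) (nat_lit 0) (nat_lit 10640) (XT.lf (nat_lit 0) (nat_lit 50916132) (nat_lit 0) (nat_lit 102859285) (nat_lit 152) (nat_lit 230083495) (nat_lit 152) (nat_lit 3) (nat_lit 152) (nat_lit 1) (nat_lit 154) (nat_lit 1) (nat_lit 417) (nat_lit 334) (nat_lit 269)) (XT.nd (nat_lit 78) (nat_lit 0) (nat_lit 76) (XT.lf (nat_lit 836) (nat_lit 365705002) (nat_lit 0) (nat_lit 649308391) (nat_lit 836) (nat_lit 365705002) (nat_lit 303) (nat_lit 1) (nat_lit 292) (nat_lit 0) (nat_lit 303) (nat_lit 0) (nat_lit 350) (nat_lit 335) (nat_lit 335)) (XT.lf (nat_lit 836) (nat_lit 136419187) (nat_lit 0) (nat_lit 1274789163) (nat_lit 760) (nat_lit 1246739542) (nat_lit 304) (nat_lit 1) (nat_lit 293) (nat_lit 1) (nat_lit 303) (nat_lit 1) (nat_lit 351) (nat_lit 335) (nat_lit 334)))) (XT.nd (nat_lit 78) (nat_lit 0) (nat_lit 76) (XT.lf (nat_lit 836) (nat_lit 1252931494) (nat_lit 76) (nat_lit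 853726732) (nat_lit 0) (nat_lit 452777715) (nat_lit 304) (nat_lit 1) (nat_lit 294) (nat_lit 1) (nat_lit 293) (nat_lit 1) (nat_lit 352) (nat_lit 335) (nat_lit 333)) (XT.nd (nat_lit 78) (nat_lit 0) (nat_lit 76) (XT.lf (nat_lit 836) (nat_lit 1082635452) (nat_lit 76) (nat_lit 357790956) (nat_lit 0) (nat_lit 1025427369) (nat_lit 305) (nat_lit 1) (nat_lit 295) (nat_lit 1) (nat_lit 294) (nat_lit 1) (nat_lit 353) (nat_lit 335) (nat_lit 332)) (XT.lf (nat_lit 836) (nat_lit 801242277) (nat_lit 0) (nat_lit 1499086427) (nat_lit 760) (nat_lit 76633084) (nat_lit 306) (nat_lit 1) (nat_lit 295) (nat_lit 1) (nat_lit 305) (nat_lit 1) (nat_lit 354) (nat_lit 335) (nat_lit 331))))) (XT.nd (nat_lit 234) (nat_lit 1596) (nat_lit 0) (XT.nd (nat_lit 78) (nat_lit 684) (nat_lit 0) (XT.lf (nat_lit 836) (nat_lit 192250228) (nat_lit 0) (nat_lit 1653159248) (nat_lit 760) (nat_lit 446905537) (nat_lit 307) (nat_lit 1) (nat_lit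 296) (nat_lit 1) (nat_lit 306) (nat_lit 1) (nat_lit 355) (nat_lit 335) (nat_lit 330)) (XT.nd (nat_lit 78) (nat_lit 684) (nat_lit 0) (XT.lf (nat_lit 836) (nat_lit 369426744) (nat_lit 76) (nat_lit 1436730009) (nat_lit 0) (nat_lit 405462934) (nat_lit 307) (nat_lit 1) (nat_lit 297) (nat_lit 1) (nat_lit 296) (nat_lit 1) (nat_lit 356) (nat_lit 335) (nat_lit 329)) (XT.lf (nat_lit 836) (nat_lit 75871829) (nat_lit 0) (nat_lit 1074050718) (nat_lit 760) (nat_lit 984893255) (nat_lit 298) (nat_lit 1) (nat_lit 287) (nat_lit 1) (nat_lit 297) (nat_lit 1) (nat_lit 357) (nat_lit 335) (nat_lit 328)))) (XT.nd (nat_lit 156) (nat_lit 684) (nat_lit 0) (XT.nd (nat_lit 78) (nat_lit 380) (nat_lit 0) (XT.lf (nat_lit 76) (nat_lit 525352350) (nat_lit 0) (nat_lit 227659621) (nat_lit 532) (nat_lit 1308636534) (nat_lit 281) (nat_lit 1) (nat_lit 280) (nat_lit 1) (nat_lit 287) (nat_lit 1) (nat_lit 358) (nat_lit 335) (nat_lit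 327)) (XT.lf (nat_lit 456) (nat_lit 1447804953) (nat_lit 0) (nat_lit 471291724) (nat_lit 380) (nat_lit 72864612) (nat_lit 281) (nat_lit 1) (nat_lit 275) (nat_lit 1) (nat_lit 280) (nat_lit 1) (nat_lit 359) (nat_lit 335) (nat_lit 326))) (XT.nd (nat_lit 78) (nat_lit 304) (nat_lit 0) (XT.lf (nat_lit 456) (nat_lit 1044749841) (nat_lit 0) (nat_lit 219671102) (nat_lit 380) (nat_lit 660849555) (nat_lit 276) (nat_lit 1) (nat_lit 270) (nat_lit 1) (nat_lit 275) (nat_lit 1) (nat_lit 360) (nat_lit 335) (nat_lit 325)) (XT.lf (nat_lit 380) (nat_lit 635716953) (nat_lit 0) (nat_lit 4044501) (nat_lit 304) (nat_lit 1222051944) (nat_lit 271) (nat_lit 1) (nat_lit 266) (nat_lit 1) (nat_lit 270) (nat_lit 1) (nat_lit 361) (nat_lit 335) (nat_lit 324)))))) (XT.nd (nat_lit 546) (nat_lit 1596) (nat_lit 0) (XT.nd (nat_lit 234) (nat_lit 1140) (nat_lit 0) (XT.nd (nat_lit 78) (nat_lit 684) (nat_lit 0) (XT.lf (nat_lit 76) (nat_lit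 46900192) (nat_lit 0) (nat_lit 1581701748) (nat_lit 380) (nat_lit 172673500) (nat_lit 267) (nat_lit 1) (nat_lit 266) (nat_lit 1) (nat_lit 271) (nat_lit 1) (nat_lit 362) (nat_lit 335) (nat_lit 323)) (XT.nd (nat_lit 78) (nat_lit 304) (nat_lit 0) (XT.lf (nat_lit 76) (nat_lit 1210975133) (nat_lit 0) (nat_lit 200853183) (nat_lit 380) (nat_lit 331243376) (nat_lit 262) (nat_lit 1) (nat_lit 261) (nat_lit 1) (nat_lit 266) (nat_lit 1) (nat_lit 363) (nat_lit 335) (nat_lit 322)) (XT.lf (nat_lit 76) (nat_lit 605881546) (nat_lit 0) (nat_lit 615248955) (nat_lit 380) (nat_lit 466309183) (nat_lit 258) (nat_lit 1) (nat_lit 257) (nat_lit 1) (nat_lit 262) (nat_lit 1) (nat_lit 364) (nat_lit 335) (nat_lit 321)))) (XT.nd (nat_lit 156) (nat_lit 608) (nat_lit 0) (XT.nd (nat_lit 78) (nat_lit 228) (nat_lit 0) (XT.lf (nat_lit 76) (nat_lit 29904969) (nat_lit 0) (nat_lit 1028686699) (nat_lit 380) (nat_lit 575849999) (nat_lit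 254) (nat_lit 1) (nat_lit 253) (nat_lit 1) (nat_lit 258) (nat_lit 1) (nat_lit 365) (nat_lit 335) (nat_lit 320)) (XT.lf (nat_lit 304) (nat_lit 135049157) (nat_lit 0) (nat_lit 913272806) (nat_lit 228) (nat_lit 535198854) (nat_lit 254) (nat_lit 1) (nat_lit 250) (nat_lit 1) (nat_lit 253) (nat_lit 1) (nat_lit 366) (nat_lit 335) (nat_lit 319))) (XT.nd (nat_lit 78) (nat_lit 228) (nat_lit 0) (XT.lf (nat_lit 76) (nat_lit 466631147) (nat_lit 0) (nat_lit 319831888) (nat_lit 380) (nat_lit 748240565) (nat_lit 246) (nat_lit 1) (nat_lit 245) (nat_lit 1) (nat_lit 250) (nat_lit 1) (nat_lit 367) (nat_lit 335) (nat_lit 318)) (XT.lf (nat_lit 304) (nat_lit 722457256) (nat_lit 0) (nat_lit 678655216) (nat_lit 228) (nat_lit 86867062) (nat_lit 246) (nat_lit 1) (nat_lit 242) (nat_lit 1) (nat_lit 245) (nat_lit 1) (nat_lit 368) (nat_lit 335) (nat_lit 317))))) (XT.nd (nat_lit 234) (nat_lit 836) (nat_lit 0) (XT.nd (nat_lit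 78) (nat_lit 532) (nat_lit 0) (XT.lf (nat_lit 304) (nat_lit 231544060) (nat_lit 0) (nat_lit 584294350) (nat_lit 228) (nat_lit 627212676) (nat_lit 243) (nat_lit 1) (nat_lit 239) (nat_lit 1) (nat_lit 242) (nat_lit 1) (nat_lit 369) (nat_lit 335) (nat_lit 316)) (XT.nd (nat_lit 78) (nat_lit 228) (nat_lit 0) (XT.lf (nat_lit 76) (nat_lit 263904280) (nat_lit 0) (nat_lit 241627302) (nat_lit 304) (nat_lit 894457020) (nat_lit 236) (nat_lit 1) (nat_lit 235) (nat_lit 1) (nat_lit 239) (nat_lit 1) (nat_lit 370) (nat_lit 335) (nat_lit 315)) (XT.lf (nat_lit 304) (nat_lit 656691164) (nat_lit 0) (nat_lit 436937965) (nat_lit 228) (nat_lit 264873231) (nat_lit 236) (nat_lit 1) (nat_lit 232) (nat_lit 1) (nat_lit 235) (nat_lit 1) (nat_lit 371) (nat_lit 335) (nat_lit 314)))) (XT.nd (nat_lit 156) (nat_lit 380) (nat_lit 0) (XT.nd (nat_lit 78) (nat_lit 304) (nat_lit 0) (XT.lf (nat_lit 228) (nat_lit 162794709) (nat_lit 0)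 (nat_lit 381196504) (nat_lit 152) (nat_lit 774698575) (nat_lit 233) (nat_lit 1) (nat_lit 230) (nat_lit 1) (nat_lit 232) (nat_lit 1) (nat_lit 372) (nat_lit 335) (nat_lit 313)) (XT.lf (nat_lit 76) (nat_lit 27578463) (nat_lit 0) (nat_lit 308608996) (nat_lit 304) (nat_lit 944232996) (nat_lit 227) (nat_lit 1) (nat_lit 226) (nat_lit 1) (nat_lit 230) (nat_lit 1) (nat_lit 373) (nat_lit 335) (nat_lit 312))) (XT.nd (nat_lit 78) (nat_lit 228) (nat_lit 0) (XT.lf (nat_lit 228) (nat_lit 473051554) (nat_lit 0) (nat_lit 295616638) (nat_lit 152) (nat_lit 474697778) (nat_lit 227) (nat_lit 1) (nat_lit 224) (nat_lit 1) (nat_lit 226) (nat_lit 1) (nat_lit 374) (nat_lit 335) (nat_lit 311)) (XT.lf (nat_lit 76) (nat_lit 256658004) (nat_lit 0) (nat_lit 11855194) (nat_lit 228) (nat_lit 939415216) (nat_lit 222) (nat_lit 1) (nat_lit 221) (nat_lit 1) (nat_lit 224) (nat_lit 1) (nat_lit 375) (nat_lit 335) (nat_lit 310))))))))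
noncomputable def ec19 : XT := (XT.nd (nat_lit 2106) (nat_lit 1824) (nat_lit 0) (XT.nd (nat_lit 1014) (nat_lit 1672) (nat_lit 0) (XT.nd (nat_lit 468) (nat_lit 988) (nat_lit 0) (XT.nd (nat_lit 234) (nat_lit 456) (nat_lit 0) (XT.nd (nat_lit 78) (nat_lit 380) (nat_lit 0) (XT.lf (nat_lit 228) (nat_lit 701653422) (nat_lit 0) (nat_lit 243138643) (nat_lit 152) (nat_lit 228729646) (nat_lit 222) (nat_lit 1) (nat_lit 219) (nat_lit 1) (nat_lit 221) (nat_lit 1) (nat_lit 376) (nat_lit 335) (nat_lit 309)) (XT.nd (nat_lit 78) (nat_lit 228) (nat_lit 0) (XT.lf (nat_lit 228) (nat_lit 217961670) (nat_lit 0) (nat_lit 226024255) (nat_lit 152) (nat_lit 696444601) (nat_lit 220) (nat_lit 1) (nat_lit 217) (nat_lit 1) (nat_lit 219) (nat_lit 1) (nat_lit 377) (nat_lit 335) (nat_lit 308)) (XT.lf (nat_lit 228) (nat_lit 865227727) (nat_lit 0) (nat_lit 215947830) (nat_lit 152) (nat_lit 27395487) (nat_lit 217) (nat_lit 1) (nat_lit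 214) (nat_lit 1) (nat_lit 216) (nat_lit 1) (nat_lit 378) (nat_lit 335) (nat_lit 307)))) (XT.nd (nat_lit 78) (nat_lit 304) (nat_lit 0) (XT.lf (nat_lit 228) (nat_lit 387235830) (nat_lit 0) (nat_lit 206157372) (nat_lit 152) (nat_lit 484203635) (nat_lit 215) (nat_lit 1) (nat_lit 212) (nat_lit 1) (nat_lit 214) (nat_lit 1) (nat_lit 379) (nat_lit 335) (nat_lit 306)) (XT.nd (nat_lit 78) (nat_lit 152) (nat_lit 0) (XT.lf (nat_lit 76) (nat_lit 132643222) (nat_lit 0) (nat_lit 72906692) (nat_lit 152) (nat_lit 842357446) (nat_lit 211) (nat_lit 1) (nat_lit 210) (nat_lit 1) (nat_lit 212) (nat_lit 1) (nat_lit 380) (nat_lit 335) (nat_lit 305)) (XT.lf (nat_lit 228) (nat_lit 508075680) (nat_lit 0) (nat_lit 203373370) (nat_lit 152) (nat_lit 307518019) (nat_lit 211) (nat_lit 1) (nat_lit 208) (nat_lit 1) (nat_lit 210) (nat_lit 1) (nat_lit 381) (nat_lit 335) (nat_lit 304))))) (XT.nd (nat_lit 234) (nat_lit 608) (nat_lit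 0) (XT.nd (nat_lit 78) (nat_lit 304) (nat_lit 0) (XT.lf (nat_lit 152) (nat_lit 54712531) (nat_lit 0) (nat_lit 208368483) (nat_lit 76) (nat_lit 728088290) (nat_lit 209) (nat_lit 1) (nat_lit 207) (nat_lit 1) (nat_lit 208) (nat_lit 1) (nat_lit 382) (nat_lit 335) (nat_lit 303)) (XT.nd (nat_lit 78) (nat_lit 76) (nat_lit 0) (XT.lf (nat_lit 228) (nat_lit 590601573) (nat_lit 0) (nat_lit 213105354) (nat_lit 152) (nat_lit 160431080) (nat_lit 207) (nat_lit 1) (nat_lit 204) (nat_lit 1) (nat_lit 206) (nat_lit 1) (nat_lit 383) (nat_lit 335) (nat_lit 302)) (XT.lf (nat_lit 152) (nat_lit 148540650) (nat_lit 0) (nat_lit 221073578) (nat_lit 76) (nat_lit 568403492) (nat_lit 205) (nat_lit 1) (nat_lit 203) (nat_lit 1) (nat_lit 204) (nat_lit 1) (nat_lit 384) (nat_lit 335) (nat_lit 301)))) (XT.nd (nat_lit 156) (nat_lit 304) (nat_lit 0) (XT.nd (nat_lit 78) (nat_lit 76) (nat_lit 0) (XT.lf (nat_lit 228) (nat_lit 642995947)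 (nat_lit 0) (nat_lit 231736022) (nat_lit 152) (nat_lit 38029865) (nat_lit 203) (nat_lit 1) (nat_lit 200) (nat_lit 1) (nat_lit 202) (nat_lit 1) (nat_lit 385) (nat_lit 335) (nat_lit 300)) (XT.lf (nat_lit 152) (nat_lit 213770375) (nat_lit 0) (nat_lit 241587587) (nat_lit 76) (nat_lit 432825027) (nat_lit 201) (nat_lit 1) (nat_lit 199) (nat_lit 1) (nat_lit 200) (nat_lit 1) (nat_lit 386) (nat_lit 335) (nat_lit 299))) (XT.nd (nat_lit 78) (nat_lit 76) (nat_lit 0) (XT.lf (nat_lit 76) (nat_lit 61702637) (nat_lit 0) (nat_lit 193668131) (nat_lit 228) (nat_lit 609116373) (nat_lit 197) (nat_lit 1) (nat_lit 196) (nat_lit 1) (nat_lit 199) (nat_lit 1) (nat_lit 387) (nat_lit 335) (nat_lit 298)) (XT.lf (nat_lit 152) (nat_lit 256543737) (nat_lit 0) (nat_lit 267306414) (nat_lit 76) (nat_lit 317529616) (nat_lit 197) (nat_lit 1) (nat_lit 195) (nat_lit 1) (nat_lit 196) (nat_lit 1) (nat_lit 388) (nat_lit 335) (nat_lit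 297)))))) (XT.nd (nat_lit 546) (nat_lit 760) (nat_lit 0) (XT.nd (nat_lit 234) (nat_lit 456) (nat_lit 0) (XT.nd (nat_lit 78) (nat_lit 228) (nat_lit 0) (XT.lf (nat_lit 76) (nat_lit 143497359) (nat_lit 0) (nat_lit 138986896) (nat_lit 228) (nat_lit 536600185) (nat_lit 193) (nat_lit 1) (nat_lit 192) (nat_lit 1) (nat_lit 195) (nat_lit 1) (nat_lit 389) (nat_lit 335) (nat_lit 296)) (XT.nd (nat_lit 78) (nat_lit 152) (nat_lit 0) (XT.lf (nat_lit 152) (nat_lit 281813870) (nat_lit 0) (nat_lit 296197264) (nat_lit 76) (nat_lit 219347617) (nat_lit 193) (nat_lit 1) (nat_lit 191) (nat_lit 1) (nat_lit 192) (nat_lit 1) (nat_lit 390) (nat_lit 335) (nat_lit 295)) (XT.lf (nat_lit 76) (nat_lit 211261296) (nat_lit 0) (nat_lit 100662227) (nat_lit 152) (nat_lit 464427039) (nat_lit 190) (nat_lit 1) (nat_lit 189) (nat_lit 1) (nat_lit 191) (nat_lit 1) (nat_lit 391) (nat_lit 335) (nat_lit 294)))) (XT.nd (nat_lit 156) (nat_lit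 228) (nat_lit 0) (XT.nd (nat_lit 78) (nat_lit 152) (nat_lit 0) (XT.lf (nat_lit 152) (nat_lit 293567165) (nat_lit 0) (nat_lit 326687307) (nat_lit 76) (nat_lit 135646431) (nat_lit 190) (nat_lit 1) (nat_lit 188) (nat_lit 1) (nat_lit 189) (nat_lit 1) (nat_lit 392) (nat_lit 335) (nat_lit 293)) (XT.lf (nat_lit 76) (nat_lit 267225896) (nat_lit 0) (nat_lit 75095334) (nat_lit 152) (nat_lit 393759024) (nat_lit 187) (nat_lit 1) (nat_lit 186) (nat_lit 1) (nat_lit 188) (nat_lit 1) (nat_lit 393) (nat_lit 335) (nat_lit 292))) (XT.nd (nat_lit 78) (nat_lit 152) (nat_lit 0) (XT.lf (nat_lit 152) (nat_lit 295004407) (nat_lit 0) (nat_lit 357573180) (nat_lit 76) (nat_lit 64235082) (nat_lit 187) (nat_lit 1) (nat_lit 185) (nat_lit 1) (nat_lit 186) (nat_lit 1) (nat_lit 394) (nat_lit 335) (nat_lit 291)) (XT.lf (nat_lit 76) (nat_lit 313245746) (nat_lit 0) (nat_lit 59392454) (nat_lit 152) (nat_lit 325453369) (nat_lit 184)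 (nat_lit 1) (nat_lit 183) (nat_lit 1) (nat_lit 185) (nat_lit 1) (nat_lit 395) (nat_lit 335) (nat_lit 290))))) (XT.nd (nat_lit 234) (nat_lit 456) (nat_lit 0) (XT.nd (nat_lit 78) (nat_lit 228) (nat_lit 0) (XT.lf (nat_lit 152) (nat_lit 288688454) (nat_lit 0) (nat_lit 387947502) (nat_lit 76) (nat_lit 3286103) (nat_lit 184) (nat_lit 1) (nat_lit 182) (nat_lit 1) (nat_lit 183) (nat_lit 1) (nat_lit 396) (nat_lit 335) (nat_lit 289)) (XT.nd (nat_lit 78) (nat_lit 76) (nat_lit 0) (XT.lf (nat_lit 76) (nat_lit 350865273) (nat_lit 0) (nat_lit 51232471) (nat_lit 152) (nat_lit 260124570) (nat_lit 181) (nat_lit 1) (nat_lit 180) (nat_lit 1) (nat_lit 182) (nat_lit 1) (nat_lit 397) (nat_lit 335) (nat_lit 288)) (XT.lf (nat_lit 0) (nat_lit 47168821) (nat_lit 0) (nat_lit 369171587) (nat_lit 152) (nat_lit 228696939) (nat_lit 179) (nat_lit 3) (nat_lit 179) (nat_lit 1) (nat_lit 181) (nat_lit 1) (nat_lit 398) (nat_lit 335)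 (nat_lit 287)))) (XT.nd (nat_lit 156) (nat_lit 228) (nat_lit 0) (XT.nd (nat_lit 78) (nat_lit 76) (nat_lit 0) (XT.lf (nat_lit 76) (nat_lit 381373379) (nat_lit 0) (nat_lit 48759017) (nat_lit 152) (nat_lit 198194722) (nat_lit 178) (nat_lit 1) (nat_lit 177) (nat_lit 1) (nat_lit 179) (nat_lit 1) (nat_lit 399) (nat_lit 335) (nat_lit 286)) (XT.lf (nat_lit 0) (nat_lit 90109898) (nat_lit 0) (nat_lit 353029395) (nat_lit 152) (nat_lit 168922629) (nat_lit 176) (nat_lit 3) (nat_lit 176) (nat_lit 1) (nat_lit 178) (nat_lit 1) (nat_lit 400) (nat_lit 335) (nat_lit 285))) (XT.nd (nat_lit 78) (nat_lit 76) (nat_lit 0) (XT.lf (nat_lit 76) (nat_lit 405848210) (nat_lit 0) (nat_lit 50492553) (nat_lit 152) (nat_lit 139934243) (nat_lit 175) (nat_lit 1) (nat_lit 174) (nat_lit 1) (nat_lit 176) (nat_lit 1) (nat_lit 401) (nat_lit 335) (nat_lit 284)) (XT.lf (nat_lit 0) (nat_lit 126684489) (nat_lit 0) (nat_lit 341361719) (nat_lit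 152) (nat_lit 112826632) (nat_lit 173) (nat_lit 3) (nat_lit 173) (nat_lit 1) (nat_lit 175) (nat_lit 1) (nat_lit 402) (nat_lit 335) (nat_lit 283))))))) (XT.nd (nat_lit 1014) (nat_lit 228) (nat_lit 0) (XT.nd (nat_lit 468) (nat_lit 836) (nat_lit 0) (XT.nd (nat_lit 234) (nat_lit 380) (nat_lit 0) (XT.nd (nat_lit 78) (nat_lit 228) (nat_lit 0) (XT.lf (nat_lit 76) (nat_lit 425193844) (nat_lit 0) (nat_lit 55258747) (nat_lit 152) (nat_lit 85494780) (nat_lit 172) (nat_lit 1) (nat_lit 171) (nat_lit 1) (nat_lit 173) (nat_lit 1) (nat_lit 403) (nat_lit 335) (nat_lit 282)) (XT.nd (nat_lit 78) (nat_lit 152) (nat_lit 0) (XT.lf (nat_lit 0) (nat_lit 157771259) (nat_lit 0) (nat_lit 333058043) (nat_lit 152) (nat_lit 60526957) (nat_lit 170) (nat_lit 3) (nat_lit 170) (nat_lit 1) (nat_lit 172) (nat_lit 1) (nat_lit 404) (nat_lit 335) (nat_lit 281)) (XT.lf (nat_lit 76) (nat_lit 440170393) (nat_lit 0) (nat_lit 62130158)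 (nat_lit 152) (nat_lit 34935752) (nat_lit 169) (nat_lit 1) (nat_lit 168) (nat_lit 1) (nat_lit 170) (nat_lit 1) (nat_lit 405) (nat_lit 335) (nat_lit 280)))) (XT.nd (nat_lit 78) (nat_lit 304) (nat_lit 0) (XT.lf (nat_lit 0) (nat_lit 184113352) (nat_lit 0) (nat_lit 327237318) (nat_lit 152) (nat_lit 12057779) (nat_lit 167) (nat_lit 3) (nat_lit 167) (nat_lit 1) (nat_lit 169) (nat_lit 1) (nat_lit 406) (nat_lit 335) (nat_lit 279)) (XT.nd (nat_lit 78) (nat_lit 76) (nat_lit 0) (XT.lf (nat_lit 152) (nat_lit 439465349) (nat_lit 0) (nat_lit 12142934) (nat_lit 76) (nat_lit 58425419) (nat_lit 166) (nat_lit 1) (nat_lit 164) (nat_lit 1) (nat_lit 165) (nat_lit 1) (nat_lit 407) (nat_lit 335) (nat_lit 278)) (XT.lf (nat_lit 76) (nat_lit 173178212) (nat_lit 0) (nat_lit 33689145) (nat_lit 76) (nat_lit 290040814) (nat_lit 164) (nat_lit 3) (nat_lit 163) (nat_lit 1) (nat_lit 164) (nat_lit 1) (nat_lit 408) (nat_lit 335)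 (nat_lit 277))))) (XT.nd (nat_lit 234) (nat_lit 456) (nat_lit 0) (XT.nd (nat_lit 78) (nat_lit 228) (nat_lit 0) (XT.lf (nat_lit 152) (nat_lit 403914783) (nat_lit 0) (nat_lit 56447141) (nat_lit 76) (nat_lit 23871519) (nat_lit 163) (nat_lit 1) (nat_lit 161) (nat_lit 1) (nat_lit 162) (nat_lit 1) (nat_lit 409) (nat_lit 335) (nat_lit 276)) (XT.nd (nat_lit 78) (nat_lit 152) (nat_lit 0) (XT.lf (nat_lit 76) (nat_lit 150189204) (nat_lit 0) (nat_lit 75989507) (nat_lit 76) (nat_lit 245609057) (nat_lit 161) (nat_lit 3) (nat_lit 160) (nat_lit 1) (nat_lit 161) (nat_lit 1) (nat_lit 410) (nat_lit 335) (nat_lit 275)) (XT.lf (nat_lit 0) (nat_lit 6339236) (nat_lit 0) (nat_lit 90483727) (nat_lit 152) (nat_lit 362952174) (nat_lit 158) (nat_lit 3) (nat_lit 158) (nat_lit 1) (nat_lit 160) (nat_lit 1) (nat_lit 411) (nat_lit 335) (nat_lit 274)))) (XT.nd (nat_lit 156) (nat_lit 228) (nat_lit 0) (XT.nd (nat_lit 78) (nat_lit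 152) (nat_lit 0) (XT.lf (nat_lit 76) (nat_lit 127751195) (nat_lit 0) (nat_lit 114562461) (nat_lit 76) (nat_lit 205662761) (nat_lit 158) (nat_lit 3) (nat_lit 157) (nat_lit 1) (nat_lit 158) (nat_lit 1) (nat_lit 412) (nat_lit 335) (nat_lit 273)) (XT.lf (nat_lit 0) (nat_lit 32239967) (nat_lit 0) (nat_lit 100945052) (nat_lit 152) (nat_lit 303385934) (nat_lit 155) (nat_lit 3) (nat_lit 155) (nat_lit 1) (nat_lit 157) (nat_lit 1) (nat_lit 413) (nat_lit 335) (nat_lit 272))) (XT.nd (nat_lit 78) (nat_lit 152) (nat_lit 0) (XT.lf (nat_lit 76) (nat_lit 106115691) (nat_lit 0) (nat_lit 149552349) (nat_lit 76) (nat_lit 169731510) (nat_lit 155) (nat_lit 3) (nat_lit 154) (nat_lit 1) (nat_lit 155) (nat_lit 1) (nat_lit 414) (nat_lit 335) (nat_lit 271)) (XT.lf (nat_lit 0) (nat_lit 54989422) (nat_lit 0) (nat_lit 111088028) (nat_lit 152) (nat_lit 248490175) (nat_lit 152) (nat_lit 3) (nat_lit 152) (nat_lit 1) (nat_lit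 154) (nat_lit 1) (nat_lit 415) (nat_lit 335) (nat_lit 270)))))) (XT.nd (nat_lit 48204) (nat_lit 0) (nat_lit 8892) (XT.nd (nat_lit 47892) (nat_lit 0) (nat_lit 10944) (XT.nd (nat_lit 78) (nat_lit 152) (nat_lit 0) (XT.lf (nat_lit 76) (nat_lit 85461508) (nat_lit 0) (nat_lit 181121763) (nat_lit 76) (nat_lit 137404662) (nat_lit 152) (nat_lit 3) (nat_lit 151) (nat_lit 1) (nat_lit 152) (nat_lit 1) (nat_lit 416) (nat_lit 335) (nat_lit 269)) (XT.nd (nat_lit 47736) (nat_lit 0) (nat_lit 10868) (XT.lf (nat_lit 0) (nat_lit 74931252) (nat_lit 0) (nat_lit 120736502) (nat_lit 152) (nat_lit 198030538) (nat_lit 149) (nat_lit 3) (nat_lit 149) (nat_lit 1) (nat_lit 151) (nat_lit 1) (nat_lit 417) (nat_lit 335) (nat_lit 268)) (XT.lf (nat_lit 836) (nat_lit 394961403) (nat_lit 0) (nat_lit 701253063) (nat_lit 836) (nat_lit 394961403) (nat_lit 303) (nat_lit 1) (nat_lit 292) (nat_lit 0) (nat_lit 303) (nat_lit 0) (nat_lit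 348) (nat_lit 336) (nat_lit 336)))) (XT.nd (nat_lit 156) (nat_lit 0) (nat_lit 76) (XT.nd (nat_lit 78) (nat_lit 0) (nat_lit 0) (XT.lf (nat_lit 836) (nat_lit 147332722) (nat_lit 0) (nat_lit 1376772296) (nat_lit 760) (nat_lit 1346478706) (nat_lit 304) (nat_lit 1) (nat_lit 293) (nat_lit 1) (nat_lit 303) (nat_lit 1) (nat_lit 349) (nat_lit 336) (nat_lit 335)) (XT.lf (nat_lit 836) (nat_lit 1353166013) (nat_lit 76) (nat_lit 922024871) (nat_lit 0) (nat_lit 488999932) (nat_lit 304) (nat_lit 1) (nat_lit 294) (nat_lit 1) (nat_lit 293) (nat_lit 1) (nat_lit 350) (nat_lit 336) (nat_lit 334))) (XT.nd (nat_lit 78) (nat_lit 0) (nat_lit 76) (XT.lf (nat_lit 836) (nat_lit 1169246288) (nat_lit 76) (nat_lit 386414232) (nat_lit 0) (nat_lit 1107461558) (nat_lit 305) (nat_lit 1) (nat_lit 295) (nat_lit 1) (nat_lit 294) (nat_lit 1) (nat_lit 351) (nat_lit 336) (nat_lit 333)) (XT.lf (nat_lit 836) (nat_lit 865341659) (nat_lit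 0) (nat_lit 1619013341) (nat_lit 760) (nat_lit 82763730) (nat_lit 306) (nat_lit 1) (nat_lit 295) (nat_lit 1) (nat_lit 305) (nat_lit 1) (nat_lit 352) (nat_lit 336) (nat_lit 332))))) (XT.nd (nat_lit 234) (nat_lit 1596) (nat_lit 0) (XT.nd (nat_lit 78) (nat_lit 684) (nat_lit 0) (XT.lf (nat_lit 836) (nat_lit 207630246) (nat_lit 0) (nat_lit 1785411988) (nat_lit 760) (nat_lit 482657980) (nat_lit 307) (nat_lit 1) (nat_lit 296) (nat_lit 1) (nat_lit 306) (nat_lit 1) (nat_lit 353) (nat_lit 336) (nat_lit 331)) (XT.nd (nat_lit 78) (nat_lit 684) (nat_lit 0) (XT.lf (nat_lit 836) (nat_lit 398980883) (nat_lit 76) (nat_lit 1551668410) (nat_lit 0) (nat_lit 437899969) (nat_lit 307) (nat_lit 1) (nat_lit 297) (nat_lit 1) (nat_lit 296) (nat_lit 1) (nat_lit 354) (nat_lit 336) (nat_lit 330)) (XT.lf (nat_lit 836) (nat_lit 81941575) (nat_lit 0) (nat_lit 1159974775) (nat_lit 760) (nat_lit 1063684715) (nat_lit 298) (nat_lit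 1) (nat_lit 287) (nat_lit 1) (nat_lit 297) (nat_lit 1) (nat_lit 355) (nat_lit 336) (nat_lit 329)))) (XT.nd (nat_lit 156) (nat_lit 684) (nat_lit 0) (XT.nd (nat_lit 78) (nat_lit 380) (nat_lit 0) (XT.lf (nat_lit 76) (nat_lit 567380538) (nat_lit 0) (nat_lit 245872391) (nat_lit 532) (nat_lit 1413327457) (nat_lit 281) (nat_lit 1) (nat_lit 280) (nat_lit 1) (nat_lit 287) (nat_lit 1) (nat_lit 356) (nat_lit 336) (nat_lit 328)) (XT.lf (nat_lit 456) (nat_lit 1563629349) (nat_lit 0) (nat_lit 508995062) (nat_lit 380) (nat_lit 78693781) (nat_lit 281) (nat_lit 1) (nat_lit 275) (nat_lit 1) (nat_lit 280) (nat_lit 1) (nat_lit 357) (nat_lit 336) (nat_lit 327))) (XT.nd (nat_lit 78) (nat_lit 304) (nat_lit 0) (XT.lf (nat_lit 456) (nat_lit 1128329828) (nat_lit 0) (nat_lit 237244791) (nat_lit 380) (nat_lit 713717519) (nat_lit 276) (nat_lit 1) (nat_lit 270) (nat_lit 1) (nat_lit 275) (nat_lit 1) (nat_lit 358) (nat_lit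 336) (nat_lit 326)) (XT.lf (nat_lit 380) (nat_lit 686574309) (nat_lit 0) (nat_lit 4368062) (nat_lit 304) (nat_lit 1319816100) (nat_lit 271) (nat_lit 1) (nat_lit 266) (nat_lit 1) (nat_lit 270) (nat_lit 1) (nat_lit 359) (nat_lit 336) (nat_lit 325))))))))
noncomputable def ec20 : XT := (XT.nd (nat_lit 2028) (nat_lit 3192) (nat_lit 0) (XT.nd (nat_lit 1014) (nat_lit 2128) (nat_lit 0) (XT.nd (nat_lit 468) (nat_lit 1596) (nat_lit 0) (XT.nd (nat_lit 234) (nat_lit 912) (nat_lit 0) (XT.nd (nat_lit 78) (nat_lit 684) (nat_lit 0) (XT.lf (nat_lit 76) (nat_lit 50652207) (nat_lit 0) (nat_lit 1708237888) (nat_lit 380) (nat_lit 186487380) (nat_lit 267) (nat_lit 1) (nat_lit 266) (nat_lit 1) (nat_lit 271) (nat_lit 1) (nat_lit 360) (nat_lit 336) (nat_lit 324)) (XT.nd (nat_lit 78) (nat_lit 304) (nat_lit 0) (XT.lf (nat_lit 76) (nat_lit 1307853144) (nat_lit 0) (nat_lit 216921437) (nat_lit 380) (nat_lit 357742847) (nat_lit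 262) (nat_lit 1) (nat_lit 261) (nat_lit 1) (nat_lit 266) (nat_lit 1) (nat_lit 361) (nat_lit 336) (nat_lit 323)) (XT.lf (nat_lit 76) (nat_lit 654352069) (nat_lit 0) (nat_lit 664468871) (nat_lit 380) (nat_lit 503613918) (nat_lit 258) (nat_lit 1) (nat_lit 257) (nat_lit 1) (nat_lit 262) (nat_lit 1) (nat_lit 362) (nat_lit 336) (nat_lit 322)))) (XT.nd (nat_lit 78) (nat_lit 608) (nat_lit 0) (XT.lf (nat_lit 76) (nat_lit 32297367) (nat_lit 0) (nat_lit 1110981635) (nat_lit 380) (nat_lit 621917998) (nat_lit 254) (nat_lit 1) (nat_lit 253) (nat_lit 1) (nat_lit 258) (nat_lit 1) (nat_lit 363) (nat_lit 336) (nat_lit 321)) (XT.nd (nat_lit 78) (nat_lit 380) (nat_lit 0) (XT.lf (nat_lit 304) (nat_lit 145853089) (nat_lit 0) (nat_lit 986334631) (nat_lit 228) (nat_lit 578014762) (nat_lit 254) (nat_lit 1) (nat_lit 250) (nat_lit 1) (nat_lit 253) (nat_lit 1) (nat_lit 364) (nat_lit 336) (nat_lit 320)) (XT.lf (nat_lit 76)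 (nat_lit 503961639) (nat_lit 0) (nat_lit 345418439) (nat_lit 380) (nat_lit 808099810) (nat_lit 246) (nat_lit 1) (nat_lit 245) (nat_lit 1) (nat_lit 250) (nat_lit 1) (nat_lit 365) (nat_lit 336) (nat_lit 319))))) (XT.nd (nat_lit 234) (nat_lit 836) (nat_lit 0) (XT.nd (nat_lit 78) (nat_lit 532) (nat_lit 0) (XT.lf (nat_lit 304) (nat_lit 780253836) (nat_lit 0) (nat_lit 732947633) (nat_lit 228) (nat_lit 93816427) (nat_lit 246) (nat_lit 1) (nat_lit 242) (nat_lit 1) (nat_lit 245) (nat_lit 1) (nat_lit 366) (nat_lit 336) (nat_lit 318)) (XT.nd (nat_lit 78) (nat_lit 304) (nat_lit 0) (XT.lf (nat_lit 304) (nat_lit 250067585) (nat_lit 0) (nat_lit 631037898) (nat_lit 228) (nat_lit 677389690) (nat_lit 243) (nat_lit 1) (nat_lit 239) (nat_lit 1) (nat_lit 242) (nat_lit 1) (nat_lit 367) (nat_lit 336) (nat_lit 317)) (XT.lf (nat_lit 76) (nat_lit 285016622) (nat_lit 0) (nat_lit 260957486) (nat_lit 304) (nat_lit 966013582)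 (nat_lit 236) (nat_lit 1) (nat_lit 235) (nat_lit 1) (nat_lit 239) (nat_lit 1) (nat_lit 368) (nat_lit 336) (nat_lit 316)))) (XT.nd (nat_lit 156) (nat_lit 456) (nat_lit 0) (XT.nd (nat_lit 78) (nat_lit 152) (nat_lit 0) (XT.lf (nat_lit 304) (nat_lit 709226457) (nat_lit 0) (nat_lit 471893002) (nat_lit 228) (nat_lit 286063089) (nat_lit 236) (nat_lit 1) (nat_lit 232) (nat_lit 1) (nat_lit 235) (nat_lit 1) (nat_lit 369) (nat_lit 336) (nat_lit 315)) (XT.lf (nat_lit 228) (nat_lit 175818285) (nat_lit 0) (nat_lit 411692224) (nat_lit 152) (nat_lit 836674461) (nat_lit 233) (nat_lit 1) (nat_lit 230) (nat_lit 1) (nat_lit 232) (nat_lit 1) (nat_lit 370) (nat_lit 336) (nat_lit 314))) (XT.nd (nat_lit 78) (nat_lit 152) (nat_lit 0) (XT.lf (nat_lit 76) (nat_lit 29784740) (nat_lit 0) (nat_lit 333297716) (nat_lit 304) (nat_lit 1019771636) (nat_lit 227) (nat_lit 1) (nat_lit 226) (nat_lit 1) (nat_lit 230) (nat_lit 1) (nat_lit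 371) (nat_lit 336) (nat_lit 313)) (XT.lf (nat_lit 228) (nat_lit 510895678) (nat_lit 0) (nat_lit 319265969) (nat_lit 152) (nat_lit 512673600) (nat_lit 227) (nat_lit 1) (nat_lit 224) (nat_lit 1) (nat_lit 226) (nat_lit 1) (nat_lit 372) (nat_lit 336) (nat_lit 312)))))) (XT.nd (nat_lit 468) (nat_lit 1064) (nat_lit 0) (XT.nd (nat_lit 234) (nat_lit 532) (nat_lit 0) (XT.nd (nat_lit 78) (nat_lit 304) (nat_lit 0) (XT.lf (nat_lit 76) (nat_lit 277190644) (nat_lit 0) (nat_lit 12803609) (nat_lit 228) (nat_lit 1014568433) (nat_lit 222) (nat_lit 1) (nat_lit 221) (nat_lit 1) (nat_lit 224) (nat_lit 1) (nat_lit 373) (nat_lit 336) (nat_lit 311)) (XT.nd (nat_lit 78) (nat_lit 152) (nat_lit 0) (XT.lf (nat_lit 228) (nat_lit 757785695) (nat_lit 0) (nat_lit 262589734) (nat_lit 152) (nat_lit 247028018) (nat_lit 222) (nat_lit 1) (nat_lit 219) (nat_lit 1) (nat_lit 221) (nat_lit 1) (nat_lit 374) (nat_lit 336) (nat_lit 310))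 (XT.lf (nat_lit 228) (nat_lit 235398603) (nat_lit 0) (nat_lit 244106195) (nat_lit 152) (nat_lit 752160170) (nat_lit 220) (nat_lit 1) (nat_lit 217) (nat_lit 1) (nat_lit 219) (nat_lit 1) (nat_lit 375) (nat_lit 336) (nat_lit 309)))) (XT.nd (nat_lit 78) (nat_lit 304) (nat_lit 0) (XT.lf (nat_lit 228) (nat_lit 934445945) (nat_lit 0) (nat_lit 233223657) (nat_lit 152) (nat_lit 29587126) (nat_lit 217) (nat_lit 1) (nat_lit 214) (nat_lit 1) (nat_lit 216) (nat_lit 1) (nat_lit 376) (nat_lit 336) (nat_lit 308)) (XT.nd (nat_lit 78) (nat_lit 152) (nat_lit 0) (XT.lf (nat_lit 228) (nat_lit 418214697) (nat_lit 0) (nat_lit 222649962) (nat_lit 152) (nat_lit 522939926) (nat_lit 215) (nat_lit 1) (nat_lit 212) (nat_lit 1) (nat_lit 214) (nat_lit 1) (nat_lit 377) (nat_lit 336) (nat_lit 307)) (XT.lf (nat_lit 76) (nat_lit 143254680) (nat_lit 0) (nat_lit 78739227) (nat_lit 152) (nat_lit 909746042) (nat_lit 211) (nat_lit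 1) (nat_lit 210) (nat_lit 1) (nat_lit 212) (nat_lit 1) (nat_lit 378) (nat_lit 336) (nat_lit 306))))) (XT.nd (nat_lit 234) (nat_lit 608) (nat_lit 0) (XT.nd (nat_lit 78) (nat_lit 304) (nat_lit 0) (XT.lf (nat_lit 228) (nat_lit 548721734) (nat_lit 0) (nat_lit 219643239) (nat_lit 152) (nat_lit 332119461) (nat_lit 211) (nat_lit 1) (nat_lit 208) (nat_lit 1) (nat_lit 210) (nat_lit 1) (nat_lit 379) (nat_lit 336) (nat_lit 305)) (XT.nd (nat_lit 78) (nat_lit 228) (nat_lit 0) (XT.lf (nat_lit 152) (nat_lit 59089533) (nat_lit 0) (nat_lit 225037961) (nat_lit 76) (nat_lit 786335353) (nat_lit 209) (nat_lit 1) (nat_lit 207) (nat_lit 1) (nat_lit 208) (nat_lit 1) (nat_lit 380) (nat_lit 336) (nat_lit 304)) (XT.lf (nat_lit 228) (nat_lit 637849699) (nat_lit 0) (nat_lit 230153782) (nat_lit 152) (nat_lit 173265566) (nat_lit 207) (nat_lit 1) (nat_lit 204) (nat_lit 1) (nat_lit 206) (nat_lit 1) (nat_lit 381) (nat_lit 336)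 (nat_lit 303)))) (XT.nd (nat_lit 156) (nat_lit 304) (nat_lit 0) (XT.nd (nat_lit 78) (nat_lit 228) (nat_lit 0) (XT.lf (nat_lit 152) (nat_lit 160423902) (nat_lit 0) (nat_lit 238759464) (nat_lit 76) (nat_lit 613875772) (nat_lit 205) (nat_lit 1) (nat_lit 203) (nat_lit 1) (nat_lit 204) (nat_lit 1) (nat_lit 382) (nat_lit 336) (nat_lit 302)) (XT.lf (nat_lit 228) (nat_lit 694435623) (nat_lit 0) (nat_lit 250274904) (nat_lit 152) (nat_lit 41072254) (nat_lit 203) (nat_lit 1) (nat_lit 200) (nat_lit 1) (nat_lit 202) (nat_lit 1) (nat_lit 383) (nat_lit 336) (nat_lit 301))) (XT.nd (nat_lit 78) (nat_lit 228) (nat_lit 0) (XT.lf (nat_lit 152) (nat_lit 230872005) (nat_lit 0) (nat_lit 260914595) (nat_lit 76) (nat_lit 467451029) (nat_lit 201) (nat_lit 1) (nat_lit 199) (nat_lit 1) (nat_lit 200) (nat_lit 1) (nat_lit 384) (nat_lit 336) (nat_lit 300)) (XT.lf (nat_lit 76) (nat_lit 66638848) (nat_lit 0) (nat_lit 209161582)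 (nat_lit 228) (nat_lit 657845683) (nat_lit 197) (nat_lit 1) (nat_lit 196) (nat_lit 1) (nat_lit 199) (nat_lit 1) (nat_lit 385) (nat_lit 336) (nat_lit 299))))))) (XT.nd (nat_lit 1014) (nat_lit 1672) (nat_lit 0) (XT.nd (nat_lit 468) (nat_lit 760) (nat_lit 0) (XT.nd (nat_lit 234) (nat_lit 380) (nat_lit 0) (XT.nd (nat_lit 78) (nat_lit 304) (nat_lit 0) (XT.lf (nat_lit 152) (nat_lit 277067236) (nat_lit 0) (nat_lit 288690927) (nat_lit 76) (nat_lit 342931985) (nat_lit 197) (nat_lit 1) (nat_lit 195) (nat_lit 1) (nat_lit 196) (nat_lit 1) (nat_lit 386) (nat_lit 336) (nat_lit 298)) (XT.nd (nat_lit 78) (nat_lit 76) (nat_lit 0) (XT.lf (nat_lit 76) (nat_lit 154977148) (nat_lit 0) (nat_lit 150105848) (nat_lit 228) (nat_lit 579528200) (nat_lit 193) (nat_lit 1) (nat_lit 192) (nat_lit 1) (nat_lit 195) (nat_lit 1) (nat_lit 387) (nat_lit 336) (nat_lit 297)) (XT.lf (nat_lit 152) (nat_lit 304358980) (nat_lit 0) (nat_lit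 319893045) (nat_lit 76) (nat_lit 236895426) (nat_lit 193) (nat_lit 1) (nat_lit 191) (nat_lit 1) (nat_lit 192) (nat_lit 1) (nat_lit 388) (nat_lit 336) (nat_lit 296)))) (XT.nd (nat_lit 78) (nat_lit 228) (nat_lit 0) (XT.lf (nat_lit 76) (nat_lit 228162199) (nat_lit 0) (nat_lit 108715205) (nat_lit 152) (nat_lit 501581202) (nat_lit 190) (nat_lit 1) (nat_lit 189) (nat_lit 1) (nat_lit 191) (nat_lit 1) (nat_lit 389) (nat_lit 336) (nat_lit 295)) (XT.nd (nat_lit 78) (nat_lit 152) (nat_lit 0) (XT.lf (nat_lit 152) (nat_lit 317052538) (nat_lit 0) (nat_lit 352822292) (nat_lit 76) (nat_lit 146498146) (nat_lit 190) (nat_lit 1) (nat_lit 188) (nat_lit 1) (nat_lit 189) (nat_lit 1) (nat_lit 390) (nat_lit 336) (nat_lit 294)) (XT.lf (nat_lit 76) (nat_lit 288603968) (nat_lit 0) (nat_lit 81102961) (nat_lit 152) (nat_lit 425259746) (nat_lit 187) (nat_lit 1) (nat_lit 186) (nat_lit 1) (nat_lit 188) (nat_lit 1) (nat_lit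 391) (nat_lit 336) (nat_lit 293))))) (XT.nd (nat_lit 234) (nat_lit 456) (nat_lit 0) (XT.nd (nat_lit 78) (nat_lit 228) (nat_lit 0) (XT.lf (nat_lit 152) (nat_lit 318604760) (nat_lit 0) (nat_lit 386179035) (nat_lit 76) (nat_lit 69373889) (nat_lit 187) (nat_lit 1) (nat_lit 185) (nat_lit 1) (nat_lit 186) (nat_lit 1) (nat_lit 392) (nat_lit 336) (nat_lit 292)) (XT.nd (nat_lit 78) (nat_lit 76) (nat_lit 0) (XT.lf (nat_lit 76) (nat_lit 338305406) (nat_lit 0) (nat_lit 64143850) (nat_lit 152) (nat_lit 351489639) (nat_lit 184) (nat_lit 1) (nat_lit 183) (nat_lit 1) (nat_lit 185) (nat_lit 1) (nat_lit 393) (nat_lit 336) (nat_lit 291)) (XT.lf (nat_lit 152) (nat_lit 311783530) (nat_lit 0) (nat_lit 418983302) (nat_lit 76) (nat_lit 3548991) (nat_lit 184) (nat_lit 1) (nat_lit 182) (nat_lit 1) (nat_lit 183) (nat_lit 1) (nat_lit 394) (nat_lit 336) (nat_lit 290)))) (XT.nd (nat_lit 156) (nat_lit 228) (nat_lit 0) (XT.nd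 (nat_lit 78) (nat_lit 76) (nat_lit 0) (XT.lf (nat_lit 76) (nat_lit 378934494) (nat_lit 0) (nat_lit 55331068) (nat_lit 152) (nat_lit 280934536) (nat_lit 181) (nat_lit 1) (nat_lit 180) (nat_lit 1) (nat_lit 182) (nat_lit 1) (nat_lit 395) (nat_lit 336) (nat_lit 289)) (XT.lf (nat_lit 0) (nat_lit 50942326) (nat_lit 0) (nat_lit 398705314) (nat_lit 152) (nat_lit 246992694) (nat_lit 179) (nat_lit 3) (nat_lit 179) (nat_lit 1) (nat_lit 181) (nat_lit 1) (nat_lit 396) (nat_lit 336) (nat_lit 288))) (XT.nd (nat_lit 78) (nat_lit 76) (nat_lit 0) (XT.lf (nat_lit 76) (nat_lit 411883249) (nat_lit 0) (nat_lit 52659739) (nat_lit 152) (nat_lit 214050300) (nat_lit 178) (nat_lit 1) (nat_lit 177) (nat_lit 1) (nat_lit 179) (nat_lit 1) (nat_lit 397) (nat_lit 336) (nat_lit 287)) (XT.lf (nat_lit 0) (nat_lit 97318690) (nat_lit 0) (nat_lit 381271747) (nat_lit 152) (nat_lit 182436439) (nat_lit 176) (nat_lit 3) (nat_lit 176)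 (nat_lit 1) (nat_lit 178) (nat_lit 1) (nat_lit 398) (nat_lit 336) (nat_lit 286)))))) (XT.nd (nat_lit 546) (nat_lit 760) (nat_lit 0) (XT.nd (nat_lit 234) (nat_lit 532) (nat_lit 0) (XT.nd (nat_lit 78) (nat_lit 228) (nat_lit 0) (XT.lf (nat_lit 76) (nat_lit 438316067) (nat_lit 0) (nat_lit 54531957) (nat_lit 152) (nat_lit 151128983) (nat_lit 175) (nat_lit 1) (nat_lit 174) (nat_lit 1) (nat_lit 176) (nat_lit 1) (nat_lit 399) (nat_lit 336) (nat_lit 285)) (XT.nd (nat_lit 78) (nat_lit 152) (nat_lit 0) (XT.lf (nat_lit 0) (nat_lit 136819248) (nat_lit 0) (nat_lit 368670656) (nat_lit 152) (nat_lit 121852762) (nat_lit 173) (nat_lit 3) (nat_lit 173) (nat_lit 1) (nat_lit 175) (nat_lit 1) (nat_lit 400) (nat_lit 336) (nat_lit 284)) (XT.lf (nat_lit 76) (nat_lit 459209352) (nat_lit 0) (nat_lit 59679447) (nat_lit 152) (nat_lit 92334363) (nat_lit 172) (nat_lit 1) (nat_lit 171) (nat_lit 1) (nat_lit 173) (nat_lit 1)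 (nat_lit 401) (nat_lit 336) (nat_lit 283)))) (XT.nd (nat_lit 156) (nat_lit 304) (nat_lit 0) (XT.nd (nat_lit 78) (nat_lit 152) (nat_lit 0) (XT.lf (nat_lit 0) (nat_lit 170392960) (nat_lit 0) (nat_lit 359702687) (nat_lit 152) (nat_lit 65369114) (nat_lit 170) (nat_lit 3) (nat_lit 170) (nat_lit 1) (nat_lit 172) (nat_lit 1) (nat_lit 402) (nat_lit 336) (nat_lit 282)) (XT.lf (nat_lit 76) (nat_lit 475384024) (nat_lit 0) (nat_lit 67100571) (nat_lit 152) (nat_lit 37730612) (nat_lit 169) (nat_lit 1) (nat_lit 168) (nat_lit 1) (nat_lit 170) (nat_lit 1) (nat_lit 403) (nat_lit 336) (nat_lit 281))) (XT.nd (nat_lit 78) (nat_lit 228) (nat_lit 0) (XT.lf (nat_lit 0) (nat_lit 198842420) (nat_lit 0) (nat_lit 353416304) (nat_lit 152) (nat_lit 13022401) (nat_lit 167) (nat_lit 3) (nat_lit 167) (nat_lit 1) (nat_lit 169) (nat_lit 1) (nat_lit 404) (nat_lit 336) (nat_lit 280)) (XT.lf (nat_lit 152) (nat_lit 474622577) (nat_lit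 0) (nat_lit 13114369) (nat_lit 76) (nat_lit 63099452) (nat_lit 166) (nat_lit 1) (nat_lit 164) (nat_lit 1) (nat_lit 165) (nat_lit 1) (nat_lit 405) (nat_lit 336) (nat_lit 279))))) (XT.nd (nat_lit 234) (nat_lit 456) (nat_lit 0) (XT.nd (nat_lit 78) (nat_lit 228) (nat_lit 0) (XT.lf (nat_lit 76) (nat_lit 187032469) (nat_lit 0) (nat_lit 36384277) (nat_lit 76) (nat_lit 313244079) (nat_lit 164) (nat_lit 3) (nat_lit 163) (nat_lit 1) (nat_lit 164) (nat_lit 1) (nat_lit 406) (nat_lit 336) (nat_lit 278)) (XT.nd (nat_lit 78) (nat_lit 76) (nat_lit 0) (XT.lf (nat_lit 152) (nat_lit 436227966) (nat_lit 0) (nat_lit 60962913) (nat_lit 76) (nat_lit 25781240) (nat_lit 163) (nat_lit 1) (nat_lit 161) (nat_lit 1) (nat_lit 162) (nat_lit 1) (nat_lit 407) (nat_lit 336) (nat_lit 277)) (XT.lf (nat_lit 76) (nat_lit 162204341) (nat_lit 0) (nat_lit 82068668) (nat_lit 76) (nat_lit 265257782) (nat_lit 161) (nat_lit 3) (nat_lit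 160) (nat_lit 1) (nat_lit 161) (nat_lit 1) (nat_lit 408) (nat_lit 336) (nat_lit 276)))) (XT.nd (nat_lit 156) (nat_lit 228) (nat_lit 0) (XT.nd (nat_lit 78) (nat_lit 76) (nat_lit 0) (XT.lf (nat_lit 0) (nat_lit 6846375) (nat_lit 0) (nat_lit 97722426) (nat_lit 152) (nat_lit 391988348) (nat_lit 158) (nat_lit 3) (nat_lit 158) (nat_lit 1) (nat_lit 160) (nat_lit 1) (nat_lit 409) (nat_lit 336) (nat_lit 275)) (XT.lf (nat_lit 76) (nat_lit 137971291) (nat_lit 0) (nat_lit 123727458) (nat_lit 76) (nat_lit 222115782) (nat_lit 158) (nat_lit 3) (nat_lit 157) (nat_lit 1) (nat_lit 158) (nat_lit 1) (nat_lit 410) (nat_lit 336) (nat_lit 274))) (XT.nd (nat_lit 78) (nat_lit 76) (nat_lit 0) (XT.lf (nat_lit 0) (nat_lit 34819165) (nat_lit 0) (nat_lit 109020656) (nat_lit 152) (nat_lit 327656809) (nat_lit 155) (nat_lit 3) (nat_lit 155) (nat_lit 1) (nat_lit 157) (nat_lit 1) (nat_lit 411) (nat_lit 336) (nat_lit 273)) (XT.lf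 (nat_lit 76) (nat_lit 114604946) (nat_lit 0) (nat_lit 161516537) (nat_lit 76) (nat_lit 183310030) (nat_lit 155) (nat_lit 3) (nat_lit 154) (nat_lit 1) (nat_lit 155) (nat_lit 1) (nat_lit 412) (nat_lit 336) (nat_lit 272))))))))
noncomputable def ec21 : XT := (XT.nd (nat_lit 49608) (nat_lit 0) (nat_lit 2508) (XT.nd (nat_lit 48516) (nat_lit 0) (nat_lit 6536) (XT.nd (nat_lit 47970) (nat_lit 0) (nat_lit 10716) (XT.nd (nat_lit 234) (nat_lit 228) (nat_lit 0) (XT.nd (nat_lit 78) (nat_lit 228) (nat_lit 0) (XT.lf (nat_lit 0) (nat_lit 59388576) (nat_lit 0) (nat_lit 119975071) (nat_lit 152) (nat_lit 268369389) (nat_lit 152) (nat_lit 3) (nat_lit 152) (nat_lit 1) (nat_lit 154) (nat_lit 1) (nat_lit 413) (nat_lit 336) (nat_lit 271)) (XT.nd (nat_lit 78) (nat_lit 152) (nat_lit 0) (XT.lf (nat_lit 76) (nat_lit 92298429) (nat_lit 0) (nat_lit 195611504) (nat_lit 76) (nat_lit 148397035) (nat_lit 152) (nat_lit 3) (nat_lit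 151) (nat_lit 1) (nat_lit 152) (nat_lit 1) (nat_lit 414) (nat_lit 336) (nat_lit 270)) (XT.lf (nat_lit 0) (nat_lit 80925752) (nat_lit 0) (nat_lit 130395422) (nat_lit 152) (nat_lit 213872981) (nat_lit 149) (nat_lit 3) (nat_lit 149) (nat_lit 1) (nat_lit 151) (nat_lit 1) (nat_lit 415) (nat_lit 336) (nat_lit 269)))) (XT.nd (nat_lit 78) (nat_lit 152) (nat_lit 0) (XT.lf (nat_lit 76) (nat_lit 71182704) (nat_lit 0) (nat_lit 226200617) (nat_lit 76) (nat_lit 116987954) (nat_lit 149) (nat_lit 3) (nat_lit 148) (nat_lit 1) (nat_lit 149) (nat_lit 1) (nat_lit 416) (nat_lit 336) (nat_lit 268)) (XT.nd (nat_lit 47580) (nat_lit 0) (nat_lit 11096) (XT.lf (nat_lit 0) (nat_lit 99755165) (nat_lit 0) (nat_lit 140147802) (nat_lit 152) (nat_lit 163909697) (nat_lit 146) (nat_lit 3) (nat_lit 146) (nat_lit 1) (nat_lit 148) (nat_lit 1) (nat_lit 417) (nat_lit 336) (nat_lit 267)) (XT.lf (nat_lit 836) (nat_lit 426558315) (nat_lit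 0) (nat_lit 757353308) (nat_lit 836) (nat_lit 426558315) (nat_lit 303) (nat_lit 1) (nat_lit 292) (nat_lit 0) (nat_lit 303) (nat_lit 0) (nat_lit 346) (nat_lit 337) (nat_lit 337))))) (XT.nd (nat_lit 234) (nat_lit 456) (nat_lit 0) (XT.nd (nat_lit 78) (nat_lit 0) (nat_lit 0) (XT.lf (nat_lit 836) (nat_lit 159119340) (nat_lit 0) (nat_lit 1486914080) (nat_lit 760) (nat_lit 1454197002) (nat_lit 304) (nat_lit 1) (nat_lit 293) (nat_lit 1) (nat_lit 303) (nat_lit 1) (nat_lit 347) (nat_lit 337) (nat_lit 336)) (XT.nd (nat_lit 78) (nat_lit 0) (nat_lit 76) (XT.lf (nat_lit 836) (nat_lit 1461419294) (nat_lit 76) (nat_lit 995786860) (nat_lit 0) (nat_lit 528119926) (nat_lit 304) (nat_lit 1) (nat_lit 294) (nat_lit 1) (nat_lit 293) (nat_lit 1) (nat_lit 348) (nat_lit 337) (nat_lit 335)) (XT.lf (nat_lit 836) (nat_lit 1262785991) (nat_lit 76) (nat_lit 417327371) (nat_lit 0) (nat_lit 1196058483) (nat_lit 305) (nat_lit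 1) (nat_lit 295) (nat_lit 1) (nat_lit 294) (nat_lit 1) (nat_lit 349) (nat_lit 337) (nat_lit 334)))) (XT.nd (nat_lit 156) (nat_lit 608) (nat_lit 0) (XT.nd (nat_lit 78) (nat_lit 0) (nat_lit 76) (XT.lf (nat_lit 836) (nat_lit 934568992) (nat_lit 0) (nat_lit 1748534409) (nat_lit 760) (nat_lit 89384829) (nat_lit 306) (nat_lit 1) (nat_lit 295) (nat_lit 1) (nat_lit 305) (nat_lit 1) (nat_lit 350) (nat_lit 337) (nat_lit 333)) (XT.lf (nat_lit 836) (nat_lit 224240666) (nat_lit 0) (nat_lit 1928244947) (nat_lit 760) (nat_lit 521270619) (nat_lit 307) (nat_lit 1) (nat_lit 296) (nat_lit 1) (nat_lit 306) (nat_lit 1) (nat_lit 351) (nat_lit 337) (nat_lit 332))) (XT.nd (nat_lit 78) (nat_lit 684) (nat_lit 0) (XT.lf (nat_lit 836) (nat_lit 430899354) (nat_lit 76) (nat_lit 1675801883) (nat_lit 0) (nat_lit 472931966) (nat_lit 307) (nat_lit 1) (nat_lit 297) (nat_lit 1) (nat_lit 296) (nat_lit 1) (nat_lit 352) (nat_lit 337)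 (nat_lit 331)) (XT.lf (nat_lit 836) (nat_lit 88496901) (nat_lit 0) (nat_lit 1252772757) (nat_lit 760) (nat_lit 1148779492) (nat_lit 298) (nat_lit 1) (nat_lit 287) (nat_lit 1) (nat_lit 297) (nat_lit 1) (nat_lit 353) (nat_lit 337) (nat_lit 330)))))) (XT.nd (nat_lit 546) (nat_lit 1900) (nat_lit 0) (XT.nd (nat_lit 234) (nat_lit 988) (nat_lit 0) (XT.nd (nat_lit 78) (nat_lit 760) (nat_lit 0) (XT.lf (nat_lit 76) (nat_lit 612770981) (nat_lit 0) (nat_lit 265542182) (nat_lit 532) (nat_lit 1526393654) (nat_lit 281) (nat_lit 1) (nat_lit 280) (nat_lit 1) (nat_lit 287) (nat_lit 1) (nat_lit 354) (nat_lit 337) (nat_lit 329)) (XT.nd (nat_lit 78) (nat_lit 380) (nat_lit 0) (XT.lf (nat_lit 456) (nat_lit 1688719697) (nat_lit 0) (nat_lit 549714667) (nat_lit 380) (nat_lit 84989284) (nat_lit 281) (nat_lit 1) (nat_lit 275) (nat_lit 1) (nat_lit 280) (nat_lit 1) (nat_lit 355) (nat_lit 337) (nat_lit 328)) (XT.lf (nat_lit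 456) (nat_lit 1218596214) (nat_lit 0) (nat_lit 256224374) (nat_lit 380) (nat_lit 770814921) (nat_lit 276) (nat_lit 1) (nat_lit 270) (nat_lit 1) (nat_lit 275) (nat_lit 1) (nat_lit 356) (nat_lit 337) (nat_lit 327)))) (XT.nd (nat_lit 156) (nat_lit 684) (nat_lit 0) (XT.nd (nat_lit 78) (nat_lit 0) (nat_lit 0) (XT.lf (nat_lit 380) (nat_lit 741500254) (nat_lit 0) (nat_lit 4717507) (nat_lit 304) (nat_lit 1425401388) (nat_lit 271) (nat_lit 1) (nat_lit 266) (nat_lit 1) (nat_lit 270) (nat_lit 1) (nat_lit 357) (nat_lit 337) (nat_lit 326)) (XT.lf (nat_lit 76) (nat_lit 54704384) (nat_lit 0) (nat_lit 1844896919) (nat_lit 380) (nat_lit 201406370) (nat_lit 267) (nat_lit 1) (nat_lit 266) (nat_lit 1) (nat_lit 271) (nat_lit 1) (nat_lit 358) (nat_lit 337) (nat_lit 325))) (XT.nd (nat_lit 78) (nat_lit 304) (nat_lit 0) (XT.lf (nat_lit 76) (nat_lit 1412481395) (nat_lit 0) (nat_lit 234275152) (nat_lit 380) (nat_lit 386362274)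 (nat_lit 262) (nat_lit 1) (nat_lit 261) (nat_lit 1) (nat_lit 266) (nat_lit 1) (nat_lit 359) (nat_lit 337) (nat_lit 324)) (XT.lf (nat_lit 76) (nat_lit 706700235) (nat_lit 0) (nat_lit 717626381) (nat_lit 380) (nat_lit 543903031) (nat_lit 258) (nat_lit 1) (nat_lit 257) (nat_lit 1) (nat_lit 262) (nat_lit 1) (nat_lit 360) (nat_lit 337) (nat_lit 323))))) (XT.nd (nat_lit 234) (nat_lit 988) (nat_lit 0) (XT.nd (nat_lit 78) (nat_lit 608) (nat_lit 0) (XT.lf (nat_lit 76) (nat_lit 34881156) (nat_lit 0) (nat_lit 1199860166) (nat_lit 380) (nat_lit 671671438) (nat_lit 254) (nat_lit 1) (nat_lit 253) (nat_lit 1) (nat_lit 258) (nat_lit 1) (nat_lit 361) (nat_lit 337) (nat_lit 322)) (XT.nd (nat_lit 78) (nat_lit 380) (nat_lit 0) (XT.lf (nat_lit 304) (nat_lit 157521337) (nat_lit 0) (nat_lit 1065241401) (nat_lit 228) (nat_lit 624255943) (nat_lit 254) (nat_lit 1) (nat_lit 250) (nat_lit 1) (nat_lit 253) (nat_lit 1) (nat_lit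 362) (nat_lit 337) (nat_lit 321)) (XT.lf (nat_lit 76) (nat_lit 544278570) (nat_lit 0) (nat_lit 373051914) (nat_lit 380) (nat_lit 872747795) (nat_lit 246) (nat_lit 1) (nat_lit 245) (nat_lit 1) (nat_lit 250) (nat_lit 1) (nat_lit 363) (nat_lit 337) (nat_lit 320)))) (XT.nd (nat_lit 156) (nat_lit 532) (nat_lit 0) (XT.nd (nat_lit 78) (nat_lit 228) (nat_lit 0) (XT.lf (nat_lit 304) (nat_lit 842674143) (nat_lit 0) (nat_lit 791583444) (nat_lit 228) (nat_lit 101321741) (nat_lit 246) (nat_lit 1) (nat_lit 242) (nat_lit 1) (nat_lit 245) (nat_lit 1) (nat_lit 364) (nat_lit 337) (nat_lit 319)) (XT.lf (nat_lit 304) (nat_lit 270072991) (nat_lit 0) (nat_lit 681520930) (nat_lit 228) (nat_lit 731580865) (nat_lit 243) (nat_lit 1) (nat_lit 239) (nat_lit 1) (nat_lit 242) (nat_lit 1) (nat_lit 365) (nat_lit 337) (nat_lit 318))) (XT.nd (nat_lit 78) (nat_lit 228) (nat_lit 0) (XT.lf (nat_lit 76) (nat_lit 307817952) (nat_lit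 0) (nat_lit 281834085) (nat_lit 304) (nat_lit 1043294668) (nat_lit 236) (nat_lit 1) (nat_lit 235) (nat_lit 1) (nat_lit 239) (nat_lit 1) (nat_lit 366) (nat_lit 337) (nat_lit 317)) (XT.lf (nat_lit 304) (nat_lit 765964573) (nat_lit 0) (nat_lit 509644442) (nat_lit 228) (nat_lit 308948136) (nat_lit 236) (nat_lit 1) (nat_lit 232) (nat_lit 1) (nat_lit 235) (nat_lit 1) (nat_lit 367) (nat_lit 337) (nat_lit 316))))))) (XT.nd (nat_lit 1014) (nat_lit 1824) (nat_lit 0) (XT.nd (nat_lit 468) (nat_lit 1064) (nat_lit 0) (XT.nd (nat_lit 234) (nat_lit 532) (nat_lit 0) (XT.nd (nat_lit 78) (nat_lit 456) (nat_lit 0) (XT.lf (nat_lit 228) (nat_lit 189883748) (nat_lit 0) (nat_lit 444627602) (nat_lit 152) (nat_lit 903608418) (nat_lit 233) (nat_lit 1) (nat_lit 230) (nat_lit 1) (nat_lit 232) (nat_lit 1) (nat_lit 368) (nat_lit 337) (nat_lit 315)) (XT.nd (nat_lit 78) (nat_lit 152) (nat_lit 0) (XT.lf (nat_lit 76) (nat_lit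 32167520) (nat_lit 0) (nat_lit 359961534) (nat_lit 304) (nat_lit 1101353367) (nat_lit 227) (nat_lit 1) (nat_lit 226) (nat_lit 1) (nat_lit 230) (nat_lit 1) (nat_lit 369) (nat_lit 337) (nat_lit 314)) (XT.lf (nat_lit 228) (nat_lit 551767332) (nat_lit 0) (nat_lit 344807247) (nat_lit 152) (nat_lit 553687488) (nat_lit 227) (nat_lit 1) (nat_lit 224) (nat_lit 1) (nat_lit 226) (nat_lit 1) (nat_lit 370) (nat_lit 337) (nat_lit 313)))) (XT.nd (nat_lit 78) (nat_lit 304) (nat_lit 0) (XT.lf (nat_lit 76) (nat_lit 299365896) (nat_lit 0) (nat_lit 13827898) (nat_lit 228) (nat_lit 1095733908) (nat_lit 222) (nat_lit 1) (nat_lit 221) (nat_lit 1) (nat_lit 224) (nat_lit 1) (nat_lit 371) (nat_lit 337) (nat_lit 312)) (XT.nd (nat_lit 78) (nat_lit 152) (nat_lit 0) (XT.lf (nat_lit 228) (nat_lit 818408551) (nat_lit 0) (nat_lit 283596913) (nat_lit 152) (nat_lit 266790259) (nat_lit 222) (nat_lit 1) (nat_lit 219) (nat_lit 1)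 (nat_lit 221) (nat_lit 1) (nat_lit 372) (nat_lit 337) (nat_lit 311)) (XT.lf (nat_lit 228) (nat_lit 254230492) (nat_lit 0) (nat_lit 263634691) (nat_lit 152) (nat_lit 812332983) (nat_lit 220) (nat_lit 1) (nat_lit 217) (nat_lit 1) (nat_lit 219) (nat_lit 1) (nat_lit 373) (nat_lit 337) (nat_lit 310))))) (XT.nd (nat_lit 234) (nat_lit 532) (nat_lit 0) (XT.nd (nat_lit 78) (nat_lit 304) (nat_lit 0) (XT.lf (nat_lit 228) (nat_lit 1009201621) (nat_lit 0) (nat_lit 251881549) (nat_lit 152) (nat_lit 31954096) (nat_lit 217) (nat_lit 1) (nat_lit 214) (nat_lit 1) (nat_lit 216) (nat_lit 1) (nat_lit 374) (nat_lit 337) (nat_lit 309)) (XT.nd (nat_lit 78) (nat_lit 152) (nat_lit 0) (XT.lf (nat_lit 228) (nat_lit 451671873) (nat_lit 0) (nat_lit 240461959) (nat_lit 152) (nat_lit 564775120) (nat_lit 215) (nat_lit 1) (nat_lit 212) (nat_lit 1) (nat_lit 214) (nat_lit 1) (nat_lit 375) (nat_lit 337) (nat_lit 308)) (XT.lf (nat_lit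 76) (nat_lit 154715055) (nat_lit 0) (nat_lit 85038365) (nat_lit 152) (nat_lit 982525725) (nat_lit 211) (nat_lit 1) (nat_lit 210) (nat_lit 1) (nat_lit 212) (nat_lit 1) (nat_lit 376) (nat_lit 337) (nat_lit 307)))) (XT.nd (nat_lit 156) (nat_lit 304) (nat_lit 0) (XT.nd (nat_lit 78) (nat_lit 76) (nat_lit 0) (XT.lf (nat_lit 228) (nat_lit 592619473) (nat_lit 0) (nat_lit 237214699) (nat_lit 152) (nat_lit 358689018) (nat_lit 211) (nat_lit 1) (nat_lit 208) (nat_lit 1) (nat_lit 210) (nat_lit 1) (nat_lit 377) (nat_lit 337) (nat_lit 306)) (XT.lf (nat_lit 152) (nat_lit 63816696) (nat_lit 0) (nat_lit 243040998) (nat_lit 76) (nat_lit 849242181) (nat_lit 209) (nat_lit 1) (nat_lit 207) (nat_lit 1) (nat_lit 208) (nat_lit 1) (nat_lit 378) (nat_lit 337) (nat_lit 305))) (XT.nd (nat_lit 78) (nat_lit 76) (nat_lit 0) (XT.lf (nat_lit 228) (nat_lit 688877675) (nat_lit 0) (nat_lit 248566085) (nat_lit 152) (nat_lit 187126812)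 (nat_lit 207) (nat_lit 1) (nat_lit 204) (nat_lit 1) (nat_lit 206) (nat_lit 1) (nat_lit 379) (nat_lit 337) (nat_lit 304)) (XT.lf (nat_lit 152) (nat_lit 173257815) (nat_lit 0) (nat_lit 257860221) (nat_lit 76) (nat_lit 662985833) (nat_lit 205) (nat_lit 1) (nat_lit 203) (nat_lit 1) (nat_lit 204) (nat_lit 1) (nat_lit 380) (nat_lit 337) (nat_lit 303)))))) (XT.nd (nat_lit 546) (nat_lit 760) (nat_lit 0) (XT.nd (nat_lit 234) (nat_lit 532) (nat_lit 0) (XT.nd (nat_lit 78) (nat_lit 304) (nat_lit 0) (XT.lf (nat_lit 228) (nat_lit 749990472) (nat_lit 0) (nat_lit 270296896) (nat_lit 152) (nat_lit 44358034) (nat_lit 203) (nat_lit 1) (nat_lit 200) (nat_lit 1) (nat_lit 202) (nat_lit 1) (nat_lit 381) (nat_lit 337) (nat_lit 302)) (XT.nd (nat_lit 78) (nat_lit 228) (nat_lit 0) (XT.lf (nat_lit 152) (nat_lit 249341765) (nat_lit 0) (nat_lit 281787762) (nat_lit 76) (nat_lit 504847112) (nat_lit 201) (nat_lit 1) (nat_lit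 199) (nat_lit 1) (nat_lit 200) (nat_lit 1) (nat_lit 382) (nat_lit 337) (nat_lit 301)) (XT.lf (nat_lit 76) (nat_lit 71969956) (nat_lit 0) (nat_lit 225894508) (nat_lit 228) (nat_lit 710473338) (nat_lit 197) (nat_lit 1) (nat_lit 196) (nat_lit 1) (nat_lit 199) (nat_lit 1) (nat_lit 383) (nat_lit 337) (nat_lit 300)))) (XT.nd (nat_lit 156) (nat_lit 228) (nat_lit 0) (XT.nd (nat_lit 78) (nat_lit 228) (nat_lit 0) (XT.lf (nat_lit 152) (nat_lit 299232614) (nat_lit 0) (nat_lit 311786201) (nat_lit 76) (nat_lit 370366544) (nat_lit 197) (nat_lit 1) (nat_lit 195) (nat_lit 1) (nat_lit 196) (nat_lit 1) (nat_lit 384) (nat_lit 337) (nat_lit 299)) (XT.lf (nat_lit 76) (nat_lit 167375320) (nat_lit 0) (nat_lit 162114315) (nat_lit 228) (nat_lit 625890456) (nat_lit 193) (nat_lit 1) (nat_lit 192) (nat_lit 1) (nat_lit 195) (nat_lit 1) (nat_lit 385) (nat_lit 337) (nat_lit 298))) (XT.nd (nat_lit 78) (nat_lit 152) (nat_lit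 0) (XT.lf (nat_lit 152) (nat_lit 328707698) (nat_lit 0) (nat_lit 345484489) (nat_lit 76) (nat_lit 255847060) (nat_lit 193) (nat_lit 1) (nat_lit 191) (nat_lit 1) (nat_lit 192) (nat_lit 1) (nat_lit 386) (nat_lit 337) (nat_lit 297)) (XT.lf (nat_lit 76) (nat_lit 246415175) (nat_lit 0) (nat_lit 117412422) (nat_lit 152) (nat_lit 541707699) (nat_lit 190) (nat_lit 1) (nat_lit 189) (nat_lit 1) (nat_lit 191) (nat_lit 1) (nat_lit 387) (nat_lit 337) (nat_lit 296))))) (XT.nd (nat_lit 234) (nat_lit 456) (nat_lit 0) (XT.nd (nat_lit 78) (nat_lit 228) (nat_lit 0) (XT.lf (nat_lit 152) (nat_lit 342416741) (nat_lit 0) (nat_lit 381048075) (nat_lit 76) (nat_lit 158217997) (nat_lit 190) (nat_lit 1) (nat_lit 188) (nat_lit 1) (nat_lit 189) (nat_lit 1) (nat_lit 388) (nat_lit 337) (nat_lit 295)) (XT.nd (nat_lit 78) (nat_lit 76) (nat_lit 0) (XT.lf (nat_lit 76) (nat_lit 311692286) (nat_lit 0) (nat_lit 87591197) (nat_lit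 152) (nat_lit 459280526) (nat_lit 187) (nat_lit 1) (nat_lit 186) (nat_lit 1) (nat_lit 188) (nat_lit 1) (nat_lit 389) (nat_lit 337) (nat_lit 294)) (XT.lf (nat_lit 152) (nat_lit 344093141) (nat_lit 0) (nat_lit 417073358) (nat_lit 76) (nat_lit 74923800) (nat_lit 187) (nat_lit 1) (nat_lit 185) (nat_lit 1) (nat_lit 186) (nat_lit 1) (nat_lit 390) (nat_lit 337) (nat_lit 293)))) (XT.nd (nat_lit 156) (nat_lit 228) (nat_lit 0) (XT.nd (nat_lit 78) (nat_lit 76) (nat_lit 0) (XT.lf (nat_lit 76) (nat_lit 365369839) (nat_lit 0) (nat_lit 69275358) (nat_lit 152) (nat_lit 379608810) (nat_lit 184) (nat_lit 1) (nat_lit 183) (nat_lit 1) (nat_lit 185) (nat_lit 1) (nat_lit 391) (nat_lit 337) (nat_lit 292)) (XT.lf (nat_lit 152) (nat_lit 336726213) (nat_lit 0) (nat_lit 452501966) (nat_lit 76) (nat_lit 3832911) (nat_lit 184) (nat_lit 1) (nat_lit 182) (nat_lit 1) (nat_lit 183) (nat_lit 1) (nat_lit 392) (nat_lit 337) (nat_lit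 291))) (XT.nd (nat_lit 78) (nat_lit 76) (nat_lit 0) (XT.lf (nat_lit 76) (nat_lit 409249254) (nat_lit 0) (nat_lit 59757554) (nat_lit 152) (nat_lit 303409299) (nat_lit 181) (nat_lit 1) (nat_lit 180) (nat_lit 1) (nat_lit 182) (nat_lit 1) (nat_lit 393) (nat_lit 337) (nat_lit 290)) (XT.lf (nat_lit 0) (nat_lit 55017713) (nat_lit 0) (nat_lit 430601739) (nat_lit 152) (nat_lit 266752110) (nat_lit 179) (nat_lit 3) (nat_lit 179) (nat_lit 1) (nat_lit 181) (nat_lit 1) (nat_lit 394) (nat_lit 337) (nat_lit 289))))))))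
noncomputable def ec22 : XT := (XT.nd (nat_lit 49374) (nat_lit 0) (nat_lit 5244) (XT.nd (nat_lit 1014) (nat_lit 1140) (nat_lit 0) (XT.nd (nat_lit 468) (nat_lit 912) (nat_lit 0) (XT.nd (nat_lit 234) (nat_lit 304) (nat_lit 0) (XT.nd (nat_lit 78) (nat_lit 228) (nat_lit 0) (XT.lf (nat_lit 76) (nat_lit 444833909) (nat_lit 0) (nat_lit 56872518) (nat_lit 152) (nat_lit 231174324) (nat_lit 178) (nat_lit 1) (nat_lit 177) (nat_lit 1) (nat_lit 179) (nat_lit 1) (nat_lit 395) (nat_lit 337) (nat_lit 288)) (XT.nd (nat_lit 78) (nat_lit 152) (nat_lit 0) (XT.lf (nat_lit 0) (nat_lit 105104185) (nat_lit 0) (nat_lit 411773487) (nat_lit 152) (nat_lit 197031354) (nat_lit 176) (nat_lit 3) (nat_lit 176) (nat_lit 1) (nat_lit 178) (nat_lit 1) (nat_lit 396) (nat_lit 337) (nat_lit 287)) (XT.lf (nat_lit 76) (nat_lit 473381352) (nat_lit 0) (nat_lit 58894514) (nat_lit 152) (nat_lit 163219301) (nat_lit 175) (nat_lit 1) (nat_lit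 174) (nat_lit 1) (nat_lit 176) (nat_lit 1) (nat_lit 397) (nat_lit 337) (nat_lit 286)))) (XT.nd (nat_lit 78) (nat_lit 228) (nat_lit 0) (XT.lf (nat_lit 0) (nat_lit 147764788) (nat_lit 0) (nat_lit 398164309) (nat_lit 152) (nat_lit 131600983) (nat_lit 173) (nat_lit 3) (nat_lit 173) (nat_lit 1) (nat_lit 175) (nat_lit 1) (nat_lit 398) (nat_lit 337) (nat_lit 285)) (XT.nd (nat_lit 78) (nat_lit 76) (nat_lit 0) (XT.lf (nat_lit 76) (nat_lit 495946100) (nat_lit 0) (nat_lit 64453802) (nat_lit 152) (nat_lit 99721112) (nat_lit 172) (nat_lit 1) (nat_lit 171) (nat_lit 1) (nat_lit 173) (nat_lit 1) (nat_lit 399) (nat_lit 337) (nat_lit 284)) (XT.lf (nat_lit 0) (nat_lit 184024397) (nat_lit 0) (nat_lit 388478902) (nat_lit 152) (nat_lit 70598643) (nat_lit 170) (nat_lit 3) (nat_lit 170) (nat_lit 1) (nat_lit 172) (nat_lit 1) (nat_lit 400) (nat_lit 337) (nat_lit 283))))) (XT.nd (nat_lit 234) (nat_lit 456) (nat_lit 0)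 (XT.nd (nat_lit 78) (nat_lit 304) (nat_lit 0) (XT.lf (nat_lit 76) (nat_lit 513414746) (nat_lit 0) (nat_lit 72468616) (nat_lit 152) (nat_lit 40749061) (nat_lit 169) (nat_lit 1) (nat_lit 168) (nat_lit 1) (nat_lit 170) (nat_lit 1) (nat_lit 401) (nat_lit 337) (nat_lit 282)) (XT.nd (nat_lit 78) (nat_lit 228) (nat_lit 0) (XT.lf (nat_lit 0) (nat_lit 214749814) (nat_lit 0) (nat_lit 381689608) (nat_lit 152) (nat_lit 14064193) (nat_lit 167) (nat_lit 3) (nat_lit 167) (nat_lit 1) (nat_lit 169) (nat_lit 1) (nat_lit 402) (nat_lit 337) (nat_lit 281)) (XT.lf (nat_lit 152) (nat_lit 512592384) (nat_lit 0) (nat_lit 14163519) (nat_lit 76) (nat_lit 68147408) (nat_lit 166) (nat_lit 1) (nat_lit 164) (nat_lit 1) (nat_lit 165) (nat_lit 1) (nat_lit 403) (nat_lit 337) (nat_lit 280)))) (XT.nd (nat_lit 156) (nat_lit 228) (nat_lit 0) (XT.nd (nat_lit 78) (nat_lit 152) (nat_lit 0) (XT.lf (nat_lit 76) (nat_lit 201995067) (nat_lit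 0) (nat_lit 39295019) (nat_lit 76) (nat_lit 338303606) (nat_lit 164) (nat_lit 3) (nat_lit 163) (nat_lit 1) (nat_lit 164) (nat_lit 1) (nat_lit 404) (nat_lit 337) (nat_lit 279)) (XT.lf (nat_lit 152) (nat_lit 471126203) (nat_lit 0) (nat_lit 65839946) (nat_lit 76) (nat_lit 27843739) (nat_lit 163) (nat_lit 1) (nat_lit 161) (nat_lit 1) (nat_lit 162) (nat_lit 1) (nat_lit 405) (nat_lit 337) (nat_lit 278))) (XT.nd (nat_lit 78) (nat_lit 152) (nat_lit 0) (XT.lf (nat_lit 76) (nat_lit 175180688) (nat_lit 0) (nat_lit 88634161) (nat_lit 76) (nat_lit 286478404) (nat_lit 161) (nat_lit 3) (nat_lit 160) (nat_lit 1) (nat_lit 161) (nat_lit 1) (nat_lit 406) (nat_lit 337) (nat_lit 277)) (XT.lf (nat_lit 0) (nat_lit 7394085) (nat_lit 0) (nat_lit 105540220) (nat_lit 152) (nat_lit 423347416) (nat_lit 158) (nat_lit 3) (nat_lit 158) (nat_lit 1) (nat_lit 160) (nat_lit 1) (nat_lit 407) (nat_lit 337) (nat_lit 276)))))) (XT.nd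 (nat_lit 468) (nat_lit 456) (nat_lit 0) (XT.nd (nat_lit 234) (nat_lit 380) (nat_lit 0) (XT.nd (nat_lit 78) (nat_lit 228) (nat_lit 0) (XT.lf (nat_lit 76) (nat_lit 149008994) (nat_lit 0) (nat_lit 133625654) (nat_lit 76) (nat_lit 239885044) (nat_lit 158) (nat_lit 3) (nat_lit 157) (nat_lit 1) (nat_lit 158) (nat_lit 1) (nat_lit 408) (nat_lit 337) (nat_lit 275)) (XT.nd (nat_lit 78) (nat_lit 76) (nat_lit 0) (XT.lf (nat_lit 0) (nat_lit 37604698) (nat_lit 0) (nat_lit 117742309) (nat_lit 152) (nat_lit 353869353) (nat_lit 155) (nat_lit 3) (nat_lit 155) (nat_lit 1) (nat_lit 157) (nat_lit 1) (nat_lit 409) (nat_lit 337) (nat_lit 274)) (XT.lf (nat_lit 76) (nat_lit 123773342) (nat_lit 0) (nat_lit 174437860) (nat_lit 76) (nat_lit 197974833) (nat_lit 155) (nat_lit 3) (nat_lit 154) (nat_lit 1) (nat_lit 155) (nat_lit 1) (nat_lit 410) (nat_lit 337) (nat_lit 273)))) (XT.nd (nat_lit 78) (nat_lit 228) (nat_lit 0) (XT.lf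 (nat_lit 0) (nat_lit 64139662) (nat_lit 0) (nat_lit 129573076) (nat_lit 152) (nat_lit 289838940) (nat_lit 152) (nat_lit 3) (nat_lit 152) (nat_lit 1) (nat_lit 154) (nat_lit 1) (nat_lit 411) (nat_lit 337) (nat_lit 272)) (XT.nd (nat_lit 78) (nat_lit 152) (nat_lit 0) (XT.lf (nat_lit 76) (nat_lit 99682303) (nat_lit 0) (nat_lit 211260424) (nat_lit 76) (nat_lit 160268798) (nat_lit 152) (nat_lit 3) (nat_lit 151) (nat_lit 1) (nat_lit 152) (nat_lit 1) (nat_lit 412) (nat_lit 337) (nat_lit 271)) (XT.lf (nat_lit 0) (nat_lit 87399812) (nat_lit 0) (nat_lit 140827056) (nat_lit 152) (nat_lit 230982819) (nat_lit 149) (nat_lit 3) (nat_lit 149) (nat_lit 1) (nat_lit 151) (nat_lit 1) (nat_lit 413) (nat_lit 337) (nat_lit 270))))) (XT.nd (nat_lit 234) (nat_lit 152) (nat_lit 0) (XT.nd (nat_lit 78) (nat_lit 228) (nat_lit 0) (XT.lf (nat_lit 76) (nat_lit 76877321) (nat_lit 0) (nat_lit 244296667) (nat_lit 76) (nat_lit 126346991)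 (nat_lit 149) (nat_lit 3) (nat_lit 148) (nat_lit 1) (nat_lit 149) (nat_lit 1) (nat_lit 414) (nat_lit 337) (nat_lit 269)) (XT.nd (nat_lit 78) (nat_lit 76) (nat_lit 0) (XT.lf (nat_lit 0) (nat_lit 107735578) (nat_lit 0) (nat_lit 151359626) (nat_lit 152) (nat_lit 177022472) (nat_lit 146) (nat_lit 3) (nat_lit 146) (nat_lit 1) (nat_lit 148) (nat_lit 1) (nat_lit 415) (nat_lit 337) (nat_lit 268)) (XT.lf (nat_lit 76) (nat_lit 55446985) (nat_lit 0) (nat_lit 273757617) (nat_lit 76) (nat_lit 95839622) (nat_lit 146) (nat_lit 3) (nat_lit 145) (nat_lit 1) (nat_lit 146) (nat_lit 1) (nat_lit 416) (nat_lit 337) (nat_lit 267)))) (XT.nd (nat_lit 47502) (nat_lit 0) (nat_lit 11400) (XT.nd (nat_lit 47424) (nat_lit 0) (nat_lit 11324) (XT.lf (nat_lit 0) (nat_lit 125454581) (nat_lit 0) (nat_lit 161074190) (nat_lit 152) (nat_lit 127678933) (nat_lit 143) (nat_lit 3) (nat_lit 143) (nat_lit 1) (nat_lit 145) (nat_lit 1) (nat_lit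 417) (nat_lit 337) (nat_lit 266)) (XT.lf (nat_lit 836) (nat_lit 460682980) (nat_lit 0) (nat_lit 817941573) (nat_lit 836) (nat_lit 460682980) (nat_lit 303) (nat_lit 1) (nat_lit 292) (nat_lit 0) (nat_lit 303) (nat_lit 0) (nat_lit 344) (nat_lit 338) (nat_lit 338))) (XT.nd (nat_lit 78) (nat_lit 0) (nat_lit 0) (XT.lf (nat_lit 836) (nat_lit 171848887) (nat_lit 0) (nat_lit 1605867206) (nat_lit 760) (nat_lit 1570532762) (nat_lit 304) (nat_lit 1) (nat_lit 293) (nat_lit 1) (nat_lit 303) (nat_lit 1) (nat_lit 345) (nat_lit 338) (nat_lit 337)) (XT.lf (nat_lit 836) (nat_lit 1578332838) (nat_lit 76) (nat_lit 1075449809) (nat_lit 0) (nat_lit 570369521) (nat_lit 304) (nat_lit 1) (nat_lit 294) (nat_lit 1) (nat_lit 293) (nat_lit 1) (nat_lit 346) (nat_lit 338) (nat_lit 336))))))) (XT.nd (nat_lit 1014) (nat_lit 3116) (nat_lit 0) (XT.nd (nat_lit 468) (nat_lit 2052) (nat_lit 0) (XT.nd (nat_lit 234) (nat_lit 1064) (nat_lit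 0) (XT.nd (nat_lit 78) (nat_lit 0) (nat_lit 76) (XT.lf (nat_lit 836) (nat_lit 1363808871) (nat_lit 76) (nat_lit 450713560) (nat_lit 0) (nat_lit 1291743161) (nat_lit 305) (nat_lit 1) (nat_lit 295) (nat_lit 1) (nat_lit 294) (nat_lit 1) (nat_lit 347) (nat_lit 338) (nat_lit 335)) (XT.nd (nat_lit 78) (nat_lit 0) (nat_lit 76) (XT.lf (nat_lit 836) (nat_lit 1009334511) (nat_lit 0) (nat_lit 1888417162) (nat_lit 760) (nat_lit 96535615) (nat_lit 306) (nat_lit 1) (nat_lit 295) (nat_lit 1) (nat_lit 305) (nat_lit 1) (nat_lit 348) (nat_lit 338) (nat_lit 334)) (XT.lf (nat_lit 836) (nat_lit 242179919) (nat_lit 0) (nat_lit 2082504543) (nat_lit 760) (nat_lit 562972268) (nat_lit 307) (nat_lit 1) (nat_lit 296) (nat_lit 1) (nat_lit 306) (nat_lit 1) (nat_lit 349) (nat_lit 338) (nat_lit 333)))) (XT.nd (nat_lit 78) (nat_lit 1216) (nat_lit 0) (XT.lf (nat_lit 836) (nat_lit 465371302) (nat_lit 76) (nat_lit 1809866034) (nat_lit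 0) (nat_lit 510766524) (nat_lit 307) (nat_lit 1) (nat_lit 297) (nat_lit 1) (nat_lit 296) (nat_lit 1) (nat_lit 350) (nat_lit 338) (nat_lit 332)) (XT.nd (nat_lit 78) (nat_lit 532) (nat_lit 0) (XT.lf (nat_lit 836) (nat_lit 95576653) (nat_lit 0) (nat_lit 1352994578) (nat_lit 760) (nat_lit 1240681852) (nat_lit 298) (nat_lit 1) (nat_lit 287) (nat_lit 1) (nat_lit 297) (nat_lit 1) (nat_lit 351) (nat_lit 338) (nat_lit 331)) (XT.lf (nat_lit 76) (nat_lit 661792659) (nat_lit 0) (nat_lit 286785556) (nat_lit 532) (nat_lit 1648505146) (nat_lit 281) (nat_lit 1) (nat_lit 280) (nat_lit 1) (nat_lit 287) (nat_lit 1) (nat_lit 352) (nat_lit 338) (nat_lit 330))))) (XT.nd (nat_lit 234) (nat_lit 988) (nat_lit 0) (XT.nd (nat_lit 78) (nat_lit 684) (nat_lit 0) (XT.lf (nat_lit 456) (nat_lit 1823817272) (nat_lit 0) (nat_lit 593691840) (nat_lit 380) (nat_lit 91788426) (nat_lit 281) (nat_lit 1) (nat_lit 275) (nat_lit 1) (nat_lit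 280) (nat_lit 1) (nat_lit 353) (nat_lit 338) (nat_lit 329)) (XT.nd (nat_lit 78) (nat_lit 304) (nat_lit 0) (XT.lf (nat_lit 456) (nat_lit 1316083911) (nat_lit 0) (nat_lit 276722324) (nat_lit 380) (nat_lit 832480115) (nat_lit 276) (nat_lit 1) (nat_lit 270) (nat_lit 1) (nat_lit 275) (nat_lit 1) (nat_lit 354) (nat_lit 338) (nat_lit 328)) (XT.lf (nat_lit 380) (nat_lit 800820275) (nat_lit 0) (nat_lit 5094907) (nat_lit 304) (nat_lit 1539433499) (nat_lit 271) (nat_lit 1) (nat_lit 266) (nat_lit 1) (nat_lit 270) (nat_lit 1) (nat_lit 355) (nat_lit 338) (nat_lit 327)))) (XT.nd (nat_lit 156) (nat_lit 608) (nat_lit 0) (XT.nd (nat_lit 78) (nat_lit 380) (nat_lit 0) (XT.lf (nat_lit 76) (nat_lit 59080735) (nat_lit 0) (nat_lit 1992488672) (nat_lit 380) (nat_lit 217518880) (nat_lit 267) (nat_lit 1) (nat_lit 266) (nat_lit 1) (nat_lit 271) (nat_lit 1) (nat_lit 356) (nat_lit 338) (nat_lit 326)) (XT.lf (nat_lit 76) (nat_lit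 1525479907) (nat_lit 0) (nat_lit 253017165) (nat_lit 380) (nat_lit 417271256) (nat_lit 262) (nat_lit 1) (nat_lit 261) (nat_lit 1) (nat_lit 266) (nat_lit 1) (nat_lit 357) (nat_lit 338) (nat_lit 325))) (XT.nd (nat_lit 78) (nat_lit 304) (nat_lit 0) (XT.lf (nat_lit 76) (nat_lit 763236254) (nat_lit 0) (nat_lit 775036491) (nat_lit 380) (nat_lit 587415274) (nat_lit 258) (nat_lit 1) (nat_lit 257) (nat_lit 1) (nat_lit 262) (nat_lit 1) (nat_lit 358) (nat_lit 338) (nat_lit 324)) (XT.lf (nat_lit 76) (nat_lit 37671649) (nat_lit 0) (nat_lit 1295848979) (nat_lit 380) (nat_lit 725405154) (nat_lit 254) (nat_lit 1) (nat_lit 253) (nat_lit 1) (nat_lit 258) (nat_lit 1) (nat_lit 359) (nat_lit 338) (nat_lit 323)))))) (XT.nd (nat_lit 546) (nat_lit 1368) (nat_lit 0) (XT.nd (nat_lit 234) (nat_lit 912) (nat_lit 0) (XT.nd (nat_lit 78) (nat_lit 608) (nat_lit 0) (XT.lf (nat_lit 304) (nat_lit 170123044) (nat_lit 0) (nat_lit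 1150460714) (nat_lit 228) (nat_lit 674196418) (nat_lit 254) (nat_lit 1) (nat_lit 250) (nat_lit 1) (nat_lit 253) (nat_lit 1) (nat_lit 360) (nat_lit 338) (nat_lit 322)) (XT.nd (nat_lit 78) (nat_lit 228) (nat_lit 0) (XT.lf (nat_lit 76) (nat_lit 587820856) (nat_lit 0) (nat_lit 402896067) (nat_lit 380) (nat_lit 942567618) (nat_lit 246) (nat_lit 1) (nat_lit 245) (nat_lit 1) (nat_lit 250) (nat_lit 1) (nat_lit 361) (nat_lit 338) (nat_lit 321)) (XT.lf (nat_lit 304) (nat_lit 910088074) (nat_lit 0) (nat_lit 854910120) (nat_lit 228) (nat_lit 109427480) (nat_lit 246) (nat_lit 1) (nat_lit 242) (nat_lit 1) (nat_lit 245) (nat_lit 1) (nat_lit 362) (nat_lit 338) (nat_lit 320)))) (XT.nd (nat_lit 156) (nat_lit 380) (nat_lit 0) (XT.nd (nat_lit 78) (nat_lit 304) (nat_lit 0) (XT.lf (nat_lit 304) (nat_lit 291678831) (nat_lit 0) (nat_lit 736042605) (nat_lit 228) (nat_lit 790107335) (nat_lit 243) (nat_lit 1) (nat_lit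 239) (nat_lit 1) (nat_lit 242) (nat_lit 1) (nat_lit 363) (nat_lit 338) (nat_lit 319)) (XT.lf (nat_lit 76) (nat_lit 332443388) (nat_lit 0) (nat_lit 304380812) (nat_lit 304) (nat_lit 1126758242) (nat_lit 236) (nat_lit 1) (nat_lit 235) (nat_lit 1) (nat_lit 239) (nat_lit 1) (nat_lit 364) (nat_lit 338) (nat_lit 318))) (XT.nd (nat_lit 78) (nat_lit 152) (nat_lit 0) (XT.lf (nat_lit 304) (nat_lit 827241739) (nat_lit 0) (nat_lit 550415998) (nat_lit 228) (nat_lit 333663987) (nat_lit 236) (nat_lit 1) (nat_lit 232) (nat_lit 1) (nat_lit 235) (nat_lit 1) (nat_lit 365) (nat_lit 338) (nat_lit 317)) (XT.lf (nat_lit 228) (nat_lit 205074448) (nat_lit 0) (nat_lit 480197811) (nat_lit 152) (nat_lit 975897091) (nat_lit 233) (nat_lit 1) (nat_lit 230) (nat_lit 1) (nat_lit 232) (nat_lit 1) (nat_lit 366) (nat_lit 338) (nat_lit 316))))) (XT.nd (nat_lit 234) (nat_lit 684) (nat_lit 0) (XT.nd (nat_lit 78) (nat_lit 380) (nat_lit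 0) (XT.lf (nat_lit 76) (nat_lit 34740921) (nat_lit 0) (nat_lit 388758456) (nat_lit 304) (nat_lit 1189461636) (nat_lit 227) (nat_lit 1) (nat_lit 226) (nat_lit 1) (nat_lit 230) (nat_lit 1) (nat_lit 367) (nat_lit 338) (nat_lit 315)) (XT.nd (nat_lit 78) (nat_lit 228) (nat_lit 0) (XT.lf (nat_lit 228) (nat_lit 595908719) (nat_lit 0) (nat_lit 372391826) (nat_lit 152) (nat_lit 597982487) (nat_lit 227) (nat_lit 1) (nat_lit 224) (nat_lit 1) (nat_lit 226) (nat_lit 1) (nat_lit 368) (nat_lit 338) (nat_lit 314)) (XT.lf (nat_lit 76) (nat_lit 323315168) (nat_lit 0) (nat_lit 14934130) (nat_lit 228) (nat_lit 1183392620) (nat_lit 222) (nat_lit 1) (nat_lit 221) (nat_lit 1) (nat_lit 224) (nat_lit 1) (nat_lit 369) (nat_lit 338) (nat_lit 313)))) (XT.nd (nat_lit 156) (nat_lit 380) (nat_lit 0) (XT.nd (nat_lit 78) (nat_lit 152) (nat_lit 0) (XT.lf (nat_lit 228) (nat_lit 883881235) (nat_lit 0) (nat_lit 306284666) (nat_lit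 152) (nat_lit 288133480) (nat_lit 222) (nat_lit 1) (nat_lit 219) (nat_lit 1) (nat_lit 221) (nat_lit 1) (nat_lit 370) (nat_lit 338) (nat_lit 312)) (XT.lf (nat_lit 228) (nat_lit 274568931) (nat_lit 0) (nat_lit 284725466) (nat_lit 152) (nat_lit 877319622) (nat_lit 220) (nat_lit 1) (nat_lit 217) (nat_lit 1) (nat_lit 219) (nat_lit 1) (nat_lit 371) (nat_lit 338) (nat_lit 311))) (XT.nd (nat_lit 78) (nat_lit 152) (nat_lit 0) (XT.lf (nat_lit 228) (nat_lit 1089937750) (nat_lit 0) (nat_lit 272032073) (nat_lit 152) (nat_lit 34510424) (nat_lit 217) (nat_lit 1) (nat_lit 214) (nat_lit 1) (nat_lit 216) (nat_lit 1) (nat_lit 372) (nat_lit 338) (nat_lit 310)) (XT.lf (nat_lit 228) (nat_lit 487805622) (nat_lit 0) (nat_lit 259698915) (nat_lit 152) (nat_lit 609957130) (nat_lit 215) (nat_lit 1) (nat_lit 212) (nat_lit 1) (nat_lit 214) (nat_lit 1) (nat_lit 373) (nat_lit 338) (nat_lit 309))))))))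
noncomputable def ec23 : XT := (XT.nd (nat_lit 2106) (nat_lit 2052) (nat_lit 0) (XT.nd (nat_lit 1014) (nat_lit 1596) (nat_lit 0) (XT.nd (nat_lit 468) (nat_lit 912) (nat_lit 0) (XT.nd (nat_lit 234) (nat_lit 532) (nat_lit 0) (XT.nd (nat_lit 78) (nat_lit 228) (nat_lit 0) (XT.lf (nat_lit 76) (nat_lit 167092259) (nat_lit 0) (nat_lit 91841435) (nat_lit 152) (nat_lit 1061127783) (nat_lit 211) (nat_lit 1) (nat_lit 210) (nat_lit 1) (nat_lit 212) (nat_lit 1) (nat_lit 374) (nat_lit 338) (nat_lit 308)) (XT.nd (nat_lit 78) (nat_lit 76) (nat_lit 0) (XT.lf (nat_lit 228) (nat_lit 640029031) (nat_lit 0) (nat_lit 256191875) (nat_lit 152) (nat_lit 387384139) (nat_lit 211) (nat_lit 1) (nat_lit 208) (nat_lit 1) (nat_lit 210) (nat_lit 1) (nat_lit 375) (nat_lit 338) (nat_lit 307)) (XT.lf (nat_lit 152) (nat_lit 68922031) (nat_lit 0) (nat_lit 262484278) (nat_lit 76) (nat_lit 917181555) (nat_lit 209) (nat_lit 1) (nat_lit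 207) (nat_lit 1) (nat_lit 208) (nat_lit 1) (nat_lit 376) (nat_lit 338) (nat_lit 306)))) (XT.nd (nat_lit 78) (nat_lit 304) (nat_lit 0) (XT.lf (nat_lit 228) (nat_lit 743987889) (nat_lit 0) (nat_lit 268451372) (nat_lit 152) (nat_lit 202096957) (nat_lit 207) (nat_lit 1) (nat_lit 204) (nat_lit 1) (nat_lit 206) (nat_lit 1) (nat_lit 377) (nat_lit 338) (nat_lit 305)) (XT.nd (nat_lit 78) (nat_lit 228) (nat_lit 0) (XT.lf (nat_lit 152) (nat_lit 187118440) (nat_lit 0) (nat_lit 278489039) (nat_lit 76) (nat_lit 716024700) (nat_lit 205) (nat_lit 1) (nat_lit 203) (nat_lit 1) (nat_lit 204) (nat_lit 1) (nat_lit 378) (nat_lit 338) (nat_lit 304)) (XT.lf (nat_lit 228) (nat_lit 809989710) (nat_lit 0) (nat_lit 291920648) (nat_lit 152) (nat_lit 47906677) (nat_lit 203) (nat_lit 1) (nat_lit 200) (nat_lit 1) (nat_lit 202) (nat_lit 1) (nat_lit 379) (nat_lit 338) (nat_lit 303))))) (XT.nd (nat_lit 234) (nat_lit 532) (nat_lit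 0) (XT.nd (nat_lit 78) (nat_lit 304) (nat_lit 0) (XT.lf (nat_lit 152) (nat_lit 269289106) (nat_lit 0) (nat_lit 304330783) (nat_lit 76) (nat_lit 545234881) (nat_lit 201) (nat_lit 1) (nat_lit 199) (nat_lit 1) (nat_lit 200) (nat_lit 1) (nat_lit 380) (nat_lit 338) (nat_lit 302)) (XT.nd (nat_lit 78) (nat_lit 76) (nat_lit 0) (XT.lf (nat_lit 76) (nat_lit 77727552) (nat_lit 0) (nat_lit 243966069) (nat_lit 228) (nat_lit 767311205) (nat_lit 197) (nat_lit 1) (nat_lit 196) (nat_lit 1) (nat_lit 199) (nat_lit 1) (nat_lit 381) (nat_lit 338) (nat_lit 301)) (XT.lf (nat_lit 152) (nat_lit 323171224) (nat_lit 0) (nat_lit 336729097) (nat_lit 76) (nat_lit 399995867) (nat_lit 197) (nat_lit 1) (nat_lit 195) (nat_lit 1) (nat_lit 196) (nat_lit 1) (nat_lit 382) (nat_lit 338) (nat_lit 300)))) (XT.nd (nat_lit 156) (nat_lit 228) (nat_lit 0) (XT.nd (nat_lit 78) (nat_lit 76) (nat_lit 0) (XT.lf (nat_lit 76) (nat_lit 180765346)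 (nat_lit 0) (nat_lit 175083461) (nat_lit 228) (nat_lit 675961692) (nat_lit 193) (nat_lit 1) (nat_lit 192) (nat_lit 1) (nat_lit 195) (nat_lit 1) (nat_lit 383) (nat_lit 338) (nat_lit 299)) (XT.lf (nat_lit 152) (nat_lit 355004314) (nat_lit 0) (nat_lit 373123248) (nat_lit 76) (nat_lit 276314825) (nat_lit 193) (nat_lit 1) (nat_lit 191) (nat_lit 1) (nat_lit 192) (nat_lit 1) (nat_lit 384) (nat_lit 338) (nat_lit 298))) (XT.nd (nat_lit 78) (nat_lit 76) (nat_lit 0) (XT.lf (nat_lit 76) (nat_lit 266128389) (nat_lit 0) (nat_lit 126805415) (nat_lit 152) (nat_lit 585044315) (nat_lit 190) (nat_lit 1) (nat_lit 189) (nat_lit 1) (nat_lit 191) (nat_lit 1) (nat_lit 385) (nat_lit 338) (nat_lit 297)) (XT.lf (nat_lit 152) (nat_lit 369810081) (nat_lit 0) (nat_lit 411531921) (nat_lit 76) (nat_lit 170875437) (nat_lit 190) (nat_lit 1) (nat_lit 188) (nat_lit 1) (nat_lit 189) (nat_lit 1) (nat_lit 386) (nat_lit 338) (nat_lit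 296)))))) (XT.nd (nat_lit 546) (nat_lit 760) (nat_lit 0) (XT.nd (nat_lit 234) (nat_lit 456) (nat_lit 0) (XT.nd (nat_lit 78) (nat_lit 228) (nat_lit 0) (XT.lf (nat_lit 76) (nat_lit 336627669) (nat_lit 0) (nat_lit 94598493) (nat_lit 152) (nat_lit 496022968) (nat_lit 187) (nat_lit 1) (nat_lit 186) (nat_lit 1) (nat_lit 188) (nat_lit 1) (nat_lit 387) (nat_lit 338) (nat_lit 295)) (XT.nd (nat_lit 78) (nat_lit 152) (nat_lit 0) (XT.lf (nat_lit 152) (nat_lit 371620592) (nat_lit 0) (nat_lit 450439226) (nat_lit 76) (nat_lit 80917704) (nat_lit 187) (nat_lit 1) (nat_lit 185) (nat_lit 1) (nat_lit 186) (nat_lit 1) (nat_lit 388) (nat_lit 338) (nat_lit 294)) (XT.lf (nat_lit 76) (nat_lit 394599426) (nat_lit 0) (nat_lit 74817387) (nat_lit 152) (nat_lit 409977515) (nat_lit 184) (nat_lit 1) (nat_lit 183) (nat_lit 1) (nat_lit 185) (nat_lit 1) (nat_lit 389) (nat_lit 338) (nat_lit 293)))) (XT.nd (nat_lit 156) (nat_lit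 228) (nat_lit 0) (XT.nd (nat_lit 78) (nat_lit 152) (nat_lit 0) (XT.lf (nat_lit 152) (nat_lit 363664310) (nat_lit 0) (nat_lit 488702123) (nat_lit 76) (nat_lit 4139543) (nat_lit 184) (nat_lit 1) (nat_lit 182) (nat_lit 1) (nat_lit 183) (nat_lit 1) (nat_lit 390) (nat_lit 338) (nat_lit 292)) (XT.lf (nat_lit 76) (nat_lit 441989194) (nat_lit 0) (nat_lit 64538158) (nat_lit 152) (nat_lit 327682043) (nat_lit 181) (nat_lit 1) (nat_lit 180) (nat_lit 1) (nat_lit 182) (nat_lit 1) (nat_lit 391) (nat_lit 338) (nat_lit 291))) (XT.nd (nat_lit 78) (nat_lit 152) (nat_lit 0) (XT.lf (nat_lit 0) (nat_lit 59419130) (nat_lit 0) (nat_lit 465049878) (nat_lit 152) (nat_lit 288092279) (nat_lit 179) (nat_lit 3) (nat_lit 179) (nat_lit 1) (nat_lit 181) (nat_lit 1) (nat_lit 392) (nat_lit 338) (nat_lit 290)) (XT.lf (nat_lit 76) (nat_lit 480420622) (nat_lit 0) (nat_lit 61422319) (nat_lit 152) (nat_lit 249668270) (nat_lit 178)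 (nat_lit 1) (nat_lit 177) (nat_lit 1) (nat_lit 179) (nat_lit 1) (nat_lit 393) (nat_lit 338) (nat_lit 289))))) (XT.nd (nat_lit 234) (nat_lit 456) (nat_lit 0) (XT.nd (nat_lit 78) (nat_lit 228) (nat_lit 0) (XT.lf (nat_lit 0) (nat_lit 113512520) (nat_lit 0) (nat_lit 444715366) (nat_lit 152) (nat_lit 212793862) (nat_lit 176) (nat_lit 3) (nat_lit 176) (nat_lit 1) (nat_lit 178) (nat_lit 1) (nat_lit 394) (nat_lit 338) (nat_lit 288)) (XT.nd (nat_lit 78) (nat_lit 76) (nat_lit 0) (XT.lf (nat_lit 76) (nat_lit 511251861) (nat_lit 0) (nat_lit 63606075) (nat_lit 152) (nat_lit 176276846) (nat_lit 175) (nat_lit 1) (nat_lit 174) (nat_lit 1) (nat_lit 176) (nat_lit 1) (nat_lit 395) (nat_lit 338) (nat_lit 287)) (XT.lf (nat_lit 0) (nat_lit 159585971) (nat_lit 0) (nat_lit 430017454) (nat_lit 152) (nat_lit 142129062) (nat_lit 173) (nat_lit 3) (nat_lit 173) (nat_lit 1) (nat_lit 175) (nat_lit 1) (nat_lit 396) (nat_lit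 338) (nat_lit 286)))) (XT.nd (nat_lit 156) (nat_lit 228) (nat_lit 0) (XT.nd (nat_lit 78) (nat_lit 76) (nat_lit 0) (XT.lf (nat_lit 76) (nat_lit 535621788) (nat_lit 0) (nat_lit 69610107) (nat_lit 152) (nat_lit 107698801) (nat_lit 172) (nat_lit 1) (nat_lit 171) (nat_lit 1) (nat_lit 173) (nat_lit 1) (nat_lit 397) (nat_lit 338) (nat_lit 285)) (XT.lf (nat_lit 0) (nat_lit 198746349) (nat_lit 0) (nat_lit 419557214) (nat_lit 152) (nat_lit 76246534) (nat_lit 170) (nat_lit 3) (nat_lit 170) (nat_lit 1) (nat_lit 172) (nat_lit 1) (nat_lit 398) (nat_lit 338) (nat_lit 284))) (XT.nd (nat_lit 78) (nat_lit 76) (nat_lit 0) (XT.lf (nat_lit 76) (nat_lit 554487926) (nat_lit 0) (nat_lit 78266106) (nat_lit 152) (nat_lit 44008986) (nat_lit 169) (nat_lit 1) (nat_lit 168) (nat_lit 1) (nat_lit 170) (nat_lit 1) (nat_lit 399) (nat_lit 338) (nat_lit 283)) (XT.lf (nat_lit 0) (nat_lit 231929799) (nat_lit 0) (nat_lit 412224777)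 (nat_lit 152) (nat_lit 15189328) (nat_lit 167) (nat_lit 3) (nat_lit 167) (nat_lit 1) (nat_lit 169) (nat_lit 1) (nat_lit 400) (nat_lit 338) (nat_lit 282))))))) (XT.nd (nat_lit 1014) (nat_lit 456) (nat_lit 0) (XT.nd (nat_lit 468) (nat_lit 836) (nat_lit 0) (XT.nd (nat_lit 234) (nat_lit 304) (nat_lit 0) (XT.nd (nat_lit 78) (nat_lit 228) (nat_lit 0) (XT.lf (nat_lit 152) (nat_lit 553599774) (nat_lit 0) (nat_lit 15296600) (nat_lit 76) (nat_lit 73599201) (nat_lit 166) (nat_lit 1) (nat_lit 164) (nat_lit 1) (nat_lit 165) (nat_lit 1) (nat_lit 401) (nat_lit 338) (nat_lit 281)) (XT.nd (nat_lit 78) (nat_lit 152) (nat_lit 0) (XT.lf (nat_lit 76) (nat_lit 218154672) (nat_lit 0) (nat_lit 42438621) (nat_lit 76) (nat_lit 365367894) (nat_lit 164) (nat_lit 3) (nat_lit 163) (nat_lit 1) (nat_lit 164) (nat_lit 1) (nat_lit 402) (nat_lit 338) (nat_lit 280)) (XT.lf (nat_lit 152) (nat_lit 508816300) (nat_lit 0) (nat_lit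 71107141) (nat_lit 76) (nat_lit 30071239) (nat_lit 163) (nat_lit 1) (nat_lit 161) (nat_lit 1) (nat_lit 162) (nat_lit 1) (nat_lit 403) (nat_lit 338) (nat_lit 279)))) (XT.nd (nat_lit 78) (nat_lit 228) (nat_lit 0) (XT.lf (nat_lit 76) (nat_lit 189195143) (nat_lit 0) (nat_lit 95724894) (nat_lit 76) (nat_lit 309396677) (nat_lit 161) (nat_lit 3) (nat_lit 160) (nat_lit 1) (nat_lit 161) (nat_lit 1) (nat_lit 404) (nat_lit 338) (nat_lit 278)) (XT.nd (nat_lit 78) (nat_lit 76) (nat_lit 0) (XT.lf (nat_lit 0) (nat_lit 7985612) (nat_lit 0) (nat_lit 113983437) (nat_lit 152) (nat_lit 457215209) (nat_lit 158) (nat_lit 3) (nat_lit 158) (nat_lit 1) (nat_lit 160) (nat_lit 1) (nat_lit 405) (nat_lit 338) (nat_lit 277)) (XT.lf (nat_lit 76) (nat_lit 160929713) (nat_lit 0) (nat_lit 144315707) (nat_lit 76) (nat_lit 259075848) (nat_lit 158) (nat_lit 3) (nat_lit 157) (nat_lit 1) (nat_lit 158) (nat_lit 1) (nat_lit 406) (nat_lit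 338) (nat_lit 276))))) (XT.nd (nat_lit 234) (nat_lit 456) (nat_lit 0) (XT.nd (nat_lit 78) (nat_lit 228) (nat_lit 0) (XT.lf (nat_lit 0) (nat_lit 40613074) (nat_lit 0) (nat_lit 127161693) (nat_lit 152) (nat_lit 382178902) (nat_lit 155) (nat_lit 3) (nat_lit 155) (nat_lit 1) (nat_lit 157) (nat_lit 1) (nat_lit 407) (nat_lit 338) (nat_lit 275)) (XT.nd (nat_lit 78) (nat_lit 152) (nat_lit 0) (XT.lf (nat_lit 76) (nat_lit 133675209) (nat_lit 0) (nat_lit 188392889) (nat_lit 76) (nat_lit 213812820) (nat_lit 155) (nat_lit 3) (nat_lit 154) (nat_lit 1) (nat_lit 155) (nat_lit 1) (nat_lit 408) (nat_lit 338) (nat_lit 274)) (XT.lf (nat_lit 0) (nat_lit 69270836) (nat_lit 0) (nat_lit 139938922) (nat_lit 152) (nat_lit 313026055) (nat_lit 152) (nat_lit 3) (nat_lit 152) (nat_lit 1) (nat_lit 154) (nat_lit 1) (nat_lit 409) (nat_lit 338) (nat_lit 273)))) (XT.nd (nat_lit 156) (nat_lit 228) (nat_lit 0) (XT.nd (nat_lit 78)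 (nat_lit 152) (nat_lit 0) (XT.lf (nat_lit 76) (nat_lit 107656888) (nat_lit 0) (nat_lit 228161258) (nat_lit 76) (nat_lit 173090302) (nat_lit 152) (nat_lit 3) (nat_lit 151) (nat_lit 1) (nat_lit 152) (nat_lit 1) (nat_lit 410) (nat_lit 338) (nat_lit 272)) (XT.lf (nat_lit 0) (nat_lit 94391797) (nat_lit 0) (nat_lit 152093220) (nat_lit 152) (nat_lit 249461445) (nat_lit 149) (nat_lit 3) (nat_lit 149) (nat_lit 1) (nat_lit 151) (nat_lit 1) (nat_lit 411) (nat_lit 338) (nat_lit 271))) (XT.nd (nat_lit 78) (nat_lit 152) (nat_lit 0) (XT.lf (nat_lit 76) (nat_lit 83027507) (nat_lit 0) (nat_lit 263840400) (nat_lit 76) (nat_lit 136454750) (nat_lit 149) (nat_lit 3) (nat_lit 148) (nat_lit 1) (nat_lit 149) (nat_lit 1) (nat_lit 412) (nat_lit 338) (nat_lit 270)) (XT.lf (nat_lit 0) (nat_lit 116354424) (nat_lit 0) (nat_lit 163468396) (nat_lit 152) (nat_lit 191184270) (nat_lit 146) (nat_lit 3) (nat_lit 146) (nat_lit 1)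 (nat_lit 148) (nat_lit 1) (nat_lit 413) (nat_lit 338) (nat_lit 269)))))) (XT.nd (nat_lit 47736) (nat_lit 0) (nat_lit 10260) (XT.nd (nat_lit 234) (nat_lit 152) (nat_lit 0) (XT.nd (nat_lit 78) (nat_lit 228) (nat_lit 0) (XT.lf (nat_lit 76) (nat_lit 59882744) (nat_lit 0) (nat_lit 295658227) (nat_lit 76) (nat_lit 103506792) (nat_lit 146) (nat_lit 3) (nat_lit 145) (nat_lit 1) (nat_lit 146) (nat_lit 1) (nat_lit 414) (nat_lit 338) (nat_lit 268)) (XT.nd (nat_lit 78) (nat_lit 76) (nat_lit 0) (XT.lf (nat_lit 0) (nat_lit 135490947) (nat_lit 0) (nat_lit 173960125) (nat_lit 152) (nat_lit 137893248) (nat_lit 143) (nat_lit 3) (nat_lit 143) (nat_lit 1) (nat_lit 145) (nat_lit 1) (nat_lit 415) (nat_lit 338) (nat_lit 267)) (XT.lf (nat_lit 76) (nat_lit 38273659) (nat_lit 0) (nat_lit 323845959) (nat_lit 76) (nat_lit 73893268) (nat_lit 143) (nat_lit 3) (nat_lit 142) (nat_lit 1) (nat_lit 143) (nat_lit 1) (nat_lit 416)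 (nat_lit 338) (nat_lit 266)))) (XT.nd (nat_lit 47346) (nat_lit 0) (nat_lit 11628) (XT.nd (nat_lit 47268) (nat_lit 0) (nat_lit 11552) (XT.lf (nat_lit 0) (nat_lit 152094174) (nat_lit 0) (nat_lit 183504764) (nat_lit 152) (nat_lit 89290514) (nat_lit 140) (nat_lit 3) (nat_lit 140) (nat_lit 1) (nat_lit 142) (nat_lit 1) (nat_lit 417) (nat_lit 338) (nat_lit 265)) (XT.lf (nat_lit 836) (nat_lit 497537618) (nat_lit 0) (nat_lit 883376898) (nat_lit 836) (nat_lit 497537618) (nat_lit 303) (nat_lit 1) (nat_lit 292) (nat_lit 0) (nat_lit 303) (nat_lit 0) (nat_lit 342) (nat_lit 339) (nat_lit 339))) (XT.nd (nat_lit 78) (nat_lit 0) (nat_lit 0) (XT.lf (nat_lit 836) (nat_lit 185596798) (nat_lit 0) (nat_lit 1734336583) (nat_lit 760) (nat_lit 1696175383) (nat_lit 304) (nat_lit 1) (nat_lit 293) (nat_lit 1) (nat_lit 303) (nat_lit 1) (nat_lit 343) (nat_lit 339) (nat_lit 338)) (XT.lf (nat_lit 836) (nat_lit 1704599465) (nat_lit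 76) (nat_lit 1161485794) (nat_lit 0) (nat_lit 615999082) (nat_lit 304) (nat_lit 1) (nat_lit 294) (nat_lit 1) (nat_lit 293) (nat_lit 1) (nat_lit 344) (nat_lit 339) (nat_lit 337))))) (XT.nd (nat_lit 234) (nat_lit 1444) (nat_lit 0) (XT.nd (nat_lit 78) (nat_lit 0) (nat_lit 76) (XT.lf (nat_lit 836) (nat_lit 1472913580) (nat_lit 76) (nat_lit 486770645) (nat_lit 0) (nat_lit 1395082614) (nat_lit 305) (nat_lit 1) (nat_lit 295) (nat_lit 1) (nat_lit 294) (nat_lit 1) (nat_lit 345) (nat_lit 339) (nat_lit 336)) (XT.nd (nat_lit 78) (nat_lit 0) (nat_lit 76) (XT.lf (nat_lit 836) (nat_lit 1090081272) (nat_lit 0) (nat_lit 2039490535) (nat_lit 760) (nat_lit 104258464) (nat_lit 306) (nat_lit 1) (nat_lit 295) (nat_lit 1) (nat_lit 305) (nat_lit 1) (nat_lit 346) (nat_lit 339) (nat_lit 335)) (XT.lf (nat_lit 836) (nat_lit 261554313) (nat_lit 0) (nat_lit 2249104907) (nat_lit 760) (nat_lit 608010050) (nat_lit 307) (nat_lit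 1) (nat_lit 296) (nat_lit 1) (nat_lit 306) (nat_lit 1) (nat_lit 347) (nat_lit 339) (nat_lit 334)))) (XT.nd (nat_lit 156) (nat_lit 912) (nat_lit 0) (XT.nd (nat_lit 78) (nat_lit 684) (nat_lit 0) (XT.lf (nat_lit 836) (nat_lit 502601007) (nat_lit 76) (nat_lit 1954655316) (nat_lit 0) (nat_lit 551627846) (nat_lit 307) (nat_lit 1) (nat_lit 297) (nat_lit 1) (nat_lit 296) (nat_lit 1) (nat_lit 348) (nat_lit 339) (nat_lit 333)) (XT.lf (nat_lit 836) (nat_lit 103222786) (nat_lit 0) (nat_lit 1461234144) (nat_lit 760) (nat_lit 1339936400) (nat_lit 298) (nat_lit 1) (nat_lit 287) (nat_lit 1) (nat_lit 297) (nat_lit 1) (nat_lit 349) (nat_lit 339) (nat_lit 332))) (XT.nd (nat_lit 78) (nat_lit 380) (nat_lit 0) (XT.lf (nat_lit 76) (nat_lit 714736072) (nat_lit 0) (nat_lit 309728401) (nat_lit 532) (nat_lit 1780385558) (nat_lit 281) (nat_lit 1) (nat_lit 280) (nat_lit 1) (nat_lit 287) (nat_lit 1) (nat_lit 350) (nat_lit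 339) (nat_lit 331)) (XT.lf (nat_lit 456) (nat_lit 1969722654) (nat_lit 0) (nat_lit 641187187) (nat_lit 380) (nat_lit 99131501) (nat_lit 281) (nat_lit 1) (nat_lit 275) (nat_lit 1) (nat_lit 280) (nat_lit 1) (nat_lit 351) (nat_lit 339) (nat_lit 330))))))))
noncomputable def ec24 : XT := (XT.nd (nat_lit 2028) (nat_lit 3268) (nat_lit 0) (XT.nd (nat_lit 1014) (nat_lit 2280) (nat_lit 0) (XT.nd (nat_lit 468) (nat_lit 1748) (nat_lit 0) (XT.nd (nat_lit 234) (nat_lit 988) (nat_lit 0) (XT.nd (nat_lit 78) (nat_lit 304) (nat_lit 0) (XT.lf (nat_lit 456) (nat_lit 1421370624) (nat_lit 0) (nat_lit 298860110) (nat_lit 380) (nat_lit 899078524) (nat_lit 276) (nat_lit 1) (nat_lit 270) (nat_lit 1) (nat_lit 275) (nat_lit 1) (nat_lit 352) (nat_lit 339) (nat_lit 329)) (XT.nd (nat_lit 78) (nat_lit 0) (nat_lit 0) (XT.lf (nat_lit 380) (nat_lit 864885897) (nat_lit 0) (nat_lit 5502500) (nat_lit 304) (nat_lit 1662588179) (nat_lit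 271) (nat_lit 1) (nat_lit 266) (nat_lit 1) (nat_lit 270) (nat_lit 1) (nat_lit 353) (nat_lit 339) (nat_lit 328)) (XT.lf (nat_lit 76) (nat_lit 63807194) (nat_lit 0) (nat_lit 2151887766) (nat_lit 380) (nat_lit 234920390) (nat_lit 267) (nat_lit 1) (nat_lit 266) (nat_lit 1) (nat_lit 271) (nat_lit 1) (nat_lit 354) (nat_lit 339) (nat_lit 327)))) (XT.nd (nat_lit 78) (nat_lit 608) (nat_lit 0) (XT.lf (nat_lit 76) (nat_lit 1647518300) (nat_lit 0) (nat_lit 273258538) (nat_lit 380) (nat_lit 450652957) (nat_lit 262) (nat_lit 1) (nat_lit 261) (nat_lit 1) (nat_lit 266) (nat_lit 1) (nat_lit 355) (nat_lit 339) (nat_lit 326)) (XT.nd (nat_lit 78) (nat_lit 304) (nat_lit 0) (XT.lf (nat_lit 76) (nat_lit 824295154) (nat_lit 0) (nat_lit 837039410) (nat_lit 380) (nat_lit 634408496) (nat_lit 258) (nat_lit 1) (nat_lit 257) (nat_lit 1) (nat_lit 262) (nat_lit 1) (nat_lit 356) (nat_lit 339) (nat_lit 325)) (XT.lf (nat_lit 76)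 (nat_lit 40685380) (nat_lit 0) (nat_lit 1399516897) (nat_lit 380) (nat_lit 783437566) (nat_lit 254) (nat_lit 1) (nat_lit 253) (nat_lit 1) (nat_lit 258) (nat_lit 1) (nat_lit 357) (nat_lit 339) (nat_lit 324))))) (XT.nd (nat_lit 234) (nat_lit 912) (nat_lit 0) (XT.nd (nat_lit 78) (nat_lit 608) (nat_lit 0) (XT.lf (nat_lit 304) (nat_lit 183732887) (nat_lit 0) (nat_lit 1242497571) (nat_lit 228) (nat_lit 728132132) (nat_lit 254) (nat_lit 1) (nat_lit 250) (nat_lit 1) (nat_lit 253) (nat_lit 1) (nat_lit 358) (nat_lit 339) (nat_lit 323)) (XT.nd (nat_lit 78) (nat_lit 228) (nat_lit 0) (XT.lf (nat_lit 76) (nat_lit 634846524) (nat_lit 0) (nat_lit 435127752) (nat_lit 380) (nat_lit 1017973028) (nat_lit 246) (nat_lit 1) (nat_lit 245) (nat_lit 1) (nat_lit 250) (nat_lit 1) (nat_lit 359) (nat_lit 339) (nat_lit 322)) (XT.lf (nat_lit 304) (nat_lit 982895120) (nat_lit 0) (nat_lit 923302929) (nat_lit 228) (nat_lit 118181679)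 (nat_lit 246) (nat_lit 1) (nat_lit 242) (nat_lit 1) (nat_lit 245) (nat_lit 1) (nat_lit 360) (nat_lit 339) (nat_lit 321)))) (XT.nd (nat_lit 156) (nat_lit 380) (nat_lit 0) (XT.nd (nat_lit 78) (nat_lit 304) (nat_lit 0) (XT.lf (nat_lit 304) (nat_lit 315013137) (nat_lit 0) (nat_lit 794926013) (nat_lit 228) (nat_lit 853315921) (nat_lit 243) (nat_lit 1) (nat_lit 239) (nat_lit 1) (nat_lit 242) (nat_lit 1) (nat_lit 361) (nat_lit 339) (nat_lit 320)) (XT.lf (nat_lit 76) (nat_lit 359038859) (nat_lit 0) (nat_lit 328731277) (nat_lit 304) (nat_lit 1216898901) (nat_lit 236) (nat_lit 1) (nat_lit 235) (nat_lit 1) (nat_lit 239) (nat_lit 1) (nat_lit 362) (nat_lit 339) (nat_lit 319))) (XT.nd (nat_lit 78) (nat_lit 152) (nat_lit 0) (XT.lf (nat_lit 304) (nat_lit 893421078) (nat_lit 0) (nat_lit 594449278) (nat_lit 228) (nat_lit 360357106) (nat_lit 236) (nat_lit 1) (nat_lit 232) (nat_lit 1) (nat_lit 235) (nat_lit 1) (nat_lit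 363) (nat_lit 339) (nat_lit 318)) (XT.lf (nat_lit 228) (nat_lit 221480404) (nat_lit 0) (nat_lit 518613636) (nat_lit 152) (nat_lit 1053968859) (nat_lit 233) (nat_lit 1) (nat_lit 230) (nat_lit 1) (nat_lit 232) (nat_lit 1) (nat_lit 364) (nat_lit 339) (nat_lit 317)))))) (XT.nd (nat_lit 468) (nat_lit 1064) (nat_lit 0) (XT.nd (nat_lit 234) (nat_lit 532) (nat_lit 0) (XT.nd (nat_lit 78) (nat_lit 380) (nat_lit 0) (XT.lf (nat_lit 76) (nat_lit 37520195) (nat_lit 0) (nat_lit 419859133) (nat_lit 304) (nat_lit 1284618567) (nat_lit 227) (nat_lit 1) (nat_lit 226) (nat_lit 1) (nat_lit 230) (nat_lit 1) (nat_lit 365) (nat_lit 339) (nat_lit 316)) (XT.nd (nat_lit 78) (nat_lit 228) (nat_lit 0) (XT.lf (nat_lit 228) (nat_lit 643581417) (nat_lit 0) (nat_lit 402183172) (nat_lit 152) (nat_lit 645821086) (nat_lit 227) (nat_lit 1) (nat_lit 224) (nat_lit 1) (nat_lit 226) (nat_lit 1) (nat_lit 366) (nat_lit 339) (nat_lit 315))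 (XT.lf (nat_lit 76) (nat_lit 349180381) (nat_lit 0) (nat_lit 16128860) (nat_lit 228) (nat_lit 1278064030) (nat_lit 222) (nat_lit 1) (nat_lit 221) (nat_lit 1) (nat_lit 224) (nat_lit 1) (nat_lit 367) (nat_lit 339) (nat_lit 314)))) (XT.nd (nat_lit 78) (nat_lit 380) (nat_lit 0) (XT.lf (nat_lit 228) (nat_lit 954591734) (nat_lit 0) (nat_lit 330787439) (nat_lit 152) (nat_lit 311184158) (nat_lit 222) (nat_lit 1) (nat_lit 219) (nat_lit 1) (nat_lit 221) (nat_lit 1) (nat_lit 368) (nat_lit 339) (nat_lit 313)) (XT.nd (nat_lit 78) (nat_lit 228) (nat_lit 0) (XT.lf (nat_lit 228) (nat_lit 296534445) (nat_lit 0) (nat_lit 307503504) (nat_lit 152) (nat_lit 947505192) (nat_lit 220) (nat_lit 1) (nat_lit 217) (nat_lit 1) (nat_lit 219) (nat_lit 1) (nat_lit 369) (nat_lit 339) (nat_lit 312)) (XT.lf (nat_lit 228) (nat_lit 1177132770) (nat_lit 0) (nat_lit 293794639) (nat_lit 152) (nat_lit 37271258) (nat_lit 217) (nat_lit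 1) (nat_lit 214) (nat_lit 1) (nat_lit 216) (nat_lit 1) (nat_lit 370) (nat_lit 339) (nat_lit 311))))) (XT.nd (nat_lit 234) (nat_lit 608) (nat_lit 0) (XT.nd (nat_lit 78) (nat_lit 304) (nat_lit 0) (XT.lf (nat_lit 228) (nat_lit 526830072) (nat_lit 0) (nat_lit 280474829) (nat_lit 152) (nat_lit 658753700) (nat_lit 215) (nat_lit 1) (nat_lit 212) (nat_lit 1) (nat_lit 214) (nat_lit 1) (nat_lit 371) (nat_lit 339) (nat_lit 310)) (XT.nd (nat_lit 78) (nat_lit 152) (nat_lit 0) (XT.lf (nat_lit 76) (nat_lit 180459640) (nat_lit 0) (nat_lit 99188750) (nat_lit 152) (nat_lit 1146018006) (nat_lit 211) (nat_lit 1) (nat_lit 210) (nat_lit 1) (nat_lit 212) (nat_lit 1) (nat_lit 372) (nat_lit 339) (nat_lit 309)) (XT.lf (nat_lit 228) (nat_lit 691231353) (nat_lit 0) (nat_lit 276687225) (nat_lit 152) (nat_lit 418374870) (nat_lit 211) (nat_lit 1) (nat_lit 208) (nat_lit 1) (nat_lit 210) (nat_lit 1) (nat_lit 373) (nat_lit 339)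 (nat_lit 308)))) (XT.nd (nat_lit 156) (nat_lit 304) (nat_lit 0) (XT.nd (nat_lit 78) (nat_lit 228) (nat_lit 0) (XT.lf (nat_lit 152) (nat_lit 74435794) (nat_lit 0) (nat_lit 283483020) (nat_lit 76) (nat_lit 990556080) (nat_lit 209) (nat_lit 1) (nat_lit 207) (nat_lit 1) (nat_lit 208) (nat_lit 1) (nat_lit 374) (nat_lit 339) (nat_lit 307)) (XT.lf (nat_lit 228) (nat_lit 803506920) (nat_lit 0) (nat_lit 289927482) (nat_lit 152) (nat_lit 218264713) (nat_lit 207) (nat_lit 1) (nat_lit 204) (nat_lit 1) (nat_lit 206) (nat_lit 1) (nat_lit 375) (nat_lit 339) (nat_lit 306))) (XT.nd (nat_lit 78) (nat_lit 228) (nat_lit 0) (XT.lf (nat_lit 152) (nat_lit 202087915) (nat_lit 0) (nat_lit 300768162) (nat_lit 76) (nat_lit 773306676) (nat_lit 205) (nat_lit 1) (nat_lit 203) (nat_lit 1) (nat_lit 204) (nat_lit 1) (nat_lit 376) (nat_lit 339) (nat_lit 305)) (XT.lf (nat_lit 228) (nat_lit 874788887) (nat_lit 0) (nat_lit 315274300)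 (nat_lit 152) (nat_lit 51739211) (nat_lit 203) (nat_lit 1) (nat_lit 200) (nat_lit 1) (nat_lit 202) (nat_lit 1) (nat_lit 377) (nat_lit 339) (nat_lit 304))))))) (XT.nd (nat_lit 1014) (nat_lit 1672) (nat_lit 0) (XT.nd (nat_lit 468) (nat_lit 760) (nat_lit 0) (XT.nd (nat_lit 234) (nat_lit 456) (nat_lit 0) (XT.nd (nat_lit 78) (nat_lit 304) (nat_lit 0) (XT.lf (nat_lit 152) (nat_lit 290832235) (nat_lit 0) (nat_lit 328677246) (nat_lit 76) (nat_lit 588853671) (nat_lit 201) (nat_lit 1) (nat_lit 199) (nat_lit 1) (nat_lit 200) (nat_lit 1) (nat_lit 378) (nat_lit 339) (nat_lit 303)) (XT.nd (nat_lit 78) (nat_lit 76) (nat_lit 0) (XT.lf (nat_lit 76) (nat_lit 83945757) (nat_lit 0) (nat_lit 263483355) (nat_lit 228) (nat_lit 828696102) (nat_lit 197) (nat_lit 1) (nat_lit 196) (nat_lit 1) (nat_lit 199) (nat_lit 1) (nat_lit 379) (nat_lit 339) (nat_lit 302)) (XT.lf (nat_lit 152) (nat_lit 349024922) (nat_lit 0) (nat_lit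 363667425) (nat_lit 76) (nat_lit 431995537) (nat_lit 197) (nat_lit 1) (nat_lit 195) (nat_lit 1) (nat_lit 196) (nat_lit 1) (nat_lit 380) (nat_lit 339) (nat_lit 301)))) (XT.nd (nat_lit 78) (nat_lit 228) (nat_lit 0) (XT.lf (nat_lit 76) (nat_lit 195226573) (nat_lit 0) (nat_lit 189090138) (nat_lit 228) (nat_lit 730038628) (nat_lit 193) (nat_lit 1) (nat_lit 192) (nat_lit 1) (nat_lit 195) (nat_lit 1) (nat_lit 381) (nat_lit 339) (nat_lit 300)) (XT.nd (nat_lit 78) (nat_lit 152) (nat_lit 0) (XT.lf (nat_lit 152) (nat_lit 383404660) (nat_lit 0) (nat_lit 402973108) (nat_lit 76) (nat_lit 298420011) (nat_lit 193) (nat_lit 1) (nat_lit 191) (nat_lit 1) (nat_lit 192) (nat_lit 1) (nat_lit 382) (nat_lit 339) (nat_lit 299)) (XT.lf (nat_lit 76) (nat_lit 287418661) (nat_lit 0) (nat_lit 136949849) (nat_lit 152) (nat_lit 631847860) (nat_lit 190) (nat_lit 1) (nat_lit 189) (nat_lit 1) (nat_lit 191) (nat_lit 1) (nat_lit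 383) (nat_lit 339) (nat_lit 298))))) (XT.nd (nat_lit 234) (nat_lit 456) (nat_lit 0) (XT.nd (nat_lit 78) (nat_lit 228) (nat_lit 0) (XT.lf (nat_lit 152) (nat_lit 399394887) (nat_lit 0) (nat_lit 444454475) (nat_lit 76) (nat_lit 184545472) (nat_lit 190) (nat_lit 1) (nat_lit 188) (nat_lit 1) (nat_lit 189) (nat_lit 1) (nat_lit 384) (nat_lit 339) (nat_lit 297)) (XT.nd (nat_lit 78) (nat_lit 76) (nat_lit 0) (XT.lf (nat_lit 76) (nat_lit 363557882) (nat_lit 0) (nat_lit 102166373) (nat_lit 152) (nat_lit 535704805) (nat_lit 187) (nat_lit 1) (nat_lit 186) (nat_lit 1) (nat_lit 188) (nat_lit 1) (nat_lit 385) (nat_lit 339) (nat_lit 296)) (XT.lf (nat_lit 152) (nat_lit 401350239) (nat_lit 0) (nat_lit 486474365) (nat_lit 76) (nat_lit 87391120) (nat_lit 187) (nat_lit 1) (nat_lit 185) (nat_lit 1) (nat_lit 186) (nat_lit 1) (nat_lit 386) (nat_lit 339) (nat_lit 295)))) (XT.nd (nat_lit 156) (nat_lit 228) (nat_lit 0) (XT.nd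 (nat_lit 78) (nat_lit 76) (nat_lit 0) (XT.lf (nat_lit 76) (nat_lit 426167380) (nat_lit 0) (nat_lit 80802778) (nat_lit 152) (nat_lit 442775716) (nat_lit 184) (nat_lit 1) (nat_lit 183) (nat_lit 1) (nat_lit 185) (nat_lit 1) (nat_lit 387) (nat_lit 339) (nat_lit 294)) (XT.lf (nat_lit 152) (nat_lit 392757454) (nat_lit 0) (nat_lit 527798293) (nat_lit 76) (nat_lit 4470707) (nat_lit 184) (nat_lit 1) (nat_lit 182) (nat_lit 1) (nat_lit 183) (nat_lit 1) (nat_lit 388) (nat_lit 339) (nat_lit 293))) (XT.nd (nat_lit 78) (nat_lit 76) (nat_lit 0) (XT.lf (nat_lit 76) (nat_lit 477348330) (nat_lit 0) (nat_lit 69701211) (nat_lit 152) (nat_lit 353896606) (nat_lit 181) (nat_lit 1) (nat_lit 180) (nat_lit 1) (nat_lit 182) (nat_lit 1) (nat_lit 389) (nat_lit 339) (nat_lit 292)) (XT.lf (nat_lit 0) (nat_lit 64172660) (nat_lit 0) (nat_lit 502253869) (nat_lit 152) (nat_lit 311139661) (nat_lit 179) (nat_lit 3) (nat_lit 179)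 (nat_lit 1) (nat_lit 181) (nat_lit 1) (nat_lit 390) (nat_lit 339) (nat_lit 291)))))) (XT.nd (nat_lit 546) (nat_lit 836) (nat_lit 0) (XT.nd (nat_lit 234) (nat_lit 456) (nat_lit 0) (XT.nd (nat_lit 78) (nat_lit 228) (nat_lit 0) (XT.lf (nat_lit 76) (nat_lit 518854272) (nat_lit 0) (nat_lit 66336105) (nat_lit 152) (nat_lit 269641732) (nat_lit 178) (nat_lit 1) (nat_lit 177) (nat_lit 1) (nat_lit 179) (nat_lit 1) (nat_lit 391) (nat_lit 339) (nat_lit 290)) (XT.nd (nat_lit 78) (nat_lit 152) (nat_lit 0) (XT.lf (nat_lit 0) (nat_lit 122593522) (nat_lit 0) (nat_lit 480292595) (nat_lit 152) (nat_lit 229817371) (nat_lit 176) (nat_lit 3) (nat_lit 176) (nat_lit 1) (nat_lit 178) (nat_lit 1) (nat_lit 392) (nat_lit 339) (nat_lit 289)) (XT.lf (nat_lit 76) (nat_lit 552152009) (nat_lit 0) (nat_lit 68694561) (nat_lit 152) (nat_lit 190378993) (nat_lit 175) (nat_lit 1) (nat_lit 174) (nat_lit 1) (nat_lit 176) (nat_lit 1)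 (nat_lit 393) (nat_lit 339) (nat_lit 288)))) (XT.nd (nat_lit 156) (nat_lit 228) (nat_lit 0) (XT.nd (nat_lit 78) (nat_lit 152) (nat_lit 0) (XT.lf (nat_lit 0) (nat_lit 172352849) (nat_lit 0) (nat_lit 464418850) (nat_lit 152) (nat_lit 153499387) (nat_lit 173) (nat_lit 3) (nat_lit 173) (nat_lit 1) (nat_lit 175) (nat_lit 1) (nat_lit 394) (nat_lit 339) (nat_lit 287)) (XT.lf (nat_lit 76) (nat_lit 578471531) (nat_lit 0) (nat_lit 75178915) (nat_lit 152) (nat_lit 116314705) (nat_lit 172) (nat_lit 1) (nat_lit 171) (nat_lit 1) (nat_lit 173) (nat_lit 1) (nat_lit 395) (nat_lit 339) (nat_lit 286))) (XT.nd (nat_lit 78) (nat_lit 152) (nat_lit 0) (XT.lf (nat_lit 0) (nat_lit 214646057) (nat_lit 0) (nat_lit 453121791) (nat_lit 152) (nat_lit 82346257) (nat_lit 170) (nat_lit 3) (nat_lit 170) (nat_lit 1) (nat_lit 172) (nat_lit 1) (nat_lit 396) (nat_lit 339) (nat_lit 285)) (XT.lf (nat_lit 76) (nat_lit 598846960) (nat_lit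 0) (nat_lit 84527394) (nat_lit 152) (nat_lit 47529705) (nat_lit 169) (nat_lit 1) (nat_lit 168) (nat_lit 1) (nat_lit 170) (nat_lit 1) (nat_lit 397) (nat_lit 339) (nat_lit 284))))) (XT.nd (nat_lit 234) (nat_lit 456) (nat_lit 0) (XT.nd (nat_lit 78) (nat_lit 304) (nat_lit 0) (XT.lf (nat_lit 0) (nat_lit 250484183) (nat_lit 0) (nat_lit 445202759) (nat_lit 152) (nat_lit 16404475) (nat_lit 167) (nat_lit 3) (nat_lit 167) (nat_lit 1) (nat_lit 169) (nat_lit 1) (nat_lit 398) (nat_lit 339) (nat_lit 283)) (XT.nd (nat_lit 78) (nat_lit 76) (nat_lit 0) (XT.lf (nat_lit 152) (nat_lit 597887756) (nat_lit 0) (nat_lit 16520328) (nat_lit 76) (nat_lit 79487137) (nat_lit 166) (nat_lit 1) (nat_lit 164) (nat_lit 1) (nat_lit 165) (nat_lit 1) (nat_lit 399) (nat_lit 339) (nat_lit 282)) (XT.lf (nat_lit 76) (nat_lit 235607046) (nat_lit 0) (nat_lit 45833711) (nat_lit 76) (nat_lit 394597326) (nat_lit 164) (nat_lit 3) (nat_lit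 163) (nat_lit 1) (nat_lit 164) (nat_lit 1) (nat_lit 400) (nat_lit 339) (nat_lit 281)))) (XT.nd (nat_lit 156) (nat_lit 228) (nat_lit 0) (XT.nd (nat_lit 78) (nat_lit 76) (nat_lit 0) (XT.lf (nat_lit 152) (nat_lit 549521604) (nat_lit 0) (nat_lit 76795713) (nat_lit 76) (nat_lit 32476938) (nat_lit 163) (nat_lit 1) (nat_lit 161) (nat_lit 1) (nat_lit 162) (nat_lit 1) (nat_lit 401) (nat_lit 339) (nat_lit 280)) (XT.lf (nat_lit 76) (nat_lit 204330754) (nat_lit 0) (nat_lit 103382886) (nat_lit 76) (nat_lit 334148411) (nat_lit 161) (nat_lit 3) (nat_lit 160) (nat_lit 1) (nat_lit 161) (nat_lit 1) (nat_lit 402) (nat_lit 339) (nat_lit 279))) (XT.nd (nat_lit 78) (nat_lit 76) (nat_lit 0) (XT.lf (nat_lit 0) (nat_lit 8624461) (nat_lit 0) (nat_lit 123102112) (nat_lit 152) (nat_lit 493792426) (nat_lit 158) (nat_lit 3) (nat_lit 158) (nat_lit 1) (nat_lit 160) (nat_lit 1) (nat_lit 403) (nat_lit 339) (nat_lit 278)) (XT.lf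 (nat_lit 76) (nat_lit 173804091) (nat_lit 0) (nat_lit 155860963) (nat_lit 76) (nat_lit 279801916) (nat_lit 158) (nat_lit 3) (nat_lit 157) (nat_lit 1) (nat_lit 158) (nat_lit 1) (nat_lit 404) (nat_lit 339) (nat_lit 277))))))))
noncomputable def ec25 : XT := (XT.nd (nat_lit 49140) (nat_lit 0) (nat_lit 4104) (XT.nd (nat_lit 48048) (nat_lit 0) (nat_lit 9424) (XT.nd (nat_lit 468) (nat_lit 836) (nat_lit 0) (XT.nd (nat_lit 234) (nat_lit 304) (nat_lit 0) (XT.nd (nat_lit 78) (nat_lit 228) (nat_lit 0) (XT.lf (nat_lit 0) (nat_lit 43862120) (nat_lit 0) (nat_lit 137334629) (nat_lit 152) (nat_lit 412753214) (nat_lit 155) (nat_lit 3) (nat_lit 155) (nat_lit 1) (nat_lit 157) (nat_lit 1) (nat_lit 405) (nat_lit 339) (nat_lit 276)) (XT.nd (nat_lit 78) (nat_lit 152) (nat_lit 0) (XT.lf (nat_lit 76) (nat_lit 144369226) (nat_lit 0) (nat_lit 203464320) (nat_lit 76) (nat_lit 230917845) (nat_lit 155) (nat_lit 3) (nat_lit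 154) (nat_lit 1) (nat_lit 155) (nat_lit 1) (nat_lit 406) (nat_lit 339) (nat_lit 275)) (XT.lf (nat_lit 0) (nat_lit 74812502) (nat_lit 0) (nat_lit 151134036) (nat_lit 152) (nat_lit 338068140) (nat_lit 152) (nat_lit 3) (nat_lit 152) (nat_lit 1) (nat_lit 154) (nat_lit 1) (nat_lit 407) (nat_lit 339) (nat_lit 274)))) (XT.nd (nat_lit 78) (nat_lit 228) (nat_lit 0) (XT.lf (nat_lit 76) (nat_lit 116269439) (nat_lit 0) (nat_lit 246414159) (nat_lit 76) (nat_lit 186937526) (nat_lit 152) (nat_lit 3) (nat_lit 151) (nat_lit 1) (nat_lit 152) (nat_lit 1) (nat_lit 408) (nat_lit 339) (nat_lit 273)) (XT.nd (nat_lit 78) (nat_lit 76) (nat_lit 0) (XT.lf (nat_lit 0) (nat_lit 101943141) (nat_lit 0) (nat_lit 164260678) (nat_lit 152) (nat_lit 269418361) (nat_lit 149) (nat_lit 3) (nat_lit 149) (nat_lit 1) (nat_lit 151) (nat_lit 1) (nat_lit 409) (nat_lit 339) (nat_lit 272)) (XT.lf (nat_lit 76) (nat_lit 89669707) (nat_lit 0)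 (nat_lit 284947632) (nat_lit 76) (nat_lit 147371130) (nat_lit 149) (nat_lit 3) (nat_lit 148) (nat_lit 1) (nat_lit 149) (nat_lit 1) (nat_lit 410) (nat_lit 339) (nat_lit 271))))) (XT.nd (nat_lit 234) (nat_lit 456) (nat_lit 0) (XT.nd (nat_lit 78) (nat_lit 228) (nat_lit 0) (XT.lf (nat_lit 0) (nat_lit 125662778) (nat_lit 0) (nat_lit 176545868) (nat_lit 152) (nat_lit 206479012) (nat_lit 146) (nat_lit 3) (nat_lit 146) (nat_lit 1) (nat_lit 148) (nat_lit 1) (nat_lit 411) (nat_lit 339) (nat_lit 270)) (XT.nd (nat_lit 78) (nat_lit 152) (nat_lit 0) (XT.lf (nat_lit 76) (nat_lit 64673364) (nat_lit 0) (nat_lit 319310885) (nat_lit 76) (nat_lit 111787335) (nat_lit 146) (nat_lit 3) (nat_lit 145) (nat_lit 1) (nat_lit 146) (nat_lit 1) (nat_lit 412) (nat_lit 339) (nat_lit 269)) (XT.lf (nat_lit 0) (nat_lit 146330223) (nat_lit 0) (nat_lit 187876935) (nat_lit 152) (nat_lit 148924708) (nat_lit 143) (nat_lit 3) (nat_lit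 143) (nat_lit 1) (nat_lit 145) (nat_lit 1) (nat_lit 413) (nat_lit 339) (nat_lit 268)))) (XT.nd (nat_lit 156) (nat_lit 228) (nat_lit 0) (XT.nd (nat_lit 78) (nat_lit 152) (nat_lit 0) (XT.lf (nat_lit 76) (nat_lit 41335552) (nat_lit 0) (nat_lit 349753636) (nat_lit 76) (nat_lit 79804730) (nat_lit 143) (nat_lit 3) (nat_lit 142) (nat_lit 1) (nat_lit 143) (nat_lit 1) (nat_lit 414) (nat_lit 339) (nat_lit 267)) (XT.lf (nat_lit 0) (nat_lit 164261708) (nat_lit 0) (nat_lit 198185145) (nat_lit 152) (nat_lit 96433755) (nat_lit 140) (nat_lit 3) (nat_lit 140) (nat_lit 1) (nat_lit 142) (nat_lit 1) (nat_lit 415) (nat_lit 339) (nat_lit 266))) (XT.nd (nat_lit 78) (nat_lit 152) (nat_lit 0) (XT.lf (nat_lit 76) (nat_lit 19674073) (nat_lit 0) (nat_lit 376525003) (nat_lit 76) (nat_lit 51084663) (nat_lit 140) (nat_lit 3) (nat_lit 139) (nat_lit 1) (nat_lit 140) (nat_lit 1) (nat_lit 416) (nat_lit 339) (nat_lit 265)) (XT.lf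 (nat_lit 0) (nat_lit 179737014) (nat_lit 0) (nat_lit 207435947) (nat_lit 152) (nat_lit 48691324) (nat_lit 137) (nat_lit 3) (nat_lit 137) (nat_lit 1) (nat_lit 139) (nat_lit 1) (nat_lit 417) (nat_lit 339) (nat_lit 264)))))) (XT.nd (nat_lit 546) (nat_lit 2356) (nat_lit 0) (XT.nd (nat_lit 234) (nat_lit 0) (nat_lit 152) (XT.nd (nat_lit 78) (nat_lit 0) (nat_lit 76) (XT.lf (nat_lit 836) (nat_lit 537340628) (nat_lit 0) (nat_lit 954047050) (nat_lit 836) (nat_lit 537340628) (nat_lit 303) (nat_lit 1) (nat_lit 292) (nat_lit 0) (nat_lit 303) (nat_lit 0) (nat_lit 340) (nat_lit 340) (nat_lit 340)) (XT.nd (nat_lit 78) (nat_lit 0) (nat_lit 0) (XT.lf (nat_lit 836) (nat_lit 200444542) (nat_lit 0) (nat_lit 1873083509) (nat_lit 760) (nat_lit 1831869414) (nat_lit 304) (nat_lit 1) (nat_lit 293) (nat_lit 1) (nat_lit 303) (nat_lit 1) (nat_lit 341) (nat_lit 340) (nat_lit 339)) (XT.lf (nat_lit 836) (nat_lit 1840967422)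 (nat_lit 76) (nat_lit 1254404657) (nat_lit 0) (nat_lit 665279009) (nat_lit 304) (nat_lit 1) (nat_lit 294) (nat_lit 1) (nat_lit 293) (nat_lit 1) (nat_lit 342) (nat_lit 340) (nat_lit 338)))) (XT.nd (nat_lit 156) (nat_lit 0) (nat_lit 152) (XT.nd (nat_lit 78) (nat_lit 0) (nat_lit 76) (XT.lf (nat_lit 836) (nat_lit 1590746667) (nat_lit 76) (nat_lit 525712297) (nat_lit 0) (nat_lit 1506689224) (nat_lit 305) (nat_lit 1) (nat_lit 295) (nat_lit 1) (nat_lit 294) (nat_lit 1) (nat_lit 343) (nat_lit 340) (nat_lit 337)) (XT.lf (nat_lit 836) (nat_lit 1177287774) (nat_lit 0) (nat_lit 2202649777) (nat_lit 760) (nat_lit 112599141) (nat_lit 306) (nat_lit 1) (nat_lit 295) (nat_lit 1) (nat_lit 305) (nat_lit 1) (nat_lit 344) (nat_lit 340) (nat_lit 336))) (XT.nd (nat_lit 78) (nat_lit 0) (nat_lit 0) (XT.lf (nat_lit 836) (nat_lit 282478658) (nat_lit 0) (nat_lit 2429033299) (nat_lit 760) (nat_lit 656650854) (nat_lit 307)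 (nat_lit 1) (nat_lit 296) (nat_lit 1) (nat_lit 306) (nat_lit 1) (nat_lit 345) (nat_lit 340) (nat_lit 335)) (XT.lf (nat_lit 836) (nat_lit 542809087) (nat_lit 76) (nat_lit 2111027742) (nat_lit 0) (nat_lit 595758074) (nat_lit 307) (nat_lit 1) (nat_lit 297) (nat_lit 1) (nat_lit 296) (nat_lit 1) (nat_lit 346) (nat_lit 340) (nat_lit 334))))) (XT.nd (nat_lit 234) (nat_lit 1064) (nat_lit 0) (XT.nd (nat_lit 78) (nat_lit 912) (nat_lit 0) (XT.lf (nat_lit 836) (nat_lit 111480608) (nat_lit 0) (nat_lit 1578132876) (nat_lit 760) (nat_lit 1447131312) (nat_lit 298) (nat_lit 1) (nat_lit 287) (nat_lit 1) (nat_lit 297) (nat_lit 1) (nat_lit 347) (nat_lit 340) (nat_lit 333)) (XT.nd (nat_lit 78) (nat_lit 380) (nat_lit 0) (XT.lf (nat_lit 76) (nat_lit 771914958) (nat_lit 0) (nat_lit 334506673) (nat_lit 532) (nat_lit 1922816402) (nat_lit 281) (nat_lit 1) (nat_lit 280) (nat_lit 1) (nat_lit 287) (nat_lit 1) (nat_lit 348)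 (nat_lit 340) (nat_lit 332)) (XT.lf (nat_lit 456) (nat_lit 2127300467) (nat_lit 0) (nat_lit 692482162) (nat_lit 380) (nat_lit 107062021) (nat_lit 281) (nat_lit 1) (nat_lit 275) (nat_lit 1) (nat_lit 280) (nat_lit 1) (nat_lit 349) (nat_lit 340) (nat_lit 331)))) (XT.nd (nat_lit 156) (nat_lit 380) (nat_lit 0) (XT.nd (nat_lit 78) (nat_lit 304) (nat_lit 0) (XT.lf (nat_lit 456) (nat_lit 1535080274) (nat_lit 0) (nat_lit 322768919) (nat_lit 380) (nat_lit 971004806) (nat_lit 276) (nat_lit 1) (nat_lit 270) (nat_lit 1) (nat_lit 275) (nat_lit 1) (nat_lit 350) (nat_lit 340) (nat_lit 330)) (XT.lf (nat_lit 380) (nat_lit 934076768) (nat_lit 0) (nat_lit 5942700) (nat_lit 304) (nat_lit 1795595233) (nat_lit 271) (nat_lit 1) (nat_lit 266) (nat_lit 1) (nat_lit 270) (nat_lit 1) (nat_lit 351) (nat_lit 340) (nat_lit 329))) (XT.nd (nat_lit 78) (nat_lit 380) (nat_lit 0) (XT.lf (nat_lit 76) (nat_lit 68911769) (nat_lit 0)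 (nat_lit 2324038787) (nat_lit 380) (nat_lit 253714021) (nat_lit 267) (nat_lit 1) (nat_lit 266) (nat_lit 1) (nat_lit 271) (nat_lit 1) (nat_lit 352) (nat_lit 340) (nat_lit 328)) (XT.lf (nat_lit 76) (nat_lit 1779319764) (nat_lit 0) (nat_lit 295119221) (nat_lit 380) (nat_lit 486705193) (nat_lit 262) (nat_lit 1) (nat_lit 261) (nat_lit 1) (nat_lit 266) (nat_lit 1) (nat_lit 353) (nat_lit 340) (nat_lit 327))))))) (XT.nd (nat_lit 1014) (nat_lit 2128) (nat_lit 0) (XT.nd (nat_lit 468) (nat_lit 1520) (nat_lit 0) (XT.nd (nat_lit 234) (nat_lit 836) (nat_lit 0) (XT.nd (nat_lit 78) (nat_lit 532) (nat_lit 0) (XT.lf (nat_lit 76) (nat_lit 890238767) (nat_lit 0) (nat_lit 904002563) (nat_lit 380) (nat_lit 685161176) (nat_lit 258) (nat_lit 1) (nat_lit 257) (nat_lit 1) (nat_lit 262) (nat_lit 1) (nat_lit 354) (nat_lit 340) (nat_lit 326)) (XT.nd (nat_lit 78) (nat_lit 228) (nat_lit 0) (XT.lf (nat_lit 76) (nat_lit 43940211)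 (nat_lit 0) (nat_lit 1511478249) (nat_lit 380) (nat_lit 846112571) (nat_lit 254) (nat_lit 1) (nat_lit 253) (nat_lit 1) (nat_lit 258) (nat_lit 1) (nat_lit 355) (nat_lit 340) (nat_lit 325)) (XT.lf (nat_lit 304) (nat_lit 198431518) (nat_lit 0) (nat_lit 1341897376) (nat_lit 228) (nat_lit 786382703) (nat_lit 254) (nat_lit 1) (nat_lit 250) (nat_lit 1) (nat_lit 253) (nat_lit 1) (nat_lit 356) (nat_lit 340) (nat_lit 324)))) (XT.nd (nat_lit 78) (nat_lit 456) (nat_lit 0) (XT.lf (nat_lit 76) (nat_lit 685634246) (nat_lit 0) (nat_lit 469937973) (nat_lit 380) (nat_lit 1099410870) (nat_lit 246) (nat_lit 1) (nat_lit 245) (nat_lit 1) (nat_lit 250) (nat_lit 1) (nat_lit 357) (nat_lit 340) (nat_lit 323)) (XT.nd (nat_lit 78) (nat_lit 228) (nat_lit 0) (XT.lf (nat_lit 304) (nat_lit 1061526730) (nat_lit 0) (nat_lit 997167164) (nat_lit 228) (nat_lit 127636213) (nat_lit 246) (nat_lit 1) (nat_lit 242) (nat_lit 1) (nat_lit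 245) (nat_lit 1) (nat_lit 358) (nat_lit 340) (nat_lit 322)) (XT.lf (nat_lit 304) (nat_lit 340214188) (nat_lit 0) (nat_lit 858520094) (nat_lit 228) (nat_lit 921581195) (nat_lit 243) (nat_lit 1) (nat_lit 239) (nat_lit 1) (nat_lit 242) (nat_lit 1) (nat_lit 359) (nat_lit 340) (nat_lit 321))))) (XT.nd (nat_lit 234) (nat_lit 836) (nat_lit 0) (XT.nd (nat_lit 78) (nat_lit 380) (nat_lit 0) (XT.lf (nat_lit 76) (nat_lit 387761968) (nat_lit 0) (nat_lit 355029779) (nat_lit 304) (nat_lit 1314250813) (nat_lit 236) (nat_lit 1) (nat_lit 235) (nat_lit 1) (nat_lit 239) (nat_lit 1) (nat_lit 360) (nat_lit 340) (nat_lit 320)) (XT.nd (nat_lit 78) (nat_lit 152) (nat_lit 0) (XT.lf (nat_lit 304) (nat_lit 964894765) (nat_lit 0) (nat_lit 642005220) (nat_lit 228) (nat_lit 389185675) (nat_lit 236) (nat_lit 1) (nat_lit 232) (nat_lit 1) (nat_lit 235) (nat_lit 1) (nat_lit 361) (nat_lit 340) (nat_lit 319)) (XT.lf (nat_lit 228)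 (nat_lit 239198837) (nat_lit 0) (nat_lit 560102726) (nat_lit 152) (nat_lit 1138286367) (nat_lit 233) (nat_lit 1) (nat_lit 230) (nat_lit 1) (nat_lit 232) (nat_lit 1) (nat_lit 362) (nat_lit 340) (nat_lit 318)))) (XT.nd (nat_lit 156) (nat_lit 380) (nat_lit 0) (XT.nd (nat_lit 78) (nat_lit 152) (nat_lit 0) (XT.lf (nat_lit 76) (nat_lit 40521811) (nat_lit 0) (nat_lit 453447863) (nat_lit 304) (nat_lit 1387388053) (nat_lit 227) (nat_lit 1) (nat_lit 226) (nat_lit 1) (nat_lit 230) (nat_lit 1) (nat_lit 363) (nat_lit 340) (nat_lit 317)) (XT.lf (nat_lit 228) (nat_lit 695067930) (nat_lit 0) (nat_lit 434357826) (nat_lit 152) (nat_lit 697486773) (nat_lit 227) (nat_lit 1) (nat_lit 224) (nat_lit 1) (nat_lit 226) (nat_lit 1) (nat_lit 364) (nat_lit 340) (nat_lit 316))) (XT.nd (nat_lit 78) (nat_lit 152) (nat_lit 0) (XT.lf (nat_lit 76) (nat_lit 377114811) (nat_lit 0) (nat_lit 17419169) (nat_lit 228) (nat_lit 1380309152)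 (nat_lit 222) (nat_lit 1) (nat_lit 221) (nat_lit 1) (nat_lit 224) (nat_lit 1) (nat_lit 365) (nat_lit 340) (nat_lit 315)) (XT.lf (nat_lit 228) (nat_lit 1030959073) (nat_lit 0) (nat_lit 357250434) (nat_lit 152) (nat_lit 336078891) (nat_lit 222) (nat_lit 1) (nat_lit 219) (nat_lit 1) (nat_lit 221) (nat_lit 1) (nat_lit 366) (nat_lit 340) (nat_lit 314)))))) (XT.nd (nat_lit 546) (nat_lit 988) (nat_lit 0) (XT.nd (nat_lit 234) (nat_lit 608) (nat_lit 0) (XT.nd (nat_lit 78) (nat_lit 380) (nat_lit 0) (XT.lf (nat_lit 228) (nat_lit 320257201) (nat_lit 0) (nat_lit 332103784) (nat_lit 152) (nat_lit 1023305607) (nat_lit 220) (nat_lit 1) (nat_lit 217) (nat_lit 1) (nat_lit 219) (nat_lit 1) (nat_lit 367) (nat_lit 340) (nat_lit 313)) (XT.nd (nat_lit 78) (nat_lit 152) (nat_lit 0) (XT.lf (nat_lit 228) (nat_lit 1271303392) (nat_lit 0) (nat_lit 317298211) (nat_lit 152) (nat_lit 40252959) (nat_lit 217) (nat_lit 1) (nat_lit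 214) (nat_lit 1) (nat_lit 216) (nat_lit 1) (nat_lit 368) (nat_lit 340) (nat_lit 312)) (XT.lf (nat_lit 228) (nat_lit 568976478) (nat_lit 0) (nat_lit 302912815) (nat_lit 152) (nat_lit 711453996) (nat_lit 215) (nat_lit 1) (nat_lit 212) (nat_lit 1) (nat_lit 214) (nat_lit 1) (nat_lit 369) (nat_lit 340) (nat_lit 311)))) (XT.nd (nat_lit 156) (nat_lit 304) (nat_lit 0) (XT.nd (nat_lit 78) (nat_lit 152) (nat_lit 0) (XT.lf (nat_lit 76) (nat_lit 194896411) (nat_lit 0) (nat_lit 107123850) (nat_lit 152) (nat_lit 1237699446) (nat_lit 211) (nat_lit 1) (nat_lit 210) (nat_lit 1) (nat_lit 212) (nat_lit 1) (nat_lit 370) (nat_lit 340) (nat_lit 310)) (XT.lf (nat_lit 228) (nat_lit 746529862) (nat_lit 0) (nat_lit 298822203) (nat_lit 152) (nat_lit 451844860) (nat_lit 211) (nat_lit 1) (nat_lit 208) (nat_lit 1) (nat_lit 210) (nat_lit 1) (nat_lit 371) (nat_lit 340) (nat_lit 309))) (XT.nd (nat_lit 78) (nat_lit 228) (nat_lit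 0) (XT.lf (nat_lit 152) (nat_lit 80390658) (nat_lit 0) (nat_lit 306161662) (nat_lit 76) (nat_lit 1069800566) (nat_lit 209) (nat_lit 1) (nat_lit 207) (nat_lit 1) (nat_lit 208) (nat_lit 1) (nat_lit 372) (nat_lit 340) (nat_lit 308)) (XT.lf (nat_lit 228) (nat_lit 867787474) (nat_lit 0) (nat_lit 313121680) (nat_lit 152) (nat_lit 235725891) (nat_lit 207) (nat_lit 1) (nat_lit 204) (nat_lit 1) (nat_lit 206) (nat_lit 1) (nat_lit 373) (nat_lit 340) (nat_lit 307))))) (XT.nd (nat_lit 234) (nat_lit 608) (nat_lit 0) (XT.nd (nat_lit 78) (nat_lit 304) (nat_lit 0) (XT.lf (nat_lit 152) (nat_lit 218254948) (nat_lit 0) (nat_lit 324829615) (nat_lit 76) (nat_lit 835171210) (nat_lit 205) (nat_lit 1) (nat_lit 203) (nat_lit 1) (nat_lit 204) (nat_lit 1) (nat_lit 374) (nat_lit 340) (nat_lit 306)) (XT.nd (nat_lit 78) (nat_lit 76) (nat_lit 0) (XT.lf (nat_lit 228) (nat_lit 944771998) (nat_lit 0) (nat_lit 340496244) (nat_lit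 152) (nat_lit 55878348) (nat_lit 203) (nat_lit 1) (nat_lit 200) (nat_lit 1) (nat_lit 202) (nat_lit 1) (nat_lit 375) (nat_lit 340) (nat_lit 305)) (XT.lf (nat_lit 152) (nat_lit 314098814) (nat_lit 0) (nat_lit 354971426) (nat_lit 76) (nat_lit 635961965) (nat_lit 201) (nat_lit 1) (nat_lit 199) (nat_lit 1) (nat_lit 200) (nat_lit 1) (nat_lit 376) (nat_lit 340) (nat_lit 304)))) (XT.nd (nat_lit 156) (nat_lit 304) (nat_lit 0) (XT.nd (nat_lit 78) (nat_lit 76) (nat_lit 0) (XT.lf (nat_lit 76) (nat_lit 90661417) (nat_lit 0) (nat_lit 284562023) (nat_lit 228) (nat_lit 894991790) (nat_lit 197) (nat_lit 1) (nat_lit 196) (nat_lit 1) (nat_lit 199) (nat_lit 1) (nat_lit 377) (nat_lit 340) (nat_lit 303)) (XT.lf (nat_lit 152) (nat_lit 376946915) (nat_lit 0) (nat_lit 392760819) (nat_lit 76) (nat_lit 466555180) (nat_lit 197) (nat_lit 1) (nat_lit 195) (nat_lit 1) (nat_lit 196) (nat_lit 1) (nat_lit 378) (nat_lit 340) (nat_lit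 302))) (XT.nd (nat_lit 78) (nat_lit 76) (nat_lit 0) (XT.lf (nat_lit 76) (nat_lit 210844699) (nat_lit 0) (nat_lit 204217349) (nat_lit 228) (nat_lit 788441718) (nat_lit 193) (nat_lit 1) (nat_lit 192) (nat_lit 1) (nat_lit 195) (nat_lit 1) (nat_lit 379) (nat_lit 340) (nat_lit 301)) (XT.lf (nat_lit 152) (nat_lit 414077032) (nat_lit 0) (nat_lit 435210957) (nat_lit 76) (nat_lit 322293612) (nat_lit 193) (nat_lit 1) (nat_lit 191) (nat_lit 1) (nat_lit 192) (nat_lit 1) (nat_lit 380) (nat_lit 340) (nat_lit 300))))))))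
noncomputable def ec26 : XT := (XT.nd (nat_lit 2028) (nat_lit 1292) (nat_lit 0) (XT.nd (nat_lit 1014) (nat_lit 1520) (nat_lit 0) (XT.nd (nat_lit 468) (nat_lit 836) (nat_lit 0) (XT.nd (nat_lit 234) (nat_lit 304) (nat_lit 0) (XT.nd (nat_lit 78) (nat_lit 228) (nat_lit 0) (XT.lf (nat_lit 76) (nat_lit 310412153) (nat_lit 0) (nat_lit 147905837) (nat_lit 152) (nat_lit 682395689) (nat_lit 190) (nat_lit 1) (nat_lit 189) (nat_lit 1) (nat_lit 191) (nat_lit 1) (nat_lit 381) (nat_lit 340) (nat_lit 299)) (XT.nd (nat_lit 78) (nat_lit 152) (nat_lit 0) (XT.lf (nat_lit 152) (nat_lit 431346478) (nat_lit 0) (nat_lit 480010833) (nat_lit 76) (nat_lit 199309110) (nat_lit 190) (nat_lit 1) (nat_lit 188) (nat_lit 1) (nat_lit 189) (nat_lit 1) (nat_lit 382) (nat_lit 340) (nat_lit 298)) (XT.lf (nat_lit 76) (nat_lit 392642513) (nat_lit 0) (nat_lit 110339683) (nat_lit 152) (nat_lit 578561190) (nat_lit 187) (nat_lit 1) (nat_lit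 186) (nat_lit 1) (nat_lit 188) (nat_lit 1) (nat_lit 383) (nat_lit 340) (nat_lit 297)))) (XT.nd (nat_lit 78) (nat_lit 228) (nat_lit 0) (XT.lf (nat_lit 152) (nat_lit 433458259) (nat_lit 0) (nat_lit 525392314) (nat_lit 76) (nat_lit 94382410) (nat_lit 187) (nat_lit 1) (nat_lit 185) (nat_lit 1) (nat_lit 186) (nat_lit 1) (nat_lit 384) (nat_lit 340) (nat_lit 296)) (XT.nd (nat_lit 78) (nat_lit 76) (nat_lit 0) (XT.lf (nat_lit 76) (nat_lit 460260770) (nat_lit 0) (nat_lit 87267000) (nat_lit 152) (nat_lit 478197773) (nat_lit 184) (nat_lit 1) (nat_lit 183) (nat_lit 1) (nat_lit 185) (nat_lit 1) (nat_lit 385) (nat_lit 340) (nat_lit 295)) (XT.lf (nat_lit 152) (nat_lit 424178051) (nat_lit 0) (nat_lit 570022157) (nat_lit 76) (nat_lit 4828364) (nat_lit 184) (nat_lit 1) (nat_lit 182) (nat_lit 1) (nat_lit 183) (nat_lit 1) (nat_lit 386) (nat_lit 340) (nat_lit 294))))) (XT.nd (nat_lit 234) (nat_lit 456) (nat_lit 0)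 (XT.nd (nat_lit 78) (nat_lit 228) (nat_lit 0) (XT.lf (nat_lit 76) (nat_lit 515536196) (nat_lit 0) (nat_lit 75277308) (nat_lit 152) (nat_lit 382208335) (nat_lit 181) (nat_lit 1) (nat_lit 180) (nat_lit 1) (nat_lit 182) (nat_lit 1) (nat_lit 387) (nat_lit 340) (nat_lit 293)) (XT.nd (nat_lit 78) (nat_lit 152) (nat_lit 0) (XT.lf (nat_lit 0) (nat_lit 69306473) (nat_lit 0) (nat_lit 542434178) (nat_lit 152) (nat_lit 336030834) (nat_lit 179) (nat_lit 3) (nat_lit 179) (nat_lit 1) (nat_lit 181) (nat_lit 1) (nat_lit 388) (nat_lit 340) (nat_lit 292)) (XT.lf (nat_lit 76) (nat_lit 560362614) (nat_lit 0) (nat_lit 71642993) (nat_lit 152) (nat_lit 291213071) (nat_lit 178) (nat_lit 1) (nat_lit 177) (nat_lit 1) (nat_lit 179) (nat_lit 1) (nat_lit 389) (nat_lit 340) (nat_lit 291)))) (XT.nd (nat_lit 156) (nat_lit 228) (nat_lit 0) (XT.nd (nat_lit 78) (nat_lit 152) (nat_lit 0) (XT.lf (nat_lit 0) (nat_lit 132401004) (nat_lit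 0) (nat_lit 518716003) (nat_lit 152) (nat_lit 248202761) (nat_lit 176) (nat_lit 3) (nat_lit 176) (nat_lit 1) (nat_lit 178) (nat_lit 1) (nat_lit 390) (nat_lit 340) (nat_lit 290)) (XT.lf (nat_lit 76) (nat_lit 596324170) (nat_lit 0) (nat_lit 74190126) (nat_lit 152) (nat_lit 205609313) (nat_lit 175) (nat_lit 1) (nat_lit 174) (nat_lit 1) (nat_lit 176) (nat_lit 1) (nat_lit 391) (nat_lit 340) (nat_lit 289))) (XT.nd (nat_lit 78) (nat_lit 152) (nat_lit 0) (XT.lf (nat_lit 0) (nat_lit 186141077) (nat_lit 0) (nat_lit 501572358) (nat_lit 152) (nat_lit 165779338) (nat_lit 173) (nat_lit 3) (nat_lit 173) (nat_lit 1) (nat_lit 175) (nat_lit 1) (nat_lit 392) (nat_lit 340) (nat_lit 288)) (XT.lf (nat_lit 76) (nat_lit 624749254) (nat_lit 0) (nat_lit 81193229) (nat_lit 152) (nat_lit 125619881) (nat_lit 172) (nat_lit 1) (nat_lit 171) (nat_lit 1) (nat_lit 173) (nat_lit 1) (nat_lit 393) (nat_lit 340) (nat_lit 287))))))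 (XT.nd (nat_lit 468) (nat_lit 760) (nat_lit 0) (XT.nd (nat_lit 234) (nat_lit 456) (nat_lit 0) (XT.nd (nat_lit 78) (nat_lit 228) (nat_lit 0) (XT.lf (nat_lit 0) (nat_lit 231817741) (nat_lit 0) (nat_lit 489371534) (nat_lit 152) (nat_lit 88933958) (nat_lit 170) (nat_lit 3) (nat_lit 170) (nat_lit 1) (nat_lit 172) (nat_lit 1) (nat_lit 394) (nat_lit 340) (nat_lit 286)) (XT.nd (nat_lit 78) (nat_lit 76) (nat_lit 0) (XT.lf (nat_lit 76) (nat_lit 646754717) (nat_lit 0) (nat_lit 91289586) (nat_lit 152) (nat_lit 51332082) (nat_lit 169) (nat_lit 1) (nat_lit 168) (nat_lit 1) (nat_lit 170) (nat_lit 1) (nat_lit 395) (nat_lit 340) (nat_lit 285)) (XT.lf (nat_lit 0) (nat_lit 270522918) (nat_lit 0) (nat_lit 480818980) (nat_lit 152) (nat_lit 17716833) (nat_lit 167) (nat_lit 3) (nat_lit 167) (nat_lit 1) (nat_lit 169) (nat_lit 1) (nat_lit 396) (nat_lit 340) (nat_lit 284)))) (XT.nd (nat_lit 78) (nat_lit 228) (nat_lit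 0) (XT.lf (nat_lit 152) (nat_lit 645718777) (nat_lit 0) (nat_lit 17841954) (nat_lit 76) (nat_lit 85846108) (nat_lit 166) (nat_lit 1) (nat_lit 164) (nat_lit 1) (nat_lit 165) (nat_lit 1) (nat_lit 397) (nat_lit 340) (nat_lit 283)) (XT.nd (nat_lit 78) (nat_lit 152) (nat_lit 0) (XT.lf (nat_lit 76) (nat_lit 254455609) (nat_lit 0) (nat_lit 49500408) (nat_lit 76) (nat_lit 426165112) (nat_lit 164) (nat_lit 3) (nat_lit 163) (nat_lit 1) (nat_lit 164) (nat_lit 1) (nat_lit 398) (nat_lit 340) (nat_lit 282)) (XT.lf (nat_lit 152) (nat_lit 593483332) (nat_lit 0) (nat_lit 82939370) (nat_lit 76) (nat_lit 35075093) (nat_lit 163) (nat_lit 1) (nat_lit 161) (nat_lit 1) (nat_lit 162) (nat_lit 1) (nat_lit 399) (nat_lit 340) (nat_lit 281))))) (XT.nd (nat_lit 234) (nat_lit 456) (nat_lit 0) (XT.nd (nat_lit 78) (nat_lit 228) (nat_lit 0) (XT.lf (nat_lit 76) (nat_lit 220677215) (nat_lit 0) (nat_lit 111653517) (nat_lit 76)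 (nat_lit 360880284) (nat_lit 161) (nat_lit 3) (nat_lit 160) (nat_lit 1) (nat_lit 161) (nat_lit 1) (nat_lit 400) (nat_lit 340) (nat_lit 280)) (XT.nd (nat_lit 78) (nat_lit 76) (nat_lit 0) (XT.lf (nat_lit 0) (nat_lit 9314418) (nat_lit 0) (nat_lit 132950281) (nat_lit 152) (nat_lit 533295820) (nat_lit 158) (nat_lit 3) (nat_lit 158) (nat_lit 1) (nat_lit 160) (nat_lit 1) (nat_lit 401) (nat_lit 340) (nat_lit 279)) (XT.lf (nat_lit 76) (nat_lit 187708418) (nat_lit 0) (nat_lit 168329840) (nat_lit 76) (nat_lit 302186069) (nat_lit 158) (nat_lit 3) (nat_lit 157) (nat_lit 1) (nat_lit 158) (nat_lit 1) (nat_lit 402) (nat_lit 340) (nat_lit 278)))) (XT.nd (nat_lit 156) (nat_lit 228) (nat_lit 0) (XT.nd (nat_lit 78) (nat_lit 76) (nat_lit 0) (XT.lf (nat_lit 0) (nat_lit 47371089) (nat_lit 0) (nat_lit 148321399) (nat_lit 152) (nat_lit 445773471) (nat_lit 155) (nat_lit 3) (nat_lit 155) (nat_lit 1) (nat_lit 157) (nat_lit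 1) (nat_lit 403) (nat_lit 340) (nat_lit 277)) (XT.lf (nat_lit 76) (nat_lit 155918764) (nat_lit 0) (nat_lit 219741466) (nat_lit 76) (nat_lit 249391273) (nat_lit 155) (nat_lit 3) (nat_lit 154) (nat_lit 1) (nat_lit 155) (nat_lit 1) (nat_lit 404) (nat_lit 340) (nat_lit 276))) (XT.nd (nat_lit 78) (nat_lit 76) (nat_lit 0) (XT.lf (nat_lit 0) (nat_lit 80797503) (nat_lit 0) (nat_lit 163224759) (nat_lit 152) (nat_lit 365113591) (nat_lit 152) (nat_lit 3) (nat_lit 152) (nat_lit 1) (nat_lit 154) (nat_lit 1) (nat_lit 405) (nat_lit 340) (nat_lit 275)) (XT.lf (nat_lit 76) (nat_lit 125570994) (nat_lit 0) (nat_lit 266127292) (nat_lit 76) (nat_lit 201892528) (nat_lit 152) (nat_lit 3) (nat_lit 151) (nat_lit 1) (nat_lit 152) (nat_lit 1) (nat_lit 406) (nat_lit 340) (nat_lit 274))))))) (XT.nd (nat_lit 47892) (nat_lit 0) (nat_lit 9044) (XT.nd (nat_lit 468) (nat_lit 608) (nat_lit 0) (XT.nd (nat_lit 234) (nat_lit 304)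 (nat_lit 0) (XT.nd (nat_lit 78) (nat_lit 228) (nat_lit 0) (XT.lf (nat_lit 0) (nat_lit 110098592) (nat_lit 0) (nat_lit 177401532) (nat_lit 152) (nat_lit 290971829) (nat_lit 149) (nat_lit 3) (nat_lit 149) (nat_lit 1) (nat_lit 151) (nat_lit 1) (nat_lit 407) (nat_lit 340) (nat_lit 273)) (XT.nd (nat_lit 78) (nat_lit 152) (nat_lit 0) (XT.lf (nat_lit 76) (nat_lit 96843284) (nat_lit 0) (nat_lit 307743443) (nat_lit 76) (nat_lit 159160821) (nat_lit 149) (nat_lit 3) (nat_lit 148) (nat_lit 1) (nat_lit 149) (nat_lit 1) (nat_lit 408) (nat_lit 340) (nat_lit 272)) (XT.lf (nat_lit 0) (nat_lit 135715801) (nat_lit 0) (nat_lit 190669537) (nat_lit 152) (nat_lit 222997333) (nat_lit 146) (nat_lit 3) (nat_lit 146) (nat_lit 1) (nat_lit 148) (nat_lit 1) (nat_lit 409) (nat_lit 340) (nat_lit 271)))) (XT.nd (nat_lit 78) (nat_lit 228) (nat_lit 0) (XT.lf (nat_lit 76) (nat_lit 69847233) (nat_lit 0) (nat_lit 344855756) (nat_lit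 76) (nat_lit 120730322) (nat_lit 146) (nat_lit 3) (nat_lit 145) (nat_lit 1) (nat_lit 146) (nat_lit 1) (nat_lit 410) (nat_lit 340) (nat_lit 270)) (XT.nd (nat_lit 78) (nat_lit 76) (nat_lit 0) (XT.lf (nat_lit 0) (nat_lit 158036641) (nat_lit 0) (nat_lit 202907090) (nat_lit 152) (nat_lit 160838684) (nat_lit 143) (nat_lit 3) (nat_lit 143) (nat_lit 1) (nat_lit 145) (nat_lit 1) (nat_lit 411) (nat_lit 340) (nat_lit 269)) (XT.lf (nat_lit 76) (nat_lit 44642396) (nat_lit 0) (nat_lit 377733927) (nat_lit 76) (nat_lit 86189108) (nat_lit 143) (nat_lit 3) (nat_lit 142) (nat_lit 1) (nat_lit 143) (nat_lit 1) (nat_lit 412) (nat_lit 340) (nat_lit 268))))) (XT.nd (nat_lit 234) (nat_lit 228) (nat_lit 0) (XT.nd (nat_lit 78) (nat_lit 228) (nat_lit 0) (XT.lf (nat_lit 0) (nat_lit 177402644) (nat_lit 0) (nat_lit 214039957) (nat_lit 152) (nat_lit 104148455) (nat_lit 140) (nat_lit 3) (nat_lit 140) (nat_lit 1) (nat_lit 142)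 (nat_lit 1) (nat_lit 413) (nat_lit 340) (nat_lit 267)) (XT.nd (nat_lit 78) (nat_lit 152) (nat_lit 0) (XT.lf (nat_lit 76) (nat_lit 21247999) (nat_lit 0) (nat_lit 406647003) (nat_lit 76) (nat_lit 55171436) (nat_lit 140) (nat_lit 3) (nat_lit 139) (nat_lit 1) (nat_lit 140) (nat_lit 1) (nat_lit 414) (nat_lit 340) (nat_lit 266)) (XT.lf (nat_lit 0) (nat_lit 194115975) (nat_lit 0) (nat_lit 224030823) (nat_lit 152) (nat_lit 52586630) (nat_lit 137) (nat_lit 3) (nat_lit 137) (nat_lit 1) (nat_lit 139) (nat_lit 1) (nat_lit 415) (nat_lit 340) (nat_lit 265)))) (XT.nd (nat_lit 47034) (nat_lit 0) (nat_lit 12008) (XT.nd (nat_lit 78) (nat_lit 76) (nat_lit 0) (XT.lf (nat_lit 76) (nat_lit 431517743) (nat_lit 0) (nat_lit 336510) (nat_lit 152) (nat_lit 27009087) (nat_lit 136) (nat_lit 1) (nat_lit 135) (nat_lit 1) (nat_lit 137) (nat_lit 1) (nat_lit 416) (nat_lit 340) (nat_lit 264)) (XT.lf (nat_lit 0) (nat_lit 208444957)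 (nat_lit 0) (nat_lit 232870824) (nat_lit 152) (nat_lit 5823139) (nat_lit 134) (nat_lit 3) (nat_lit 134) (nat_lit 1) (nat_lit 136) (nat_lit 1) (nat_lit 417) (nat_lit 340) (nat_lit 263))) (XT.nd (nat_lit 78) (nat_lit 0) (nat_lit 76) (XT.lf (nat_lit 836) (nat_lit 580327878) (nat_lit 0) (nat_lit 1030370814) (nat_lit 836) (nat_lit 580327878) (nat_lit 303) (nat_lit 1) (nat_lit 292) (nat_lit 0) (nat_lit 303) (nat_lit 0) (nat_lit 338) (nat_lit 341) (nat_lit 341)) (XT.lf (nat_lit 836) (nat_lit 216480105) (nat_lit 0) (nat_lit 2022930190) (nat_lit 760) (nat_lit 1978418967) (nat_lit 304) (nat_lit 1) (nat_lit 293) (nat_lit 1) (nat_lit 303) (nat_lit 1) (nat_lit 339) (nat_lit 341) (nat_lit 340)))))) (XT.nd (nat_lit 546) (nat_lit 2052) (nat_lit 0) (XT.nd (nat_lit 234) (nat_lit 988) (nat_lit 0) (XT.nd (nat_lit 78) (nat_lit 0) (nat_lit 76) (XT.lf (nat_lit 836) (nat_lit 1988244816) (nat_lit 76) (nat_lit 1354757030)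 (nat_lit 0) (nat_lit 718501330) (nat_lit 304) (nat_lit 1) (nat_lit 294) (nat_lit 1) (nat_lit 293) (nat_lit 1) (nat_lit 340) (nat_lit 341) (nat_lit 339)) (XT.nd (nat_lit 78) (nat_lit 0) (nat_lit 76) (XT.lf (nat_lit 836) (nat_lit 1718006400) (nat_lit 76) (nat_lit 567769281) (nat_lit 0) (nat_lit 1627224362) (nat_lit 305) (nat_lit 1) (nat_lit 295) (nat_lit 1) (nat_lit 294) (nat_lit 1) (nat_lit 341) (nat_lit 341) (nat_lit 338)) (XT.lf (nat_lit 836) (nat_lit 1271470796) (nat_lit 0) (nat_lit 2378861760) (nat_lit 760) (nat_lit 121607073) (nat_lit 306) (nat_lit 1) (nat_lit 295) (nat_lit 1) (nat_lit 305) (nat_lit 1) (nat_lit 342) (nat_lit 341) (nat_lit 337)))) (XT.nd (nat_lit 156) (nat_lit 1216) (nat_lit 0) (XT.nd (nat_lit 78) (nat_lit 0) (nat_lit 0) (XT.lf (nat_lit 836) (nat_lit 305076951) (nat_lit 0) (nat_lit 2623355963) (nat_lit 760) (nat_lit 709182922) (nat_lit 307) (nat_lit 1) (nat_lit 296) (nat_lit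 1) (nat_lit 306) (nat_lit 1) (nat_lit 343) (nat_lit 341) (nat_lit 336)) (XT.lf (nat_lit 836) (nat_lit 586233814) (nat_lit 76) (nat_lit 2279909961) (nat_lit 0) (nat_lit 643418719) (nat_lit 307) (nat_lit 1) (nat_lit 297) (nat_lit 1) (nat_lit 296) (nat_lit 1) (nat_lit 344) (nat_lit 341) (nat_lit 335))) (XT.nd (nat_lit 78) (nat_lit 532) (nat_lit 0) (XT.lf (nat_lit 836) (nat_lit 120399057) (nat_lit 0) (nat_lit 1704383506) (nat_lit 760) (nat_lit 1562901817) (nat_lit 298) (nat_lit 1) (nat_lit 287) (nat_lit 1) (nat_lit 297) (nat_lit 1) (nat_lit 345) (nat_lit 341) (nat_lit 334)) (XT.lf (nat_lit 76) (nat_lit 833668155) (nat_lit 0) (nat_lit 361267207) (nat_lit 532) (nat_lit 2076641715) (nat_lit 281) (nat_lit 1) (nat_lit 280) (nat_lit 1) (nat_lit 287) (nat_lit 1) (nat_lit 346) (nat_lit 341) (nat_lit 333))))) (XT.nd (nat_lit 234) (nat_lit 988) (nat_lit 0) (XT.nd (nat_lit 78) (nat_lit 684) (nat_lit 0) (XT.lf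 (nat_lit 456) (nat_lit 2297484504) (nat_lit 0) (nat_lit 747880736) (nat_lit 380) (nat_lit 115626982) (nat_lit 281) (nat_lit 1) (nat_lit 275) (nat_lit 1) (nat_lit 280) (nat_lit 1) (nat_lit 347) (nat_lit 341) (nat_lit 332)) (XT.nd (nat_lit 78) (nat_lit 304) (nat_lit 0) (XT.lf (nat_lit 456) (nat_lit 1657886696) (nat_lit 0) (nat_lit 348590432) (nat_lit 380) (nat_lit 1048685190) (nat_lit 276) (nat_lit 1) (nat_lit 270) (nat_lit 1) (nat_lit 275) (nat_lit 1) (nat_lit 348) (nat_lit 341) (nat_lit 331)) (XT.lf (nat_lit 380) (nat_lit 1008802910) (nat_lit 0) (nat_lit 6418116) (nat_lit 304) (nat_lit 1939242852) (nat_lit 271) (nat_lit 1) (nat_lit 266) (nat_lit 1) (nat_lit 270) (nat_lit 1) (nat_lit 349) (nat_lit 341) (nat_lit 330)))) (XT.nd (nat_lit 156) (nat_lit 608) (nat_lit 0) (XT.nd (nat_lit 78) (nat_lit 380) (nat_lit 0) (XT.lf (nat_lit 76) (nat_lit 74424711) (nat_lit 0) (nat_lit 2509961890) (nat_lit 380)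 (nat_lit 274011143) (nat_lit 267) (nat_lit 1) (nat_lit 266) (nat_lit 1) (nat_lit 271) (nat_lit 1) (nat_lit 350) (nat_lit 341) (nat_lit 329)) (XT.lf (nat_lit 76) (nat_lit 1921665345) (nat_lit 0) (nat_lit 318728759) (nat_lit 380) (nat_lit 525641609) (nat_lit 262) (nat_lit 1) (nat_lit 261) (nat_lit 1) (nat_lit 266) (nat_lit 1) (nat_lit 351) (nat_lit 341) (nat_lit 328))) (XT.nd (nat_lit 78) (nat_lit 304) (nat_lit 0) (XT.lf (nat_lit 76) (nat_lit 961457868) (nat_lit 0) (nat_lit 976322768) (nat_lit 380) (nat_lit 739974070) (nat_lit 258) (nat_lit 1) (nat_lit 257) (nat_lit 1) (nat_lit 262) (nat_lit 1) (nat_lit 352) (nat_lit 341) (nat_lit 327)) (XT.lf (nat_lit 76) (nat_lit 47455428) (nat_lit 0) (nat_lit 1632396509) (nat_lit 380) (nat_lit 913801577) (nat_lit 254) (nat_lit 1) (nat_lit 253) (nat_lit 1) (nat_lit 258) (nat_lit 1) (nat_lit 353) (nat_lit 341) (nat_lit 326))))))))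
noncomputable def ec27 : XT := (XT.nd (nat_lit 2106) (nat_lit 3192) (nat_lit 0) (XT.nd (nat_lit 1014) (nat_lit 1976) (nat_lit 0) (XT.nd (nat_lit 468) (nat_lit 1368) (nat_lit 0) (XT.nd (nat_lit 234) (nat_lit 760) (nat_lit 0) (XT.nd (nat_lit 78) (nat_lit 608) (nat_lit 0) (XT.lf (nat_lit 304) (nat_lit 214306040) (nat_lit 0) (nat_lit 1449249167) (nat_lit 228) (nat_lit 849293319) (nat_lit 254) (nat_lit 1) (nat_lit 250) (nat_lit 1) (nat_lit 253) (nat_lit 1) (nat_lit 354) (nat_lit 341) (nat_lit 325)) (XT.nd (nat_lit 78) (nat_lit 228) (nat_lit 0) (XT.lf (nat_lit 76) (nat_lit 740484986) (nat_lit 0) (nat_lit 507533010) (nat_lit 380) (nat_lit 1187363740) (nat_lit 246) (nat_lit 1) (nat_lit 245) (nat_lit 1) (nat_lit 250) (nat_lit 1) (nat_lit 355) (nat_lit 341) (nat_lit 324)) (XT.lf (nat_lit 304) (nat_lit 1146448868) (nat_lit 0) (nat_lit 1076940537) (nat_lit 228) (nat_lit 137847110) (nat_lit 246) (nat_lit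 1) (nat_lit 242) (nat_lit 1) (nat_lit 245) (nat_lit 1) (nat_lit 356) (nat_lit 341) (nat_lit 323)))) (XT.nd (nat_lit 78) (nat_lit 532) (nat_lit 0) (XT.lf (nat_lit 304) (nat_lit 367431323) (nat_lit 0) (nat_lit 927201702) (nat_lit 228) (nat_lit 995307691) (nat_lit 243) (nat_lit 1) (nat_lit 239) (nat_lit 1) (nat_lit 242) (nat_lit 1) (nat_lit 357) (nat_lit 341) (nat_lit 322)) (XT.nd (nat_lit 78) (nat_lit 228) (nat_lit 0) (XT.lf (nat_lit 76) (nat_lit 418782926) (nat_lit 0) (nat_lit 383432161) (nat_lit 304) (nat_lit 1419390879) (nat_lit 236) (nat_lit 1) (nat_lit 235) (nat_lit 1) (nat_lit 239) (nat_lit 1) (nat_lit 358) (nat_lit 341) (nat_lit 321)) (XT.lf (nat_lit 304) (nat_lit 1042086346) (nat_lit 0) (nat_lit 693365638) (nat_lit 228) (nat_lit 420320529) (nat_lit 236) (nat_lit 1) (nat_lit 232) (nat_lit 1) (nat_lit 235) (nat_lit 1) (nat_lit 359) (nat_lit 341) (nat_lit 320))))) (XT.nd (nat_lit 234) (nat_lit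 760) (nat_lit 0) (XT.nd (nat_lit 78) (nat_lit 456) (nat_lit 0) (XT.lf (nat_lit 228) (nat_lit 258334743) (nat_lit 0) (nat_lit 604910945) (nat_lit 152) (nat_lit 1229349277) (nat_lit 233) (nat_lit 1) (nat_lit 230) (nat_lit 1) (nat_lit 232) (nat_lit 1) (nat_lit 360) (nat_lit 341) (nat_lit 319)) (XT.nd (nat_lit 78) (nat_lit 152) (nat_lit 0) (XT.lf (nat_lit 76) (nat_lit 43763556) (nat_lit 0) (nat_lit 489723693) (nat_lit 304) (nat_lit 1498379097) (nat_lit 227) (nat_lit 1) (nat_lit 226) (nat_lit 1) (nat_lit 230) (nat_lit 1) (nat_lit 361) (nat_lit 341) (nat_lit 318)) (XT.lf (nat_lit 228) (nat_lit 750673364) (nat_lit 0) (nat_lit 469106452) (nat_lit 152) (nat_lit 753285715) (nat_lit 227) (nat_lit 1) (nat_lit 224) (nat_lit 1) (nat_lit 226) (nat_lit 1) (nat_lit 362) (nat_lit 341) (nat_lit 317)))) (XT.nd (nat_lit 156) (nat_lit 380) (nat_lit 0) (XT.nd (nat_lit 78) (nat_lit 152) (nat_lit 0) (XT.lf (nat_lit 76)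 (nat_lit 407283996) (nat_lit 0) (nat_lit 18812703) (nat_lit 228) (nat_lit 1490733885) (nat_lit 222) (nat_lit 1) (nat_lit 221) (nat_lit 1) (nat_lit 224) (nat_lit 1) (nat_lit 363) (nat_lit 341) (nat_lit 316)) (XT.lf (nat_lit 228) (nat_lit 1113435799) (nat_lit 0) (nat_lit 385830469) (nat_lit 152) (nat_lit 362965202) (nat_lit 222) (nat_lit 1) (nat_lit 219) (nat_lit 1) (nat_lit 221) (nat_lit 1) (nat_lit 364) (nat_lit 341) (nat_lit 315))) (XT.nd (nat_lit 78) (nat_lit 228) (nat_lit 0) (XT.lf (nat_lit 228) (nat_lit 345877777) (nat_lit 0) (nat_lit 358672087) (nat_lit 152) (nat_lit 1105170056) (nat_lit 220) (nat_lit 1) (nat_lit 217) (nat_lit 1) (nat_lit 219) (nat_lit 1) (nat_lit 365) (nat_lit 341) (nat_lit 314)) (XT.lf (nat_lit 228) (nat_lit 1373007663) (nat_lit 0) (nat_lit 342682067) (nat_lit 152) (nat_lit 43473195) (nat_lit 217) (nat_lit 1) (nat_lit 214) (nat_lit 1) (nat_lit 216) (nat_lit 1) (nat_lit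 366) (nat_lit 341) (nat_lit 313)))))) (XT.nd (nat_lit 546) (nat_lit 912) (nat_lit 0) (XT.nd (nat_lit 234) (nat_lit 608) (nat_lit 0) (XT.nd (nat_lit 78) (nat_lit 304) (nat_lit 0) (XT.lf (nat_lit 228) (nat_lit 614494596) (nat_lit 0) (nat_lit 327145840) (nat_lit 152) (nat_lit 768370316) (nat_lit 215) (nat_lit 1) (nat_lit 212) (nat_lit 1) (nat_lit 214) (nat_lit 1) (nat_lit 367) (nat_lit 341) (nat_lit 312)) (XT.nd (nat_lit 78) (nat_lit 152) (nat_lit 0) (XT.lf (nat_lit 76) (nat_lit 210488124) (nat_lit 0) (nat_lit 115693758) (nat_lit 152) (nat_lit 1336715402) (nat_lit 211) (nat_lit 1) (nat_lit 210) (nat_lit 1) (nat_lit 212) (nat_lit 1) (nat_lit 368) (nat_lit 341) (nat_lit 311)) (XT.lf (nat_lit 228) (nat_lit 806252251) (nat_lit 0) (nat_lit 322727979) (nat_lit 152) (nat_lit 487992449) (nat_lit 211) (nat_lit 1) (nat_lit 208) (nat_lit 1) (nat_lit 210) (nat_lit 1) (nat_lit 369) (nat_lit 341) (nat_lit 310))))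 (XT.nd (nat_lit 156) (nat_lit 304) (nat_lit 0) (XT.nd (nat_lit 78) (nat_lit 228) (nat_lit 0) (XT.lf (nat_lit 152) (nat_lit 86821910) (nat_lit 0) (nat_lit 330654595) (nat_lit 76) (nat_lit 1155384612) (nat_lit 209) (nat_lit 1) (nat_lit 207) (nat_lit 1) (nat_lit 208) (nat_lit 1) (nat_lit 370) (nat_lit 341) (nat_lit 309)) (XT.lf (nat_lit 228) (nat_lit 937210472) (nat_lit 0) (nat_lit 338171415) (nat_lit 152) (nat_lit 254583962) (nat_lit 207) (nat_lit 1) (nat_lit 204) (nat_lit 1) (nat_lit 206) (nat_lit 1) (nat_lit 371) (nat_lit 341) (nat_lit 308))) (XT.nd (nat_lit 78) (nat_lit 228) (nat_lit 0) (XT.lf (nat_lit 152) (nat_lit 235715344) (nat_lit 0) (nat_lit 350815984) (nat_lit 76) (nat_lit 901984907) (nat_lit 205) (nat_lit 1) (nat_lit 203) (nat_lit 1) (nat_lit 204) (nat_lit 1) (nat_lit 372) (nat_lit 341) (nat_lit 307)) (XT.lf (nat_lit 228) (nat_lit 1020353758) (nat_lit 0) (nat_lit 367735943) (nat_lit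 152) (nat_lit 60348616) (nat_lit 203) (nat_lit 1) (nat_lit 200) (nat_lit 1) (nat_lit 202) (nat_lit 1) (nat_lit 373) (nat_lit 341) (nat_lit 306))))) (XT.nd (nat_lit 234) (nat_lit 532) (nat_lit 0) (XT.nd (nat_lit 78) (nat_lit 304) (nat_lit 0) (XT.lf (nat_lit 152) (nat_lit 339226719) (nat_lit 0) (nat_lit 383369140) (nat_lit 76) (nat_lit 686838922) (nat_lit 201) (nat_lit 1) (nat_lit 199) (nat_lit 1) (nat_lit 200) (nat_lit 1) (nat_lit 374) (nat_lit 341) (nat_lit 305)) (XT.nd (nat_lit 78) (nat_lit 76) (nat_lit 0) (XT.lf (nat_lit 76) (nat_lit 97914331) (nat_lit 0) (nat_lit 307326985) (nat_lit 228) (nat_lit 966591133) (nat_lit 197) (nat_lit 1) (nat_lit 196) (nat_lit 1) (nat_lit 199) (nat_lit 1) (nat_lit 375) (nat_lit 341) (nat_lit 304)) (XT.lf (nat_lit 152) (nat_lit 407102669) (nat_lit 0) (nat_lit 424181685) (nat_lit 76) (nat_lit 503879594) (nat_lit 197) (nat_lit 1) (nat_lit 195) (nat_lit 1) (nat_lit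 196) (nat_lit 1) (nat_lit 376) (nat_lit 341) (nat_lit 303)))) (XT.nd (nat_lit 156) (nat_lit 228) (nat_lit 0) (XT.nd (nat_lit 78) (nat_lit 76) (nat_lit 0) (XT.lf (nat_lit 76) (nat_lit 227712275) (nat_lit 0) (nat_lit 220554737) (nat_lit 228) (nat_lit 851517055) (nat_lit 193) (nat_lit 1) (nat_lit 192) (nat_lit 1) (nat_lit 195) (nat_lit 1) (nat_lit 377) (nat_lit 341) (nat_lit 302)) (XT.lf (nat_lit 152) (nat_lit 447203195) (nat_lit 0) (nat_lit 470027833) (nat_lit 76) (nat_lit 348077101) (nat_lit 193) (nat_lit 1) (nat_lit 191) (nat_lit 1) (nat_lit 192) (nat_lit 1) (nat_lit 378) (nat_lit 341) (nat_lit 301))) (XT.nd (nat_lit 78) (nat_lit 76) (nat_lit 0) (XT.lf (nat_lit 76) (nat_lit 335245126) (nat_lit 0) (nat_lit 159738304) (nat_lit 152) (nat_lit 736987344) (nat_lit 190) (nat_lit 1) (nat_lit 189) (nat_lit 1) (nat_lit 191) (nat_lit 1) (nat_lit 379) (nat_lit 341) (nat_lit 300)) (XT.lf (nat_lit 152) (nat_lit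 465854196) (nat_lit 0) (nat_lit 518411700) (nat_lit 76) (nat_lit 215253839) (nat_lit 190) (nat_lit 1) (nat_lit 188) (nat_lit 1) (nat_lit 189) (nat_lit 1) (nat_lit 380) (nat_lit 341) (nat_lit 299))))))) (XT.nd (nat_lit 1014) (nat_lit 1672) (nat_lit 0) (XT.nd (nat_lit 468) (nat_lit 836) (nat_lit 0) (XT.nd (nat_lit 234) (nat_lit 304) (nat_lit 0) (XT.nd (nat_lit 78) (nat_lit 228) (nat_lit 0) (XT.lf (nat_lit 76) (nat_lit 424053914) (nat_lit 0) (nat_lit 119166857) (nat_lit 152) (nat_lit 624846085) (nat_lit 187) (nat_lit 1) (nat_lit 186) (nat_lit 1) (nat_lit 188) (nat_lit 1) (nat_lit 381) (nat_lit 341) (nat_lit 298)) (XT.nd (nat_lit 78) (nat_lit 152) (nat_lit 0) (XT.lf (nat_lit 152) (nat_lit 468134919) (nat_lit 0) (nat_lit 567423699) (nat_lit 76) (nat_lit 101933003) (nat_lit 187) (nat_lit 1) (nat_lit 185) (nat_lit 1) (nat_lit 186) (nat_lit 1) (nat_lit 382) (nat_lit 341) (nat_lit 297)) (XT.lf (nat_lit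 76) (nat_lit 497081632) (nat_lit 0) (nat_lit 94248360) (nat_lit 152) (nat_lit 516453595) (nat_lit 184) (nat_lit 1) (nat_lit 183) (nat_lit 1) (nat_lit 185) (nat_lit 1) (nat_lit 383) (nat_lit 341) (nat_lit 296)))) (XT.nd (nat_lit 78) (nat_lit 228) (nat_lit 0) (XT.lf (nat_lit 152) (nat_lit 458112295) (nat_lit 0) (nat_lit 615623929) (nat_lit 76) (nat_lit 5214633) (nat_lit 184) (nat_lit 1) (nat_lit 182) (nat_lit 1) (nat_lit 183) (nat_lit 1) (nat_lit 384) (nat_lit 341) (nat_lit 295)) (XT.nd (nat_lit 78) (nat_lit 76) (nat_lit 0) (XT.lf (nat_lit 76) (nat_lit 556779092) (nat_lit 0) (nat_lit 81299493) (nat_lit 152) (nat_lit 412785002) (nat_lit 181) (nat_lit 1) (nat_lit 180) (nat_lit 1) (nat_lit 182) (nat_lit 1) (nat_lit 385) (nat_lit 341) (nat_lit 294)) (XT.lf (nat_lit 0) (nat_lit 74850991) (nat_lit 0) (nat_lit 585828912) (nat_lit 152) (nat_lit 362913301) (nat_lit 179) (nat_lit 3) (nat_lit 179) (nat_lit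 1) (nat_lit 181) (nat_lit 1) (nat_lit 386) (nat_lit 341) (nat_lit 293))))) (XT.nd (nat_lit 234) (nat_lit 456) (nat_lit 0) (XT.nd (nat_lit 78) (nat_lit 228) (nat_lit 0) (XT.lf (nat_lit 76) (nat_lit 605191623) (nat_lit 0) (nat_lit 77374433) (nat_lit 152) (nat_lit 314510116) (nat_lit 178) (nat_lit 1) (nat_lit 177) (nat_lit 1) (nat_lit 179) (nat_lit 1) (nat_lit 387) (nat_lit 341) (nat_lit 292)) (XT.nd (nat_lit 78) (nat_lit 152) (nat_lit 0) (XT.lf (nat_lit 0) (nat_lit 142993084) (nat_lit 0) (nat_lit 560213283) (nat_lit 152) (nat_lit 268058982) (nat_lit 176) (nat_lit 3) (nat_lit 176) (nat_lit 1) (nat_lit 178) (nat_lit 1) (nat_lit 388) (nat_lit 341) (nat_lit 291)) (XT.lf (nat_lit 76) (nat_lit 644030104) (nat_lit 0) (nat_lit 80125336) (nat_lit 152) (nat_lit 222058058) (nat_lit 175) (nat_lit 1) (nat_lit 174) (nat_lit 1) (nat_lit 176) (nat_lit 1) (nat_lit 389) (nat_lit 341) (nat_lit 290)))) (XT.nd (nat_lit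 156) (nat_lit 228) (nat_lit 0) (XT.nd (nat_lit 78) (nat_lit 152) (nat_lit 0) (XT.lf (nat_lit 0) (nat_lit 201032363) (nat_lit 0) (nat_lit 541698147) (nat_lit 152) (nat_lit 179041685) (nat_lit 173) (nat_lit 3) (nat_lit 173) (nat_lit 1) (nat_lit 175) (nat_lit 1) (nat_lit 390) (nat_lit 341) (nat_lit 289)) (XT.lf (nat_lit 76) (nat_lit 674729194) (nat_lit 0) (nat_lit 87688687) (nat_lit 152) (nat_lit 135669472) (nat_lit 172) (nat_lit 1) (nat_lit 171) (nat_lit 1) (nat_lit 173) (nat_lit 1) (nat_lit 391) (nat_lit 341) (nat_lit 288))) (XT.nd (nat_lit 78) (nat_lit 152) (nat_lit 0) (XT.lf (nat_lit 0) (nat_lit 250363161) (nat_lit 0) (nat_lit 528521257) (nat_lit 152) (nat_lit 96048674) (nat_lit 170) (nat_lit 3) (nat_lit 170) (nat_lit 1) (nat_lit 172) (nat_lit 1) (nat_lit 392) (nat_lit 341) (nat_lit 287)) (XT.lf (nat_lit 76) (nat_lit 698495094) (nat_lit 0) (nat_lit 98592753) (nat_lit 152) (nat_lit 55438648)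 (nat_lit 169) (nat_lit 1) (nat_lit 168) (nat_lit 1) (nat_lit 170) (nat_lit 1) (nat_lit 393) (nat_lit 341) (nat_lit 286)))))) (XT.nd (nat_lit 546) (nat_lit 836) (nat_lit 0) (XT.nd (nat_lit 234) (nat_lit 456) (nat_lit 0) (XT.nd (nat_lit 78) (nat_lit 304) (nat_lit 0) (XT.lf (nat_lit 0) (nat_lit 292164751) (nat_lit 0) (nat_lit 519284498) (nat_lit 152) (nat_lit 19134179) (nat_lit 167) (nat_lit 3) (nat_lit 167) (nat_lit 1) (nat_lit 169) (nat_lit 1) (nat_lit 394) (nat_lit 341) (nat_lit 285)) (XT.nd (nat_lit 78) (nat_lit 76) (nat_lit 0) (XT.lf (nat_lit 152) (nat_lit 697376279) (nat_lit 0) (nat_lit 19269311) (nat_lit 76) (nat_lit 92713797) (nat_lit 166) (nat_lit 1) (nat_lit 164) (nat_lit 1) (nat_lit 165) (nat_lit 1) (nat_lit 395) (nat_lit 341) (nat_lit 284)) (XT.lf (nat_lit 76) (nat_lit 274812058) (nat_lit 0) (nat_lit 53460440) (nat_lit 76) (nat_lit 460258321) (nat_lit 164) (nat_lit 3) (nat_lit 163) (nat_lit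 1) (nat_lit 164) (nat_lit 1) (nat_lit 396) (nat_lit 341) (nat_lit 283)))) (XT.nd (nat_lit 156) (nat_lit 228) (nat_lit 0) (XT.nd (nat_lit 78) (nat_lit 76) (nat_lit 0) (XT.lf (nat_lit 152) (nat_lit 640961999) (nat_lit 0) (nat_lit 89574519) (nat_lit 76) (nat_lit 37881100) (nat_lit 163) (nat_lit 1) (nat_lit 161) (nat_lit 1) (nat_lit 162) (nat_lit 1) (nat_lit 397) (nat_lit 341) (nat_lit 282)) (XT.lf (nat_lit 76) (nat_lit 238331392) (nat_lit 0) (nat_lit 120585798) (nat_lit 76) (nat_lit 389750706) (nat_lit 161) (nat_lit 3) (nat_lit 160) (nat_lit 1) (nat_lit 161) (nat_lit 1) (nat_lit 398) (nat_lit 341) (nat_lit 281))) (XT.nd (nat_lit 78) (nat_lit 76) (nat_lit 0) (XT.lf (nat_lit 0) (nat_lit 10059572) (nat_lit 0) (nat_lit 143586304) (nat_lit 152) (nat_lit 575959485) (nat_lit 158) (nat_lit 3) (nat_lit 158) (nat_lit 1) (nat_lit 160) (nat_lit 1) (nat_lit 399) (nat_lit 341) (nat_lit 280)) (XT.lf (nat_lit 76)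 (nat_lit 202725091) (nat_lit 0) (nat_lit 181796228) (nat_lit 76) (nat_lit 326360954) (nat_lit 158) (nat_lit 3) (nat_lit 157) (nat_lit 1) (nat_lit 158) (nat_lit 1) (nat_lit 400) (nat_lit 341) (nat_lit 279))))) (XT.nd (nat_lit 234) (nat_lit 456) (nat_lit 0) (XT.nd (nat_lit 78) (nat_lit 228) (nat_lit 0) (XT.lf (nat_lit 0) (nat_lit 51160777) (nat_lit 0) (nat_lit 160187111) (nat_lit 152) (nat_lit 481435349) (nat_lit 155) (nat_lit 3) (nat_lit 155) (nat_lit 1) (nat_lit 157) (nat_lit 1) (nat_lit 401) (nat_lit 341) (nat_lit 278)) (XT.nd (nat_lit 78) (nat_lit 152) (nat_lit 0) (XT.lf (nat_lit 76) (nat_lit 168392265) (nat_lit 0) (nat_lit 237320783) (nat_lit 76) (nat_lit 269342575) (nat_lit 155) (nat_lit 3) (nat_lit 154) (nat_lit 1) (nat_lit 155) (nat_lit 1) (nat_lit 402) (nat_lit 341) (nat_lit 277)) (XT.lf (nat_lit 0) (nat_lit 87261303) (nat_lit 0) (nat_lit 176282740) (nat_lit 152) (nat_lit 394322678) (nat_lit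 152) (nat_lit 3) (nat_lit 152) (nat_lit 1) (nat_lit 154) (nat_lit 1) (nat_lit 403) (nat_lit 341) (nat_lit 276)))) (XT.nd (nat_lit 156) (nat_lit 228) (nat_lit 0) (XT.nd (nat_lit 78) (nat_lit 152) (nat_lit 0) (XT.lf (nat_lit 76) (nat_lit 135616674) (nat_lit 0) (nat_lit 287417475) (nat_lit 76) (nat_lit 218043930) (nat_lit 152) (nat_lit 3) (nat_lit 151) (nat_lit 1) (nat_lit 152) (nat_lit 1) (nat_lit 404) (nat_lit 341) (nat_lit 275)) (XT.lf (nat_lit 0) (nat_lit 118906480) (nat_lit 0) (nat_lit 191593655) (nat_lit 152) (nat_lit 314249576) (nat_lit 149) (nat_lit 3) (nat_lit 149) (nat_lit 1) (nat_lit 151) (nat_lit 1) (nat_lit 405) (nat_lit 341) (nat_lit 274))) (XT.nd (nat_lit 78) (nat_lit 152) (nat_lit 0) (XT.lf (nat_lit 76) (nat_lit 104590746) (nat_lit 0) (nat_lit 332362918) (nat_lit 76) (nat_lit 171893686) (nat_lit 149) (nat_lit 3) (nat_lit 148) (nat_lit 1) (nat_lit 149) (nat_lit 1) (nat_lit 406) (nat_lit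 341) (nat_lit 273)) (XT.lf (nat_lit 0) (nat_lit 146573065) (nat_lit 0) (nat_lit 205923100) (nat_lit 152) (nat_lit 240837119) (nat_lit 146) (nat_lit 3) (nat_lit 146) (nat_lit 1) (nat_lit 148) (nat_lit 1) (nat_lit 407) (nat_lit 341) (nat_lit 272))))))))
noncomputable def ec28 : XT := (XT.nd (nat_lit 48750) (nat_lit 0) (nat_lit 4408) (XT.nd (nat_lit 47736) (nat_lit 0) (nat_lit 9348) (XT.nd (nat_lit 468) (nat_lit 532) (nat_lit 0) (XT.nd (nat_lit 234) (nat_lit 380) (nat_lit 0) (XT.nd (nat_lit 78) (nat_lit 228) (nat_lit 0) (XT.lf (nat_lit 76) (nat_lit 75435012) (nat_lit 0) (nat_lit 372444216) (nat_lit 76) (nat_lit 130388748) (nat_lit 146) (nat_lit 3) (nat_lit 145) (nat_lit 1) (nat_lit 146) (nat_lit 1) (nat_lit 408) (nat_lit 341) (nat_lit 271)) (XT.nd (nat_lit 78) (nat_lit 76) (nat_lit 0) (XT.lf (nat_lit 0) (nat_lit 170679573) (nat_lit 0) (nat_lit 219139657) (nat_lit 152) (nat_lit 173705779) (nat_lit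 143) (nat_lit 3) (nat_lit 143) (nat_lit 1) (nat_lit 145) (nat_lit 1) (nat_lit 409) (nat_lit 341) (nat_lit 270)) (XT.lf (nat_lit 76) (nat_lit 48213788) (nat_lit 0) (nat_lit 407952641) (nat_lit 76) (nat_lit 93084237) (nat_lit 143) (nat_lit 3) (nat_lit 142) (nat_lit 1) (nat_lit 143) (nat_lit 1) (nat_lit 410) (nat_lit 341) (nat_lit 269)))) (XT.nd (nat_lit 78) (nat_lit 228) (nat_lit 0) (XT.lf (nat_lit 0) (nat_lit 191594856) (nat_lit 0) (nat_lit 231163153) (nat_lit 152) (nat_lit 112480332) (nat_lit 140) (nat_lit 3) (nat_lit 140) (nat_lit 1) (nat_lit 142) (nat_lit 1) (nat_lit 411) (nat_lit 341) (nat_lit 268)) (XT.nd (nat_lit 78) (nat_lit 152) (nat_lit 0) (XT.lf (nat_lit 76) (nat_lit 22947839) (nat_lit 0) (nat_lit 439178764) (nat_lit 76) (nat_lit 59585151) (nat_lit 140) (nat_lit 3) (nat_lit 139) (nat_lit 1) (nat_lit 140) (nat_lit 1) (nat_lit 412) (nat_lit 341) (nat_lit 267)) (XT.lf (nat_lit 0) (nat_lit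 209645253) (nat_lit 0) (nat_lit 241953289) (nat_lit 152) (nat_lit 56793561) (nat_lit 137) (nat_lit 3) (nat_lit 137) (nat_lit 1) (nat_lit 139) (nat_lit 1) (nat_lit 413) (nat_lit 341) (nat_lit 266))))) (XT.nd (nat_lit 234) (nat_lit 76) (nat_lit 0) (XT.nd (nat_lit 78) (nat_lit 304) (nat_lit 0) (XT.lf (nat_lit 76) (nat_lit 466039163) (nat_lit 0) (nat_lit 363430) (nat_lit 152) (nat_lit 29169814) (nat_lit 136) (nat_lit 1) (nat_lit 135) (nat_lit 1) (nat_lit 137) (nat_lit 1) (nat_lit 414) (nat_lit 341) (nat_lit 265)) (XT.nd (nat_lit 78) (nat_lit 228) (nat_lit 0) (XT.lf (nat_lit 0) (nat_lit 225120554) (nat_lit 0) (nat_lit 251500490) (nat_lit 152) (nat_lit 6288991) (nat_lit 134) (nat_lit 3) (nat_lit 134) (nat_lit 1) (nat_lit 136) (nat_lit 1) (nat_lit 415) (nat_lit 341) (nat_lit 264)) (XT.lf (nat_lit 152) (nat_lit 449327563) (nat_lit 0) (nat_lit 19443975) (nat_lit 76) (nat_lit 1955947) (nat_lit 133) (nat_lit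 1) (nat_lit 131) (nat_lit 1) (nat_lit 132) (nat_lit 1) (nat_lit 416) (nat_lit 341) (nat_lit 263)))) (XT.nd (nat_lit 46878) (nat_lit 0) (nat_lit 12388) (XT.nd (nat_lit 46800) (nat_lit 0) (nat_lit 12312) (XT.lf (nat_lit 76) (nat_lit 198234968) (nat_lit 0) (nat_lit 40679138) (nat_lit 76) (nat_lit 219774533) (nat_lit 131) (nat_lit 3) (nat_lit 130) (nat_lit 1) (nat_lit 131) (nat_lit 1) (nat_lit 417) (nat_lit 341) (nat_lit 262)) (XT.lf (nat_lit 836) (nat_lit 626754109) (nat_lit 0) (nat_lit 1112800480) (nat_lit 836) (nat_lit 626754109) (nat_lit 303) (nat_lit 1) (nat_lit 292) (nat_lit 0) (nat_lit 303) (nat_lit 0) (nat_lit 336) (nat_lit 342) (nat_lit 342))) (XT.nd (nat_lit 78) (nat_lit 0) (nat_lit 0) (XT.lf (nat_lit 836) (nat_lit 233798514) (nat_lit 0) (nat_lit 2184764605) (nat_lit 760) (nat_lit 2136692485) (nat_lit 304) (nat_lit 1) (nat_lit 293) (nat_lit 1) (nat_lit 303) (nat_lit 1) (nat_lit 337) (nat_lit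 342) (nat_lit 341)) (XT.lf (nat_lit 836) (nat_lit 2147304401) (nat_lit 76) (nat_lit 1463137592) (nat_lit 0) (nat_lit 775981436) (nat_lit 304) (nat_lit 1) (nat_lit 294) (nat_lit 1) (nat_lit 293) (nat_lit 1) (nat_lit 338) (nat_lit 342) (nat_lit 340)))))) (XT.nd (nat_lit 468) (nat_lit 2052) (nat_lit 0) (XT.nd (nat_lit 234) (nat_lit 1064) (nat_lit 0) (XT.nd (nat_lit 78) (nat_lit 0) (nat_lit 76) (XT.lf (nat_lit 836) (nat_lit 1855446912) (nat_lit 76) (nat_lit 613190823) (nat_lit 0) (nat_lit 1757402310) (nat_lit 305) (nat_lit 1) (nat_lit 295) (nat_lit 1) (nat_lit 294) (nat_lit 1) (nat_lit 339) (nat_lit 342) (nat_lit 339)) (XT.nd (nat_lit 78) (nat_lit 0) (nat_lit 76) (XT.lf (nat_lit 836) (nat_lit 1373188460) (nat_lit 0) (nat_lit 2569170700) (nat_lit 760) (nat_lit 131335639) (nat_lit 306) (nat_lit 1) (nat_lit 295) (nat_lit 1) (nat_lit 305) (nat_lit 1) (nat_lit 340) (nat_lit 342) (nat_lit 338)) (XT.lf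 (nat_lit 836) (nat_lit 329483107) (nat_lit 0) (nat_lit 2833224440) (nat_lit 760) (nat_lit 765917556) (nat_lit 307) (nat_lit 1) (nat_lit 296) (nat_lit 1) (nat_lit 306) (nat_lit 1) (nat_lit 341) (nat_lit 342) (nat_lit 337)))) (XT.nd (nat_lit 78) (nat_lit 1216) (nat_lit 0) (XT.lf (nat_lit 836) (nat_lit 633132519) (nat_lit 76) (nat_lit 2462302758) (nat_lit 0) (nat_lit 694892217) (nat_lit 307) (nat_lit 1) (nat_lit 297) (nat_lit 1) (nat_lit 296) (nat_lit 1) (nat_lit 342) (nat_lit 342) (nat_lit 336)) (XT.nd (nat_lit 78) (nat_lit 532) (nat_lit 0) (XT.lf (nat_lit 836) (nat_lit 130030982) (nat_lit 0) (nat_lit 1840734187) (nat_lit 760) (nat_lit 1687933962) (nat_lit 298) (nat_lit 1) (nat_lit 287) (nat_lit 1) (nat_lit 297) (nat_lit 1) (nat_lit 343) (nat_lit 342) (nat_lit 335)) (XT.lf (nat_lit 76) (nat_lit 900361607) (nat_lit 0) (nat_lit 390168584) (nat_lit 532) (nat_lit 2242773052) (nat_lit 281) (nat_lit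 1) (nat_lit 280) (nat_lit 1) (nat_lit 287) (nat_lit 1) (nat_lit 344) (nat_lit 342) (nat_lit 334))))) (XT.nd (nat_lit 234) (nat_lit 988) (nat_lit 0) (XT.nd (nat_lit 78) (nat_lit 684) (nat_lit 0) (XT.lf (nat_lit 456) (nat_lit 2481283264) (nat_lit 0) (nat_lit 807711194) (nat_lit 380) (nat_lit 124877141) (nat_lit 281) (nat_lit 1) (nat_lit 275) (nat_lit 1) (nat_lit 280) (nat_lit 1) (nat_lit 345) (nat_lit 342) (nat_lit 333)) (XT.nd (nat_lit 78) (nat_lit 304) (nat_lit 0) (XT.lf (nat_lit 456) (nat_lit 1790517632) (nat_lit 0) (nat_lit 376477667) (nat_lit 380) (nat_lit 1132580005) (nat_lit 276) (nat_lit 1) (nat_lit 270) (nat_lit 1) (nat_lit 275) (nat_lit 1) (nat_lit 346) (nat_lit 342) (nat_lit 332)) (XT.lf (nat_lit 380) (nat_lit 1089507143) (nat_lit 0) (nat_lit 6931565) (nat_lit 304) (nat_lit 2094382280) (nat_lit 271) (nat_lit 1) (nat_lit 266) (nat_lit 1) (nat_lit 270) (nat_lit 1) (nat_lit 347) (nat_lit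 342) (nat_lit 331)))) (XT.nd (nat_lit 156) (nat_lit 608) (nat_lit 0) (XT.nd (nat_lit 78) (nat_lit 380) (nat_lit 0) (XT.lf (nat_lit 76) (nat_lit 80378688) (nat_lit 0) (nat_lit 2710758842) (nat_lit 380) (nat_lit 295932035) (nat_lit 267) (nat_lit 1) (nat_lit 266) (nat_lit 1) (nat_lit 271) (nat_lit 1) (nat_lit 348) (nat_lit 342) (nat_lit 330)) (XT.lf (nat_lit 76) (nat_lit 2075398572) (nat_lit 0) (nat_lit 344227059) (nat_lit 380) (nat_lit 567692938) (nat_lit 262) (nat_lit 1) (nat_lit 261) (nat_lit 1) (nat_lit 266) (nat_lit 1) (nat_lit 349) (nat_lit 342) (nat_lit 329))) (XT.nd (nat_lit 78) (nat_lit 304) (nat_lit 0) (XT.lf (nat_lit 76) (nat_lit 1038374497) (nat_lit 0) (nat_lit 1054428590) (nat_lit 380) (nat_lit 799171995) (nat_lit 258) (nat_lit 1) (nat_lit 257) (nat_lit 1) (nat_lit 262) (nat_lit 1) (nat_lit 350) (nat_lit 342) (nat_lit 328)) (XT.lf (nat_lit 76) (nat_lit 51251862) (nat_lit 0) (nat_lit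 1762988230) (nat_lit 380) (nat_lit 986905703) (nat_lit 254) (nat_lit 1) (nat_lit 253) (nat_lit 1) (nat_lit 258) (nat_lit 1) (nat_lit 351) (nat_lit 342) (nat_lit 327))))))) (XT.nd (nat_lit 1014) (nat_lit 1976) (nat_lit 0) (XT.nd (nat_lit 468) (nat_lit 1368) (nat_lit 0) (XT.nd (nat_lit 234) (nat_lit 760) (nat_lit 0) (XT.nd (nat_lit 78) (nat_lit 608) (nat_lit 0) (XT.lf (nat_lit 304) (nat_lit 231450523) (nat_lit 0) (nat_lit 1565189100) (nat_lit 228) (nat_lit 917236784) (nat_lit 254) (nat_lit 1) (nat_lit 250) (nat_lit 1) (nat_lit 253) (nat_lit 1) (nat_lit 352) (nat_lit 342) (nat_lit 326)) (XT.nd (nat_lit 78) (nat_lit 228) (nat_lit 0) (XT.lf (nat_lit 76) (nat_lit 799723785) (nat_lit 0) (nat_lit 548135651) (nat_lit 380) (nat_lit 1282352839) (nat_lit 246) (nat_lit 1) (nat_lit 245) (nat_lit 1) (nat_lit 250) (nat_lit 1) (nat_lit 353) (nat_lit 342) (nat_lit 325)) (XT.lf (nat_lit 304) (nat_lit 1238164778)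 (nat_lit 0) (nat_lit 1163095780) (nat_lit 228) (nat_lit 148874879) (nat_lit 246) (nat_lit 1) (nat_lit 242) (nat_lit 1) (nat_lit 245) (nat_lit 1) (nat_lit 354) (nat_lit 342) (nat_lit 324)))) (XT.nd (nat_lit 78) (nat_lit 532) (nat_lit 0) (XT.lf (nat_lit 304) (nat_lit 396825829) (nat_lit 0) (nat_lit 1001377838) (nat_lit 228) (nat_lit 1074932306) (nat_lit 243) (nat_lit 1) (nat_lit 239) (nat_lit 1) (nat_lit 242) (nat_lit 1) (nat_lit 355) (nat_lit 342) (nat_lit 323)) (XT.nd (nat_lit 78) (nat_lit 228) (nat_lit 0) (XT.lf (nat_lit 76) (nat_lit 452285560) (nat_lit 0) (nat_lit 414106734) (nat_lit 304) (nat_lit 1532942149) (nat_lit 236) (nat_lit 1) (nat_lit 235) (nat_lit 1) (nat_lit 239) (nat_lit 1) (nat_lit 356) (nat_lit 342) (nat_lit 322)) (XT.lf (nat_lit 304) (nat_lit 1125453254) (nat_lit 0) (nat_lit 748834889) (nat_lit 228) (nat_lit 453946171) (nat_lit 236) (nat_lit 1) (nat_lit 232) (nat_lit 1) (nat_lit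 235) (nat_lit 1) (nat_lit 357) (nat_lit 342) (nat_lit 321))))) (XT.nd (nat_lit 234) (nat_lit 760) (nat_lit 0) (XT.nd (nat_lit 78) (nat_lit 456) (nat_lit 0) (XT.lf (nat_lit 228) (nat_lit 279001523) (nat_lit 0) (nat_lit 653303820) (nat_lit 152) (nat_lit 1327697219) (nat_lit 233) (nat_lit 1) (nat_lit 230) (nat_lit 1) (nat_lit 232) (nat_lit 1) (nat_lit 358) (nat_lit 342) (nat_lit 320)) (XT.nd (nat_lit 78) (nat_lit 152) (nat_lit 0) (XT.lf (nat_lit 76) (nat_lit 47264640) (nat_lit 0) (nat_lit 528901588) (nat_lit 304) (nat_lit 1618249425) (nat_lit 227) (nat_lit 1) (nat_lit 226) (nat_lit 1) (nat_lit 230) (nat_lit 1) (nat_lit 359) (nat_lit 342) (nat_lit 319)) (XT.lf (nat_lit 228) (nat_lit 810727234) (nat_lit 0) (nat_lit 506634969) (nat_lit 152) (nat_lit 813548573) (nat_lit 227) (nat_lit 1) (nat_lit 224) (nat_lit 1) (nat_lit 226) (nat_lit 1) (nat_lit 360) (nat_lit 342) (nat_lit 318)))) (XT.nd (nat_lit 156)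 (nat_lit 380) (nat_lit 0) (XT.nd (nat_lit 78) (nat_lit 152) (nat_lit 0) (XT.lf (nat_lit 76) (nat_lit 439866716) (nat_lit 0) (nat_lit 20317719) (nat_lit 228) (nat_lit 1609992596) (nat_lit 222) (nat_lit 1) (nat_lit 221) (nat_lit 1) (nat_lit 224) (nat_lit 1) (nat_lit 361) (nat_lit 342) (nat_lit 317)) (XT.lf (nat_lit 228) (nat_lit 1202510663) (nat_lit 0) (nat_lit 416696907) (nat_lit 152) (nat_lit 392002418) (nat_lit 222) (nat_lit 1) (nat_lit 219) (nat_lit 1) (nat_lit 221) (nat_lit 1) (nat_lit 362) (nat_lit 342) (nat_lit 316))) (XT.nd (nat_lit 78) (nat_lit 228) (nat_lit 0) (XT.lf (nat_lit 228) (nat_lit 373547999) (nat_lit 0) (nat_lit 387365854) (nat_lit 152) (nat_lit 1193583660) (nat_lit 220) (nat_lit 1) (nat_lit 217) (nat_lit 1) (nat_lit 219) (nat_lit 1) (nat_lit 363) (nat_lit 342) (nat_lit 315)) (XT.lf (nat_lit 228) (nat_lit 1482848277) (nat_lit 0) (nat_lit 370096633) (nat_lit 152) (nat_lit 46951051)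 (nat_lit 217) (nat_lit 1) (nat_lit 214) (nat_lit 1) (nat_lit 216) (nat_lit 1) (nat_lit 364) (nat_lit 342) (nat_lit 314)))))) (XT.nd (nat_lit 546) (nat_lit 912) (nat_lit 0) (XT.nd (nat_lit 234) (nat_lit 608) (nat_lit 0) (XT.nd (nat_lit 78) (nat_lit 304) (nat_lit 0) (XT.lf (nat_lit 228) (nat_lit 663654164) (nat_lit 0) (nat_lit 353317507) (nat_lit 152) (nat_lit 829839941) (nat_lit 215) (nat_lit 1) (nat_lit 212) (nat_lit 1) (nat_lit 214) (nat_lit 1) (nat_lit 365) (nat_lit 342) (nat_lit 313)) (XT.nd (nat_lit 78) (nat_lit 152) (nat_lit 0) (XT.lf (nat_lit 76) (nat_lit 227327174) (nat_lit 0) (nat_lit 124949258) (nat_lit 152) (nat_lit 1443652634) (nat_lit 211) (nat_lit 1) (nat_lit 210) (nat_lit 1) (nat_lit 212) (nat_lit 1) (nat_lit 366) (nat_lit 342) (nat_lit 312)) (XT.lf (nat_lit 228) (nat_lit 870752431) (nat_lit 0) (nat_lit 348546217) (nat_lit 152) (nat_lit 527031845) (nat_lit 211) (nat_lit 1) (nat_lit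 208) (nat_lit 1) (nat_lit 210) (nat_lit 1) (nat_lit 367) (nat_lit 342) (nat_lit 311)))) (XT.nd (nat_lit 156) (nat_lit 304) (nat_lit 0) (XT.nd (nat_lit 78) (nat_lit 228) (nat_lit 0) (XT.lf (nat_lit 152) (nat_lit 93767663) (nat_lit 0) (nat_lit 357106963) (nat_lit 76) (nat_lit 1247815381) (nat_lit 209) (nat_lit 1) (nat_lit 207) (nat_lit 1) (nat_lit 208) (nat_lit 1) (nat_lit 368) (nat_lit 342) (nat_lit 310)) (XT.lf (nat_lit 228) (nat_lit 1012187310) (nat_lit 0) (nat_lit 365225128) (nat_lit 152) (nat_lit 274950679) (nat_lit 207) (nat_lit 1) (nat_lit 204) (nat_lit 1) (nat_lit 206) (nat_lit 1) (nat_lit 369) (nat_lit 342) (nat_lit 309))) (XT.nd (nat_lit 78) (nat_lit 228) (nat_lit 0) (XT.lf (nat_lit 152) (nat_lit 254572572) (nat_lit 0) (nat_lit 378881263) (nat_lit 76) (nat_lit 974143700) (nat_lit 205) (nat_lit 1) (nat_lit 203) (nat_lit 1) (nat_lit 204) (nat_lit 1) (nat_lit 370) (nat_lit 342) (nat_lit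 308)) (XT.lf (nat_lit 228) (nat_lit 1101982059) (nat_lit 0) (nat_lit 397154819) (nat_lit 152) (nat_lit 65176505) (nat_lit 203) (nat_lit 1) (nat_lit 200) (nat_lit 1) (nat_lit 202) (nat_lit 1) (nat_lit 371) (nat_lit 342) (nat_lit 307))))) (XT.nd (nat_lit 234) (nat_lit 532) (nat_lit 0) (XT.nd (nat_lit 78) (nat_lit 304) (nat_lit 0) (XT.lf (nat_lit 152) (nat_lit 366364856) (nat_lit 0) (nat_lit 414038671) (nat_lit 76) (nat_lit 741786036) (nat_lit 201) (nat_lit 1) (nat_lit 199) (nat_lit 1) (nat_lit 200) (nat_lit 1) (nat_lit 372) (nat_lit 342) (nat_lit 306)) (XT.nd (nat_lit 78) (nat_lit 76) (nat_lit 0) (XT.lf (nat_lit 76) (nat_lit 105747477) (nat_lit 0) (nat_lit 331913144) (nat_lit 228) (nat_lit 1043918424) (nat_lit 197) (nat_lit 1) (nat_lit 196) (nat_lit 1) (nat_lit 199) (nat_lit 1) (nat_lit 373) (nat_lit 342) (nat_lit 305)) (XT.lf (nat_lit 152) (nat_lit 439670882) (nat_lit 0) (nat_lit 458116219) (nat_lit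 76) (nat_lit 544189962) (nat_lit 197) (nat_lit 1) (nat_lit 195) (nat_lit 1) (nat_lit 196) (nat_lit 1) (nat_lit 374) (nat_lit 342) (nat_lit 304)))) (XT.nd (nat_lit 156) (nat_lit 228) (nat_lit 0) (XT.nd (nat_lit 78) (nat_lit 76) (nat_lit 0) (XT.lf (nat_lit 76) (nat_lit 245929257) (nat_lit 0) (nat_lit 238199116) (nat_lit 228) (nat_lit 919638420) (nat_lit 193) (nat_lit 1) (nat_lit 192) (nat_lit 1) (nat_lit 195) (nat_lit 1) (nat_lit 375) (nat_lit 342) (nat_lit 303)) (XT.lf (nat_lit 152) (nat_lit 482979451) (nat_lit 0) (nat_lit 507630060) (nat_lit 76) (nat_lit 375923269) (nat_lit 193) (nat_lit 1) (nat_lit 191) (nat_lit 1) (nat_lit 192) (nat_lit 1) (nat_lit 376) (nat_lit 342) (nat_lit 302))) (XT.nd (nat_lit 78) (nat_lit 76) (nat_lit 0) (XT.lf (nat_lit 76) (nat_lit 362064736) (nat_lit 0) (nat_lit 172517368) (nat_lit 152) (nat_lit 795946331) (nat_lit 190) (nat_lit 1) (nat_lit 189) (nat_lit 1) (nat_lit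 191) (nat_lit 1) (nat_lit 377) (nat_lit 342) (nat_lit 301)) (XT.lf (nat_lit 152) (nat_lit 503122532) (nat_lit 0) (nat_lit 559884636) (nat_lit 76) (nat_lit 232474146) (nat_lit 190) (nat_lit 1) (nat_lit 188) (nat_lit 1) (nat_lit 189) (nat_lit 1) (nat_lit 378) (nat_lit 342) (nat_lit 300))))))))
noncomputable def ec29 : XT := (XT.nd (nat_lit 2106) (nat_lit 1444) (nat_lit 0) (XT.nd (nat_lit 1014) (nat_lit 1672) (nat_lit 0) (XT.nd (nat_lit 468) (nat_lit 836) (nat_lit 0) (XT.nd (nat_lit 234) (nat_lit 304) (nat_lit 0) (XT.nd (nat_lit 78) (nat_lit 228) (nat_lit 0) (XT.lf (nat_lit 76) (nat_lit 457978227) (nat_lit 0) (nat_lit 128700206) (nat_lit 152) (nat_lit 674833772) (nat_lit 187) (nat_lit 1) (nat_lit 186) (nat_lit 1) (nat_lit 188) (nat_lit 1) (nat_lit 379) (nat_lit 342) (nat_lit 299)) (XT.nd (nat_lit 78) (nat_lit 152) (nat_lit 0) (XT.lf (nat_lit 152) (nat_lit 505585713) (nat_lit 0) (nat_lit 612817595)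 (nat_lit 76) (nat_lit 110087643) (nat_lit 187) (nat_lit 1) (nat_lit 185) (nat_lit 1) (nat_lit 186) (nat_lit 1) (nat_lit 380) (nat_lit 342) (nat_lit 298)) (XT.lf (nat_lit 76) (nat_lit 536848162) (nat_lit 0) (nat_lit 101788229) (nat_lit 152) (nat_lit 557769883) (nat_lit 184) (nat_lit 1) (nat_lit 183) (nat_lit 1) (nat_lit 185) (nat_lit 1) (nat_lit 381) (nat_lit 342) (nat_lit 297)))) (XT.nd (nat_lit 78) (nat_lit 228) (nat_lit 0) (XT.lf (nat_lit 152) (nat_lit 494761279) (nat_lit 0) (nat_lit 664873844) (nat_lit 76) (nat_lit 5631803) (nat_lit 184) (nat_lit 1) (nat_lit 182) (nat_lit 1) (nat_lit 183) (nat_lit 1) (nat_lit 382) (nat_lit 342) (nat_lit 296)) (XT.nd (nat_lit 78) (nat_lit 76) (nat_lit 0) (XT.lf (nat_lit 76) (nat_lit 601321419) (nat_lit 0) (nat_lit 87803452) (nat_lit 152) (nat_lit 445807802) (nat_lit 181) (nat_lit 1) (nat_lit 180) (nat_lit 1) (nat_lit 182) (nat_lit 1) (nat_lit 383) (nat_lit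 342) (nat_lit 295)) (XT.lf (nat_lit 0) (nat_lit 80839070) (nat_lit 0) (nat_lit 632695225) (nat_lit 152) (nat_lit 391946365) (nat_lit 179) (nat_lit 3) (nat_lit 179) (nat_lit 1) (nat_lit 181) (nat_lit 1) (nat_lit 384) (nat_lit 342) (nat_lit 294))))) (XT.nd (nat_lit 234) (nat_lit 456) (nat_lit 0) (XT.nd (nat_lit 78) (nat_lit 228) (nat_lit 0) (XT.lf (nat_lit 76) (nat_lit 653606953) (nat_lit 0) (nat_lit 83564388) (nat_lit 152) (nat_lit 339670926) (nat_lit 178) (nat_lit 1) (nat_lit 177) (nat_lit 1) (nat_lit 179) (nat_lit 1) (nat_lit 385) (nat_lit 342) (nat_lit 293)) (XT.nd (nat_lit 78) (nat_lit 152) (nat_lit 0) (XT.lf (nat_lit 0) (nat_lit 154432531) (nat_lit 0) (nat_lit 605030345) (nat_lit 152) (nat_lit 289503701) (nat_lit 176) (nat_lit 3) (nat_lit 176) (nat_lit 1) (nat_lit 178) (nat_lit 1) (nat_lit 386) (nat_lit 342) (nat_lit 292)) (XT.lf (nat_lit 76) (nat_lit 695552512) (nat_lit 0) (nat_lit 86535363)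 (nat_lit 152) (nat_lit 239822702) (nat_lit 175) (nat_lit 1) (nat_lit 174) (nat_lit 1) (nat_lit 176) (nat_lit 1) (nat_lit 387) (nat_lit 342) (nat_lit 291)))) (XT.nd (nat_lit 156) (nat_lit 228) (nat_lit 0) (XT.nd (nat_lit 78) (nat_lit 152) (nat_lit 0) (XT.lf (nat_lit 0) (nat_lit 217114952) (nat_lit 0) (nat_lit 585033998) (nat_lit 152) (nat_lit 193365020) (nat_lit 173) (nat_lit 3) (nat_lit 173) (nat_lit 1) (nat_lit 175) (nat_lit 1) (nat_lit 388) (nat_lit 342) (nat_lit 290)) (XT.lf (nat_lit 76) (nat_lit 728707530) (nat_lit 0) (nat_lit 94703782) (nat_lit 152) (nat_lit 146523030) (nat_lit 172) (nat_lit 1) (nat_lit 171) (nat_lit 1) (nat_lit 173) (nat_lit 1) (nat_lit 389) (nat_lit 342) (nat_lit 289))) (XT.nd (nat_lit 78) (nat_lit 152) (nat_lit 0) (XT.lf (nat_lit 0) (nat_lit 270392214) (nat_lit 0) (nat_lit 570802958) (nat_lit 152) (nat_lit 103732568) (nat_lit 170) (nat_lit 3) (nat_lit 170) (nat_lit 1)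 (nat_lit 172) (nat_lit 1) (nat_lit 390) (nat_lit 342) (nat_lit 288)) (XT.lf (nat_lit 76) (nat_lit 754374702) (nat_lit 0) (nat_lit 106480173) (nat_lit 152) (nat_lit 59873740) (nat_lit 169) (nat_lit 1) (nat_lit 168) (nat_lit 1) (nat_lit 170) (nat_lit 1) (nat_lit 391) (nat_lit 342) (nat_lit 287)))))) (XT.nd (nat_lit 546) (nat_lit 836) (nat_lit 0) (XT.nd (nat_lit 234) (nat_lit 456) (nat_lit 0) (XT.nd (nat_lit 78) (nat_lit 304) (nat_lit 0) (XT.lf (nat_lit 0) (nat_lit 315537931) (nat_lit 0) (nat_lit 560827258) (nat_lit 152) (nat_lit 20664914) (nat_lit 167) (nat_lit 3) (nat_lit 167) (nat_lit 1) (nat_lit 169) (nat_lit 1) (nat_lit 392) (nat_lit 342) (nat_lit 286)) (XT.nd (nat_lit 78) (nat_lit 76) (nat_lit 0) (XT.lf (nat_lit 152) (nat_lit 753166381) (nat_lit 0) (nat_lit 20810856) (nat_lit 76) (nat_lit 100130901) (nat_lit 166) (nat_lit 1) (nat_lit 164) (nat_lit 1) (nat_lit 165) (nat_lit 1) (nat_lit 393)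 (nat_lit 342) (nat_lit 285)) (XT.lf (nat_lit 76) (nat_lit 296797023) (nat_lit 0) (nat_lit 57737275) (nat_lit 76) (nat_lit 497078987) (nat_lit 164) (nat_lit 3) (nat_lit 163) (nat_lit 1) (nat_lit 164) (nat_lit 1) (nat_lit 394) (nat_lit 342) (nat_lit 284)))) (XT.nd (nat_lit 156) (nat_lit 228) (nat_lit 0) (XT.nd (nat_lit 78) (nat_lit 76) (nat_lit 0) (XT.lf (nat_lit 152) (nat_lit 692238959) (nat_lit 0) (nat_lit 96740481) (nat_lit 76) (nat_lit 40911588) (nat_lit 163) (nat_lit 1) (nat_lit 161) (nat_lit 1) (nat_lit 162) (nat_lit 1) (nat_lit 395) (nat_lit 342) (nat_lit 283)) (XT.lf (nat_lit 76) (nat_lit 257397903) (nat_lit 0) (nat_lit 130232662) (nat_lit 76) (nat_lit 420930763) (nat_lit 161) (nat_lit 3) (nat_lit 160) (nat_lit 1) (nat_lit 161) (nat_lit 1) (nat_lit 396) (nat_lit 342) (nat_lit 282))) (XT.nd (nat_lit 78) (nat_lit 76) (nat_lit 0) (XT.lf (nat_lit 0) (nat_lit 10864337) (nat_lit 0) (nat_lit 155073208)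 (nat_lit 152) (nat_lit 622036244) (nat_lit 158) (nat_lit 3) (nat_lit 158) (nat_lit 1) (nat_lit 160) (nat_lit 1) (nat_lit 397) (nat_lit 342) (nat_lit 281)) (XT.lf (nat_lit 76) (nat_lit 218943099) (nat_lit 0) (nat_lit 196339926) (nat_lit 76) (nat_lit 352469831) (nat_lit 158) (nat_lit 3) (nat_lit 157) (nat_lit 1) (nat_lit 158) (nat_lit 1) (nat_lit 398) (nat_lit 342) (nat_lit 280))))) (XT.nd (nat_lit 234) (nat_lit 456) (nat_lit 0) (XT.nd (nat_lit 78) (nat_lit 228) (nat_lit 0) (XT.lf (nat_lit 0) (nat_lit 55253639) (nat_lit 0) (nat_lit 173002080) (nat_lit 152) (nat_lit 519950177) (nat_lit 155) (nat_lit 3) (nat_lit 155) (nat_lit 1) (nat_lit 157) (nat_lit 1) (nat_lit 399) (nat_lit 342) (nat_lit 279)) (XT.nd (nat_lit 78) (nat_lit 152) (nat_lit 0) (XT.lf (nat_lit 76) (nat_lit 181863646) (nat_lit 0) (nat_lit 256306446) (nat_lit 76) (nat_lit 290889981) (nat_lit 155) (nat_lit 3) (nat_lit 154) (nat_lit 1)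 (nat_lit 155) (nat_lit 1) (nat_lit 400) (nat_lit 342) (nat_lit 278)) (XT.lf (nat_lit 0) (nat_lit 94242207) (nat_lit 0) (nat_lit 190385359) (nat_lit 152) (nat_lit 425868492) (nat_lit 152) (nat_lit 3) (nat_lit 152) (nat_lit 1) (nat_lit 154) (nat_lit 1) (nat_lit 401) (nat_lit 342) (nat_lit 277)))) (XT.nd (nat_lit 156) (nat_lit 228) (nat_lit 0) (XT.nd (nat_lit 78) (nat_lit 152) (nat_lit 0) (XT.lf (nat_lit 76) (nat_lit 146466007) (nat_lit 0) (nat_lit 310410873) (nat_lit 76) (nat_lit 235487445) (nat_lit 152) (nat_lit 3) (nat_lit 151) (nat_lit 1) (nat_lit 152) (nat_lit 1) (nat_lit 402) (nat_lit 342) (nat_lit 276)) (XT.lf (nat_lit 0) (nat_lit 128418998) (nat_lit 0) (nat_lit 206921147) (nat_lit 152) (nat_lit 339389542) (nat_lit 149) (nat_lit 3) (nat_lit 149) (nat_lit 1) (nat_lit 151) (nat_lit 1) (nat_lit 403) (nat_lit 342) (nat_lit 275))) (XT.nd (nat_lit 78) (nat_lit 152) (nat_lit 0) (XT.lf (nat_lit 76)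 (nat_lit 112958006) (nat_lit 0) (nat_lit 358951952) (nat_lit 76) (nat_lit 185645181) (nat_lit 149) (nat_lit 3) (nat_lit 148) (nat_lit 1) (nat_lit 149) (nat_lit 1) (nat_lit 404) (nat_lit 342) (nat_lit 274)) (XT.lf (nat_lit 0) (nat_lit 158298910) (nat_lit 0) (nat_lit 222396948) (nat_lit 152) (nat_lit 260104089) (nat_lit 146) (nat_lit 3) (nat_lit 146) (nat_lit 1) (nat_lit 148) (nat_lit 1) (nat_lit 405) (nat_lit 342) (nat_lit 273))))))) (XT.nd (nat_lit 47580) (nat_lit 0) (nat_lit 9880) (XT.nd (nat_lit 468) (nat_lit 760) (nat_lit 0) (XT.nd (nat_lit 234) (nat_lit 380) (nat_lit 0) (XT.nd (nat_lit 78) (nat_lit 228) (nat_lit 0) (XT.lf (nat_lit 76) (nat_lit 81469813) (nat_lit 0) (nat_lit 402239754) (nat_lit 76) (nat_lit 140819848) (nat_lit 146) (nat_lit 3) (nat_lit 145) (nat_lit 1) (nat_lit 146) (nat_lit 1) (nat_lit 406) (nat_lit 342) (nat_lit 272)) (XT.nd (nat_lit 78) (nat_lit 76) (nat_lit 0) (XT.lf (nat_lit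 0) (nat_lit 184333938) (nat_lit 0) (nat_lit 236670830) (nat_lit 152) (nat_lit 187602242) (nat_lit 143) (nat_lit 3) (nat_lit 143) (nat_lit 1) (nat_lit 145) (nat_lit 1) (nat_lit 407) (nat_lit 342) (nat_lit 271)) (XT.lf (nat_lit 76) (nat_lit 52070891) (nat_lit 0) (nat_lit 440588853) (nat_lit 76) (nat_lit 100530976) (nat_lit 143) (nat_lit 3) (nat_lit 142) (nat_lit 1) (nat_lit 143) (nat_lit 1) (nat_lit 408) (nat_lit 342) (nat_lit 270)))) (XT.nd (nat_lit 78) (nat_lit 228) (nat_lit 0) (XT.lf (nat_lit 0) (nat_lit 206922444) (nat_lit 0) (nat_lit 249656205) (nat_lit 152) (nat_lit 121478758) (nat_lit 140) (nat_lit 3) (nat_lit 140) (nat_lit 1) (nat_lit 142) (nat_lit 1) (nat_lit 409) (nat_lit 342) (nat_lit 269)) (XT.nd (nat_lit 78) (nat_lit 152) (nat_lit 0) (XT.lf (nat_lit 76) (nat_lit 24783666) (nat_lit 0) (nat_lit 474313065) (nat_lit 76) (nat_lit 64351963) (nat_lit 140) (nat_lit 3) (nat_lit 139) (nat_lit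 1) (nat_lit 140) (nat_lit 1) (nat_lit 410) (nat_lit 342) (nat_lit 268)) (XT.lf (nat_lit 0) (nat_lit 226416874) (nat_lit 0) (nat_lit 261309552) (nat_lit 152) (nat_lit 61337046) (nat_lit 137) (nat_lit 3) (nat_lit 137) (nat_lit 1) (nat_lit 139) (nat_lit 1) (nat_lit 411) (nat_lit 342) (nat_lit 267))))) (XT.nd (nat_lit 234) (nat_lit 304) (nat_lit 0) (XT.nd (nat_lit 78) (nat_lit 304) (nat_lit 0) (XT.lf (nat_lit 76) (nat_lit 503322296) (nat_lit 0) (nat_lit 392505) (nat_lit 152) (nat_lit 31503399) (nat_lit 136) (nat_lit 1) (nat_lit 135) (nat_lit 1) (nat_lit 137) (nat_lit 1) (nat_lit 412) (nat_lit 342) (nat_lit 266)) (XT.nd (nat_lit 78) (nat_lit 228) (nat_lit 0) (XT.lf (nat_lit 0) (nat_lit 243130198) (nat_lit 0) (nat_lit 271620529) (nat_lit 152) (nat_lit 6792110) (nat_lit 134) (nat_lit 3) (nat_lit 134) (nat_lit 1) (nat_lit 136) (nat_lit 1) (nat_lit 413) (nat_lit 342) (nat_lit 265)) (XT.lf (nat_lit 152)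 (nat_lit 485273768) (nat_lit 0) (nat_lit 20999493) (nat_lit 76) (nat_lit 2112423) (nat_lit 133) (nat_lit 1) (nat_lit 131) (nat_lit 1) (nat_lit 132) (nat_lit 1) (nat_lit 414) (nat_lit 342) (nat_lit 264)))) (XT.nd (nat_lit 156) (nat_lit 76) (nat_lit 0) (XT.nd (nat_lit 78) (nat_lit 152) (nat_lit 0) (XT.lf (nat_lit 76) (nat_lit 214093766) (nat_lit 0) (nat_lit 43933469) (nat_lit 76) (nat_lit 237356496) (nat_lit 131) (nat_lit 3) (nat_lit 130) (nat_lit 1) (nat_lit 131) (nat_lit 1) (nat_lit 415) (nat_lit 342) (nat_lit 263)) (XT.lf (nat_lit 0) (nat_lit 24202154) (nat_lit 0) (nat_lit 44716026) (nat_lit 152) (nat_lit 413952753) (nat_lit 128) (nat_lit 3) (nat_lit 128) (nat_lit 1) (nat_lit 130) (nat_lit 1) (nat_lit 416) (nat_lit 342) (nat_lit 262))) (XT.nd (nat_lit 46644) (nat_lit 0) (nat_lit 12540) (XT.lf (nat_lit 76) (nat_lit 180849183) (nat_lit 0) (nat_lit 89853227) (nat_lit 76) (nat_lit 199843509) (nat_lit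 128) (nat_lit 3) (nat_lit 127) (nat_lit 1) (nat_lit 128) (nat_lit 1) (nat_lit 417) (nat_lit 342) (nat_lit 261)) (XT.lf (nat_lit 836) (nat_lit 676894437) (nat_lit 0) (nat_lit 1201824518) (nat_lit 836) (nat_lit 676894437) (nat_lit 303) (nat_lit 1) (nat_lit 292) (nat_lit 0) (nat_lit 303) (nat_lit 0) (nat_lit 334) (nat_lit 343) (nat_lit 343)))))) (XT.nd (nat_lit 546) (nat_lit 2280) (nat_lit 0) (XT.nd (nat_lit 234) (nat_lit 456) (nat_lit 0) (XT.nd (nat_lit 78) (nat_lit 0) (nat_lit 0) (XT.lf (nat_lit 836) (nat_lit 252502395) (nat_lit 0) (nat_lit 2359545774) (nat_lit 760) (nat_lit 2307627884) (nat_lit 304) (nat_lit 1) (nat_lit 293) (nat_lit 1) (nat_lit 303) (nat_lit 1) (nat_lit 335) (nat_lit 343) (nat_lit 342)) (XT.nd (nat_lit 78) (nat_lit 0) (nat_lit 76) (XT.lf (nat_lit 836) (nat_lit 2319088753) (nat_lit 76) (nat_lit 1580188600) (nat_lit 0) (nat_lit 838059951) (nat_lit 304) (nat_lit 1) (nat_lit 294)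 (nat_lit 1) (nat_lit 293) (nat_lit 1) (nat_lit 336) (nat_lit 343) (nat_lit 341)) (XT.lf (nat_lit 836) (nat_lit 2003882665) (nat_lit 76) (nat_lit 662246089) (nat_lit 0) (nat_lit 1897994495) (nat_lit 305) (nat_lit 1) (nat_lit 295) (nat_lit 1) (nat_lit 294) (nat_lit 1) (nat_lit 337) (nat_lit 343) (nat_lit 340)))) (XT.nd (nat_lit 156) (nat_lit 608) (nat_lit 0) (XT.nd (nat_lit 78) (nat_lit 0) (nat_lit 76) (XT.lf (nat_lit 836) (nat_lit 1483043536) (nat_lit 0) (nat_lit 2774704356) (nat_lit 760) (nat_lit 141842490) (nat_lit 306) (nat_lit 1) (nat_lit 295) (nat_lit 1) (nat_lit 305) (nat_lit 1) (nat_lit 338) (nat_lit 343) (nat_lit 339)) (XT.lf (nat_lit 836) (nat_lit 355841755) (nat_lit 0) (nat_lit 3059882396) (nat_lit 760) (nat_lit 827190960) (nat_lit 307) (nat_lit 1) (nat_lit 296) (nat_lit 1) (nat_lit 306) (nat_lit 1) (nat_lit 339) (nat_lit 343) (nat_lit 338))) (XT.nd (nat_lit 78) (nat_lit 684) (nat_lit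 0) (XT.lf (nat_lit 836) (nat_lit 683783121) (nat_lit 76) (nat_lit 2659286979) (nat_lit 0) (nat_lit 750483594) (nat_lit 307) (nat_lit 1) (nat_lit 297) (nat_lit 1) (nat_lit 296) (nat_lit 1) (nat_lit 340) (nat_lit 343) (nat_lit 337)) (XT.lf (nat_lit 836) (nat_lit 140433460) (nat_lit 0) (nat_lit 1987992922) (nat_lit 760) (nat_lit 1822968679) (nat_lit 298) (nat_lit 1) (nat_lit 287) (nat_lit 1) (nat_lit 297) (nat_lit 1) (nat_lit 341) (nat_lit 343) (nat_lit 336))))) (XT.nd (nat_lit 234) (nat_lit 988) (nat_lit 0) (XT.nd (nat_lit 78) (nat_lit 760) (nat_lit 0) (XT.lf (nat_lit 76) (nat_lit 972390536) (nat_lit 0) (nat_lit 421382070) (nat_lit 532) (nat_lit 2422194896) (nat_lit 281) (nat_lit 1) (nat_lit 280) (nat_lit 1) (nat_lit 287) (nat_lit 1) (nat_lit 342) (nat_lit 343) (nat_lit 335)) (XT.nd (nat_lit 78) (nat_lit 380) (nat_lit 0) (XT.lf (nat_lit 456) (nat_lit 2679785926) (nat_lit 0) (nat_lit 872328090)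 (nat_lit 380) (nat_lit 134867312) (nat_lit 281) (nat_lit 1) (nat_lit 275) (nat_lit 1) (nat_lit 280) (nat_lit 1) (nat_lit 343) (nat_lit 343) (nat_lit 334)) (XT.lf (nat_lit 456) (nat_lit 1933759043) (nat_lit 0) (nat_lit 406595880) (nat_lit 380) (nat_lit 1223186406) (nat_lit 276) (nat_lit 1) (nat_lit 270) (nat_lit 1) (nat_lit 275) (nat_lit 1) (nat_lit 344) (nat_lit 343) (nat_lit 333)))) (XT.nd (nat_lit 156) (nat_lit 684) (nat_lit 0) (XT.nd (nat_lit 78) (nat_lit 0) (nat_lit 0) (XT.lf (nat_lit 380) (nat_lit 1176667714) (nat_lit 0) (nat_lit 7486090) (nat_lit 304) (nat_lit 2261932862) (nat_lit 271) (nat_lit 1) (nat_lit 266) (nat_lit 1) (nat_lit 270) (nat_lit 1) (nat_lit 345) (nat_lit 343) (nat_lit 332)) (XT.lf (nat_lit 76) (nat_lit 86808983) (nat_lit 0) (nat_lit 2927619549) (nat_lit 380) (nat_lit 319606597) (nat_lit 267) (nat_lit 1) (nat_lit 266) (nat_lit 1) (nat_lit 271) (nat_lit 1) (nat_lit 346) (nat_lit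 343) (nat_lit 331))) (XT.nd (nat_lit 78) (nat_lit 304) (nat_lit 0) (XT.lf (nat_lit 76) (nat_lit 2241430458) (nat_lit 0) (nat_lit 371765224) (nat_lit 380) (nat_lit 613108373) (nat_lit 262) (nat_lit 1) (nat_lit 261) (nat_lit 1) (nat_lit 266) (nat_lit 1) (nat_lit 347) (nat_lit 343) (nat_lit 330)) (XT.lf (nat_lit 76) (nat_lit 1121444457) (nat_lit 0) (nat_lit 1138782877) (nat_lit 380) (nat_lit 863105755) (nat_lit 258) (nat_lit 1) (nat_lit 257) (nat_lit 1) (nat_lit 262) (nat_lit 1) (nat_lit 348) (nat_lit 343) (nat_lit 329))))))))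
noncomputable def ec30 : XT := (XT.nd (nat_lit 2028) (nat_lit 3192) (nat_lit 0) (XT.nd (nat_lit 1014) (nat_lit 1976) (nat_lit 0) (XT.nd (nat_lit 468) (nat_lit 1368) (nat_lit 0) (XT.nd (nat_lit 234) (nat_lit 760) (nat_lit 0) (XT.nd (nat_lit 78) (nat_lit 608) (nat_lit 0) (XT.lf (nat_lit 76) (nat_lit 55352011) (nat_lit 0) (nat_lit 1904027288) (nat_lit 380) (nat_lit 1065858159) (nat_lit 254) (nat_lit 1) (nat_lit 253) (nat_lit 1) (nat_lit 258) (nat_lit 1) (nat_lit 349) (nat_lit 343) (nat_lit 328)) (XT.nd (nat_lit 78) (nat_lit 380) (nat_lit 0) (XT.lf (nat_lit 304) (nat_lit 249966565) (nat_lit 0) (nat_lit 1690404228) (nat_lit 228) (nat_lit 990615727) (nat_lit 254) (nat_lit 1) (nat_lit 250) (nat_lit 1) (nat_lit 253) (nat_lit 1) (nat_lit 350) (nat_lit 343) (nat_lit 327)) (XT.lf (nat_lit 76) (nat_lit 863701688) (nat_lit 0) (nat_lit 591986504) (nat_lit 380) (nat_lit 1384941066) (nat_lit 246) (nat_lit 1)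 (nat_lit 245) (nat_lit 1) (nat_lit 250) (nat_lit 1) (nat_lit 351) (nat_lit 343) (nat_lit 326)))) (XT.nd (nat_lit 78) (nat_lit 532) (nat_lit 0) (XT.lf (nat_lit 304) (nat_lit 1337217960) (nat_lit 0) (nat_lit 1256143442) (nat_lit 228) (nat_lit 160784869) (nat_lit 246) (nat_lit 1) (nat_lit 242) (nat_lit 1) (nat_lit 245) (nat_lit 1) (nat_lit 352) (nat_lit 343) (nat_lit 325)) (XT.nd (nat_lit 78) (nat_lit 304) (nat_lit 0) (XT.lf (nat_lit 304) (nat_lit 428571896) (nat_lit 0) (nat_lit 1081488065) (nat_lit 228) (nat_lit 1160926891) (nat_lit 243) (nat_lit 1) (nat_lit 239) (nat_lit 1) (nat_lit 242) (nat_lit 1) (nat_lit 353) (nat_lit 343) (nat_lit 324)) (XT.lf (nat_lit 76) (nat_lit 488468404) (nat_lit 0) (nat_lit 447235273) (nat_lit 304) (nat_lit 1655577521) (nat_lit 236) (nat_lit 1) (nat_lit 235) (nat_lit 1) (nat_lit 239) (nat_lit 1) (nat_lit 354) (nat_lit 343) (nat_lit 323))))) (XT.nd (nat_lit 234) (nat_lit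 684) (nat_lit 0) (XT.nd (nat_lit 78) (nat_lit 456) (nat_lit 0) (XT.lf (nat_lit 304) (nat_lit 1215489514) (nat_lit 0) (nat_lit 808741680) (nat_lit 228) (nat_lit 490261865) (nat_lit 236) (nat_lit 1) (nat_lit 232) (nat_lit 1) (nat_lit 235) (nat_lit 1) (nat_lit 355) (nat_lit 343) (nat_lit 322)) (XT.nd (nat_lit 78) (nat_lit 304) (nat_lit 0) (XT.lf (nat_lit 228) (nat_lit 301321645) (nat_lit 0) (nat_lit 705568126) (nat_lit 152) (nat_lit 1433912996) (nat_lit 233) (nat_lit 1) (nat_lit 230) (nat_lit 1) (nat_lit 232) (nat_lit 1) (nat_lit 356) (nat_lit 343) (nat_lit 321)) (XT.lf (nat_lit 76) (nat_lit 51045811) (nat_lit 0) (nat_lit 571213715) (nat_lit 304) (nat_lit 1747709379) (nat_lit 227) (nat_lit 1) (nat_lit 226) (nat_lit 1) (nat_lit 230) (nat_lit 1) (nat_lit 357) (nat_lit 343) (nat_lit 320)))) (XT.nd (nat_lit 156) (nat_lit 304) (nat_lit 0) (XT.nd (nat_lit 78) (nat_lit 228) (nat_lit 0) (XT.lf (nat_lit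 228) (nat_lit 875585412) (nat_lit 0) (nat_lit 547165766) (nat_lit 152) (nat_lit 878632458) (nat_lit 227) (nat_lit 1) (nat_lit 224) (nat_lit 1) (nat_lit 226) (nat_lit 1) (nat_lit 358) (nat_lit 343) (nat_lit 319)) (XT.lf (nat_lit 76) (nat_lit 475056054) (nat_lit 0) (nat_lit 21943136) (nat_lit 228) (nat_lit 1738792003) (nat_lit 222) (nat_lit 1) (nat_lit 221) (nat_lit 1) (nat_lit 224) (nat_lit 1) (nat_lit 359) (nat_lit 343) (nat_lit 318))) (XT.nd (nat_lit 78) (nat_lit 152) (nat_lit 0) (XT.lf (nat_lit 228) (nat_lit 1298711516) (nat_lit 0) (nat_lit 450032659) (nat_lit 152) (nat_lit 423362612) (nat_lit 222) (nat_lit 1) (nat_lit 219) (nat_lit 1) (nat_lit 221) (nat_lit 1) (nat_lit 360) (nat_lit 343) (nat_lit 317)) (XT.lf (nat_lit 228) (nat_lit 403431839) (nat_lit 0) (nat_lit 418355122) (nat_lit 152) (nat_lit 1289070353) (nat_lit 220) (nat_lit 1) (nat_lit 217) (nat_lit 1) (nat_lit 219) (nat_lit 1) (nat_lit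 361) (nat_lit 343) (nat_lit 316)))))) (XT.nd (nat_lit 468) (nat_lit 988) (nat_lit 0) (XT.nd (nat_lit 234) (nat_lit 456) (nat_lit 0) (XT.nd (nat_lit 78) (nat_lit 304) (nat_lit 0) (XT.lf (nat_lit 228) (nat_lit 1601476139) (nat_lit 0) (nat_lit 399704364) (nat_lit 152) (nat_lit 50707135) (nat_lit 217) (nat_lit 1) (nat_lit 214) (nat_lit 1) (nat_lit 216) (nat_lit 1) (nat_lit 362) (nat_lit 343) (nat_lit 315)) (XT.nd (nat_lit 78) (nat_lit 152) (nat_lit 0) (XT.lf (nat_lit 228) (nat_lit 716746497) (nat_lit 0) (nat_lit 381582908) (nat_lit 152) (nat_lit 896227136) (nat_lit 215) (nat_lit 1) (nat_lit 212) (nat_lit 1) (nat_lit 214) (nat_lit 1) (nat_lit 363) (nat_lit 343) (nat_lit 314)) (XT.lf (nat_lit 76) (nat_lit 245513348) (nat_lit 0) (nat_lit 134945199) (nat_lit 152) (nat_lit 1559144845) (nat_lit 211) (nat_lit 1) (nat_lit 210) (nat_lit 1) (nat_lit 212) (nat_lit 1) (nat_lit 364) (nat_lit 343) (nat_lit 313))))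 (XT.nd (nat_lit 78) (nat_lit 304) (nat_lit 0) (XT.lf (nat_lit 228) (nat_lit 940412625) (nat_lit 0) (nat_lit 376429915) (nat_lit 152) (nat_lit 569194392) (nat_lit 211) (nat_lit 1) (nat_lit 208) (nat_lit 1) (nat_lit 210) (nat_lit 1) (nat_lit 365) (nat_lit 343) (nat_lit 312)) (XT.nd (nat_lit 78) (nat_lit 228) (nat_lit 0) (XT.lf (nat_lit 152) (nat_lit 101269076) (nat_lit 0) (nat_lit 385675520) (nat_lit 76) (nat_lit 1347640611) (nat_lit 209) (nat_lit 1) (nat_lit 207) (nat_lit 1) (nat_lit 208) (nat_lit 1) (nat_lit 366) (nat_lit 343) (nat_lit 311)) (XT.lf (nat_lit 228) (nat_lit 1093162294) (nat_lit 0) (nat_lit 394443138) (nat_lit 152) (nat_lit 296946733) (nat_lit 207) (nat_lit 1) (nat_lit 204) (nat_lit 1) (nat_lit 206) (nat_lit 1) (nat_lit 367) (nat_lit 343) (nat_lit 310))))) (XT.nd (nat_lit 234) (nat_lit 608) (nat_lit 0) (XT.nd (nat_lit 78) (nat_lit 304) (nat_lit 0) (XT.lf (nat_lit 152) (nat_lit 274938378)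 (nat_lit 0) (nat_lit 409191764) (nat_lit 76) (nat_lit 1052075196) (nat_lit 205) (nat_lit 1) (nat_lit 203) (nat_lit 1) (nat_lit 204) (nat_lit 1) (nat_lit 368) (nat_lit 343) (nat_lit 309)) (XT.nd (nat_lit 78) (nat_lit 76) (nat_lit 0) (XT.lf (nat_lit 228) (nat_lit 1190140623) (nat_lit 0) (nat_lit 428927204) (nat_lit 152) (nat_lit 70390626) (nat_lit 203) (nat_lit 1) (nat_lit 200) (nat_lit 1) (nat_lit 202) (nat_lit 1) (nat_lit 369) (nat_lit 343) (nat_lit 308)) (XT.lf (nat_lit 152) (nat_lit 395674045) (nat_lit 0) (nat_lit 447161765) (nat_lit 76) (nat_lit 801128919) (nat_lit 201) (nat_lit 1) (nat_lit 199) (nat_lit 1) (nat_lit 200) (nat_lit 1) (nat_lit 370) (nat_lit 343) (nat_lit 307)))) (XT.nd (nat_lit 156) (nat_lit 304) (nat_lit 0) (XT.nd (nat_lit 78) (nat_lit 76) (nat_lit 0) (XT.lf (nat_lit 76) (nat_lit 114207275) (nat_lit 0) (nat_lit 358466195) (nat_lit 228) (nat_lit 1127431898) (nat_lit 197) (nat_lit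 1) (nat_lit 196) (nat_lit 1) (nat_lit 199) (nat_lit 1) (nat_lit 371) (nat_lit 343) (nat_lit 306)) (XT.lf (nat_lit 152) (nat_lit 474844553) (nat_lit 0) (nat_lit 494765517) (nat_lit 76) (nat_lit 587725159) (nat_lit 197) (nat_lit 1) (nat_lit 195) (nat_lit 1) (nat_lit 196) (nat_lit 1) (nat_lit 372) (nat_lit 343) (nat_lit 305))) (XT.nd (nat_lit 78) (nat_lit 76) (nat_lit 0) (XT.lf (nat_lit 76) (nat_lit 265603598) (nat_lit 0) (nat_lit 257255045) (nat_lit 228) (nat_lit 993209493) (nat_lit 193) (nat_lit 1) (nat_lit 192) (nat_lit 1) (nat_lit 195) (nat_lit 1) (nat_lit 373) (nat_lit 343) (nat_lit 304)) (XT.lf (nat_lit 152) (nat_lit 521617807) (nat_lit 0) (nat_lit 548240465) (nat_lit 76) (nat_lit 405997131) (nat_lit 193) (nat_lit 1) (nat_lit 191) (nat_lit 1) (nat_lit 192) (nat_lit 1) (nat_lit 374) (nat_lit 343) (nat_lit 303))))))) (XT.nd (nat_lit 1014) (nat_lit 1672) (nat_lit 0) (XT.nd (nat_lit 468) (nat_lit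 836) (nat_lit 0) (XT.nd (nat_lit 234) (nat_lit 304) (nat_lit 0) (XT.nd (nat_lit 78) (nat_lit 228) (nat_lit 0) (XT.lf (nat_lit 76) (nat_lit 391029915) (nat_lit 0) (nat_lit 186318758) (nat_lit 152) (nat_lit 859622038) (nat_lit 190) (nat_lit 1) (nat_lit 189) (nat_lit 1) (nat_lit 191) (nat_lit 1) (nat_lit 375) (nat_lit 343) (nat_lit 302)) (XT.nd (nat_lit 78) (nat_lit 152) (nat_lit 0) (XT.lf (nat_lit 152) (nat_lit 543372335) (nat_lit 0) (nat_lit 604675406) (nat_lit 76) (nat_lit 251072077) (nat_lit 190) (nat_lit 1) (nat_lit 188) (nat_lit 1) (nat_lit 189) (nat_lit 1) (nat_lit 376) (nat_lit 343) (nat_lit 301)) (XT.lf (nat_lit 76) (nat_lit 494616485) (nat_lit 0) (nat_lit 138996222) (nat_lit 152) (nat_lit 728820474) (nat_lit 187) (nat_lit 1) (nat_lit 186) (nat_lit 1) (nat_lit 188) (nat_lit 1) (nat_lit 377) (nat_lit 343) (nat_lit 300)))) (XT.nd (nat_lit 78) (nat_lit 228) (nat_lit 0) (XT.lf (nat_lit 152)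 (nat_lit 546032570) (nat_lit 0) (nat_lit 661843003) (nat_lit 76) (nat_lit 118894654) (nat_lit 187) (nat_lit 1) (nat_lit 185) (nat_lit 1) (nat_lit 186) (nat_lit 1) (nat_lit 378) (nat_lit 343) (nat_lit 299)) (XT.nd (nat_lit 78) (nat_lit 76) (nat_lit 0) (XT.lf (nat_lit 76) (nat_lit 579796015) (nat_lit 0) (nat_lit 109931287) (nat_lit 152) (nat_lit 602391473) (nat_lit 184) (nat_lit 1) (nat_lit 183) (nat_lit 1) (nat_lit 185) (nat_lit 1) (nat_lit 379) (nat_lit 343) (nat_lit 298)) (XT.lf (nat_lit 152) (nat_lit 534342181) (nat_lit 0) (nat_lit 718063751) (nat_lit 76) (nat_lit 6082348) (nat_lit 184) (nat_lit 1) (nat_lit 182) (nat_lit 1) (nat_lit 183) (nat_lit 1) (nat_lit 380) (nat_lit 343) (nat_lit 297))))) (XT.nd (nat_lit 234) (nat_lit 456) (nat_lit 0) (XT.nd (nat_lit 78) (nat_lit 228) (nat_lit 0) (XT.lf (nat_lit 76) (nat_lit 649427133) (nat_lit 0) (nat_lit 94827728) (nat_lit 152) (nat_lit 481472426) (nat_lit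 181) (nat_lit 1) (nat_lit 180) (nat_lit 1) (nat_lit 182) (nat_lit 1) (nat_lit 381) (nat_lit 343) (nat_lit 296)) (XT.nd (nat_lit 78) (nat_lit 152) (nat_lit 0) (XT.lf (nat_lit 0) (nat_lit 87306196) (nat_lit 0) (nat_lit 683310844) (nat_lit 152) (nat_lit 423302074) (nat_lit 179) (nat_lit 3) (nat_lit 179) (nat_lit 1) (nat_lit 181) (nat_lit 1) (nat_lit 382) (nat_lit 343) (nat_lit 295)) (XT.lf (nat_lit 76) (nat_lit 705895509) (nat_lit 0) (nat_lit 90249539) (nat_lit 152) (nat_lit 366844600) (nat_lit 178) (nat_lit 1) (nat_lit 177) (nat_lit 1) (nat_lit 179) (nat_lit 1) (nat_lit 383) (nat_lit 343) (nat_lit 294)))) (XT.nd (nat_lit 156) (nat_lit 228) (nat_lit 0) (XT.nd (nat_lit 78) (nat_lit 152) (nat_lit 0) (XT.lf (nat_lit 0) (nat_lit 166787133) (nat_lit 0) (nat_lit 653432773) (nat_lit 152) (nat_lit 312663997) (nat_lit 176) (nat_lit 3) (nat_lit 176) (nat_lit 1) (nat_lit 178) (nat_lit 1) (nat_lit 384) (nat_lit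 343) (nat_lit 293)) (XT.lf (nat_lit 76) (nat_lit 751196713) (nat_lit 0) (nat_lit 93458192) (nat_lit 152) (nat_lit 259008519) (nat_lit 175) (nat_lit 1) (nat_lit 174) (nat_lit 1) (nat_lit 176) (nat_lit 1) (nat_lit 385) (nat_lit 343) (nat_lit 292))) (XT.nd (nat_lit 78) (nat_lit 152) (nat_lit 0) (XT.lf (nat_lit 0) (nat_lit 234484148) (nat_lit 0) (nat_lit 631836718) (nat_lit 152) (nat_lit 208834221) (nat_lit 173) (nat_lit 3) (nat_lit 173) (nat_lit 1) (nat_lit 175) (nat_lit 1) (nat_lit 386) (nat_lit 343) (nat_lit 291)) (XT.lf (nat_lit 76) (nat_lit 787004132) (nat_lit 0) (nat_lit 102280084) (nat_lit 152) (nat_lit 158244872) (nat_lit 172) (nat_lit 1) (nat_lit 171) (nat_lit 1) (nat_lit 173) (nat_lit 1) (nat_lit 387) (nat_lit 343) (nat_lit 290)))))) (XT.nd (nat_lit 546) (nat_lit 836) (nat_lit 0) (XT.nd (nat_lit 234) (nat_lit 532) (nat_lit 0) (XT.nd (nat_lit 78) (nat_lit 228) (nat_lit 0) (XT.lf (nat_lit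 0) (nat_lit 292023591) (nat_lit 0) (nat_lit 616467194) (nat_lit 152) (nat_lit 112031174) (nat_lit 170) (nat_lit 3) (nat_lit 170) (nat_lit 1) (nat_lit 172) (nat_lit 1) (nat_lit 388) (nat_lit 343) (nat_lit 289)) (XT.nd (nat_lit 78) (nat_lit 76) (nat_lit 0) (XT.lf (nat_lit 76) (nat_lit 814724678) (nat_lit 0) (nat_lit 114998587) (nat_lit 152) (nat_lit 64663639) (nat_lit 169) (nat_lit 1) (nat_lit 168) (nat_lit 1) (nat_lit 170) (nat_lit 1) (nat_lit 389) (nat_lit 343) (nat_lit 288)) (XT.lf (nat_lit 0) (nat_lit 340780966) (nat_lit 0) (nat_lit 605693439) (nat_lit 152) (nat_lit 22318107) (nat_lit 167) (nat_lit 3) (nat_lit 167) (nat_lit 1) (nat_lit 169) (nat_lit 1) (nat_lit 390) (nat_lit 343) (nat_lit 287)))) (XT.nd (nat_lit 156) (nat_lit 228) (nat_lit 0) (XT.nd (nat_lit 78) (nat_lit 76) (nat_lit 0) (XT.lf (nat_lit 152) (nat_lit 813419692) (nat_lit 0) (nat_lit 22475724) (nat_lit 76) (nat_lit 108141373)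 (nat_lit 166) (nat_lit 1) (nat_lit 164) (nat_lit 1) (nat_lit 165) (nat_lit 1) (nat_lit 391) (nat_lit 343) (nat_lit 286)) (XT.lf (nat_lit 76) (nat_lit 320540785) (nat_lit 0) (nat_lit 62356258) (nat_lit 76) (nat_lit 536845306) (nat_lit 164) (nat_lit 3) (nat_lit 163) (nat_lit 1) (nat_lit 164) (nat_lit 1) (nat_lit 392) (nat_lit 343) (nat_lit 285))) (XT.nd (nat_lit 78) (nat_lit 76) (nat_lit 0) (XT.lf (nat_lit 152) (nat_lit 747618075) (nat_lit 0) (nat_lit 104479720) (nat_lit 76) (nat_lit 44184515) (nat_lit 163) (nat_lit 1) (nat_lit 161) (nat_lit 1) (nat_lit 162) (nat_lit 1) (nat_lit 393) (nat_lit 343) (nat_lit 284)) (XT.lf (nat_lit 76) (nat_lit 277989736) (nat_lit 0) (nat_lit 140651275) (nat_lit 76) (nat_lit 454605224) (nat_lit 161) (nat_lit 3) (nat_lit 160) (nat_lit 1) (nat_lit 161) (nat_lit 1) (nat_lit 394) (nat_lit 343) (nat_lit 283))))) (XT.nd (nat_lit 234) (nat_lit 456) (nat_lit 0) (XT.nd (nat_lit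 78) (nat_lit 228) (nat_lit 0) (XT.lf (nat_lit 0) (nat_lit 11733484) (nat_lit 0) (nat_lit 167479065) (nat_lit 152) (nat_lit 671799144) (nat_lit 158) (nat_lit 3) (nat_lit 158) (nat_lit 1) (nat_lit 160) (nat_lit 1) (nat_lit 395) (nat_lit 343) (nat_lit 282)) (XT.nd (nat_lit 78) (nat_lit 152) (nat_lit 0) (XT.lf (nat_lit 76) (nat_lit 236458547) (nat_lit 0) (nat_lit 212047120) (nat_lit 76) (nat_lit 380667417) (nat_lit 158) (nat_lit 3) (nat_lit 157) (nat_lit 1) (nat_lit 158) (nat_lit 1) (nat_lit 396) (nat_lit 343) (nat_lit 281)) (XT.lf (nat_lit 0) (nat_lit 59673930) (nat_lit 0) (nat_lit 186842246) (nat_lit 152) (nat_lit 561546191) (nat_lit 155) (nat_lit 3) (nat_lit 155) (nat_lit 1) (nat_lit 157) (nat_lit 1) (nat_lit 397) (nat_lit 343) (nat_lit 280)))) (XT.nd (nat_lit 156) (nat_lit 228) (nat_lit 0) (XT.nd (nat_lit 78) (nat_lit 152) (nat_lit 0) (XT.lf (nat_lit 76) (nat_lit 196412738) (nat_lit 0) (nat_lit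 276810962) (nat_lit 76) (nat_lit 314161179) (nat_lit 155) (nat_lit 3) (nat_lit 154) (nat_lit 1) (nat_lit 155) (nat_lit 1) (nat_lit 398) (nat_lit 343) (nat_lit 279)) (XT.lf (nat_lit 0) (nat_lit 101781584) (nat_lit 0) (nat_lit 205616188) (nat_lit 152) (nat_lit 459937972) (nat_lit 152) (nat_lit 3) (nat_lit 152) (nat_lit 1) (nat_lit 154) (nat_lit 1) (nat_lit 399) (nat_lit 343) (nat_lit 278))) (XT.nd (nat_lit 78) (nat_lit 152) (nat_lit 0) (XT.lf (nat_lit 76) (nat_lit 158183288) (nat_lit 0) (nat_lit 335243743) (nat_lit 76) (nat_lit 254326440) (nat_lit 152) (nat_lit 3) (nat_lit 151) (nat_lit 1) (nat_lit 152) (nat_lit 1) (nat_lit 400) (nat_lit 343) (nat_lit 277)) (XT.lf (nat_lit 0) (nat_lit 138692518) (nat_lit 0) (nat_lit 223474839) (nat_lit 152) (nat_lit 366540705) (nat_lit 149) (nat_lit 3) (nat_lit 149) (nat_lit 1) (nat_lit 151) (nat_lit 1) (nat_lit 401) (nat_lit 343) (nat_lit 276))))))))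
noncomputable def ec31 : XT := (XT.nd (nat_lit 48360) (nat_lit 0) (nat_lit 6004) (XT.nd (nat_lit 1014) (nat_lit 532) (nat_lit 0) (XT.nd (nat_lit 468) (nat_lit 912) (nat_lit 0) (XT.nd (nat_lit 234) (nat_lit 380) (nat_lit 0) (XT.nd (nat_lit 78) (nat_lit 228) (nat_lit 0) (XT.lf (nat_lit 76) (nat_lit 121994647) (nat_lit 0) (nat_lit 387668108) (nat_lit 76) (nat_lit 200496796) (nat_lit 149) (nat_lit 3) (nat_lit 148) (nat_lit 1) (nat_lit 149) (nat_lit 1) (nat_lit 402) (nat_lit 343) (nat_lit 275)) (XT.nd (nat_lit 78) (nat_lit 76) (nat_lit 0) (XT.lf (nat_lit 0) (nat_lit 170962823) (nat_lit 0) (nat_lit 240188704) (nat_lit 152) (nat_lit 280912416) (nat_lit 146) (nat_lit 3) (nat_lit 146) (nat_lit 1) (nat_lit 148) (nat_lit 1) (nat_lit 403) (nat_lit 343) (nat_lit 274)) (XT.lf (nat_lit 76) (nat_lit 87987398) (nat_lit 0) (nat_lit 434418934) (nat_lit 76) (nat_lit 152085436) (nat_lit 146) (nat_lit 3) (nat_lit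 145) (nat_lit 1) (nat_lit 146) (nat_lit 1) (nat_lit 404) (nat_lit 343) (nat_lit 273)))) (XT.nd (nat_lit 78) (nat_lit 228) (nat_lit 0) (XT.lf (nat_lit 0) (nat_lit 199080653) (nat_lit 0) (nat_lit 255604496) (nat_lit 152) (nat_lit 202610421) (nat_lit 143) (nat_lit 3) (nat_lit 143) (nat_lit 1) (nat_lit 145) (nat_lit 1) (nat_lit 405) (nat_lit 343) (nat_lit 272)) (XT.nd (nat_lit 78) (nat_lit 152) (nat_lit 0) (XT.lf (nat_lit 76) (nat_lit 56236562) (nat_lit 0) (nat_lit 475835961) (nat_lit 76) (nat_lit 108573454) (nat_lit 143) (nat_lit 3) (nat_lit 142) (nat_lit 1) (nat_lit 143) (nat_lit 1) (nat_lit 406) (nat_lit 343) (nat_lit 271)) (XT.lf (nat_lit 0) (nat_lit 223476240) (nat_lit 0) (nat_lit 269628702) (nat_lit 152) (nat_lit 131197059) (nat_lit 140) (nat_lit 3) (nat_lit 140) (nat_lit 1) (nat_lit 142) (nat_lit 1) (nat_lit 407) (nat_lit 343) (nat_lit 270))))) (XT.nd (nat_lit 234) (nat_lit 532) (nat_lit 0)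 (XT.nd (nat_lit 78) (nat_lit 304) (nat_lit 0) (XT.lf (nat_lit 76) (nat_lit 26766359) (nat_lit 0) (nat_lit 512258110) (nat_lit 76) (nat_lit 69500120) (nat_lit 140) (nat_lit 3) (nat_lit 139) (nat_lit 1) (nat_lit 140) (nat_lit 1) (nat_lit 408) (nat_lit 343) (nat_lit 269)) (XT.nd (nat_lit 78) (nat_lit 152) (nat_lit 0) (XT.lf (nat_lit 0) (nat_lit 244530223) (nat_lit 0) (nat_lit 282214316) (nat_lit 152) (nat_lit 66244009) (nat_lit 137) (nat_lit 3) (nat_lit 137) (nat_lit 1) (nat_lit 139) (nat_lit 1) (nat_lit 409) (nat_lit 343) (nat_lit 268)) (XT.lf (nat_lit 76) (nat_lit 543588080) (nat_lit 0) (nat_lit 423905) (nat_lit 152) (nat_lit 34023671) (nat_lit 136) (nat_lit 1) (nat_lit 135) (nat_lit 1) (nat_lit 137) (nat_lit 1) (nat_lit 410) (nat_lit 343) (nat_lit 267)))) (XT.nd (nat_lit 156) (nat_lit 228) (nat_lit 0) (XT.nd (nat_lit 78) (nat_lit 228) (nat_lit 0) (XT.lf (nat_lit 0) (nat_lit 262580614) (nat_lit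 0) (nat_lit 293350172) (nat_lit 152) (nat_lit 7335479) (nat_lit 134) (nat_lit 3) (nat_lit 134) (nat_lit 1) (nat_lit 136) (nat_lit 1) (nat_lit 411) (nat_lit 343) (nat_lit 266)) (XT.lf (nat_lit 152) (nat_lit 524095670) (nat_lit 0) (nat_lit 22679452) (nat_lit 76) (nat_lit 2281417) (nat_lit 133) (nat_lit 1) (nat_lit 131) (nat_lit 1) (nat_lit 132) (nat_lit 1) (nat_lit 412) (nat_lit 343) (nat_lit 265))) (XT.nd (nat_lit 78) (nat_lit 152) (nat_lit 0) (XT.lf (nat_lit 76) (nat_lit 231221267) (nat_lit 0) (nat_lit 47448147) (nat_lit 76) (nat_lit 256345016) (nat_lit 131) (nat_lit 3) (nat_lit 130) (nat_lit 1) (nat_lit 131) (nat_lit 1) (nat_lit 413) (nat_lit 343) (nat_lit 264)) (XT.lf (nat_lit 0) (nat_lit 26138326) (nat_lit 0) (nat_lit 48293308) (nat_lit 152) (nat_lit 447068973) (nat_lit 128) (nat_lit 3) (nat_lit 128) (nat_lit 1) (nat_lit 130) (nat_lit 1) (nat_lit 414) (nat_lit 343) (nat_lit 263)))))) (XT.nd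 (nat_lit 46800) (nat_lit 0) (nat_lit 12084) (XT.nd (nat_lit 234) (nat_lit 228) (nat_lit 0) (XT.nd (nat_lit 78) (nat_lit 228) (nat_lit 0) (XT.lf (nat_lit 76) (nat_lit 195317118) (nat_lit 0) (nat_lit 97041486) (nat_lit 76) (nat_lit 215830990) (nat_lit 128) (nat_lit 3) (nat_lit 127) (nat_lit 1) (nat_lit 128) (nat_lit 1) (nat_lit 415) (nat_lit 343) (nat_lit 262)) (XT.nd (nat_lit 78) (nat_lit 76) (nat_lit 0) (XT.lf (nat_lit 0) (nat_lit 51432457) (nat_lit 0) (nat_lit 69522291) (nat_lit 152) (nat_lit 374385556) (nat_lit 125) (nat_lit 3) (nat_lit 125) (nat_lit 1) (nat_lit 127) (nat_lit 1) (nat_lit 416) (nat_lit 343) (nat_lit 261)) (XT.lf (nat_lit 76) (nat_lit 162195938) (nat_lit 0) (nat_lit 141581342) (nat_lit 76) (nat_lit 178945784) (nat_lit 125) (nat_lit 3) (nat_lit 124) (nat_lit 1) (nat_lit 125) (nat_lit 1) (nat_lit 417) (nat_lit 343) (nat_lit 260)))) (XT.nd (nat_lit 46410) (nat_lit 0) (nat_lit 12996)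 (XT.nd (nat_lit 78) (nat_lit 76) (nat_lit 0) (XT.lf (nat_lit 0) (nat_lit 73941183) (nat_lit 0) (nat_lit 88711771) (nat_lit 152) (nat_lit 307851822) (nat_lit 122) (nat_lit 3) (nat_lit 122) (nat_lit 1) (nat_lit 124) (nat_lit 1) (nat_lit 418) (nat_lit 343) (nat_lit 259)) (XT.lf (nat_lit 76) (nat_lit 131719713) (nat_lit 0) (nat_lit 181428527) (nat_lit 76) (nat_lit 145396183) (nat_lit 122) (nat_lit 3) (nat_lit 121) (nat_lit 1) (nat_lit 122) (nat_lit 1) (nat_lit 419) (nat_lit 343) (nat_lit 258))) (XT.nd (nat_lit 78) (nat_lit 0) (nat_lit 76) (XT.lf (nat_lit 836) (nat_lit 731045992) (nat_lit 0) (nat_lit 1297970479) (nat_lit 836) (nat_lit 731045992) (nat_lit 303) (nat_lit 1) (nat_lit 292) (nat_lit 0) (nat_lit 303) (nat_lit 0) (nat_lit 332) (nat_lit 344) (nat_lit 344)) (XT.lf (nat_lit 836) (nat_lit 272702586) (nat_lit 0) (nat_lit 2548309436) (nat_lit 760) (nat_lit 2492238114) (nat_lit 304) (nat_lit 1)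 (nat_lit 293) (nat_lit 1) (nat_lit 303) (nat_lit 1) (nat_lit 333) (nat_lit 344) (nat_lit 343))))) (XT.nd (nat_lit 234) (nat_lit 988) (nat_lit 0) (XT.nd (nat_lit 78) (nat_lit 0) (nat_lit 76) (XT.lf (nat_lit 836) (nat_lit 2504615854) (nat_lit 76) (nat_lit 1706603688) (nat_lit 0) (nat_lit 905104747) (nat_lit 304) (nat_lit 1) (nat_lit 294) (nat_lit 1) (nat_lit 293) (nat_lit 1) (nat_lit 334) (nat_lit 344) (nat_lit 342)) (XT.nd (nat_lit 78) (nat_lit 0) (nat_lit 76) (XT.lf (nat_lit 836) (nat_lit 2164193278) (nat_lit 76) (nat_lit 715225776) (nat_lit 0) (nat_lit 2049834055) (nat_lit 305) (nat_lit 1) (nat_lit 295) (nat_lit 1) (nat_lit 294) (nat_lit 1) (nat_lit 335) (nat_lit 344) (nat_lit 341)) (XT.lf (nat_lit 836) (nat_lit 1601687019) (nat_lit 0) (nat_lit 2996680705) (nat_lit 760) (nat_lit 153189889) (nat_lit 306) (nat_lit 1) (nat_lit 295) (nat_lit 1) (nat_lit 305) (nat_lit 1) (nat_lit 336) (nat_lit 344)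 (nat_lit 340)))) (XT.nd (nat_lit 156) (nat_lit 1216) (nat_lit 0) (XT.nd (nat_lit 78) (nat_lit 0) (nat_lit 0) (XT.lf (nat_lit 836) (nat_lit 384309096) (nat_lit 0) (nat_lit 3304672987) (nat_lit 760) (nat_lit 893366237) (nat_lit 307) (nat_lit 1) (nat_lit 296) (nat_lit 1) (nat_lit 306) (nat_lit 1) (nat_lit 337) (nat_lit 344) (nat_lit 339)) (XT.lf (nat_lit 836) (nat_lit 738485771) (nat_lit 76) (nat_lit 2872029937) (nat_lit 0) (nat_lit 810522282) (nat_lit 307) (nat_lit 1) (nat_lit 297) (nat_lit 1) (nat_lit 296) (nat_lit 1) (nat_lit 338) (nat_lit 344) (nat_lit 338))) (XT.nd (nat_lit 78) (nat_lit 532) (nat_lit 0) (XT.lf (nat_lit 836) (nat_lit 151668137) (nat_lit 0) (nat_lit 2147032355) (nat_lit 760) (nat_lit 1968806174) (nat_lit 298) (nat_lit 1) (nat_lit 287) (nat_lit 1) (nat_lit 297) (nat_lit 1) (nat_lit 339) (nat_lit 344) (nat_lit 337)) (XT.lf (nat_lit 76) (nat_lit 1050181779) (nat_lit 0) (nat_lit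 455092636) (nat_lit 532) (nat_lit 2615970488) (nat_lit 281) (nat_lit 1) (nat_lit 280) (nat_lit 1) (nat_lit 287) (nat_lit 1) (nat_lit 340) (nat_lit 344) (nat_lit 336))))))) (XT.nd (nat_lit 1014) (nat_lit 2432) (nat_lit 0) (XT.nd (nat_lit 468) (nat_lit 1900) (nat_lit 0) (XT.nd (nat_lit 234) (nat_lit 684) (nat_lit 0) (XT.nd (nat_lit 78) (nat_lit 684) (nat_lit 0) (XT.lf (nat_lit 456) (nat_lit 2894168800) (nat_lit 0) (nat_lit 942114337) (nat_lit 380) (nat_lit 145656697) (nat_lit 281) (nat_lit 1) (nat_lit 275) (nat_lit 1) (nat_lit 280) (nat_lit 1) (nat_lit 341) (nat_lit 344) (nat_lit 335)) (XT.nd (nat_lit 78) (nat_lit 304) (nat_lit 0) (XT.lf (nat_lit 456) (nat_lit 2088459766) (nat_lit 0) (nat_lit 439123551) (nat_lit 380) (nat_lit 1321041318) (nat_lit 276) (nat_lit 1) (nat_lit 270) (nat_lit 1) (nat_lit 275) (nat_lit 1) (nat_lit 342) (nat_lit 344) (nat_lit 334)) (XT.lf (nat_lit 380) (nat_lit 1270801131)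 (nat_lit 0) (nat_lit 8084978) (nat_lit 304) (nat_lit 2442887491) (nat_lit 271) (nat_lit 1) (nat_lit 266) (nat_lit 1) (nat_lit 270) (nat_lit 1) (nat_lit 343) (nat_lit 344) (nat_lit 333)))) (XT.nd (nat_lit 78) (nat_lit 684) (nat_lit 0) (XT.lf (nat_lit 76) (nat_lit 93753701) (nat_lit 0) (nat_lit 3161829113) (nat_lit 380) (nat_lit 345175125) (nat_lit 267) (nat_lit 1) (nat_lit 266) (nat_lit 1) (nat_lit 271) (nat_lit 1) (nat_lit 344) (nat_lit 344) (nat_lit 332)) (XT.nd (nat_lit 78) (nat_lit 304) (nat_lit 0) (XT.lf (nat_lit 76) (nat_lit 2420744895) (nat_lit 0) (nat_lit 401506442) (nat_lit 380) (nat_lit 662157043) (nat_lit 262) (nat_lit 1) (nat_lit 261) (nat_lit 1) (nat_lit 266) (nat_lit 1) (nat_lit 345) (nat_lit 344) (nat_lit 331)) (XT.lf (nat_lit 76) (nat_lit 1211160014) (nat_lit 0) (nat_lit 1229885507) (nat_lit 380) (nat_lit 932154215) (nat_lit 258) (nat_lit 1) (nat_lit 257) (nat_lit 1) (nat_lit 262)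 (nat_lit 1) (nat_lit 346) (nat_lit 344) (nat_lit 330))))) (XT.nd (nat_lit 234) (nat_lit 988) (nat_lit 0) (XT.nd (nat_lit 78) (nat_lit 608) (nat_lit 0) (XT.lf (nat_lit 76) (nat_lit 59780172) (nat_lit 0) (nat_lit 2056349471) (nat_lit 380) (nat_lit 1151126812) (nat_lit 254) (nat_lit 1) (nat_lit 253) (nat_lit 1) (nat_lit 258) (nat_lit 1) (nat_lit 347) (nat_lit 344) (nat_lit 329)) (XT.nd (nat_lit 78) (nat_lit 380) (nat_lit 0) (XT.lf (nat_lit 304) (nat_lit 269963890) (nat_lit 0) (nat_lit 1825636566) (nat_lit 228) (nat_lit 1069864985) (nat_lit 254) (nat_lit 1) (nat_lit 250) (nat_lit 1) (nat_lit 253) (nat_lit 1) (nat_lit 348) (nat_lit 344) (nat_lit 328)) (XT.lf (nat_lit 76) (nat_lit 932797823) (nat_lit 0) (nat_lit 639345424) (nat_lit 380) (nat_lit 1495736352) (nat_lit 246) (nat_lit 1) (nat_lit 245) (nat_lit 1) (nat_lit 250) (nat_lit 1) (nat_lit 349) (nat_lit 344) (nat_lit 327)))) (XT.nd (nat_lit 156)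 (nat_lit 532) (nat_lit 0) (XT.nd (nat_lit 78) (nat_lit 228) (nat_lit 0) (XT.lf (nat_lit 304) (nat_lit 1444195397) (nat_lit 0) (nat_lit 1356634918) (nat_lit 228) (nat_lit 173647659) (nat_lit 246) (nat_lit 1) (nat_lit 242) (nat_lit 1) (nat_lit 245) (nat_lit 1) (nat_lit 350) (nat_lit 344) (nat_lit 326)) (XT.lf (nat_lit 304) (nat_lit 462857647) (nat_lit 0) (nat_lit 1168007110) (nat_lit 228) (nat_lit 1253801042) (nat_lit 243) (nat_lit 1) (nat_lit 239) (nat_lit 1) (nat_lit 242) (nat_lit 1) (nat_lit 351) (nat_lit 344) (nat_lit 325))) (XT.nd (nat_lit 78) (nat_lit 228) (nat_lit 0) (XT.lf (nat_lit 76) (nat_lit 527545877) (nat_lit 0) (nat_lit 483014095) (nat_lit 304) (nat_lit 1788023722) (nat_lit 236) (nat_lit 1) (nat_lit 235) (nat_lit 1) (nat_lit 239) (nat_lit 1) (nat_lit 352) (nat_lit 344) (nat_lit 324)) (XT.lf (nat_lit 304) (nat_lit 1312728675) (nat_lit 0) (nat_lit 873441014) (nat_lit 228) (nat_lit 529482814)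 (nat_lit 236) (nat_lit 1) (nat_lit 232) (nat_lit 1) (nat_lit 235) (nat_lit 1) (nat_lit 353) (nat_lit 344) (nat_lit 323)))))) (XT.nd (nat_lit 546) (nat_lit 1064) (nat_lit 0) (XT.nd (nat_lit 234) (nat_lit 760) (nat_lit 0) (XT.nd (nat_lit 78) (nat_lit 456) (nat_lit 0) (XT.lf (nat_lit 228) (nat_lit 325427376) (nat_lit 0) (nat_lit 762013576) (nat_lit 152) (nat_lit 1548626036) (nat_lit 233) (nat_lit 1) (nat_lit 230) (nat_lit 1) (nat_lit 232) (nat_lit 1) (nat_lit 354) (nat_lit 344) (nat_lit 322)) (XT.nd (nat_lit 78) (nat_lit 152) (nat_lit 0) (XT.lf (nat_lit 76) (nat_lit 55129476) (nat_lit 0) (nat_lit 616910812) (nat_lit 304) (nat_lit 1887526129) (nat_lit 227) (nat_lit 1) (nat_lit 226) (nat_lit 1) (nat_lit 230) (nat_lit 1) (nat_lit 355) (nat_lit 344) (nat_lit 321)) (XT.lf (nat_lit 228) (nat_lit 945632245) (nat_lit 0) (nat_lit 590939028) (nat_lit 152) (nat_lit 948923055) (nat_lit 227) (nat_lit 1) (nat_lit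 224) (nat_lit 1) (nat_lit 226) (nat_lit 1) (nat_lit 356) (nat_lit 344) (nat_lit 320)))) (XT.nd (nat_lit 156) (nat_lit 380) (nat_lit 0) (XT.nd (nat_lit 78) (nat_lit 152) (nat_lit 0) (XT.lf (nat_lit 76) (nat_lit 513060538) (nat_lit 0) (nat_lit 23698587) (nat_lit 228) (nat_lit 1877895364) (nat_lit 222) (nat_lit 1) (nat_lit 221) (nat_lit 1) (nat_lit 224) (nat_lit 1) (nat_lit 357) (nat_lit 344) (nat_lit 319)) (XT.lf (nat_lit 228) (nat_lit 1402608437) (nat_lit 0) (nat_lit 486035272) (nat_lit 152) (nat_lit 457231621) (nat_lit 222) (nat_lit 1) (nat_lit 219) (nat_lit 1) (nat_lit 221) (nat_lit 1) (nat_lit 358) (nat_lit 344) (nat_lit 318))) (XT.nd (nat_lit 78) (nat_lit 228) (nat_lit 0) (XT.lf (nat_lit 228) (nat_lit 435706387) (nat_lit 0) (nat_lit 451823532) (nat_lit 152) (nat_lit 1392195981) (nat_lit 220) (nat_lit 1) (nat_lit 217) (nat_lit 1) (nat_lit 219) (nat_lit 1) (nat_lit 359) (nat_lit 344) (nat_lit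 317)) (XT.lf (nat_lit 228) (nat_lit 1729594230) (nat_lit 0) (nat_lit 431680713) (nat_lit 152) (nat_lit 54763706) (nat_lit 217) (nat_lit 1) (nat_lit 214) (nat_lit 1) (nat_lit 216) (nat_lit 1) (nat_lit 360) (nat_lit 344) (nat_lit 316))))) (XT.nd (nat_lit 234) (nat_lit 608) (nat_lit 0) (XT.nd (nat_lit 78) (nat_lit 304) (nat_lit 0) (XT.lf (nat_lit 228) (nat_lit 774086217) (nat_lit 0) (nat_lit 412109541) (nat_lit 152) (nat_lit 967925307) (nat_lit 215) (nat_lit 1) (nat_lit 212) (nat_lit 1) (nat_lit 214) (nat_lit 1) (nat_lit 361) (nat_lit 344) (nat_lit 315)) (XT.nd (nat_lit 78) (nat_lit 152) (nat_lit 0) (XT.lf (nat_lit 76) (nat_lit 265154416) (nat_lit 0) (nat_lit 145740815) (nat_lit 152) (nat_lit 1683876433) (nat_lit 211) (nat_lit 1) (nat_lit 210) (nat_lit 1) (nat_lit 212) (nat_lit 1) (nat_lit 362) (nat_lit 344) (nat_lit 314)) (XT.lf (nat_lit 228) (nat_lit 1015645635) (nat_lit 0) (nat_lit 406544308)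 (nat_lit 152) (nat_lit 614729944) (nat_lit 211) (nat_lit 1) (nat_lit 208) (nat_lit 1) (nat_lit 210) (nat_lit 1) (nat_lit 363) (nat_lit 344) (nat_lit 313)))) (XT.nd (nat_lit 156) (nat_lit 304) (nat_lit 0) (XT.nd (nat_lit 78) (nat_lit 228) (nat_lit 0) (XT.lf (nat_lit 152) (nat_lit 109370602) (nat_lit 0) (nat_lit 416529561) (nat_lit 76) (nat_lit 1455451860) (nat_lit 209) (nat_lit 1) (nat_lit 207) (nat_lit 1) (nat_lit 208) (nat_lit 1) (nat_lit 364) (nat_lit 344) (nat_lit 312)) (XT.lf (nat_lit 228) (nat_lit 1180615278) (nat_lit 0) (nat_lit 425998589) (nat_lit 152) (nat_lit 320702472) (nat_lit 207) (nat_lit 1) (nat_lit 204) (nat_lit 1) (nat_lit 206) (nat_lit 1) (nat_lit 365) (nat_lit 344) (nat_lit 311))) (XT.nd (nat_lit 78) (nat_lit 228) (nat_lit 0) (XT.lf (nat_lit 152) (nat_lit 296933448) (nat_lit 0) (nat_lit 441927106) (nat_lit 76) (nat_lit 1136241211) (nat_lit 205) (nat_lit 1) (nat_lit 203) (nat_lit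 1) (nat_lit 204) (nat_lit 1) (nat_lit 366) (nat_lit 344) (nat_lit 310)) (XT.lf (nat_lit 228) (nat_lit 1285351873) (nat_lit 0) (nat_lit 463241381) (nat_lit 152) (nat_lit 76021876) (nat_lit 203) (nat_lit 1) (nat_lit 200) (nat_lit 1) (nat_lit 202) (nat_lit 1) (nat_lit 367) (nat_lit 344) (nat_lit 309))))))))
noncomputable def ec32 : XT := (XT.nd (nat_lit 2028) (nat_lit 3040) (nat_lit 0) (XT.nd (nat_lit 1014) (nat_lit 1596) (nat_lit 0) (XT.nd (nat_lit 468) (nat_lit 760) (nat_lit 0) (XT.nd (nat_lit 234) (nat_lit 456) (nat_lit 0) (XT.nd (nat_lit 78) (nat_lit 304) (nat_lit 0) (XT.lf (nat_lit 152) (nat_lit 427327969) (nat_lit 0) (nat_lit 482934706) (nat_lit 76) (nat_lit 865219232) (nat_lit 201) (nat_lit 1) (nat_lit 199) (nat_lit 1) (nat_lit 200) (nat_lit 1) (nat_lit 368) (nat_lit 344) (nat_lit 308)) (XT.nd (nat_lit 78) (nat_lit 76) (nat_lit 0) (XT.lf (nat_lit 76) (nat_lit 123343857) (nat_lit 0) (nat_lit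 387143491) (nat_lit 228) (nat_lit 1217626449) (nat_lit 197) (nat_lit 1) (nat_lit 196) (nat_lit 1) (nat_lit 199) (nat_lit 1) (nat_lit 369) (nat_lit 344) (nat_lit 307)) (XT.lf (nat_lit 152) (nat_lit 512832117) (nat_lit 0) (nat_lit 534346758) (nat_lit 76) (nat_lit 634743172) (nat_lit 197) (nat_lit 1) (nat_lit 195) (nat_lit 1) (nat_lit 196) (nat_lit 1) (nat_lit 370) (nat_lit 344) (nat_lit 306)))) (XT.nd (nat_lit 78) (nat_lit 228) (nat_lit 0) (XT.lf (nat_lit 76) (nat_lit 286851886) (nat_lit 0) (nat_lit 277835448) (nat_lit 228) (nat_lit 1072666253) (nat_lit 193) (nat_lit 1) (nat_lit 192) (nat_lit 1) (nat_lit 195) (nat_lit 1) (nat_lit 371) (nat_lit 344) (nat_lit 305)) (XT.nd (nat_lit 78) (nat_lit 152) (nat_lit 0) (XT.lf (nat_lit 152) (nat_lit 563347231) (nat_lit 0) (nat_lit 592099702) (nat_lit 76) (nat_lit 438476901) (nat_lit 193) (nat_lit 1) (nat_lit 191) (nat_lit 1) (nat_lit 192) (nat_lit 1) (nat_lit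 372) (nat_lit 344) (nat_lit 304)) (XT.lf (nat_lit 76) (nat_lit 422312308) (nat_lit 0) (nat_lit 201224258) (nat_lit 152) (nat_lit 928391801) (nat_lit 190) (nat_lit 1) (nat_lit 189) (nat_lit 1) (nat_lit 191) (nat_lit 1) (nat_lit 373) (nat_lit 344) (nat_lit 303))))) (XT.nd (nat_lit 234) (nat_lit 456) (nat_lit 0) (XT.nd (nat_lit 78) (nat_lit 228) (nat_lit 0) (XT.lf (nat_lit 152) (nat_lit 586842122) (nat_lit 0) (nat_lit 653049439) (nat_lit 76) (nat_lit 271157844) (nat_lit 190) (nat_lit 1) (nat_lit 188) (nat_lit 1) (nat_lit 189) (nat_lit 1) (nat_lit 374) (nat_lit 344) (nat_lit 302)) (XT.nd (nat_lit 78) (nat_lit 76) (nat_lit 0) (XT.lf (nat_lit 76) (nat_lit 534185804) (nat_lit 0) (nat_lit 150115920) (nat_lit 152) (nat_lit 787126112) (nat_lit 187) (nat_lit 1) (nat_lit 186) (nat_lit 1) (nat_lit 188) (nat_lit 1) (nat_lit 375) (nat_lit 344) (nat_lit 301)) (XT.lf (nat_lit 152) (nat_lit 589715176) (nat_lit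 0) (nat_lit 714790443) (nat_lit 76) (nat_lit 128406227) (nat_lit 187) (nat_lit 1) (nat_lit 185) (nat_lit 1) (nat_lit 186) (nat_lit 1) (nat_lit 376) (nat_lit 344) (nat_lit 300)))) (XT.nd (nat_lit 156) (nat_lit 228) (nat_lit 0) (XT.nd (nat_lit 78) (nat_lit 76) (nat_lit 0) (XT.lf (nat_lit 76) (nat_lit 626179697) (nat_lit 0) (nat_lit 118725790) (nat_lit 152) (nat_lit 650582791) (nat_lit 184) (nat_lit 1) (nat_lit 183) (nat_lit 1) (nat_lit 185) (nat_lit 1) (nat_lit 377) (nat_lit 344) (nat_lit 299)) (XT.lf (nat_lit 152) (nat_lit 577089555) (nat_lit 0) (nat_lit 775508852) (nat_lit 76) (nat_lit 6568935) (nat_lit 184) (nat_lit 1) (nat_lit 182) (nat_lit 1) (nat_lit 183) (nat_lit 1) (nat_lit 378) (nat_lit 344) (nat_lit 298))) (XT.nd (nat_lit 78) (nat_lit 76) (nat_lit 0) (XT.lf (nat_lit 76) (nat_lit 701381304) (nat_lit 0) (nat_lit 102413947) (nat_lit 152) (nat_lit 519990220) (nat_lit 181) (nat_lit 1) (nat_lit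 180) (nat_lit 1) (nat_lit 182) (nat_lit 1) (nat_lit 379) (nat_lit 344) (nat_lit 297)) (XT.lf (nat_lit 0) (nat_lit 94290691) (nat_lit 0) (nat_lit 737975711) (nat_lit 152) (nat_lit 457166240) (nat_lit 179) (nat_lit 3) (nat_lit 179) (nat_lit 1) (nat_lit 181) (nat_lit 1) (nat_lit 380) (nat_lit 344) (nat_lit 296)))))) (XT.nd (nat_lit 468) (nat_lit 912) (nat_lit 0) (XT.nd (nat_lit 234) (nat_lit 304) (nat_lit 0) (XT.nd (nat_lit 78) (nat_lit 228) (nat_lit 0) (XT.lf (nat_lit 76) (nat_lit 762367150) (nat_lit 0) (nat_lit 97469502) (nat_lit 152) (nat_lit 396192168) (nat_lit 178) (nat_lit 1) (nat_lit 177) (nat_lit 1) (nat_lit 179) (nat_lit 1) (nat_lit 381) (nat_lit 344) (nat_lit 295)) (XT.nd (nat_lit 78) (nat_lit 152) (nat_lit 0) (XT.lf (nat_lit 0) (nat_lit 180130104) (nat_lit 0) (nat_lit 705707395) (nat_lit 152) (nat_lit 337677117) (nat_lit 176) (nat_lit 3) (nat_lit 176) (nat_lit 1) (nat_lit 178) (nat_lit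 1) (nat_lit 382) (nat_lit 344) (nat_lit 294)) (XT.lf (nat_lit 76) (nat_lit 811292450) (nat_lit 0) (nat_lit 100934848) (nat_lit 152) (nat_lit 279729200) (nat_lit 175) (nat_lit 1) (nat_lit 174) (nat_lit 1) (nat_lit 176) (nat_lit 1) (nat_lit 383) (nat_lit 344) (nat_lit 293)))) (XT.nd (nat_lit 78) (nat_lit 228) (nat_lit 0) (XT.lf (nat_lit 0) (nat_lit 253242880) (nat_lit 0) (nat_lit 682383656) (nat_lit 152) (nat_lit 225540959) (nat_lit 173) (nat_lit 3) (nat_lit 173) (nat_lit 1) (nat_lit 175) (nat_lit 1) (nat_lit 384) (nat_lit 344) (nat_lit 292)) (XT.nd (nat_lit 78) (nat_lit 76) (nat_lit 0) (XT.lf (nat_lit 76) (nat_lit 849964463) (nat_lit 0) (nat_lit 110462491) (nat_lit 152) (nat_lit 170904462) (nat_lit 172) (nat_lit 1) (nat_lit 171) (nat_lit 1) (nat_lit 173) (nat_lit 1) (nat_lit 385) (nat_lit 344) (nat_lit 291)) (XT.lf (nat_lit 0) (nat_lit 315385478) (nat_lit 0) (nat_lit 665784570) (nat_lit 152) (nat_lit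 120993668) (nat_lit 170) (nat_lit 3) (nat_lit 170) (nat_lit 1) (nat_lit 172) (nat_lit 1) (nat_lit 386) (nat_lit 344) (nat_lit 290))))) (XT.nd (nat_lit 234) (nat_lit 456) (nat_lit 0) (XT.nd (nat_lit 78) (nat_lit 304) (nat_lit 0) (XT.lf (nat_lit 76) (nat_lit 879902652) (nat_lit 0) (nat_lit 124198474) (nat_lit 152) (nat_lit 69836731) (nat_lit 169) (nat_lit 1) (nat_lit 168) (nat_lit 1) (nat_lit 170) (nat_lit 1) (nat_lit 387) (nat_lit 344) (nat_lit 289)) (XT.nd (nat_lit 78) (nat_lit 228) (nat_lit 0) (XT.lf (nat_lit 0) (nat_lit 368043443) (nat_lit 0) (nat_lit 654148914) (nat_lit 152) (nat_lit 24103556) (nat_lit 167) (nat_lit 3) (nat_lit 167) (nat_lit 1) (nat_lit 169) (nat_lit 1) (nat_lit 388) (nat_lit 344) (nat_lit 288)) (XT.lf (nat_lit 152) (nat_lit 878493267) (nat_lit 0) (nat_lit 24273782) (nat_lit 76) (nat_lit 116792683) (nat_lit 166) (nat_lit 1) (nat_lit 164) (nat_lit 1) (nat_lit 165) (nat_lit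 1) (nat_lit 389) (nat_lit 344) (nat_lit 287)))) (XT.nd (nat_lit 156) (nat_lit 228) (nat_lit 0) (XT.nd (nat_lit 78) (nat_lit 152) (nat_lit 0) (XT.lf (nat_lit 76) (nat_lit 346184048) (nat_lit 0) (nat_lit 67344758) (nat_lit 76) (nat_lit 579792930) (nat_lit 164) (nat_lit 3) (nat_lit 163) (nat_lit 1) (nat_lit 164) (nat_lit 1) (nat_lit 390) (nat_lit 344) (nat_lit 286)) (XT.lf (nat_lit 152) (nat_lit 807427521) (nat_lit 0) (nat_lit 112838097) (nat_lit 76) (nat_lit 47719277) (nat_lit 163) (nat_lit 1) (nat_lit 161) (nat_lit 1) (nat_lit 162) (nat_lit 1) (nat_lit 391) (nat_lit 344) (nat_lit 285))) (XT.nd (nat_lit 78) (nat_lit 152) (nat_lit 0) (XT.lf (nat_lit 76) (nat_lit 300228915) (nat_lit 0) (nat_lit 151903377) (nat_lit 76) (nat_lit 490973642) (nat_lit 161) (nat_lit 3) (nat_lit 160) (nat_lit 1) (nat_lit 161) (nat_lit 1) (nat_lit 392) (nat_lit 344) (nat_lit 284)) (XT.lf (nat_lit 0) (nat_lit 12672163) (nat_lit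 0) (nat_lit 180877390) (nat_lit 152) (nat_lit 725543075) (nat_lit 158) (nat_lit 3) (nat_lit 158) (nat_lit 1) (nat_lit 160) (nat_lit 1) (nat_lit 393) (nat_lit 344) (nat_lit 283))))))) (XT.nd (nat_lit 1014) (nat_lit 1596) (nat_lit 0) (XT.nd (nat_lit 468) (nat_lit 760) (nat_lit 0) (XT.nd (nat_lit 234) (nat_lit 380) (nat_lit 0) (XT.nd (nat_lit 78) (nat_lit 228) (nat_lit 0) (XT.lf (nat_lit 76) (nat_lit 255375230) (nat_lit 0) (nat_lit 229010890) (nat_lit 76) (nat_lit 411120811) (nat_lit 158) (nat_lit 3) (nat_lit 157) (nat_lit 1) (nat_lit 158) (nat_lit 1) (nat_lit 394) (nat_lit 344) (nat_lit 282)) (XT.nd (nat_lit 78) (nat_lit 76) (nat_lit 0) (XT.lf (nat_lit 0) (nat_lit 64447844) (nat_lit 0) (nat_lit 201789626) (nat_lit 152) (nat_lit 606469886) (nat_lit 155) (nat_lit 3) (nat_lit 155) (nat_lit 1) (nat_lit 157) (nat_lit 1) (nat_lit 395) (nat_lit 344) (nat_lit 281)) (XT.lf (nat_lit 76) (nat_lit 212125757)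 (nat_lit 0) (nat_lit 298955839) (nat_lit 76) (nat_lit 339294074) (nat_lit 155) (nat_lit 3) (nat_lit 154) (nat_lit 1) (nat_lit 155) (nat_lit 1) (nat_lit 396) (nat_lit 344) (nat_lit 280)))) (XT.nd (nat_lit 78) (nat_lit 228) (nat_lit 0) (XT.lf (nat_lit 0) (nat_lit 109924110) (nat_lit 0) (nat_lit 222065483) (nat_lit 152) (nat_lit 496733010) (nat_lit 152) (nat_lit 3) (nat_lit 152) (nat_lit 1) (nat_lit 154) (nat_lit 1) (nat_lit 397) (nat_lit 344) (nat_lit 279)) (XT.nd (nat_lit 78) (nat_lit 152) (nat_lit 0) (XT.lf (nat_lit 76) (nat_lit 170837951) (nat_lit 0) (nat_lit 362063242) (nat_lit 76) (nat_lit 274672555) (nat_lit 152) (nat_lit 3) (nat_lit 151) (nat_lit 1) (nat_lit 152) (nat_lit 1) (nat_lit 398) (nat_lit 344) (nat_lit 278)) (XT.lf (nat_lit 0) (nat_lit 149787919) (nat_lit 0) (nat_lit 241352826) (nat_lit 152) (nat_lit 395863962) (nat_lit 149) (nat_lit 3) (nat_lit 149) (nat_lit 1) (nat_lit 151) (nat_lit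 1) (nat_lit 399) (nat_lit 344) (nat_lit 277))))) (XT.nd (nat_lit 234) (nat_lit 456) (nat_lit 0) (XT.nd (nat_lit 78) (nat_lit 228) (nat_lit 0) (XT.lf (nat_lit 76) (nat_lit 131754219) (nat_lit 0) (nat_lit 418681557) (nat_lit 76) (nat_lit 216536540) (nat_lit 149) (nat_lit 3) (nat_lit 148) (nat_lit 1) (nat_lit 149) (nat_lit 1) (nat_lit 400) (nat_lit 344) (nat_lit 276)) (XT.nd (nat_lit 78) (nat_lit 76) (nat_lit 0) (XT.lf (nat_lit 0) (nat_lit 184639849) (nat_lit 0) (nat_lit 259403800) (nat_lit 152) (nat_lit 303385409) (nat_lit 146) (nat_lit 3) (nat_lit 146) (nat_lit 1) (nat_lit 148) (nat_lit 1) (nat_lit 401) (nat_lit 344) (nat_lit 275)) (XT.lf (nat_lit 76) (nat_lit 95026389) (nat_lit 0) (nat_lit 469172449) (nat_lit 76) (nat_lit 164252271) (nat_lit 146) (nat_lit 3) (nat_lit 145) (nat_lit 1) (nat_lit 146) (nat_lit 1) (nat_lit 402) (nat_lit 344) (nat_lit 274)))) (XT.nd (nat_lit 156) (nat_lit 228) (nat_lit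 0) (XT.nd (nat_lit 78) (nat_lit 76) (nat_lit 0) (XT.lf (nat_lit 0) (nat_lit 215007106) (nat_lit 0) (nat_lit 276052856) (nat_lit 152) (nat_lit 218819255) (nat_lit 143) (nat_lit 3) (nat_lit 143) (nat_lit 1) (nat_lit 145) (nat_lit 1) (nat_lit 403) (nat_lit 344) (nat_lit 273)) (XT.lf (nat_lit 76) (nat_lit 60735488) (nat_lit 0) (nat_lit 513902838) (nat_lit 76) (nat_lit 117259331) (nat_lit 143) (nat_lit 3) (nat_lit 142) (nat_lit 1) (nat_lit 143) (nat_lit 1) (nat_lit 404) (nat_lit 344) (nat_lit 272))) (XT.nd (nat_lit 78) (nat_lit 76) (nat_lit 0) (XT.lf (nat_lit 0) (nat_lit 241354339) (nat_lit 0) (nat_lit 291198998) (nat_lit 152) (nat_lit 141692824) (nat_lit 140) (nat_lit 3) (nat_lit 140) (nat_lit 1) (nat_lit 142) (nat_lit 1) (nat_lit 405) (nat_lit 344) (nat_lit 271)) (XT.lf (nat_lit 76) (nat_lit 28907668) (nat_lit 0) (nat_lit 553238759) (nat_lit 76) (nat_lit 75060130) (nat_lit 140) (nat_lit 3) (nat_lit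 139) (nat_lit 1) (nat_lit 140) (nat_lit 1) (nat_lit 406) (nat_lit 344) (nat_lit 270)))))) (XT.nd (nat_lit 546) (nat_lit 684) (nat_lit 0) (XT.nd (nat_lit 234) (nat_lit 532) (nat_lit 0) (XT.nd (nat_lit 78) (nat_lit 228) (nat_lit 0) (XT.lf (nat_lit 0) (nat_lit 264092641) (nat_lit 0) (nat_lit 304791461) (nat_lit 152) (nat_lit 71543530) (nat_lit 137) (nat_lit 3) (nat_lit 137) (nat_lit 1) (nat_lit 139) (nat_lit 1) (nat_lit 407) (nat_lit 344) (nat_lit 269)) (XT.nd (nat_lit 78) (nat_lit 76) (nat_lit 0) (XT.lf (nat_lit 76) (nat_lit 587075126) (nat_lit 0) (nat_lit 457818) (nat_lit 152) (nat_lit 36745564) (nat_lit 136) (nat_lit 1) (nat_lit 135) (nat_lit 1) (nat_lit 137) (nat_lit 1) (nat_lit 408) (nat_lit 344) (nat_lit 268)) (XT.lf (nat_lit 0) (nat_lit 283587063) (nat_lit 0) (nat_lit 316818185) (nat_lit 152) (nat_lit 7922317) (nat_lit 134) (nat_lit 3) (nat_lit 134) (nat_lit 1) (nat_lit 136) (nat_lit 1) (nat_lit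 409) (nat_lit 344) (nat_lit 267)))) (XT.nd (nat_lit 156) (nat_lit 228) (nat_lit 0) (XT.nd (nat_lit 78) (nat_lit 76) (nat_lit 0) (XT.lf (nat_lit 152) (nat_lit 566023323) (nat_lit 0) (nat_lit 24493808) (nat_lit 76) (nat_lit 2463930) (nat_lit 133) (nat_lit 1) (nat_lit 131) (nat_lit 1) (nat_lit 132) (nat_lit 1) (nat_lit 410) (nat_lit 344) (nat_lit 266)) (XT.lf (nat_lit 76) (nat_lit 249718968) (nat_lit 0) (nat_lit 51243998) (nat_lit 76) (nat_lit 276852617) (nat_lit 131) (nat_lit 3) (nat_lit 130) (nat_lit 1) (nat_lit 131) (nat_lit 1) (nat_lit 411) (nat_lit 344) (nat_lit 265))) (XT.nd (nat_lit 78) (nat_lit 76) (nat_lit 0) (XT.lf (nat_lit 0) (nat_lit 28229393) (nat_lit 0) (nat_lit 52156772) (nat_lit 152) (nat_lit 482834491) (nat_lit 128) (nat_lit 3) (nat_lit 128) (nat_lit 1) (nat_lit 130) (nat_lit 1) (nat_lit 412) (nat_lit 344) (nat_lit 264)) (XT.lf (nat_lit 76) (nat_lit 210942488) (nat_lit 0) (nat_lit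 104804805) (nat_lit 76) (nat_lit 233097469) (nat_lit 128) (nat_lit 3) (nat_lit 127) (nat_lit 1) (nat_lit 128) (nat_lit 1) (nat_lit 413) (nat_lit 344) (nat_lit 263))))) (XT.nd (nat_lit 234) (nat_lit 304) (nat_lit 0) (XT.nd (nat_lit 78) (nat_lit 228) (nat_lit 0) (XT.lf (nat_lit 0) (nat_lit 55547054) (nat_lit 0) (nat_lit 75084074) (nat_lit 152) (nat_lit 404336401) (nat_lit 125) (nat_lit 3) (nat_lit 125) (nat_lit 1) (nat_lit 127) (nat_lit 1) (nat_lit 414) (nat_lit 344) (nat_lit 262)) (XT.nd (nat_lit 78) (nat_lit 152) (nat_lit 0) (XT.lf (nat_lit 76) (nat_lit 175171613) (nat_lit 0) (nat_lit 152907849) (nat_lit 76) (nat_lit 193261446) (nat_lit 125) (nat_lit 3) (nat_lit 124) (nat_lit 1) (nat_lit 125) (nat_lit 1) (nat_lit 415) (nat_lit 344) (nat_lit 261)) (XT.lf (nat_lit 0) (nat_lit 79856478) (nat_lit 0) (nat_lit 95808712) (nat_lit 152) (nat_lit 332479968) (nat_lit 122) (nat_lit 3) (nat_lit 122) (nat_lit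 1) (nat_lit 124) (nat_lit 1) (nat_lit 416) (nat_lit 344) (nat_lit 260)))) (XT.nd (nat_lit 156) (nat_lit 76) (nat_lit 0) (XT.nd (nat_lit 78) (nat_lit 152) (nat_lit 0) (XT.lf (nat_lit 76) (nat_lit 142257291) (nat_lit 0) (nat_lit 195942809) (nat_lit 76) (nat_lit 157027878) (nat_lit 122) (nat_lit 3) (nat_lit 121) (nat_lit 1) (nat_lit 122) (nat_lit 1) (nat_lit 417) (nat_lit 344) (nat_lit 259)) (XT.lf (nat_lit 0) (nat_lit 101419624) (nat_lit 0) (nat_lit 114444833) (nat_lit 152) (nat_lit 266815022) (nat_lit 119) (nat_lit 3) (nat_lit 119) (nat_lit 1) (nat_lit 121) (nat_lit 1) (nat_lit 418) (nat_lit 344) (nat_lit 258))) (XT.nd (nat_lit 46176) (nat_lit 0) (nat_lit 13224) (XT.lf (nat_lit 76) (nat_lit 112047328) (nat_lit 0) (nat_lit 234279104) (nat_lit 76) (nat_lit 124107707) (nat_lit 119) (nat_lit 3) (nat_lit 118) (nat_lit 1) (nat_lit 119) (nat_lit 1) (nat_lit 419) (nat_lit 344) (nat_lit 257)) (XT.lf (nat_lit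 836) (nat_lit 789529672) (nat_lit 0) (nat_lit 1401808118) (nat_lit 836) (nat_lit 789529672) (nat_lit 303) (nat_lit 1) (nat_lit 292) (nat_lit 0) (nat_lit 303) (nat_lit 0) (nat_lit 330) (nat_lit 345) (nat_lit 345))))))))
noncomputable def ec33 : XT := (XT.nd (nat_lit 2028) (nat_lit 3648) (nat_lit 0) (XT.nd (nat_lit 1014) (nat_lit 3192) (nat_lit 0) (XT.nd (nat_lit 468) (nat_lit 2432) (nat_lit 0) (XT.nd (nat_lit 234) (nat_lit 0) (nat_lit 152) (XT.nd (nat_lit 78) (nat_lit 0) (nat_lit 0) (XT.lf (nat_lit 836) (nat_lit 294518793) (nat_lit 0) (nat_lit 2752174191) (nat_lit 760) (nat_lit 2691617164) (nat_lit 304) (nat_lit 1) (nat_lit 293) (nat_lit 1) (nat_lit 303) (nat_lit 1) (nat_lit 331) (nat_lit 345) (nat_lit 344)) (XT.nd (nat_lit 78) (nat_lit 0) (nat_lit 76) (XT.lf (nat_lit 836) (nat_lit 2704985122) (nat_lit 76) (nat_lit 1843131983) (nat_lit 0) (nat_lit 977513127) (nat_lit 304) (nat_lit 1) (nat_lit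 294) (nat_lit 1) (nat_lit 293) (nat_lit 1) (nat_lit 332) (nat_lit 345) (nat_lit 343)) (XT.lf (nat_lit 836) (nat_lit 2337328741) (nat_lit 76) (nat_lit 772443838) (nat_lit 0) (nat_lit 2213820779) (nat_lit 305) (nat_lit 1) (nat_lit 295) (nat_lit 1) (nat_lit 294) (nat_lit 1) (nat_lit 333) (nat_lit 345) (nat_lit 342)))) (XT.nd (nat_lit 78) (nat_lit 0) (nat_lit 76) (XT.lf (nat_lit 836) (nat_lit 1729821981) (nat_lit 0) (nat_lit 3236415161) (nat_lit 760) (nat_lit 165445080) (nat_lit 306) (nat_lit 1) (nat_lit 295) (nat_lit 1) (nat_lit 305) (nat_lit 1) (nat_lit 334) (nat_lit 345) (nat_lit 341)) (XT.nd (nat_lit 78) (nat_lit 0) (nat_lit 0) (XT.lf (nat_lit 836) (nat_lit 415053823) (nat_lit 0) (nat_lit 3569046827) (nat_lit 760) (nat_lit 964835536) (nat_lit 307) (nat_lit 1) (nat_lit 296) (nat_lit 1) (nat_lit 306) (nat_lit 1) (nat_lit 335) (nat_lit 345) (nat_lit 340)) (XT.lf (nat_lit 836) (nat_lit 797564633)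 (nat_lit 76) (nat_lit 3101792332) (nat_lit 0) (nat_lit 875364065) (nat_lit 307) (nat_lit 1) (nat_lit 297) (nat_lit 1) (nat_lit 296) (nat_lit 1) (nat_lit 336) (nat_lit 345) (nat_lit 339))))) (XT.nd (nat_lit 234) (nat_lit 1064) (nat_lit 0) (XT.nd (nat_lit 78) (nat_lit 912) (nat_lit 0) (XT.lf (nat_lit 836) (nat_lit 163801588) (nat_lit 0) (nat_lit 2318794944) (nat_lit 760) (nat_lit 2126310667) (nat_lit 298) (nat_lit 1) (nat_lit 287) (nat_lit 1) (nat_lit 297) (nat_lit 1) (nat_lit 337) (nat_lit 345) (nat_lit 338)) (XT.nd (nat_lit 78) (nat_lit 380) (nat_lit 0) (XT.lf (nat_lit 76) (nat_lit 1134196321) (nat_lit 0) (nat_lit 491500047) (nat_lit 532) (nat_lit 2825248127) (nat_lit 281) (nat_lit 1) (nat_lit 280) (nat_lit 1) (nat_lit 287) (nat_lit 1) (nat_lit 338) (nat_lit 345) (nat_lit 337)) (XT.lf (nat_lit 456) (nat_lit 3125702304) (nat_lit 0) (nat_lit 1017483484) (nat_lit 380) (nat_lit 157309233) (nat_lit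 281) (nat_lit 1) (nat_lit 275) (nat_lit 1) (nat_lit 280) (nat_lit 1) (nat_lit 339) (nat_lit 345) (nat_lit 336)))) (XT.nd (nat_lit 156) (nat_lit 380) (nat_lit 0) (XT.nd (nat_lit 78) (nat_lit 304) (nat_lit 0) (XT.lf (nat_lit 456) (nat_lit 2255536547) (nat_lit 0) (nat_lit 474253435) (nat_lit 380) (nat_lit 1426724624) (nat_lit 276) (nat_lit 1) (nat_lit 270) (nat_lit 1) (nat_lit 275) (nat_lit 1) (nat_lit 340) (nat_lit 345) (nat_lit 335)) (XT.lf (nat_lit 380) (nat_lit 1372465222) (nat_lit 0) (nat_lit 8731776) (nat_lit 304) (nat_lit 2638318490) (nat_lit 271) (nat_lit 1) (nat_lit 266) (nat_lit 1) (nat_lit 270) (nat_lit 1) (nat_lit 341) (nat_lit 345) (nat_lit 334))) (XT.nd (nat_lit 78) (nat_lit 380) (nat_lit 0) (XT.lf (nat_lit 76) (nat_lit 101253997) (nat_lit 0) (nat_lit 3414775442) (nat_lit 380) (nat_lit 372789135) (nat_lit 267) (nat_lit 1) (nat_lit 266) (nat_lit 1) (nat_lit 271) (nat_lit 1) (nat_lit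 342) (nat_lit 345) (nat_lit 333)) (XT.lf (nat_lit 76) (nat_lit 2614404486) (nat_lit 0) (nat_lit 433626958) (nat_lit 380) (nat_lit 715129606) (nat_lit 262) (nat_lit 1) (nat_lit 261) (nat_lit 1) (nat_lit 266) (nat_lit 1) (nat_lit 343) (nat_lit 345) (nat_lit 332)))))) (XT.nd (nat_lit 468) (nat_lit 1520) (nat_lit 0) (XT.nd (nat_lit 234) (nat_lit 836) (nat_lit 0) (XT.nd (nat_lit 78) (nat_lit 532) (nat_lit 0) (XT.lf (nat_lit 76) (nat_lit 1308052815) (nat_lit 0) (nat_lit 1328276348) (nat_lit 380) (nat_lit 1006726553) (nat_lit 258) (nat_lit 1) (nat_lit 257) (nat_lit 1) (nat_lit 262) (nat_lit 1) (nat_lit 344) (nat_lit 345) (nat_lit 331)) (XT.nd (nat_lit 78) (nat_lit 228) (nat_lit 0) (XT.lf (nat_lit 76) (nat_lit 64562586) (nat_lit 0) (nat_lit 2220857429) (nat_lit 380) (nat_lit 1243216957) (nat_lit 254) (nat_lit 1) (nat_lit 253) (nat_lit 1) (nat_lit 258) (nat_lit 1) (nat_lit 345) (nat_lit 345) (nat_lit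 330)) (XT.lf (nat_lit 304) (nat_lit 291561001) (nat_lit 0) (nat_lit 1971687492) (nat_lit 228) (nat_lit 1155454184) (nat_lit 254) (nat_lit 1) (nat_lit 250) (nat_lit 1) (nat_lit 253) (nat_lit 1) (nat_lit 346) (nat_lit 345) (nat_lit 329)))) (XT.nd (nat_lit 78) (nat_lit 456) (nat_lit 0) (XT.lf (nat_lit 76) (nat_lit 1007421649) (nat_lit 0) (nat_lit 690493058) (nat_lit 380) (nat_lit 1615395260) (nat_lit 246) (nat_lit 1) (nat_lit 245) (nat_lit 1) (nat_lit 250) (nat_lit 1) (nat_lit 347) (nat_lit 345) (nat_lit 328)) (XT.nd (nat_lit 78) (nat_lit 228) (nat_lit 0) (XT.lf (nat_lit 304) (nat_lit 1559731029) (nat_lit 0) (nat_lit 1465165711) (nat_lit 228) (nat_lit 187539472) (nat_lit 246) (nat_lit 1) (nat_lit 242) (nat_lit 1) (nat_lit 245) (nat_lit 1) (nat_lit 348) (nat_lit 345) (nat_lit 327)) (XT.lf (nat_lit 304) (nat_lit 499886259) (nat_lit 0) (nat_lit 1261447679) (nat_lit 228) (nat_lit 1354105125) (nat_lit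 243) (nat_lit 1) (nat_lit 239) (nat_lit 1) (nat_lit 242) (nat_lit 1) (nat_lit 349) (nat_lit 345) (nat_lit 326))))) (XT.nd (nat_lit 234) (nat_lit 836) (nat_lit 0) (XT.nd (nat_lit 78) (nat_lit 380) (nat_lit 0) (XT.lf (nat_lit 76) (nat_lit 569749547) (nat_lit 0) (nat_lit 521655223) (nat_lit 304) (nat_lit 1931065620) (nat_lit 236) (nat_lit 1) (nat_lit 235) (nat_lit 1) (nat_lit 239) (nat_lit 1) (nat_lit 350) (nat_lit 345) (nat_lit 325)) (XT.nd (nat_lit 78) (nat_lit 152) (nat_lit 0) (XT.lf (nat_lit 304) (nat_lit 1417746969) (nat_lit 0) (nat_lit 943316295) (nat_lit 228) (nat_lit 571841440) (nat_lit 236) (nat_lit 1) (nat_lit 232) (nat_lit 1) (nat_lit 235) (nat_lit 1) (nat_lit 351) (nat_lit 345) (nat_lit 324)) (XT.lf (nat_lit 228) (nat_lit 351461567) (nat_lit 0) (nat_lit 822974662) (nat_lit 152) (nat_lit 1672516119) (nat_lit 233) (nat_lit 1) (nat_lit 230) (nat_lit 1) (nat_lit 232) (nat_lit 1) (nat_lit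 352) (nat_lit 345) (nat_lit 323)))) (XT.nd (nat_lit 156) (nat_lit 380) (nat_lit 0) (XT.nd (nat_lit 78) (nat_lit 152) (nat_lit 0) (XT.lf (nat_lit 76) (nat_lit 59539834) (nat_lit 0) (nat_lit 666263677) (nat_lit 304) (nat_lit 2038528220) (nat_lit 227) (nat_lit 1) (nat_lit 226) (nat_lit 1) (nat_lit 230) (nat_lit 1) (nat_lit 353) (nat_lit 345) (nat_lit 322)) (XT.lf (nat_lit 228) (nat_lit 1021282825) (nat_lit 0) (nat_lit 638214150) (nat_lit 152) (nat_lit 1024836900) (nat_lit 227) (nat_lit 1) (nat_lit 224) (nat_lit 1) (nat_lit 226) (nat_lit 1) (nat_lit 354) (nat_lit 345) (nat_lit 321))) (XT.nd (nat_lit 78) (nat_lit 152) (nat_lit 0) (XT.lf (nat_lit 76) (nat_lit 554105381) (nat_lit 0) (nat_lit 25594474) (nat_lit 228) (nat_lit 2028126993) (nat_lit 222) (nat_lit 1) (nat_lit 221) (nat_lit 1) (nat_lit 224) (nat_lit 1) (nat_lit 355) (nat_lit 345) (nat_lit 320)) (XT.lf (nat_lit 228) (nat_lit 1514817112) (nat_lit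 0) (nat_lit 524918094) (nat_lit 152) (nat_lit 493810151) (nat_lit 222) (nat_lit 1) (nat_lit 219) (nat_lit 1) (nat_lit 221) (nat_lit 1) (nat_lit 356) (nat_lit 345) (nat_lit 319))))))) (XT.nd (nat_lit 1014) (nat_lit 1596) (nat_lit 0) (XT.nd (nat_lit 468) (nat_lit 1140) (nat_lit 0) (XT.nd (nat_lit 234) (nat_lit 380) (nat_lit 0) (XT.nd (nat_lit 78) (nat_lit 380) (nat_lit 0) (XT.lf (nat_lit 228) (nat_lit 470562898) (nat_lit 0) (nat_lit 487969415) (nat_lit 152) (nat_lit 1503571660) (nat_lit 220) (nat_lit 1) (nat_lit 217) (nat_lit 1) (nat_lit 219) (nat_lit 1) (nat_lit 357) (nat_lit 345) (nat_lit 318)) (XT.nd (nat_lit 78) (nat_lit 152) (nat_lit 0) (XT.lf (nat_lit 228) (nat_lit 1867961768) (nat_lit 0) (nat_lit 466215170) (nat_lit 152) (nat_lit 59144803) (nat_lit 217) (nat_lit 1) (nat_lit 214) (nat_lit 1) (nat_lit 216) (nat_lit 1) (nat_lit 358) (nat_lit 345) (nat_lit 317)) (XT.lf (nat_lit 228) (nat_lit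 836013115) (nat_lit 0) (nat_lit 445078304) (nat_lit 152) (nat_lit 1045359332) (nat_lit 215) (nat_lit 1) (nat_lit 212) (nat_lit 1) (nat_lit 214) (nat_lit 1) (nat_lit 359) (nat_lit 345) (nat_lit 316)))) (XT.nd (nat_lit 78) (nat_lit 228) (nat_lit 0) (XT.lf (nat_lit 76) (nat_lit 286366769) (nat_lit 0) (nat_lit 157400080) (nat_lit 152) (nat_lit 1818586547) (nat_lit 211) (nat_lit 1) (nat_lit 210) (nat_lit 1) (nat_lit 212) (nat_lit 1) (nat_lit 360) (nat_lit 345) (nat_lit 315)) (XT.nd (nat_lit 78) (nat_lit 76) (nat_lit 0) (XT.lf (nat_lit 228) (nat_lit 1096897286) (nat_lit 0) (nat_lit 439067853) (nat_lit 152) (nat_lit 663908339) (nat_lit 211) (nat_lit 1) (nat_lit 208) (nat_lit 1) (nat_lit 210) (nat_lit 1) (nat_lit 361) (nat_lit 345) (nat_lit 314)) (XT.lf (nat_lit 152) (nat_lit 118120251) (nat_lit 0) (nat_lit 449851926) (nat_lit 76) (nat_lit 1571888009) (nat_lit 209) (nat_lit 1) (nat_lit 207) (nat_lit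 1) (nat_lit 208) (nat_lit 1) (nat_lit 362) (nat_lit 345) (nat_lit 313))))) (XT.nd (nat_lit 234) (nat_lit 608) (nat_lit 0) (XT.nd (nat_lit 78) (nat_lit 304) (nat_lit 0) (XT.lf (nat_lit 228) (nat_lit 1275064500) (nat_lit 0) (nat_lit 460078476) (nat_lit 152) (nat_lit 346358670) (nat_lit 207) (nat_lit 1) (nat_lit 204) (nat_lit 1) (nat_lit 206) (nat_lit 1) (nat_lit 363) (nat_lit 345) (nat_lit 312)) (XT.nd (nat_lit 78) (nat_lit 228) (nat_lit 0) (XT.lf (nat_lit 152) (nat_lit 320688124) (nat_lit 0) (nat_lit 477281274) (nat_lit 76) (nat_lit 1227140508) (nat_lit 205) (nat_lit 1) (nat_lit 203) (nat_lit 1) (nat_lit 204) (nat_lit 1) (nat_lit 364) (nat_lit 345) (nat_lit 311)) (XT.lf (nat_lit 228) (nat_lit 1388180023) (nat_lit 0) (nat_lit 500300691) (nat_lit 152) (nat_lit 82103626) (nat_lit 203) (nat_lit 1) (nat_lit 200) (nat_lit 1) (nat_lit 202) (nat_lit 1) (nat_lit 365) (nat_lit 345) (nat_lit 310)))) (XT.nd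 (nat_lit 156) (nat_lit 304) (nat_lit 0) (XT.nd (nat_lit 78) (nat_lit 228) (nat_lit 0) (XT.lf (nat_lit 152) (nat_lit 461514206) (nat_lit 0) (nat_lit 521569482) (nat_lit 76) (nat_lit 934436771) (nat_lit 201) (nat_lit 1) (nat_lit 199) (nat_lit 1) (nat_lit 200) (nat_lit 1) (nat_lit 366) (nat_lit 345) (nat_lit 309)) (XT.lf (nat_lit 76) (nat_lit 133211366) (nat_lit 0) (nat_lit 418114970) (nat_lit 228) (nat_lit 1315036565) (nat_lit 197) (nat_lit 1) (nat_lit 196) (nat_lit 1) (nat_lit 199) (nat_lit 1) (nat_lit 367) (nat_lit 345) (nat_lit 308))) (XT.nd (nat_lit 78) (nat_lit 228) (nat_lit 0) (XT.lf (nat_lit 152) (nat_lit 553858686) (nat_lit 0) (nat_lit 577094499) (nat_lit 76) (nat_lit 685522625) (nat_lit 197) (nat_lit 1) (nat_lit 195) (nat_lit 1) (nat_lit 196) (nat_lit 1) (nat_lit 368) (nat_lit 345) (nat_lit 307)) (XT.lf (nat_lit 76) (nat_lit 309800037) (nat_lit 0) (nat_lit 300062284) (nat_lit 228) (nat_lit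 1158479553) (nat_lit 193) (nat_lit 1) (nat_lit 192) (nat_lit 1) (nat_lit 195) (nat_lit 1) (nat_lit 369) (nat_lit 345) (nat_lit 306)))))) (XT.nd (nat_lit 546) (nat_lit 836) (nat_lit 0) (XT.nd (nat_lit 234) (nat_lit 456) (nat_lit 0) (XT.nd (nat_lit 78) (nat_lit 228) (nat_lit 0) (XT.lf (nat_lit 152) (nat_lit 608415010) (nat_lit 0) (nat_lit 639467678) (nat_lit 76) (nat_lit 473555054) (nat_lit 193) (nat_lit 1) (nat_lit 191) (nat_lit 1) (nat_lit 192) (nat_lit 1) (nat_lit 370) (nat_lit 345) (nat_lit 305)) (XT.nd (nat_lit 78) (nat_lit 76) (nat_lit 0) (XT.lf (nat_lit 76) (nat_lit 456097293) (nat_lit 0) (nat_lit 217322199) (nat_lit 152) (nat_lit 1002663145) (nat_lit 190) (nat_lit 1) (nat_lit 189) (nat_lit 1) (nat_lit 191) (nat_lit 1) (nat_lit 371) (nat_lit 345) (nat_lit 304)) (XT.lf (nat_lit 152) (nat_lit 633789491) (nat_lit 0) (nat_lit 705293394) (nat_lit 76) (nat_lit 292850471) (nat_lit 190) (nat_lit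 1) (nat_lit 188) (nat_lit 1) (nat_lit 189) (nat_lit 1) (nat_lit 372) (nat_lit 345) (nat_lit 303)))) (XT.nd (nat_lit 156) (nat_lit 228) (nat_lit 0) (XT.nd (nat_lit 78) (nat_lit 76) (nat_lit 0) (XT.lf (nat_lit 76) (nat_lit 576920668) (nat_lit 0) (nat_lit 162125194) (nat_lit 152) (nat_lit 850096201) (nat_lit 187) (nat_lit 1) (nat_lit 186) (nat_lit 1) (nat_lit 188) (nat_lit 1) (nat_lit 373) (nat_lit 345) (nat_lit 302)) (XT.lf (nat_lit 152) (nat_lit 636892390) (nat_lit 0) (nat_lit 771973678) (nat_lit 76) (nat_lit 138678725) (nat_lit 187) (nat_lit 1) (nat_lit 185) (nat_lit 1) (nat_lit 186) (nat_lit 1) (nat_lit 374) (nat_lit 345) (nat_lit 301))) (XT.nd (nat_lit 78) (nat_lit 76) (nat_lit 0) (XT.lf (nat_lit 76) (nat_lit 676274072) (nat_lit 0) (nat_lit 128223853) (nat_lit 152) (nat_lit 702629414) (nat_lit 184) (nat_lit 1) (nat_lit 183) (nat_lit 1) (nat_lit 185) (nat_lit 1) (nat_lit 375) (nat_lit 345) (nat_lit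 300)) (XT.lf (nat_lit 152) (nat_lit 623256720) (nat_lit 0) (nat_lit 837549560) (nat_lit 76) (nat_lit 7094450) (nat_lit 184) (nat_lit 1) (nat_lit 182) (nat_lit 1) (nat_lit 183) (nat_lit 1) (nat_lit 376) (nat_lit 345) (nat_lit 299))))) (XT.nd (nat_lit 234) (nat_lit 456) (nat_lit 0) (XT.nd (nat_lit 78) (nat_lit 228) (nat_lit 0) (XT.lf (nat_lit 76) (nat_lit 757491808) (nat_lit 0) (nat_lit 110607062) (nat_lit 152) (nat_lit 561589438) (nat_lit 181) (nat_lit 1) (nat_lit 180) (nat_lit 1) (nat_lit 182) (nat_lit 1) (nat_lit 377) (nat_lit 345) (nat_lit 298)) (XT.nd (nat_lit 78) (nat_lit 152) (nat_lit 0) (XT.lf (nat_lit 0) (nat_lit 101833947) (nat_lit 0) (nat_lit 797013768) (nat_lit 152) (nat_lit 493739539) (nat_lit 179) (nat_lit 3) (nat_lit 179) (nat_lit 1) (nat_lit 181) (nat_lit 1) (nat_lit 378) (nat_lit 345) (nat_lit 297)) (XT.lf (nat_lit 76) (nat_lit 823356522) (nat_lit 0) (nat_lit 105267062) (nat_lit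 152) (nat_lit 427887541) (nat_lit 178) (nat_lit 1) (nat_lit 177) (nat_lit 1) (nat_lit 179) (nat_lit 1) (nat_lit 379) (nat_lit 345) (nat_lit 296)))) (XT.nd (nat_lit 156) (nat_lit 228) (nat_lit 0) (XT.nd (nat_lit 78) (nat_lit 152) (nat_lit 0) (XT.lf (nat_lit 0) (nat_lit 194540512) (nat_lit 0) (nat_lit 762163987) (nat_lit 152) (nat_lit 364691286) (nat_lit 176) (nat_lit 3) (nat_lit 176) (nat_lit 1) (nat_lit 178) (nat_lit 1) (nat_lit 380) (nat_lit 345) (nat_lit 295)) (XT.lf (nat_lit 76) (nat_lit 876195846) (nat_lit 0) (nat_lit 109009636) (nat_lit 152) (nat_lit 302107536) (nat_lit 175) (nat_lit 1) (nat_lit 174) (nat_lit 1) (nat_lit 176) (nat_lit 1) (nat_lit 381) (nat_lit 345) (nat_lit 294))) (XT.nd (nat_lit 78) (nat_lit 152) (nat_lit 0) (XT.lf (nat_lit 0) (nat_lit 273502310) (nat_lit 0) (nat_lit 736974348) (nat_lit 152) (nat_lit 243584236) (nat_lit 173) (nat_lit 3) (nat_lit 173) (nat_lit 1) (nat_lit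 175) (nat_lit 1) (nat_lit 382) (nat_lit 345) (nat_lit 293)) (XT.lf (nat_lit 76) (nat_lit 917961620) (nat_lit 0) (nat_lit 119299491) (nat_lit 152) (nat_lit 184576819) (nat_lit 172) (nat_lit 1) (nat_lit 171) (nat_lit 1) (nat_lit 173) (nat_lit 1) (nat_lit 383) (nat_lit 345) (nat_lit 292))))))))
noncomputable def ec34 : XT := (XT.nd (nat_lit 2028) (nat_lit 1140) (nat_lit 0) (XT.nd (nat_lit 1014) (nat_lit 1596) (nat_lit 0) (XT.nd (nat_lit 468) (nat_lit 760) (nat_lit 0) (XT.nd (nat_lit 234) (nat_lit 456) (nat_lit 0) (XT.nd (nat_lit 78) (nat_lit 228) (nat_lit 0) (XT.lf (nat_lit 0) (nat_lit 340616316) (nat_lit 0) (nat_lit 719047335) (nat_lit 152) (nat_lit 130673161) (nat_lit 170) (nat_lit 3) (nat_lit 170) (nat_lit 1) (nat_lit 172) (nat_lit 1) (nat_lit 384) (nat_lit 345) (nat_lit 291)) (XT.nd (nat_lit 78) (nat_lit 76) (nat_lit 0) (XT.lf (nat_lit 76) (nat_lit 950294864) (nat_lit 0) (nat_lit 134134352)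 (nat_lit 152) (nat_lit 75423669) (nat_lit 169) (nat_lit 1) (nat_lit 168) (nat_lit 1) (nat_lit 170) (nat_lit 1) (nat_lit 385) (nat_lit 345) (nat_lit 290)) (XT.lf (nat_lit 0) (nat_lit 397486919) (nat_lit 0) (nat_lit 706480827) (nat_lit 152) (nat_lit 26031840) (nat_lit 167) (nat_lit 3) (nat_lit 167) (nat_lit 1) (nat_lit 169) (nat_lit 1) (nat_lit 386) (nat_lit 345) (nat_lit 289)))) (XT.nd (nat_lit 78) (nat_lit 228) (nat_lit 0) (XT.lf (nat_lit 152) (nat_lit 948772729) (nat_lit 0) (nat_lit 26215685) (nat_lit 76) (nat_lit 126136098) (nat_lit 166) (nat_lit 1) (nat_lit 164) (nat_lit 1) (nat_lit 165) (nat_lit 1) (nat_lit 387) (nat_lit 345) (nat_lit 288)) (XT.nd (nat_lit 78) (nat_lit 152) (nat_lit 0) (XT.lf (nat_lit 76) (nat_lit 373878771) (nat_lit 0) (nat_lit 72732339) (nat_lit 76) (nat_lit 626176365) (nat_lit 164) (nat_lit 3) (nat_lit 163) (nat_lit 1) (nat_lit 164) (nat_lit 1) (nat_lit 388) (nat_lit 345)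 (nat_lit 287)) (XT.lf (nat_lit 152) (nat_lit 872021723) (nat_lit 0) (nat_lit 121865145) (nat_lit 76) (nat_lit 51536819) (nat_lit 163) (nat_lit 1) (nat_lit 161) (nat_lit 1) (nat_lit 162) (nat_lit 1) (nat_lit 389) (nat_lit 345) (nat_lit 286))))) (XT.nd (nat_lit 234) (nat_lit 456) (nat_lit 0) (XT.nd (nat_lit 78) (nat_lit 228) (nat_lit 0) (XT.lf (nat_lit 76) (nat_lit 324247228) (nat_lit 0) (nat_lit 164055647) (nat_lit 76) (nat_lit 530251533) (nat_lit 161) (nat_lit 3) (nat_lit 160) (nat_lit 1) (nat_lit 161) (nat_lit 1) (nat_lit 390) (nat_lit 345) (nat_lit 285)) (XT.nd (nat_lit 78) (nat_lit 76) (nat_lit 0) (XT.lf (nat_lit 0) (nat_lit 13685936) (nat_lit 0) (nat_lit 195347581) (nat_lit 152) (nat_lit 783586521) (nat_lit 158) (nat_lit 3) (nat_lit 158) (nat_lit 1) (nat_lit 160) (nat_lit 1) (nat_lit 391) (nat_lit 345) (nat_lit 284)) (XT.lf (nat_lit 76) (nat_lit 275805249) (nat_lit 0) (nat_lit 247331761)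 (nat_lit 76) (nat_lit 444010476) (nat_lit 158) (nat_lit 3) (nat_lit 157) (nat_lit 1) (nat_lit 158) (nat_lit 1) (nat_lit 392) (nat_lit 345) (nat_lit 283)))) (XT.nd (nat_lit 156) (nat_lit 228) (nat_lit 0) (XT.nd (nat_lit 78) (nat_lit 76) (nat_lit 0) (XT.lf (nat_lit 0) (nat_lit 69603672) (nat_lit 0) (nat_lit 217932796) (nat_lit 152) (nat_lit 654987477) (nat_lit 155) (nat_lit 3) (nat_lit 155) (nat_lit 1) (nat_lit 157) (nat_lit 1) (nat_lit 393) (nat_lit 345) (nat_lit 282)) (XT.lf (nat_lit 76) (nat_lit 229095818) (nat_lit 0) (nat_lit 322872306) (nat_lit 76) (nat_lit 366437599) (nat_lit 155) (nat_lit 3) (nat_lit 154) (nat_lit 1) (nat_lit 155) (nat_lit 1) (nat_lit 394) (nat_lit 345) (nat_lit 281))) (XT.nd (nat_lit 78) (nat_lit 76) (nat_lit 0) (XT.lf (nat_lit 0) (nat_lit 118718039) (nat_lit 0) (nat_lit 239830722) (nat_lit 152) (nat_lit 536471650) (nat_lit 152) (nat_lit 3) (nat_lit 152) (nat_lit 1) (nat_lit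 154) (nat_lit 1) (nat_lit 395) (nat_lit 345) (nat_lit 280)) (XT.lf (nat_lit 76) (nat_lit 184504987) (nat_lit 0) (nat_lit 391028302) (nat_lit 76) (nat_lit 296646360) (nat_lit 152) (nat_lit 3) (nat_lit 151) (nat_lit 1) (nat_lit 152) (nat_lit 1) (nat_lit 396) (nat_lit 345) (nat_lit 279)))))) (XT.nd (nat_lit 468) (nat_lit 912) (nat_lit 0) (XT.nd (nat_lit 234) (nat_lit 304) (nat_lit 0) (XT.nd (nat_lit 78) (nat_lit 228) (nat_lit 0) (XT.lf (nat_lit 0) (nat_lit 161770953) (nat_lit 0) (nat_lit 260661052) (nat_lit 152) (nat_lit 427533079) (nat_lit 149) (nat_lit 3) (nat_lit 149) (nat_lit 1) (nat_lit 151) (nat_lit 1) (nat_lit 397) (nat_lit 345) (nat_lit 278)) (XT.nd (nat_lit 78) (nat_lit 152) (nat_lit 0) (XT.lf (nat_lit 76) (nat_lit 142294556) (nat_lit 0) (nat_lit 452176081) (nat_lit 76) (nat_lit 233859463) (nat_lit 149) (nat_lit 3) (nat_lit 148) (nat_lit 1) (nat_lit 149) (nat_lit 1) (nat_lit 398) (nat_lit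 345) (nat_lit 277)) (XT.lf (nat_lit 0) (nat_lit 199411037) (nat_lit 0) (nat_lit 280156104) (nat_lit 152) (nat_lit 327656242) (nat_lit 146) (nat_lit 3) (nat_lit 146) (nat_lit 1) (nat_lit 148) (nat_lit 1) (nat_lit 399) (nat_lit 345) (nat_lit 276)))) (XT.nd (nat_lit 78) (nat_lit 228) (nat_lit 0) (XT.lf (nat_lit 76) (nat_lit 102628501) (nat_lit 0) (nat_lit 506706245) (nat_lit 76) (nat_lit 177392452) (nat_lit 146) (nat_lit 3) (nat_lit 145) (nat_lit 1) (nat_lit 146) (nat_lit 1) (nat_lit 400) (nat_lit 345) (nat_lit 275)) (XT.nd (nat_lit 78) (nat_lit 76) (nat_lit 0) (XT.lf (nat_lit 0) (nat_lit 232207674) (nat_lit 0) (nat_lit 298137085) (nat_lit 152) (nat_lit 236324795) (nat_lit 143) (nat_lit 3) (nat_lit 143) (nat_lit 1) (nat_lit 145) (nat_lit 1) (nat_lit 401) (nat_lit 345) (nat_lit 274)) (XT.lf (nat_lit 76) (nat_lit 65594327) (nat_lit 0) (nat_lit 555015065) (nat_lit 76) (nat_lit 126640077) (nat_lit 143)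 (nat_lit 3) (nat_lit 142) (nat_lit 1) (nat_lit 143) (nat_lit 1) (nat_lit 402) (nat_lit 345) (nat_lit 273))))) (XT.nd (nat_lit 234) (nat_lit 532) (nat_lit 0) (XT.nd (nat_lit 78) (nat_lit 228) (nat_lit 0) (XT.lf (nat_lit 0) (nat_lit 260662686) (nat_lit 0) (nat_lit 314494918) (nat_lit 152) (nat_lit 153028250) (nat_lit 140) (nat_lit 3) (nat_lit 140) (nat_lit 1) (nat_lit 142) (nat_lit 1) (nat_lit 403) (nat_lit 345) (nat_lit 272)) (XT.nd (nat_lit 78) (nat_lit 152) (nat_lit 0) (XT.lf (nat_lit 76) (nat_lit 31220282) (nat_lit 0) (nat_lit 597497859) (nat_lit 76) (nat_lit 81064940) (nat_lit 140) (nat_lit 3) (nat_lit 139) (nat_lit 1) (nat_lit 140) (nat_lit 1) (nat_lit 404) (nat_lit 345) (nat_lit 271)) (XT.lf (nat_lit 0) (nat_lit 285220053) (nat_lit 0) (nat_lit 329174778) (nat_lit 152) (nat_lit 77267012) (nat_lit 137) (nat_lit 3) (nat_lit 137) (nat_lit 1) (nat_lit 139) (nat_lit 1) (nat_lit 405) (nat_lit 345)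 (nat_lit 270)))) (XT.nd (nat_lit 156) (nat_lit 304) (nat_lit 0) (XT.nd (nat_lit 78) (nat_lit 76) (nat_lit 0) (XT.lf (nat_lit 76) (nat_lit 634041136) (nat_lit 0) (nat_lit 494443) (nat_lit 152) (nat_lit 39685210) (nat_lit 136) (nat_lit 1) (nat_lit 135) (nat_lit 1) (nat_lit 137) (nat_lit 1) (nat_lit 406) (nat_lit 345) (nat_lit 269)) (XT.lf (nat_lit 0) (nat_lit 306274028) (nat_lit 0) (nat_lit 342163640) (nat_lit 152) (nat_lit 8556103) (nat_lit 134) (nat_lit 3) (nat_lit 134) (nat_lit 1) (nat_lit 136) (nat_lit 1) (nat_lit 407) (nat_lit 345) (nat_lit 268))) (XT.nd (nat_lit 78) (nat_lit 76) (nat_lit 0) (XT.lf (nat_lit 152) (nat_lit 611305189) (nat_lit 0) (nat_lit 26453313) (nat_lit 76) (nat_lit 2661045) (nat_lit 133) (nat_lit 1) (nat_lit 131) (nat_lit 1) (nat_lit 132) (nat_lit 1) (nat_lit 408) (nat_lit 345) (nat_lit 267)) (XT.lf (nat_lit 76) (nat_lit 269696486) (nat_lit 0) (nat_lit 55343518) (nat_lit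 76) (nat_lit 299000826) (nat_lit 131) (nat_lit 3) (nat_lit 130) (nat_lit 1) (nat_lit 131) (nat_lit 1) (nat_lit 409) (nat_lit 345) (nat_lit 266))))))) (XT.nd (nat_lit 46956) (nat_lit 0) (nat_lit 10260) (XT.nd (nat_lit 468) (nat_lit 456) (nat_lit 0) (XT.nd (nat_lit 234) (nat_lit 304) (nat_lit 0) (XT.nd (nat_lit 78) (nat_lit 228) (nat_lit 0) (XT.lf (nat_lit 0) (nat_lit 30487744) (nat_lit 0) (nat_lit 56329314) (nat_lit 152) (nat_lit 521461251) (nat_lit 128) (nat_lit 3) (nat_lit 128) (nat_lit 1) (nat_lit 130) (nat_lit 1) (nat_lit 410) (nat_lit 345) (nat_lit 265)) (XT.nd (nat_lit 78) (nat_lit 152) (nat_lit 0) (XT.lf (nat_lit 76) (nat_lit 227817887) (nat_lit 0) (nat_lit 113189189) (nat_lit 76) (nat_lit 251745266) (nat_lit 128) (nat_lit 3) (nat_lit 127) (nat_lit 1) (nat_lit 128) (nat_lit 1) (nat_lit 411) (nat_lit 345) (nat_lit 264)) (XT.lf (nat_lit 0) (nat_lit 59990818) (nat_lit 0) (nat_lit 81090800)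 (nat_lit 152) (nat_lit 436683313) (nat_lit 125) (nat_lit 3) (nat_lit 125) (nat_lit 1) (nat_lit 127) (nat_lit 1) (nat_lit 412) (nat_lit 345) (nat_lit 263)))) (XT.nd (nat_lit 78) (nat_lit 228) (nat_lit 0) (XT.lf (nat_lit 76) (nat_lit 189185342) (nat_lit 0) (nat_lit 165140477) (nat_lit 76) (nat_lit 208722362) (nat_lit 125) (nat_lit 3) (nat_lit 124) (nat_lit 1) (nat_lit 125) (nat_lit 1) (nat_lit 413) (nat_lit 345) (nat_lit 262)) (XT.nd (nat_lit 78) (nat_lit 76) (nat_lit 0) (XT.lf (nat_lit 0) (nat_lit 86244996) (nat_lit 0) (nat_lit 103473409) (nat_lit 152) (nat_lit 359078366) (nat_lit 122) (nat_lit 3) (nat_lit 122) (nat_lit 1) (nat_lit 124) (nat_lit 1) (nat_lit 414) (nat_lit 345) (nat_lit 261)) (XT.lf (nat_lit 76) (nat_lit 153637874) (nat_lit 0) (nat_lit 211618234) (nat_lit 76) (nat_lit 169590108) (nat_lit 122) (nat_lit 3) (nat_lit 121) (nat_lit 1) (nat_lit 122) (nat_lit 1) (nat_lit 415) (nat_lit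 345) (nat_lit 260))))) (XT.nd (nat_lit 234) (nat_lit 76) (nat_lit 0) (XT.nd (nat_lit 78) (nat_lit 228) (nat_lit 0) (XT.lf (nat_lit 0) (nat_lit 109533194) (nat_lit 0) (nat_lit 123600420) (nat_lit 152) (nat_lit 288160223) (nat_lit 119) (nat_lit 3) (nat_lit 119) (nat_lit 1) (nat_lit 121) (nat_lit 1) (nat_lit 416) (nat_lit 345) (nat_lit 259)) (XT.nd (nat_lit 78) (nat_lit 152) (nat_lit 0) (XT.lf (nat_lit 76) (nat_lit 121011114) (nat_lit 0) (nat_lit 253021432) (nat_lit 76) (nat_lit 134036323) (nat_lit 119) (nat_lit 3) (nat_lit 118) (nat_lit 1) (nat_lit 119) (nat_lit 1) (nat_lit 417) (nat_lit 345) (nat_lit 258)) (XT.lf (nat_lit 0) (nat_lit 130112841) (nat_lit 0) (nat_lit 141598917) (nat_lit 152) (nat_lit 223468786) (nat_lit 116) (nat_lit 3) (nat_lit 116) (nat_lit 1) (nat_lit 118) (nat_lit 1) (nat_lit 418) (nat_lit 345) (nat_lit 257)))) (XT.nd (nat_lit 46098) (nat_lit 0) (nat_lit 13528) (XT.nd (nat_lit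 46020) (nat_lit 0) (nat_lit 13452) (XT.lf (nat_lit 76) (nat_lit 91140161) (nat_lit 0) (nat_lit 289727240) (nat_lit 76) (nat_lit 101775416) (nat_lit 116) (nat_lit 3) (nat_lit 115) (nat_lit 1) (nat_lit 116) (nat_lit 1) (nat_lit 419) (nat_lit 345) (nat_lit 256)) (XT.lf (nat_lit 836) (nat_lit 852692046) (nat_lit 0) (nat_lit 1513952767) (nat_lit 836) (nat_lit 852692046) (nat_lit 303) (nat_lit 1) (nat_lit 292) (nat_lit 0) (nat_lit 303) (nat_lit 0) (nat_lit 328) (nat_lit 346) (nat_lit 346))) (XT.nd (nat_lit 78) (nat_lit 0) (nat_lit 0) (XT.lf (nat_lit 836) (nat_lit 318080297) (nat_lit 0) (nat_lit 2972348126) (nat_lit 760) (nat_lit 2906946537) (nat_lit 304) (nat_lit 1) (nat_lit 293) (nat_lit 1) (nat_lit 303) (nat_lit 1) (nat_lit 329) (nat_lit 346) (nat_lit 345)) (XT.lf (nat_lit 836) (nat_lit 2921383932) (nat_lit 76) (nat_lit 1990582542) (nat_lit 0) (nat_lit 1055714177) (nat_lit 304) (nat_lit 1) (nat_lit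 294) (nat_lit 1) (nat_lit 293) (nat_lit 1) (nat_lit 330) (nat_lit 346) (nat_lit 344)))))) (XT.nd (nat_lit 546) (nat_lit 1900) (nat_lit 0) (XT.nd (nat_lit 234) (nat_lit 1444) (nat_lit 0) (XT.nd (nat_lit 78) (nat_lit 0) (nat_lit 76) (XT.lf (nat_lit 836) (nat_lit 2524315040) (nat_lit 76) (nat_lit 834239345) (nat_lit 0) (nat_lit 2390926442) (nat_lit 305) (nat_lit 1) (nat_lit 295) (nat_lit 1) (nat_lit 294) (nat_lit 1) (nat_lit 331) (nat_lit 346) (nat_lit 343)) (XT.nd (nat_lit 78) (nat_lit 0) (nat_lit 76) (XT.lf (nat_lit 836) (nat_lit 1868207739) (nat_lit 0) (nat_lit 3495328374) (nat_lit 760) (nat_lit 178680687) (nat_lit 306) (nat_lit 1) (nat_lit 295) (nat_lit 1) (nat_lit 305) (nat_lit 1) (nat_lit 332) (nat_lit 346) (nat_lit 342)) (XT.lf (nat_lit 836) (nat_lit 448258129) (nat_lit 0) (nat_lit 3854570573) (nat_lit 760) (nat_lit 1042022379) (nat_lit 307) (nat_lit 1) (nat_lit 296) (nat_lit 1) (nat_lit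 306) (nat_lit 1) (nat_lit 333) (nat_lit 346) (nat_lit 341)))) (XT.nd (nat_lit 156) (nat_lit 912) (nat_lit 0) (XT.nd (nat_lit 78) (nat_lit 684) (nat_lit 0) (XT.lf (nat_lit 836) (nat_lit 861369803) (nat_lit 76) (nat_lit 3349935719) (nat_lit 0) (nat_lit 945393190) (nat_lit 307) (nat_lit 1) (nat_lit 297) (nat_lit 1) (nat_lit 296) (nat_lit 1) (nat_lit 334) (nat_lit 346) (nat_lit 340)) (XT.lf (nat_lit 836) (nat_lit 176905715) (nat_lit 0) (nat_lit 2504298539) (nat_lit 760) (nat_lit 2296415521) (nat_lit 298) (nat_lit 1) (nat_lit 287) (nat_lit 1) (nat_lit 297) (nat_lit 1) (nat_lit 335) (nat_lit 346) (nat_lit 339))) (XT.nd (nat_lit 78) (nat_lit 380) (nat_lit 0) (XT.lf (nat_lit 76) (nat_lit 1224932027) (nat_lit 0) (nat_lit 530820051) (nat_lit 532) (nat_lit 3051267977) (nat_lit 281) (nat_lit 1) (nat_lit 280) (nat_lit 1) (nat_lit 287) (nat_lit 1) (nat_lit 336) (nat_lit 346) (nat_lit 338)) (XT.lf (nat_lit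 456) (nat_lit 3375758488) (nat_lit 0) (nat_lit 1098882163) (nat_lit 380) (nat_lit 169893972) (nat_lit 281) (nat_lit 1) (nat_lit 275) (nat_lit 1) (nat_lit 280) (nat_lit 1) (nat_lit 337) (nat_lit 346) (nat_lit 337))))) (XT.nd (nat_lit 234) (nat_lit 1216) (nat_lit 0) (XT.nd (nat_lit 78) (nat_lit 304) (nat_lit 0) (XT.lf (nat_lit 456) (nat_lit 2435979471) (nat_lit 0) (nat_lit 512193710) (nat_lit 380) (nat_lit 1540862594) (nat_lit 276) (nat_lit 1) (nat_lit 270) (nat_lit 1) (nat_lit 275) (nat_lit 1) (nat_lit 338) (nat_lit 346) (nat_lit 336)) (XT.nd (nat_lit 78) (nat_lit 0) (nat_lit 0) (XT.lf (nat_lit 380) (nat_lit 1482262440) (nat_lit 0) (nat_lit 9430318) (nat_lit 304) (nat_lit 2849383970) (nat_lit 271) (nat_lit 1) (nat_lit 266) (nat_lit 1) (nat_lit 270) (nat_lit 1) (nat_lit 339) (nat_lit 346) (nat_lit 335)) (XT.lf (nat_lit 76) (nat_lit 109354317) (nat_lit 0) (nat_lit 3687957477) (nat_lit 380) (nat_lit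 402612266) (nat_lit 267) (nat_lit 1) (nat_lit 266) (nat_lit 1) (nat_lit 271) (nat_lit 1) (nat_lit 340) (nat_lit 346) (nat_lit 334)))) (XT.nd (nat_lit 156) (nat_lit 532) (nat_lit 0) (XT.nd (nat_lit 78) (nat_lit 304) (nat_lit 0) (XT.lf (nat_lit 76) (nat_lit 2823556845) (nat_lit 0) (nat_lit 468317114) (nat_lit 380) (nat_lit 772339975) (nat_lit 262) (nat_lit 1) (nat_lit 261) (nat_lit 1) (nat_lit 266) (nat_lit 1) (nat_lit 341) (nat_lit 346) (nat_lit 333)) (XT.lf (nat_lit 76) (nat_lit 1412697040) (nat_lit 0) (nat_lit 1434538456) (nat_lit 380) (nat_lit 1087264677) (nat_lit 258) (nat_lit 1) (nat_lit 257) (nat_lit 1) (nat_lit 262) (nat_lit 1) (nat_lit 342) (nat_lit 346) (nat_lit 332))) (XT.nd (nat_lit 78) (nat_lit 228) (nat_lit 0) (XT.lf (nat_lit 76) (nat_lit 69727593) (nat_lit 0) (nat_lit 2398526023) (nat_lit 380) (nat_lit 1342674314) (nat_lit 254) (nat_lit 1) (nat_lit 253) (nat_lit 1) (nat_lit 258)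 (nat_lit 1) (nat_lit 343) (nat_lit 346) (nat_lit 331)) (XT.lf (nat_lit 304) (nat_lit 314885881) (nat_lit 0) (nat_lit 2129422491) (nat_lit 228) (nat_lit 1247890519) (nat_lit 254) (nat_lit 1) (nat_lit 250) (nat_lit 1) (nat_lit 253) (nat_lit 1) (nat_lit 344) (nat_lit 346) (nat_lit 330))))))))
noncomputable def ec35 : XT := (XT.nd (nat_lit 2106) (nat_lit 3116) (nat_lit 0) (XT.nd (nat_lit 1014) (nat_lit 1976) (nat_lit 0) (XT.nd (nat_lit 468) (nat_lit 1368) (nat_lit 0) (XT.nd (nat_lit 234) (nat_lit 684) (nat_lit 0) (XT.nd (nat_lit 78) (nat_lit 456) (nat_lit 0) (XT.lf (nat_lit 76) (nat_lit 1088015381) (nat_lit 0) (nat_lit 745732502) (nat_lit 380) (nat_lit 1744626881) (nat_lit 246) (nat_lit 1) (nat_lit 245) (nat_lit 1) (nat_lit 250) (nat_lit 1) (nat_lit 345) (nat_lit 346) (nat_lit 329)) (XT.nd (nat_lit 78) (nat_lit 228) (nat_lit 0) (XT.lf (nat_lit 304) (nat_lit 1684509511) (nat_lit 0) (nat_lit 1582378968)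 (nat_lit 228) (nat_lit 202542629) (nat_lit 246) (nat_lit 1) (nat_lit 242) (nat_lit 1) (nat_lit 245) (nat_lit 1) (nat_lit 346) (nat_lit 346) (nat_lit 328)) (XT.lf (nat_lit 304) (nat_lit 539877160) (nat_lit 0) (nat_lit 1362363494) (nat_lit 228) (nat_lit 1462433535) (nat_lit 243) (nat_lit 1) (nat_lit 239) (nat_lit 1) (nat_lit 242) (nat_lit 1) (nat_lit 347) (nat_lit 346) (nat_lit 327)))) (XT.nd (nat_lit 78) (nat_lit 380) (nat_lit 0) (XT.lf (nat_lit 76) (nat_lit 615329511) (nat_lit 0) (nat_lit 563387640) (nat_lit 304) (nat_lit 2085550870) (nat_lit 236) (nat_lit 1) (nat_lit 235) (nat_lit 1) (nat_lit 239) (nat_lit 1) (nat_lit 348) (nat_lit 346) (nat_lit 326)) (XT.nd (nat_lit 78) (nat_lit 152) (nat_lit 0) (XT.lf (nat_lit 304) (nat_lit 1531166727) (nat_lit 0) (nat_lit 1018781599) (nat_lit 228) (nat_lit 617588755) (nat_lit 236) (nat_lit 1) (nat_lit 232) (nat_lit 1) (nat_lit 235) (nat_lit 1) (nat_lit 349)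 (nat_lit 346) (nat_lit 325)) (XT.lf (nat_lit 228) (nat_lit 379578492) (nat_lit 0) (nat_lit 888812635) (nat_lit 152) (nat_lit 1806317409) (nat_lit 233) (nat_lit 1) (nat_lit 230) (nat_lit 1) (nat_lit 232) (nat_lit 1) (nat_lit 350) (nat_lit 346) (nat_lit 324))))) (XT.nd (nat_lit 234) (nat_lit 684) (nat_lit 0) (XT.nd (nat_lit 78) (nat_lit 380) (nat_lit 0) (XT.lf (nat_lit 76) (nat_lit 64303021) (nat_lit 0) (nat_lit 719564772) (nat_lit 304) (nat_lit 2201610477) (nat_lit 227) (nat_lit 1) (nat_lit 226) (nat_lit 1) (nat_lit 230) (nat_lit 1) (nat_lit 351) (nat_lit 346) (nat_lit 323)) (XT.nd (nat_lit 78) (nat_lit 228) (nat_lit 0) (XT.lf (nat_lit 228) (nat_lit 1102985451) (nat_lit 0) (nat_lit 689271282) (nat_lit 152) (nat_lit 1106823852) (nat_lit 227) (nat_lit 1) (nat_lit 224) (nat_lit 1) (nat_lit 226) (nat_lit 1) (nat_lit 352) (nat_lit 346) (nat_lit 322)) (XT.lf (nat_lit 76) (nat_lit 598433811) (nat_lit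 0) (nat_lit 27642032) (nat_lit 228) (nat_lit 2190377152) (nat_lit 222) (nat_lit 1) (nat_lit 221) (nat_lit 1) (nat_lit 224) (nat_lit 1) (nat_lit 353) (nat_lit 346) (nat_lit 321)))) (XT.nd (nat_lit 156) (nat_lit 380) (nat_lit 0) (XT.nd (nat_lit 78) (nat_lit 152) (nat_lit 0) (XT.lf (nat_lit 228) (nat_lit 1636002481) (nat_lit 0) (nat_lit 566911542) (nat_lit 152) (nat_lit 533314963) (nat_lit 222) (nat_lit 1) (nat_lit 219) (nat_lit 1) (nat_lit 221) (nat_lit 1) (nat_lit 354) (nat_lit 346) (nat_lit 320)) (XT.lf (nat_lit 228) (nat_lit 508207929) (nat_lit 0) (nat_lit 527006968) (nat_lit 152) (nat_lit 1623857392) (nat_lit 220) (nat_lit 1) (nat_lit 217) (nat_lit 1) (nat_lit 219) (nat_lit 1) (nat_lit 355) (nat_lit 346) (nat_lit 319))) (XT.nd (nat_lit 78) (nat_lit 152) (nat_lit 0) (XT.lf (nat_lit 228) (nat_lit 2017398710) (nat_lit 0) (nat_lit 503512383) (nat_lit 152) (nat_lit 63876387) (nat_lit 217) (nat_lit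 1) (nat_lit 214) (nat_lit 1) (nat_lit 216) (nat_lit 1) (nat_lit 356) (nat_lit 346) (nat_lit 318)) (XT.lf (nat_lit 228) (nat_lit 902894164) (nat_lit 0) (nat_lit 480684568) (nat_lit 152) (nat_lit 1128988079) (nat_lit 215) (nat_lit 1) (nat_lit 212) (nat_lit 1) (nat_lit 214) (nat_lit 1) (nat_lit 357) (nat_lit 346) (nat_lit 317)))))) (XT.nd (nat_lit 546) (nat_lit 988) (nat_lit 0) (XT.nd (nat_lit 234) (nat_lit 608) (nat_lit 0) (XT.nd (nat_lit 78) (nat_lit 228) (nat_lit 0) (XT.lf (nat_lit 76) (nat_lit 309276111) (nat_lit 0) (nat_lit 169992087) (nat_lit 152) (nat_lit 1964073471) (nat_lit 211) (nat_lit 1) (nat_lit 210) (nat_lit 1) (nat_lit 212) (nat_lit 1) (nat_lit 358) (nat_lit 346) (nat_lit 316)) (XT.nd (nat_lit 78) (nat_lit 76) (nat_lit 0) (XT.lf (nat_lit 228) (nat_lit 1184649069) (nat_lit 0) (nat_lit 474193281) (nat_lit 152) (nat_lit 717021006) (nat_lit 211) (nat_lit 1) (nat_lit 208) (nat_lit 1) (nat_lit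 210) (nat_lit 1) (nat_lit 359) (nat_lit 346) (nat_lit 315)) (XT.lf (nat_lit 152) (nat_lit 127569871) (nat_lit 0) (nat_lit 485840081) (nat_lit 76) (nat_lit 1697639050) (nat_lit 209) (nat_lit 1) (nat_lit 207) (nat_lit 1) (nat_lit 208) (nat_lit 1) (nat_lit 360) (nat_lit 346) (nat_lit 314)))) (XT.nd (nat_lit 156) (nat_lit 304) (nat_lit 0) (XT.nd (nat_lit 78) (nat_lit 76) (nat_lit 0) (XT.lf (nat_lit 228) (nat_lit 1377069660) (nat_lit 0) (nat_lit 496884754) (nat_lit 152) (nat_lit 374067363) (nat_lit 207) (nat_lit 1) (nat_lit 204) (nat_lit 1) (nat_lit 206) (nat_lit 1) (nat_lit 361) (nat_lit 346) (nat_lit 313)) (XT.lf (nat_lit 152) (nat_lit 346343174) (nat_lit 0) (nat_lit 515463776) (nat_lit 76) (nat_lit 1325311749) (nat_lit 205) (nat_lit 1) (nat_lit 203) (nat_lit 1) (nat_lit 204) (nat_lit 1) (nat_lit 362) (nat_lit 346) (nat_lit 312))) (XT.nd (nat_lit 78) (nat_lit 76) (nat_lit 0) (XT.lf (nat_lit 228)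 (nat_lit 1499234425) (nat_lit 0) (nat_lit 540324746) (nat_lit 152) (nat_lit 88671916) (nat_lit 203) (nat_lit 1) (nat_lit 200) (nat_lit 1) (nat_lit 202) (nat_lit 1) (nat_lit 363) (nat_lit 346) (nat_lit 311)) (XT.lf (nat_lit 152) (nat_lit 498435343) (nat_lit 0) (nat_lit 563295041) (nat_lit 76) (nat_lit 1009191713) (nat_lit 201) (nat_lit 1) (nat_lit 199) (nat_lit 1) (nat_lit 200) (nat_lit 1) (nat_lit 364) (nat_lit 346) (nat_lit 310))))) (XT.nd (nat_lit 234) (nat_lit 456) (nat_lit 0) (XT.nd (nat_lit 78) (nat_lit 304) (nat_lit 0) (XT.lf (nat_lit 76) (nat_lit 143868275) (nat_lit 0) (nat_lit 451564168) (nat_lit 228) (nat_lit 1420239491) (nat_lit 197) (nat_lit 1) (nat_lit 196) (nat_lit 1) (nat_lit 199) (nat_lit 1) (nat_lit 365) (nat_lit 346) (nat_lit 309)) (XT.nd (nat_lit 78) (nat_lit 228) (nat_lit 0) (XT.lf (nat_lit 152) (nat_lit 598167381) (nat_lit 0) (nat_lit 623262059) (nat_lit 76) (nat_lit 740364435)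 (nat_lit 197) (nat_lit 1) (nat_lit 195) (nat_lit 1) (nat_lit 196) (nat_lit 1) (nat_lit 366) (nat_lit 346) (nat_lit 308)) (XT.lf (nat_lit 76) (nat_lit 334584040) (nat_lit 0) (nat_lit 324067267) (nat_lit 228) (nat_lit 1251157917) (nat_lit 193) (nat_lit 1) (nat_lit 192) (nat_lit 1) (nat_lit 195) (nat_lit 1) (nat_lit 367) (nat_lit 346) (nat_lit 307)))) (XT.nd (nat_lit 156) (nat_lit 228) (nat_lit 0) (XT.nd (nat_lit 78) (nat_lit 152) (nat_lit 0) (XT.lf (nat_lit 152) (nat_lit 657088211) (nat_lit 0) (nat_lit 690625093) (nat_lit 76) (nat_lit 511439458) (nat_lit 193) (nat_lit 1) (nat_lit 191) (nat_lit 1) (nat_lit 192) (nat_lit 1) (nat_lit 368) (nat_lit 346) (nat_lit 306)) (XT.lf (nat_lit 76) (nat_lit 492585076) (nat_lit 0) (nat_lit 234707975) (nat_lit 152) (nat_lit 1082876197) (nat_lit 190) (nat_lit 1) (nat_lit 189) (nat_lit 1) (nat_lit 191) (nat_lit 1) (nat_lit 369) (nat_lit 346) (nat_lit 305))) (XT.nd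 (nat_lit 78) (nat_lit 152) (nat_lit 0) (XT.lf (nat_lit 152) (nat_lit 684492651) (nat_lit 0) (nat_lit 761716866) (nat_lit 76) (nat_lit 316278509) (nat_lit 190) (nat_lit 1) (nat_lit 188) (nat_lit 1) (nat_lit 189) (nat_lit 1) (nat_lit 370) (nat_lit 346) (nat_lit 304)) (XT.lf (nat_lit 76) (nat_lit 623074322) (nat_lit 0) (nat_lit 175095209) (nat_lit 152) (nat_lit 918103897) (nat_lit 187) (nat_lit 1) (nat_lit 186) (nat_lit 1) (nat_lit 188) (nat_lit 1) (nat_lit 371) (nat_lit 346) (nat_lit 303))))))) (XT.nd (nat_lit 1014) (nat_lit 1672) (nat_lit 0) (XT.nd (nat_lit 468) (nat_lit 760) (nat_lit 0) (XT.nd (nat_lit 234) (nat_lit 380) (nat_lit 0) (XT.nd (nat_lit 78) (nat_lit 228) (nat_lit 0) (XT.lf (nat_lit 152) (nat_lit 687843781) (nat_lit 0) (nat_lit 833731573) (nat_lit 76) (nat_lit 149773023) (nat_lit 187) (nat_lit 1) (nat_lit 185) (nat_lit 1) (nat_lit 186) (nat_lit 1) (nat_lit 372) (nat_lit 346) (nat_lit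 302)) (XT.nd (nat_lit 78) (nat_lit 76) (nat_lit 0) (XT.lf (nat_lit 76) (nat_lit 730375998) (nat_lit 0) (nat_lit 138481762) (nat_lit 152) (nat_lit 758839768) (nat_lit 184) (nat_lit 1) (nat_lit 183) (nat_lit 1) (nat_lit 185) (nat_lit 1) (nat_lit 373) (nat_lit 346) (nat_lit 301)) (XT.lf (nat_lit 152) (nat_lit 673117258) (nat_lit 0) (nat_lit 904553525) (nat_lit 76) (nat_lit 7662006) (nat_lit 184) (nat_lit 1) (nat_lit 182) (nat_lit 1) (nat_lit 183) (nat_lit 1) (nat_lit 374) (nat_lit 346) (nat_lit 300)))) (XT.nd (nat_lit 78) (nat_lit 228) (nat_lit 0) (XT.lf (nat_lit 76) (nat_lit 818091153) (nat_lit 0) (nat_lit 119455627) (nat_lit 152) (nat_lit 606516593) (nat_lit 181) (nat_lit 1) (nat_lit 180) (nat_lit 1) (nat_lit 182) (nat_lit 1) (nat_lit 375) (nat_lit 346) (nat_lit 299)) (XT.nd (nat_lit 78) (nat_lit 152) (nat_lit 0) (XT.lf (nat_lit 0) (nat_lit 109980662) (nat_lit 0) (nat_lit 860774870) (nat_lit 152)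 (nat_lit 533238703) (nat_lit 179) (nat_lit 3) (nat_lit 179) (nat_lit 1) (nat_lit 181) (nat_lit 1) (nat_lit 376) (nat_lit 346) (nat_lit 298)) (XT.lf (nat_lit 76) (nat_lit 889225044) (nat_lit 0) (nat_lit 113688427) (nat_lit 152) (nat_lit 462118544) (nat_lit 178) (nat_lit 1) (nat_lit 177) (nat_lit 1) (nat_lit 179) (nat_lit 1) (nat_lit 377) (nat_lit 346) (nat_lit 297))))) (XT.nd (nat_lit 234) (nat_lit 456) (nat_lit 0) (XT.nd (nat_lit 78) (nat_lit 228) (nat_lit 0) (XT.lf (nat_lit 0) (nat_lit 210103753) (nat_lit 0) (nat_lit 823137106) (nat_lit 152) (nat_lit 393866589) (nat_lit 176) (nat_lit 3) (nat_lit 176) (nat_lit 1) (nat_lit 178) (nat_lit 1) (nat_lit 378) (nat_lit 346) (nat_lit 296)) (XT.nd (nat_lit 78) (nat_lit 76) (nat_lit 0) (XT.lf (nat_lit 76) (nat_lit 946291514) (nat_lit 0) (nat_lit 117730407) (nat_lit 152) (nat_lit 326276139) (nat_lit 175) (nat_lit 1) (nat_lit 174) (nat_lit 1) (nat_lit 176)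 (nat_lit 1) (nat_lit 379) (nat_lit 346) (nat_lit 295)) (XT.lf (nat_lit 0) (nat_lit 295382495) (nat_lit 0) (nat_lit 795932296) (nat_lit 152) (nat_lit 263070975) (nat_lit 173) (nat_lit 3) (nat_lit 173) (nat_lit 1) (nat_lit 175) (nat_lit 1) (nat_lit 380) (nat_lit 346) (nat_lit 294)))) (XT.nd (nat_lit 156) (nat_lit 228) (nat_lit 0) (XT.nd (nat_lit 78) (nat_lit 76) (nat_lit 0) (XT.lf (nat_lit 76) (nat_lit 991398549) (nat_lit 0) (nat_lit 128843450) (nat_lit 152) (nat_lit 199342964) (nat_lit 172) (nat_lit 1) (nat_lit 171) (nat_lit 1) (nat_lit 173) (nat_lit 1) (nat_lit 381) (nat_lit 346) (nat_lit 293)) (XT.lf (nat_lit 0) (nat_lit 367865622) (nat_lit 0) (nat_lit 776571122) (nat_lit 152) (nat_lit 141127014) (nat_lit 170) (nat_lit 3) (nat_lit 170) (nat_lit 1) (nat_lit 172) (nat_lit 1) (nat_lit 382) (nat_lit 346) (nat_lit 292))) (XT.nd (nat_lit 78) (nat_lit 76) (nat_lit 0) (XT.lf (nat_lit 76) (nat_lit 1026318454)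 (nat_lit 0) (nat_lit 144865100) (nat_lit 152) (nat_lit 81457563) (nat_lit 169) (nat_lit 1) (nat_lit 168) (nat_lit 1) (nat_lit 170) (nat_lit 1) (nat_lit 383) (nat_lit 346) (nat_lit 291)) (XT.lf (nat_lit 0) (nat_lit 429285872) (nat_lit 0) (nat_lit 762999293) (nat_lit 152) (nat_lit 28114387) (nat_lit 167) (nat_lit 3) (nat_lit 167) (nat_lit 1) (nat_lit 169) (nat_lit 1) (nat_lit 384) (nat_lit 346) (nat_lit 290)))))) (XT.nd (nat_lit 546) (nat_lit 760) (nat_lit 0) (XT.nd (nat_lit 234) (nat_lit 456) (nat_lit 0) (XT.nd (nat_lit 78) (nat_lit 228) (nat_lit 0) (XT.lf (nat_lit 152) (nat_lit 1024674547) (nat_lit 0) (nat_lit 28312940) (nat_lit 76) (nat_lit 136226985) (nat_lit 166) (nat_lit 1) (nat_lit 164) (nat_lit 1) (nat_lit 165) (nat_lit 1) (nat_lit 385) (nat_lit 346) (nat_lit 289)) (XT.nd (nat_lit 78) (nat_lit 152) (nat_lit 0) (XT.lf (nat_lit 76) (nat_lit 403789073) (nat_lit 0) (nat_lit 78550926) (nat_lit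 76) (nat_lit 676270474) (nat_lit 164) (nat_lit 3) (nat_lit 163) (nat_lit 1) (nat_lit 164) (nat_lit 1) (nat_lit 386) (nat_lit 346) (nat_lit 288)) (XT.lf (nat_lit 152) (nat_lit 941783461) (nat_lit 0) (nat_lit 131614357) (nat_lit 76) (nat_lit 55659764) (nat_lit 163) (nat_lit 1) (nat_lit 161) (nat_lit 1) (nat_lit 162) (nat_lit 1) (nat_lit 387) (nat_lit 346) (nat_lit 287)))) (XT.nd (nat_lit 156) (nat_lit 228) (nat_lit 0) (XT.nd (nat_lit 78) (nat_lit 152) (nat_lit 0) (XT.lf (nat_lit 76) (nat_lit 350187006) (nat_lit 0) (nat_lit 177180099) (nat_lit 76) (nat_lit 572671656) (nat_lit 161) (nat_lit 3) (nat_lit 160) (nat_lit 1) (nat_lit 161) (nat_lit 1) (nat_lit 388) (nat_lit 346) (nat_lit 286)) (XT.lf (nat_lit 0) (nat_lit 14780811) (nat_lit 0) (nat_lit 210975388) (nat_lit 152) (nat_lit 846273443) (nat_lit 158) (nat_lit 3) (nat_lit 158) (nat_lit 1) (nat_lit 160) (nat_lit 1) (nat_lit 389) (nat_lit 346) (nat_lit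 285))) (XT.nd (nat_lit 78) (nat_lit 152) (nat_lit 0) (XT.lf (nat_lit 76) (nat_lit 297869669) (nat_lit 0) (nat_lit 267118302) (nat_lit 76) (nat_lit 479531314) (nat_lit 158) (nat_lit 3) (nat_lit 157) (nat_lit 1) (nat_lit 158) (nat_lit 1) (nat_lit 390) (nat_lit 346) (nat_lit 284)) (XT.lf (nat_lit 0) (nat_lit 75171966) (nat_lit 0) (nat_lit 235367420) (nat_lit 152) (nat_lit 707386475) (nat_lit 155) (nat_lit 3) (nat_lit 155) (nat_lit 1) (nat_lit 157) (nat_lit 1) (nat_lit 391) (nat_lit 346) (nat_lit 283))))) (XT.nd (nat_lit 234) (nat_lit 456) (nat_lit 0) (XT.nd (nat_lit 78) (nat_lit 228) (nat_lit 0) (XT.lf (nat_lit 76) (nat_lit 247423483) (nat_lit 0) (nat_lit 348702090) (nat_lit 76) (nat_lit 395752607) (nat_lit 155) (nat_lit 3) (nat_lit 154) (nat_lit 1) (nat_lit 155) (nat_lit 1) (nat_lit 392) (nat_lit 346) (nat_lit 282)) (XT.nd (nat_lit 78) (nat_lit 76) (nat_lit 0) (XT.lf (nat_lit 0) (nat_lit 128215483)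 (nat_lit 0) (nat_lit 259017179) (nat_lit 152) (nat_lit 579389382) (nat_lit 152) (nat_lit 3) (nat_lit 152) (nat_lit 1) (nat_lit 154) (nat_lit 1) (nat_lit 393) (nat_lit 346) (nat_lit 281)) (XT.lf (nat_lit 76) (nat_lit 199265386) (nat_lit 0) (nat_lit 422310566) (nat_lit 76) (nat_lit 320378069) (nat_lit 152) (nat_lit 3) (nat_lit 151) (nat_lit 1) (nat_lit 152) (nat_lit 1) (nat_lit 394) (nat_lit 346) (nat_lit 280)))) (XT.nd (nat_lit 156) (nat_lit 228) (nat_lit 0) (XT.nd (nat_lit 78) (nat_lit 76) (nat_lit 0) (XT.lf (nat_lit 0) (nat_lit 174712629) (nat_lit 0) (nat_lit 281513936) (nat_lit 152) (nat_lit 461735725) (nat_lit 149) (nat_lit 3) (nat_lit 149) (nat_lit 1) (nat_lit 151) (nat_lit 1) (nat_lit 395) (nat_lit 346) (nat_lit 279)) (XT.lf (nat_lit 76) (nat_lit 153678121) (nat_lit 0) (nat_lit 488350168) (nat_lit 76) (nat_lit 252568220) (nat_lit 149) (nat_lit 3) (nat_lit 148) (nat_lit 1) (nat_lit 149) (nat_lit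 1) (nat_lit 396) (nat_lit 346) (nat_lit 278))) (XT.nd (nat_lit 78) (nat_lit 76) (nat_lit 0) (XT.lf (nat_lit 0) (nat_lit 215363920) (nat_lit 0) (nat_lit 302568593) (nat_lit 152) (nat_lit 353868742) (nat_lit 146) (nat_lit 3) (nat_lit 146) (nat_lit 1) (nat_lit 148) (nat_lit 1) (nat_lit 397) (nat_lit 346) (nat_lit 277)) (XT.lf (nat_lit 76) (nat_lit 110838781) (nat_lit 0) (nat_lit 547242744) (nat_lit 76) (nat_lit 191583848) (nat_lit 146) (nat_lit 3) (nat_lit 145) (nat_lit 1) (nat_lit 146) (nat_lit 1) (nat_lit 398) (nat_lit 346) (nat_lit 276))))))))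
noncomputable def ec36 : XT := (XT.nd (nat_lit 47814) (nat_lit 0) (nat_lit 7296) (XT.nd (nat_lit 1014) (nat_lit 912) (nat_lit 0) (XT.nd (nat_lit 468) (nat_lit 836) (nat_lit 0) (XT.nd (nat_lit 234) (nat_lit 380) (nat_lit 0) (XT.nd (nat_lit 78) (nat_lit 228) (nat_lit 0) (XT.lf (nat_lit 0) (nat_lit 250784288) (nat_lit 0) (nat_lit 321988052) (nat_lit 152) (nat_lit 255230779) (nat_lit 143) (nat_lit 3) (nat_lit 143) (nat_lit 1) (nat_lit 145) (nat_lit 1) (nat_lit 399) (nat_lit 346) (nat_lit 275)) (XT.nd (nat_lit 78) (nat_lit 152) (nat_lit 0) (XT.lf (nat_lit 76) (nat_lit 70841873) (nat_lit 0) (nat_lit 599416270) (nat_lit 76) (nat_lit 136771283) (nat_lit 143) (nat_lit 3) (nat_lit 142) (nat_lit 1) (nat_lit 143) (nat_lit 1) (nat_lit 400) (nat_lit 346) (nat_lit 274)) (XT.lf (nat_lit 0) (nat_lit 281515701) (nat_lit 0) (nat_lit 339654511) (nat_lit 152) (nat_lit 165270510) (nat_lit 140) (nat_lit 3) (nat_lit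 140) (nat_lit 1) (nat_lit 142) (nat_lit 1) (nat_lit 401) (nat_lit 346) (nat_lit 273)))) (XT.nd (nat_lit 78) (nat_lit 304) (nat_lit 0) (XT.lf (nat_lit 76) (nat_lit 33717904) (nat_lit 0) (nat_lit 645297688) (nat_lit 76) (nat_lit 87550136) (nat_lit 140) (nat_lit 3) (nat_lit 139) (nat_lit 1) (nat_lit 140) (nat_lit 1) (nat_lit 402) (nat_lit 346) (nat_lit 272)) (XT.nd (nat_lit 78) (nat_lit 152) (nat_lit 0) (XT.lf (nat_lit 0) (nat_lit 308037657) (nat_lit 0) (nat_lit 355508761) (nat_lit 152) (nat_lit 83448373) (nat_lit 137) (nat_lit 3) (nat_lit 137) (nat_lit 1) (nat_lit 139) (nat_lit 1) (nat_lit 403) (nat_lit 346) (nat_lit 271)) (XT.lf (nat_lit 76) (nat_lit 684764427) (nat_lit 0) (nat_lit 533999) (nat_lit 152) (nat_lit 42860026) (nat_lit 136) (nat_lit 1) (nat_lit 135) (nat_lit 1) (nat_lit 137) (nat_lit 1) (nat_lit 404) (nat_lit 346) (nat_lit 270))))) (XT.nd (nat_lit 234) (nat_lit 456) (nat_lit 0) (XT.nd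 (nat_lit 78) (nat_lit 304) (nat_lit 0) (XT.lf (nat_lit 0) (nat_lit 330775951) (nat_lit 0) (nat_lit 369536731) (nat_lit 152) (nat_lit 9240591) (nat_lit 134) (nat_lit 3) (nat_lit 134) (nat_lit 1) (nat_lit 136) (nat_lit 1) (nat_lit 405) (nat_lit 346) (nat_lit 269)) (XT.nd (nat_lit 78) (nat_lit 76) (nat_lit 0) (XT.lf (nat_lit 152) (nat_lit 660209605) (nat_lit 0) (nat_lit 28569578) (nat_lit 76) (nat_lit 2873928) (nat_lit 133) (nat_lit 1) (nat_lit 131) (nat_lit 1) (nat_lit 132) (nat_lit 1) (nat_lit 406) (nat_lit 346) (nat_lit 268)) (XT.lf (nat_lit 76) (nat_lit 291272205) (nat_lit 0) (nat_lit 59771000) (nat_lit 76) (nat_lit 322920893) (nat_lit 131) (nat_lit 3) (nat_lit 130) (nat_lit 1) (nat_lit 131) (nat_lit 1) (nat_lit 407) (nat_lit 346) (nat_lit 267)))) (XT.nd (nat_lit 156) (nat_lit 228) (nat_lit 0) (XT.nd (nat_lit 78) (nat_lit 76) (nat_lit 0) (XT.lf (nat_lit 0) (nat_lit 32926763) (nat_lit 0) (nat_lit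 60835659) (nat_lit 152) (nat_lit 563178151) (nat_lit 128) (nat_lit 3) (nat_lit 128) (nat_lit 1) (nat_lit 130) (nat_lit 1) (nat_lit 408) (nat_lit 346) (nat_lit 266)) (XT.lf (nat_lit 76) (nat_lit 246043318) (nat_lit 0) (nat_lit 122244324) (nat_lit 76) (nat_lit 271884888) (nat_lit 128) (nat_lit 3) (nat_lit 127) (nat_lit 1) (nat_lit 128) (nat_lit 1) (nat_lit 409) (nat_lit 346) (nat_lit 265))) (XT.nd (nat_lit 78) (nat_lit 76) (nat_lit 0) (XT.lf (nat_lit 0) (nat_lit 64790084) (nat_lit 0) (nat_lit 87578064) (nat_lit 152) (nat_lit 471617978) (nat_lit 125) (nat_lit 3) (nat_lit 125) (nat_lit 1) (nat_lit 127) (nat_lit 1) (nat_lit 410) (nat_lit 346) (nat_lit 264)) (XT.lf (nat_lit 76) (nat_lit 204320169) (nat_lit 0) (nat_lit 178351716) (nat_lit 76) (nat_lit 225420151) (nat_lit 125) (nat_lit 3) (nat_lit 124) (nat_lit 1) (nat_lit 125) (nat_lit 1) (nat_lit 411) (nat_lit 346) (nat_lit 263)))))) (XT.nd (nat_lit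 468) (nat_lit 228) (nat_lit 0) (XT.nd (nat_lit 234) (nat_lit 304) (nat_lit 0) (XT.nd (nat_lit 78) (nat_lit 228) (nat_lit 0) (XT.lf (nat_lit 0) (nat_lit 93144596) (nat_lit 0) (nat_lit 111751282) (nat_lit 152) (nat_lit 387804635) (nat_lit 122) (nat_lit 3) (nat_lit 122) (nat_lit 1) (nat_lit 124) (nat_lit 1) (nat_lit 412) (nat_lit 346) (nat_lit 262)) (XT.nd (nat_lit 78) (nat_lit 152) (nat_lit 0) (XT.lf (nat_lit 76) (nat_lit 165928904) (nat_lit 0) (nat_lit 228547692) (nat_lit 76) (nat_lit 183157317) (nat_lit 122) (nat_lit 3) (nat_lit 121) (nat_lit 1) (nat_lit 122) (nat_lit 1) (nat_lit 413) (nat_lit 346) (nat_lit 261)) (XT.lf (nat_lit 0) (nat_lit 118295849) (nat_lit 0) (nat_lit 133488453) (nat_lit 152) (nat_lit 311213041) (nat_lit 119) (nat_lit 3) (nat_lit 119) (nat_lit 1) (nat_lit 121) (nat_lit 1) (nat_lit 414) (nat_lit 346) (nat_lit 260)))) (XT.nd (nat_lit 78) (nat_lit 228) (nat_lit 0) (XT.lf (nat_lit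 76) (nat_lit 130692003) (nat_lit 0) (nat_lit 273263146) (nat_lit 76) (nat_lit 144759229) (nat_lit 119) (nat_lit 3) (nat_lit 118) (nat_lit 1) (nat_lit 119) (nat_lit 1) (nat_lit 415) (nat_lit 346) (nat_lit 259)) (XT.nd (nat_lit 78) (nat_lit 76) (nat_lit 0) (XT.lf (nat_lit 0) (nat_lit 140521869) (nat_lit 0) (nat_lit 152926830) (nat_lit 152) (nat_lit 241346289) (nat_lit 116) (nat_lit 3) (nat_lit 116) (nat_lit 1) (nat_lit 118) (nat_lit 1) (nat_lit 416) (nat_lit 346) (nat_lit 258)) (XT.lf (nat_lit 76) (nat_lit 98431374) (nat_lit 0) (nat_lit 312905420) (nat_lit 76) (nat_lit 109917449) (nat_lit 116) (nat_lit 3) (nat_lit 115) (nat_lit 1) (nat_lit 116) (nat_lit 1) (nat_lit 417) (nat_lit 346) (nat_lit 257))))) (XT.nd (nat_lit 46020) (nat_lit 0) (nat_lit 13756) (XT.nd (nat_lit 78) (nat_lit 76) (nat_lit 0) (XT.lf (nat_lit 0) (nat_lit 160076168) (nat_lit 0) (nat_lit 170204982) (nat_lit 152) (nat_lit 177735119)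 (nat_lit 113) (nat_lit 3) (nat_lit 113) (nat_lit 1) (nat_lit 115) (nat_lit 1) (nat_lit 418) (nat_lit 346) (nat_lit 256)) (XT.nd (nat_lit 45864) (nat_lit 0) (nat_lit 13680) (XT.lf (nat_lit 76) (nat_lit 68970716) (nat_lit 0) (nat_lit 347858646) (nat_lit 76) (nat_lit 78349248) (nat_lit 113) (nat_lit 3) (nat_lit 112) (nat_lit 1) (nat_lit 113) (nat_lit 1) (nat_lit 419) (nat_lit 346) (nat_lit 255)) (XT.lf (nat_lit 836) (nat_lit 920907409) (nat_lit 0) (nat_lit 1635068989) (nat_lit 836) (nat_lit 920907409) (nat_lit 303) (nat_lit 1) (nat_lit 292) (nat_lit 0) (nat_lit 303) (nat_lit 0) (nat_lit 326) (nat_lit 347) (nat_lit 347)))) (XT.nd (nat_lit 156) (nat_lit 0) (nat_lit 76) (XT.nd (nat_lit 78) (nat_lit 0) (nat_lit 0) (XT.lf (nat_lit 836) (nat_lit 343526721) (nat_lit 0) (nat_lit 3210135976) (nat_lit 760) (nat_lit 3139502260) (nat_lit 304) (nat_lit 1) (nat_lit 293) (nat_lit 1) (nat_lit 303) (nat_lit 1) (nat_lit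 327) (nat_lit 347) (nat_lit 346)) (XT.lf (nat_lit 836) (nat_lit 3155094646) (nat_lit 76) (nat_lit 2149829145) (nat_lit 0) (nat_lit 1140171311) (nat_lit 304) (nat_lit 1) (nat_lit 294) (nat_lit 1) (nat_lit 293) (nat_lit 1) (nat_lit 328) (nat_lit 347) (nat_lit 345))) (XT.nd (nat_lit 78) (nat_lit 0) (nat_lit 76) (XT.lf (nat_lit 836) (nat_lit 2726260243) (nat_lit 76) (nat_lit 900978493) (nat_lit 0) (nat_lit 2582200557) (nat_lit 305) (nat_lit 1) (nat_lit 295) (nat_lit 1) (nat_lit 294) (nat_lit 1) (nat_lit 329) (nat_lit 347) (nat_lit 344)) (XT.lf (nat_lit 836) (nat_lit 2017664359) (nat_lit 0) (nat_lit 3774954644) (nat_lit 760) (nat_lit 192975142) (nat_lit 306) (nat_lit 1) (nat_lit 295) (nat_lit 1) (nat_lit 305) (nat_lit 1) (nat_lit 330) (nat_lit 347) (nat_lit 343))))))) (XT.nd (nat_lit 1014) (nat_lit 2812) (nat_lit 0) (XT.nd (nat_lit 468) (nat_lit 1900) (nat_lit 0) (XT.nd (nat_lit 234) (nat_lit 1292)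 (nat_lit 0) (XT.nd (nat_lit 78) (nat_lit 684) (nat_lit 0) (XT.lf (nat_lit 836) (nat_lit 484118780) (nat_lit 0) (nat_lit 4162936219) (nat_lit 760) (nat_lit 1125384170) (nat_lit 307) (nat_lit 1) (nat_lit 296) (nat_lit 1) (nat_lit 306) (nat_lit 1) (nat_lit 331) (nat_lit 347) (nat_lit 342)) (XT.nd (nat_lit 78) (nat_lit 684) (nat_lit 0) (XT.lf (nat_lit 836) (nat_lit 930279387) (nat_lit 76) (nat_lit 3617930576) (nat_lit 0) (nat_lit 1021024645) (nat_lit 307) (nat_lit 1) (nat_lit 297) (nat_lit 1) (nat_lit 296) (nat_lit 1) (nat_lit 332) (nat_lit 347) (nat_lit 341)) (XT.lf (nat_lit 836) (nat_lit 191058173) (nat_lit 0) (nat_lit 2704642423) (nat_lit 760) (nat_lit 2480128763) (nat_lit 298) (nat_lit 1) (nat_lit 287) (nat_lit 1) (nat_lit 297) (nat_lit 1) (nat_lit 333) (nat_lit 347) (nat_lit 340)))) (XT.nd (nat_lit 78) (nat_lit 760) (nat_lit 0) (XT.lf (nat_lit 76) (nat_lit 1322926589) (nat_lit 0) (nat_lit 573285655)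 (nat_lit 532) (nat_lit 3295369415) (nat_lit 281) (nat_lit 1) (nat_lit 280) (nat_lit 1) (nat_lit 287) (nat_lit 1) (nat_lit 334) (nat_lit 347) (nat_lit 339)) (XT.nd (nat_lit 78) (nat_lit 380) (nat_lit 0) (XT.lf (nat_lit 456) (nat_lit 3645819167) (nat_lit 0) (nat_lit 1186792736) (nat_lit 380) (nat_lit 183485490) (nat_lit 281) (nat_lit 1) (nat_lit 275) (nat_lit 1) (nat_lit 280) (nat_lit 1) (nat_lit 335) (nat_lit 347) (nat_lit 338)) (XT.lf (nat_lit 456) (nat_lit 2630857829) (nat_lit 0) (nat_lit 553169206) (nat_lit 380) (nat_lit 1664131601) (nat_lit 276) (nat_lit 1) (nat_lit 270) (nat_lit 1) (nat_lit 275) (nat_lit 1) (nat_lit 336) (nat_lit 347) (nat_lit 337))))) (XT.nd (nat_lit 234) (nat_lit 1216) (nat_lit 0) (XT.nd (nat_lit 78) (nat_lit 380) (nat_lit 0) (XT.lf (nat_lit 380) (nat_lit 1600843435) (nat_lit 0) (nat_lit 10184744) (nat_lit 304) (nat_lit 3077334687) (nat_lit 271) (nat_lit 1) (nat_lit 266)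 (nat_lit 1) (nat_lit 270) (nat_lit 1) (nat_lit 337) (nat_lit 347) (nat_lit 336)) (XT.nd (nat_lit 78) (nat_lit 380) (nat_lit 0) (XT.lf (nat_lit 76) (nat_lit 118102663) (nat_lit 0) (nat_lit 3982994076) (nat_lit 380) (nat_lit 434821247) (nat_lit 267) (nat_lit 1) (nat_lit 266) (nat_lit 1) (nat_lit 271) (nat_lit 1) (nat_lit 338) (nat_lit 347) (nat_lit 335)) (XT.lf (nat_lit 76) (nat_lit 3049441393) (nat_lit 0) (nat_lit 505782483) (nat_lit 380) (nat_lit 834127173) (nat_lit 262) (nat_lit 1) (nat_lit 261) (nat_lit 1) (nat_lit 266) (nat_lit 1) (nat_lit 339) (nat_lit 347) (nat_lit 334)))) (XT.nd (nat_lit 156) (nat_lit 608) (nat_lit 0) (XT.nd (nat_lit 78) (nat_lit 304) (nat_lit 0) (XT.lf (nat_lit 76) (nat_lit 1525712804) (nat_lit 0) (nat_lit 1549301532) (nat_lit 380) (nat_lit 1174245851) (nat_lit 258) (nat_lit 1) (nat_lit 257) (nat_lit 1) (nat_lit 262) (nat_lit 1) (nat_lit 340) (nat_lit 347) (nat_lit 333))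 (XT.lf (nat_lit 76) (nat_lit 75305800) (nat_lit 0) (nat_lit 2590408105) (nat_lit 380) (nat_lit 1450088259) (nat_lit 254) (nat_lit 1) (nat_lit 253) (nat_lit 1) (nat_lit 258) (nat_lit 1) (nat_lit 341) (nat_lit 347) (nat_lit 332))) (XT.nd (nat_lit 78) (nat_lit 380) (nat_lit 0) (XT.lf (nat_lit 304) (nat_lit 340076752) (nat_lit 0) (nat_lit 2299776290) (nat_lit 228) (nat_lit 1347721760) (nat_lit 254) (nat_lit 1) (nat_lit 250) (nat_lit 1) (nat_lit 253) (nat_lit 1) (nat_lit 342) (nat_lit 347) (nat_lit 331)) (XT.lf (nat_lit 76) (nat_lit 1175056611) (nat_lit 0) (nat_lit 805391103) (nat_lit 380) (nat_lit 1884197031) (nat_lit 246) (nat_lit 1) (nat_lit 245) (nat_lit 1) (nat_lit 250) (nat_lit 1) (nat_lit 343) (nat_lit 347) (nat_lit 330)))))) (XT.nd (nat_lit 546) (nat_lit 1216) (nat_lit 0) (XT.nd (nat_lit 234) (nat_lit 836) (nat_lit 0) (XT.nd (nat_lit 78) (nat_lit 532) (nat_lit 0) (XT.lf (nat_lit 304) (nat_lit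 1819270272) (nat_lit 0) (nat_lit 1708969286) (nat_lit 228) (nat_lit 218746040) (nat_lit 246) (nat_lit 1) (nat_lit 242) (nat_lit 1) (nat_lit 245) (nat_lit 1) (nat_lit 344) (nat_lit 347) (nat_lit 329)) (XT.nd (nat_lit 78) (nat_lit 304) (nat_lit 0) (XT.lf (nat_lit 304) (nat_lit 583067333) (nat_lit 0) (nat_lit 1471352573) (nat_lit 228) (nat_lit 1579428218) (nat_lit 243) (nat_lit 1) (nat_lit 239) (nat_lit 1) (nat_lit 242) (nat_lit 1) (nat_lit 345) (nat_lit 347) (nat_lit 328)) (XT.lf (nat_lit 76) (nat_lit 664555872) (nat_lit 0) (nat_lit 608458652) (nat_lit 304) (nat_lit 2252394940) (nat_lit 236) (nat_lit 1) (nat_lit 235) (nat_lit 1) (nat_lit 239) (nat_lit 1) (nat_lit 346) (nat_lit 347) (nat_lit 327)))) (XT.nd (nat_lit 156) (nat_lit 456) (nat_lit 0) (XT.nd (nat_lit 78) (nat_lit 152) (nat_lit 0) (XT.lf (nat_lit 304) (nat_lit 1653660065) (nat_lit 0) (nat_lit 1100284127) (nat_lit 228) (nat_lit 666995855)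 (nat_lit 236) (nat_lit 1) (nat_lit 232) (nat_lit 1) (nat_lit 235) (nat_lit 1) (nat_lit 347) (nat_lit 347) (nat_lit 326)) (XT.lf (nat_lit 228) (nat_lit 409944771) (nat_lit 0) (nat_lit 959917646) (nat_lit 152) (nat_lit 1950822801) (nat_lit 233) (nat_lit 1) (nat_lit 230) (nat_lit 1) (nat_lit 232) (nat_lit 1) (nat_lit 348) (nat_lit 347) (nat_lit 325))) (XT.nd (nat_lit 78) (nat_lit 152) (nat_lit 0) (XT.lf (nat_lit 76) (nat_lit 69447263) (nat_lit 0) (nat_lit 777129953) (nat_lit 304) (nat_lit 2377739315) (nat_lit 227) (nat_lit 1) (nat_lit 226) (nat_lit 1) (nat_lit 230) (nat_lit 1) (nat_lit 349) (nat_lit 347) (nat_lit 324)) (XT.lf (nat_lit 228) (nat_lit 1191224287) (nat_lit 0) (nat_lit 744412984) (nat_lit 152) (nat_lit 1195369760) (nat_lit 227) (nat_lit 1) (nat_lit 224) (nat_lit 1) (nat_lit 226) (nat_lit 1) (nat_lit 350) (nat_lit 347) (nat_lit 323))))) (XT.nd (nat_lit 234) (nat_lit 684) (nat_lit 0) (XT.nd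 (nat_lit 78) (nat_lit 304) (nat_lit 0) (XT.lf (nat_lit 76) (nat_lit 646308516) (nat_lit 0) (nat_lit 29853395) (nat_lit 228) (nat_lit 2365607324) (nat_lit 222) (nat_lit 1) (nat_lit 221) (nat_lit 1) (nat_lit 224) (nat_lit 1) (nat_lit 351) (nat_lit 347) (nat_lit 322)) (XT.nd (nat_lit 78) (nat_lit 152) (nat_lit 0) (XT.lf (nat_lit 228) (nat_lit 1766882680) (nat_lit 0) (nat_lit 612264465) (nat_lit 152) (nat_lit 575980160) (nat_lit 222) (nat_lit 1) (nat_lit 219) (nat_lit 1) (nat_lit 221) (nat_lit 1) (nat_lit 352) (nat_lit 347) (nat_lit 321)) (XT.lf (nat_lit 228) (nat_lit 548864564) (nat_lit 0) (nat_lit 569167525) (nat_lit 152) (nat_lit 1753765984) (nat_lit 220) (nat_lit 1) (nat_lit 217) (nat_lit 1) (nat_lit 219) (nat_lit 1) (nat_lit 353) (nat_lit 347) (nat_lit 320)))) (XT.nd (nat_lit 156) (nat_lit 304) (nat_lit 0) (XT.nd (nat_lit 78) (nat_lit 152) (nat_lit 0) (XT.lf (nat_lit 228) (nat_lit 2178790607)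 (nat_lit 0) (nat_lit 543793374) (nat_lit 152) (nat_lit 68986498) (nat_lit 217) (nat_lit 1) (nat_lit 214) (nat_lit 1) (nat_lit 216) (nat_lit 1) (nat_lit 354) (nat_lit 347) (nat_lit 319)) (XT.lf (nat_lit 228) (nat_lit 975125697) (nat_lit 0) (nat_lit 519139334) (nat_lit 152) (nat_lit 1219307125) (nat_lit 215) (nat_lit 1) (nat_lit 212) (nat_lit 1) (nat_lit 214) (nat_lit 1) (nat_lit 355) (nat_lit 347) (nat_lit 318))) (XT.nd (nat_lit 78) (nat_lit 152) (nat_lit 0) (XT.lf (nat_lit 76) (nat_lit 334018199) (nat_lit 0) (nat_lit 183591453) (nat_lit 152) (nat_lit 2121199349) (nat_lit 211) (nat_lit 1) (nat_lit 210) (nat_lit 1) (nat_lit 212) (nat_lit 1) (nat_lit 356) (nat_lit 347) (nat_lit 317)) (XT.lf (nat_lit 228) (nat_lit 1279420995) (nat_lit 0) (nat_lit 512128743) (nat_lit 152) (nat_lit 774382687) (nat_lit 211) (nat_lit 1) (nat_lit 208) (nat_lit 1) (nat_lit 210) (nat_lit 1) (nat_lit 357) (nat_lit 347) (nat_lit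 316))))))))
noncomputable def ec37 : XT := (XT.nd (nat_lit 2106) (nat_lit 3192) (nat_lit 0) (XT.nd (nat_lit 1014) (nat_lit 1672) (nat_lit 0) (XT.nd (nat_lit 468) (nat_lit 836) (nat_lit 0) (XT.nd (nat_lit 234) (nat_lit 532) (nat_lit 0) (XT.nd (nat_lit 78) (nat_lit 304) (nat_lit 0) (XT.lf (nat_lit 152) (nat_lit 137775460) (nat_lit 0) (nat_lit 524707287) (nat_lit 76) (nat_lit 1833450174) (nat_lit 209) (nat_lit 1) (nat_lit 207) (nat_lit 1) (nat_lit 208) (nat_lit 1) (nat_lit 358) (nat_lit 347) (nat_lit 315)) (XT.nd (nat_lit 78) (nat_lit 76) (nat_lit 0) (XT.lf (nat_lit 228) (nat_lit 1487235233) (nat_lit 0) (nat_lit 536635535) (nat_lit 152) (nat_lit 403992752) (nat_lit 207) (nat_lit 1) (nat_lit 204) (nat_lit 1) (nat_lit 206) (nat_lit 1) (nat_lit 359) (nat_lit 347) (nat_lit 314)) (XT.lf (nat_lit 152) (nat_lit 374050628) (nat_lit 0) (nat_lit 556700878) (nat_lit 76) (nat_lit 1431336689) (nat_lit 205) (nat_lit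 1) (nat_lit 203) (nat_lit 1) (nat_lit 204) (nat_lit 1) (nat_lit 360) (nat_lit 347) (nat_lit 313)))) (XT.nd (nat_lit 78) (nat_lit 304) (nat_lit 0) (XT.lf (nat_lit 228) (nat_lit 1619173179) (nat_lit 0) (nat_lit 583550726) (nat_lit 152) (nat_lit 95765669) (nat_lit 203) (nat_lit 1) (nat_lit 200) (nat_lit 1) (nat_lit 202) (nat_lit 1) (nat_lit 361) (nat_lit 347) (nat_lit 312)) (XT.nd (nat_lit 78) (nat_lit 228) (nat_lit 0) (XT.lf (nat_lit 152) (nat_lit 538310170) (nat_lit 0) (nat_lit 608358644) (nat_lit 76) (nat_lit 1089927050) (nat_lit 201) (nat_lit 1) (nat_lit 199) (nat_lit 1) (nat_lit 200) (nat_lit 1) (nat_lit 362) (nat_lit 347) (nat_lit 311)) (XT.lf (nat_lit 76) (nat_lit 155377737) (nat_lit 0) (nat_lit 487689301) (nat_lit 228) (nat_lit 1533858650) (nat_lit 197) (nat_lit 1) (nat_lit 196) (nat_lit 1) (nat_lit 199) (nat_lit 1) (nat_lit 363) (nat_lit 347) (nat_lit 310))))) (XT.nd (nat_lit 234) (nat_lit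 456) (nat_lit 0) (XT.nd (nat_lit 78) (nat_lit 304) (nat_lit 0) (XT.lf (nat_lit 152) (nat_lit 646020772) (nat_lit 0) (nat_lit 673123024) (nat_lit 76) (nat_lit 799593590) (nat_lit 197) (nat_lit 1) (nat_lit 195) (nat_lit 1) (nat_lit 196) (nat_lit 1) (nat_lit 364) (nat_lit 347) (nat_lit 309)) (XT.nd (nat_lit 78) (nat_lit 76) (nat_lit 0) (XT.lf (nat_lit 76) (nat_lit 361350763) (nat_lit 0) (nat_lit 349992649) (nat_lit 228) (nat_lit 1351250551) (nat_lit 193) (nat_lit 1) (nat_lit 192) (nat_lit 1) (nat_lit 195) (nat_lit 1) (nat_lit 365) (nat_lit 347) (nat_lit 308)) (XT.lf (nat_lit 152) (nat_lit 709655268) (nat_lit 0) (nat_lit 745875100) (nat_lit 76) (nat_lit 552354615) (nat_lit 193) (nat_lit 1) (nat_lit 191) (nat_lit 1) (nat_lit 192) (nat_lit 1) (nat_lit 366) (nat_lit 347) (nat_lit 307)))) (XT.nd (nat_lit 156) (nat_lit 228) (nat_lit 0) (XT.nd (nat_lit 78) (nat_lit 76) (nat_lit 0) (XT.lf (nat_lit 76) (nat_lit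 531991882) (nat_lit 0) (nat_lit 253484613) (nat_lit 152) (nat_lit 1169506292) (nat_lit 190) (nat_lit 1) (nat_lit 189) (nat_lit 1) (nat_lit 191) (nat_lit 1) (nat_lit 367) (nat_lit 347) (nat_lit 306)) (XT.lf (nat_lit 152) (nat_lit 739252063) (nat_lit 0) (nat_lit 822654215) (nat_lit 76) (nat_lit 341580790) (nat_lit 190) (nat_lit 1) (nat_lit 188) (nat_lit 1) (nat_lit 189) (nat_lit 1) (nat_lit 368) (nat_lit 347) (nat_lit 305))) (XT.nd (nat_lit 78) (nat_lit 76) (nat_lit 0) (XT.lf (nat_lit 76) (nat_lit 672920268) (nat_lit 0) (nat_lit 189102826) (nat_lit 152) (nat_lit 991552208) (nat_lit 187) (nat_lit 1) (nat_lit 186) (nat_lit 1) (nat_lit 188) (nat_lit 1) (nat_lit 369) (nat_lit 347) (nat_lit 304)) (XT.lf (nat_lit 152) (nat_lit 742871283) (nat_lit 0) (nat_lit 900430098) (nat_lit 76) (nat_lit 161754865) (nat_lit 187) (nat_lit 1) (nat_lit 185) (nat_lit 1) (nat_lit 186) (nat_lit 1) (nat_lit 370) (nat_lit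 347) (nat_lit 303)))))) (XT.nd (nat_lit 546) (nat_lit 836) (nat_lit 0) (XT.nd (nat_lit 234) (nat_lit 456) (nat_lit 0) (XT.nd (nat_lit 78) (nat_lit 228) (nat_lit 0) (XT.lf (nat_lit 76) (nat_lit 788806078) (nat_lit 0) (nat_lit 149560303) (nat_lit 152) (nat_lit 819546949) (nat_lit 184) (nat_lit 1) (nat_lit 183) (nat_lit 1) (nat_lit 185) (nat_lit 1) (nat_lit 371) (nat_lit 347) (nat_lit 302)) (XT.nd (nat_lit 78) (nat_lit 152) (nat_lit 0) (XT.lf (nat_lit 152) (nat_lit 726966638) (nat_lit 0) (nat_lit 976917807) (nat_lit 76) (nat_lit 8274967) (nat_lit 184) (nat_lit 1) (nat_lit 182) (nat_lit 1) (nat_lit 183) (nat_lit 1) (nat_lit 372) (nat_lit 347) (nat_lit 301)) (XT.lf (nat_lit 76) (nat_lit 883538445) (nat_lit 0) (nat_lit 129012078) (nat_lit 152) (nat_lit 655037921) (nat_lit 181) (nat_lit 1) (nat_lit 180) (nat_lit 1) (nat_lit 182) (nat_lit 1) (nat_lit 373) (nat_lit 347) (nat_lit 300)))) (XT.nd (nat_lit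 156) (nat_lit 228) (nat_lit 0) (XT.nd (nat_lit 78) (nat_lit 152) (nat_lit 0) (XT.lf (nat_lit 0) (nat_lit 118779115) (nat_lit 0) (nat_lit 929636859) (nat_lit 152) (nat_lit 575897799) (nat_lit 179) (nat_lit 3) (nat_lit 179) (nat_lit 1) (nat_lit 181) (nat_lit 1) (nat_lit 374) (nat_lit 347) (nat_lit 299)) (XT.lf (nat_lit 76) (nat_lit 960363047) (nat_lit 0) (nat_lit 122783501) (nat_lit 152) (nat_lit 499088028) (nat_lit 178) (nat_lit 1) (nat_lit 177) (nat_lit 1) (nat_lit 179) (nat_lit 1) (nat_lit 375) (nat_lit 347) (nat_lit 298))) (XT.nd (nat_lit 78) (nat_lit 152) (nat_lit 0) (XT.lf (nat_lit 0) (nat_lit 226912054) (nat_lit 0) (nat_lit 888988074) (nat_lit 152) (nat_lit 425375916) (nat_lit 176) (nat_lit 3) (nat_lit 176) (nat_lit 1) (nat_lit 178) (nat_lit 1) (nat_lit 376) (nat_lit 347) (nat_lit 297)) (XT.lf (nat_lit 76) (nat_lit 1021994835) (nat_lit 0) (nat_lit 127148839) (nat_lit 152) (nat_lit 352378230)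 (nat_lit 175) (nat_lit 1) (nat_lit 174) (nat_lit 1) (nat_lit 176) (nat_lit 1) (nat_lit 377) (nat_lit 347) (nat_lit 296))))) (XT.nd (nat_lit 234) (nat_lit 532) (nat_lit 0) (XT.nd (nat_lit 78) (nat_lit 228) (nat_lit 0) (XT.lf (nat_lit 0) (nat_lit 319013095) (nat_lit 0) (nat_lit 859606880) (nat_lit 152) (nat_lit 284116653) (nat_lit 173) (nat_lit 3) (nat_lit 173) (nat_lit 1) (nat_lit 175) (nat_lit 1) (nat_lit 378) (nat_lit 347) (nat_lit 295)) (XT.nd (nat_lit 78) (nat_lit 76) (nat_lit 0) (XT.lf (nat_lit 76) (nat_lit 1070710433) (nat_lit 0) (nat_lit 139150926) (nat_lit 152) (nat_lit 215290401) (nat_lit 172) (nat_lit 1) (nat_lit 171) (nat_lit 1) (nat_lit 173) (nat_lit 1) (nat_lit 379) (nat_lit 347) (nat_lit 294)) (XT.lf (nat_lit 0) (nat_lit 397294871) (nat_lit 0) (nat_lit 838696812) (nat_lit 152) (nat_lit 152417175) (nat_lit 170) (nat_lit 3) (nat_lit 170) (nat_lit 1) (nat_lit 172) (nat_lit 1) (nat_lit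 380) (nat_lit 347) (nat_lit 293)))) (XT.nd (nat_lit 156) (nat_lit 304) (nat_lit 0) (XT.nd (nat_lit 78) (nat_lit 76) (nat_lit 0) (XT.lf (nat_lit 76) (nat_lit 1108423930) (nat_lit 0) (nat_lit 156454308) (nat_lit 152) (nat_lit 87974168) (nat_lit 169) (nat_lit 1) (nat_lit 168) (nat_lit 1) (nat_lit 170) (nat_lit 1) (nat_lit 381) (nat_lit 347) (nat_lit 292)) (XT.lf (nat_lit 0) (nat_lit 463628742) (nat_lit 0) (nat_lit 824039237) (nat_lit 152) (nat_lit 30363538) (nat_lit 167) (nat_lit 3) (nat_lit 167) (nat_lit 1) (nat_lit 169) (nat_lit 1) (nat_lit 382) (nat_lit 347) (nat_lit 291))) (XT.nd (nat_lit 78) (nat_lit 76) (nat_lit 0) (XT.lf (nat_lit 152) (nat_lit 1106648511) (nat_lit 0) (nat_lit 30577975) (nat_lit 76) (nat_lit 147125144) (nat_lit 166) (nat_lit 1) (nat_lit 164) (nat_lit 1) (nat_lit 165) (nat_lit 1) (nat_lit 383) (nat_lit 347) (nat_lit 290)) (XT.lf (nat_lit 76) (nat_lit 436092199) (nat_lit 0)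 (nat_lit 84835000) (nat_lit 76) (nat_lit 730372112) (nat_lit 164) (nat_lit 3) (nat_lit 163) (nat_lit 1) (nat_lit 164) (nat_lit 1) (nat_lit 384) (nat_lit 347) (nat_lit 289))))))) (XT.nd (nat_lit 1014) (nat_lit 1672) (nat_lit 0) (XT.nd (nat_lit 468) (nat_lit 836) (nat_lit 0) (XT.nd (nat_lit 234) (nat_lit 304) (nat_lit 0) (XT.nd (nat_lit 78) (nat_lit 228) (nat_lit 0) (XT.lf (nat_lit 152) (nat_lit 1017126138) (nat_lit 0) (nat_lit 142143505) (nat_lit 76) (nat_lit 60112546) (nat_lit 163) (nat_lit 1) (nat_lit 161) (nat_lit 1) (nat_lit 162) (nat_lit 1) (nat_lit 385) (nat_lit 347) (nat_lit 288)) (XT.nd (nat_lit 78) (nat_lit 152) (nat_lit 0) (XT.lf (nat_lit 76) (nat_lit 378201967) (nat_lit 0) (nat_lit 191354507) (nat_lit 76) (nat_lit 618485389) (nat_lit 161) (nat_lit 3) (nat_lit 160) (nat_lit 1) (nat_lit 161) (nat_lit 1) (nat_lit 386) (nat_lit 347) (nat_lit 287)) (XT.lf (nat_lit 0) (nat_lit 15963276) (nat_lit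 0) (nat_lit 227853419) (nat_lit 152) (nat_lit 913975319) (nat_lit 158) (nat_lit 3) (nat_lit 158) (nat_lit 1) (nat_lit 160) (nat_lit 1) (nat_lit 387) (nat_lit 347) (nat_lit 286)))) (XT.nd (nat_lit 78) (nat_lit 228) (nat_lit 0) (XT.lf (nat_lit 76) (nat_lit 321699242) (nat_lit 0) (nat_lit 288487766) (nat_lit 76) (nat_lit 517893819) (nat_lit 158) (nat_lit 3) (nat_lit 157) (nat_lit 1) (nat_lit 158) (nat_lit 1) (nat_lit 388) (nat_lit 347) (nat_lit 285)) (XT.nd (nat_lit 78) (nat_lit 76) (nat_lit 0) (XT.lf (nat_lit 0) (nat_lit 81185723) (nat_lit 0) (nat_lit 254196814) (nat_lit 152) (nat_lit 763977394) (nat_lit 155) (nat_lit 3) (nat_lit 155) (nat_lit 1) (nat_lit 157) (nat_lit 1) (nat_lit 389) (nat_lit 347) (nat_lit 284)) (XT.lf (nat_lit 76) (nat_lit 267217362) (nat_lit 0) (nat_lit 376598258) (nat_lit 76) (nat_lit 427412816) (nat_lit 155) (nat_lit 3) (nat_lit 154) (nat_lit 1) (nat_lit 155) (nat_lit 1)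 (nat_lit 390) (nat_lit 347) (nat_lit 283))))) (XT.nd (nat_lit 234) (nat_lit 456) (nat_lit 0) (XT.nd (nat_lit 78) (nat_lit 228) (nat_lit 0) (XT.lf (nat_lit 0) (nat_lit 138472721) (nat_lit 0) (nat_lit 279738554) (nat_lit 152) (nat_lit 625740533) (nat_lit 152) (nat_lit 3) (nat_lit 152) (nat_lit 1) (nat_lit 154) (nat_lit 1) (nat_lit 391) (nat_lit 347) (nat_lit 282)) (XT.nd (nat_lit 78) (nat_lit 152) (nat_lit 0) (XT.lf (nat_lit 76) (nat_lit 215206617) (nat_lit 0) (nat_lit 456095411) (nat_lit 76) (nat_lit 346008314) (nat_lit 152) (nat_lit 3) (nat_lit 151) (nat_lit 1) (nat_lit 152) (nat_lit 1) (nat_lit 392) (nat_lit 347) (nat_lit 281)) (XT.lf (nat_lit 0) (nat_lit 188689640) (nat_lit 0) (nat_lit 304035051) (nat_lit 152) (nat_lit 498674583) (nat_lit 149) (nat_lit 3) (nat_lit 149) (nat_lit 1) (nat_lit 151) (nat_lit 1) (nat_lit 393) (nat_lit 347) (nat_lit 280)))) (XT.nd (nat_lit 156) (nat_lit 228) (nat_lit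 0) (XT.nd (nat_lit 78) (nat_lit 152) (nat_lit 0) (XT.lf (nat_lit 76) (nat_lit 165972370) (nat_lit 0) (nat_lit 527418181) (nat_lit 76) (nat_lit 272773677) (nat_lit 149) (nat_lit 3) (nat_lit 148) (nat_lit 1) (nat_lit 149) (nat_lit 1) (nat_lit 394) (nat_lit 347) (nat_lit 279)) (XT.lf (nat_lit 0) (nat_lit 232593033) (nat_lit 0) (nat_lit 326774080) (nat_lit 152) (nat_lit 382178241) (nat_lit 146) (nat_lit 3) (nat_lit 146) (nat_lit 1) (nat_lit 148) (nat_lit 1) (nat_lit 395) (nat_lit 347) (nat_lit 278))) (XT.nd (nat_lit 78) (nat_lit 152) (nat_lit 0) (XT.lf (nat_lit 76) (nat_lit 119705883) (nat_lit 0) (nat_lit 591022164) (nat_lit 76) (nat_lit 206910556) (nat_lit 146) (nat_lit 3) (nat_lit 145) (nat_lit 1) (nat_lit 146) (nat_lit 1) (nat_lit 396) (nat_lit 347) (nat_lit 277)) (XT.lf (nat_lit 0) (nat_lit 270847031) (nat_lit 0) (nat_lit 347747096) (nat_lit 152) (nat_lit 275649241) (nat_lit 143) (nat_lit 3)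 (nat_lit 143) (nat_lit 1) (nat_lit 145) (nat_lit 1) (nat_lit 397) (nat_lit 347) (nat_lit 276)))))) (XT.nd (nat_lit 546) (nat_lit 760) (nat_lit 0) (XT.nd (nat_lit 234) (nat_lit 608) (nat_lit 0) (XT.nd (nat_lit 78) (nat_lit 228) (nat_lit 0) (XT.lf (nat_lit 76) (nat_lit 76509223) (nat_lit 0) (nat_lit 647369572) (nat_lit 76) (nat_lit 147712986) (nat_lit 143) (nat_lit 3) (nat_lit 142) (nat_lit 1) (nat_lit 143) (nat_lit 1) (nat_lit 398) (nat_lit 347) (nat_lit 275)) (XT.nd (nat_lit 78) (nat_lit 76) (nat_lit 0) (XT.lf (nat_lit 0) (nat_lit 304036958) (nat_lit 0) (nat_lit 366826872) (nat_lit 152) (nat_lit 178492151) (nat_lit 140) (nat_lit 3) (nat_lit 140) (nat_lit 1) (nat_lit 142) (nat_lit 1) (nat_lit 399) (nat_lit 347) (nat_lit 274)) (XT.lf (nat_lit 76) (nat_lit 36415337) (nat_lit 0) (nat_lit 696921503) (nat_lit 76) (nat_lit 94554147) (nat_lit 140) (nat_lit 3) (nat_lit 139) (nat_lit 1) (nat_lit 140) (nat_lit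 1) (nat_lit 400) (nat_lit 347) (nat_lit 273)))) (XT.nd (nat_lit 156) (nat_lit 304) (nat_lit 0) (XT.nd (nat_lit 78) (nat_lit 152) (nat_lit 0) (XT.lf (nat_lit 0) (nat_lit 332680670) (nat_lit 0) (nat_lit 383949461) (nat_lit 152) (nat_lit 90124243) (nat_lit 137) (nat_lit 3) (nat_lit 137) (nat_lit 1) (nat_lit 139) (nat_lit 1) (nat_lit 401) (nat_lit 347) (nat_lit 272)) (XT.lf (nat_lit 76) (nat_lit 739545582) (nat_lit 0) (nat_lit 576719) (nat_lit 152) (nat_lit 46288829) (nat_lit 136) (nat_lit 1) (nat_lit 135) (nat_lit 1) (nat_lit 137) (nat_lit 1) (nat_lit 402) (nat_lit 347) (nat_lit 271))) (XT.nd (nat_lit 78) (nat_lit 228) (nat_lit 0) (XT.lf (nat_lit 0) (nat_lit 357238027) (nat_lit 0) (nat_lit 399099670) (nat_lit 152) (nat_lit 9979838) (nat_lit 134) (nat_lit 3) (nat_lit 134) (nat_lit 1) (nat_lit 136) (nat_lit 1) (nat_lit 403) (nat_lit 347) (nat_lit 270)) (XT.lf (nat_lit 152) (nat_lit 713026373) (nat_lit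 0) (nat_lit 30855145) (nat_lit 76) (nat_lit 3103843) (nat_lit 133) (nat_lit 1) (nat_lit 131) (nat_lit 1) (nat_lit 132) (nat_lit 1) (nat_lit 404) (nat_lit 347) (nat_lit 269))))) (XT.nd (nat_lit 234) (nat_lit 456) (nat_lit 0) (XT.nd (nat_lit 78) (nat_lit 228) (nat_lit 0) (XT.lf (nat_lit 76) (nat_lit 314573981) (nat_lit 0) (nat_lit 64552680) (nat_lit 76) (nat_lit 348754564) (nat_lit 131) (nat_lit 3) (nat_lit 130) (nat_lit 1) (nat_lit 131) (nat_lit 1) (nat_lit 405) (nat_lit 347) (nat_lit 268)) (XT.nd (nat_lit 78) (nat_lit 76) (nat_lit 0) (XT.lf (nat_lit 0) (nat_lit 35560905) (nat_lit 0) (nat_lit 65702512) (nat_lit 152) (nat_lit 608232403) (nat_lit 128) (nat_lit 3) (nat_lit 128) (nat_lit 1) (nat_lit 130) (nat_lit 1) (nat_lit 406) (nat_lit 347) (nat_lit 267)) (XT.lf (nat_lit 76) (nat_lit 265726783) (nat_lit 0) (nat_lit 132023870) (nat_lit 76) (nat_lit 293635679) (nat_lit 128) (nat_lit 3) (nat_lit 127)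 (nat_lit 1) (nat_lit 128) (nat_lit 1) (nat_lit 407) (nat_lit 347) (nat_lit 266)))) (XT.nd (nat_lit 156) (nat_lit 228) (nat_lit 0) (XT.nd (nat_lit 78) (nat_lit 76) (nat_lit 0) (XT.lf (nat_lit 0) (nat_lit 69973290) (nat_lit 0) (nat_lit 94584309) (nat_lit 152) (nat_lit 509347416) (nat_lit 125) (nat_lit 3) (nat_lit 125) (nat_lit 1) (nat_lit 127) (nat_lit 1) (nat_lit 408) (nat_lit 347) (nat_lit 265)) (XT.lf (nat_lit 76) (nat_lit 220665783) (nat_lit 0) (nat_lit 192619853) (nat_lit 76) (nat_lit 243453763) (nat_lit 125) (nat_lit 3) (nat_lit 124) (nat_lit 1) (nat_lit 125) (nat_lit 1) (nat_lit 409) (nat_lit 347) (nat_lit 264))) (XT.nd (nat_lit 78) (nat_lit 76) (nat_lit 0) (XT.lf (nat_lit 0) (nat_lit 100596164) (nat_lit 0) (nat_lit 120691385) (nat_lit 152) (nat_lit 418829006) (nat_lit 122) (nat_lit 3) (nat_lit 122) (nat_lit 1) (nat_lit 124) (nat_lit 1) (nat_lit 410) (nat_lit 347) (nat_lit 263)) (XT.lf (nat_lit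 76) (nat_lit 179203216) (nat_lit 0) (nat_lit 246831508) (nat_lit 76) (nat_lit 197809902) (nat_lit 122) (nat_lit 3) (nat_lit 121) (nat_lit 1) (nat_lit 122) (nat_lit 1) (nat_lit 411) (nat_lit 347) (nat_lit 262))))))))
noncomputable def ec38 : XT := (XT.nd (nat_lit 47658) (nat_lit 0) (nat_lit 5776) (XT.nd (nat_lit 46644) (nat_lit 0) (nat_lit 10336) (XT.nd (nat_lit 468) (nat_lit 228) (nat_lit 0) (XT.nd (nat_lit 234) (nat_lit 304) (nat_lit 0) (XT.nd (nat_lit 78) (nat_lit 228) (nat_lit 0) (XT.lf (nat_lit 0) (nat_lit 127759517) (nat_lit 0) (nat_lit 144167530) (nat_lit 152) (nat_lit 336110085) (nat_lit 119) (nat_lit 3) (nat_lit 119) (nat_lit 1) (nat_lit 121) (nat_lit 1) (nat_lit 412) (nat_lit 347) (nat_lit 261)) (XT.nd (nat_lit 78) (nat_lit 152) (nat_lit 0) (XT.lf (nat_lit 76) (nat_lit 141147363) (nat_lit 0) (nat_lit 295124198) (nat_lit 76) (nat_lit 156339967) (nat_lit 119) (nat_lit 3) (nat_lit 118)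 (nat_lit 1) (nat_lit 119) (nat_lit 1) (nat_lit 413) (nat_lit 347) (nat_lit 260)) (XT.lf (nat_lit 0) (nat_lit 151763618) (nat_lit 0) (nat_lit 165160977) (nat_lit 152) (nat_lit 260653993) (nat_lit 116) (nat_lit 3) (nat_lit 116) (nat_lit 1) (nat_lit 118) (nat_lit 1) (nat_lit 414) (nat_lit 347) (nat_lit 259)))) (XT.nd (nat_lit 78) (nat_lit 228) (nat_lit 0) (XT.lf (nat_lit 76) (nat_lit 106305884) (nat_lit 0) (nat_lit 337937853) (nat_lit 76) (nat_lit 118710845) (nat_lit 116) (nat_lit 3) (nat_lit 115) (nat_lit 1) (nat_lit 116) (nat_lit 1) (nat_lit 415) (nat_lit 347) (nat_lit 258)) (XT.nd (nat_lit 78) (nat_lit 76) (nat_lit 0) (XT.lf (nat_lit 0) (nat_lit 172882262) (nat_lit 0) (nat_lit 183821381) (nat_lit 152) (nat_lit 191953928) (nat_lit 113) (nat_lit 3) (nat_lit 113) (nat_lit 1) (nat_lit 115) (nat_lit 1) (nat_lit 416) (nat_lit 347) (nat_lit 257)) (XT.lf (nat_lit 76) (nat_lit 74488374) (nat_lit 0) (nat_lit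 375687337) (nat_lit 76) (nat_lit 84617188) (nat_lit 113) (nat_lit 3) (nat_lit 112) (nat_lit 1) (nat_lit 113) (nat_lit 1) (nat_lit 417) (nat_lit 347) (nat_lit 256))))) (XT.nd (nat_lit 45864) (nat_lit 0) (nat_lit 13984) (XT.nd (nat_lit 78) (nat_lit 76) (nat_lit 0) (XT.lf (nat_lit 0) (nat_lit 191365567) (nat_lit 0) (nat_lit 200297502) (nat_lit 152) (nat_lit 129532162) (nat_lit 110) (nat_lit 3) (nat_lit 110) (nat_lit 1) (nat_lit 112) (nat_lit 1) (nat_lit 418) (nat_lit 347) (nat_lit 255)) (XT.nd (nat_lit 45708) (nat_lit 0) (nat_lit 13908) (XT.lf (nat_lit 76) (nat_lit 45508298) (nat_lit 0) (nat_lit 408763036) (nat_lit 76) (nat_lit 53778608) (nat_lit 110) (nat_lit 3) (nat_lit 109) (nat_lit 1) (nat_lit 110) (nat_lit 1) (nat_lit 419) (nat_lit 347) (nat_lit 254)) (XT.lf (nat_lit 836) (nat_lit 994580002) (nat_lit 0) (nat_lit 1765874508) (nat_lit 836) (nat_lit 994580002) (nat_lit 303) (nat_lit 1) (nat_lit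 292) (nat_lit 0) (nat_lit 303) (nat_lit 0) (nat_lit 324) (nat_lit 348) (nat_lit 348)))) (XT.nd (nat_lit 156) (nat_lit 0) (nat_lit 76) (XT.nd (nat_lit 78) (nat_lit 0) (nat_lit 0) (XT.lf (nat_lit 836) (nat_lit 371008858) (nat_lit 0) (nat_lit 3466946854) (nat_lit 760) (nat_lit 3390662440) (nat_lit 304) (nat_lit 1) (nat_lit 293) (nat_lit 1) (nat_lit 303) (nat_lit 1) (nat_lit 325) (nat_lit 348) (nat_lit 347)) (XT.lf (nat_lit 836) (nat_lit 3407502218) (nat_lit 76) (nat_lit 2321815477) (nat_lit 0) (nat_lit 1231385016) (nat_lit 304) (nat_lit 1) (nat_lit 294) (nat_lit 1) (nat_lit 293) (nat_lit 1) (nat_lit 326) (nat_lit 348) (nat_lit 346))) (XT.nd (nat_lit 78) (nat_lit 0) (nat_lit 76) (XT.lf (nat_lit 836) (nat_lit 2944361063) (nat_lit 76) (nat_lit 973056773) (nat_lit 0) (nat_lit 2788776602) (nat_lit 305) (nat_lit 1) (nat_lit 295) (nat_lit 1) (nat_lit 294) (nat_lit 1) (nat_lit 327) (nat_lit 348) (nat_lit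 345)) (XT.lf (nat_lit 836) (nat_lit 2179077507) (nat_lit 0) (nat_lit 4076951016) (nat_lit 760) (nat_lit 208413153) (nat_lit 306) (nat_lit 1) (nat_lit 295) (nat_lit 1) (nat_lit 305) (nat_lit 1) (nat_lit 328) (nat_lit 348) (nat_lit 344)))))) (XT.nd (nat_lit 468) (nat_lit 1900) (nat_lit 0) (XT.nd (nat_lit 234) (nat_lit 1292) (nat_lit 0) (XT.nd (nat_lit 78) (nat_lit 684) (nat_lit 0) (XT.lf (nat_lit 836) (nat_lit 522848282) (nat_lit 0) (nat_lit 4495971116) (nat_lit 760) (nat_lit 1215414903) (nat_lit 307) (nat_lit 1) (nat_lit 296) (nat_lit 1) (nat_lit 306) (nat_lit 1) (nat_lit 329) (nat_lit 348) (nat_lit 343)) (XT.nd (nat_lit 78) (nat_lit 684) (nat_lit 0) (XT.lf (nat_lit 836) (nat_lit 1004701738) (nat_lit 76) (nat_lit 3907365022) (nat_lit 0) (nat_lit 1102706617) (nat_lit 307) (nat_lit 1) (nat_lit 297) (nat_lit 1) (nat_lit 296) (nat_lit 1) (nat_lit 330) (nat_lit 348) (nat_lit 342)) (XT.lf (nat_lit 836)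 (nat_lit 206342826) (nat_lit 0) (nat_lit 2921013816) (nat_lit 760) (nat_lit 2678539064) (nat_lit 298) (nat_lit 1) (nat_lit 287) (nat_lit 1) (nat_lit 297) (nat_lit 1) (nat_lit 331) (nat_lit 348) (nat_lit 341)))) (XT.nd (nat_lit 78) (nat_lit 760) (nat_lit 0) (XT.lf (nat_lit 76) (nat_lit 1428760716) (nat_lit 0) (nat_lit 619148507) (nat_lit 532) (nat_lit 3558998968) (nat_lit 281) (nat_lit 1) (nat_lit 280) (nat_lit 1) (nat_lit 287) (nat_lit 1) (nat_lit 332) (nat_lit 348) (nat_lit 340)) (XT.nd (nat_lit 78) (nat_lit 380) (nat_lit 0) (XT.lf (nat_lit 456) (nat_lit 3937484701) (nat_lit 0) (nat_lit 1281736155) (nat_lit 380) (nat_lit 198164329) (nat_lit 281) (nat_lit 1) (nat_lit 275) (nat_lit 1) (nat_lit 280) (nat_lit 1) (nat_lit 333) (nat_lit 348) (nat_lit 339)) (XT.lf (nat_lit 456) (nat_lit 2841326455) (nat_lit 0) (nat_lit 597422743) (nat_lit 380) (nat_lit 1797262130) (nat_lit 276) (nat_lit 1) (nat_lit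 270) (nat_lit 1) (nat_lit 275) (nat_lit 1) (nat_lit 334) (nat_lit 348) (nat_lit 338))))) (XT.nd (nat_lit 234) (nat_lit 1216) (nat_lit 0) (XT.nd (nat_lit 78) (nat_lit 380) (nat_lit 0) (XT.lf (nat_lit 380) (nat_lit 1728910910) (nat_lit 0) (nat_lit 10999523) (nat_lit 304) (nat_lit 3323521462) (nat_lit 271) (nat_lit 1) (nat_lit 266) (nat_lit 1) (nat_lit 270) (nat_lit 1) (nat_lit 335) (nat_lit 348) (nat_lit 337)) (XT.nd (nat_lit 78) (nat_lit 380) (nat_lit 0) (XT.lf (nat_lit 76) (nat_lit 127550876) (nat_lit 0) (nat_lit 4301633602) (nat_lit 380) (nat_lit 469606947) (nat_lit 267) (nat_lit 1) (nat_lit 266) (nat_lit 1) (nat_lit 271) (nat_lit 1) (nat_lit 336) (nat_lit 348) (nat_lit 336)) (XT.lf (nat_lit 76) (nat_lit 3293396705) (nat_lit 0) (nat_lit 546245082) (nat_lit 380) (nat_lit 900857346) (nat_lit 262) (nat_lit 1) (nat_lit 261) (nat_lit 1) (nat_lit 266) (nat_lit 1) (nat_lit 337) (nat_lit 348) (nat_lit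 335)))) (XT.nd (nat_lit 156) (nat_lit 608) (nat_lit 0) (XT.nd (nat_lit 78) (nat_lit 304) (nat_lit 0) (XT.lf (nat_lit 76) (nat_lit 1647769828) (nat_lit 0) (nat_lit 1673245655) (nat_lit 380) (nat_lit 1268185519) (nat_lit 258) (nat_lit 1) (nat_lit 257) (nat_lit 1) (nat_lit 262) (nat_lit 1) (nat_lit 338) (nat_lit 348) (nat_lit 334)) (XT.lf (nat_lit 76) (nat_lit 81330264) (nat_lit 0) (nat_lit 2797640754) (nat_lit 380) (nat_lit 1566095320) (nat_lit 254) (nat_lit 1) (nat_lit 253) (nat_lit 1) (nat_lit 258) (nat_lit 1) (nat_lit 339) (nat_lit 348) (nat_lit 333))) (XT.nd (nat_lit 78) (nat_lit 380) (nat_lit 0) (XT.lf (nat_lit 304) (nat_lit 367282892) (nat_lit 0) (nat_lit 2483758393) (nat_lit 228) (nat_lit 1455539501) (nat_lit 254) (nat_lit 1) (nat_lit 250) (nat_lit 1) (nat_lit 253) (nat_lit 1) (nat_lit 340) (nat_lit 348) (nat_lit 332)) (XT.lf (nat_lit 76) (nat_lit 1269061140) (nat_lit 0) (nat_lit 869822391)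 (nat_lit 380) (nat_lit 2034932794) (nat_lit 246) (nat_lit 1) (nat_lit 245) (nat_lit 1) (nat_lit 250) (nat_lit 1) (nat_lit 341) (nat_lit 348) (nat_lit 331))))))) (XT.nd (nat_lit 1014) (nat_lit 1900) (nat_lit 0) (XT.nd (nat_lit 468) (nat_lit 1216) (nat_lit 0) (XT.nd (nat_lit 234) (nat_lit 684) (nat_lit 0) (XT.nd (nat_lit 78) (nat_lit 532) (nat_lit 0) (XT.lf (nat_lit 304) (nat_lit 1964811894) (nat_lit 0) (nat_lit 1845686828) (nat_lit 228) (nat_lit 236245723) (nat_lit 246) (nat_lit 1) (nat_lit 242) (nat_lit 1) (nat_lit 245) (nat_lit 1) (nat_lit 342) (nat_lit 348) (nat_lit 330)) (XT.nd (nat_lit 78) (nat_lit 304) (nat_lit 0) (XT.lf (nat_lit 304) (nat_lit 629712720) (nat_lit 0) (nat_lit 1589060779) (nat_lit 228) (nat_lit 1705782476) (nat_lit 243) (nat_lit 1) (nat_lit 239) (nat_lit 1) (nat_lit 242) (nat_lit 1) (nat_lit 343) (nat_lit 348) (nat_lit 329)) (XT.lf (nat_lit 76) (nat_lit 717720342) (nat_lit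 0) (nat_lit 657135344) (nat_lit 304) (nat_lit 2432586535) (nat_lit 236) (nat_lit 1) (nat_lit 235) (nat_lit 1) (nat_lit 239) (nat_lit 1) (nat_lit 344) (nat_lit 348) (nat_lit 328)))) (XT.nd (nat_lit 78) (nat_lit 456) (nat_lit 0) (XT.lf (nat_lit 304) (nat_lit 1785952870) (nat_lit 0) (nat_lit 1188306857) (nat_lit 228) (nat_lit 720355524) (nat_lit 236) (nat_lit 1) (nat_lit 232) (nat_lit 1) (nat_lit 235) (nat_lit 1) (nat_lit 345) (nat_lit 348) (nat_lit 327)) (XT.nd (nat_lit 78) (nat_lit 304) (nat_lit 0) (XT.lf (nat_lit 228) (nat_lit 442740353) (nat_lit 0) (nat_lit 1036711058) (nat_lit 152) (nat_lit 2106888626) (nat_lit 233) (nat_lit 1) (nat_lit 230) (nat_lit 1) (nat_lit 232) (nat_lit 1) (nat_lit 346) (nat_lit 348) (nat_lit 326)) (XT.lf (nat_lit 76) (nat_lit 75003044) (nat_lit 0) (nat_lit 839300350) (nat_lit 304) (nat_lit 2567958461) (nat_lit 227) (nat_lit 1) (nat_lit 226) (nat_lit 1) (nat_lit 230)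 (nat_lit 1) (nat_lit 347) (nat_lit 348) (nat_lit 325))))) (XT.nd (nat_lit 234) (nat_lit 684) (nat_lit 0) (XT.nd (nat_lit 78) (nat_lit 380) (nat_lit 0) (XT.lf (nat_lit 228) (nat_lit 1286522230) (nat_lit 0) (nat_lit 803966023) (nat_lit 152) (nat_lit 1290999340) (nat_lit 227) (nat_lit 1) (nat_lit 224) (nat_lit 1) (nat_lit 226) (nat_lit 1) (nat_lit 348) (nat_lit 348) (nat_lit 324)) (XT.nd (nat_lit 78) (nat_lit 152) (nat_lit 0) (XT.lf (nat_lit 76) (nat_lit 698013198) (nat_lit 0) (nat_lit 32241667) (nat_lit 228) (nat_lit 2554855910) (nat_lit 222) (nat_lit 1) (nat_lit 221) (nat_lit 1) (nat_lit 224) (nat_lit 1) (nat_lit 349) (nat_lit 348) (nat_lit 323)) (XT.lf (nat_lit 228) (nat_lit 1908233294) (nat_lit 0) (nat_lit 661245622) (nat_lit 152) (nat_lit 622058573) (nat_lit 222) (nat_lit 1) (nat_lit 219) (nat_lit 1) (nat_lit 221) (nat_lit 1) (nat_lit 350) (nat_lit 348) (nat_lit 322)))) (XT.nd (nat_lit 156)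 (nat_lit 304) (nat_lit 0) (XT.nd (nat_lit 78) (nat_lit 228) (nat_lit 0) (XT.lf (nat_lit 228) (nat_lit 592773729) (nat_lit 0) (nat_lit 614700927) (nat_lit 152) (nat_lit 1894067263) (nat_lit 220) (nat_lit 1) (nat_lit 217) (nat_lit 1) (nat_lit 219) (nat_lit 1) (nat_lit 351) (nat_lit 348) (nat_lit 321)) (XT.lf (nat_lit 228) (nat_lit 2353093855) (nat_lit 0) (nat_lit 587296844) (nat_lit 152) (nat_lit 74505418) (nat_lit 217) (nat_lit 1) (nat_lit 214) (nat_lit 1) (nat_lit 216) (nat_lit 1) (nat_lit 352) (nat_lit 348) (nat_lit 320))) (XT.nd (nat_lit 78) (nat_lit 152) (nat_lit 0) (XT.lf (nat_lit 228) (nat_lit 1053135753) (nat_lit 0) (nat_lit 560670481) (nat_lit 152) (nat_lit 1316851695) (nat_lit 215) (nat_lit 1) (nat_lit 212) (nat_lit 1) (nat_lit 214) (nat_lit 1) (nat_lit 353) (nat_lit 348) (nat_lit 319)) (XT.lf (nat_lit 76) (nat_lit 360739655) (nat_lit 0) (nat_lit 198278770) (nat_lit 152) (nat_lit 2290895297)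 (nat_lit 211) (nat_lit 1) (nat_lit 210) (nat_lit 1) (nat_lit 212) (nat_lit 1) (nat_lit 354) (nat_lit 348) (nat_lit 318)))))) (XT.nd (nat_lit 546) (nat_lit 836) (nat_lit 0) (XT.nd (nat_lit 234) (nat_lit 608) (nat_lit 0) (XT.nd (nat_lit 78) (nat_lit 304) (nat_lit 0) (XT.lf (nat_lit 228) (nat_lit 1381774674) (nat_lit 0) (nat_lit 553099043) (nat_lit 152) (nat_lit 836333302) (nat_lit 211) (nat_lit 1) (nat_lit 208) (nat_lit 1) (nat_lit 210) (nat_lit 1) (nat_lit 355) (nat_lit 348) (nat_lit 317)) (XT.nd (nat_lit 78) (nat_lit 228) (nat_lit 0) (XT.lf (nat_lit 152) (nat_lit 148797497) (nat_lit 0) (nat_lit 566683870) (nat_lit 76) (nat_lit 1980126188) (nat_lit 209) (nat_lit 1) (nat_lit 207) (nat_lit 1) (nat_lit 208) (nat_lit 1) (nat_lit 356) (nat_lit 348) (nat_lit 316)) (XT.lf (nat_lit 228) (nat_lit 1606214052) (nat_lit 0) (nat_lit 579566378) (nat_lit 152) (nat_lit 436312173) (nat_lit 207) (nat_lit 1) (nat_lit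 204) (nat_lit 1) (nat_lit 206) (nat_lit 1) (nat_lit 357) (nat_lit 348) (nat_lit 315)))) (XT.nd (nat_lit 156) (nat_lit 304) (nat_lit 0) (XT.nd (nat_lit 78) (nat_lit 228) (nat_lit 0) (XT.lf (nat_lit 152) (nat_lit 403974678) (nat_lit 0) (nat_lit 601236948) (nat_lit 76) (nat_lit 1545843624) (nat_lit 205) (nat_lit 1) (nat_lit 203) (nat_lit 1) (nat_lit 204) (nat_lit 1) (nat_lit 358) (nat_lit 348) (nat_lit 314)) (XT.lf (nat_lit 228) (nat_lit 1748707034) (nat_lit 0) (nat_lit 630234784) (nat_lit 152) (nat_lit 103426923) (nat_lit 203) (nat_lit 1) (nat_lit 200) (nat_lit 1) (nat_lit 202) (nat_lit 1) (nat_lit 359) (nat_lit 348) (nat_lit 313))) (XT.nd (nat_lit 78) (nat_lit 228) (nat_lit 0) (XT.lf (nat_lit 152) (nat_lit 581374984) (nat_lit 0) (nat_lit 657027336) (nat_lit 76) (nat_lit 1177121214) (nat_lit 201) (nat_lit 1) (nat_lit 199) (nat_lit 1) (nat_lit 200) (nat_lit 1) (nat_lit 360) (nat_lit 348) (nat_lit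 312)) (XT.lf (nat_lit 76) (nat_lit 167807957) (nat_lit 0) (nat_lit 526704446) (nat_lit 228) (nat_lit 1656567342) (nat_lit 197) (nat_lit 1) (nat_lit 196) (nat_lit 1) (nat_lit 199) (nat_lit 1) (nat_lit 361) (nat_lit 348) (nat_lit 311))))) (XT.nd (nat_lit 234) (nat_lit 456) (nat_lit 0) (XT.nd (nat_lit 78) (nat_lit 304) (nat_lit 0) (XT.lf (nat_lit 152) (nat_lit 697702434) (nat_lit 0) (nat_lit 726972866) (nat_lit 76) (nat_lit 863561078) (nat_lit 197) (nat_lit 1) (nat_lit 195) (nat_lit 1) (nat_lit 196) (nat_lit 1) (nat_lit 362) (nat_lit 348) (nat_lit 310)) (XT.nd (nat_lit 78) (nat_lit 76) (nat_lit 0) (XT.lf (nat_lit 76) (nat_lit 390258824) (nat_lit 0) (nat_lit 377992060) (nat_lit 228) (nat_lit 1459350595) (nat_lit 193) (nat_lit 1) (nat_lit 192) (nat_lit 1) (nat_lit 195) (nat_lit 1) (nat_lit 363) (nat_lit 348) (nat_lit 309)) (XT.lf (nat_lit 152) (nat_lit 766427689) (nat_lit 0) (nat_lit 805545108) (nat_lit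 76) (nat_lit 596542984) (nat_lit 193) (nat_lit 1) (nat_lit 191) (nat_lit 1) (nat_lit 192) (nat_lit 1) (nat_lit 364) (nat_lit 348) (nat_lit 308)))) (XT.nd (nat_lit 156) (nat_lit 228) (nat_lit 0) (XT.nd (nat_lit 78) (nat_lit 76) (nat_lit 0) (XT.lf (nat_lit 76) (nat_lit 574551233) (nat_lit 0) (nat_lit 273763382) (nat_lit 152) (nat_lit 1263066796) (nat_lit 190) (nat_lit 1) (nat_lit 189) (nat_lit 1) (nat_lit 191) (nat_lit 1) (nat_lit 365) (nat_lit 348) (nat_lit 307)) (XT.lf (nat_lit 152) (nat_lit 798392228) (nat_lit 0) (nat_lit 888466552) (nat_lit 76) (nat_lit 368907253) (nat_lit 190) (nat_lit 1) (nat_lit 188) (nat_lit 1) (nat_lit 189) (nat_lit 1) (nat_lit 366) (nat_lit 348) (nat_lit 306))) (XT.nd (nat_lit 78) (nat_lit 76) (nat_lit 0) (XT.lf (nat_lit 76) (nat_lit 726753889) (nat_lit 0) (nat_lit 204231052) (nat_lit 152) (nat_lit 1070876385) (nat_lit 187) (nat_lit 1) (nat_lit 186) (nat_lit 1) (nat_lit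 188) (nat_lit 1) (nat_lit 367) (nat_lit 348) (nat_lit 305)) (XT.lf (nat_lit 152) (nat_lit 802300986) (nat_lit 0) (nat_lit 972464506) (nat_lit 76) (nat_lit 174695254) (nat_lit 187) (nat_lit 1) (nat_lit 185) (nat_lit 1) (nat_lit 186) (nat_lit 1) (nat_lit 368) (nat_lit 348) (nat_lit 304))))))))
noncomputable def ec39 : XT := (XT.nd (nat_lit 2106) (nat_lit 2812) (nat_lit 0) (XT.nd (nat_lit 1014) (nat_lit 1596) (nat_lit 0) (XT.nd (nat_lit 468) (nat_lit 912) (nat_lit 0) (XT.nd (nat_lit 234) (nat_lit 304) (nat_lit 0) (XT.nd (nat_lit 78) (nat_lit 228) (nat_lit 0) (XT.lf (nat_lit 76) (nat_lit 851910565) (nat_lit 0) (nat_lit 161525127) (nat_lit 152) (nat_lit 885110705) (nat_lit 184) (nat_lit 1) (nat_lit 183) (nat_lit 1) (nat_lit 185) (nat_lit 1) (nat_lit 369) (nat_lit 348) (nat_lit 303)) (XT.nd (nat_lit 78) (nat_lit 152) (nat_lit 0) (XT.lf (nat_lit 152) (nat_lit 785123969) (nat_lit 0) (nat_lit 1055071231)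 (nat_lit 76) (nat_lit 8936964) (nat_lit 184) (nat_lit 1) (nat_lit 182) (nat_lit 1) (nat_lit 183) (nat_lit 1) (nat_lit 370) (nat_lit 348) (nat_lit 302)) (XT.lf (nat_lit 76) (nat_lit 954221521) (nat_lit 0) (nat_lit 139333044) (nat_lit 152) (nat_lit 707440954) (nat_lit 181) (nat_lit 1) (nat_lit 180) (nat_lit 1) (nat_lit 182) (nat_lit 1) (nat_lit 371) (nat_lit 348) (nat_lit 301)))) (XT.nd (nat_lit 78) (nat_lit 228) (nat_lit 0) (XT.lf (nat_lit 0) (nat_lit 128281445) (nat_lit 0) (nat_lit 1004007808) (nat_lit 152) (nat_lit 621969623) (nat_lit 179) (nat_lit 3) (nat_lit 179) (nat_lit 1) (nat_lit 181) (nat_lit 1) (nat_lit 372) (nat_lit 348) (nat_lit 300)) (XT.nd (nat_lit 78) (nat_lit 76) (nat_lit 0) (XT.lf (nat_lit 76) (nat_lit 1037192091) (nat_lit 0) (nat_lit 132606181) (nat_lit 152) (nat_lit 539015070) (nat_lit 178) (nat_lit 1) (nat_lit 177) (nat_lit 1) (nat_lit 179) (nat_lit 1) (nat_lit 373) (nat_lit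 348) (nat_lit 299)) (XT.lf (nat_lit 0) (nat_lit 245065018) (nat_lit 0) (nat_lit 960107120) (nat_lit 152) (nat_lit 459405989) (nat_lit 176) (nat_lit 3) (nat_lit 176) (nat_lit 1) (nat_lit 178) (nat_lit 1) (nat_lit 374) (nat_lit 348) (nat_lit 298))))) (XT.nd (nat_lit 234) (nat_lit 532) (nat_lit 0) (XT.nd (nat_lit 78) (nat_lit 228) (nat_lit 0) (XT.lf (nat_lit 76) (nat_lit 1103754422) (nat_lit 0) (nat_lit 137320746) (nat_lit 152) (nat_lit 380568489) (nat_lit 175) (nat_lit 1) (nat_lit 174) (nat_lit 1) (nat_lit 176) (nat_lit 1) (nat_lit 375) (nat_lit 348) (nat_lit 297)) (XT.nd (nat_lit 78) (nat_lit 152) (nat_lit 0) (XT.lf (nat_lit 0) (nat_lit 344534143) (nat_lit 0) (nat_lit 928375430) (nat_lit 152) (nat_lit 306845985) (nat_lit 173) (nat_lit 3) (nat_lit 173) (nat_lit 1) (nat_lit 175) (nat_lit 1) (nat_lit 376) (nat_lit 348) (nat_lit 296)) (XT.lf (nat_lit 76) (nat_lit 1156367268) (nat_lit 0) (nat_lit 150283000)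 (nat_lit 152) (nat_lit 232513634) (nat_lit 172) (nat_lit 1) (nat_lit 171) (nat_lit 1) (nat_lit 173) (nat_lit 1) (nat_lit 377) (nat_lit 348) (nat_lit 295)))) (XT.nd (nat_lit 156) (nat_lit 304) (nat_lit 0) (XT.nd (nat_lit 78) (nat_lit 152) (nat_lit 0) (XT.lf (nat_lit 0) (nat_lit 429078461) (nat_lit 0) (nat_lit 905792557) (nat_lit 152) (nat_lit 164610549) (nat_lit 170) (nat_lit 3) (nat_lit 170) (nat_lit 1) (nat_lit 172) (nat_lit 1) (nat_lit 378) (nat_lit 348) (nat_lit 294)) (XT.lf (nat_lit 76) (nat_lit 1197097844) (nat_lit 0) (nat_lit 168970653) (nat_lit 152) (nat_lit 95012101) (nat_lit 169) (nat_lit 1) (nat_lit 168) (nat_lit 1) (nat_lit 170) (nat_lit 1) (nat_lit 379) (nat_lit 348) (nat_lit 293))) (XT.nd (nat_lit 78) (nat_lit 228) (nat_lit 0) (XT.lf (nat_lit 0) (nat_lit 500719042) (nat_lit 0) (nat_lit 889962376) (nat_lit 152) (nat_lit 32792621) (nat_lit 167) (nat_lit 3) (nat_lit 167) (nat_lit 1)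 (nat_lit 169) (nat_lit 1) (nat_lit 380) (nat_lit 348) (nat_lit 292)) (XT.lf (nat_lit 152) (nat_lit 1195180392) (nat_lit 0) (nat_lit 33024213) (nat_lit 76) (nat_lit 158895156) (nat_lit 166) (nat_lit 1) (nat_lit 164) (nat_lit 1) (nat_lit 165) (nat_lit 1) (nat_lit 381) (nat_lit 348) (nat_lit 291)))))) (XT.nd (nat_lit 546) (nat_lit 836) (nat_lit 0) (XT.nd (nat_lit 234) (nat_lit 456) (nat_lit 0) (XT.nd (nat_lit 78) (nat_lit 228) (nat_lit 0) (XT.lf (nat_lit 76) (nat_lit 470979575) (nat_lit 0) (nat_lit 91621800) (nat_lit 76) (nat_lit 788801881) (nat_lit 164) (nat_lit 3) (nat_lit 163) (nat_lit 1) (nat_lit 164) (nat_lit 1) (nat_lit 382) (nat_lit 348) (nat_lit 290)) (XT.nd (nat_lit 78) (nat_lit 76) (nat_lit 0) (XT.lf (nat_lit 152) (nat_lit 1098496229) (nat_lit 0) (nat_lit 153514986) (nat_lit 76) (nat_lit 64921549) (nat_lit 163) (nat_lit 1) (nat_lit 161) (nat_lit 1) (nat_lit 162) (nat_lit 1) (nat_lit 383)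 (nat_lit 348) (nat_lit 289)) (XT.lf (nat_lit 76) (nat_lit 408458124) (nat_lit 0) (nat_lit 206662868) (nat_lit 76) (nat_lit 667964220) (nat_lit 161) (nat_lit 3) (nat_lit 160) (nat_lit 1) (nat_lit 161) (nat_lit 1) (nat_lit 384) (nat_lit 348) (nat_lit 288)))) (XT.nd (nat_lit 156) (nat_lit 228) (nat_lit 0) (XT.nd (nat_lit 78) (nat_lit 76) (nat_lit 0) (XT.lf (nat_lit 0) (nat_lit 17240338) (nat_lit 0) (nat_lit 246081692) (nat_lit 152) (nat_lit 987093344) (nat_lit 158) (nat_lit 3) (nat_lit 158) (nat_lit 1) (nat_lit 160) (nat_lit 1) (nat_lit 385) (nat_lit 348) (nat_lit 287)) (XT.lf (nat_lit 76) (nat_lit 347435182) (nat_lit 0) (nat_lit 311566787) (nat_lit 76) (nat_lit 559325325) (nat_lit 158) (nat_lit 3) (nat_lit 157) (nat_lit 1) (nat_lit 158) (nat_lit 1) (nat_lit 386) (nat_lit 348) (nat_lit 286))) (XT.nd (nat_lit 78) (nat_lit 76) (nat_lit 0) (XT.lf (nat_lit 0) (nat_lit 87680581) (nat_lit 0) (nat_lit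 274532559) (nat_lit 152) (nat_lit 825095585) (nat_lit 155) (nat_lit 3) (nat_lit 155) (nat_lit 1) (nat_lit 157) (nat_lit 1) (nat_lit 387) (nat_lit 348) (nat_lit 285)) (XT.lf (nat_lit 76) (nat_lit 288594751) (nat_lit 0) (nat_lit 406726118) (nat_lit 76) (nat_lit 461605841) (nat_lit 155) (nat_lit 3) (nat_lit 154) (nat_lit 1) (nat_lit 155) (nat_lit 1) (nat_lit 388) (nat_lit 348) (nat_lit 284))))) (XT.nd (nat_lit 234) (nat_lit 456) (nat_lit 0) (XT.nd (nat_lit 78) (nat_lit 228) (nat_lit 0) (XT.lf (nat_lit 0) (nat_lit 149550539) (nat_lit 0) (nat_lit 302117638) (nat_lit 152) (nat_lit 675799776) (nat_lit 152) (nat_lit 3) (nat_lit 152) (nat_lit 1) (nat_lit 154) (nat_lit 1) (nat_lit 389) (nat_lit 348) (nat_lit 283)) (XT.nd (nat_lit 78) (nat_lit 152) (nat_lit 0) (XT.lf (nat_lit 76) (nat_lit 232423147) (nat_lit 0) (nat_lit 492583044) (nat_lit 76) (nat_lit 373688979) (nat_lit 152) (nat_lit 3) (nat_lit 151)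 (nat_lit 1) (nat_lit 152) (nat_lit 1) (nat_lit 390) (nat_lit 348) (nat_lit 282)) (XT.lf (nat_lit 0) (nat_lit 203784811) (nat_lit 0) (nat_lit 328357856) (nat_lit 152) (nat_lit 538568550) (nat_lit 149) (nat_lit 3) (nat_lit 149) (nat_lit 1) (nat_lit 151) (nat_lit 1) (nat_lit 391) (nat_lit 348) (nat_lit 281)))) (XT.nd (nat_lit 156) (nat_lit 228) (nat_lit 0) (XT.nd (nat_lit 78) (nat_lit 152) (nat_lit 0) (XT.lf (nat_lit 76) (nat_lit 179250160) (nat_lit 0) (nat_lit 569611636) (nat_lit 76) (nat_lit 294595572) (nat_lit 149) (nat_lit 3) (nat_lit 148) (nat_lit 1) (nat_lit 149) (nat_lit 1) (nat_lit 392) (nat_lit 348) (nat_lit 280)) (XT.lf (nat_lit 0) (nat_lit 251200476) (nat_lit 0) (nat_lit 352916007) (nat_lit 152) (nat_lit 412752500) (nat_lit 146) (nat_lit 3) (nat_lit 146) (nat_lit 1) (nat_lit 148) (nat_lit 1) (nat_lit 393) (nat_lit 348) (nat_lit 279))) (XT.nd (nat_lit 78) (nat_lit 152) (nat_lit 0) (XT.lf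 (nat_lit 76) (nat_lit 129282354) (nat_lit 0) (nat_lit 638303937) (nat_lit 76) (nat_lit 223463401) (nat_lit 146) (nat_lit 3) (nat_lit 145) (nat_lit 1) (nat_lit 146) (nat_lit 1) (nat_lit 394) (nat_lit 348) (nat_lit 278)) (XT.lf (nat_lit 0) (nat_lit 292514794) (nat_lit 0) (nat_lit 375566863) (nat_lit 152) (nat_lit 297701181) (nat_lit 143) (nat_lit 3) (nat_lit 143) (nat_lit 1) (nat_lit 145) (nat_lit 1) (nat_lit 395) (nat_lit 348) (nat_lit 277))))))) (XT.nd (nat_lit 1014) (nat_lit 1216) (nat_lit 0) (XT.nd (nat_lit 468) (nat_lit 912) (nat_lit 0) (XT.nd (nat_lit 234) (nat_lit 380) (nat_lit 0) (XT.nd (nat_lit 78) (nat_lit 228) (nat_lit 0) (XT.lf (nat_lit 76) (nat_lit 82629960) (nat_lit 0) (nat_lit 699159137) (nat_lit 76) (nat_lit 159530025) (nat_lit 143) (nat_lit 3) (nat_lit 142) (nat_lit 1) (nat_lit 143) (nat_lit 1) (nat_lit 396) (nat_lit 348) (nat_lit 276)) (XT.nd (nat_lit 78) (nat_lit 76) (nat_lit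 0) (XT.lf (nat_lit 0) (nat_lit 328359914) (nat_lit 0) (nat_lit 396173022) (nat_lit 152) (nat_lit 192771523) (nat_lit 140) (nat_lit 3) (nat_lit 140) (nat_lit 1) (nat_lit 142) (nat_lit 1) (nat_lit 397) (nat_lit 348) (nat_lit 275)) (XT.lf (nat_lit 76) (nat_lit 39328564) (nat_lit 0) (nat_lit 752675224) (nat_lit 76) (nat_lit 102118478) (nat_lit 140) (nat_lit 3) (nat_lit 139) (nat_lit 1) (nat_lit 140) (nat_lit 1) (nat_lit 398) (nat_lit 348) (nat_lit 274)))) (XT.nd (nat_lit 78) (nat_lit 228) (nat_lit 0) (XT.lf (nat_lit 0) (nat_lit 359295123) (nat_lit 0) (nat_lit 414665418) (nat_lit 152) (nat_lit 97334183) (nat_lit 137) (nat_lit 3) (nat_lit 137) (nat_lit 1) (nat_lit 139) (nat_lit 1) (nat_lit 399) (nat_lit 348) (nat_lit 273)) (XT.nd (nat_lit 78) (nat_lit 76) (nat_lit 0) (XT.lf (nat_lit 76) (nat_lit 798709228) (nat_lit 0) (nat_lit 622856) (nat_lit 152) (nat_lit 49991935) (nat_lit 136) (nat_lit 1) (nat_lit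 135) (nat_lit 1) (nat_lit 137) (nat_lit 1) (nat_lit 400) (nat_lit 348) (nat_lit 272)) (XT.lf (nat_lit 0) (nat_lit 385817069) (nat_lit 0) (nat_lit 431027644) (nat_lit 152) (nat_lit 10778225) (nat_lit 134) (nat_lit 3) (nat_lit 134) (nat_lit 1) (nat_lit 136) (nat_lit 1) (nat_lit 401) (nat_lit 348) (nat_lit 271))))) (XT.nd (nat_lit 234) (nat_lit 456) (nat_lit 0) (XT.nd (nat_lit 78) (nat_lit 228) (nat_lit 0) (XT.lf (nat_lit 152) (nat_lit 770068483) (nat_lit 0) (nat_lit 33323556) (nat_lit 76) (nat_lit 3352150) (nat_lit 133) (nat_lit 1) (nat_lit 131) (nat_lit 1) (nat_lit 132) (nat_lit 1) (nat_lit 402) (nat_lit 348) (nat_lit 270)) (XT.nd (nat_lit 78) (nat_lit 152) (nat_lit 0) (XT.lf (nat_lit 76) (nat_lit 339739900) (nat_lit 0) (nat_lit 69716894) (nat_lit 76) (nat_lit 376654929) (nat_lit 131) (nat_lit 3) (nat_lit 130) (nat_lit 1) (nat_lit 131) (nat_lit 1) (nat_lit 403) (nat_lit 348) (nat_lit 269)) (XT.lf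 (nat_lit 0) (nat_lit 38405777) (nat_lit 0) (nat_lit 70958713) (nat_lit 152) (nat_lit 656890995) (nat_lit 128) (nat_lit 3) (nat_lit 128) (nat_lit 1) (nat_lit 130) (nat_lit 1) (nat_lit 404) (nat_lit 348) (nat_lit 268)))) (XT.nd (nat_lit 156) (nat_lit 228) (nat_lit 0) (XT.nd (nat_lit 78) (nat_lit 152) (nat_lit 0) (XT.lf (nat_lit 76) (nat_lit 286984926) (nat_lit 0) (nat_lit 142585780) (nat_lit 76) (nat_lit 317126533) (nat_lit 128) (nat_lit 3) (nat_lit 127) (nat_lit 1) (nat_lit 128) (nat_lit 1) (nat_lit 405) (nat_lit 348) (nat_lit 267)) (XT.lf (nat_lit 0) (nat_lit 75571154) (nat_lit 0) (nat_lit 102151054) (nat_lit 152) (nat_lit 550095210) (nat_lit 125) (nat_lit 3) (nat_lit 125) (nat_lit 1) (nat_lit 127) (nat_lit 1) (nat_lit 406) (nat_lit 348) (nat_lit 266))) (XT.nd (nat_lit 78) (nat_lit 152) (nat_lit 0) (XT.lf (nat_lit 76) (nat_lit 238319045) (nat_lit 0) (nat_lit 208029441) (nat_lit 76) (nat_lit 262930064)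 (nat_lit 125) (nat_lit 3) (nat_lit 124) (nat_lit 1) (nat_lit 125) (nat_lit 1) (nat_lit 407) (nat_lit 348) (nat_lit 265)) (XT.lf (nat_lit 0) (nat_lit 108643857) (nat_lit 0) (nat_lit 130346696) (nat_lit 152) (nat_lit 452335326) (nat_lit 122) (nat_lit 3) (nat_lit 122) (nat_lit 1) (nat_lit 124) (nat_lit 1) (nat_lit 408) (nat_lit 348) (nat_lit 264)))))) (XT.nd (nat_lit 546) (nat_lit 456) (nat_lit 0) (XT.nd (nat_lit 234) (nat_lit 456) (nat_lit 0) (XT.nd (nat_lit 78) (nat_lit 228) (nat_lit 0) (XT.lf (nat_lit 76) (nat_lit 193539473) (nat_lit 0) (nat_lit 266578029) (nat_lit 76) (nat_lit 213634694) (nat_lit 122) (nat_lit 3) (nat_lit 121) (nat_lit 1) (nat_lit 122) (nat_lit 1) (nat_lit 409) (nat_lit 348) (nat_lit 263)) (XT.nd (nat_lit 78) (nat_lit 76) (nat_lit 0) (XT.lf (nat_lit 0) (nat_lit 137980278) (nat_lit 0) (nat_lit 155700932) (nat_lit 152) (nat_lit 362998891) (nat_lit 119) (nat_lit 3) (nat_lit 119)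 (nat_lit 1) (nat_lit 121) (nat_lit 1) (nat_lit 410) (nat_lit 348) (nat_lit 262)) (XT.lf (nat_lit 76) (nat_lit 152439152) (nat_lit 0) (nat_lit 318734134) (nat_lit 76) (nat_lit 168847165) (nat_lit 119) (nat_lit 3) (nat_lit 118) (nat_lit 1) (nat_lit 119) (nat_lit 1) (nat_lit 411) (nat_lit 348) (nat_lit 261)))) (XT.nd (nat_lit 156) (nat_lit 228) (nat_lit 0) (XT.nd (nat_lit 78) (nat_lit 76) (nat_lit 0) (XT.lf (nat_lit 0) (nat_lit 163904708) (nat_lit 0) (nat_lit 178373855) (nat_lit 152) (nat_lit 281506312) (nat_lit 116) (nat_lit 3) (nat_lit 116) (nat_lit 1) (nat_lit 118) (nat_lit 1) (nat_lit 412) (nat_lit 348) (nat_lit 260)) (XT.lf (nat_lit 76) (nat_lit 114810354) (nat_lit 0) (nat_lit 364972882) (nat_lit 76) (nat_lit 128207712) (nat_lit 116) (nat_lit 3) (nat_lit 115) (nat_lit 1) (nat_lit 116) (nat_lit 1) (nat_lit 413) (nat_lit 348) (nat_lit 259))) (XT.nd (nat_lit 78) (nat_lit 76) (nat_lit 0) (XT.lf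 (nat_lit 0) (nat_lit 186712843) (nat_lit 0) (nat_lit 198527092) (nat_lit 152) (nat_lit 207310243) (nat_lit 113) (nat_lit 3) (nat_lit 113) (nat_lit 1) (nat_lit 115) (nat_lit 1) (nat_lit 414) (nat_lit 348) (nat_lit 258)) (XT.lf (nat_lit 76) (nat_lit 80447443) (nat_lit 0) (nat_lit 405742324) (nat_lit 76) (nat_lit 91386563) (nat_lit 113) (nat_lit 3) (nat_lit 112) (nat_lit 1) (nat_lit 113) (nat_lit 1) (nat_lit 415) (nat_lit 348) (nat_lit 257))))) (XT.nd (nat_lit 234) (nat_lit 76) (nat_lit 0) (XT.nd (nat_lit 78) (nat_lit 228) (nat_lit 0) (XT.lf (nat_lit 0) (nat_lit 206674812) (nat_lit 0) (nat_lit 216321302) (nat_lit 152) (nat_lit 139894735) (nat_lit 110) (nat_lit 3) (nat_lit 110) (nat_lit 1) (nat_lit 112) (nat_lit 1) (nat_lit 416) (nat_lit 348) (nat_lit 256)) (XT.nd (nat_lit 78) (nat_lit 152) (nat_lit 0) (XT.lf (nat_lit 76) (nat_lit 49148962) (nat_lit 0) (nat_lit 441464079) (nat_lit 76) (nat_lit 58080897)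 (nat_lit 110) (nat_lit 3) (nat_lit 109) (nat_lit 1) (nat_lit 110) (nat_lit 1) (nat_lit 417) (nat_lit 348) (nat_lit 255)) (XT.lf (nat_lit 0) (nat_lit 224037793) (nat_lit 0) (nat_lit 231914278) (nat_lit 152) (nat_lit 78774220) (nat_lit 107) (nat_lit 3) (nat_lit 107) (nat_lit 1) (nat_lit 109) (nat_lit 1) (nat_lit 418) (nat_lit 348) (nat_lit 254)))) (XT.nd (nat_lit 45630) (nat_lit 0) (nat_lit 14212) (XT.nd (nat_lit 45552) (nat_lit 0) (nat_lit 14136) (XT.lf (nat_lit 76) (nat_lit 20719174) (nat_lit 0) (nat_lit 472534125) (nat_lit 76) (nat_lit 28012217) (nat_lit 107) (nat_lit 3) (nat_lit 106) (nat_lit 1) (nat_lit 107) (nat_lit 1) (nat_lit 419) (nat_lit 348) (nat_lit 253)) (XT.lf (nat_lit 836) (nat_lit 1074146402) (nat_lit 0) (nat_lit 1907144469) (nat_lit 836) (nat_lit 1074146402) (nat_lit 303) (nat_lit 1) (nat_lit 292) (nat_lit 0) (nat_lit 303) (nat_lit 0) (nat_lit 322) (nat_lit 349) (nat_lit 349)))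 (XT.nd (nat_lit 78) (nat_lit 0) (nat_lit 0) (XT.lf (nat_lit 836) (nat_lit 400689567) (nat_lit 0) (nat_lit 3744302602) (nat_lit 760) (nat_lit 3661915436) (nat_lit 304) (nat_lit 1) (nat_lit 293) (nat_lit 1) (nat_lit 303) (nat_lit 1) (nat_lit 323) (nat_lit 349) (nat_lit 348)) (XT.lf (nat_lit 836) (nat_lit 3680102395) (nat_lit 76) (nat_lit 2507560715) (nat_lit 0) (nat_lit 1329895818) (nat_lit 304) (nat_lit 1) (nat_lit 294) (nat_lit 1) (nat_lit 293) (nat_lit 1) (nat_lit 324) (nat_lit 349) (nat_lit 347))))))))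
noncomputable def ec40 : XT := (XT.nd (nat_lit 2028) (nat_lit 3496) (nat_lit 0) (XT.nd (nat_lit 1014) (nat_lit 2964) (nat_lit 0) (XT.nd (nat_lit 468) (nat_lit 2052) (nat_lit 0) (XT.nd (nat_lit 234) (nat_lit 1064) (nat_lit 0) (XT.nd (nat_lit 78) (nat_lit 0) (nat_lit 76) (XT.lf (nat_lit 836) (nat_lit 3179909948) (nat_lit 76) (nat_lit 1050901315) (nat_lit 0) (nat_lit 3011878730) (nat_lit 305) (nat_lit 1) (nat_lit 295) (nat_lit 1) (nat_lit 294) (nat_lit 1) (nat_lit 325) (nat_lit 349) (nat_lit 346)) (XT.nd (nat_lit 78) (nat_lit 0) (nat_lit 76) (XT.lf (nat_lit 836) (nat_lit 2353403708) (nat_lit 0) (nat_lit 4403107097) (nat_lit 760) (nat_lit 225086205) (nat_lit 306) (nat_lit 1) (nat_lit 295) (nat_lit 1) (nat_lit 305) (nat_lit 1) (nat_lit 326) (nat_lit 349) (nat_lit 345)) (XT.lf (nat_lit 836) (nat_lit 564676145) (nat_lit 0) (nat_lit 4855648805) (nat_lit 760) (nat_lit 1312648096) (nat_lit 307) (nat_lit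 1) (nat_lit 296) (nat_lit 1) (nat_lit 306) (nat_lit 1) (nat_lit 327) (nat_lit 349) (nat_lit 344)))) (XT.nd (nat_lit 78) (nat_lit 1216) (nat_lit 0) (XT.lf (nat_lit 836) (nat_lit 1085077878) (nat_lit 76) (nat_lit 4219954224) (nat_lit 0) (nat_lit 1190923146) (nat_lit 307) (nat_lit 1) (nat_lit 297) (nat_lit 1) (nat_lit 296) (nat_lit 1) (nat_lit 328) (nat_lit 349) (nat_lit 343)) (XT.nd (nat_lit 78) (nat_lit 532) (nat_lit 0) (XT.lf (nat_lit 836) (nat_lit 222850253) (nat_lit 0) (nat_lit 3154694922) (nat_lit 760) (nat_lit 2892822189) (nat_lit 298) (nat_lit 1) (nat_lit 287) (nat_lit 1) (nat_lit 297) (nat_lit 1) (nat_lit 329) (nat_lit 349) (nat_lit 342)) (XT.lf (nat_lit 76) (nat_lit 1543061573) (nat_lit 0) (nat_lit 668680388) (nat_lit 532) (nat_lit 3843718886) (nat_lit 281) (nat_lit 1) (nat_lit 280) (nat_lit 1) (nat_lit 287) (nat_lit 1) (nat_lit 330) (nat_lit 349) (nat_lit 341))))) (XT.nd (nat_lit 234)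 (nat_lit 988) (nat_lit 0) (XT.nd (nat_lit 78) (nat_lit 684) (nat_lit 0) (XT.lf (nat_lit 456) (nat_lit 4252483477) (nat_lit 0) (nat_lit 1384275047) (nat_lit 380) (nat_lit 214017475) (nat_lit 281) (nat_lit 1) (nat_lit 275) (nat_lit 1) (nat_lit 280) (nat_lit 1) (nat_lit 331) (nat_lit 349) (nat_lit 340)) (XT.nd (nat_lit 78) (nat_lit 304) (nat_lit 0) (XT.lf (nat_lit 456) (nat_lit 3068632572) (nat_lit 0) (nat_lit 645216562) (nat_lit 380) (nat_lit 1941043100) (nat_lit 276) (nat_lit 1) (nat_lit 270) (nat_lit 1) (nat_lit 275) (nat_lit 1) (nat_lit 332) (nat_lit 349) (nat_lit 339)) (XT.lf (nat_lit 380) (nat_lit 1867223783) (nat_lit 0) (nat_lit 11879485) (nat_lit 304) (nat_lit 3589403179) (nat_lit 271) (nat_lit 1) (nat_lit 266) (nat_lit 1) (nat_lit 270) (nat_lit 1) (nat_lit 333) (nat_lit 349) (nat_lit 338)))) (XT.nd (nat_lit 156) (nat_lit 608) (nat_lit 0) (XT.nd (nat_lit 78) (nat_lit 380) (nat_lit 0) (XT.lf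 (nat_lit 76) (nat_lit 137754946) (nat_lit 0) (nat_lit 4645764290) (nat_lit 380) (nat_lit 507175503) (nat_lit 267) (nat_lit 1) (nat_lit 266) (nat_lit 1) (nat_lit 271) (nat_lit 1) (nat_lit 334) (nat_lit 349) (nat_lit 337)) (XT.lf (nat_lit 76) (nat_lit 3556868441) (nat_lit 0) (nat_lit 589944689) (nat_lit 380) (nat_lit 972925934) (nat_lit 262) (nat_lit 1) (nat_lit 261) (nat_lit 1) (nat_lit 266) (nat_lit 1) (nat_lit 335) (nat_lit 349) (nat_lit 336))) (XT.nd (nat_lit 78) (nat_lit 304) (nat_lit 0) (XT.lf (nat_lit 76) (nat_lit 1779591414) (nat_lit 0) (nat_lit 1807105307) (nat_lit 380) (nat_lit 1369640361) (nat_lit 258) (nat_lit 1) (nat_lit 257) (nat_lit 1) (nat_lit 262) (nat_lit 1) (nat_lit 336) (nat_lit 349) (nat_lit 335)) (XT.lf (nat_lit 76) (nat_lit 87836686) (nat_lit 0) (nat_lit 3021452014) (nat_lit 380) (nat_lit 1691382945) (nat_lit 254) (nat_lit 1) (nat_lit 253) (nat_lit 1) (nat_lit 258) (nat_lit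 1) (nat_lit 337) (nat_lit 349) (nat_lit 334)))))) (XT.nd (nat_lit 468) (nat_lit 1368) (nat_lit 0) (XT.nd (nat_lit 234) (nat_lit 760) (nat_lit 0) (XT.nd (nat_lit 78) (nat_lit 608) (nat_lit 0) (XT.lf (nat_lit 304) (nat_lit 396665523) (nat_lit 0) (nat_lit 2682459065) (nat_lit 228) (nat_lit 1571982662) (nat_lit 254) (nat_lit 1) (nat_lit 250) (nat_lit 1) (nat_lit 253) (nat_lit 1) (nat_lit 338) (nat_lit 349) (nat_lit 333)) (XT.nd (nat_lit 78) (nat_lit 228) (nat_lit 0) (XT.lf (nat_lit 76) (nat_lit 1370586031) (nat_lit 0) (nat_lit 939408182) (nat_lit 380) (nat_lit 2197727417) (nat_lit 246) (nat_lit 1) (nat_lit 245) (nat_lit 1) (nat_lit 250) (nat_lit 1) (nat_lit 339) (nat_lit 349) (nat_lit 332)) (XT.lf (nat_lit 304) (nat_lit 2121996846) (nat_lit 0) (nat_lit 1993341775) (nat_lit 228) (nat_lit 255145381) (nat_lit 246) (nat_lit 1) (nat_lit 242) (nat_lit 1) (nat_lit 245) (nat_lit 1) (nat_lit 340) (nat_lit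 349) (nat_lit 331)))) (XT.nd (nat_lit 78) (nat_lit 532) (nat_lit 0) (XT.lf (nat_lit 304) (nat_lit 680089737) (nat_lit 0) (nat_lit 1716185641) (nat_lit 228) (nat_lit 1842245074) (nat_lit 243) (nat_lit 1) (nat_lit 239) (nat_lit 1) (nat_lit 242) (nat_lit 1) (nat_lit 341) (nat_lit 349) (nat_lit 330)) (XT.nd (nat_lit 78) (nat_lit 228) (nat_lit 0) (XT.lf (nat_lit 76) (nat_lit 775137969) (nat_lit 0) (nat_lit 709706171) (nat_lit 304) (nat_lit 2627193458) (nat_lit 236) (nat_lit 1) (nat_lit 235) (nat_lit 1) (nat_lit 239) (nat_lit 1) (nat_lit 342) (nat_lit 349) (nat_lit 329)) (XT.lf (nat_lit 304) (nat_lit 1928829100) (nat_lit 0) (nat_lit 1283371406) (nat_lit 228) (nat_lit 777983966) (nat_lit 236) (nat_lit 1) (nat_lit 232) (nat_lit 1) (nat_lit 235) (nat_lit 1) (nat_lit 343) (nat_lit 349) (nat_lit 328))))) (XT.nd (nat_lit 234) (nat_lit 760) (nat_lit 0) (XT.nd (nat_lit 78) (nat_lit 456) (nat_lit 0) (XT.lf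 (nat_lit 228) (nat_lit 478159581) (nat_lit 0) (nat_lit 1119647942) (nat_lit 152) (nat_lit 2275439716) (nat_lit 233) (nat_lit 1) (nat_lit 230) (nat_lit 1) (nat_lit 232) (nat_lit 1) (nat_lit 344) (nat_lit 349) (nat_lit 327)) (XT.nd (nat_lit 78) (nat_lit 152) (nat_lit 0) (XT.lf (nat_lit 76) (nat_lit 81003288) (nat_lit 0) (nat_lit 906444378) (nat_lit 304) (nat_lit 2773395138) (nat_lit 227) (nat_lit 1) (nat_lit 226) (nat_lit 1) (nat_lit 230) (nat_lit 1) (nat_lit 345) (nat_lit 349) (nat_lit 326)) (XT.lf (nat_lit 228) (nat_lit 1389444009) (nat_lit 0) (nat_lit 868283305) (nat_lit 152) (nat_lit 1394279288) (nat_lit 227) (nat_lit 1) (nat_lit 224) (nat_lit 1) (nat_lit 226) (nat_lit 1) (nat_lit 346) (nat_lit 349) (nat_lit 325)))) (XT.nd (nat_lit 156) (nat_lit 380) (nat_lit 0) (XT.nd (nat_lit 78) (nat_lit 152) (nat_lit 0) (XT.lf (nat_lit 76) (nat_lit 753854254) (nat_lit 0) (nat_lit 34821000) (nat_lit 228)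 (nat_lit 2759244383) (nat_lit 222) (nat_lit 1) (nat_lit 221) (nat_lit 1) (nat_lit 224) (nat_lit 1) (nat_lit 347) (nat_lit 349) (nat_lit 324)) (XT.lf (nat_lit 228) (nat_lit 2060891958) (nat_lit 0) (nat_lit 714145272) (nat_lit 152) (nat_lit 671823258) (nat_lit 222) (nat_lit 1) (nat_lit 219) (nat_lit 1) (nat_lit 221) (nat_lit 1) (nat_lit 348) (nat_lit 349) (nat_lit 323))) (XT.nd (nat_lit 78) (nat_lit 228) (nat_lit 0) (XT.lf (nat_lit 228) (nat_lit 640195627) (nat_lit 0) (nat_lit 663877002) (nat_lit 152) (nat_lit 2045592644) (nat_lit 220) (nat_lit 1) (nat_lit 217) (nat_lit 1) (nat_lit 219) (nat_lit 1) (nat_lit 349) (nat_lit 349) (nat_lit 322)) (XT.lf (nat_lit 228) (nat_lit 2541341364) (nat_lit 0) (nat_lit 634280592) (nat_lit 152) (nat_lit 80465851) (nat_lit 217) (nat_lit 1) (nat_lit 214) (nat_lit 1) (nat_lit 216) (nat_lit 1) (nat_lit 350) (nat_lit 349) (nat_lit 321))))))) (XT.nd (nat_lit 1014) (nat_lit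 1596) (nat_lit 0) (XT.nd (nat_lit 468) (nat_lit 1064) (nat_lit 0) (XT.nd (nat_lit 234) (nat_lit 380) (nat_lit 0) (XT.nd (nat_lit 78) (nat_lit 304) (nat_lit 0) (XT.lf (nat_lit 228) (nat_lit 1137386613) (nat_lit 0) (nat_lit 605524119) (nat_lit 152) (nat_lit 1422199830) (nat_lit 215) (nat_lit 1) (nat_lit 212) (nat_lit 1) (nat_lit 214) (nat_lit 1) (nat_lit 351) (nat_lit 349) (nat_lit 320)) (XT.nd (nat_lit 78) (nat_lit 152) (nat_lit 0) (XT.lf (nat_lit 76) (nat_lit 389598828) (nat_lit 0) (nat_lit 214141071) (nat_lit 152) (nat_lit 2474166920) (nat_lit 211) (nat_lit 1) (nat_lit 210) (nat_lit 1) (nat_lit 212) (nat_lit 1) (nat_lit 352) (nat_lit 349) (nat_lit 319)) (XT.lf (nat_lit 228) (nat_lit 1492316648) (nat_lit 0) (nat_lit 597346966) (nat_lit 152) (nat_lit 903239966) (nat_lit 211) (nat_lit 1) (nat_lit 208) (nat_lit 1) (nat_lit 210) (nat_lit 1) (nat_lit 353) (nat_lit 349) (nat_lit 318)))) (XT.nd (nat_lit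 78) (nat_lit 304) (nat_lit 0) (XT.lf (nat_lit 152) (nat_lit 160701297) (nat_lit 0) (nat_lit 612018580) (nat_lit 76) (nat_lit 2138536283) (nat_lit 209) (nat_lit 1) (nat_lit 207) (nat_lit 1) (nat_lit 208) (nat_lit 1) (nat_lit 354) (nat_lit 349) (nat_lit 317)) (XT.nd (nat_lit 78) (nat_lit 76) (nat_lit 0) (XT.lf (nat_lit 228) (nat_lit 1734711176) (nat_lit 0) (nat_lit 625931688) (nat_lit 152) (nat_lit 471217146) (nat_lit 207) (nat_lit 1) (nat_lit 204) (nat_lit 1) (nat_lit 206) (nat_lit 1) (nat_lit 355) (nat_lit 349) (nat_lit 316)) (XT.lf (nat_lit 152) (nat_lit 436292652) (nat_lit 0) (nat_lit 649335904) (nat_lit 76) (nat_lit 1669511114) (nat_lit 205) (nat_lit 1) (nat_lit 203) (nat_lit 1) (nat_lit 204) (nat_lit 1) (nat_lit 356) (nat_lit 349) (nat_lit 315))))) (XT.nd (nat_lit 234) (nat_lit 532) (nat_lit 0) (XT.nd (nat_lit 78) (nat_lit 304) (nat_lit 0) (XT.lf (nat_lit 228) (nat_lit 1888603596) (nat_lit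 0) (nat_lit 680653567) (nat_lit 152) (nat_lit 111701077) (nat_lit 203) (nat_lit 1) (nat_lit 200) (nat_lit 1) (nat_lit 202) (nat_lit 1) (nat_lit 357) (nat_lit 349) (nat_lit 314)) (XT.nd (nat_lit 78) (nat_lit 228) (nat_lit 0) (XT.lf (nat_lit 152) (nat_lit 627884982) (nat_lit 0) (nat_lit 709589523) (nat_lit 76) (nat_lit 1271290911) (nat_lit 201) (nat_lit 1) (nat_lit 199) (nat_lit 1) (nat_lit 200) (nat_lit 1) (nat_lit 358) (nat_lit 349) (nat_lit 313)) (XT.lf (nat_lit 76) (nat_lit 181232593) (nat_lit 0) (nat_lit 568840801) (nat_lit 228) (nat_lit 1789092730) (nat_lit 197) (nat_lit 1) (nat_lit 196) (nat_lit 1) (nat_lit 199) (nat_lit 1) (nat_lit 359) (nat_lit 349) (nat_lit 312)))) (XT.nd (nat_lit 156) (nat_lit 228) (nat_lit 0) (XT.nd (nat_lit 78) (nat_lit 228) (nat_lit 0) (XT.lf (nat_lit 152) (nat_lit 753518629) (nat_lit 0) (nat_lit 785130695) (nat_lit 76) (nat_lit 932645964) (nat_lit 197) (nat_lit 1)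 (nat_lit 195) (nat_lit 1) (nat_lit 196) (nat_lit 1) (nat_lit 360) (nat_lit 349) (nat_lit 311)) (XT.lf (nat_lit 76) (nat_lit 421479530) (nat_lit 0) (nat_lit 408231425) (nat_lit 228) (nat_lit 1576098643) (nat_lit 193) (nat_lit 1) (nat_lit 192) (nat_lit 1) (nat_lit 195) (nat_lit 1) (nat_lit 361) (nat_lit 349) (nat_lit 310))) (XT.nd (nat_lit 78) (nat_lit 152) (nat_lit 0) (XT.lf (nat_lit 152) (nat_lit 827741904) (nat_lit 0) (nat_lit 869988717) (nat_lit 76) (nat_lit 644266423) (nat_lit 193) (nat_lit 1) (nat_lit 191) (nat_lit 1) (nat_lit 192) (nat_lit 1) (nat_lit 362) (nat_lit 349) (nat_lit 309)) (XT.lf (nat_lit 76) (nat_lit 620515332) (nat_lit 0) (nat_lit 295664452) (nat_lit 152) (nat_lit 1364112139) (nat_lit 190) (nat_lit 1) (nat_lit 189) (nat_lit 1) (nat_lit 191) (nat_lit 1) (nat_lit 363) (nat_lit 349) (nat_lit 308)))))) (XT.nd (nat_lit 546) (nat_lit 836) (nat_lit 0) (XT.nd (nat_lit 234) (nat_lit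 456) (nat_lit 0) (XT.nd (nat_lit 78) (nat_lit 228) (nat_lit 0) (XT.lf (nat_lit 152) (nat_lit 862263606) (nat_lit 0) (nat_lit 959543877) (nat_lit 76) (nat_lit 398419833) (nat_lit 190) (nat_lit 1) (nat_lit 188) (nat_lit 1) (nat_lit 189) (nat_lit 1) (nat_lit 364) (nat_lit 349) (nat_lit 307)) (XT.nd (nat_lit 78) (nat_lit 76) (nat_lit 0) (XT.lf (nat_lit 76) (nat_lit 784894200) (nat_lit 0) (nat_lit 220569537) (nat_lit 152) (nat_lit 1156546496) (nat_lit 187) (nat_lit 1) (nat_lit 186) (nat_lit 1) (nat_lit 188) (nat_lit 1) (nat_lit 365) (nat_lit 349) (nat_lit 306)) (XT.lf (nat_lit 152) (nat_lit 866485065) (nat_lit 0) (nat_lit 1050261667) (nat_lit 76) (nat_lit 188670874) (nat_lit 187) (nat_lit 1) (nat_lit 185) (nat_lit 1) (nat_lit 186) (nat_lit 1) (nat_lit 366) (nat_lit 349) (nat_lit 305)))) (XT.nd (nat_lit 156) (nat_lit 228) (nat_lit 0) (XT.nd (nat_lit 78) (nat_lit 76) (nat_lit 0) (XT.lf (nat_lit 76)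 (nat_lit 920063410) (nat_lit 0) (nat_lit 174447137) (nat_lit 152) (nat_lit 955919562) (nat_lit 184) (nat_lit 1) (nat_lit 183) (nat_lit 1) (nat_lit 185) (nat_lit 1) (nat_lit 367) (nat_lit 349) (nat_lit 304)) (XT.lf (nat_lit 152) (nat_lit 847933887) (nat_lit 0) (nat_lit 1139476930) (nat_lit 76) (nat_lit 9651922) (nat_lit 184) (nat_lit 1) (nat_lit 182) (nat_lit 1) (nat_lit 183) (nat_lit 1) (nat_lit 368) (nat_lit 349) (nat_lit 303))) (XT.nd (nat_lit 78) (nat_lit 76) (nat_lit 0) (XT.lf (nat_lit 76) (nat_lit 1030559242) (nat_lit 0) (nat_lit 150479688) (nat_lit 152) (nat_lit 764036231) (nat_lit 181) (nat_lit 1) (nat_lit 180) (nat_lit 1) (nat_lit 182) (nat_lit 1) (nat_lit 369) (nat_lit 349) (nat_lit 302)) (XT.lf (nat_lit 0) (nat_lit 138543960) (nat_lit 0) (nat_lit 1084328433) (nat_lit 152) (nat_lit 671727193) (nat_lit 179) (nat_lit 3) (nat_lit 179) (nat_lit 1) (nat_lit 181) (nat_lit 1) (nat_lit 370)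 (nat_lit 349) (nat_lit 301))))) (XT.nd (nat_lit 234) (nat_lit 456) (nat_lit 0) (XT.nd (nat_lit 78) (nat_lit 228) (nat_lit 0) (XT.lf (nat_lit 76) (nat_lit 1120167459) (nat_lit 0) (nat_lit 143214676) (nat_lit 152) (nat_lit 582136276) (nat_lit 178) (nat_lit 1) (nat_lit 177) (nat_lit 1) (nat_lit 179) (nat_lit 1) (nat_lit 371) (nat_lit 349) (nat_lit 300)) (XT.nd (nat_lit 78) (nat_lit 152) (nat_lit 0) (XT.lf (nat_lit 0) (nat_lit 264670220) (nat_lit 0) (nat_lit 1036915690) (nat_lit 152) (nat_lit 496158469) (nat_lit 176) (nat_lit 3) (nat_lit 176) (nat_lit 1) (nat_lit 178) (nat_lit 1) (nat_lit 372) (nat_lit 349) (nat_lit 299)) (XT.lf (nat_lit 76) (nat_lit 1192054776) (nat_lit 0) (nat_lit 148306406) (nat_lit 152) (nat_lit 411013968) (nat_lit 175) (nat_lit 1) (nat_lit 174) (nat_lit 1) (nat_lit 176) (nat_lit 1) (nat_lit 373) (nat_lit 349) (nat_lit 298)))) (XT.nd (nat_lit 156) (nat_lit 228) (nat_lit 0) (XT.nd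 (nat_lit 78) (nat_lit 152) (nat_lit 0) (XT.lf (nat_lit 0) (nat_lit 372096874) (nat_lit 0) (nat_lit 1002645465) (nat_lit 152) (nat_lit 331393664) (nat_lit 173) (nat_lit 3) (nat_lit 173) (nat_lit 1) (nat_lit 175) (nat_lit 1) (nat_lit 374) (nat_lit 349) (nat_lit 297)) (XT.lf (nat_lit 76) (nat_lit 1248876650) (nat_lit 0) (nat_lit 162305640) (nat_lit 152) (nat_lit 251114724) (nat_lit 172) (nat_lit 1) (nat_lit 171) (nat_lit 1) (nat_lit 173) (nat_lit 1) (nat_lit 375) (nat_lit 349) (nat_lit 296))) (XT.nd (nat_lit 78) (nat_lit 152) (nat_lit 0) (XT.lf (nat_lit 0) (nat_lit 463404738) (nat_lit 0) (nat_lit 978255962) (nat_lit 152) (nat_lit 177779393) (nat_lit 170) (nat_lit 3) (nat_lit 170) (nat_lit 1) (nat_lit 172) (nat_lit 1) (nat_lit 376) (nat_lit 349) (nat_lit 295)) (XT.lf (nat_lit 76) (nat_lit 1292865672) (nat_lit 0) (nat_lit 182488305) (nat_lit 152) (nat_lit 102613069) (nat_lit 169) (nat_lit 1) (nat_lit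 168) (nat_lit 1) (nat_lit 170) (nat_lit 1) (nat_lit 377) (nat_lit 349) (nat_lit 294))))))))
noncomputable def ec41 : XT := (XT.nd (nat_lit 2106) (nat_lit 1824) (nat_lit 0) (XT.nd (nat_lit 1014) (nat_lit 1748) (nat_lit 0) (XT.nd (nat_lit 468) (nat_lit 760) (nat_lit 0) (XT.nd (nat_lit 234) (nat_lit 380) (nat_lit 0) (XT.nd (nat_lit 78) (nat_lit 304) (nat_lit 0) (XT.lf (nat_lit 0) (nat_lit 540776565) (nat_lit 0) (nat_lit 961159366) (nat_lit 152) (nat_lit 35416031) (nat_lit 167) (nat_lit 3) (nat_lit 167) (nat_lit 1) (nat_lit 169) (nat_lit 1) (nat_lit 378) (nat_lit 349) (nat_lit 293)) (XT.nd (nat_lit 78) (nat_lit 76) (nat_lit 0) (XT.lf (nat_lit 152) (nat_lit 1290794823) (nat_lit 0) (nat_lit 35666150) (nat_lit 76) (nat_lit 171606768) (nat_lit 166) (nat_lit 1) (nat_lit 164) (nat_lit 1) (nat_lit 165) (nat_lit 1) (nat_lit 379) (nat_lit 349) (nat_lit 292)) (XT.lf (nat_lit 76) (nat_lit 508657941) (nat_lit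 0) (nat_lit 98951544) (nat_lit 76) (nat_lit 851906031) (nat_lit 164) (nat_lit 3) (nat_lit 163) (nat_lit 1) (nat_lit 164) (nat_lit 1) (nat_lit 380) (nat_lit 349) (nat_lit 291)))) (XT.nd (nat_lit 78) (nat_lit 228) (nat_lit 0) (XT.lf (nat_lit 152) (nat_lit 1186375927) (nat_lit 0) (nat_lit 165796185) (nat_lit 76) (nat_lit 70115273) (nat_lit 163) (nat_lit 1) (nat_lit 161) (nat_lit 1) (nat_lit 162) (nat_lit 1) (nat_lit 381) (nat_lit 349) (nat_lit 290)) (XT.nd (nat_lit 78) (nat_lit 152) (nat_lit 0) (XT.lf (nat_lit 76) (nat_lit 441134774) (nat_lit 0) (nat_lit 223195897) (nat_lit 76) (nat_lit 721401358) (nat_lit 161) (nat_lit 3) (nat_lit 160) (nat_lit 1) (nat_lit 161) (nat_lit 1) (nat_lit 382) (nat_lit 349) (nat_lit 289)) (XT.lf (nat_lit 0) (nat_lit 18619565) (nat_lit 0) (nat_lit 265768228) (nat_lit 152) (nat_lit 1066060812) (nat_lit 158) (nat_lit 3) (nat_lit 158) (nat_lit 1) (nat_lit 160) (nat_lit 1)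 (nat_lit 383) (nat_lit 349) (nat_lit 288))))) (XT.nd (nat_lit 234) (nat_lit 456) (nat_lit 0) (XT.nd (nat_lit 78) (nat_lit 228) (nat_lit 0) (XT.lf (nat_lit 76) (nat_lit 375229996) (nat_lit 0) (nat_lit 336492130) (nat_lit 76) (nat_lit 604071351) (nat_lit 158) (nat_lit 3) (nat_lit 157) (nat_lit 1) (nat_lit 158) (nat_lit 1) (nat_lit 384) (nat_lit 349) (nat_lit 287)) (XT.nd (nat_lit 78) (nat_lit 76) (nat_lit 0) (XT.lf (nat_lit 0) (nat_lit 94695028) (nat_lit 0) (nat_lit 296495164) (nat_lit 152) (nat_lit 891103232) (nat_lit 155) (nat_lit 3) (nat_lit 155) (nat_lit 1) (nat_lit 157) (nat_lit 1) (nat_lit 385) (nat_lit 349) (nat_lit 286)) (XT.lf (nat_lit 76) (nat_lit 311682331) (nat_lit 0) (nat_lit 439264208) (nat_lit 76) (nat_lit 498534309) (nat_lit 155) (nat_lit 3) (nat_lit 154) (nat_lit 1) (nat_lit 155) (nat_lit 1) (nat_lit 386) (nat_lit 349) (nat_lit 285)))) (XT.nd (nat_lit 156) (nat_lit 228) (nat_lit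 0) (XT.nd (nat_lit 78) (nat_lit 76) (nat_lit 0) (XT.lf (nat_lit 0) (nat_lit 161514582) (nat_lit 0) (nat_lit 326287049) (nat_lit 152) (nat_lit 729863758) (nat_lit 152) (nat_lit 3) (nat_lit 152) (nat_lit 1) (nat_lit 154) (nat_lit 1) (nat_lit 387) (nat_lit 349) (nat_lit 284)) (XT.lf (nat_lit 76) (nat_lit 251016998) (nat_lit 0) (nat_lit 531989688) (nat_lit 76) (nat_lit 403584098) (nat_lit 152) (nat_lit 3) (nat_lit 151) (nat_lit 1) (nat_lit 152) (nat_lit 1) (nat_lit 388) (nat_lit 349) (nat_lit 283))) (XT.nd (nat_lit 78) (nat_lit 76) (nat_lit 0) (XT.lf (nat_lit 0) (nat_lit 220087596) (nat_lit 0) (nat_lit 354626484) (nat_lit 152) (nat_lit 581654034) (nat_lit 149) (nat_lit 3) (nat_lit 149) (nat_lit 1) (nat_lit 151) (nat_lit 1) (nat_lit 389) (nat_lit 349) (nat_lit 282)) (XT.lf (nat_lit 76) (nat_lit 193590173) (nat_lit 0) (nat_lit 615180567) (nat_lit 76) (nat_lit 318163217) (nat_lit 149) (nat_lit 3) (nat_lit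 148) (nat_lit 1) (nat_lit 149) (nat_lit 1) (nat_lit 390) (nat_lit 349) (nat_lit 281)))))) (XT.nd (nat_lit 546) (nat_lit 912) (nat_lit 0) (XT.nd (nat_lit 234) (nat_lit 456) (nat_lit 0) (XT.nd (nat_lit 78) (nat_lit 228) (nat_lit 0) (XT.lf (nat_lit 0) (nat_lit 271296514) (nat_lit 0) (nat_lit 381149287) (nat_lit 152) (nat_lit 445772700) (nat_lit 146) (nat_lit 3) (nat_lit 146) (nat_lit 1) (nat_lit 148) (nat_lit 1) (nat_lit 391) (nat_lit 349) (nat_lit 280)) (XT.nd (nat_lit 78) (nat_lit 152) (nat_lit 0) (XT.lf (nat_lit 76) (nat_lit 139624942) (nat_lit 0) (nat_lit 689368252) (nat_lit 76) (nat_lit 241340473) (nat_lit 146) (nat_lit 3) (nat_lit 145) (nat_lit 1) (nat_lit 146) (nat_lit 1) (nat_lit 392) (nat_lit 349) (nat_lit 279)) (XT.lf (nat_lit 0) (nat_lit 315915977) (nat_lit 0) (nat_lit 405612213) (nat_lit 152) (nat_lit 321517275) (nat_lit 143) (nat_lit 3) (nat_lit 143) (nat_lit 1) (nat_lit 145) (nat_lit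 1) (nat_lit 393) (nat_lit 349) (nat_lit 278)))) (XT.nd (nat_lit 156) (nat_lit 228) (nat_lit 0) (XT.nd (nat_lit 78) (nat_lit 152) (nat_lit 0) (XT.lf (nat_lit 76) (nat_lit 89240357) (nat_lit 0) (nat_lit 755091868) (nat_lit 76) (nat_lit 172292427) (nat_lit 143) (nat_lit 3) (nat_lit 142) (nat_lit 1) (nat_lit 143) (nat_lit 1) (nat_lit 394) (nat_lit 349) (nat_lit 277)) (XT.lf (nat_lit 0) (nat_lit 354628707) (nat_lit 0) (nat_lit 427866864) (nat_lit 152) (nat_lit 208193245) (nat_lit 140) (nat_lit 3) (nat_lit 140) (nat_lit 1) (nat_lit 142) (nat_lit 1) (nat_lit 395) (nat_lit 349) (nat_lit 276))) (XT.nd (nat_lit 78) (nat_lit 152) (nat_lit 0) (XT.lf (nat_lit 76) (nat_lit 42474849) (nat_lit 0) (nat_lit 812889242) (nat_lit 76) (nat_lit 110287957) (nat_lit 140) (nat_lit 3) (nat_lit 139) (nat_lit 1) (nat_lit 140) (nat_lit 1) (nat_lit 396) (nat_lit 349) (nat_lit 275)) (XT.lf (nat_lit 0) (nat_lit 388038733) (nat_lit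 0) (nat_lit 447838652) (nat_lit 152) (nat_lit 105120918) (nat_lit 137) (nat_lit 3) (nat_lit 137) (nat_lit 1) (nat_lit 139) (nat_lit 1) (nat_lit 397) (nat_lit 349) (nat_lit 274))))) (XT.nd (nat_lit 234) (nat_lit 456) (nat_lit 0) (XT.nd (nat_lit 78) (nat_lit 304) (nat_lit 0) (XT.lf (nat_lit 76) (nat_lit 862605966) (nat_lit 0) (nat_lit 672685) (nat_lit 152) (nat_lit 53991290) (nat_lit 136) (nat_lit 1) (nat_lit 135) (nat_lit 1) (nat_lit 137) (nat_lit 1) (nat_lit 398) (nat_lit 349) (nat_lit 273)) (XT.nd (nat_lit 78) (nat_lit 228) (nat_lit 0) (XT.lf (nat_lit 0) (nat_lit 416682434) (nat_lit 0) (nat_lit 465509855) (nat_lit 152) (nat_lit 11640483) (nat_lit 134) (nat_lit 3) (nat_lit 134) (nat_lit 1) (nat_lit 136) (nat_lit 1) (nat_lit 399) (nat_lit 349) (nat_lit 272)) (XT.lf (nat_lit 152) (nat_lit 831673961) (nat_lit 0) (nat_lit 35989441) (nat_lit 76) (nat_lit 3620322) (nat_lit 133) (nat_lit 1) (nat_lit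 131) (nat_lit 1) (nat_lit 132) (nat_lit 1) (nat_lit 400) (nat_lit 349) (nat_lit 271)))) (XT.nd (nat_lit 156) (nat_lit 228) (nat_lit 0) (XT.nd (nat_lit 78) (nat_lit 152) (nat_lit 0) (XT.lf (nat_lit 76) (nat_lit 366919092) (nat_lit 0) (nat_lit 75294246) (nat_lit 76) (nat_lit 406787324) (nat_lit 131) (nat_lit 3) (nat_lit 130) (nat_lit 1) (nat_lit 131) (nat_lit 1) (nat_lit 401) (nat_lit 349) (nat_lit 270)) (XT.lf (nat_lit 0) (nat_lit 41478239) (nat_lit 0) (nat_lit 76635410) (nat_lit 152) (nat_lit 709442275) (nat_lit 128) (nat_lit 3) (nat_lit 128) (nat_lit 1) (nat_lit 130) (nat_lit 1) (nat_lit 402) (nat_lit 349) (nat_lit 269))) (XT.nd (nat_lit 78) (nat_lit 152) (nat_lit 0) (XT.lf (nat_lit 76) (nat_lit 309943720) (nat_lit 0) (nat_lit 153992642) (nat_lit 76) (nat_lit 342496656) (nat_lit 128) (nat_lit 3) (nat_lit 127) (nat_lit 1) (nat_lit 128) (nat_lit 1) (nat_lit 403) (nat_lit 349) (nat_lit 268)) (XT.lf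 (nat_lit 0) (nat_lit 81616846) (nat_lit 0) (nat_lit 110323139) (nat_lit 152) (nat_lit 594102827) (nat_lit 125) (nat_lit 3) (nat_lit 125) (nat_lit 1) (nat_lit 127) (nat_lit 1) (nat_lit 404) (nat_lit 349) (nat_lit 267))))))) (XT.nd (nat_lit 1014) (nat_lit 380) (nat_lit 0) (XT.nd (nat_lit 468) (nat_lit 760) (nat_lit 0) (XT.nd (nat_lit 234) (nat_lit 380) (nat_lit 0) (XT.nd (nat_lit 78) (nat_lit 228) (nat_lit 0) (XT.lf (nat_lit 76) (nat_lit 257384569) (nat_lit 0) (nat_lit 224671797) (nat_lit 76) (nat_lit 283964470) (nat_lit 125) (nat_lit 3) (nat_lit 124) (nat_lit 1) (nat_lit 125) (nat_lit 1) (nat_lit 405) (nat_lit 349) (nat_lit 266)) (XT.nd (nat_lit 78) (nat_lit 76) (nat_lit 0) (XT.lf (nat_lit 0) (nat_lit 117335365) (nat_lit 0) (nat_lit 140774431) (nat_lit 152) (nat_lit 488522153) (nat_lit 122) (nat_lit 3) (nat_lit 122) (nat_lit 1) (nat_lit 124) (nat_lit 1) (nat_lit 406) (nat_lit 349) (nat_lit 265))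 (XT.lf (nat_lit 76) (nat_lit 209022631) (nat_lit 0) (nat_lit 287904271) (nat_lit 76) (nat_lit 230725470) (nat_lit 122) (nat_lit 3) (nat_lit 121) (nat_lit 1) (nat_lit 122) (nat_lit 1) (nat_lit 407) (nat_lit 349) (nat_lit 264)))) (XT.nd (nat_lit 78) (nat_lit 228) (nat_lit 0) (XT.lf (nat_lit 0) (nat_lit 149018701) (nat_lit 0) (nat_lit 168157007) (nat_lit 152) (nat_lit 392038803) (nat_lit 119) (nat_lit 3) (nat_lit 119) (nat_lit 1) (nat_lit 121) (nat_lit 1) (nat_lit 408) (nat_lit 349) (nat_lit 263)) (XT.nd (nat_lit 78) (nat_lit 152) (nat_lit 0) (XT.lf (nat_lit 76) (nat_lit 164634285) (nat_lit 0) (nat_lit 344232865) (nat_lit 76) (nat_lit 182354938) (nat_lit 119) (nat_lit 3) (nat_lit 118) (nat_lit 1) (nat_lit 119) (nat_lit 1) (nat_lit 409) (nat_lit 349) (nat_lit 262)) (XT.lf (nat_lit 0) (nat_lit 177017085) (nat_lit 0) (nat_lit 192643763) (nat_lit 152) (nat_lit 304026817) (nat_lit 116) (nat_lit 3) (nat_lit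 116) (nat_lit 1) (nat_lit 118) (nat_lit 1) (nat_lit 410) (nat_lit 349) (nat_lit 261))))) (XT.nd (nat_lit 234) (nat_lit 456) (nat_lit 0) (XT.nd (nat_lit 78) (nat_lit 228) (nat_lit 0) (XT.lf (nat_lit 76) (nat_lit 123995183) (nat_lit 0) (nat_lit 394170712) (nat_lit 76) (nat_lit 138464330) (nat_lit 116) (nat_lit 3) (nat_lit 115) (nat_lit 1) (nat_lit 116) (nat_lit 1) (nat_lit 411) (nat_lit 349) (nat_lit 260)) (XT.nd (nat_lit 78) (nat_lit 76) (nat_lit 0) (XT.lf (nat_lit 0) (nat_lit 201649870) (nat_lit 0) (nat_lit 214409259) (nat_lit 152) (nat_lit 223895062) (nat_lit 113) (nat_lit 3) (nat_lit 113) (nat_lit 1) (nat_lit 115) (nat_lit 1) (nat_lit 412) (nat_lit 349) (nat_lit 259)) (XT.lf (nat_lit 76) (nat_lit 86883239) (nat_lit 0) (nat_lit 438201710) (nat_lit 76) (nat_lit 98697488) (nat_lit 113) (nat_lit 3) (nat_lit 112) (nat_lit 1) (nat_lit 113) (nat_lit 1) (nat_lit 413) (nat_lit 349) (nat_lit 258))))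 (XT.nd (nat_lit 156) (nat_lit 228) (nat_lit 0) (XT.nd (nat_lit 78) (nat_lit 76) (nat_lit 0) (XT.lf (nat_lit 0) (nat_lit 223208797) (nat_lit 0) (nat_lit 233627006) (nat_lit 152) (nat_lit 151086314) (nat_lit 110) (nat_lit 3) (nat_lit 110) (nat_lit 1) (nat_lit 112) (nat_lit 1) (nat_lit 414) (nat_lit 349) (nat_lit 257)) (XT.lf (nat_lit 76) (nat_lit 53080879) (nat_lit 0) (nat_lit 476781205) (nat_lit 76) (nat_lit 62727369) (nat_lit 110) (nat_lit 3) (nat_lit 109) (nat_lit 1) (nat_lit 110) (nat_lit 1) (nat_lit 415) (nat_lit 349) (nat_lit 256))) (XT.nd (nat_lit 78) (nat_lit 76) (nat_lit 0) (XT.lf (nat_lit 0) (nat_lit 241960816) (nat_lit 0) (nat_lit 250467421) (nat_lit 152) (nat_lit 85076157) (nat_lit 107) (nat_lit 3) (nat_lit 107) (nat_lit 1) (nat_lit 109) (nat_lit 1) (nat_lit 416) (nat_lit 349) (nat_lit 255)) (XT.lf (nat_lit 76) (nat_lit 22376708) (nat_lit 0) (nat_lit 510336855) (nat_lit 76) (nat_lit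 30253194) (nat_lit 107) (nat_lit 3) (nat_lit 106) (nat_lit 1) (nat_lit 107) (nat_lit 1) (nat_lit 417) (nat_lit 349) (nat_lit 254)))))) (XT.nd (nat_lit 45864) (nat_lit 0) (nat_lit 12540) (XT.nd (nat_lit 45552) (nat_lit 0) (nat_lit 14592) (XT.nd (nat_lit 78) (nat_lit 228) (nat_lit 0) (XT.lf (nat_lit 0) (nat_lit 258150543) (nat_lit 0) (nat_lit 265096298) (nat_lit 152) (nat_lit 25371760) (nat_lit 104) (nat_lit 3) (nat_lit 104) (nat_lit 1) (nat_lit 106) (nat_lit 1) (nat_lit 418) (nat_lit 349) (nat_lit 253)) (XT.nd (nat_lit 45396) (nat_lit 0) (nat_lit 14516) (XT.lf (nat_lit 152) (nat_lit 529497005) (nat_lit 0) (nat_lit 4494338) (nat_lit 76) (nat_lit 835218) (nat_lit 103) (nat_lit 1) (nat_lit 101) (nat_lit 1) (nat_lit 102) (nat_lit 1) (nat_lit 419) (nat_lit 349) (nat_lit 252)) (XT.lf (nat_lit 836) (nat_lit 1160078114) (nat_lit 0) (nat_lit 2059716026) (nat_lit 836) (nat_lit 1160078114) (nat_lit 303)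 (nat_lit 1) (nat_lit 292) (nat_lit 0) (nat_lit 303) (nat_lit 0) (nat_lit 320) (nat_lit 350) (nat_lit 350)))) (XT.nd (nat_lit 156) (nat_lit 0) (nat_lit 76) (XT.nd (nat_lit 78) (nat_lit 0) (nat_lit 0) (XT.lf (nat_lit 836) (nat_lit 432744732) (nat_lit 0) (nat_lit 4043846811) (nat_lit 760) (nat_lit 3954868671) (nat_lit 304) (nat_lit 1) (nat_lit 293) (nat_lit 1) (nat_lit 303) (nat_lit 1) (nat_lit 321) (nat_lit 350) (nat_lit 349)) (XT.lf (nat_lit 836) (nat_lit 3974510587) (nat_lit 76) (nat_lit 2708165572) (nat_lit 0) (nat_lit 1436287483) (nat_lit 304) (nat_lit 1) (nat_lit 294) (nat_lit 1) (nat_lit 293) (nat_lit 1) (nat_lit 322) (nat_lit 350) (nat_lit 348))) (XT.nd (nat_lit 78) (nat_lit 0) (nat_lit 76) (XT.lf (nat_lit 836) (nat_lit 3434302744) (nat_lit 76) (nat_lit 1134973420) (nat_lit 0) (nat_lit 3252829029) (nat_lit 305) (nat_lit 1) (nat_lit 295) (nat_lit 1) (nat_lit 294) (nat_lit 1) (nat_lit 323)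 (nat_lit 350) (nat_lit 347)) (XT.lf (nat_lit 836) (nat_lit 2541676005) (nat_lit 0) (nat_lit 4755355665) (nat_lit 760) (nat_lit 243093102) (nat_lit 306) (nat_lit 1) (nat_lit 295) (nat_lit 1) (nat_lit 305) (nat_lit 1) (nat_lit 324) (nat_lit 350) (nat_lit 346))))) (XT.nd (nat_lit 234) (nat_lit 1596) (nat_lit 0) (XT.nd (nat_lit 78) (nat_lit 684) (nat_lit 0) (XT.lf (nat_lit 836) (nat_lit 609850236) (nat_lit 0) (nat_lit 5244100710) (nat_lit 760) (nat_lit 1417659943) (nat_lit 307) (nat_lit 1) (nat_lit 296) (nat_lit 1) (nat_lit 306) (nat_lit 1) (nat_lit 325) (nat_lit 350) (nat_lit 345)) (XT.nd (nat_lit 78) (nat_lit 684) (nat_lit 0) (XT.lf (nat_lit 836) (nat_lit 1171884108) (nat_lit 76) (nat_lit 4557550562) (nat_lit 0) (nat_lit 1286196998) (nat_lit 307) (nat_lit 1) (nat_lit 297) (nat_lit 1) (nat_lit 296) (nat_lit 1) (nat_lit 326) (nat_lit 350) (nat_lit 344)) (XT.lf (nat_lit 836) (nat_lit 240678273) (nat_lit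 0) (nat_lit 3407070516) (nat_lit 760) (nat_lit 3124247964) (nat_lit 298) (nat_lit 1) (nat_lit 287) (nat_lit 1) (nat_lit 297) (nat_lit 1) (nat_lit 327) (nat_lit 350) (nat_lit 343)))) (XT.nd (nat_lit 156) (nat_lit 684) (nat_lit 0) (XT.nd (nat_lit 78) (nat_lit 380) (nat_lit 0) (XT.lf (nat_lit 76) (nat_lit 1666506499) (nat_lit 0) (nat_lit 722174819) (nat_lit 532) (nat_lit 4151216397) (nat_lit 281) (nat_lit 1) (nat_lit 280) (nat_lit 1) (nat_lit 287) (nat_lit 1) (nat_lit 328) (nat_lit 350) (nat_lit 342)) (XT.lf (nat_lit 456) (nat_lit 4592682155) (nat_lit 0) (nat_lit 1495017051) (nat_lit 380) (nat_lit 231138873) (nat_lit 281) (nat_lit 1) (nat_lit 275) (nat_lit 1) (nat_lit 280) (nat_lit 1) (nat_lit 329) (nat_lit 350) (nat_lit 341))) (XT.nd (nat_lit 78) (nat_lit 304) (nat_lit 0) (XT.lf (nat_lit 456) (nat_lit 3314123178) (nat_lit 0) (nat_lit 696833887) (nat_lit 380) (nat_lit 2096326548) (nat_lit 276) (nat_lit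 1) (nat_lit 270) (nat_lit 1) (nat_lit 275) (nat_lit 1) (nat_lit 330) (nat_lit 350) (nat_lit 340)) (XT.lf (nat_lit 380) (nat_lit 2016601685) (nat_lit 0) (nat_lit 12829844) (nat_lit 304) (nat_lit 3876555434) (nat_lit 271) (nat_lit 1) (nat_lit 266) (nat_lit 1) (nat_lit 270) (nat_lit 1) (nat_lit 331) (nat_lit 350) (nat_lit 339))))))))
noncomputable def ec42 : XT := (XT.nd (nat_lit 2028) (nat_lit 3192) (nat_lit 0) (XT.nd (nat_lit 1014) (nat_lit 2128) (nat_lit 0) (XT.nd (nat_lit 468) (nat_lit 1596) (nat_lit 0) (XT.nd (nat_lit 234) (nat_lit 912) (nat_lit 0) (XT.nd (nat_lit 78) (nat_lit 684) (nat_lit 0) (XT.lf (nat_lit 76) (nat_lit 148775341) (nat_lit 0) (nat_lit 5017425433) (nat_lit 380) (nat_lit 547749543) (nat_lit 267) (nat_lit 1) (nat_lit 266) (nat_lit 1) (nat_lit 271) (nat_lit 1) (nat_lit 332) (nat_lit 350) (nat_lit 338)) (XT.nd (nat_lit 78) (nat_lit 304) (nat_lit 0) (XT.lf (nat_lit 76) (nat_lit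 3841417916) (nat_lit 0) (nat_lit 637140264) (nat_lit 380) (nat_lit 1050760009) (nat_lit 262) (nat_lit 1) (nat_lit 261) (nat_lit 1) (nat_lit 266) (nat_lit 1) (nat_lit 333) (nat_lit 350) (nat_lit 337)) (XT.lf (nat_lit 76) (nat_lit 1921958727) (nat_lit 0) (nat_lit 1951673732) (nat_lit 380) (nat_lit 1479211590) (nat_lit 258) (nat_lit 1) (nat_lit 257) (nat_lit 1) (nat_lit 262) (nat_lit 1) (nat_lit 334) (nat_lit 350) (nat_lit 336)))) (XT.nd (nat_lit 78) (nat_lit 608) (nat_lit 0) (XT.lf (nat_lit 76) (nat_lit 94863620) (nat_lit 0) (nat_lit 3263168175) (nat_lit 380) (nat_lit 1826693581) (nat_lit 254) (nat_lit 1) (nat_lit 253) (nat_lit 1) (nat_lit 258) (nat_lit 1) (nat_lit 335) (nat_lit 350) (nat_lit 335)) (XT.nd (nat_lit 78) (nat_lit 380) (nat_lit 0) (XT.lf (nat_lit 304) (nat_lit 428398765) (nat_lit 0) (nat_lit 2897055790) (nat_lit 228) (nat_lit 1697741274) (nat_lit 254) (nat_lit 1) (nat_lit 250) (nat_lit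 1) (nat_lit 253) (nat_lit 1) (nat_lit 336) (nat_lit 350) (nat_lit 334)) (XT.lf (nat_lit 76) (nat_lit 1480232914) (nat_lit 0) (nat_lit 1014560837) (nat_lit 380) (nat_lit 2373545611) (nat_lit 246) (nat_lit 1) (nat_lit 245) (nat_lit 1) (nat_lit 250) (nat_lit 1) (nat_lit 337) (nat_lit 350) (nat_lit 333))))) (XT.nd (nat_lit 234) (nat_lit 836) (nat_lit 0) (XT.nd (nat_lit 78) (nat_lit 532) (nat_lit 0) (XT.lf (nat_lit 304) (nat_lit 2291756593) (nat_lit 0) (nat_lit 2152809117) (nat_lit 228) (nat_lit 275557012) (nat_lit 246) (nat_lit 1) (nat_lit 242) (nat_lit 1) (nat_lit 245) (nat_lit 1) (nat_lit 338) (nat_lit 350) (nat_lit 332)) (XT.nd (nat_lit 78) (nat_lit 304) (nat_lit 0) (XT.lf (nat_lit 304) (nat_lit 734496916) (nat_lit 0) (nat_lit 1853480493) (nat_lit 228) (nat_lit 1989624680) (nat_lit 243) (nat_lit 1) (nat_lit 239) (nat_lit 1) (nat_lit 242) (nat_lit 1) (nat_lit 339) (nat_lit 350) (nat_lit 331)) (XT.lf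 (nat_lit 76) (nat_lit 837149006) (nat_lit 0) (nat_lit 766482665) (nat_lit 304) (nat_lit 2837368934) (nat_lit 236) (nat_lit 1) (nat_lit 235) (nat_lit 1) (nat_lit 239) (nat_lit 1) (nat_lit 340) (nat_lit 350) (nat_lit 330)))) (XT.nd (nat_lit 156) (nat_lit 456) (nat_lit 0) (XT.nd (nat_lit 78) (nat_lit 152) (nat_lit 0) (XT.lf (nat_lit 304) (nat_lit 2083135428) (nat_lit 0) (nat_lit 1386041118) (nat_lit 228) (nat_lit 840222683) (nat_lit 236) (nat_lit 1) (nat_lit 232) (nat_lit 1) (nat_lit 235) (nat_lit 1) (nat_lit 341) (nat_lit 350) (nat_lit 329)) (XT.lf (nat_lit 228) (nat_lit 516412348) (nat_lit 0) (nat_lit 1209219778) (nat_lit 152) (nat_lit 2457474893) (nat_lit 233) (nat_lit 1) (nat_lit 230) (nat_lit 1) (nat_lit 232) (nat_lit 1) (nat_lit 342) (nat_lit 350) (nat_lit 328))) (XT.nd (nat_lit 78) (nat_lit 152) (nat_lit 0) (XT.lf (nat_lit 76) (nat_lit 87483551) (nat_lit 0) (nat_lit 978959928) (nat_lit 304)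 (nat_lit 2995266749) (nat_lit 227) (nat_lit 1) (nat_lit 226) (nat_lit 1) (nat_lit 230) (nat_lit 1) (nat_lit 343) (nat_lit 350) (nat_lit 327)) (XT.lf (nat_lit 228) (nat_lit 1500599529) (nat_lit 0) (nat_lit 937745969) (nat_lit 152) (nat_lit 1505821631) (nat_lit 227) (nat_lit 1) (nat_lit 224) (nat_lit 1) (nat_lit 226) (nat_lit 1) (nat_lit 344) (nat_lit 350) (nat_lit 326)))))) (XT.nd (nat_lit 468) (nat_lit 1064) (nat_lit 0) (XT.nd (nat_lit 234) (nat_lit 532) (nat_lit 0) (XT.nd (nat_lit 78) (nat_lit 304) (nat_lit 0) (XT.lf (nat_lit 76) (nat_lit 814162594) (nat_lit 0) (nat_lit 37606680) (nat_lit 228) (nat_lit 2979983934) (nat_lit 222) (nat_lit 1) (nat_lit 221) (nat_lit 1) (nat_lit 224) (nat_lit 1) (nat_lit 345) (nat_lit 350) (nat_lit 325)) (XT.nd (nat_lit 78) (nat_lit 152) (nat_lit 0) (XT.lf (nat_lit 228) (nat_lit 2225763314) (nat_lit 0) (nat_lit 771276894) (nat_lit 152) (nat_lit 725569119) (nat_lit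 222) (nat_lit 1) (nat_lit 219) (nat_lit 1) (nat_lit 221) (nat_lit 1) (nat_lit 346) (nat_lit 350) (nat_lit 324)) (XT.lf (nat_lit 228) (nat_lit 691411278) (nat_lit 0) (nat_lit 716987162) (nat_lit 152) (nat_lit 2209240055) (nat_lit 220) (nat_lit 1) (nat_lit 217) (nat_lit 1) (nat_lit 219) (nat_lit 1) (nat_lit 347) (nat_lit 350) (nat_lit 323)))) (XT.nd (nat_lit 78) (nat_lit 304) (nat_lit 0) (XT.lf (nat_lit 228) (nat_lit 2744648673) (nat_lit 0) (nat_lit 685023039) (nat_lit 152) (nat_lit 86903119) (nat_lit 217) (nat_lit 1) (nat_lit 214) (nat_lit 1) (nat_lit 216) (nat_lit 1) (nat_lit 348) (nat_lit 350) (nat_lit 322)) (XT.nd (nat_lit 78) (nat_lit 152) (nat_lit 0) (XT.lf (nat_lit 228) (nat_lit 1228377542) (nat_lit 0) (nat_lit 653966049) (nat_lit 152) (nat_lit 1535975817) (nat_lit 215) (nat_lit 1) (nat_lit 212) (nat_lit 1) (nat_lit 214) (nat_lit 1) (nat_lit 349) (nat_lit 350) (nat_lit 321)) (XT.lf (nat_lit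 76) (nat_lit 420766734) (nat_lit 0) (nat_lit 231272357) (nat_lit 152) (nat_lit 2672100274) (nat_lit 211) (nat_lit 1) (nat_lit 210) (nat_lit 1) (nat_lit 212) (nat_lit 1) (nat_lit 350) (nat_lit 350) (nat_lit 320))))) (XT.nd (nat_lit 234) (nat_lit 608) (nat_lit 0) (XT.nd (nat_lit 78) (nat_lit 304) (nat_lit 0) (XT.lf (nat_lit 228) (nat_lit 1611701980) (nat_lit 0) (nat_lit 645134724) (nat_lit 152) (nat_lit 975499163) (nat_lit 211) (nat_lit 1) (nat_lit 208) (nat_lit 1) (nat_lit 210) (nat_lit 1) (nat_lit 351) (nat_lit 350) (nat_lit 319)) (XT.nd (nat_lit 78) (nat_lit 228) (nat_lit 0) (XT.lf (nat_lit 152) (nat_lit 173557401) (nat_lit 0) (nat_lit 660980066) (nat_lit 76) (nat_lit 2309619185) (nat_lit 209) (nat_lit 1) (nat_lit 207) (nat_lit 1) (nat_lit 208) (nat_lit 1) (nat_lit 352) (nat_lit 350) (nat_lit 318)) (XT.lf (nat_lit 228) (nat_lit 1873488070) (nat_lit 0) (nat_lit 676006223) (nat_lit 152) (nat_lit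 508914518) (nat_lit 207) (nat_lit 1) (nat_lit 204) (nat_lit 1) (nat_lit 206) (nat_lit 1) (nat_lit 353) (nat_lit 350) (nat_lit 317)))) (XT.nd (nat_lit 156) (nat_lit 304) (nat_lit 0) (XT.nd (nat_lit 78) (nat_lit 228) (nat_lit 0) (XT.lf (nat_lit 152) (nat_lit 471196064) (nat_lit 0) (nat_lit 701282777) (nat_lit 76) (nat_lit 1803072003) (nat_lit 205) (nat_lit 1) (nat_lit 203) (nat_lit 1) (nat_lit 204) (nat_lit 1) (nat_lit 354) (nat_lit 350) (nat_lit 316)) (XT.lf (nat_lit 228) (nat_lit 2039691884) (nat_lit 0) (nat_lit 735105853) (nat_lit 152) (nat_lit 120637163) (nat_lit 203) (nat_lit 1) (nat_lit 200) (nat_lit 1) (nat_lit 202) (nat_lit 1) (nat_lit 355) (nat_lit 350) (nat_lit 315))) (XT.nd (nat_lit 78) (nat_lit 228) (nat_lit 0) (XT.lf (nat_lit 152) (nat_lit 678115781) (nat_lit 0) (nat_lit 766356685) (nat_lit 76) (nat_lit 1372994184) (nat_lit 201) (nat_lit 1) (nat_lit 199) (nat_lit 1) (nat_lit 200) (nat_lit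 1) (nat_lit 356) (nat_lit 350) (nat_lit 314)) (XT.lf (nat_lit 76) (nat_lit 195731201) (nat_lit 0) (nat_lit 614348065) (nat_lit 228) (nat_lit 1932220148) (nat_lit 197) (nat_lit 1) (nat_lit 196) (nat_lit 1) (nat_lit 199) (nat_lit 1) (nat_lit 357) (nat_lit 350) (nat_lit 313))))))) (XT.nd (nat_lit 1014) (nat_lit 1672) (nat_lit 0) (XT.nd (nat_lit 468) (nat_lit 760) (nat_lit 0) (XT.nd (nat_lit 234) (nat_lit 380) (nat_lit 0) (XT.nd (nat_lit 78) (nat_lit 304) (nat_lit 0) (XT.lf (nat_lit 152) (nat_lit 813800119) (nat_lit 0) (nat_lit 847941151) (nat_lit 76) (nat_lit 1007257641) (nat_lit 197) (nat_lit 1) (nat_lit 195) (nat_lit 1) (nat_lit 196) (nat_lit 1) (nat_lit 358) (nat_lit 350) (nat_lit 312)) (XT.nd (nat_lit 78) (nat_lit 76) (nat_lit 0) (XT.lf (nat_lit 76) (nat_lit 455197893) (nat_lit 0) (nat_lit 440889939) (nat_lit 228) (nat_lit 1702186534) (nat_lit 193) (nat_lit 1) (nat_lit 192) (nat_lit 1) (nat_lit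 195) (nat_lit 1) (nat_lit 359) (nat_lit 350) (nat_lit 311)) (XT.lf (nat_lit 152) (nat_lit 893961257) (nat_lit 0) (nat_lit 939587814) (nat_lit 76) (nat_lit 695807736) (nat_lit 193) (nat_lit 1) (nat_lit 191) (nat_lit 1) (nat_lit 192) (nat_lit 1) (nat_lit 360) (nat_lit 350) (nat_lit 310)))) (XT.nd (nat_lit 78) (nat_lit 228) (nat_lit 0) (XT.lf (nat_lit 76) (nat_lit 670156558) (nat_lit 0) (nat_lit 319317609) (nat_lit 152) (nat_lit 1473241111) (nat_lit 190) (nat_lit 1) (nat_lit 189) (nat_lit 1) (nat_lit 191) (nat_lit 1) (nat_lit 361) (nat_lit 350) (nat_lit 309)) (XT.nd (nat_lit 78) (nat_lit 152) (nat_lit 0) (XT.lf (nat_lit 152) (nat_lit 931244695) (nat_lit 0) (nat_lit 1036307387) (nat_lit 76) (nat_lit 430293420) (nat_lit 190) (nat_lit 1) (nat_lit 188) (nat_lit 1) (nat_lit 189) (nat_lit 1) (nat_lit 362) (nat_lit 350) (nat_lit 308)) (XT.lf (nat_lit 76) (nat_lit 847685736) (nat_lit 0) (nat_lit 238215100)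 (nat_lit 152) (nat_lit 1249070216) (nat_lit 187) (nat_lit 1) (nat_lit 186) (nat_lit 1) (nat_lit 188) (nat_lit 1) (nat_lit 363) (nat_lit 350) (nat_lit 307))))) (XT.nd (nat_lit 234) (nat_lit 456) (nat_lit 0) (XT.nd (nat_lit 78) (nat_lit 228) (nat_lit 0) (XT.lf (nat_lit 152) (nat_lit 935803870) (nat_lit 0) (nat_lit 1134282600) (nat_lit 76) (nat_lit 203764544) (nat_lit 187) (nat_lit 1) (nat_lit 185) (nat_lit 1) (nat_lit 186) (nat_lit 1) (nat_lit 364) (nat_lit 350) (nat_lit 306)) (XT.nd (nat_lit 78) (nat_lit 76) (nat_lit 0) (XT.lf (nat_lit 76) (nat_lit 993668483) (nat_lit 0) (nat_lit 188402908) (nat_lit 152) (nat_lit 1032393126) (nat_lit 184) (nat_lit 1) (nat_lit 183) (nat_lit 1) (nat_lit 185) (nat_lit 1) (nat_lit 365) (nat_lit 350) (nat_lit 305)) (XT.lf (nat_lit 152) (nat_lit 915768598) (nat_lit 0) (nat_lit 1230635084) (nat_lit 76) (nat_lit 10424075) (nat_lit 184) (nat_lit 1) (nat_lit 182) (nat_lit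 1) (nat_lit 183) (nat_lit 1) (nat_lit 366) (nat_lit 350) (nat_lit 304)))) (XT.nd (nat_lit 156) (nat_lit 228) (nat_lit 0) (XT.nd (nat_lit 78) (nat_lit 76) (nat_lit 0) (XT.lf (nat_lit 76) (nat_lit 1113003982) (nat_lit 0) (nat_lit 162518063) (nat_lit 152) (nat_lit 825159129) (nat_lit 181) (nat_lit 1) (nat_lit 180) (nat_lit 1) (nat_lit 182) (nat_lit 1) (nat_lit 367) (nat_lit 350) (nat_lit 303)) (XT.lf (nat_lit 0) (nat_lit 149627477) (nat_lit 0) (nat_lit 1171074707) (nat_lit 152) (nat_lit 725465368) (nat_lit 179) (nat_lit 3) (nat_lit 179) (nat_lit 1) (nat_lit 181) (nat_lit 1) (nat_lit 368) (nat_lit 350) (nat_lit 302))) (XT.nd (nat_lit 78) (nat_lit 76) (nat_lit 0) (XT.lf (nat_lit 76) (nat_lit 1209780855) (nat_lit 0) (nat_lit 154671850) (nat_lit 152) (nat_lit 628707178) (nat_lit 178) (nat_lit 1) (nat_lit 177) (nat_lit 1) (nat_lit 179) (nat_lit 1) (nat_lit 369) (nat_lit 350) (nat_lit 301)) (XT.lf (nat_lit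 0) (nat_lit 285843837) (nat_lit 0) (nat_lit 1119868945) (nat_lit 152) (nat_lit 535851146) (nat_lit 176) (nat_lit 3) (nat_lit 176) (nat_lit 1) (nat_lit 178) (nat_lit 1) (nat_lit 370) (nat_lit 350) (nat_lit 300)))))) (XT.nd (nat_lit 546) (nat_lit 760) (nat_lit 0) (XT.nd (nat_lit 234) (nat_lit 532) (nat_lit 0) (XT.nd (nat_lit 78) (nat_lit 228) (nat_lit 0) (XT.lf (nat_lit 76) (nat_lit 1287419158) (nat_lit 0) (nat_lit 160170919) (nat_lit 152) (nat_lit 443895085) (nat_lit 175) (nat_lit 1) (nat_lit 174) (nat_lit 1) (nat_lit 176) (nat_lit 1) (nat_lit 371) (nat_lit 350) (nat_lit 299)) (XT.nd (nat_lit 78) (nat_lit 152) (nat_lit 0) (XT.lf (nat_lit 0) (nat_lit 401864624) (nat_lit 0) (nat_lit 1082857102) (nat_lit 152) (nat_lit 357905157) (nat_lit 173) (nat_lit 3) (nat_lit 173) (nat_lit 1) (nat_lit 175) (nat_lit 1) (nat_lit 372) (nat_lit 350) (nat_lit 298)) (XT.lf (nat_lit 76) (nat_lit 1348786782) (nat_lit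 0) (nat_lit 175290091) (nat_lit 152) (nat_lit 271203902) (nat_lit 172) (nat_lit 1) (nat_lit 171) (nat_lit 1) (nat_lit 173) (nat_lit 1) (nat_lit 373) (nat_lit 350) (nat_lit 297)))) (XT.nd (nat_lit 156) (nat_lit 304) (nat_lit 0) (XT.nd (nat_lit 78) (nat_lit 152) (nat_lit 0) (XT.lf (nat_lit 0) (nat_lit 500477117) (nat_lit 0) (nat_lit 1056516439) (nat_lit 152) (nat_lit 192001745) (nat_lit 170) (nat_lit 3) (nat_lit 170) (nat_lit 1) (nat_lit 172) (nat_lit 1) (nat_lit 374) (nat_lit 350) (nat_lit 296)) (XT.lf (nat_lit 76) (nat_lit 1396294926) (nat_lit 0) (nat_lit 197087369) (nat_lit 152) (nat_lit 110822115) (nat_lit 169) (nat_lit 1) (nat_lit 168) (nat_lit 1) (nat_lit 170) (nat_lit 1) (nat_lit 375) (nat_lit 350) (nat_lit 295))) (XT.nd (nat_lit 78) (nat_lit 228) (nat_lit 0) (XT.lf (nat_lit 0) (nat_lit 584038690) (nat_lit 0) (nat_lit 1038052115) (nat_lit 152) (nat_lit 38249314) (nat_lit 167) (nat_lit 3)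 (nat_lit 167) (nat_lit 1) (nat_lit 169) (nat_lit 1) (nat_lit 376) (nat_lit 350) (nat_lit 294)) (XT.lf (nat_lit 152) (nat_lit 1394058409) (nat_lit 0) (nat_lit 38519442) (nat_lit 76) (nat_lit 185335310) (nat_lit 166) (nat_lit 1) (nat_lit 164) (nat_lit 1) (nat_lit 165) (nat_lit 1) (nat_lit 377) (nat_lit 350) (nat_lit 293))))) (XT.nd (nat_lit 234) (nat_lit 456) (nat_lit 0) (XT.nd (nat_lit 78) (nat_lit 228) (nat_lit 0) (XT.lf (nat_lit 76) (nat_lit 549350576) (nat_lit 0) (nat_lit 106867668) (nat_lit 76) (nat_lit 920058514) (nat_lit 164) (nat_lit 3) (nat_lit 163) (nat_lit 1) (nat_lit 164) (nat_lit 1) (nat_lit 378) (nat_lit 350) (nat_lit 292)) (XT.nd (nat_lit 78) (nat_lit 76) (nat_lit 0) (XT.lf (nat_lit 152) (nat_lit 1281286001) (nat_lit 0) (nat_lit 179059879) (nat_lit 76) (nat_lit 75724495) (nat_lit 163) (nat_lit 1) (nat_lit 161) (nat_lit 1) (nat_lit 162) (nat_lit 1) (nat_lit 379) (nat_lit 350) (nat_lit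 291)) (XT.lf (nat_lit 76) (nat_lit 476425556) (nat_lit 0) (nat_lit 241051569) (nat_lit 76) (nat_lit 779113466) (nat_lit 161) (nat_lit 3) (nat_lit 160) (nat_lit 1) (nat_lit 161) (nat_lit 1) (nat_lit 380) (nat_lit 350) (nat_lit 290)))) (XT.nd (nat_lit 156) (nat_lit 228) (nat_lit 0) (XT.nd (nat_lit 78) (nat_lit 76) (nat_lit 0) (XT.lf (nat_lit 0) (nat_lit 20109131) (nat_lit 0) (nat_lit 287029686) (nat_lit 152) (nat_lit 1151345677) (nat_lit 158) (nat_lit 3) (nat_lit 158) (nat_lit 1) (nat_lit 160) (nat_lit 1) (nat_lit 381) (nat_lit 350) (nat_lit 289)) (XT.lf (nat_lit 76) (nat_lit 405248396) (nat_lit 0) (nat_lit 363411501) (nat_lit 76) (nat_lit 652397059) (nat_lit 158) (nat_lit 3) (nat_lit 157) (nat_lit 1) (nat_lit 158) (nat_lit 1) (nat_lit 382) (nat_lit 350) (nat_lit 288))) (XT.nd (nat_lit 78) (nat_lit 76) (nat_lit 0) (XT.lf (nat_lit 0) (nat_lit 102270630) (nat_lit 0) (nat_lit 320214777) (nat_lit 152)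 (nat_lit 962391490) (nat_lit 155) (nat_lit 3) (nat_lit 155) (nat_lit 1) (nat_lit 157) (nat_lit 1) (nat_lit 383) (nat_lit 350) (nat_lit 287)) (XT.lf (nat_lit 76) (nat_lit 336616917) (nat_lit 0) (nat_lit 474405345) (nat_lit 76) (nat_lit 538417053) (nat_lit 155) (nat_lit 3) (nat_lit 154) (nat_lit 1) (nat_lit 155) (nat_lit 1) (nat_lit 384) (nat_lit 350) (nat_lit 286))))))))
noncomputable def ec43 : XT := (XT.nd (nat_lit 2106) (nat_lit 1064) (nat_lit 0) (XT.nd (nat_lit 1014) (nat_lit 1672) (nat_lit 0) (XT.nd (nat_lit 468) (nat_lit 836) (nat_lit 0) (XT.nd (nat_lit 234) (nat_lit 304) (nat_lit 0) (XT.nd (nat_lit 78) (nat_lit 228) (nat_lit 0) (XT.lf (nat_lit 0) (nat_lit 174435749) (nat_lit 0) (nat_lit 352390013) (nat_lit 152) (nat_lit 788252859) (nat_lit 152) (nat_lit 3) (nat_lit 152) (nat_lit 1) (nat_lit 154) (nat_lit 1) (nat_lit 385) (nat_lit 350) (nat_lit 285)) (XT.nd (nat_lit 78) (nat_lit 152) (nat_lit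 0) (XT.lf (nat_lit 76) (nat_lit 271098358) (nat_lit 0) (nat_lit 574548863) (nat_lit 76) (nat_lit 435870826) (nat_lit 152) (nat_lit 3) (nat_lit 151) (nat_lit 1) (nat_lit 152) (nat_lit 1) (nat_lit 386) (nat_lit 350) (nat_lit 284)) (XT.lf (nat_lit 0) (nat_lit 237694604) (nat_lit 0) (nat_lit 382996603) (nat_lit 152) (nat_lit 628186357) (nat_lit 149) (nat_lit 3) (nat_lit 149) (nat_lit 1) (nat_lit 151) (nat_lit 1) (nat_lit 387) (nat_lit 350) (nat_lit 283)))) (XT.nd (nat_lit 78) (nat_lit 228) (nat_lit 0) (XT.lf (nat_lit 76) (nat_lit 209077387) (nat_lit 0) (nat_lit 664395012) (nat_lit 76) (nat_lit 343616275) (nat_lit 149) (nat_lit 3) (nat_lit 148) (nat_lit 1) (nat_lit 149) (nat_lit 1) (nat_lit 388) (nat_lit 350) (nat_lit 282)) (XT.nd (nat_lit 78) (nat_lit 76) (nat_lit 0) (XT.lf (nat_lit 0) (nat_lit 293000235) (nat_lit 0) (nat_lit 411641230) (nat_lit 152) (nat_lit 481434517) (nat_lit 146) (nat_lit 3)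 (nat_lit 146) (nat_lit 1) (nat_lit 148) (nat_lit 1) (nat_lit 389) (nat_lit 350) (nat_lit 281)) (XT.lf (nat_lit 76) (nat_lit 150794938) (nat_lit 0) (nat_lit 744517712) (nat_lit 76) (nat_lit 260647711) (nat_lit 146) (nat_lit 3) (nat_lit 145) (nat_lit 1) (nat_lit 146) (nat_lit 1) (nat_lit 390) (nat_lit 350) (nat_lit 280))))) (XT.nd (nat_lit 234) (nat_lit 456) (nat_lit 0) (XT.nd (nat_lit 78) (nat_lit 228) (nat_lit 0) (XT.lf (nat_lit 0) (nat_lit 341189256) (nat_lit 0) (nat_lit 438061190) (nat_lit 152) (nat_lit 347238657) (nat_lit 143) (nat_lit 3) (nat_lit 143) (nat_lit 1) (nat_lit 145) (nat_lit 1) (nat_lit 391) (nat_lit 350) (nat_lit 279)) (XT.nd (nat_lit 78) (nat_lit 152) (nat_lit 0) (XT.lf (nat_lit 76) (nat_lit 96379586) (nat_lit 0) (nat_lit 815499218) (nat_lit 76) (nat_lit 186075821) (nat_lit 143) (nat_lit 3) (nat_lit 142) (nat_lit 1) (nat_lit 143) (nat_lit 1) (nat_lit 392) (nat_lit 350) (nat_lit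 278)) (XT.lf (nat_lit 0) (nat_lit 382999004) (nat_lit 0) (nat_lit 462096213) (nat_lit 152) (nat_lit 224848704) (nat_lit 140) (nat_lit 3) (nat_lit 140) (nat_lit 1) (nat_lit 142) (nat_lit 1) (nat_lit 393) (nat_lit 350) (nat_lit 277)))) (XT.nd (nat_lit 156) (nat_lit 228) (nat_lit 0) (XT.nd (nat_lit 78) (nat_lit 152) (nat_lit 0) (XT.lf (nat_lit 76) (nat_lit 45872837) (nat_lit 0) (nat_lit 877920381) (nat_lit 76) (nat_lit 119110993) (nat_lit 140) (nat_lit 3) (nat_lit 139) (nat_lit 1) (nat_lit 140) (nat_lit 1) (nat_lit 394) (nat_lit 350) (nat_lit 276)) (XT.lf (nat_lit 0) (nat_lit 419081832) (nat_lit 0) (nat_lit 483665744) (nat_lit 152) (nat_lit 113530591) (nat_lit 137) (nat_lit 3) (nat_lit 137) (nat_lit 1) (nat_lit 139) (nat_lit 1) (nat_lit 395) (nat_lit 350) (nat_lit 275))) (XT.nd (nat_lit 78) (nat_lit 76) (nat_lit 0) (XT.lf (nat_lit 76) (nat_lit 931614444) (nat_lit 0) (nat_lit 726500) (nat_lit 152)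 (nat_lit 58310593) (nat_lit 136) (nat_lit 1) (nat_lit 135) (nat_lit 1) (nat_lit 137) (nat_lit 1) (nat_lit 396) (nat_lit 350) (nat_lit 274)) (XT.lf (nat_lit 0) (nat_lit 450017029) (nat_lit 0) (nat_lit 502750644) (nat_lit 152) (nat_lit 12571722) (nat_lit 134) (nat_lit 3) (nat_lit 134) (nat_lit 1) (nat_lit 136) (nat_lit 1) (nat_lit 397) (nat_lit 350) (nat_lit 273)))))) (XT.nd (nat_lit 546) (nat_lit 760) (nat_lit 0) (XT.nd (nat_lit 234) (nat_lit 456) (nat_lit 0) (XT.nd (nat_lit 78) (nat_lit 228) (nat_lit 0) (XT.lf (nat_lit 152) (nat_lit 898207878) (nat_lit 0) (nat_lit 38868596) (nat_lit 76) (nat_lit 3909948) (nat_lit 133) (nat_lit 1) (nat_lit 131) (nat_lit 1) (nat_lit 132) (nat_lit 1) (nat_lit 398) (nat_lit 350) (nat_lit 272)) (XT.nd (nat_lit 78) (nat_lit 152) (nat_lit 0) (XT.lf (nat_lit 76) (nat_lit 396272619) (nat_lit 0) (nat_lit 81317786) (nat_lit 76) (nat_lit 439330309) (nat_lit 131) (nat_lit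 3) (nat_lit 130) (nat_lit 1) (nat_lit 131) (nat_lit 1) (nat_lit 399) (nat_lit 350) (nat_lit 271)) (XT.lf (nat_lit 0) (nat_lit 44796498) (nat_lit 0) (nat_lit 82766243) (nat_lit 152) (nat_lit 766197657) (nat_lit 128) (nat_lit 3) (nat_lit 128) (nat_lit 1) (nat_lit 130) (nat_lit 1) (nat_lit 400) (nat_lit 350) (nat_lit 270)))) (XT.nd (nat_lit 156) (nat_lit 228) (nat_lit 0) (XT.nd (nat_lit 78) (nat_lit 152) (nat_lit 0) (XT.lf (nat_lit 76) (nat_lit 334739218) (nat_lit 0) (nat_lit 166312054) (nat_lit 76) (nat_lit 369896388) (nat_lit 128) (nat_lit 3) (nat_lit 127) (nat_lit 1) (nat_lit 128) (nat_lit 1) (nat_lit 401) (nat_lit 350) (nat_lit 269)) (XT.lf (nat_lit 0) (nat_lit 88146194) (nat_lit 0) (nat_lit 119148990) (nat_lit 152) (nat_lit 641631053) (nat_lit 125) (nat_lit 3) (nat_lit 125) (nat_lit 1) (nat_lit 127) (nat_lit 1) (nat_lit 402) (nat_lit 350) (nat_lit 268))) (XT.nd (nat_lit 78) (nat_lit 152) (nat_lit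 0) (XT.lf (nat_lit 76) (nat_lit 277975334) (nat_lit 0) (nat_lit 242645540) (nat_lit 76) (nat_lit 306681627) (nat_lit 125) (nat_lit 3) (nat_lit 124) (nat_lit 1) (nat_lit 125) (nat_lit 1) (nat_lit 403) (nat_lit 350) (nat_lit 267)) (XT.lf (nat_lit 0) (nat_lit 126722195) (nat_lit 0) (nat_lit 152036386) (nat_lit 152) (nat_lit 527603925) (nat_lit 122) (nat_lit 3) (nat_lit 122) (nat_lit 1) (nat_lit 124) (nat_lit 1) (nat_lit 404) (nat_lit 350) (nat_lit 266))))) (XT.nd (nat_lit 234) (nat_lit 456) (nat_lit 0) (XT.nd (nat_lit 78) (nat_lit 228) (nat_lit 0) (XT.lf (nat_lit 76) (nat_lit 225744442) (nat_lit 0) (nat_lit 310936613) (nat_lit 76) (nat_lit 249183508) (nat_lit 122) (nat_lit 3) (nat_lit 121) (nat_lit 1) (nat_lit 122) (nat_lit 1) (nat_lit 405) (nat_lit 350) (nat_lit 265)) (XT.nd (nat_lit 78) (nat_lit 76) (nat_lit 0) (XT.lf (nat_lit 0) (nat_lit 160940197) (nat_lit 0) (nat_lit 181609567) (nat_lit 152)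 (nat_lit 423401907) (nat_lit 119) (nat_lit 3) (nat_lit 119) (nat_lit 1) (nat_lit 121) (nat_lit 1) (nat_lit 406) (nat_lit 350) (nat_lit 264)) (XT.lf (nat_lit 76) (nat_lit 177805027) (nat_lit 0) (nat_lit 371771494) (nat_lit 76) (nat_lit 196943333) (nat_lit 119) (nat_lit 3) (nat_lit 118) (nat_lit 1) (nat_lit 119) (nat_lit 1) (nat_lit 407) (nat_lit 350) (nat_lit 263)))) (XT.nd (nat_lit 156) (nat_lit 228) (nat_lit 0) (XT.nd (nat_lit 78) (nat_lit 76) (nat_lit 0) (XT.lf (nat_lit 0) (nat_lit 191178451) (nat_lit 0) (nat_lit 208055264) (nat_lit 152) (nat_lit 328348963) (nat_lit 116) (nat_lit 3) (nat_lit 116) (nat_lit 1) (nat_lit 118) (nat_lit 1) (nat_lit 408) (nat_lit 350) (nat_lit 262)) (XT.lf (nat_lit 76) (nat_lit 133914797) (nat_lit 0) (nat_lit 425704369) (nat_lit 76) (nat_lit 149541476) (nat_lit 116) (nat_lit 3) (nat_lit 115) (nat_lit 1) (nat_lit 116) (nat_lit 1) (nat_lit 409) (nat_lit 350) (nat_lit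 261))) (XT.nd (nat_lit 78) (nat_lit 76) (nat_lit 0) (XT.lf (nat_lit 0) (nat_lit 217781860) (nat_lit 0) (nat_lit 231562000) (nat_lit 152) (nat_lit 241806667) (nat_lit 113) (nat_lit 3) (nat_lit 113) (nat_lit 1) (nat_lit 115) (nat_lit 1) (nat_lit 410) (nat_lit 350) (nat_lit 260)) (XT.lf (nat_lit 76) (nat_lit 93833898) (nat_lit 0) (nat_lit 473257847) (nat_lit 76) (nat_lit 106593287) (nat_lit 113) (nat_lit 3) (nat_lit 112) (nat_lit 1) (nat_lit 113) (nat_lit 1) (nat_lit 411) (nat_lit 350) (nat_lit 259))))))) (XT.nd (nat_lit 46176) (nat_lit 0) (nat_lit 10944) (XT.nd (nat_lit 468) (nat_lit 228) (nat_lit 0) (XT.nd (nat_lit 234) (nat_lit 456) (nat_lit 0) (XT.nd (nat_lit 78) (nat_lit 228) (nat_lit 0) (XT.lf (nat_lit 0) (nat_lit 241065501) (nat_lit 0) (nat_lit 252317167) (nat_lit 152) (nat_lit 163173219) (nat_lit 110) (nat_lit 3) (nat_lit 110) (nat_lit 1) (nat_lit 112) (nat_lit 1) (nat_lit 412) (nat_lit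 350) (nat_lit 258)) (XT.nd (nat_lit 78) (nat_lit 152) (nat_lit 0) (XT.lf (nat_lit 76) (nat_lit 57327349) (nat_lit 0) (nat_lit 514923701) (nat_lit 76) (nat_lit 67745558) (nat_lit 110) (nat_lit 3) (nat_lit 109) (nat_lit 1) (nat_lit 110) (nat_lit 1) (nat_lit 413) (nat_lit 350) (nat_lit 257)) (XT.lf (nat_lit 0) (nat_lit 261317681) (nat_lit 0) (nat_lit 270504814) (nat_lit 152) (nat_lit 91882250) (nat_lit 107) (nat_lit 3) (nat_lit 107) (nat_lit 1) (nat_lit 109) (nat_lit 1) (nat_lit 414) (nat_lit 350) (nat_lit 256)))) (XT.nd (nat_lit 78) (nat_lit 380) (nat_lit 0) (XT.lf (nat_lit 76) (nat_lit 24166845) (nat_lit 0) (nat_lit 551163803) (nat_lit 76) (nat_lit 32673450) (nat_lit 107) (nat_lit 3) (nat_lit 106) (nat_lit 1) (nat_lit 107) (nat_lit 1) (nat_lit 415) (nat_lit 350) (nat_lit 255)) (XT.nd (nat_lit 78) (nat_lit 228) (nat_lit 0) (XT.lf (nat_lit 0) (nat_lit 278802587) (nat_lit 0) (nat_lit 286304002) (nat_lit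 152) (nat_lit 27401501) (nat_lit 104) (nat_lit 3) (nat_lit 104) (nat_lit 1) (nat_lit 106) (nat_lit 1) (nat_lit 416) (nat_lit 350) (nat_lit 254)) (XT.lf (nat_lit 152) (nat_lit 571856765) (nat_lit 0) (nat_lit 4853885) (nat_lit 76) (nat_lit 902036) (nat_lit 103) (nat_lit 1) (nat_lit 101) (nat_lit 1) (nat_lit 102) (nat_lit 1) (nat_lit 417) (nat_lit 350) (nat_lit 253))))) (XT.nd (nat_lit 45396) (nat_lit 0) (nat_lit 14820) (XT.nd (nat_lit 78) (nat_lit 152) (nat_lit 0) (XT.lf (nat_lit 76) (nat_lit 262472920) (nat_lit 0) (nat_lit 31785944) (nat_lit 76) (nat_lit 268597924) (nat_lit 101) (nat_lit 3) (nat_lit 100) (nat_lit 1) (nat_lit 101) (nat_lit 1) (nat_lit 418) (nat_lit 350) (nat_lit 252)) (XT.nd (nat_lit 45240) (nat_lit 0) (nat_lit 14744) (XT.lf (nat_lit 0) (nat_lit 27946546) (nat_lit 0) (nat_lit 33347784) (nat_lit 152) (nat_lit 487374754) (nat_lit 98) (nat_lit 3) (nat_lit 98) (nat_lit 1) (nat_lit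 100) (nat_lit 1) (nat_lit 419) (nat_lit 350) (nat_lit 251)) (XT.lf (nat_lit 836) (nat_lit 1252884364) (nat_lit 0) (nat_lit 2224493308) (nat_lit 836) (nat_lit 1252884364) (nat_lit 303) (nat_lit 1) (nat_lit 292) (nat_lit 0) (nat_lit 303) (nat_lit 0) (nat_lit 318) (nat_lit 351) (nat_lit 351)))) (XT.nd (nat_lit 156) (nat_lit 0) (nat_lit 76) (XT.nd (nat_lit 78) (nat_lit 0) (nat_lit 0) (XT.lf (nat_lit 836) (nat_lit 467364311) (nat_lit 0) (nat_lit 4367354556) (nat_lit 760) (nat_lit 4271258164) (nat_lit 304) (nat_lit 1) (nat_lit 293) (nat_lit 1) (nat_lit 303) (nat_lit 1) (nat_lit 319) (nat_lit 351) (nat_lit 350)) (XT.lf (nat_lit 836) (nat_lit 4292471434) (nat_lit 76) (nat_lit 2924818818) (nat_lit 0) (nat_lit 1551190482) (nat_lit 304) (nat_lit 1) (nat_lit 294) (nat_lit 1) (nat_lit 293) (nat_lit 1) (nat_lit 320) (nat_lit 351) (nat_lit 349))) (XT.nd (nat_lit 78) (nat_lit 0) (nat_lit 76) (XT.lf (nat_lit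 836) (nat_lit 3709046963) (nat_lit 76) (nat_lit 1225771293) (nat_lit 0) (nat_lit 3513055351) (nat_lit 305) (nat_lit 1) (nat_lit 295) (nat_lit 1) (nat_lit 294) (nat_lit 1) (nat_lit 321) (nat_lit 351) (nat_lit 348)) (XT.lf (nat_lit 836) (nat_lit 2745010085) (nat_lit 0) (nat_lit 5135784118) (nat_lit 760) (nat_lit 262540550) (nat_lit 306) (nat_lit 1) (nat_lit 295) (nat_lit 1) (nat_lit 305) (nat_lit 1) (nat_lit 322) (nat_lit 351) (nat_lit 347)))))) (XT.nd (nat_lit 546) (nat_lit 1824) (nat_lit 0) (XT.nd (nat_lit 234) (nat_lit 1596) (nat_lit 0) (XT.nd (nat_lit 78) (nat_lit 684) (nat_lit 0) (XT.lf (nat_lit 836) (nat_lit 658638255) (nat_lit 0) (nat_lit 5663628767) (nat_lit 760) (nat_lit 1531072739) (nat_lit 307) (nat_lit 1) (nat_lit 296) (nat_lit 1) (nat_lit 306) (nat_lit 1) (nat_lit 323) (nat_lit 351) (nat_lit 346)) (XT.nd (nat_lit 78) (nat_lit 684) (nat_lit 0) (XT.lf (nat_lit 836) (nat_lit 1265634837)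 (nat_lit 76) (nat_lit 4922154607) (nat_lit 0) (nat_lit 1389092758) (nat_lit 307) (nat_lit 1) (nat_lit 297) (nat_lit 1) (nat_lit 296) (nat_lit 1) (nat_lit 324) (nat_lit 351) (nat_lit 345)) (XT.lf (nat_lit 836) (nat_lit 259932535) (nat_lit 0) (nat_lit 3679636157) (nat_lit 760) (nat_lit 3374187801) (nat_lit 298) (nat_lit 1) (nat_lit 287) (nat_lit 1) (nat_lit 297) (nat_lit 1) (nat_lit 325) (nat_lit 351) (nat_lit 344)))) (XT.nd (nat_lit 156) (nat_lit 684) (nat_lit 0) (XT.nd (nat_lit 78) (nat_lit 380) (nat_lit 0) (XT.lf (nat_lit 76) (nat_lit 1799827019) (nat_lit 0) (nat_lit 779948804) (nat_lit 532) (nat_lit 4483313709) (nat_lit 281) (nat_lit 1) (nat_lit 280) (nat_lit 1) (nat_lit 287) (nat_lit 1) (nat_lit 326) (nat_lit 351) (nat_lit 343)) (XT.lf (nat_lit 456) (nat_lit 4960096727) (nat_lit 0) (nat_lit 1614618415) (nat_lit 380) (nat_lit 249629983) (nat_lit 281) (nat_lit 1) (nat_lit 275) (nat_lit 1) (nat_lit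 280) (nat_lit 1) (nat_lit 327) (nat_lit 351) (nat_lit 342))) (XT.nd (nat_lit 78) (nat_lit 304) (nat_lit 0) (XT.lf (nat_lit 456) (nat_lit 3579253032) (nat_lit 0) (nat_lit 752580598) (nat_lit 380) (nat_lit 2264032672) (nat_lit 276) (nat_lit 1) (nat_lit 270) (nat_lit 1) (nat_lit 275) (nat_lit 1) (nat_lit 328) (nat_lit 351) (nat_lit 341)) (XT.lf (nat_lit 380) (nat_lit 2177929820) (nat_lit 0) (nat_lit 13856231) (nat_lit 304) (nat_lit 4186679868) (nat_lit 271) (nat_lit 1) (nat_lit 266) (nat_lit 1) (nat_lit 270) (nat_lit 1) (nat_lit 329) (nat_lit 351) (nat_lit 340))))) (XT.nd (nat_lit 234) (nat_lit 1140) (nat_lit 0) (XT.nd (nat_lit 78) (nat_lit 684) (nat_lit 0) (XT.lf (nat_lit 76) (nat_lit 160677369) (nat_lit 0) (nat_lit 5418819468) (nat_lit 380) (nat_lit 591569507) (nat_lit 267) (nat_lit 1) (nat_lit 266) (nat_lit 1) (nat_lit 271) (nat_lit 1) (nat_lit 330) (nat_lit 351) (nat_lit 339)) (XT.nd (nat_lit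 78) (nat_lit 304) (nat_lit 0) (XT.lf (nat_lit 76) (nat_lit 4148731350) (nat_lit 0) (nat_lit 688111485) (nat_lit 380) (nat_lit 1134820810) (nat_lit 262) (nat_lit 1) (nat_lit 261) (nat_lit 1) (nat_lit 266) (nat_lit 1) (nat_lit 331) (nat_lit 351) (nat_lit 338)) (XT.lf (nat_lit 76) (nat_lit 2075715425) (nat_lit 0) (nat_lit 2107807631) (nat_lit 380) (nat_lit 1597548517) (nat_lit 258) (nat_lit 1) (nat_lit 257) (nat_lit 1) (nat_lit 262) (nat_lit 1) (nat_lit 332) (nat_lit 351) (nat_lit 337)))) (XT.nd (nat_lit 156) (nat_lit 608) (nat_lit 0) (XT.nd (nat_lit 78) (nat_lit 228) (nat_lit 0) (XT.lf (nat_lit 76) (nat_lit 102452710) (nat_lit 0) (nat_lit 3524221629) (nat_lit 380) (nat_lit 1972829067) (nat_lit 254) (nat_lit 1) (nat_lit 253) (nat_lit 1) (nat_lit 258) (nat_lit 1) (nat_lit 333) (nat_lit 351) (nat_lit 336)) (XT.lf (nat_lit 304) (nat_lit 462670666) (nat_lit 0) (nat_lit 3128820253) (nat_lit 228) (nat_lit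 1833560576) (nat_lit 254) (nat_lit 1) (nat_lit 250) (nat_lit 1) (nat_lit 253) (nat_lit 1) (nat_lit 334) (nat_lit 351) (nat_lit 335))) (XT.nd (nat_lit 78) (nat_lit 228) (nat_lit 0) (XT.lf (nat_lit 76) (nat_lit 1598651547) (nat_lit 0) (nat_lit 1095725704) (nat_lit 380) (nat_lit 2563429260) (nat_lit 246) (nat_lit 1) (nat_lit 245) (nat_lit 1) (nat_lit 250) (nat_lit 1) (nat_lit 335) (nat_lit 351) (nat_lit 334)) (XT.lf (nat_lit 304) (nat_lit 2475097121) (nat_lit 0) (nat_lit 2325033846) (nat_lit 228) (nat_lit 297601572) (nat_lit 246) (nat_lit 1) (nat_lit 242) (nat_lit 1) (nat_lit 245) (nat_lit 1) (nat_lit 336) (nat_lit 351) (nat_lit 333))))))))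
noncomputable def ec44 : XT := (XT.nd (nat_lit 2028) (nat_lit 3192) (nat_lit 0) (XT.nd (nat_lit 1014) (nat_lit 1748) (nat_lit 0) (XT.nd (nat_lit 468) (nat_lit 1216) (nat_lit 0) (XT.nd (nat_lit 234) (nat_lit 608) (nat_lit 0) (XT.nd (nat_lit 78) (nat_lit 532) (nat_lit 0) (XT.lf (nat_lit 304) (nat_lit 793256670) (nat_lit 0) (nat_lit 2001758932) (nat_lit 228) (nat_lit 2148794654) (nat_lit 243) (nat_lit 1) (nat_lit 239) (nat_lit 1) (nat_lit 242) (nat_lit 1) (nat_lit 337) (nat_lit 351) (nat_lit 332)) (XT.nd (nat_lit 78) (nat_lit 228) (nat_lit 0) (XT.lf (nat_lit 76) (nat_lit 904120927) (nat_lit 0) (nat_lit 827801278) (nat_lit 304) (nat_lit 3064358449) (nat_lit 236) (nat_lit 1) (nat_lit 235) (nat_lit 1) (nat_lit 239) (nat_lit 1) (nat_lit 338) (nat_lit 351) (nat_lit 331)) (XT.lf (nat_lit 304) (nat_lit 2249786262) (nat_lit 0) (nat_lit 1496924408) (nat_lit 228) (nat_lit 907440498) (nat_lit 236) (nat_lit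 1) (nat_lit 232) (nat_lit 1) (nat_lit 235) (nat_lit 1) (nat_lit 339) (nat_lit 351) (nat_lit 330)))) (XT.nd (nat_lit 78) (nat_lit 456) (nat_lit 0) (XT.lf (nat_lit 228) (nat_lit 557725336) (nat_lit 0) (nat_lit 1305957360) (nat_lit 152) (nat_lit 2654072884) (nat_lit 233) (nat_lit 1) (nat_lit 230) (nat_lit 1) (nat_lit 232) (nat_lit 1) (nat_lit 340) (nat_lit 351) (nat_lit 329)) (XT.nd (nat_lit 78) (nat_lit 152) (nat_lit 0) (XT.lf (nat_lit 76) (nat_lit 94482235) (nat_lit 0) (nat_lit 1057276722) (nat_lit 304) (nat_lit 3234888089) (nat_lit 227) (nat_lit 1) (nat_lit 226) (nat_lit 1) (nat_lit 230) (nat_lit 1) (nat_lit 341) (nat_lit 351) (nat_lit 328)) (XT.lf (nat_lit 228) (nat_lit 1620647492) (nat_lit 0) (nat_lit 1012765647) (nat_lit 152) (nat_lit 1626287361) (nat_lit 227) (nat_lit 1) (nat_lit 224) (nat_lit 1) (nat_lit 226) (nat_lit 1) (nat_lit 342) (nat_lit 351) (nat_lit 327))))) (XT.nd (nat_lit 234)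 (nat_lit 684) (nat_lit 0) (XT.nd (nat_lit 78) (nat_lit 304) (nat_lit 0) (XT.lf (nat_lit 76) (nat_lit 879295602) (nat_lit 0) (nat_lit 40615215) (nat_lit 228) (nat_lit 3218382649) (nat_lit 222) (nat_lit 1) (nat_lit 221) (nat_lit 1) (nat_lit 224) (nat_lit 1) (nat_lit 343) (nat_lit 351) (nat_lit 326)) (XT.nd (nat_lit 78) (nat_lit 152) (nat_lit 0) (XT.lf (nat_lit 228) (nat_lit 2403824379) (nat_lit 0) (nat_lit 832979045) (nat_lit 152) (nat_lit 783614649) (nat_lit 222) (nat_lit 1) (nat_lit 219) (nat_lit 1) (nat_lit 221) (nat_lit 1) (nat_lit 344) (nat_lit 351) (nat_lit 325)) (XT.lf (nat_lit 228) (nat_lit 746724180) (nat_lit 0) (nat_lit 774346135) (nat_lit 152) (nat_lit 2385979260) (nat_lit 220) (nat_lit 1) (nat_lit 217) (nat_lit 1) (nat_lit 219) (nat_lit 1) (nat_lit 345) (nat_lit 351) (nat_lit 324)))) (XT.nd (nat_lit 156) (nat_lit 304) (nat_lit 0) (XT.nd (nat_lit 78) (nat_lit 152) (nat_lit 0) (XT.lf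 (nat_lit 228) (nat_lit 2964220567) (nat_lit 0) (nat_lit 739824882) (nat_lit 152) (nat_lit 93855369) (nat_lit 217) (nat_lit 1) (nat_lit 214) (nat_lit 1) (nat_lit 216) (nat_lit 1) (nat_lit 346) (nat_lit 351) (nat_lit 323)) (XT.lf (nat_lit 228) (nat_lit 1326647745) (nat_lit 0) (nat_lit 706283333) (nat_lit 152) (nat_lit 1658853882) (nat_lit 215) (nat_lit 1) (nat_lit 212) (nat_lit 1) (nat_lit 214) (nat_lit 1) (nat_lit 347) (nat_lit 351) (nat_lit 322))) (XT.nd (nat_lit 78) (nat_lit 152) (nat_lit 0) (XT.lf (nat_lit 76) (nat_lit 454428073) (nat_lit 0) (nat_lit 249774146) (nat_lit 152) (nat_lit 2885868296) (nat_lit 211) (nat_lit 1) (nat_lit 210) (nat_lit 1) (nat_lit 212) (nat_lit 1) (nat_lit 348) (nat_lit 351) (nat_lit 321)) (XT.lf (nat_lit 228) (nat_lit 1740638139) (nat_lit 0) (nat_lit 696745502) (nat_lit 152) (nat_lit 1053539096) (nat_lit 211) (nat_lit 1) (nat_lit 208) (nat_lit 1) (nat_lit 210) (nat_lit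 1) (nat_lit 349) (nat_lit 351) (nat_lit 320)))))) (XT.nd (nat_lit 468) (nat_lit 836) (nat_lit 0) (XT.nd (nat_lit 234) (nat_lit 532) (nat_lit 0) (XT.nd (nat_lit 78) (nat_lit 304) (nat_lit 0) (XT.lf (nat_lit 152) (nat_lit 187441993) (nat_lit 0) (nat_lit 713858471) (nat_lit 76) (nat_lit 2494388720) (nat_lit 209) (nat_lit 1) (nat_lit 207) (nat_lit 1) (nat_lit 208) (nat_lit 1) (nat_lit 350) (nat_lit 351) (nat_lit 319)) (XT.nd (nat_lit 78) (nat_lit 76) (nat_lit 0) (XT.lf (nat_lit 228) (nat_lit 2023367116) (nat_lit 0) (nat_lit 730086721) (nat_lit 152) (nat_lit 549627680) (nat_lit 207) (nat_lit 1) (nat_lit 204) (nat_lit 1) (nat_lit 206) (nat_lit 1) (nat_lit 351) (nat_lit 351) (nat_lit 318)) (XT.lf (nat_lit 152) (nat_lit 508891749) (nat_lit 0) (nat_lit 757385399) (nat_lit 76) (nat_lit 1947317764) (nat_lit 205) (nat_lit 1) (nat_lit 203) (nat_lit 1) (nat_lit 204) (nat_lit 1) (nat_lit 352) (nat_lit 351)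 (nat_lit 317)))) (XT.nd (nat_lit 78) (nat_lit 304) (nat_lit 0) (XT.lf (nat_lit 228) (nat_lit 2202867235) (nat_lit 0) (nat_lit 793914321) (nat_lit 152) (nat_lit 130288136) (nat_lit 203) (nat_lit 1) (nat_lit 200) (nat_lit 1) (nat_lit 202) (nat_lit 1) (nat_lit 353) (nat_lit 351) (nat_lit 316)) (XT.nd (nat_lit 78) (nat_lit 228) (nat_lit 0) (XT.lf (nat_lit 152) (nat_lit 732365044) (nat_lit 0) (nat_lit 827665219) (nat_lit 76) (nat_lit 1482833719) (nat_lit 201) (nat_lit 1) (nat_lit 199) (nat_lit 1) (nat_lit 200) (nat_lit 1) (nat_lit 354) (nat_lit 351) (nat_lit 315)) (XT.lf (nat_lit 76) (nat_lit 211389697) (nat_lit 0) (nat_lit 663495911) (nat_lit 228) (nat_lit 2086797760) (nat_lit 197) (nat_lit 1) (nat_lit 196) (nat_lit 1) (nat_lit 199) (nat_lit 1) (nat_lit 355) (nat_lit 351) (nat_lit 314))))) (XT.nd (nat_lit 234) (nat_lit 456) (nat_lit 0) (XT.nd (nat_lit 78) (nat_lit 304) (nat_lit 0) (XT.lf (nat_lit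 152) (nat_lit 878904128) (nat_lit 0) (nat_lit 915776443) (nat_lit 76) (nat_lit 1087838252) (nat_lit 197) (nat_lit 1) (nat_lit 195) (nat_lit 1) (nat_lit 196) (nat_lit 1) (nat_lit 356) (nat_lit 351) (nat_lit 313)) (XT.nd (nat_lit 78) (nat_lit 76) (nat_lit 0) (XT.lf (nat_lit 76) (nat_lit 491613724) (nat_lit 0) (nat_lit 476161135) (nat_lit 228) (nat_lit 1838361457) (nat_lit 193) (nat_lit 1) (nat_lit 192) (nat_lit 1) (nat_lit 195) (nat_lit 1) (nat_lit 357) (nat_lit 351) (nat_lit 312)) (XT.lf (nat_lit 152) (nat_lit 965478157) (nat_lit 0) (nat_lit 1014754839) (nat_lit 76) (nat_lit 751472355) (nat_lit 193) (nat_lit 1) (nat_lit 191) (nat_lit 1) (nat_lit 192) (nat_lit 1) (nat_lit 358) (nat_lit 351) (nat_lit 311)))) (XT.nd (nat_lit 156) (nat_lit 228) (nat_lit 0) (XT.nd (nat_lit 78) (nat_lit 76) (nat_lit 0) (XT.lf (nat_lit 76) (nat_lit 723769083) (nat_lit 0) (nat_lit 344863017) (nat_lit 152) (nat_lit 1591100400)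 (nat_lit 190) (nat_lit 1) (nat_lit 189) (nat_lit 1) (nat_lit 191) (nat_lit 1) (nat_lit 359) (nat_lit 351) (nat_lit 310)) (XT.lf (nat_lit 152) (nat_lit 1005744270) (nat_lit 0) (nat_lit 1119211978) (nat_lit 76) (nat_lit 464716894) (nat_lit 190) (nat_lit 1) (nat_lit 188) (nat_lit 1) (nat_lit 189) (nat_lit 1) (nat_lit 360) (nat_lit 351) (nat_lit 309))) (XT.nd (nat_lit 78) (nat_lit 76) (nat_lit 0) (XT.lf (nat_lit 76) (nat_lit 915500595) (nat_lit 0) (nat_lit 257272308) (nat_lit 152) (nat_lit 1348995833) (nat_lit 187) (nat_lit 1) (nat_lit 186) (nat_lit 1) (nat_lit 188) (nat_lit 1) (nat_lit 361) (nat_lit 351) (nat_lit 308)) (XT.lf (nat_lit 152) (nat_lit 1010668180) (nat_lit 0) (nat_lit 1225025208) (nat_lit 76) (nat_lit 220065708) (nat_lit 187) (nat_lit 1) (nat_lit 185) (nat_lit 1) (nat_lit 186) (nat_lit 1) (nat_lit 362) (nat_lit 351) (nat_lit 307))))))) (XT.nd (nat_lit 1014) (nat_lit 1596) (nat_lit 0)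 (XT.nd (nat_lit 468) (nat_lit 912) (nat_lit 0) (XT.nd (nat_lit 234) (nat_lit 304) (nat_lit 0) (XT.nd (nat_lit 78) (nat_lit 228) (nat_lit 0) (XT.lf (nat_lit 76) (nat_lit 1073161961) (nat_lit 0) (nat_lit 203475141) (nat_lit 152) (nat_lit 1114984577) (nat_lit 184) (nat_lit 1) (nat_lit 183) (nat_lit 1) (nat_lit 185) (nat_lit 1) (nat_lit 363) (nat_lit 351) (nat_lit 306)) (XT.nd (nat_lit 78) (nat_lit 152) (nat_lit 0) (XT.lf (nat_lit 152) (nat_lit 989030086) (nat_lit 0) (nat_lit 1329085891) (nat_lit 76) (nat_lit 11258001) (nat_lit 184) (nat_lit 1) (nat_lit 182) (nat_lit 1) (nat_lit 183) (nat_lit 1) (nat_lit 364) (nat_lit 351) (nat_lit 305)) (XT.lf (nat_lit 76) (nat_lit 1202044300) (nat_lit 0) (nat_lit 175519508) (nat_lit 152) (nat_lit 891171859) (nat_lit 181) (nat_lit 1) (nat_lit 180) (nat_lit 1) (nat_lit 182) (nat_lit 1) (nat_lit 365) (nat_lit 351) (nat_lit 304)))) (XT.nd (nat_lit 78) (nat_lit 228)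 (nat_lit 0) (XT.lf (nat_lit 0) (nat_lit 161597675) (nat_lit 0) (nat_lit 1264760684) (nat_lit 152) (nat_lit 783502597) (nat_lit 179) (nat_lit 3) (nat_lit 179) (nat_lit 1) (nat_lit 181) (nat_lit 1) (nat_lit 366) (nat_lit 351) (nat_lit 303)) (XT.nd (nat_lit 78) (nat_lit 76) (nat_lit 0) (XT.lf (nat_lit 76) (nat_lit 1306563324) (nat_lit 0) (nat_lit 167045598) (nat_lit 152) (nat_lit 679003752) (nat_lit 178) (nat_lit 1) (nat_lit 177) (nat_lit 1) (nat_lit 179) (nat_lit 1) (nat_lit 367) (nat_lit 351) (nat_lit 302)) (XT.lf (nat_lit 0) (nat_lit 308711344) (nat_lit 0) (nat_lit 1209458461) (nat_lit 152) (nat_lit 578719238) (nat_lit 176) (nat_lit 3) (nat_lit 176) (nat_lit 1) (nat_lit 178) (nat_lit 1) (nat_lit 368) (nat_lit 351) (nat_lit 301))))) (XT.nd (nat_lit 234) (nat_lit 532) (nat_lit 0) (XT.nd (nat_lit 78) (nat_lit 228) (nat_lit 0) (XT.lf (nat_lit 76) (nat_lit 1390412691) (nat_lit 0) (nat_lit 172984592)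 (nat_lit 152) (nat_lit 479406692) (nat_lit 175) (nat_lit 1) (nat_lit 174) (nat_lit 1) (nat_lit 176) (nat_lit 1) (nat_lit 369) (nat_lit 351) (nat_lit 300)) (XT.nd (nat_lit 78) (nat_lit 152) (nat_lit 0) (XT.lf (nat_lit 0) (nat_lit 434013794) (nat_lit 0) (nat_lit 1169485670) (nat_lit 152) (nat_lit 386537570) (nat_lit 173) (nat_lit 3) (nat_lit 173) (nat_lit 1) (nat_lit 175) (nat_lit 1) (nat_lit 370) (nat_lit 351) (nat_lit 299)) (XT.lf (nat_lit 76) (nat_lit 1456689724) (nat_lit 0) (nat_lit 189313299) (nat_lit 152) (nat_lit 292900215) (nat_lit 172) (nat_lit 1) (nat_lit 171) (nat_lit 1) (nat_lit 173) (nat_lit 1) (nat_lit 371) (nat_lit 351) (nat_lit 298)))) (XT.nd (nat_lit 156) (nat_lit 304) (nat_lit 0) (XT.nd (nat_lit 78) (nat_lit 152) (nat_lit 0) (XT.lf (nat_lit 0) (nat_lit 540515286) (nat_lit 0) (nat_lit 1141037754) (nat_lit 152) (nat_lit 207361884) (nat_lit 170) (nat_lit 3) (nat_lit 170) (nat_lit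 1) (nat_lit 172) (nat_lit 1) (nat_lit 372) (nat_lit 351) (nat_lit 297)) (XT.lf (nat_lit 76) (nat_lit 1507998520) (nat_lit 0) (nat_lit 212854359) (nat_lit 152) (nat_lit 119687884) (nat_lit 169) (nat_lit 1) (nat_lit 168) (nat_lit 1) (nat_lit 170) (nat_lit 1) (nat_lit 373) (nat_lit 351) (nat_lit 296))) (XT.nd (nat_lit 78) (nat_lit 228) (nat_lit 0) (XT.lf (nat_lit 0) (nat_lit 630761786) (nat_lit 0) (nat_lit 1121096284) (nat_lit 152) (nat_lit 41309259) (nat_lit 167) (nat_lit 3) (nat_lit 167) (nat_lit 1) (nat_lit 169) (nat_lit 1) (nat_lit 374) (nat_lit 351) (nat_lit 295)) (XT.lf (nat_lit 152) (nat_lit 1505583082) (nat_lit 0) (nat_lit 41600997) (nat_lit 76) (nat_lit 200162135) (nat_lit 166) (nat_lit 1) (nat_lit 164) (nat_lit 1) (nat_lit 165) (nat_lit 1) (nat_lit 375) (nat_lit 351) (nat_lit 294)))))) (XT.nd (nat_lit 546) (nat_lit 836) (nat_lit 0) (XT.nd (nat_lit 234) (nat_lit 456) (nat_lit 0) (XT.nd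 (nat_lit 78) (nat_lit 228) (nat_lit 0) (XT.lf (nat_lit 76) (nat_lit 593298623) (nat_lit 0) (nat_lit 115417081) (nat_lit 76) (nat_lit 993663195) (nat_lit 164) (nat_lit 3) (nat_lit 163) (nat_lit 1) (nat_lit 164) (nat_lit 1) (nat_lit 376) (nat_lit 351) (nat_lit 293)) (XT.nd (nat_lit 78) (nat_lit 76) (nat_lit 0) (XT.lf (nat_lit 152) (nat_lit 1383788882) (nat_lit 0) (nat_lit 193384670) (nat_lit 76) (nat_lit 81782455) (nat_lit 163) (nat_lit 1) (nat_lit 161) (nat_lit 1) (nat_lit 162) (nat_lit 1) (nat_lit 377) (nat_lit 351) (nat_lit 292)) (XT.lf (nat_lit 76) (nat_lit 514539601) (nat_lit 0) (nat_lit 260335695) (nat_lit 76) (nat_lit 841442543) (nat_lit 161) (nat_lit 3) (nat_lit 160) (nat_lit 1) (nat_lit 161) (nat_lit 1) (nat_lit 378) (nat_lit 351) (nat_lit 291)))) (XT.nd (nat_lit 156) (nat_lit 228) (nat_lit 0) (XT.nd (nat_lit 78) (nat_lit 76) (nat_lit 0) (XT.lf (nat_lit 0) (nat_lit 21717861) (nat_lit 0)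 (nat_lit 309992061) (nat_lit 152) (nat_lit 1243453331) (nat_lit 158) (nat_lit 3) (nat_lit 158) (nat_lit 1) (nat_lit 160) (nat_lit 1) (nat_lit 379) (nat_lit 351) (nat_lit 290)) (XT.lf (nat_lit 76) (nat_lit 437668268) (nat_lit 0) (nat_lit 392484421) (nat_lit 76) (nat_lit 704588823) (nat_lit 158) (nat_lit 3) (nat_lit 157) (nat_lit 1) (nat_lit 158) (nat_lit 1) (nat_lit 380) (nat_lit 351) (nat_lit 289))) (XT.nd (nat_lit 78) (nat_lit 76) (nat_lit 0) (XT.lf (nat_lit 0) (nat_lit 110452280) (nat_lit 0) (nat_lit 345831959) (nat_lit 152) (nat_lit 1039382810) (nat_lit 155) (nat_lit 3) (nat_lit 155) (nat_lit 1) (nat_lit 157) (nat_lit 1) (nat_lit 381) (nat_lit 351) (nat_lit 288)) (XT.lf (nat_lit 76) (nat_lit 363546271) (nat_lit 0) (nat_lit 512357772) (nat_lit 76) (nat_lit 581490418) (nat_lit 155) (nat_lit 3) (nat_lit 154) (nat_lit 1) (nat_lit 155) (nat_lit 1) (nat_lit 382) (nat_lit 351) (nat_lit 287))))) (XT.nd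 (nat_lit 234) (nat_lit 456) (nat_lit 0) (XT.nd (nat_lit 78) (nat_lit 228) (nat_lit 0) (XT.lf (nat_lit 0) (nat_lit 188390609) (nat_lit 0) (nat_lit 380581214) (nat_lit 152) (nat_lit 851313087) (nat_lit 152) (nat_lit 3) (nat_lit 152) (nat_lit 1) (nat_lit 154) (nat_lit 1) (nat_lit 383) (nat_lit 351) (nat_lit 286)) (XT.nd (nat_lit 78) (nat_lit 152) (nat_lit 0) (XT.lf (nat_lit 76) (nat_lit 292786227) (nat_lit 0) (nat_lit 620512772) (nat_lit 76) (nat_lit 470740492) (nat_lit 152) (nat_lit 3) (nat_lit 151) (nat_lit 1) (nat_lit 152) (nat_lit 1) (nat_lit 384) (nat_lit 351) (nat_lit 285)) (XT.lf (nat_lit 0) (nat_lit 256710172) (nat_lit 0) (nat_lit 413636331) (nat_lit 152) (nat_lit 678441265) (nat_lit 149) (nat_lit 3) (nat_lit 149) (nat_lit 1) (nat_lit 151) (nat_lit 1) (nat_lit 385) (nat_lit 351) (nat_lit 284)))) (XT.nd (nat_lit 156) (nat_lit 228) (nat_lit 0) (XT.nd (nat_lit 78) (nat_lit 152) (nat_lit 0)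 (XT.lf (nat_lit 76) (nat_lit 225803578) (nat_lit 0) (nat_lit 717546613) (nat_lit 76) (nat_lit 371105577) (nat_lit 149) (nat_lit 3) (nat_lit 148) (nat_lit 1) (nat_lit 149) (nat_lit 1) (nat_lit 386) (nat_lit 351) (nat_lit 283)) (XT.lf (nat_lit 0) (nat_lit 316440254) (nat_lit 0) (nat_lit 444572529) (nat_lit 152) (nat_lit 519949278) (nat_lit 146) (nat_lit 3) (nat_lit 146) (nat_lit 1) (nat_lit 148) (nat_lit 1) (nat_lit 387) (nat_lit 351) (nat_lit 282))) (XT.nd (nat_lit 78) (nat_lit 152) (nat_lit 0) (XT.lf (nat_lit 76) (nat_lit 162858533) (nat_lit 0) (nat_lit 804079129) (nat_lit 76) (nat_lit 281499528) (nat_lit 146) (nat_lit 3) (nat_lit 145) (nat_lit 1) (nat_lit 146) (nat_lit 1) (nat_lit 388) (nat_lit 351) (nat_lit 281)) (XT.lf (nat_lit 0) (nat_lit 368484396) (nat_lit 0) (nat_lit 473106085) (nat_lit 152) (nat_lit 375017750) (nat_lit 143) (nat_lit 3) (nat_lit 143) (nat_lit 1) (nat_lit 145) (nat_lit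 1) (nat_lit 389) (nat_lit 351) (nat_lit 280))))))))
noncomputable def ec45 : XT := (XT.nd (nat_lit 2106) (nat_lit 380) (nat_lit 0) (XT.nd (nat_lit 1014) (nat_lit 1672) (nat_lit 0) (XT.nd (nat_lit 468) (nat_lit 912) (nat_lit 0) (XT.nd (nat_lit 234) (nat_lit 380) (nat_lit 0) (XT.nd (nat_lit 78) (nat_lit 228) (nat_lit 0) (XT.lf (nat_lit 76) (nat_lit 104089953) (nat_lit 0) (nat_lit 880739155) (nat_lit 76) (nat_lit 200961887) (nat_lit 143) (nat_lit 3) (nat_lit 142) (nat_lit 1) (nat_lit 143) (nat_lit 1) (nat_lit 390) (nat_lit 351) (nat_lit 279)) (XT.nd (nat_lit 78) (nat_lit 76) (nat_lit 0) (XT.lf (nat_lit 0) (nat_lit 413638924) (nat_lit 0) (nat_lit 499063910) (nat_lit 152) (nat_lit 242836601) (nat_lit 140) (nat_lit 3) (nat_lit 140) (nat_lit 1) (nat_lit 142) (nat_lit 1) (nat_lit 391) (nat_lit 351) (nat_lit 278)) (XT.lf (nat_lit 76) (nat_lit 49542664) (nat_lit 0) (nat_lit 948154011) (nat_lit 76) (nat_lit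 128639873) (nat_lit 140) (nat_lit 3) (nat_lit 139) (nat_lit 1) (nat_lit 140) (nat_lit 1) (nat_lit 392) (nat_lit 351) (nat_lit 277)))) (XT.nd (nat_lit 78) (nat_lit 228) (nat_lit 0) (XT.lf (nat_lit 0) (nat_lit 452608378) (nat_lit 0) (nat_lit 522359004) (nat_lit 152) (nat_lit 122613038) (nat_lit 137) (nat_lit 3) (nat_lit 137) (nat_lit 1) (nat_lit 139) (nat_lit 1) (nat_lit 393) (nat_lit 351) (nat_lit 276)) (XT.nd (nat_lit 78) (nat_lit 76) (nat_lit 0) (XT.lf (nat_lit 76) (nat_lit 1006143599) (nat_lit 0) (nat_lit 784620) (nat_lit 152) (nat_lit 62975440) (nat_lit 136) (nat_lit 1) (nat_lit 135) (nat_lit 1) (nat_lit 137) (nat_lit 1) (nat_lit 394) (nat_lit 351) (nat_lit 275)) (XT.lf (nat_lit 0) (nat_lit 486018392) (nat_lit 0) (nat_lit 542970695) (nat_lit 152) (nat_lit 13577460) (nat_lit 134) (nat_lit 3) (nat_lit 134) (nat_lit 1) (nat_lit 136) (nat_lit 1) (nat_lit 395) (nat_lit 351) (nat_lit 274))))) (XT.nd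 (nat_lit 234) (nat_lit 456) (nat_lit 0) (XT.nd (nat_lit 78) (nat_lit 228) (nat_lit 0) (XT.lf (nat_lit 152) (nat_lit 970064509) (nat_lit 0) (nat_lit 41978084) (nat_lit 76) (nat_lit 4222744) (nat_lit 133) (nat_lit 1) (nat_lit 131) (nat_lit 1) (nat_lit 132) (nat_lit 1) (nat_lit 396) (nat_lit 351) (nat_lit 273)) (XT.nd (nat_lit 78) (nat_lit 152) (nat_lit 0) (XT.lf (nat_lit 76) (nat_lit 427974429) (nat_lit 0) (nat_lit 87823208) (nat_lit 76) (nat_lit 474476734) (nat_lit 131) (nat_lit 3) (nat_lit 130) (nat_lit 1) (nat_lit 131) (nat_lit 1) (nat_lit 397) (nat_lit 351) (nat_lit 272)) (XT.lf (nat_lit 0) (nat_lit 48380218) (nat_lit 0) (nat_lit 89387542) (nat_lit 152) (nat_lit 827493469) (nat_lit 128) (nat_lit 3) (nat_lit 128) (nat_lit 1) (nat_lit 130) (nat_lit 1) (nat_lit 398) (nat_lit 351) (nat_lit 271)))) (XT.nd (nat_lit 156) (nat_lit 228) (nat_lit 0) (XT.nd (nat_lit 78) (nat_lit 152) (nat_lit 0) (XT.lf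 (nat_lit 76) (nat_lit 361518355) (nat_lit 0) (nat_lit 179617018) (nat_lit 76) (nat_lit 399488100) (nat_lit 128) (nat_lit 3) (nat_lit 127) (nat_lit 1) (nat_lit 128) (nat_lit 1) (nat_lit 399) (nat_lit 351) (nat_lit 270)) (XT.lf (nat_lit 0) (nat_lit 95197889) (nat_lit 0) (nat_lit 128680909) (nat_lit 152) (nat_lit 692961537) (nat_lit 125) (nat_lit 3) (nat_lit 125) (nat_lit 1) (nat_lit 127) (nat_lit 1) (nat_lit 400) (nat_lit 351) (nat_lit 269))) (XT.nd (nat_lit 78) (nat_lit 152) (nat_lit 0) (XT.lf (nat_lit 76) (nat_lit 300213361) (nat_lit 0) (nat_lit 262057184) (nat_lit 76) (nat_lit 331216157) (nat_lit 125) (nat_lit 3) (nat_lit 124) (nat_lit 1) (nat_lit 125) (nat_lit 1) (nat_lit 401) (nat_lit 351) (nat_lit 268)) (XT.lf (nat_lit 0) (nat_lit 136859970) (nat_lit 0) (nat_lit 164199297) (nat_lit 152) (nat_lit 569812239) (nat_lit 122) (nat_lit 3) (nat_lit 122) (nat_lit 1) (nat_lit 124) (nat_lit 1) (nat_lit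 402) (nat_lit 351) (nat_lit 267)))))) (XT.nd (nat_lit 546) (nat_lit 912) (nat_lit 0) (XT.nd (nat_lit 234) (nat_lit 456) (nat_lit 0) (XT.nd (nat_lit 78) (nat_lit 228) (nat_lit 0) (XT.lf (nat_lit 76) (nat_lit 243803997) (nat_lit 0) (nat_lit 335811542) (nat_lit 76) (nat_lit 269118188) (nat_lit 122) (nat_lit 3) (nat_lit 121) (nat_lit 1) (nat_lit 122) (nat_lit 1) (nat_lit 403) (nat_lit 351) (nat_lit 266)) (XT.nd (nat_lit 78) (nat_lit 76) (nat_lit 0) (XT.lf (nat_lit 0) (nat_lit 173815413) (nat_lit 0) (nat_lit 196138333) (nat_lit 152) (nat_lit 457274060) (nat_lit 119) (nat_lit 3) (nat_lit 119) (nat_lit 1) (nat_lit 121) (nat_lit 1) (nat_lit 404) (nat_lit 351) (nat_lit 265)) (XT.lf (nat_lit 76) (nat_lit 192029430) (nat_lit 0) (nat_lit 401513214) (nat_lit 76) (nat_lit 212698800) (nat_lit 119) (nat_lit 3) (nat_lit 118) (nat_lit 1) (nat_lit 119) (nat_lit 1) (nat_lit 405) (nat_lit 351) (nat_lit 264)))) (XT.nd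 (nat_lit 156) (nat_lit 228) (nat_lit 0) (XT.nd (nat_lit 78) (nat_lit 76) (nat_lit 0) (XT.lf (nat_lit 0) (nat_lit 206472728) (nat_lit 0) (nat_lit 224699685) (nat_lit 152) (nat_lit 354616880) (nat_lit 116) (nat_lit 3) (nat_lit 116) (nat_lit 1) (nat_lit 118) (nat_lit 1) (nat_lit 406) (nat_lit 351) (nat_lit 263)) (XT.lf (nat_lit 76) (nat_lit 144627981) (nat_lit 0) (nat_lit 459760719) (nat_lit 76) (nat_lit 161504794) (nat_lit 116) (nat_lit 3) (nat_lit 115) (nat_lit 1) (nat_lit 116) (nat_lit 1) (nat_lit 407) (nat_lit 351) (nat_lit 262))) (XT.nd (nat_lit 78) (nat_lit 76) (nat_lit 0) (XT.lf (nat_lit 0) (nat_lit 235204409) (nat_lit 0) (nat_lit 250086960) (nat_lit 152) (nat_lit 261151200) (nat_lit 113) (nat_lit 3) (nat_lit 113) (nat_lit 1) (nat_lit 115) (nat_lit 1) (nat_lit 408) (nat_lit 351) (nat_lit 261)) (XT.lf (nat_lit 76) (nat_lit 101340610) (nat_lit 0) (nat_lit 511118475) (nat_lit 76) (nat_lit 115120750)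 (nat_lit 113) (nat_lit 3) (nat_lit 112) (nat_lit 1) (nat_lit 113) (nat_lit 1) (nat_lit 409) (nat_lit 351) (nat_lit 260))))) (XT.nd (nat_lit 234) (nat_lit 532) (nat_lit 0) (XT.nd (nat_lit 78) (nat_lit 228) (nat_lit 0) (XT.lf (nat_lit 0) (nat_lit 260350741) (nat_lit 0) (nat_lit 272502540) (nat_lit 152) (nat_lit 176227076) (nat_lit 110) (nat_lit 3) (nat_lit 110) (nat_lit 1) (nat_lit 112) (nat_lit 1) (nat_lit 410) (nat_lit 351) (nat_lit 259)) (XT.nd (nat_lit 78) (nat_lit 152) (nat_lit 0) (XT.lf (nat_lit 76) (nat_lit 61913537) (nat_lit 0) (nat_lit 556117597) (nat_lit 76) (nat_lit 73165203) (nat_lit 110) (nat_lit 3) (nat_lit 109) (nat_lit 1) (nat_lit 110) (nat_lit 1) (nat_lit 411) (nat_lit 351) (nat_lit 258)) (XT.lf (nat_lit 0) (nat_lit 282223096) (nat_lit 0) (nat_lit 292145200) (nat_lit 152) (nat_lit 99232830) (nat_lit 107) (nat_lit 3) (nat_lit 107) (nat_lit 1) (nat_lit 109) (nat_lit 1) (nat_lit 412)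 (nat_lit 351) (nat_lit 257)))) (XT.nd (nat_lit 156) (nat_lit 304) (nat_lit 0) (XT.nd (nat_lit 78) (nat_lit 152) (nat_lit 0) (XT.lf (nat_lit 76) (nat_lit 26100192) (nat_lit 0) (nat_lit 595256907) (nat_lit 76) (nat_lit 35287326) (nat_lit 107) (nat_lit 3) (nat_lit 106) (nat_lit 1) (nat_lit 107) (nat_lit 1) (nat_lit 413) (nat_lit 351) (nat_lit 256)) (XT.lf (nat_lit 0) (nat_lit 301106794) (nat_lit 0) (nat_lit 309208322) (nat_lit 152) (nat_lit 29593621) (nat_lit 104) (nat_lit 3) (nat_lit 104) (nat_lit 1) (nat_lit 106) (nat_lit 1) (nat_lit 414) (nat_lit 351) (nat_lit 255))) (XT.nd (nat_lit 78) (nat_lit 76) (nat_lit 0) (XT.lf (nat_lit 152) (nat_lit 617605306) (nat_lit 0) (nat_lit 5242196) (nat_lit 76) (nat_lit 974199) (nat_lit 103) (nat_lit 1) (nat_lit 101) (nat_lit 1) (nat_lit 102) (nat_lit 1) (nat_lit 415) (nat_lit 351) (nat_lit 254)) (XT.lf (nat_lit 76) (nat_lit 283470754) (nat_lit 0) (nat_lit 34328820)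 (nat_lit 76) (nat_lit 290085758) (nat_lit 101) (nat_lit 3) (nat_lit 100) (nat_lit 1) (nat_lit 101) (nat_lit 1) (nat_lit 416) (nat_lit 351) (nat_lit 253))))))) (XT.nd (nat_lit 46020) (nat_lit 0) (nat_lit 9956) (XT.nd (nat_lit 45474) (nat_lit 0) (nat_lit 13680) (XT.nd (nat_lit 45240) (nat_lit 0) (nat_lit 14972) (XT.nd (nat_lit 78) (nat_lit 228) (nat_lit 0) (XT.lf (nat_lit 0) (nat_lit 30182270) (nat_lit 0) (nat_lit 36015607) (nat_lit 152) (nat_lit 526364735) (nat_lit 98) (nat_lit 3) (nat_lit 98) (nat_lit 1) (nat_lit 100) (nat_lit 1) (nat_lit 417) (nat_lit 351) (nat_lit 252)) (XT.nd (nat_lit 78) (nat_lit 152) (nat_lit 0) (XT.lf (nat_lit 76) (nat_lit 239669982) (nat_lit 0) (nat_lit 92711450) (nat_lit 76) (nat_lit 245071221) (nat_lit 98) (nat_lit 3) (nat_lit 97) (nat_lit 1) (nat_lit 98) (nat_lit 1) (nat_lit 418) (nat_lit 351) (nat_lit 251)) (XT.lf (nat_lit 0) (nat_lit 58081736) (nat_lit 0) (nat_lit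 62844733) (nat_lit 152) (nat_lit 441952039) (nat_lit 95) (nat_lit 3) (nat_lit 95) (nat_lit 1) (nat_lit 97) (nat_lit 1) (nat_lit 419) (nat_lit 351) (nat_lit 250)))) (XT.nd (nat_lit 78) (nat_lit 0) (nat_lit 76) (XT.lf (nat_lit 836) (nat_lit 1353115113) (nat_lit 0) (nat_lit 2402452773) (nat_lit 836) (nat_lit 1353115113) (nat_lit 303) (nat_lit 1) (nat_lit 292) (nat_lit 0) (nat_lit 303) (nat_lit 0) (nat_lit 316) (nat_lit 352) (nat_lit 352)) (XT.nd (nat_lit 78) (nat_lit 0) (nat_lit 0) (XT.lf (nat_lit 836) (nat_lit 504753456) (nat_lit 0) (nat_lit 4716742920) (nat_lit 760) (nat_lit 4612958818) (nat_lit 304) (nat_lit 1) (nat_lit 293) (nat_lit 1) (nat_lit 303) (nat_lit 1) (nat_lit 317) (nat_lit 352) (nat_lit 351)) (XT.lf (nat_lit 836) (nat_lit 4635869149) (nat_lit 76) (nat_lit 3158804323) (nat_lit 0) (nat_lit 1675285721) (nat_lit 304) (nat_lit 1) (nat_lit 294) (nat_lit 1) (nat_lit 293) (nat_lit 1) (nat_lit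 318) (nat_lit 352) (nat_lit 350))))) (XT.nd (nat_lit 234) (nat_lit 1444) (nat_lit 0) (XT.nd (nat_lit 78) (nat_lit 0) (nat_lit 76) (XT.lf (nat_lit 836) (nat_lit 4005770720) (nat_lit 76) (nat_lit 1323832997) (nat_lit 0) (nat_lit 3794099779) (nat_lit 305) (nat_lit 1) (nat_lit 295) (nat_lit 1) (nat_lit 294) (nat_lit 1) (nat_lit 319) (nat_lit 352) (nat_lit 349)) (XT.nd (nat_lit 78) (nat_lit 0) (nat_lit 76) (XT.lf (nat_lit 836) (nat_lit 2964610892) (nat_lit 0) (nat_lit 5546646848) (nat_lit 760) (nat_lit 283543794) (nat_lit 306) (nat_lit 1) (nat_lit 295) (nat_lit 1) (nat_lit 305) (nat_lit 1) (nat_lit 320) (nat_lit 352) (nat_lit 348)) (XT.lf (nat_lit 836) (nat_lit 711329316) (nat_lit 0) (nat_lit 6116719068) (nat_lit 760) (nat_lit 1653558558) (nat_lit 307) (nat_lit 1) (nat_lit 296) (nat_lit 1) (nat_lit 306) (nat_lit 1) (nat_lit 321) (nat_lit 352) (nat_lit 347)))) (XT.nd (nat_lit 156) (nat_lit 912) (nat_lit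 0) (XT.nd (nat_lit 78) (nat_lit 684) (nat_lit 0) (XT.lf (nat_lit 836) (nat_lit 1366885623) (nat_lit 76) (nat_lit 5315926976) (nat_lit 0) (nat_lit 1500220178) (nat_lit 307) (nat_lit 1) (nat_lit 297) (nat_lit 1) (nat_lit 296) (nat_lit 1) (nat_lit 322) (nat_lit 352) (nat_lit 346)) (XT.lf (nat_lit 836) (nat_lit 280727137) (nat_lit 0) (nat_lit 3974007049) (nat_lit 760) (nat_lit 3644122825) (nat_lit 298) (nat_lit 1) (nat_lit 287) (nat_lit 1) (nat_lit 297) (nat_lit 1) (nat_lit 323) (nat_lit 352) (nat_lit 345))) (XT.nd (nat_lit 78) (nat_lit 380) (nat_lit 0) (XT.lf (nat_lit 76) (nat_lit 1943813181) (nat_lit 0) (nat_lit 842344709) (nat_lit 532) (nat_lit 4841978805) (nat_lit 281) (nat_lit 1) (nat_lit 280) (nat_lit 1) (nat_lit 287) (nat_lit 1) (nat_lit 324) (nat_lit 352) (nat_lit 344)) (XT.lf (nat_lit 456) (nat_lit 5356904465) (nat_lit 0) (nat_lit 1743787889) (nat_lit 380) (nat_lit 269600382) (nat_lit 281)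 (nat_lit 1) (nat_lit 275) (nat_lit 1) (nat_lit 280) (nat_lit 1) (nat_lit 325) (nat_lit 352) (nat_lit 343)))))) (XT.nd (nat_lit 546) (nat_lit 1824) (nat_lit 0) (XT.nd (nat_lit 234) (nat_lit 1216) (nat_lit 0) (XT.nd (nat_lit 78) (nat_lit 304) (nat_lit 0) (XT.lf (nat_lit 456) (nat_lit 3865593274) (nat_lit 0) (nat_lit 812787046) (nat_lit 380) (nat_lit 2445155286) (nat_lit 276) (nat_lit 1) (nat_lit 270) (nat_lit 1) (nat_lit 275) (nat_lit 1) (nat_lit 326) (nat_lit 352) (nat_lit 342)) (XT.nd (nat_lit 78) (nat_lit 0) (nat_lit 0) (XT.lf (nat_lit 380) (nat_lit 2352164206) (nat_lit 0) (nat_lit 14964730) (nat_lit 304) (nat_lit 4521614258) (nat_lit 271) (nat_lit 1) (nat_lit 266) (nat_lit 1) (nat_lit 270) (nat_lit 1) (nat_lit 327) (nat_lit 352) (nat_lit 341)) (XT.lf (nat_lit 76) (nat_lit 173531558) (nat_lit 0) (nat_lit 5852325025) (nat_lit 380) (nat_lit 638895067) (nat_lit 267) (nat_lit 1) (nat_lit 266) (nat_lit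 1) (nat_lit 271) (nat_lit 1) (nat_lit 328) (nat_lit 352) (nat_lit 340)))) (XT.nd (nat_lit 156) (nat_lit 532) (nat_lit 0) (XT.nd (nat_lit 78) (nat_lit 304) (nat_lit 0) (XT.lf (nat_lit 76) (nat_lit 4480629858) (nat_lit 0) (nat_lit 743160404) (nat_lit 380) (nat_lit 1225606475) (nat_lit 262) (nat_lit 1) (nat_lit 261) (nat_lit 1) (nat_lit 266) (nat_lit 1) (nat_lit 329) (nat_lit 352) (nat_lit 339)) (XT.lf (nat_lit 76) (nat_lit 2241772660) (nat_lit 0) (nat_lit 2276432241) (nat_lit 380) (nat_lit 1725352398) (nat_lit 258) (nat_lit 1) (nat_lit 257) (nat_lit 1) (nat_lit 262) (nat_lit 1) (nat_lit 330) (nat_lit 352) (nat_lit 338))) (XT.nd (nat_lit 78) (nat_lit 228) (nat_lit 0) (XT.lf (nat_lit 76) (nat_lit 110648927) (nat_lit 0) (nat_lit 3806159360) (nat_lit 380) (nat_lit 2130655393) (nat_lit 254) (nat_lit 1) (nat_lit 253) (nat_lit 1) (nat_lit 258) (nat_lit 1) (nat_lit 331) (nat_lit 352) (nat_lit 337)) (XT.lf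 (nat_lit 304) (nat_lit 499684320) (nat_lit 0) (nat_lit 3379125874) (nat_lit 228) (nat_lit 1980245423) (nat_lit 254) (nat_lit 1) (nat_lit 250) (nat_lit 1) (nat_lit 253) (nat_lit 1) (nat_lit 332) (nat_lit 352) (nat_lit 336))))) (XT.nd (nat_lit 234) (nat_lit 988) (nat_lit 0) (XT.nd (nat_lit 78) (nat_lit 456) (nat_lit 0) (XT.lf (nat_lit 76) (nat_lit 1726543671) (nat_lit 0) (nat_lit 1183383760) (nat_lit 380) (nat_lit 2768503600) (nat_lit 246) (nat_lit 1) (nat_lit 245) (nat_lit 1) (nat_lit 250) (nat_lit 1) (nat_lit 333) (nat_lit 352) (nat_lit 335)) (XT.nd (nat_lit 78) (nat_lit 228) (nat_lit 0) (XT.lf (nat_lit 304) (nat_lit 2673104891) (nat_lit 0) (nat_lit 2511036554) (nat_lit 228) (nat_lit 321409698) (nat_lit 246) (nat_lit 1) (nat_lit 242) (nat_lit 1) (nat_lit 245) (nat_lit 1) (nat_lit 334) (nat_lit 352) (nat_lit 334)) (XT.lf (nat_lit 304) (nat_lit 856717203) (nat_lit 0) (nat_lit 2161899647) (nat_lit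 228) (nat_lit 2320698226) (nat_lit 243) (nat_lit 1) (nat_lit 239) (nat_lit 1) (nat_lit 242) (nat_lit 1) (nat_lit 335) (nat_lit 352) (nat_lit 333)))) (XT.nd (nat_lit 156) (nat_lit 456) (nat_lit 0) (XT.nd (nat_lit 78) (nat_lit 228) (nat_lit 0) (XT.lf (nat_lit 76) (nat_lit 976450601) (nat_lit 0) (nat_lit 894025381) (nat_lit 304) (nat_lit 3309507125) (nat_lit 236) (nat_lit 1) (nat_lit 235) (nat_lit 1) (nat_lit 239) (nat_lit 1) (nat_lit 336) (nat_lit 352) (nat_lit 332)) (XT.lf (nat_lit 304) (nat_lit 2429769163) (nat_lit 0) (nat_lit 1616678361) (nat_lit 228) (nat_lit 980035737) (nat_lit 236) (nat_lit 1) (nat_lit 232) (nat_lit 1) (nat_lit 235) (nat_lit 1) (nat_lit 337) (nat_lit 352) (nat_lit 331))) (XT.nd (nat_lit 78) (nat_lit 304) (nat_lit 0) (XT.lf (nat_lit 228) (nat_lit 602343363) (nat_lit 0) (nat_lit 1410433949) (nat_lit 152) (nat_lit 2866398715) (nat_lit 233) (nat_lit 1) (nat_lit 230) (nat_lit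 1) (nat_lit 232) (nat_lit 1) (nat_lit 338) (nat_lit 352) (nat_lit 330)) (XT.lf (nat_lit 76) (nat_lit 102040813) (nat_lit 0) (nat_lit 1141858860) (nat_lit 304) (nat_lit 3493679136) (nat_lit 227) (nat_lit 1) (nat_lit 226) (nat_lit 1) (nat_lit 230) (nat_lit 1) (nat_lit 339) (nat_lit 352) (nat_lit 329))))))))
noncomputable def ec46 : XT := (XT.nd (nat_lit 2028) (nat_lit 3192) (nat_lit 0) (XT.nd (nat_lit 1014) (nat_lit 1672) (nat_lit 0) (XT.nd (nat_lit 468) (nat_lit 988) (nat_lit 0) (XT.nd (nat_lit 234) (nat_lit 532) (nat_lit 0) (XT.nd (nat_lit 78) (nat_lit 380) (nat_lit 0) (XT.lf (nat_lit 228) (nat_lit 1750299291) (nat_lit 0) (nat_lit 1093786899) (nat_lit 152) (nat_lit 1756390350) (nat_lit 227) (nat_lit 1) (nat_lit 224) (nat_lit 1) (nat_lit 226) (nat_lit 1) (nat_lit 340) (nat_lit 352) (nat_lit 328)) (XT.nd (nat_lit 78) (nat_lit 152) (nat_lit 0) (XT.lf (nat_lit 76) (nat_lit 949639250) (nat_lit 0)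 (nat_lit 43864432) (nat_lit 228) (nat_lit 3475853261) (nat_lit 222) (nat_lit 1) (nat_lit 221) (nat_lit 1) (nat_lit 224) (nat_lit 1) (nat_lit 341) (nat_lit 352) (nat_lit 327)) (XT.lf (nat_lit 228) (nat_lit 2596130330) (nat_lit 0) (nat_lit 899617369) (nat_lit 152) (nat_lit 846303821) (nat_lit 222) (nat_lit 1) (nat_lit 219) (nat_lit 1) (nat_lit 221) (nat_lit 1) (nat_lit 342) (nat_lit 352) (nat_lit 326)))) (XT.nd (nat_lit 78) (nat_lit 380) (nat_lit 0) (XT.lf (nat_lit 228) (nat_lit 806462114) (nat_lit 0) (nat_lit 836293826) (nat_lit 152) (nat_lit 2576857601) (nat_lit 220) (nat_lit 1) (nat_lit 217) (nat_lit 1) (nat_lit 219) (nat_lit 1) (nat_lit 343) (nat_lit 352) (nat_lit 325)) (XT.nd (nat_lit 78) (nat_lit 152) (nat_lit 0) (XT.lf (nat_lit 228) (nat_lit 3201358212) (nat_lit 0) (nat_lit 799010873) (nat_lit 152) (nat_lit 101363799) (nat_lit 217) (nat_lit 1) (nat_lit 214) (nat_lit 1) (nat_lit 216) (nat_lit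 1) (nat_lit 344) (nat_lit 352) (nat_lit 324)) (XT.lf (nat_lit 228) (nat_lit 1432779565) (nat_lit 0) (nat_lit 762785999) (nat_lit 152) (nat_lit 1791562193) (nat_lit 215) (nat_lit 1) (nat_lit 212) (nat_lit 1) (nat_lit 214) (nat_lit 1) (nat_lit 345) (nat_lit 352) (nat_lit 323))))) (XT.nd (nat_lit 234) (nat_lit 608) (nat_lit 0) (XT.nd (nat_lit 78) (nat_lit 228) (nat_lit 0) (XT.lf (nat_lit 76) (nat_lit 490782319) (nat_lit 0) (nat_lit 269756077) (nat_lit 152) (nat_lit 3116737760) (nat_lit 211) (nat_lit 1) (nat_lit 210) (nat_lit 1) (nat_lit 212) (nat_lit 1) (nat_lit 346) (nat_lit 352) (nat_lit 322)) (XT.nd (nat_lit 78) (nat_lit 76) (nat_lit 0) (XT.lf (nat_lit 228) (nat_lit 1879889190) (nat_lit 0) (nat_lit 752485142) (nat_lit 152) (nat_lit 1137822224) (nat_lit 211) (nat_lit 1) (nat_lit 208) (nat_lit 1) (nat_lit 210) (nat_lit 1) (nat_lit 347) (nat_lit 352) (nat_lit 321)) (XT.lf (nat_lit 152) (nat_lit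 202437352) (nat_lit 0) (nat_lit 770967149) (nat_lit 76) (nat_lit 2693939818) (nat_lit 209) (nat_lit 1) (nat_lit 207) (nat_lit 1) (nat_lit 208) (nat_lit 1) (nat_lit 348) (nat_lit 352) (nat_lit 320)))) (XT.nd (nat_lit 156) (nat_lit 304) (nat_lit 0) (XT.nd (nat_lit 78) (nat_lit 76) (nat_lit 0) (XT.lf (nat_lit 228) (nat_lit 2185236485) (nat_lit 0) (nat_lit 788493658) (nat_lit 152) (nat_lit 593597894) (nat_lit 207) (nat_lit 1) (nat_lit 204) (nat_lit 1) (nat_lit 206) (nat_lit 1) (nat_lit 349) (nat_lit 352) (nat_lit 319)) (XT.lf (nat_lit 152) (nat_lit 549603089) (nat_lit 0) (nat_lit 817976231) (nat_lit 76) (nat_lit 2103103185) (nat_lit 205) (nat_lit 1) (nat_lit 203) (nat_lit 1) (nat_lit 204) (nat_lit 1) (nat_lit 350) (nat_lit 352) (nat_lit 318))) (XT.nd (nat_lit 78) (nat_lit 76) (nat_lit 0) (XT.lf (nat_lit 228) (nat_lit 2379096614) (nat_lit 0) (nat_lit 857427467) (nat_lit 152) (nat_lit 140711187) (nat_lit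 203) (nat_lit 1) (nat_lit 200) (nat_lit 1) (nat_lit 202) (nat_lit 1) (nat_lit 351) (nat_lit 352) (nat_lit 317)) (XT.lf (nat_lit 152) (nat_lit 790954247) (nat_lit 0) (nat_lit 893878437) (nat_lit 76) (nat_lit 1601460416) (nat_lit 201) (nat_lit 1) (nat_lit 199) (nat_lit 1) (nat_lit 200) (nat_lit 1) (nat_lit 352) (nat_lit 352) (nat_lit 316)))))) (XT.nd (nat_lit 468) (nat_lit 836) (nat_lit 0) (XT.nd (nat_lit 234) (nat_lit 304) (nat_lit 0) (XT.nd (nat_lit 78) (nat_lit 304) (nat_lit 0) (XT.lf (nat_lit 76) (nat_lit 228300872) (nat_lit 0) (nat_lit 716575584) (nat_lit 228) (nat_lit 2253741581) (nat_lit 197) (nat_lit 1) (nat_lit 196) (nat_lit 1) (nat_lit 199) (nat_lit 1) (nat_lit 353) (nat_lit 352) (nat_lit 315)) (XT.nd (nat_lit 78) (nat_lit 228) (nat_lit 0) (XT.lf (nat_lit 152) (nat_lit 949216459) (nat_lit 0) (nat_lit 989038558) (nat_lit 76) (nat_lit 1174865312) (nat_lit 197) (nat_lit 1) (nat_lit 195)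 (nat_lit 1) (nat_lit 196) (nat_lit 1) (nat_lit 354) (nat_lit 352) (nat_lit 314)) (XT.lf (nat_lit 76) (nat_lit 530942822) (nat_lit 0) (nat_lit 514254025) (nat_lit 228) (nat_lit 1985430373) (nat_lit 193) (nat_lit 1) (nat_lit 192) (nat_lit 1) (nat_lit 195) (nat_lit 1) (nat_lit 355) (nat_lit 352) (nat_lit 313)))) (XT.nd (nat_lit 78) (nat_lit 228) (nat_lit 0) (XT.lf (nat_lit 152) (nat_lit 1042716410) (nat_lit 0) (nat_lit 1095935226) (nat_lit 76) (nat_lit 811590144) (nat_lit 193) (nat_lit 1) (nat_lit 191) (nat_lit 1) (nat_lit 192) (nat_lit 1) (nat_lit 356) (nat_lit 352) (nat_lit 312)) (XT.nd (nat_lit 78) (nat_lit 76) (nat_lit 0) (XT.lf (nat_lit 76) (nat_lit 781670610) (nat_lit 0) (nat_lit 372452059) (nat_lit 152) (nat_lit 1718388432) (nat_lit 190) (nat_lit 1) (nat_lit 189) (nat_lit 1) (nat_lit 191) (nat_lit 1) (nat_lit 357) (nat_lit 352) (nat_lit 311)) (XT.lf (nat_lit 152) (nat_lit 1086203812) (nat_lit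 0) (nat_lit 1208748936) (nat_lit 76) (nat_lit 501894245) (nat_lit 190) (nat_lit 1) (nat_lit 188) (nat_lit 1) (nat_lit 189) (nat_lit 1) (nat_lit 358) (nat_lit 352) (nat_lit 310))))) (XT.nd (nat_lit 234) (nat_lit 456) (nat_lit 0) (XT.nd (nat_lit 78) (nat_lit 228) (nat_lit 0) (XT.lf (nat_lit 76) (nat_lit 988740643) (nat_lit 0) (nat_lit 277854092) (nat_lit 152) (nat_lit 1456915500) (nat_lit 187) (nat_lit 1) (nat_lit 186) (nat_lit 1) (nat_lit 188) (nat_lit 1) (nat_lit 359) (nat_lit 352) (nat_lit 309)) (XT.nd (nat_lit 78) (nat_lit 152) (nat_lit 0) (XT.lf (nat_lit 152) (nat_lit 1091521634) (nat_lit 0) (nat_lit 1323027225) (nat_lit 76) (nat_lit 237670965) (nat_lit 187) (nat_lit 1) (nat_lit 185) (nat_lit 1) (nat_lit 186) (nat_lit 1) (nat_lit 360) (nat_lit 352) (nat_lit 308)) (XT.lf (nat_lit 76) (nat_lit 1159014918) (nat_lit 0) (nat_lit 219753152) (nat_lit 152) (nat_lit 1204183343) (nat_lit 184) (nat_lit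 1) (nat_lit 183) (nat_lit 1) (nat_lit 185) (nat_lit 1) (nat_lit 361) (nat_lit 352) (nat_lit 307)))) (XT.nd (nat_lit 156) (nat_lit 228) (nat_lit 0) (XT.nd (nat_lit 78) (nat_lit 152) (nat_lit 0) (XT.lf (nat_lit 152) (nat_lit 1068152493) (nat_lit 0) (nat_lit 1435412762) (nat_lit 76) (nat_lit 12158641) (nat_lit 184) (nat_lit 1) (nat_lit 182) (nat_lit 1) (nat_lit 183) (nat_lit 1) (nat_lit 362) (nat_lit 352) (nat_lit 306)) (XT.lf (nat_lit 76) (nat_lit 1298207844) (nat_lit 0) (nat_lit 189561068) (nat_lit 152) (nat_lit 962465608) (nat_lit 181) (nat_lit 1) (nat_lit 180) (nat_lit 1) (nat_lit 182) (nat_lit 1) (nat_lit 363) (nat_lit 352) (nat_lit 305))) (XT.nd (nat_lit 78) (nat_lit 152) (nat_lit 0) (XT.lf (nat_lit 0) (nat_lit 174525489) (nat_lit 0) (nat_lit 1365941539) (nat_lit 152) (nat_lit 846182805) (nat_lit 179) (nat_lit 3) (nat_lit 179) (nat_lit 1) (nat_lit 181) (nat_lit 1) (nat_lit 364) (nat_lit 352)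 (nat_lit 304)) (XT.lf (nat_lit 76) (nat_lit 1411088390) (nat_lit 0) (nat_lit 180409246) (nat_lit 152) (nat_lit 733324053) (nat_lit 178) (nat_lit 1) (nat_lit 177) (nat_lit 1) (nat_lit 179) (nat_lit 1) (nat_lit 365) (nat_lit 352) (nat_lit 303))))))) (XT.nd (nat_lit 1014) (nat_lit 1672) (nat_lit 0) (XT.nd (nat_lit 468) (nat_lit 836) (nat_lit 0) (XT.nd (nat_lit 234) (nat_lit 380) (nat_lit 0) (XT.nd (nat_lit 78) (nat_lit 228) (nat_lit 0) (XT.lf (nat_lit 0) (nat_lit 333408252) (nat_lit 0) (nat_lit 1306215137) (nat_lit 152) (nat_lit 625016777) (nat_lit 176) (nat_lit 3) (nat_lit 176) (nat_lit 1) (nat_lit 178) (nat_lit 1) (nat_lit 366) (nat_lit 352) (nat_lit 302)) (XT.nd (nat_lit 78) (nat_lit 76) (nat_lit 0) (XT.lf (nat_lit 76) (nat_lit 1501645706) (nat_lit 0) (nat_lit 186823360) (nat_lit 152) (nat_lit 517759228) (nat_lit 175) (nat_lit 1) (nat_lit 174) (nat_lit 1) (nat_lit 176) (nat_lit 1) (nat_lit 367)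 (nat_lit 352) (nat_lit 301)) (XT.lf (nat_lit 0) (nat_lit 468734897) (nat_lit 0) (nat_lit 1263044524) (nat_lit 152) (nat_lit 417460575) (nat_lit 173) (nat_lit 3) (nat_lit 173) (nat_lit 1) (nat_lit 175) (nat_lit 1) (nat_lit 368) (nat_lit 352) (nat_lit 300)))) (XT.nd (nat_lit 78) (nat_lit 228) (nat_lit 0) (XT.lf (nat_lit 76) (nat_lit 1573224902) (nat_lit 0) (nat_lit 204458362) (nat_lit 152) (nat_lit 316332232) (nat_lit 172) (nat_lit 1) (nat_lit 171) (nat_lit 1) (nat_lit 173) (nat_lit 1) (nat_lit 369) (nat_lit 352) (nat_lit 299)) (XT.nd (nat_lit 78) (nat_lit 152) (nat_lit 0) (XT.lf (nat_lit 0) (nat_lit 583756509) (nat_lit 0) (nat_lit 1232320774) (nat_lit 152) (nat_lit 223950835) (nat_lit 170) (nat_lit 3) (nat_lit 170) (nat_lit 1) (nat_lit 172) (nat_lit 1) (nat_lit 370) (nat_lit 352) (nat_lit 298)) (XT.lf (nat_lit 76) (nat_lit 1628638402) (nat_lit 0) (nat_lit 229882708) (nat_lit 152) (nat_lit 129262915)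 (nat_lit 169) (nat_lit 1) (nat_lit 168) (nat_lit 1) (nat_lit 170) (nat_lit 1) (nat_lit 371) (nat_lit 352) (nat_lit 297))))) (XT.nd (nat_lit 234) (nat_lit 456) (nat_lit 0) (XT.nd (nat_lit 78) (nat_lit 304) (nat_lit 0) (XT.lf (nat_lit 0) (nat_lit 681222728) (nat_lit 0) (nat_lit 1210783987) (nat_lit 152) (nat_lit 44614000) (nat_lit 167) (nat_lit 3) (nat_lit 167) (nat_lit 1) (nat_lit 169) (nat_lit 1) (nat_lit 372) (nat_lit 352) (nat_lit 296)) (XT.nd (nat_lit 78) (nat_lit 76) (nat_lit 0) (XT.lf (nat_lit 152) (nat_lit 1626029729) (nat_lit 0) (nat_lit 44929077) (nat_lit 76) (nat_lit 216175105) (nat_lit 166) (nat_lit 1) (nat_lit 164) (nat_lit 1) (nat_lit 165) (nat_lit 1) (nat_lit 373) (nat_lit 352) (nat_lit 295)) (XT.lf (nat_lit 76) (nat_lit 640762512) (nat_lit 0) (nat_lit 124650448) (nat_lit 76) (nat_lit 1073156250) (nat_lit 164) (nat_lit 3) (nat_lit 163) (nat_lit 1) (nat_lit 164) (nat_lit 1) (nat_lit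 374) (nat_lit 352) (nat_lit 294)))) (XT.nd (nat_lit 156) (nat_lit 228) (nat_lit 0) (XT.nd (nat_lit 78) (nat_lit 76) (nat_lit 0) (XT.lf (nat_lit 152) (nat_lit 1494491992) (nat_lit 0) (nat_lit 208855443) (nat_lit 76) (nat_lit 88325051) (nat_lit 163) (nat_lit 1) (nat_lit 161) (nat_lit 1) (nat_lit 162) (nat_lit 1) (nat_lit 375) (nat_lit 352) (nat_lit 293)) (XT.lf (nat_lit 76) (nat_lit 555702769) (nat_lit 0) (nat_lit 281162550) (nat_lit 76) (nat_lit 908757947) (nat_lit 161) (nat_lit 3) (nat_lit 160) (nat_lit 1) (nat_lit 161) (nat_lit 1) (nat_lit 376) (nat_lit 352) (nat_lit 292))) (XT.nd (nat_lit 78) (nat_lit 76) (nat_lit 0) (XT.lf (nat_lit 0) (nat_lit 23455290) (nat_lit 0) (nat_lit 334791426) (nat_lit 152) (nat_lit 1342929598) (nat_lit 158) (nat_lit 3) (nat_lit 158) (nat_lit 1) (nat_lit 160) (nat_lit 1) (nat_lit 377) (nat_lit 352) (nat_lit 291)) (XT.lf (nat_lit 76) (nat_lit 472681729) (nat_lit 0)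 (nat_lit 423883174) (nat_lit 76) (nat_lit 760955929) (nat_lit 158) (nat_lit 3) (nat_lit 157) (nat_lit 1) (nat_lit 158) (nat_lit 1) (nat_lit 378) (nat_lit 352) (nat_lit 290)))))) (XT.nd (nat_lit 546) (nat_lit 836) (nat_lit 0) (XT.nd (nat_lit 234) (nat_lit 456) (nat_lit 0) (XT.nd (nat_lit 78) (nat_lit 228) (nat_lit 0) (XT.lf (nat_lit 0) (nat_lit 119288463) (nat_lit 0) (nat_lit 373498516) (nat_lit 152) (nat_lit 1122533435) (nat_lit 155) (nat_lit 3) (nat_lit 155) (nat_lit 1) (nat_lit 157) (nat_lit 1) (nat_lit 379) (nat_lit 352) (nat_lit 289)) (XT.nd (nat_lit 78) (nat_lit 152) (nat_lit 0) (XT.lf (nat_lit 76) (nat_lit 392629973) (nat_lit 0) (nat_lit 553346394) (nat_lit 76) (nat_lit 628009651) (nat_lit 155) (nat_lit 3) (nat_lit 154) (nat_lit 1) (nat_lit 155) (nat_lit 1) (nat_lit 380) (nat_lit 352) (nat_lit 288)) (XT.lf (nat_lit 0) (nat_lit 203461857) (nat_lit 0) (nat_lit 411027712) (nat_lit 152) (nat_lit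 919418134) (nat_lit 152) (nat_lit 3) (nat_lit 152) (nat_lit 1) (nat_lit 154) (nat_lit 1) (nat_lit 381) (nat_lit 352) (nat_lit 287)))) (XT.nd (nat_lit 156) (nat_lit 228) (nat_lit 0) (XT.nd (nat_lit 78) (nat_lit 152) (nat_lit 0) (XT.lf (nat_lit 76) (nat_lit 316209125) (nat_lit 0) (nat_lit 670153794) (nat_lit 76) (nat_lit 508399731) (nat_lit 152) (nat_lit 3) (nat_lit 151) (nat_lit 1) (nat_lit 152) (nat_lit 1) (nat_lit 382) (nat_lit 352) (nat_lit 286)) (XT.lf (nat_lit 0) (nat_lit 277246986) (nat_lit 0) (nat_lit 446727238) (nat_lit 152) (nat_lit 732716567) (nat_lit 149) (nat_lit 3) (nat_lit 149) (nat_lit 1) (nat_lit 151) (nat_lit 1) (nat_lit 383) (nat_lit 352) (nat_lit 285))) (XT.nd (nat_lit 78) (nat_lit 152) (nat_lit 0) (XT.lf (nat_lit 76) (nat_lit 243867864) (nat_lit 0) (nat_lit 774950342) (nat_lit 76) (nat_lit 400794023) (nat_lit 149) (nat_lit 3) (nat_lit 148) (nat_lit 1) (nat_lit 149) (nat_lit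 1) (nat_lit 384) (nat_lit 352) (nat_lit 284)) (XT.lf (nat_lit 0) (nat_lit 341755474) (nat_lit 0) (nat_lit 480138331) (nat_lit 152) (nat_lit 561545220) (nat_lit 146) (nat_lit 3) (nat_lit 146) (nat_lit 1) (nat_lit 148) (nat_lit 1) (nat_lit 385) (nat_lit 352) (nat_lit 283))))) (XT.nd (nat_lit 234) (nat_lit 532) (nat_lit 0) (XT.nd (nat_lit 78) (nat_lit 228) (nat_lit 0) (XT.lf (nat_lit 76) (nat_lit 175887216) (nat_lit 0) (nat_lit 868405460) (nat_lit 76) (nat_lit 304019490) (nat_lit 146) (nat_lit 3) (nat_lit 145) (nat_lit 1) (nat_lit 146) (nat_lit 1) (nat_lit 386) (nat_lit 352) (nat_lit 282)) (XT.nd (nat_lit 78) (nat_lit 76) (nat_lit 0) (XT.lf (nat_lit 0) (nat_lit 397963148) (nat_lit 0) (nat_lit 510954572) (nat_lit 152) (nat_lit 405019170) (nat_lit 143) (nat_lit 3) (nat_lit 143) (nat_lit 1) (nat_lit 145) (nat_lit 1) (nat_lit 387) (nat_lit 352) (nat_lit 281)) (XT.lf (nat_lit 76) (nat_lit 112417149)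 (nat_lit 0) (nat_lit 951198288) (nat_lit 76) (nat_lit 217038838) (nat_lit 143) (nat_lit 3) (nat_lit 142) (nat_lit 1) (nat_lit 143) (nat_lit 1) (nat_lit 388) (nat_lit 352) (nat_lit 280)))) (XT.nd (nat_lit 156) (nat_lit 304) (nat_lit 0) (XT.nd (nat_lit 78) (nat_lit 76) (nat_lit 0) (XT.lf (nat_lit 0) (nat_lit 446730038) (nat_lit 0) (nat_lit 538989023) (nat_lit 152) (nat_lit 262263529) (nat_lit 140) (nat_lit 3) (nat_lit 140) (nat_lit 1) (nat_lit 142) (nat_lit 1) (nat_lit 389) (nat_lit 352) (nat_lit 279)) (XT.lf (nat_lit 76) (nat_lit 53506077) (nat_lit 0) (nat_lit 1024006332) (nat_lit 76) (nat_lit 138931063) (nat_lit 140) (nat_lit 3) (nat_lit 139) (nat_lit 1) (nat_lit 140) (nat_lit 1) (nat_lit 390) (nat_lit 352) (nat_lit 278))) (XT.nd (nat_lit 78) (nat_lit 152) (nat_lit 0) (XT.lf (nat_lit 0) (nat_lit 488817049) (nat_lit 0) (nat_lit 564147724) (nat_lit 152) (nat_lit 132422081) (nat_lit 137) (nat_lit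 3) (nat_lit 137) (nat_lit 1) (nat_lit 139) (nat_lit 1) (nat_lit 391) (nat_lit 352) (nat_lit 277)) (XT.lf (nat_lit 76) (nat_lit 1086635087) (nat_lit 0) (nat_lit 847389) (nat_lit 152) (nat_lit 68013476) (nat_lit 136) (nat_lit 1) (nat_lit 135) (nat_lit 1) (nat_lit 137) (nat_lit 1) (nat_lit 392) (nat_lit 352) (nat_lit 276))))))))
noncomputable def ec47 : XT := (XT.nd (nat_lit 46956) (nat_lit 0) (nat_lit 9652) (XT.nd (nat_lit 1014) (nat_lit 1748) (nat_lit 0) (XT.nd (nat_lit 468) (nat_lit 760) (nat_lit 0) (XT.nd (nat_lit 234) (nat_lit 380) (nat_lit 0) (XT.nd (nat_lit 78) (nat_lit 304) (nat_lit 0) (XT.lf (nat_lit 0) (nat_lit 524899863) (nat_lit 0) (nat_lit 586408351) (nat_lit 152) (nat_lit 14663656) (nat_lit 134) (nat_lit 3) (nat_lit 134) (nat_lit 1) (nat_lit 136) (nat_lit 1) (nat_lit 393) (nat_lit 352) (nat_lit 275)) (XT.nd (nat_lit 78) (nat_lit 76) (nat_lit 0) (XT.lf (nat_lit 152) (nat_lit 1047669669)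 (nat_lit 0) (nat_lit 45336330) (nat_lit 76) (nat_lit 4560563) (nat_lit 133) (nat_lit 1) (nat_lit 131) (nat_lit 1) (nat_lit 132) (nat_lit 1) (nat_lit 394) (nat_lit 352) (nat_lit 274)) (XT.lf (nat_lit 76) (nat_lit 462212383) (nat_lit 0) (nat_lit 94849065) (nat_lit 76) (nat_lit 512434873) (nat_lit 131) (nat_lit 3) (nat_lit 130) (nat_lit 1) (nat_lit 131) (nat_lit 1) (nat_lit 395) (nat_lit 352) (nat_lit 273)))) (XT.nd (nat_lit 78) (nat_lit 228) (nat_lit 0) (XT.lf (nat_lit 0) (nat_lit 52250636) (nat_lit 0) (nat_lit 96538546) (nat_lit 152) (nat_lit 893692947) (nat_lit 128) (nat_lit 3) (nat_lit 128) (nat_lit 1) (nat_lit 130) (nat_lit 1) (nat_lit 396) (nat_lit 352) (nat_lit 272)) (XT.nd (nat_lit 78) (nat_lit 152) (nat_lit 0) (XT.lf (nat_lit 76) (nat_lit 390439823) (nat_lit 0) (nat_lit 193986379) (nat_lit 76) (nat_lit 431447148) (nat_lit 128) (nat_lit 3) (nat_lit 127) (nat_lit 1) (nat_lit 128) (nat_lit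 1) (nat_lit 397) (nat_lit 352) (nat_lit 271)) (XT.lf (nat_lit 0) (nat_lit 102813720) (nat_lit 0) (nat_lit 138975382) (nat_lit 152) (nat_lit 748398460) (nat_lit 125) (nat_lit 3) (nat_lit 125) (nat_lit 1) (nat_lit 127) (nat_lit 1) (nat_lit 398) (nat_lit 352) (nat_lit 270))))) (XT.nd (nat_lit 234) (nat_lit 456) (nat_lit 0) (XT.nd (nat_lit 78) (nat_lit 228) (nat_lit 0) (XT.lf (nat_lit 76) (nat_lit 324230430) (nat_lit 0) (nat_lit 283021758) (nat_lit 76) (nat_lit 357713450) (nat_lit 125) (nat_lit 3) (nat_lit 124) (nat_lit 1) (nat_lit 125) (nat_lit 1) (nat_lit 399) (nat_lit 352) (nat_lit 269)) (XT.nd (nat_lit 78) (nat_lit 76) (nat_lit 0) (XT.lf (nat_lit 0) (nat_lit 147808768) (nat_lit 0) (nat_lit 177335240) (nat_lit 152) (nat_lit 615397218) (nat_lit 122) (nat_lit 3) (nat_lit 122) (nat_lit 1) (nat_lit 124) (nat_lit 1) (nat_lit 400) (nat_lit 352) (nat_lit 268)) (XT.lf (nat_lit 76) (nat_lit 263308317)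 (nat_lit 0) (nat_lit 362676465) (nat_lit 76) (nat_lit 290647643) (nat_lit 122) (nat_lit 3) (nat_lit 121) (nat_lit 1) (nat_lit 122) (nat_lit 1) (nat_lit 401) (nat_lit 352) (nat_lit 267)))) (XT.nd (nat_lit 156) (nat_lit 228) (nat_lit 0) (XT.nd (nat_lit 78) (nat_lit 76) (nat_lit 0) (XT.lf (nat_lit 0) (nat_lit 187720646) (nat_lit 0) (nat_lit 211829399) (nat_lit 152) (nat_lit 493855984) (nat_lit 119) (nat_lit 3) (nat_lit 119) (nat_lit 1) (nat_lit 121) (nat_lit 1) (nat_lit 402) (nat_lit 352) (nat_lit 266)) (XT.lf (nat_lit 76) (nat_lit 207391784) (nat_lit 0) (nat_lit 433634271) (nat_lit 76) (nat_lit 229714704) (nat_lit 119) (nat_lit 3) (nat_lit 118) (nat_lit 1) (nat_lit 119) (nat_lit 1) (nat_lit 403) (nat_lit 352) (nat_lit 265))) (XT.nd (nat_lit 78) (nat_lit 76) (nat_lit 0) (XT.lf (nat_lit 0) (nat_lit 222990546) (nat_lit 0) (nat_lit 242675660) (nat_lit 152) (nat_lit 382986230) (nat_lit 116) (nat_lit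 3) (nat_lit 116) (nat_lit 1) (nat_lit 118) (nat_lit 1) (nat_lit 404) (nat_lit 352) (nat_lit 264)) (XT.lf (nat_lit 76) (nat_lit 156198220) (nat_lit 0) (nat_lit 496541576) (nat_lit 76) (nat_lit 174425178) (nat_lit 116) (nat_lit 3) (nat_lit 115) (nat_lit 1) (nat_lit 116) (nat_lit 1) (nat_lit 405) (nat_lit 352) (nat_lit 263)))))) (XT.nd (nat_lit 546) (nat_lit 912) (nat_lit 0) (XT.nd (nat_lit 234) (nat_lit 456) (nat_lit 0) (XT.nd (nat_lit 78) (nat_lit 228) (nat_lit 0) (XT.lf (nat_lit 0) (nat_lit 254020761) (nat_lit 0) (nat_lit 270093917) (nat_lit 152) (nat_lit 282043296) (nat_lit 113) (nat_lit 3) (nat_lit 113) (nat_lit 1) (nat_lit 115) (nat_lit 1) (nat_lit 406) (nat_lit 352) (nat_lit 262)) (XT.nd (nat_lit 78) (nat_lit 152) (nat_lit 0) (XT.lf (nat_lit 76) (nat_lit 109447859) (nat_lit 0) (nat_lit 552007953) (nat_lit 76) (nat_lit 124330410) (nat_lit 113) (nat_lit 3) (nat_lit 112) (nat_lit 1) (nat_lit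 113) (nat_lit 1) (nat_lit 407) (nat_lit 352) (nat_lit 261)) (XT.lf (nat_lit 0) (nat_lit 281178801) (nat_lit 0) (nat_lit 294302743) (nat_lit 152) (nat_lit 190325242) (nat_lit 110) (nat_lit 3) (nat_lit 110) (nat_lit 1) (nat_lit 112) (nat_lit 1) (nat_lit 408) (nat_lit 352) (nat_lit 260)))) (XT.nd (nat_lit 156) (nat_lit 228) (nat_lit 0) (XT.nd (nat_lit 78) (nat_lit 152) (nat_lit 0) (XT.lf (nat_lit 76) (nat_lit 66866620) (nat_lit 0) (nat_lit 600607005) (nat_lit 76) (nat_lit 79018419) (nat_lit 110) (nat_lit 3) (nat_lit 109) (nat_lit 1) (nat_lit 110) (nat_lit 1) (nat_lit 409) (nat_lit 352) (nat_lit 259)) (XT.lf (nat_lit 0) (nat_lit 304800944) (nat_lit 0) (nat_lit 315516816) (nat_lit 152) (nat_lit 107171456) (nat_lit 107) (nat_lit 3) (nat_lit 107) (nat_lit 1) (nat_lit 109) (nat_lit 1) (nat_lit 410) (nat_lit 352) (nat_lit 258))) (XT.nd (nat_lit 78) (nat_lit 152) (nat_lit 0) (XT.lf (nat_lit 76) (nat_lit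 28188208) (nat_lit 0) (nat_lit 642877460) (nat_lit 76) (nat_lit 38110312) (nat_lit 107) (nat_lit 3) (nat_lit 106) (nat_lit 1) (nat_lit 107) (nat_lit 1) (nat_lit 411) (nat_lit 352) (nat_lit 257)) (XT.lf (nat_lit 0) (nat_lit 325195337) (nat_lit 0) (nat_lit 333944988) (nat_lit 152) (nat_lit 31961111) (nat_lit 104) (nat_lit 3) (nat_lit 104) (nat_lit 1) (nat_lit 106) (nat_lit 1) (nat_lit 412) (nat_lit 352) (nat_lit 256))))) (XT.nd (nat_lit 234) (nat_lit 456) (nat_lit 0) (XT.nd (nat_lit 78) (nat_lit 228) (nat_lit 0) (XT.lf (nat_lit 152) (nat_lit 667013731) (nat_lit 0) (nat_lit 5661572) (nat_lit 76) (nat_lit 1052135) (nat_lit 103) (nat_lit 1) (nat_lit 101) (nat_lit 1) (nat_lit 102) (nat_lit 1) (nat_lit 413) (nat_lit 352) (nat_lit 255)) (XT.nd (nat_lit 78) (nat_lit 152) (nat_lit 0) (XT.lf (nat_lit 76) (nat_lit 306148414) (nat_lit 0) (nat_lit 37075126) (nat_lit 76) (nat_lit 313292619) (nat_lit 101) (nat_lit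 3) (nat_lit 100) (nat_lit 1) (nat_lit 101) (nat_lit 1) (nat_lit 414) (nat_lit 352) (nat_lit 254)) (XT.lf (nat_lit 0) (nat_lit 32596851) (nat_lit 0) (nat_lit 38896856) (nat_lit 152) (nat_lit 568473913) (nat_lit 98) (nat_lit 3) (nat_lit 98) (nat_lit 1) (nat_lit 100) (nat_lit 1) (nat_lit 415) (nat_lit 352) (nat_lit 253)))) (XT.nd (nat_lit 156) (nat_lit 228) (nat_lit 0) (XT.nd (nat_lit 78) (nat_lit 152) (nat_lit 0) (XT.lf (nat_lit 76) (nat_lit 258843581) (nat_lit 0) (nat_lit 100128366) (nat_lit 76) (nat_lit 264676918) (nat_lit 98) (nat_lit 3) (nat_lit 97) (nat_lit 1) (nat_lit 98) (nat_lit 1) (nat_lit 416) (nat_lit 352) (nat_lit 252)) (XT.lf (nat_lit 0) (nat_lit 62728275) (nat_lit 0) (nat_lit 67872311) (nat_lit 152) (nat_lit 477308203) (nat_lit 95) (nat_lit 3) (nat_lit 95) (nat_lit 1) (nat_lit 97) (nat_lit 1) (nat_lit 417) (nat_lit 352) (nat_lit 251))) (XT.nd (nat_lit 78) (nat_lit 152) (nat_lit 0)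 (XT.lf (nat_lit 76) (nat_lit 215501624) (nat_lit 0) (nat_lit 156670360) (nat_lit 76) (nat_lit 220264620) (nat_lit 95) (nat_lit 3) (nat_lit 94) (nat_lit 1) (nat_lit 95) (nat_lit 1) (nat_lit 418) (nat_lit 352) (nat_lit 250)) (XT.lf (nat_lit 0) (nat_lit 89652993) (nat_lit 0) (nat_lit 93853167) (nat_lit 152) (nat_lit 393959002) (nat_lit 92) (nat_lit 3) (nat_lit 92) (nat_lit 1) (nat_lit 94) (nat_lit 1) (nat_lit 419) (nat_lit 352) (nat_lit 249))))))) (XT.nd (nat_lit 1014) (nat_lit 3572) (nat_lit 0) (XT.nd (nat_lit 468) (nat_lit 1976) (nat_lit 0) (XT.nd (nat_lit 234) (nat_lit 0) (nat_lit 152) (XT.nd (nat_lit 78) (nat_lit 0) (nat_lit 76) (XT.lf (nat_lit 836) (nat_lit 1461364322) (nat_lit 0) (nat_lit 2594648995) (nat_lit 836) (nat_lit 1461364322) (nat_lit 303) (nat_lit 1) (nat_lit 292) (nat_lit 0) (nat_lit 303) (nat_lit 0) (nat_lit 314) (nat_lit 353) (nat_lit 353)) (XT.nd (nat_lit 78) (nat_lit 0) (nat_lit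 0) (XT.lf (nat_lit 836) (nat_lit 545133732) (nat_lit 0) (nat_lit 5094082354) (nat_lit 760) (nat_lit 4981995523) (nat_lit 304) (nat_lit 1) (nat_lit 293) (nat_lit 1) (nat_lit 303) (nat_lit 1) (nat_lit 315) (nat_lit 353) (nat_lit 352)) (XT.lf (nat_lit 836) (nat_lit 5006738681) (nat_lit 76) (nat_lit 3411508669) (nat_lit 0) (nat_lit 1809308578) (nat_lit 304) (nat_lit 1) (nat_lit 294) (nat_lit 1) (nat_lit 293) (nat_lit 1) (nat_lit 316) (nat_lit 353) (nat_lit 351)))) (XT.nd (nat_lit 78) (nat_lit 0) (nat_lit 76) (XT.lf (nat_lit 836) (nat_lit 4326232378) (nat_lit 76) (nat_lit 1429739637) (nat_lit 0) (nat_lit 4097627761) (nat_lit 305) (nat_lit 1) (nat_lit 295) (nat_lit 1) (nat_lit 294) (nat_lit 1) (nat_lit 317) (nat_lit 353) (nat_lit 350)) (XT.nd (nat_lit 78) (nat_lit 0) (nat_lit 76) (XT.lf (nat_lit 836) (nat_lit 3201779763) (nat_lit 0) (nat_lit 5990378596) (nat_lit 760) (nat_lit 306227297) (nat_lit 306)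 (nat_lit 1) (nat_lit 295) (nat_lit 1) (nat_lit 305) (nat_lit 1) (nat_lit 318) (nat_lit 353) (nat_lit 349)) (XT.lf (nat_lit 836) (nat_lit 768235661) (nat_lit 0) (nat_lit 6606056594) (nat_lit 760) (nat_lit 1785843243) (nat_lit 307) (nat_lit 1) (nat_lit 296) (nat_lit 1) (nat_lit 306) (nat_lit 1) (nat_lit 319) (nat_lit 353) (nat_lit 348))))) (XT.nd (nat_lit 234) (nat_lit 1064) (nat_lit 0) (XT.nd (nat_lit 78) (nat_lit 1216) (nat_lit 0) (XT.lf (nat_lit 836) (nat_lit 1476236473) (nat_lit 76) (nat_lit 5741201134) (nat_lit 0) (nat_lit 1620237793) (nat_lit 307) (nat_lit 1) (nat_lit 297) (nat_lit 1) (nat_lit 296) (nat_lit 1) (nat_lit 320) (nat_lit 353) (nat_lit 347)) (XT.nd (nat_lit 78) (nat_lit 532) (nat_lit 0) (XT.lf (nat_lit 836) (nat_lit 303185309) (nat_lit 0) (nat_lit 4291927613) (nat_lit 760) (nat_lit 3935652651) (nat_lit 298) (nat_lit 1) (nat_lit 287) (nat_lit 1) (nat_lit 297) (nat_lit 1) (nat_lit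 321) (nat_lit 353) (nat_lit 346)) (XT.lf (nat_lit 76) (nat_lit 2099318235) (nat_lit 0) (nat_lit 909732285) (nat_lit 532) (nat_lit 5229337110) (nat_lit 281) (nat_lit 1) (nat_lit 280) (nat_lit 1) (nat_lit 287) (nat_lit 1) (nat_lit 322) (nat_lit 353) (nat_lit 345)))) (XT.nd (nat_lit 156) (nat_lit 304) (nat_lit 0) (XT.nd (nat_lit 78) (nat_lit 380) (nat_lit 0) (XT.lf (nat_lit 456) (nat_lit 5785456823) (nat_lit 0) (nat_lit 1883290920) (nat_lit 380) (nat_lit 291168412) (nat_lit 281) (nat_lit 1) (nat_lit 275) (nat_lit 1) (nat_lit 280) (nat_lit 1) (nat_lit 323) (nat_lit 353) (nat_lit 344)) (XT.lf (nat_lit 456) (nat_lit 4174840736) (nat_lit 0) (nat_lit 877810010) (nat_lit 380) (nat_lit 2640767709) (nat_lit 276) (nat_lit 1) (nat_lit 270) (nat_lit 1) (nat_lit 275) (nat_lit 1) (nat_lit 324) (nat_lit 353) (nat_lit 343))) (XT.nd (nat_lit 78) (nat_lit 0) (nat_lit 0) (XT.lf (nat_lit 380) (nat_lit 2540337342)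 (nat_lit 0) (nat_lit 16161908) (nat_lit 304) (nat_lit 4883343399) (nat_lit 271) (nat_lit 1) (nat_lit 266) (nat_lit 1) (nat_lit 270) (nat_lit 1) (nat_lit 325) (nat_lit 353) (nat_lit 342)) (XT.lf (nat_lit 76) (nat_lit 187414083) (nat_lit 0) (nat_lit 6320511027) (nat_lit 380) (nat_lit 690006673) (nat_lit 267) (nat_lit 1) (nat_lit 266) (nat_lit 1) (nat_lit 271) (nat_lit 1) (nat_lit 326) (nat_lit 353) (nat_lit 341)))))) (XT.nd (nat_lit 546) (nat_lit 1520) (nat_lit 0) (XT.nd (nat_lit 234) (nat_lit 1064) (nat_lit 0) (XT.nd (nat_lit 78) (nat_lit 608) (nat_lit 0) (XT.lf (nat_lit 76) (nat_lit 4839080246) (nat_lit 0) (nat_lit 802613236) (nat_lit 380) (nat_lit 1323654993) (nat_lit 262) (nat_lit 1) (nat_lit 261) (nat_lit 1) (nat_lit 266) (nat_lit 1) (nat_lit 327) (nat_lit 353) (nat_lit 340)) (XT.nd (nat_lit 78) (nat_lit 304) (nat_lit 0) (XT.lf (nat_lit 76) (nat_lit 2421114472) (nat_lit 0) (nat_lit 2458546821)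 (nat_lit 380) (nat_lit 1863380590) (nat_lit 258) (nat_lit 1) (nat_lit 257) (nat_lit 1) (nat_lit 262) (nat_lit 1) (nat_lit 328) (nat_lit 353) (nat_lit 339)) (XT.lf (nat_lit 76) (nat_lit 119500841) (nat_lit 0) (nat_lit 4110652109) (nat_lit 380) (nat_lit 2301107824) (nat_lit 254) (nat_lit 1) (nat_lit 253) (nat_lit 1) (nat_lit 258) (nat_lit 1) (nat_lit 329) (nat_lit 353) (nat_lit 338)))) (XT.nd (nat_lit 156) (nat_lit 456) (nat_lit 0) (XT.nd (nat_lit 78) (nat_lit 380) (nat_lit 0) (XT.lf (nat_lit 304) (nat_lit 539659065) (nat_lit 0) (nat_lit 3649455944) (nat_lit 228) (nat_lit 2138665056) (nat_lit 254) (nat_lit 1) (nat_lit 250) (nat_lit 1) (nat_lit 253) (nat_lit 1) (nat_lit 330) (nat_lit 353) (nat_lit 337)) (XT.lf (nat_lit 76) (nat_lit 1864667165) (nat_lit 0) (nat_lit 1278054461) (nat_lit 380) (nat_lit 2989983888) (nat_lit 246) (nat_lit 1) (nat_lit 245) (nat_lit 1) (nat_lit 250) (nat_lit 1) (nat_lit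 331) (nat_lit 353) (nat_lit 336))) (XT.nd (nat_lit 78) (nat_lit 228) (nat_lit 0) (XT.lf (nat_lit 304) (nat_lit 2886953282) (nat_lit 0) (nat_lit 2711919478) (nat_lit 228) (nat_lit 347122474) (nat_lit 246) (nat_lit 1) (nat_lit 242) (nat_lit 1) (nat_lit 245) (nat_lit 1) (nat_lit 332) (nat_lit 353) (nat_lit 335)) (XT.lf (nat_lit 304) (nat_lit 925254579) (nat_lit 0) (nat_lit 2334851619) (nat_lit 228) (nat_lit 2506354085) (nat_lit 243) (nat_lit 1) (nat_lit 239) (nat_lit 1) (nat_lit 242) (nat_lit 1) (nat_lit 333) (nat_lit 353) (nat_lit 334))))) (XT.nd (nat_lit 234) (nat_lit 836) (nat_lit 0) (XT.nd (nat_lit 78) (nat_lit 380) (nat_lit 0) (XT.lf (nat_lit 76) (nat_lit 1054566649) (nat_lit 0) (nat_lit 965547411) (nat_lit 304) (nat_lit 3574267695) (nat_lit 236) (nat_lit 1) (nat_lit 235) (nat_lit 1) (nat_lit 239) (nat_lit 1) (nat_lit 334) (nat_lit 353) (nat_lit 333)) (XT.nd (nat_lit 78) (nat_lit 152) (nat_lit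 0) (XT.lf (nat_lit 304) (nat_lit 2624150696) (nat_lit 0) (nat_lit 1746012629) (nat_lit 228) (nat_lit 1058438596) (nat_lit 236) (nat_lit 1) (nat_lit 232) (nat_lit 1) (nat_lit 235) (nat_lit 1) (nat_lit 335) (nat_lit 353) (nat_lit 332)) (XT.lf (nat_lit 228) (nat_lit 650530832) (nat_lit 0) (nat_lit 1523268665) (nat_lit 152) (nat_lit 3095710613) (nat_lit 233) (nat_lit 1) (nat_lit 230) (nat_lit 1) (nat_lit 232) (nat_lit 1) (nat_lit 336) (nat_lit 353) (nat_lit 331)))) (XT.nd (nat_lit 156) (nat_lit 380) (nat_lit 0) (XT.nd (nat_lit 78) (nat_lit 152) (nat_lit 0) (XT.lf (nat_lit 76) (nat_lit 110204079) (nat_lit 0) (nat_lit 1233207569) (nat_lit 304) (nat_lit 3773173467) (nat_lit 227) (nat_lit 1) (nat_lit 226) (nat_lit 1) (nat_lit 230) (nat_lit 1) (nat_lit 337) (nat_lit 353) (nat_lit 330)) (XT.lf (nat_lit 228) (nat_lit 1890323234) (nat_lit 0) (nat_lit 1181289851) (nat_lit 152) (nat_lit 1896901578) (nat_lit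 227) (nat_lit 1) (nat_lit 224) (nat_lit 1) (nat_lit 226) (nat_lit 1) (nat_lit 338) (nat_lit 353) (nat_lit 329))) (XT.nd (nat_lit 78) (nat_lit 152) (nat_lit 0) (XT.lf (nat_lit 76) (nat_lit 1025610390) (nat_lit 0) (nat_lit 47373586) (nat_lit 228) (nat_lit 3753921521) (nat_lit 222) (nat_lit 1) (nat_lit 221) (nat_lit 1) (nat_lit 224) (nat_lit 1) (nat_lit 339) (nat_lit 353) (nat_lit 328)) (XT.lf (nat_lit 228) (nat_lit 2803820756) (nat_lit 0) (nat_lit 971586759) (nat_lit 152) (nat_lit 914008126) (nat_lit 222) (nat_lit 1) (nat_lit 219) (nat_lit 1) (nat_lit 221) (nat_lit 1) (nat_lit 340) (nat_lit 353) (nat_lit 327))))))))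
noncomputable def ec48 : XT := (XT.nd (nat_lit 2028) (nat_lit 3268) (nat_lit 0) (XT.nd (nat_lit 1014) (nat_lit 1444) (nat_lit 0) (XT.nd (nat_lit 468) (nat_lit 1140) (nat_lit 0) (XT.nd (nat_lit 234) (nat_lit 380) (nat_lit 0) (XT.nd (nat_lit 78) (nat_lit 380) (nat_lit 0) (XT.lf (nat_lit 228) (nat_lit 870979083) (nat_lit 0) (nat_lit 903197332) (nat_lit 152) (nat_lit 2783006209) (nat_lit 220) (nat_lit 1) (nat_lit 217) (nat_lit 1) (nat_lit 219) (nat_lit 1) (nat_lit 341) (nat_lit 353) (nat_lit 326)) (XT.nd (nat_lit 78) (nat_lit 152) (nat_lit 0) (XT.lf (nat_lit 228) (nat_lit 3457466869) (nat_lit 0) (nat_lit 862931742) (nat_lit 152) (nat_lit 109472903) (nat_lit 217) (nat_lit 1) (nat_lit 214) (nat_lit 1) (nat_lit 216) (nat_lit 1) (nat_lit 342) (nat_lit 353) (nat_lit 325)) (XT.lf (nat_lit 228) (nat_lit 1547401930) (nat_lit 0) (nat_lit 823808879) (nat_lit 152) (nat_lit 1934887168) (nat_lit 215) (nat_lit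 1) (nat_lit 212) (nat_lit 1) (nat_lit 214) (nat_lit 1) (nat_lit 343) (nat_lit 353) (nat_lit 324)))) (XT.nd (nat_lit 78) (nat_lit 228) (nat_lit 0) (XT.lf (nat_lit 76) (nat_lit 530044904) (nat_lit 0) (nat_lit 291336564) (nat_lit 152) (nat_lit 3366076781) (nat_lit 211) (nat_lit 1) (nat_lit 210) (nat_lit 1) (nat_lit 212) (nat_lit 1) (nat_lit 344) (nat_lit 353) (nat_lit 323)) (XT.nd (nat_lit 78) (nat_lit 76) (nat_lit 0) (XT.lf (nat_lit 228) (nat_lit 2030280325) (nat_lit 0) (nat_lit 812683953) (nat_lit 152) (nat_lit 1228848002) (nat_lit 211) (nat_lit 1) (nat_lit 208) (nat_lit 1) (nat_lit 210) (nat_lit 1) (nat_lit 345) (nat_lit 353) (nat_lit 322)) (XT.lf (nat_lit 152) (nat_lit 218632341) (nat_lit 0) (nat_lit 832644521) (nat_lit 76) (nat_lit 2909455003) (nat_lit 209) (nat_lit 1) (nat_lit 207) (nat_lit 1) (nat_lit 208) (nat_lit 1) (nat_lit 346) (nat_lit 353) (nat_lit 321))))) (XT.nd (nat_lit 234) (nat_lit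 608) (nat_lit 0) (XT.nd (nat_lit 78) (nat_lit 304) (nat_lit 0) (XT.lf (nat_lit 228) (nat_lit 2360055404) (nat_lit 0) (nat_lit 851573151) (nat_lit 152) (nat_lit 641085726) (nat_lit 207) (nat_lit 1) (nat_lit 204) (nat_lit 1) (nat_lit 206) (nat_lit 1) (nat_lit 347) (nat_lit 353) (nat_lit 320)) (XT.nd (nat_lit 78) (nat_lit 228) (nat_lit 0) (XT.lf (nat_lit 152) (nat_lit 593571337) (nat_lit 0) (nat_lit 883414329) (nat_lit 76) (nat_lit 2271351439) (nat_lit 205) (nat_lit 1) (nat_lit 203) (nat_lit 1) (nat_lit 204) (nat_lit 1) (nat_lit 348) (nat_lit 353) (nat_lit 319)) (XT.lf (nat_lit 228) (nat_lit 2569424343) (nat_lit 0) (nat_lit 926021664) (nat_lit 152) (nat_lit 151968082) (nat_lit 203) (nat_lit 1) (nat_lit 200) (nat_lit 1) (nat_lit 202) (nat_lit 1) (nat_lit 349) (nat_lit 353) (nat_lit 318)))) (XT.nd (nat_lit 156) (nat_lit 304) (nat_lit 0) (XT.nd (nat_lit 78) (nat_lit 228) (nat_lit 0) (XT.lf (nat_lit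 152) (nat_lit 854230587) (nat_lit 0) (nat_lit 965388712) (nat_lit 76) (nat_lit 1729577249) (nat_lit 201) (nat_lit 1) (nat_lit 199) (nat_lit 1) (nat_lit 200) (nat_lit 1) (nat_lit 350) (nat_lit 353) (nat_lit 317)) (XT.lf (nat_lit 76) (nat_lit 246564942) (nat_lit 0) (nat_lit 773901630) (nat_lit 228) (nat_lit 2434040907) (nat_lit 197) (nat_lit 1) (nat_lit 196) (nat_lit 1) (nat_lit 199) (nat_lit 1) (nat_lit 351) (nat_lit 353) (nat_lit 316))) (XT.nd (nat_lit 78) (nat_lit 228) (nat_lit 0) (XT.lf (nat_lit 152) (nat_lit 1025153775) (nat_lit 0) (nat_lit 1068161643) (nat_lit 76) (nat_lit 1268854537) (nat_lit 197) (nat_lit 1) (nat_lit 195) (nat_lit 1) (nat_lit 196) (nat_lit 1) (nat_lit 352) (nat_lit 353) (nat_lit 315)) (XT.lf (nat_lit 76) (nat_lit 573418248) (nat_lit 0) (nat_lit 555394347) (nat_lit 228) (nat_lit 2144264803) (nat_lit 193) (nat_lit 1) (nat_lit 192) (nat_lit 1) (nat_lit 195) (nat_lit 1) (nat_lit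 353) (nat_lit 353) (nat_lit 314)))))) (XT.nd (nat_lit 468) (nat_lit 760) (nat_lit 0) (XT.nd (nat_lit 234) (nat_lit 380) (nat_lit 0) (XT.nd (nat_lit 78) (nat_lit 228) (nat_lit 0) (XT.lf (nat_lit 152) (nat_lit 1126133723) (nat_lit 0) (nat_lit 1183610045) (nat_lit 76) (nat_lit 876517355) (nat_lit 193) (nat_lit 1) (nat_lit 191) (nat_lit 1) (nat_lit 192) (nat_lit 1) (nat_lit 354) (nat_lit 353) (nat_lit 313)) (XT.nd (nat_lit 78) (nat_lit 76) (nat_lit 0) (XT.lf (nat_lit 76) (nat_lit 844204258) (nat_lit 0) (nat_lit 402248224) (nat_lit 152) (nat_lit 1855859506) (nat_lit 190) (nat_lit 1) (nat_lit 189) (nat_lit 1) (nat_lit 191) (nat_lit 1) (nat_lit 355) (nat_lit 353) (nat_lit 312)) (XT.lf (nat_lit 152) (nat_lit 1173100117) (nat_lit 0) (nat_lit 1305448851) (nat_lit 76) (nat_lit 542045785) (nat_lit 190) (nat_lit 1) (nat_lit 188) (nat_lit 1) (nat_lit 189) (nat_lit 1) (nat_lit 356) (nat_lit 353) (nat_lit 311))))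 (XT.nd (nat_lit 78) (nat_lit 228) (nat_lit 0) (XT.lf (nat_lit 76) (nat_lit 1067839894) (nat_lit 0) (nat_lit 300082420) (nat_lit 152) (nat_lit 1573468740) (nat_lit 187) (nat_lit 1) (nat_lit 186) (nat_lit 1) (nat_lit 188) (nat_lit 1) (nat_lit 357) (nat_lit 353) (nat_lit 310)) (XT.nd (nat_lit 78) (nat_lit 152) (nat_lit 0) (XT.lf (nat_lit 152) (nat_lit 1178843365) (nat_lit 0) (nat_lit 1428869403) (nat_lit 76) (nat_lit 256684642) (nat_lit 187) (nat_lit 1) (nat_lit 185) (nat_lit 1) (nat_lit 186) (nat_lit 1) (nat_lit 358) (nat_lit 353) (nat_lit 309)) (XT.lf (nat_lit 76) (nat_lit 1251736112) (nat_lit 0) (nat_lit 237333404) (nat_lit 152) (nat_lit 1300518010) (nat_lit 184) (nat_lit 1) (nat_lit 183) (nat_lit 1) (nat_lit 185) (nat_lit 1) (nat_lit 359) (nat_lit 353) (nat_lit 308))))) (XT.nd (nat_lit 234) (nat_lit 456) (nat_lit 0) (XT.nd (nat_lit 78) (nat_lit 228) (nat_lit 0) (XT.lf (nat_lit 152) (nat_lit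 1153604692) (nat_lit 0) (nat_lit 1550245783) (nat_lit 76) (nat_lit 13131333) (nat_lit 184) (nat_lit 1) (nat_lit 182) (nat_lit 1) (nat_lit 183) (nat_lit 1) (nat_lit 360) (nat_lit 353) (nat_lit 307)) (XT.nd (nat_lit 78) (nat_lit 76) (nat_lit 0) (XT.lf (nat_lit 76) (nat_lit 1402064472) (nat_lit 0) (nat_lit 204725954) (nat_lit 152) (nat_lit 1039462857) (nat_lit 181) (nat_lit 1) (nat_lit 180) (nat_lit 1) (nat_lit 182) (nat_lit 1) (nat_lit 361) (nat_lit 353) (nat_lit 306)) (XT.lf (nat_lit 0) (nat_lit 188487529) (nat_lit 0) (nat_lit 1475216862) (nat_lit 152) (nat_lit 913877430) (nat_lit 179) (nat_lit 3) (nat_lit 179) (nat_lit 1) (nat_lit 181) (nat_lit 1) (nat_lit 362) (nat_lit 353) (nat_lit 305)))) (XT.nd (nat_lit 156) (nat_lit 228) (nat_lit 0) (XT.nd (nat_lit 78) (nat_lit 76) (nat_lit 0) (XT.lf (nat_lit 76) (nat_lit 1523975461) (nat_lit 0) (nat_lit 194841986) (nat_lit 152) (nat_lit 791989977) (nat_lit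 178) (nat_lit 1) (nat_lit 177) (nat_lit 1) (nat_lit 179) (nat_lit 1) (nat_lit 363) (nat_lit 353) (nat_lit 304)) (XT.lf (nat_lit 0) (nat_lit 360080912) (nat_lit 0) (nat_lit 1410712348) (nat_lit 152) (nat_lit 675018119) (nat_lit 176) (nat_lit 3) (nat_lit 176) (nat_lit 1) (nat_lit 178) (nat_lit 1) (nat_lit 364) (nat_lit 353) (nat_lit 303))) (XT.nd (nat_lit 78) (nat_lit 76) (nat_lit 0) (XT.lf (nat_lit 76) (nat_lit 1621777363) (nat_lit 0) (nat_lit 201769228) (nat_lit 152) (nat_lit 559179966) (nat_lit 175) (nat_lit 1) (nat_lit 174) (nat_lit 1) (nat_lit 176) (nat_lit 1) (nat_lit 365) (nat_lit 353) (nat_lit 302)) (XT.lf (nat_lit 0) (nat_lit 506233689) (nat_lit 0) (nat_lit 1364088086) (nat_lit 152) (nat_lit 450857421) (nat_lit 173) (nat_lit 3) (nat_lit 173) (nat_lit 1) (nat_lit 175) (nat_lit 1) (nat_lit 366) (nat_lit 353) (nat_lit 301))))))) (XT.nd (nat_lit 1014) (nat_lit 1672) (nat_lit 0) (XT.nd (nat_lit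 468) (nat_lit 836) (nat_lit 0) (XT.nd (nat_lit 234) (nat_lit 380) (nat_lit 0) (XT.nd (nat_lit 78) (nat_lit 228) (nat_lit 0) (XT.lf (nat_lit 76) (nat_lit 1699082894) (nat_lit 0) (nat_lit 220815031) (nat_lit 152) (nat_lit 341638810) (nat_lit 172) (nat_lit 1) (nat_lit 171) (nat_lit 1) (nat_lit 173) (nat_lit 1) (nat_lit 367) (nat_lit 353) (nat_lit 300)) (XT.nd (nat_lit 78) (nat_lit 152) (nat_lit 0) (XT.lf (nat_lit 0) (nat_lit 630457030) (nat_lit 0) (nat_lit 1330906436) (nat_lit 152) (nat_lit 241866902) (nat_lit 170) (nat_lit 3) (nat_lit 170) (nat_lit 1) (nat_lit 172) (nat_lit 1) (nat_lit 368) (nat_lit 353) (nat_lit 299)) (XT.lf (nat_lit 76) (nat_lit 1758929474) (nat_lit 0) (nat_lit 248273325) (nat_lit 152) (nat_lit 139603948) (nat_lit 169) (nat_lit 1) (nat_lit 168) (nat_lit 1) (nat_lit 170) (nat_lit 1) (nat_lit 369) (nat_lit 353) (nat_lit 298)))) (XT.nd (nat_lit 78) (nat_lit 304) (nat_lit 0) (XT.lf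 (nat_lit 0) (nat_lit 735720547) (nat_lit 0) (nat_lit 1307646706) (nat_lit 152) (nat_lit 48183120) (nat_lit 167) (nat_lit 3) (nat_lit 167) (nat_lit 1) (nat_lit 169) (nat_lit 1) (nat_lit 370) (nat_lit 353) (nat_lit 297)) (XT.nd (nat_lit 78) (nat_lit 76) (nat_lit 0) (XT.lf (nat_lit 152) (nat_lit 1756112107) (nat_lit 0) (nat_lit 48523403) (nat_lit 76) (nat_lit 233469114) (nat_lit 166) (nat_lit 1) (nat_lit 164) (nat_lit 1) (nat_lit 165) (nat_lit 1) (nat_lit 371) (nat_lit 353) (nat_lit 296)) (XT.lf (nat_lit 76) (nat_lit 692023513) (nat_lit 0) (nat_lit 134622484) (nat_lit 76) (nat_lit 1159008750) (nat_lit 164) (nat_lit 3) (nat_lit 163) (nat_lit 1) (nat_lit 164) (nat_lit 1) (nat_lit 372) (nat_lit 353) (nat_lit 295))))) (XT.nd (nat_lit 234) (nat_lit 456) (nat_lit 0) (XT.nd (nat_lit 78) (nat_lit 228) (nat_lit 0) (XT.lf (nat_lit 152) (nat_lit 1614051352) (nat_lit 0) (nat_lit 225563879) (nat_lit 76) (nat_lit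 95391055) (nat_lit 163) (nat_lit 1) (nat_lit 161) (nat_lit 1) (nat_lit 162) (nat_lit 1) (nat_lit 373) (nat_lit 353) (nat_lit 294)) (XT.nd (nat_lit 78) (nat_lit 152) (nat_lit 0) (XT.lf (nat_lit 76) (nat_lit 600158990) (nat_lit 0) (nat_lit 303655554) (nat_lit 76) (nat_lit 981458583) (nat_lit 161) (nat_lit 3) (nat_lit 160) (nat_lit 1) (nat_lit 161) (nat_lit 1) (nat_lit 374) (nat_lit 353) (nat_lit 293)) (XT.lf (nat_lit 0) (nat_lit 25331713) (nat_lit 0) (nat_lit 361574740) (nat_lit 152) (nat_lit 1450363965) (nat_lit 158) (nat_lit 3) (nat_lit 158) (nat_lit 1) (nat_lit 160) (nat_lit 1) (nat_lit 375) (nat_lit 353) (nat_lit 292)))) (XT.nd (nat_lit 156) (nat_lit 228) (nat_lit 0) (XT.nd (nat_lit 78) (nat_lit 152) (nat_lit 0) (XT.lf (nat_lit 76) (nat_lit 510496268) (nat_lit 0) (nat_lit 457793828) (nat_lit 76) (nat_lit 821832404) (nat_lit 158) (nat_lit 3) (nat_lit 157) (nat_lit 1) (nat_lit 158) (nat_lit 1)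 (nat_lit 376) (nat_lit 353) (nat_lit 291)) (XT.lf (nat_lit 0) (nat_lit 128831540) (nat_lit 0) (nat_lit 403378397) (nat_lit 152) (nat_lit 1212336109) (nat_lit 155) (nat_lit 3) (nat_lit 155) (nat_lit 1) (nat_lit 157) (nat_lit 1) (nat_lit 377) (nat_lit 353) (nat_lit 290))) (XT.nd (nat_lit 78) (nat_lit 152) (nat_lit 0) (XT.lf (nat_lit 76) (nat_lit 424040370) (nat_lit 0) (nat_lit 597614106) (nat_lit 76) (nat_lit 678250423) (nat_lit 155) (nat_lit 3) (nat_lit 154) (nat_lit 1) (nat_lit 155) (nat_lit 1) (nat_lit 378) (nat_lit 353) (nat_lit 289)) (XT.lf (nat_lit 0) (nat_lit 219738806) (nat_lit 0) (nat_lit 443909929) (nat_lit 152) (nat_lit 992971585) (nat_lit 152) (nat_lit 3) (nat_lit 152) (nat_lit 1) (nat_lit 154) (nat_lit 1) (nat_lit 379) (nat_lit 353) (nat_lit 288)))))) (XT.nd (nat_lit 546) (nat_lit 912) (nat_lit 0) (XT.nd (nat_lit 234) (nat_lit 456) (nat_lit 0) (XT.nd (nat_lit 78) (nat_lit 228) (nat_lit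 0) (XT.lf (nat_lit 76) (nat_lit 341505855) (nat_lit 0) (nat_lit 723766097) (nat_lit 76) (nat_lit 549071710) (nat_lit 152) (nat_lit 3) (nat_lit 151) (nat_lit 1) (nat_lit 152) (nat_lit 1) (nat_lit 380) (nat_lit 353) (nat_lit 287)) (XT.nd (nat_lit 78) (nat_lit 76) (nat_lit 0) (XT.lf (nat_lit 0) (nat_lit 299426745) (nat_lit 0) (nat_lit 482465417) (nat_lit 152) (nat_lit 791333892) (nat_lit 149) (nat_lit 3) (nat_lit 149) (nat_lit 1) (nat_lit 151) (nat_lit 1) (nat_lit 381) (nat_lit 353) (nat_lit 286)) (XT.lf (nat_lit 76) (nat_lit 263377293) (nat_lit 0) (nat_lit 836946369) (nat_lit 76) (nat_lit 432857545) (nat_lit 149) (nat_lit 3) (nat_lit 148) (nat_lit 1) (nat_lit 149) (nat_lit 1) (nat_lit 382) (nat_lit 353) (nat_lit 285)))) (XT.nd (nat_lit 156) (nat_lit 228) (nat_lit 0) (XT.nd (nat_lit 78) (nat_lit 76) (nat_lit 0) (XT.lf (nat_lit 0) (nat_lit 369095912) (nat_lit 0) (nat_lit 518549397) (nat_lit 152)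 (nat_lit 606468838) (nat_lit 146) (nat_lit 3) (nat_lit 146) (nat_lit 1) (nat_lit 148) (nat_lit 1) (nat_lit 383) (nat_lit 353) (nat_lit 284)) (XT.lf (nat_lit 76) (nat_lit 189958193) (nat_lit 0) (nat_lit 937877897) (nat_lit 76) (nat_lit 328341049) (nat_lit 146) (nat_lit 3) (nat_lit 145) (nat_lit 1) (nat_lit 146) (nat_lit 1) (nat_lit 384) (nat_lit 353) (nat_lit 283))) (XT.nd (nat_lit 78) (nat_lit 76) (nat_lit 0) (XT.lf (nat_lit 0) (nat_lit 429800200) (nat_lit 0) (nat_lit 551830937) (nat_lit 152) (nat_lit 437420703) (nat_lit 143) (nat_lit 3) (nat_lit 143) (nat_lit 1) (nat_lit 145) (nat_lit 1) (nat_lit 385) (nat_lit 353) (nat_lit 282)) (XT.lf (nat_lit 76) (nat_lit 121410521) (nat_lit 0) (nat_lit 1027294151) (nat_lit 76) (nat_lit 234401945) (nat_lit 143) (nat_lit 3) (nat_lit 142) (nat_lit 1) (nat_lit 143) (nat_lit 1) (nat_lit 386) (nat_lit 353) (nat_lit 281))))) (XT.nd (nat_lit 234) (nat_lit 532) (nat_lit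 0) (XT.nd (nat_lit 78) (nat_lit 228) (nat_lit 0) (XT.lf (nat_lit 0) (nat_lit 482468442) (nat_lit 0) (nat_lit 582108145) (nat_lit 152) (nat_lit 283244611) (nat_lit 140) (nat_lit 3) (nat_lit 140) (nat_lit 1) (nat_lit 142) (nat_lit 1) (nat_lit 387) (nat_lit 353) (nat_lit 280)) (XT.nd (nat_lit 78) (nat_lit 152) (nat_lit 0) (XT.lf (nat_lit 76) (nat_lit 57786563) (nat_lit 0) (nat_lit 1105926839) (nat_lit 76) (nat_lit 150045548) (nat_lit 140) (nat_lit 3) (nat_lit 139) (nat_lit 1) (nat_lit 140) (nat_lit 1) (nat_lit 388) (nat_lit 353) (nat_lit 279)) (XT.lf (nat_lit 0) (nat_lit 527922413) (nat_lit 0) (nat_lit 609279542) (nat_lit 152) (nat_lit 143015848) (nat_lit 137) (nat_lit 3) (nat_lit 137) (nat_lit 1) (nat_lit 139) (nat_lit 1) (nat_lit 389) (nat_lit 353) (nat_lit 278)))) (XT.nd (nat_lit 156) (nat_lit 304) (nat_lit 0) (XT.nd (nat_lit 78) (nat_lit 76) (nat_lit 0) (XT.lf (nat_lit 76) (nat_lit 1173565894)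 (nat_lit 0) (nat_lit 915181) (nat_lit 152) (nat_lit 73454554) (nat_lit 136) (nat_lit 1) (nat_lit 135) (nat_lit 1) (nat_lit 137) (nat_lit 1) (nat_lit 390) (nat_lit 353) (nat_lit 277)) (XT.lf (nat_lit 0) (nat_lit 566891852) (nat_lit 0) (nat_lit 633321019) (nat_lit 152) (nat_lit 15836749) (nat_lit 134) (nat_lit 3) (nat_lit 134) (nat_lit 1) (nat_lit 136) (nat_lit 1) (nat_lit 391) (nat_lit 353) (nat_lit 276))) (XT.nd (nat_lit 78) (nat_lit 76) (nat_lit 0) (XT.lf (nat_lit 152) (nat_lit 1131483243) (nat_lit 0) (nat_lit 48963237) (nat_lit 76) (nat_lit 4925409) (nat_lit 133) (nat_lit 1) (nat_lit 131) (nat_lit 1) (nat_lit 132) (nat_lit 1) (nat_lit 392) (nat_lit 353) (nat_lit 275)) (XT.lf (nat_lit 76) (nat_lit 499189374) (nat_lit 0) (nat_lit 102436990) (nat_lit 76) (nat_lit 553429663) (nat_lit 131) (nat_lit 3) (nat_lit 130) (nat_lit 1) (nat_lit 131) (nat_lit 1) (nat_lit 393) (nat_lit 353) (nat_lit 274))))))))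
noncomputable def ec49 : XT := (XT.nd (nat_lit 46722) (nat_lit 0) (nat_lit 9880) (XT.nd (nat_lit 1014) (nat_lit 1596) (nat_lit 0) (XT.nd (nat_lit 468) (nat_lit 836) (nat_lit 0) (XT.nd (nat_lit 234) (nat_lit 304) (nat_lit 0) (XT.nd (nat_lit 78) (nat_lit 228) (nat_lit 0) (XT.lf (nat_lit 0) (nat_lit 56430687) (nat_lit 0) (nat_lit 104261630) (nat_lit 152) (nat_lit 965188383) (nat_lit 128) (nat_lit 3) (nat_lit 128) (nat_lit 1) (nat_lit 130) (nat_lit 1) (nat_lit 394) (nat_lit 353) (nat_lit 273)) (XT.nd (nat_lit 78) (nat_lit 152) (nat_lit 0) (XT.lf (nat_lit 76) (nat_lit 421675009) (nat_lit 0) (nat_lit 209505290) (nat_lit 76) (nat_lit 465962919) (nat_lit 128) (nat_lit 3) (nat_lit 127) (nat_lit 1) (nat_lit 128) (nat_lit 1) (nat_lit 395) (nat_lit 353) (nat_lit 272)) (XT.lf (nat_lit 0) (nat_lit 111038818) (nat_lit 0) (nat_lit 150093412) (nat_lit 152) (nat_lit 808270337) (nat_lit 125) (nat_lit 3) (nat_lit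 125) (nat_lit 1) (nat_lit 127) (nat_lit 1) (nat_lit 396) (nat_lit 353) (nat_lit 271)))) (XT.nd (nat_lit 78) (nat_lit 228) (nat_lit 0) (XT.lf (nat_lit 76) (nat_lit 350168865) (nat_lit 0) (nat_lit 305663499) (nat_lit 76) (nat_lit 386330526) (nat_lit 125) (nat_lit 3) (nat_lit 124) (nat_lit 1) (nat_lit 125) (nat_lit 1) (nat_lit 397) (nat_lit 353) (nat_lit 270)) (XT.nd (nat_lit 78) (nat_lit 76) (nat_lit 0) (XT.lf (nat_lit 0) (nat_lit 159633469) (nat_lit 0) (nat_lit 191522060) (nat_lit 152) (nat_lit 664628995) (nat_lit 122) (nat_lit 3) (nat_lit 122) (nat_lit 1) (nat_lit 124) (nat_lit 1) (nat_lit 398) (nat_lit 353) (nat_lit 269)) (XT.lf (nat_lit 76) (nat_lit 284372982) (nat_lit 0) (nat_lit 391690582) (nat_lit 76) (nat_lit 313899455) (nat_lit 122) (nat_lit 3) (nat_lit 121) (nat_lit 1) (nat_lit 122) (nat_lit 1) (nat_lit 399) (nat_lit 353) (nat_lit 268))))) (XT.nd (nat_lit 234) (nat_lit 456) (nat_lit 0)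 (XT.nd (nat_lit 78) (nat_lit 228) (nat_lit 0) (XT.lf (nat_lit 0) (nat_lit 202738297) (nat_lit 0) (nat_lit 228775751) (nat_lit 152) (nat_lit 533364463) (nat_lit 119) (nat_lit 3) (nat_lit 119) (nat_lit 1) (nat_lit 121) (nat_lit 1) (nat_lit 400) (nat_lit 353) (nat_lit 267)) (XT.nd (nat_lit 78) (nat_lit 152) (nat_lit 0) (XT.lf (nat_lit 76) (nat_lit 223983127) (nat_lit 0) (nat_lit 468325013) (nat_lit 76) (nat_lit 248091880) (nat_lit 119) (nat_lit 3) (nat_lit 118) (nat_lit 1) (nat_lit 119) (nat_lit 1) (nat_lit 401) (nat_lit 353) (nat_lit 266)) (XT.lf (nat_lit 0) (nat_lit 240829789) (nat_lit 0) (nat_lit 262089713) (nat_lit 152) (nat_lit 413625128) (nat_lit 116) (nat_lit 3) (nat_lit 116) (nat_lit 1) (nat_lit 118) (nat_lit 1) (nat_lit 402) (nat_lit 353) (nat_lit 265)))) (XT.nd (nat_lit 156) (nat_lit 228) (nat_lit 0) (XT.nd (nat_lit 78) (nat_lit 152) (nat_lit 0) (XT.lf (nat_lit 76) (nat_lit 168694077)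 (nat_lit 0) (nat_lit 536264902) (nat_lit 76) (nat_lit 188379192) (nat_lit 116) (nat_lit 3) (nat_lit 115) (nat_lit 1) (nat_lit 116) (nat_lit 1) (nat_lit 403) (nat_lit 353) (nat_lit 264)) (XT.lf (nat_lit 0) (nat_lit 274342422) (nat_lit 0) (nat_lit 291701430) (nat_lit 152) (nat_lit 304606760) (nat_lit 113) (nat_lit 3) (nat_lit 113) (nat_lit 1) (nat_lit 115) (nat_lit 1) (nat_lit 404) (nat_lit 353) (nat_lit 263))) (XT.nd (nat_lit 78) (nat_lit 152) (nat_lit 0) (XT.lf (nat_lit 76) (nat_lit 118203688) (nat_lit 0) (nat_lit 596168589) (nat_lit 76) (nat_lit 134276843) (nat_lit 113) (nat_lit 3) (nat_lit 112) (nat_lit 1) (nat_lit 113) (nat_lit 1) (nat_lit 405) (nat_lit 353) (nat_lit 262)) (XT.lf (nat_lit 0) (nat_lit 303673105) (nat_lit 0) (nat_lit 317846963) (nat_lit 152) (nat_lit 205551262) (nat_lit 110) (nat_lit 3) (nat_lit 110) (nat_lit 1) (nat_lit 112) (nat_lit 1) (nat_lit 406) (nat_lit 353) (nat_lit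 261)))))) (XT.nd (nat_lit 468) (nat_lit 836) (nat_lit 0) (XT.nd (nat_lit 234) (nat_lit 456) (nat_lit 0) (XT.nd (nat_lit 78) (nat_lit 228) (nat_lit 0) (XT.lf (nat_lit 76) (nat_lit 72215950) (nat_lit 0) (nat_lit 648655566) (nat_lit 76) (nat_lit 85339893) (nat_lit 110) (nat_lit 3) (nat_lit 109) (nat_lit 1) (nat_lit 110) (nat_lit 1) (nat_lit 407) (nat_lit 353) (nat_lit 260)) (XT.nd (nat_lit 78) (nat_lit 76) (nat_lit 0) (XT.lf (nat_lit 0) (nat_lit 329185019) (nat_lit 0) (nat_lit 340758161) (nat_lit 152) (nat_lit 115745173) (nat_lit 107) (nat_lit 3) (nat_lit 107) (nat_lit 1) (nat_lit 109) (nat_lit 1) (nat_lit 408) (nat_lit 353) (nat_lit 259)) (XT.lf (nat_lit 76) (nat_lit 30443265) (nat_lit 0) (nat_lit 694307657) (nat_lit 76) (nat_lit 41159137) (nat_lit 107) (nat_lit 3) (nat_lit 106) (nat_lit 1) (nat_lit 107) (nat_lit 1) (nat_lit 409) (nat_lit 353) (nat_lit 258)))) (XT.nd (nat_lit 78) (nat_lit 304)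 (nat_lit 0) (XT.lf (nat_lit 0) (nat_lit 351210964) (nat_lit 0) (nat_lit 360660587) (nat_lit 152) (nat_lit 34518000) (nat_lit 104) (nat_lit 3) (nat_lit 104) (nat_lit 1) (nat_lit 106) (nat_lit 1) (nat_lit 410) (nat_lit 353) (nat_lit 257)) (XT.nd (nat_lit 78) (nat_lit 76) (nat_lit 0) (XT.lf (nat_lit 152) (nat_lit 720374830) (nat_lit 0) (nat_lit 6114498) (nat_lit 76) (nat_lit 1136306) (nat_lit 103) (nat_lit 1) (nat_lit 101) (nat_lit 1) (nat_lit 102) (nat_lit 1) (nat_lit 411) (nat_lit 353) (nat_lit 256)) (XT.lf (nat_lit 76) (nat_lit 330640287) (nat_lit 0) (nat_lit 40041136) (nat_lit 76) (nat_lit 338356029) (nat_lit 101) (nat_lit 3) (nat_lit 100) (nat_lit 1) (nat_lit 101) (nat_lit 1) (nat_lit 412) (nat_lit 353) (nat_lit 255))))) (XT.nd (nat_lit 234) (nat_lit 456) (nat_lit 0) (XT.nd (nat_lit 78) (nat_lit 228) (nat_lit 0) (XT.lf (nat_lit 0) (nat_lit 35204599) (nat_lit 0) (nat_lit 42008604) (nat_lit 152)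 (nat_lit 613951826) (nat_lit 98) (nat_lit 3) (nat_lit 98) (nat_lit 1) (nat_lit 100) (nat_lit 1) (nat_lit 413) (nat_lit 353) (nat_lit 254)) (XT.nd (nat_lit 78) (nat_lit 152) (nat_lit 0) (XT.lf (nat_lit 76) (nat_lit 279551068) (nat_lit 0) (nat_lit 108138635) (nat_lit 76) (nat_lit 285851072) (nat_lit 98) (nat_lit 3) (nat_lit 97) (nat_lit 1) (nat_lit 98) (nat_lit 1) (nat_lit 414) (nat_lit 353) (nat_lit 253)) (XT.lf (nat_lit 0) (nat_lit 67746537) (nat_lit 0) (nat_lit 73302096) (nat_lit 152) (nat_lit 515492859) (nat_lit 95) (nat_lit 3) (nat_lit 95) (nat_lit 1) (nat_lit 97) (nat_lit 1) (nat_lit 415) (nat_lit 353) (nat_lit 252)))) (XT.nd (nat_lit 156) (nat_lit 228) (nat_lit 0) (XT.nd (nat_lit 78) (nat_lit 152) (nat_lit 0) (XT.lf (nat_lit 76) (nat_lit 232741754) (nat_lit 0) (nat_lit 169203988) (nat_lit 76) (nat_lit 237885790) (nat_lit 95) (nat_lit 3) (nat_lit 94) (nat_lit 1) (nat_lit 95) (nat_lit 1) (nat_lit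 416) (nat_lit 353) (nat_lit 251)) (XT.lf (nat_lit 0) (nat_lit 96825233) (nat_lit 0) (nat_lit 101361420) (nat_lit 152) (nat_lit 425475723) (nat_lit 92) (nat_lit 3) (nat_lit 92) (nat_lit 1) (nat_lit 94) (nat_lit 1) (nat_lit 417) (nat_lit 353) (nat_lit 250))) (XT.nd (nat_lit 78) (nat_lit 152) (nat_lit 0) (XT.lf (nat_lit 76) (nat_lit 189923721) (nat_lit 0) (nat_lit 223771273) (nat_lit 76) (nat_lit 194123894) (nat_lit 92) (nat_lit 3) (nat_lit 91) (nat_lit 1) (nat_lit 92) (nat_lit 1) (nat_lit 418) (nat_lit 353) (nat_lit 249)) (XT.lf (nat_lit 0) (nat_lit 122717597) (nat_lit 0) (nat_lit 126421453) (nat_lit 152) (nat_lit 343299962) (nat_lit 89) (nat_lit 3) (nat_lit 89) (nat_lit 1) (nat_lit 91) (nat_lit 1) (nat_lit 419) (nat_lit 353) (nat_lit 248))))))) (XT.nd (nat_lit 1014) (nat_lit 3572) (nat_lit 0) (XT.nd (nat_lit 468) (nat_lit 1976) (nat_lit 0) (XT.nd (nat_lit 234) (nat_lit 0) (nat_lit 152) (XT.nd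 (nat_lit 78) (nat_lit 0) (nat_lit 76) (XT.lf (nat_lit 836) (nat_lit 1578273468) (nat_lit 0) (nat_lit 2802220914) (nat_lit 836) (nat_lit 1578273468) (nat_lit 303) (nat_lit 1) (nat_lit 292) (nat_lit 0) (nat_lit 303) (nat_lit 0) (nat_lit 312) (nat_lit 354) (nat_lit 354)) (XT.nd (nat_lit 78) (nat_lit 0) (nat_lit 0) (XT.lf (nat_lit 836) (nat_lit 588744431) (nat_lit 0) (nat_lit 5501608942) (nat_lit 760) (nat_lit 5380555165) (nat_lit 304) (nat_lit 1) (nat_lit 293) (nat_lit 1) (nat_lit 303) (nat_lit 1) (nat_lit 313) (nat_lit 354) (nat_lit 353)) (XT.lf (nat_lit 836) (nat_lit 5407277775) (nat_lit 76) (nat_lit 3684429363) (nat_lit 0) (nat_lit 1954053264) (nat_lit 304) (nat_lit 1) (nat_lit 294) (nat_lit 1) (nat_lit 293) (nat_lit 1) (nat_lit 314) (nat_lit 354) (nat_lit 352)))) (XT.nd (nat_lit 78) (nat_lit 0) (nat_lit 76) (XT.lf (nat_lit 836) (nat_lit 4672330968) (nat_lit 76) (nat_lit 1544118808) (nat_lit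 0) (nat_lit 4425437982) (nat_lit 305) (nat_lit 1) (nat_lit 295) (nat_lit 1) (nat_lit 294) (nat_lit 1) (nat_lit 315) (nat_lit 354) (nat_lit 351)) (XT.nd (nat_lit 78) (nat_lit 0) (nat_lit 76) (XT.lf (nat_lit 836) (nat_lit 3457922144) (nat_lit 0) (nat_lit 6469608883) (nat_lit 760) (nat_lit 330725481) (nat_lit 306) (nat_lit 1) (nat_lit 295) (nat_lit 1) (nat_lit 305) (nat_lit 1) (nat_lit 316) (nat_lit 354) (nat_lit 350)) (XT.lf (nat_lit 836) (nat_lit 829694514) (nat_lit 0) (nat_lit 7134541121) (nat_lit 760) (nat_lit 1928710702) (nat_lit 307) (nat_lit 1) (nat_lit 296) (nat_lit 1) (nat_lit 306) (nat_lit 1) (nat_lit 317) (nat_lit 354) (nat_lit 349))))) (XT.nd (nat_lit 234) (nat_lit 1064) (nat_lit 0) (XT.nd (nat_lit 78) (nat_lit 1216) (nat_lit 0) (XT.lf (nat_lit 836) (nat_lit 1594335391) (nat_lit 76) (nat_lit 6200497225) (nat_lit 0) (nat_lit 1749856816) (nat_lit 307) (nat_lit 1) (nat_lit 297) (nat_lit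 1) (nat_lit 296) (nat_lit 1) (nat_lit 318) (nat_lit 354) (nat_lit 348)) (XT.nd (nat_lit 78) (nat_lit 532) (nat_lit 0) (XT.lf (nat_lit 836) (nat_lit 327440133) (nat_lit 0) (nat_lit 4635281823) (nat_lit 760) (nat_lit 4250504863) (nat_lit 298) (nat_lit 1) (nat_lit 287) (nat_lit 1) (nat_lit 297) (nat_lit 1) (nat_lit 319) (nat_lit 354) (nat_lit 347)) (XT.lf (nat_lit 76) (nat_lit 2267263694) (nat_lit 0) (nat_lit 982510868) (nat_lit 532) (nat_lit 5647684079) (nat_lit 281) (nat_lit 1) (nat_lit 280) (nat_lit 1) (nat_lit 287) (nat_lit 1) (nat_lit 320) (nat_lit 354) (nat_lit 346)))) (XT.nd (nat_lit 156) (nat_lit 304) (nat_lit 0) (XT.nd (nat_lit 78) (nat_lit 380) (nat_lit 0) (XT.lf (nat_lit 456) (nat_lit 6248293369) (nat_lit 0) (nat_lit 2033954193) (nat_lit 380) (nat_lit 314461886) (nat_lit 281) (nat_lit 1) (nat_lit 275) (nat_lit 1) (nat_lit 280) (nat_lit 1) (nat_lit 321) (nat_lit 354) (nat_lit 345)) (XT.lf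 (nat_lit 456) (nat_lit 4508827995) (nat_lit 0) (nat_lit 948034811) (nat_lit 380) (nat_lit 2852029125) (nat_lit 276) (nat_lit 1) (nat_lit 270) (nat_lit 1) (nat_lit 275) (nat_lit 1) (nat_lit 322) (nat_lit 354) (nat_lit 344))) (XT.nd (nat_lit 78) (nat_lit 0) (nat_lit 0) (XT.lf (nat_lit 380) (nat_lit 2743564330) (nat_lit 0) (nat_lit 17454861) (nat_lit 304) (nat_lit 5274010871) (nat_lit 271) (nat_lit 1) (nat_lit 266) (nat_lit 1) (nat_lit 270) (nat_lit 1) (nat_lit 323) (nat_lit 354) (nat_lit 343)) (XT.lf (nat_lit 76) (nat_lit 202407210) (nat_lit 0) (nat_lit 6826151909) (nat_lit 380) (nat_lit 745207207) (nat_lit 267) (nat_lit 1) (nat_lit 266) (nat_lit 1) (nat_lit 271) (nat_lit 1) (nat_lit 324) (nat_lit 354) (nat_lit 342)))))) (XT.nd (nat_lit 546) (nat_lit 1520) (nat_lit 0) (XT.nd (nat_lit 234) (nat_lit 1064) (nat_lit 0) (XT.nd (nat_lit 78) (nat_lit 608) (nat_lit 0) (XT.lf (nat_lit 76) (nat_lit 5226206666)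 (nat_lit 0) (nat_lit 866822295) (nat_lit 380) (nat_lit 1429547392) (nat_lit 262) (nat_lit 1) (nat_lit 261) (nat_lit 1) (nat_lit 266) (nat_lit 1) (nat_lit 325) (nat_lit 354) (nat_lit 341)) (XT.nd (nat_lit 78) (nat_lit 304) (nat_lit 0) (XT.lf (nat_lit 76) (nat_lit 2614803630) (nat_lit 0) (nat_lit 2655230566) (nat_lit 380) (nat_lit 2012451038) (nat_lit 258) (nat_lit 1) (nat_lit 257) (nat_lit 1) (nat_lit 262) (nat_lit 1) (nat_lit 326) (nat_lit 354) (nat_lit 340)) (XT.lf (nat_lit 76) (nat_lit 129060908) (nat_lit 0) (nat_lit 4439504277) (nat_lit 380) (nat_lit 2485196450) (nat_lit 254) (nat_lit 1) (nat_lit 253) (nat_lit 1) (nat_lit 258) (nat_lit 1) (nat_lit 327) (nat_lit 354) (nat_lit 339)))) (XT.nd (nat_lit 156) (nat_lit 456) (nat_lit 0) (XT.nd (nat_lit 78) (nat_lit 380) (nat_lit 0) (XT.lf (nat_lit 304) (nat_lit 582831791) (nat_lit 0) (nat_lit 3941412419) (nat_lit 228) (nat_lit 2309758261) (nat_lit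 254) (nat_lit 1) (nat_lit 250) (nat_lit 1) (nat_lit 253) (nat_lit 1) (nat_lit 328) (nat_lit 354) (nat_lit 338)) (XT.lf (nat_lit 76) (nat_lit 2013840538) (nat_lit 0) (nat_lit 1380298818) (nat_lit 380) (nat_lit 3229182600) (nat_lit 246) (nat_lit 1) (nat_lit 245) (nat_lit 1) (nat_lit 250) (nat_lit 1) (nat_lit 329) (nat_lit 354) (nat_lit 337))) (XT.nd (nat_lit 78) (nat_lit 228) (nat_lit 0) (XT.lf (nat_lit 304) (nat_lit 3117909544) (nat_lit 0) (nat_lit 2928873037) (nat_lit 228) (nat_lit 374892272) (nat_lit 246) (nat_lit 1) (nat_lit 242) (nat_lit 1) (nat_lit 245) (nat_lit 1) (nat_lit 330) (nat_lit 354) (nat_lit 336)) (XT.lf (nat_lit 304) (nat_lit 999274946) (nat_lit 0) (nat_lit 2521639748) (nat_lit 228) (nat_lit 2706862411) (nat_lit 243) (nat_lit 1) (nat_lit 239) (nat_lit 1) (nat_lit 242) (nat_lit 1) (nat_lit 331) (nat_lit 354) (nat_lit 335))))) (XT.nd (nat_lit 234) (nat_lit 836) (nat_lit 0) (XT.nd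 (nat_lit 78) (nat_lit 380) (nat_lit 0) (XT.lf (nat_lit 76) (nat_lit 1138931981) (nat_lit 0) (nat_lit 1042791204) (nat_lit 304) (nat_lit 3860209111) (nat_lit 236) (nat_lit 1) (nat_lit 235) (nat_lit 1) (nat_lit 239) (nat_lit 1) (nat_lit 332) (nat_lit 354) (nat_lit 334)) (XT.nd (nat_lit 78) (nat_lit 152) (nat_lit 0) (XT.lf (nat_lit 304) (nat_lit 2834082752) (nat_lit 0) (nat_lit 1885693640) (nat_lit 228) (nat_lit 1143113684) (nat_lit 236) (nat_lit 1) (nat_lit 232) (nat_lit 1) (nat_lit 235) (nat_lit 1) (nat_lit 333) (nat_lit 354) (nat_lit 333)) (XT.lf (nat_lit 228) (nat_lit 702573298) (nat_lit 0) (nat_lit 1645130158) (nat_lit 152) (nat_lit 3343367462) (nat_lit 233) (nat_lit 1) (nat_lit 230) (nat_lit 1) (nat_lit 232) (nat_lit 1) (nat_lit 334) (nat_lit 354) (nat_lit 332)))) (XT.nd (nat_lit 156) (nat_lit 380) (nat_lit 0) (XT.nd (nat_lit 78) (nat_lit 152) (nat_lit 0) (XT.lf (nat_lit 76) (nat_lit 119020405)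 (nat_lit 0) (nat_lit 1331864174) (nat_lit 304) (nat_lit 4075027344) (nat_lit 227) (nat_lit 1) (nat_lit 226) (nat_lit 1) (nat_lit 230) (nat_lit 1) (nat_lit 335) (nat_lit 354) (nat_lit 331)) (XT.lf (nat_lit 228) (nat_lit 2041549093) (nat_lit 0) (nat_lit 1275793039) (nat_lit 152) (nat_lit 2048653705) (nat_lit 227) (nat_lit 1) (nat_lit 224) (nat_lit 1) (nat_lit 226) (nat_lit 1) (nat_lit 336) (nat_lit 354) (nat_lit 330))) (XT.nd (nat_lit 78) (nat_lit 152) (nat_lit 0) (XT.lf (nat_lit 76) (nat_lit 1107659221) (nat_lit 0) (nat_lit 51163473) (nat_lit 228) (nat_lit 4054235243) (nat_lit 222) (nat_lit 1) (nat_lit 221) (nat_lit 1) (nat_lit 224) (nat_lit 1) (nat_lit 337) (nat_lit 354) (nat_lit 329)) (XT.lf (nat_lit 228) (nat_lit 3028126417) (nat_lit 0) (nat_lit 1049313699) (nat_lit 152) (nat_lit 987128777) (nat_lit 222) (nat_lit 1) (nat_lit 219) (nat_lit 1) (nat_lit 221) (nat_lit 1) (nat_lit 338) (nat_lit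 354) (nat_lit 328))))))))
noncomputable def ec50 : XT := (XT.nd (nat_lit 2028) (nat_lit 3268) (nat_lit 0) (XT.nd (nat_lit 1014) (nat_lit 1444) (nat_lit 0) (XT.nd (nat_lit 468) (nat_lit 1140) (nat_lit 0) (XT.nd (nat_lit 234) (nat_lit 380) (nat_lit 0) (XT.nd (nat_lit 78) (nat_lit 380) (nat_lit 0) (XT.lf (nat_lit 228) (nat_lit 940657410) (nat_lit 0) (nat_lit 975453118) (nat_lit 152) (nat_lit 3005646705) (nat_lit 220) (nat_lit 1) (nat_lit 217) (nat_lit 1) (nat_lit 219) (nat_lit 1) (nat_lit 339) (nat_lit 354) (nat_lit 327)) (XT.nd (nat_lit 78) (nat_lit 152) (nat_lit 0) (XT.lf (nat_lit 228) (nat_lit 3734064219) (nat_lit 0) (nat_lit 931966282) (nat_lit 152) (nat_lit 118230735) (nat_lit 217) (nat_lit 1) (nat_lit 214) (nat_lit 1) (nat_lit 216) (nat_lit 1) (nat_lit 340) (nat_lit 354) (nat_lit 326)) (XT.lf (nat_lit 228) (nat_lit 1671194085) (nat_lit 0) (nat_lit 889713590) (nat_lit 152) (nat_lit 2089678142)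 (nat_lit 215) (nat_lit 1) (nat_lit 212) (nat_lit 1) (nat_lit 214) (nat_lit 1) (nat_lit 341) (nat_lit 354) (nat_lit 325)))) (XT.nd (nat_lit 78) (nat_lit 228) (nat_lit 0) (XT.lf (nat_lit 76) (nat_lit 572448497) (nat_lit 0) (nat_lit 314643489) (nat_lit 152) (nat_lit 3635362923) (nat_lit 211) (nat_lit 1) (nat_lit 210) (nat_lit 1) (nat_lit 212) (nat_lit 1) (nat_lit 342) (nat_lit 354) (nat_lit 324)) (XT.nd (nat_lit 78) (nat_lit 76) (nat_lit 0) (XT.lf (nat_lit 228) (nat_lit 2192702751) (nat_lit 0) (nat_lit 877698669) (nat_lit 152) (nat_lit 1327155842) (nat_lit 211) (nat_lit 1) (nat_lit 208) (nat_lit 1) (nat_lit 210) (nat_lit 1) (nat_lit 343) (nat_lit 354) (nat_lit 323)) (XT.lf (nat_lit 152) (nat_lit 236122928) (nat_lit 0) (nat_lit 899256083) (nat_lit 76) (nat_lit 3142211404) (nat_lit 209) (nat_lit 1) (nat_lit 207) (nat_lit 1) (nat_lit 208) (nat_lit 1) (nat_lit 344) (nat_lit 354) (nat_lit 322))))) (XT.nd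 (nat_lit 234) (nat_lit 608) (nat_lit 0) (XT.nd (nat_lit 78) (nat_lit 304) (nat_lit 0) (XT.lf (nat_lit 228) (nat_lit 2548859836) (nat_lit 0) (nat_lit 919699003) (nat_lit 152) (nat_lit 692372584) (nat_lit 207) (nat_lit 1) (nat_lit 204) (nat_lit 1) (nat_lit 206) (nat_lit 1) (nat_lit 345) (nat_lit 354) (nat_lit 321)) (XT.nd (nat_lit 78) (nat_lit 228) (nat_lit 0) (XT.lf (nat_lit 152) (nat_lit 641057044) (nat_lit 0) (nat_lit 954087476) (nat_lit 76) (nat_lit 2453059555) (nat_lit 205) (nat_lit 1) (nat_lit 203) (nat_lit 1) (nat_lit 204) (nat_lit 1) (nat_lit 346) (nat_lit 354) (nat_lit 320)) (XT.lf (nat_lit 228) (nat_lit 2774978290) (nat_lit 0) (nat_lit 1000103397) (nat_lit 152) (nat_lit 164125528) (nat_lit 203) (nat_lit 1) (nat_lit 200) (nat_lit 1) (nat_lit 202) (nat_lit 1) (nat_lit 347) (nat_lit 354) (nat_lit 319)))) (XT.nd (nat_lit 156) (nat_lit 304) (nat_lit 0) (XT.nd (nat_lit 78) (nat_lit 228) (nat_lit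 0) (XT.lf (nat_lit 152) (nat_lit 922569034) (nat_lit 0) (nat_lit 1042619809) (nat_lit 76) (nat_lit 1867943429) (nat_lit 201) (nat_lit 1) (nat_lit 199) (nat_lit 1) (nat_lit 200) (nat_lit 1) (nat_lit 348) (nat_lit 354) (nat_lit 318)) (XT.lf (nat_lit 76) (nat_lit 266290138) (nat_lit 0) (nat_lit 835813761) (nat_lit 228) (nat_lit 2628764180) (nat_lit 197) (nat_lit 1) (nat_lit 196) (nat_lit 1) (nat_lit 199) (nat_lit 1) (nat_lit 349) (nat_lit 354) (nat_lit 317))) (XT.nd (nat_lit 78) (nat_lit 228) (nat_lit 0) (XT.lf (nat_lit 152) (nat_lit 1107166078) (nat_lit 0) (nat_lit 1153614574) (nat_lit 76) (nat_lit 1370362900) (nat_lit 197) (nat_lit 1) (nat_lit 195) (nat_lit 1) (nat_lit 196) (nat_lit 1) (nat_lit 350) (nat_lit 354) (nat_lit 316)) (XT.lf (nat_lit 76) (nat_lit 619291708) (nat_lit 0) (nat_lit 599825895) (nat_lit 228) (nat_lit 2315805988) (nat_lit 193) (nat_lit 1) (nat_lit 192) (nat_lit 1) (nat_lit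 195) (nat_lit 1) (nat_lit 351) (nat_lit 354) (nat_lit 315)))))) (XT.nd (nat_lit 468) (nat_lit 760) (nat_lit 0) (XT.nd (nat_lit 234) (nat_lit 380) (nat_lit 0) (XT.nd (nat_lit 78) (nat_lit 228) (nat_lit 0) (XT.lf (nat_lit 152) (nat_lit 1216224421) (nat_lit 0) (nat_lit 1278298848) (nat_lit 76) (nat_lit 946638744) (nat_lit 193) (nat_lit 1) (nat_lit 191) (nat_lit 1) (nat_lit 192) (nat_lit 1) (nat_lit 352) (nat_lit 354) (nat_lit 314)) (XT.nd (nat_lit 78) (nat_lit 76) (nat_lit 0) (XT.lf (nat_lit 76) (nat_lit 911740599) (nat_lit 0) (nat_lit 434428082) (nat_lit 152) (nat_lit 2004328267) (nat_lit 190) (nat_lit 1) (nat_lit 189) (nat_lit 1) (nat_lit 191) (nat_lit 1) (nat_lit 353) (nat_lit 354) (nat_lit 313)) (XT.lf (nat_lit 152) (nat_lit 1266948126) (nat_lit 0) (nat_lit 1409884759) (nat_lit 76) (nat_lit 585409448) (nat_lit 190) (nat_lit 1) (nat_lit 188) (nat_lit 1) (nat_lit 189) (nat_lit 1) (nat_lit 354)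 (nat_lit 354) (nat_lit 312)))) (XT.nd (nat_lit 78) (nat_lit 228) (nat_lit 0) (XT.lf (nat_lit 76) (nat_lit 1153267086) (nat_lit 0) (nat_lit 324089013) (nat_lit 152) (nat_lit 1699346239) (nat_lit 187) (nat_lit 1) (nat_lit 186) (nat_lit 1) (nat_lit 188) (nat_lit 1) (nat_lit 355) (nat_lit 354) (nat_lit 311)) (XT.nd (nat_lit 78) (nat_lit 152) (nat_lit 0) (XT.lf (nat_lit 152) (nat_lit 1273150834) (nat_lit 0) (nat_lit 1543178955) (nat_lit 76) (nat_lit 277219413) (nat_lit 187) (nat_lit 1) (nat_lit 185) (nat_lit 1) (nat_lit 186) (nat_lit 1) (nat_lit 356) (nat_lit 354) (nat_lit 310)) (XT.lf (nat_lit 76) (nat_lit 1351875001) (nat_lit 0) (nat_lit 256320077) (nat_lit 152) (nat_lit 1404559451) (nat_lit 184) (nat_lit 1) (nat_lit 183) (nat_lit 1) (nat_lit 185) (nat_lit 1) (nat_lit 357) (nat_lit 354) (nat_lit 309))))) (XT.nd (nat_lit 234) (nat_lit 456) (nat_lit 0) (XT.nd (nat_lit 78) (nat_lit 228) (nat_lit 0)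 (XT.lf (nat_lit 152) (nat_lit 1245893067) (nat_lit 0) (nat_lit 1674265446) (nat_lit 76) (nat_lit 14181839) (nat_lit 184) (nat_lit 1) (nat_lit 182) (nat_lit 1) (nat_lit 183) (nat_lit 1) (nat_lit 358) (nat_lit 354) (nat_lit 308)) (XT.nd (nat_lit 78) (nat_lit 76) (nat_lit 0) (XT.lf (nat_lit 76) (nat_lit 1514229630) (nat_lit 0) (nat_lit 221104030) (nat_lit 152) (nat_lit 1122619886) (nat_lit 181) (nat_lit 1) (nat_lit 180) (nat_lit 1) (nat_lit 182) (nat_lit 1) (nat_lit 359) (nat_lit 354) (nat_lit 307)) (XT.lf (nat_lit 0) (nat_lit 203566531) (nat_lit 0) (nat_lit 1593234211) (nat_lit 152) (nat_lit 986987624) (nat_lit 179) (nat_lit 3) (nat_lit 179) (nat_lit 1) (nat_lit 181) (nat_lit 1) (nat_lit 360) (nat_lit 354) (nat_lit 306)))) (XT.nd (nat_lit 156) (nat_lit 228) (nat_lit 0) (XT.nd (nat_lit 78) (nat_lit 76) (nat_lit 0) (XT.lf (nat_lit 76) (nat_lit 1645893498) (nat_lit 0) (nat_lit 210429345) (nat_lit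 152) (nat_lit 855349175) (nat_lit 178) (nat_lit 1) (nat_lit 177) (nat_lit 1) (nat_lit 179) (nat_lit 1) (nat_lit 361) (nat_lit 354) (nat_lit 305)) (XT.lf (nat_lit 0) (nat_lit 388887385) (nat_lit 0) (nat_lit 1523569336) (nat_lit 152) (nat_lit 729019569) (nat_lit 176) (nat_lit 3) (nat_lit 176) (nat_lit 1) (nat_lit 178) (nat_lit 1) (nat_lit 362) (nat_lit 354) (nat_lit 304))) (XT.nd (nat_lit 78) (nat_lit 76) (nat_lit 0) (XT.lf (nat_lit 76) (nat_lit 1751519552) (nat_lit 0) (nat_lit 217910767) (nat_lit 152) (nat_lit 603914363) (nat_lit 175) (nat_lit 1) (nat_lit 174) (nat_lit 1) (nat_lit 176) (nat_lit 1) (nat_lit 363) (nat_lit 354) (nat_lit 303)) (XT.lf (nat_lit 0) (nat_lit 546732384) (nat_lit 0) (nat_lit 1473215133) (nat_lit 152) (nat_lit 486926015) (nat_lit 173) (nat_lit 3) (nat_lit 173) (nat_lit 1) (nat_lit 175) (nat_lit 1) (nat_lit 364) (nat_lit 354) (nat_lit 302))))))) (XT.nd (nat_lit 1014) (nat_lit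 1672) (nat_lit 0) (XT.nd (nat_lit 468) (nat_lit 836) (nat_lit 0) (XT.nd (nat_lit 234) (nat_lit 380) (nat_lit 0) (XT.nd (nat_lit 78) (nat_lit 228) (nat_lit 0) (XT.lf (nat_lit 76) (nat_lit 1835009526) (nat_lit 0) (nat_lit 238480234) (nat_lit 152) (nat_lit 368969915) (nat_lit 172) (nat_lit 1) (nat_lit 171) (nat_lit 1) (nat_lit 173) (nat_lit 1) (nat_lit 365) (nat_lit 354) (nat_lit 301)) (XT.nd (nat_lit 78) (nat_lit 152) (nat_lit 0) (XT.lf (nat_lit 0) (nat_lit 680893593) (nat_lit 0) (nat_lit 1437378951) (nat_lit 152) (nat_lit 261216254) (nat_lit 170) (nat_lit 3) (nat_lit 170) (nat_lit 1) (nat_lit 172) (nat_lit 1) (nat_lit 366) (nat_lit 354) (nat_lit 300)) (XT.lf (nat_lit 76) (nat_lit 1899643832) (nat_lit 0) (nat_lit 268135191) (nat_lit 152) (nat_lit 150772264) (nat_lit 169) (nat_lit 1) (nat_lit 168) (nat_lit 1) (nat_lit 170) (nat_lit 1) (nat_lit 367) (nat_lit 354) (nat_lit 299)))) (XT.nd (nat_lit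 78) (nat_lit 304) (nat_lit 0) (XT.lf (nat_lit 0) (nat_lit 794578190) (nat_lit 0) (nat_lit 1412258443) (nat_lit 152) (nat_lit 52037769) (nat_lit 167) (nat_lit 3) (nat_lit 167) (nat_lit 1) (nat_lit 169) (nat_lit 1) (nat_lit 368) (nat_lit 354) (nat_lit 298)) (XT.nd (nat_lit 78) (nat_lit 76) (nat_lit 0) (XT.lf (nat_lit 152) (nat_lit 1896601076) (nat_lit 0) (nat_lit 52405276) (nat_lit 76) (nat_lit 252146643) (nat_lit 166) (nat_lit 1) (nat_lit 164) (nat_lit 1) (nat_lit 165) (nat_lit 1) (nat_lit 369) (nat_lit 354) (nat_lit 297)) (XT.lf (nat_lit 76) (nat_lit 747385395) (nat_lit 0) (nat_lit 145392282) (nat_lit 76) (nat_lit 1251729451) (nat_lit 164) (nat_lit 3) (nat_lit 163) (nat_lit 1) (nat_lit 164) (nat_lit 1) (nat_lit 370) (nat_lit 354) (nat_lit 296))))) (XT.nd (nat_lit 234) (nat_lit 456) (nat_lit 0) (XT.nd (nat_lit 78) (nat_lit 228) (nat_lit 0) (XT.lf (nat_lit 152) (nat_lit 1743175460) (nat_lit 0)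 (nat_lit 243608989) (nat_lit 76) (nat_lit 103022340) (nat_lit 163) (nat_lit 1) (nat_lit 161) (nat_lit 1) (nat_lit 162) (nat_lit 1) (nat_lit 371) (nat_lit 354) (nat_lit 295)) (XT.nd (nat_lit 78) (nat_lit 152) (nat_lit 0) (XT.lf (nat_lit 76) (nat_lit 648171709) (nat_lit 0) (nat_lit 327947999) (nat_lit 76) (nat_lit 1059975269) (nat_lit 161) (nat_lit 3) (nat_lit 160) (nat_lit 1) (nat_lit 161) (nat_lit 1) (nat_lit 372) (nat_lit 354) (nat_lit 294)) (XT.lf (nat_lit 0) (nat_lit 27358250) (nat_lit 0) (nat_lit 390500719) (nat_lit 152) (nat_lit 1566393083) (nat_lit 158) (nat_lit 3) (nat_lit 158) (nat_lit 1) (nat_lit 160) (nat_lit 1) (nat_lit 373) (nat_lit 354) (nat_lit 293)))) (XT.nd (nat_lit 156) (nat_lit 228) (nat_lit 0) (XT.nd (nat_lit 78) (nat_lit 152) (nat_lit 0) (XT.lf (nat_lit 76) (nat_lit 551335969) (nat_lit 0) (nat_lit 494417335) (nat_lit 76) (nat_lit 887578996) (nat_lit 158) (nat_lit 3) (nat_lit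 157) (nat_lit 1) (nat_lit 158) (nat_lit 1) (nat_lit 374) (nat_lit 354) (nat_lit 292)) (XT.lf (nat_lit 0) (nat_lit 139138063) (nat_lit 0) (nat_lit 435648669) (nat_lit 152) (nat_lit 1309322998) (nat_lit 155) (nat_lit 3) (nat_lit 155) (nat_lit 1) (nat_lit 157) (nat_lit 1) (nat_lit 375) (nat_lit 354) (nat_lit 291))) (XT.nd (nat_lit 78) (nat_lit 152) (nat_lit 0) (XT.lf (nat_lit 76) (nat_lit 457963600) (nat_lit 0) (nat_lit 645423234) (nat_lit 76) (nat_lit 732510457) (nat_lit 155) (nat_lit 3) (nat_lit 154) (nat_lit 1) (nat_lit 155) (nat_lit 1) (nat_lit 376) (nat_lit 354) (nat_lit 290)) (XT.lf (nat_lit 0) (nat_lit 237317911) (nat_lit 0) (nat_lit 479422723) (nat_lit 152) (nat_lit 1072409312) (nat_lit 152) (nat_lit 3) (nat_lit 152) (nat_lit 1) (nat_lit 154) (nat_lit 1) (nat_lit 377) (nat_lit 354) (nat_lit 289)))))) (XT.nd (nat_lit 546) (nat_lit 912) (nat_lit 0) (XT.nd (nat_lit 234) (nat_lit 456) (nat_lit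 0) (XT.nd (nat_lit 78) (nat_lit 228) (nat_lit 0) (XT.lf (nat_lit 76) (nat_lit 368826324) (nat_lit 0) (nat_lit 781667385) (nat_lit 76) (nat_lit 592997446) (nat_lit 152) (nat_lit 3) (nat_lit 151) (nat_lit 1) (nat_lit 152) (nat_lit 1) (nat_lit 378) (nat_lit 354) (nat_lit 288)) (XT.nd (nat_lit 78) (nat_lit 76) (nat_lit 0) (XT.lf (nat_lit 0) (nat_lit 323380884) (nat_lit 0) (nat_lit 521062650) (nat_lit 152) (nat_lit 854640603) (nat_lit 149) (nat_lit 3) (nat_lit 149) (nat_lit 1) (nat_lit 151) (nat_lit 1) (nat_lit 379) (nat_lit 354) (nat_lit 287)) (XT.lf (nat_lit 76) (nat_lit 284447476) (nat_lit 0) (nat_lit 903902079) (nat_lit 76) (nat_lit 467486149) (nat_lit 149) (nat_lit 3) (nat_lit 148) (nat_lit 1) (nat_lit 149) (nat_lit 1) (nat_lit 380) (nat_lit 354) (nat_lit 286)))) (XT.nd (nat_lit 156) (nat_lit 228) (nat_lit 0) (XT.nd (nat_lit 78) (nat_lit 76) (nat_lit 0) (XT.lf (nat_lit 0) (nat_lit 398623585)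 (nat_lit 0) (nat_lit 560033349) (nat_lit 152) (nat_lit 654986345) (nat_lit 146) (nat_lit 3) (nat_lit 146) (nat_lit 1) (nat_lit 148) (nat_lit 1) (nat_lit 381) (nat_lit 354) (nat_lit 285)) (XT.lf (nat_lit 76) (nat_lit 205154848) (nat_lit 0) (nat_lit 1012908128) (nat_lit 76) (nat_lit 354608333) (nat_lit 146) (nat_lit 3) (nat_lit 145) (nat_lit 1) (nat_lit 146) (nat_lit 1) (nat_lit 382) (nat_lit 354) (nat_lit 284))) (XT.nd (nat_lit 78) (nat_lit 76) (nat_lit 0) (XT.lf (nat_lit 0) (nat_lit 464184216) (nat_lit 0) (nat_lit 595977413) (nat_lit 152) (nat_lit 472414360) (nat_lit 143) (nat_lit 3) (nat_lit 143) (nat_lit 1) (nat_lit 145) (nat_lit 1) (nat_lit 383) (nat_lit 354) (nat_lit 283)) (XT.lf (nat_lit 76) (nat_lit 131123363) (nat_lit 0) (nat_lit 1109477683) (nat_lit 76) (nat_lit 253154100) (nat_lit 143) (nat_lit 3) (nat_lit 142) (nat_lit 1) (nat_lit 143) (nat_lit 1) (nat_lit 384) (nat_lit 354) (nat_lit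 282))))) (XT.nd (nat_lit 234) (nat_lit 532) (nat_lit 0) (XT.nd (nat_lit 78) (nat_lit 228) (nat_lit 0) (XT.lf (nat_lit 0) (nat_lit 521065917) (nat_lit 0) (nat_lit 628676797) (nat_lit 152) (nat_lit 305904180) (nat_lit 140) (nat_lit 3) (nat_lit 140) (nat_lit 1) (nat_lit 142) (nat_lit 1) (nat_lit 385) (nat_lit 354) (nat_lit 281)) (XT.nd (nat_lit 78) (nat_lit 152) (nat_lit 0) (XT.lf (nat_lit 76) (nat_lit 62409488) (nat_lit 0) (nat_lit 1194400986) (nat_lit 76) (nat_lit 162049191) (nat_lit 140) (nat_lit 3) (nat_lit 139) (nat_lit 1) (nat_lit 140) (nat_lit 1) (nat_lit 386) (nat_lit 354) (nat_lit 280)) (XT.lf (nat_lit 0) (nat_lit 570156206) (nat_lit 0) (nat_lit 658021905) (nat_lit 152) (nat_lit 154457116) (nat_lit 137) (nat_lit 3) (nat_lit 137) (nat_lit 1) (nat_lit 139) (nat_lit 1) (nat_lit 387) (nat_lit 354) (nat_lit 279)))) (XT.nd (nat_lit 156) (nat_lit 304) (nat_lit 0) (XT.nd (nat_lit 78) (nat_lit 76)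 (nat_lit 0) (XT.lf (nat_lit 76) (nat_lit 1267451166) (nat_lit 0) (nat_lit 988395) (nat_lit 152) (nat_lit 79330918) (nat_lit 136) (nat_lit 1) (nat_lit 135) (nat_lit 1) (nat_lit 137) (nat_lit 1) (nat_lit 388) (nat_lit 354) (nat_lit 278)) (XT.lf (nat_lit 0) (nat_lit 612243200) (nat_lit 0) (nat_lit 683986701) (nat_lit 152) (nat_lit 17103689) (nat_lit 134) (nat_lit 3) (nat_lit 134) (nat_lit 1) (nat_lit 136) (nat_lit 1) (nat_lit 389) (nat_lit 354) (nat_lit 277))) (XT.nd (nat_lit 78) (nat_lit 76) (nat_lit 0) (XT.lf (nat_lit 152) (nat_lit 1222001903) (nat_lit 0) (nat_lit 52880296) (nat_lit 76) (nat_lit 5319441) (nat_lit 133) (nat_lit 1) (nat_lit 131) (nat_lit 1) (nat_lit 132) (nat_lit 1) (nat_lit 390) (nat_lit 354) (nat_lit 276)) (XT.lf (nat_lit 76) (nat_lit 539124524) (nat_lit 0) (nat_lit 110631950) (nat_lit 76) (nat_lit 597704036) (nat_lit 131) (nat_lit 3) (nat_lit 130) (nat_lit 1) (nat_lit 131) (nat_lit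 1) (nat_lit 391) (nat_lit 354) (nat_lit 275))))))))
noncomputable def ec51 : XT := (XT.nd (nat_lit 2106) (nat_lit 152) (nat_lit 0) (XT.nd (nat_lit 1014) (nat_lit 1672) (nat_lit 0) (XT.nd (nat_lit 468) (nat_lit 836) (nat_lit 0) (XT.nd (nat_lit 234) (nat_lit 304) (nat_lit 0) (XT.nd (nat_lit 78) (nat_lit 228) (nat_lit 0) (XT.lf (nat_lit 0) (nat_lit 60945142) (nat_lit 0) (nat_lit 112602560) (nat_lit 152) (nat_lit 1042403454) (nat_lit 128) (nat_lit 3) (nat_lit 128) (nat_lit 1) (nat_lit 130) (nat_lit 1) (nat_lit 392) (nat_lit 354) (nat_lit 274)) (XT.nd (nat_lit 78) (nat_lit 152) (nat_lit 0) (XT.lf (nat_lit 76) (nat_lit 455409010) (nat_lit 0) (nat_lit 226265713) (nat_lit 76) (nat_lit 503239953) (nat_lit 128) (nat_lit 3) (nat_lit 127) (nat_lit 1) (nat_lit 128) (nat_lit 1) (nat_lit 393) (nat_lit 354) (nat_lit 273)) (XT.lf (nat_lit 0) (nat_lit 119921923) (nat_lit 0) (nat_lit 162100885) (nat_lit 152) (nat_lit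 872931964) (nat_lit 125) (nat_lit 3) (nat_lit 125) (nat_lit 1) (nat_lit 127) (nat_lit 1) (nat_lit 394) (nat_lit 354) (nat_lit 272)))) (XT.nd (nat_lit 78) (nat_lit 228) (nat_lit 0) (XT.lf (nat_lit 76) (nat_lit 378182374) (nat_lit 0) (nat_lit 330116579) (nat_lit 76) (nat_lit 417236968) (nat_lit 125) (nat_lit 3) (nat_lit 124) (nat_lit 1) (nat_lit 125) (nat_lit 1) (nat_lit 395) (nat_lit 354) (nat_lit 271)) (XT.nd (nat_lit 78) (nat_lit 76) (nat_lit 0) (XT.lf (nat_lit 0) (nat_lit 172404147) (nat_lit 0) (nat_lit 206843825) (nat_lit 152) (nat_lit 717799315) (nat_lit 122) (nat_lit 3) (nat_lit 122) (nat_lit 1) (nat_lit 124) (nat_lit 1) (nat_lit 396) (nat_lit 354) (nat_lit 270)) (XT.lf (nat_lit 76) (nat_lit 307122821) (nat_lit 0) (nat_lit 423025829) (nat_lit 76) (nat_lit 339011411) (nat_lit 122) (nat_lit 3) (nat_lit 121) (nat_lit 1) (nat_lit 122) (nat_lit 1) (nat_lit 397) (nat_lit 354) (nat_lit 269)))))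 (XT.nd (nat_lit 234) (nat_lit 456) (nat_lit 0) (XT.nd (nat_lit 78) (nat_lit 228) (nat_lit 0) (XT.lf (nat_lit 0) (nat_lit 218957361) (nat_lit 0) (nat_lit 247077811) (nat_lit 152) (nat_lit 576033620) (nat_lit 119) (nat_lit 3) (nat_lit 119) (nat_lit 1) (nat_lit 121) (nat_lit 1) (nat_lit 398) (nat_lit 354) (nat_lit 268)) (XT.nd (nat_lit 78) (nat_lit 152) (nat_lit 0) (XT.lf (nat_lit 76) (nat_lit 241901777) (nat_lit 0) (nat_lit 505791014) (nat_lit 76) (nat_lit 267939231) (nat_lit 119) (nat_lit 3) (nat_lit 118) (nat_lit 1) (nat_lit 119) (nat_lit 1) (nat_lit 399) (nat_lit 354) (nat_lit 267)) (XT.lf (nat_lit 0) (nat_lit 260096173) (nat_lit 0) (nat_lit 283056890) (nat_lit 152) (nat_lit 446715139) (nat_lit 116) (nat_lit 3) (nat_lit 116) (nat_lit 1) (nat_lit 118) (nat_lit 1) (nat_lit 400) (nat_lit 354) (nat_lit 266)))) (XT.nd (nat_lit 156) (nat_lit 228) (nat_lit 0) (XT.nd (nat_lit 78) (nat_lit 152) (nat_lit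 0) (XT.lf (nat_lit 76) (nat_lit 182189604) (nat_lit 0) (nat_lit 579166095) (nat_lit 76) (nat_lit 203449527) (nat_lit 116) (nat_lit 3) (nat_lit 115) (nat_lit 1) (nat_lit 116) (nat_lit 1) (nat_lit 401) (nat_lit 354) (nat_lit 265)) (XT.lf (nat_lit 0) (nat_lit 296289816) (nat_lit 0) (nat_lit 315037544) (nat_lit 152) (nat_lit 328975301) (nat_lit 113) (nat_lit 3) (nat_lit 113) (nat_lit 1) (nat_lit 115) (nat_lit 1) (nat_lit 402) (nat_lit 354) (nat_lit 264))) (XT.nd (nat_lit 78) (nat_lit 152) (nat_lit 0) (XT.lf (nat_lit 76) (nat_lit 127659983) (nat_lit 0) (nat_lit 643862077) (nat_lit 76) (nat_lit 145018990) (nat_lit 113) (nat_lit 3) (nat_lit 112) (nat_lit 1) (nat_lit 113) (nat_lit 1) (nat_lit 403) (nat_lit 354) (nat_lit 263)) (XT.lf (nat_lit 0) (nat_lit 327966953) (nat_lit 0) (nat_lit 343274720) (nat_lit 152) (nat_lit 221995363) (nat_lit 110) (nat_lit 3) (nat_lit 110) (nat_lit 1) (nat_lit 112) (nat_lit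 1) (nat_lit 404) (nat_lit 354) (nat_lit 262)))))) (XT.nd (nat_lit 546) (nat_lit 760) (nat_lit 0) (XT.nd (nat_lit 234) (nat_lit 608) (nat_lit 0) (XT.nd (nat_lit 78) (nat_lit 228) (nat_lit 0) (XT.lf (nat_lit 76) (nat_lit 77993226) (nat_lit 0) (nat_lit 700548011) (nat_lit 76) (nat_lit 92167084) (nat_lit 110) (nat_lit 3) (nat_lit 109) (nat_lit 1) (nat_lit 110) (nat_lit 1) (nat_lit 405) (nat_lit 354) (nat_lit 261)) (XT.nd (nat_lit 78) (nat_lit 76) (nat_lit 0) (XT.lf (nat_lit 0) (nat_lit 355519821) (nat_lit 0) (nat_lit 368018814) (nat_lit 152) (nat_lit 125004787) (nat_lit 107) (nat_lit 3) (nat_lit 107) (nat_lit 1) (nat_lit 109) (nat_lit 1) (nat_lit 406) (nat_lit 354) (nat_lit 260)) (XT.lf (nat_lit 76) (nat_lit 32878726) (nat_lit 0) (nat_lit 749852270) (nat_lit 76) (nat_lit 44451868) (nat_lit 107) (nat_lit 3) (nat_lit 106) (nat_lit 1) (nat_lit 107) (nat_lit 1) (nat_lit 407) (nat_lit 354) (nat_lit 259))))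 (XT.nd (nat_lit 156) (nat_lit 228) (nat_lit 0) (XT.nd (nat_lit 78) (nat_lit 228) (nat_lit 0) (XT.lf (nat_lit 0) (nat_lit 379307841) (nat_lit 0) (nat_lit 389513434) (nat_lit 152) (nat_lit 37279440) (nat_lit 104) (nat_lit 3) (nat_lit 104) (nat_lit 1) (nat_lit 106) (nat_lit 1) (nat_lit 408) (nat_lit 354) (nat_lit 258)) (XT.lf (nat_lit 152) (nat_lit 778004816) (nat_lit 0) (nat_lit 6603657) (nat_lit 76) (nat_lit 1227210) (nat_lit 103) (nat_lit 1) (nat_lit 101) (nat_lit 1) (nat_lit 102) (nat_lit 1) (nat_lit 409) (nat_lit 354) (nat_lit 257))) (XT.nd (nat_lit 78) (nat_lit 152) (nat_lit 0) (XT.lf (nat_lit 76) (nat_lit 357091510) (nat_lit 0) (nat_lit 43244427) (nat_lit 76) (nat_lit 365424511) (nat_lit 101) (nat_lit 3) (nat_lit 100) (nat_lit 1) (nat_lit 101) (nat_lit 1) (nat_lit 410) (nat_lit 354) (nat_lit 256)) (XT.lf (nat_lit 0) (nat_lit 38020967) (nat_lit 0) (nat_lit 45369292) (nat_lit 152) (nat_lit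 663067973) (nat_lit 98) (nat_lit 3) (nat_lit 98) (nat_lit 1) (nat_lit 100) (nat_lit 1) (nat_lit 411) (nat_lit 354) (nat_lit 255))))) (XT.nd (nat_lit 234) (nat_lit 456) (nat_lit 0) (XT.nd (nat_lit 78) (nat_lit 228) (nat_lit 0) (XT.lf (nat_lit 76) (nat_lit 301915153) (nat_lit 0) (nat_lit 116789726) (nat_lit 76) (nat_lit 308719158) (nat_lit 98) (nat_lit 3) (nat_lit 97) (nat_lit 1) (nat_lit 98) (nat_lit 1) (nat_lit 412) (nat_lit 354) (nat_lit 254)) (XT.nd (nat_lit 78) (nat_lit 76) (nat_lit 0) (XT.lf (nat_lit 0) (nat_lit 73166260) (nat_lit 0) (nat_lit 79166264) (nat_lit 152) (nat_lit 556732288) (nat_lit 95) (nat_lit 3) (nat_lit 95) (nat_lit 1) (nat_lit 97) (nat_lit 1) (nat_lit 413) (nat_lit 354) (nat_lit 253)) (XT.lf (nat_lit 76) (nat_lit 251361094) (nat_lit 0) (nat_lit 182740307) (nat_lit 76) (nat_lit 256916653) (nat_lit 95) (nat_lit 3) (nat_lit 94) (nat_lit 1) (nat_lit 95) (nat_lit 1) (nat_lit 414)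 (nat_lit 354) (nat_lit 252)))) (XT.nd (nat_lit 156) (nat_lit 228) (nat_lit 0) (XT.nd (nat_lit 78) (nat_lit 76) (nat_lit 0) (XT.lf (nat_lit 0) (nat_lit 104571251) (nat_lit 0) (nat_lit 109470334) (nat_lit 152) (nat_lit 459513780) (nat_lit 92) (nat_lit 3) (nat_lit 92) (nat_lit 1) (nat_lit 94) (nat_lit 1) (nat_lit 415) (nat_lit 354) (nat_lit 251)) (XT.lf (nat_lit 76) (nat_lit 205117618) (nat_lit 0) (nat_lit 241672974) (nat_lit 76) (nat_lit 209653806) (nat_lit 92) (nat_lit 3) (nat_lit 91) (nat_lit 1) (nat_lit 92) (nat_lit 1) (nat_lit 416) (nat_lit 354) (nat_lit 250))) (XT.nd (nat_lit 78) (nat_lit 76) (nat_lit 0) (XT.lf (nat_lit 0) (nat_lit 132535005) (nat_lit 0) (nat_lit 136535170) (nat_lit 152) (nat_lit 370763959) (nat_lit 89) (nat_lit 3) (nat_lit 89) (nat_lit 1) (nat_lit 91) (nat_lit 1) (nat_lit 417) (nat_lit 354) (nat_lit 249)) (XT.lf (nat_lit 76) (nat_lit 162889630) (nat_lit 0) (nat_lit 294126939)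 (nat_lit 76) (nat_lit 166593486) (nat_lit 89) (nat_lit 3) (nat_lit 88) (nat_lit 1) (nat_lit 89) (nat_lit 1) (nat_lit 418) (nat_lit 354) (nat_lit 248))))))) (XT.nd (nat_lit 45552) (nat_lit 0) (nat_lit 10260) (XT.nd (nat_lit 45006) (nat_lit 0) (nat_lit 13680) (XT.nd (nat_lit 44772) (nat_lit 0) (nat_lit 15732) (XT.nd (nat_lit 44616) (nat_lit 0) (nat_lit 15656) (XT.lf (nat_lit 0) (nat_lit 157334296) (nat_lit 0) (nat_lit 160600484) (nat_lit 152) (nat_lit 289875537) (nat_lit 86) (nat_lit 3) (nat_lit 86) (nat_lit 1) (nat_lit 88) (nat_lit 1) (nat_lit 419) (nat_lit 354) (nat_lit 247)) (XT.nd (nat_lit 78) (nat_lit 0) (nat_lit 76) (XT.lf (nat_lit 836) (nat_lit 1704535345) (nat_lit 0) (nat_lit 3026398588) (nat_lit 836) (nat_lit 1704535345) (nat_lit 303) (nat_lit 1) (nat_lit 292) (nat_lit 0) (nat_lit 303) (nat_lit 0) (nat_lit 310) (nat_lit 355) (nat_lit 355)) (XT.lf (nat_lit 836) (nat_lit 635843986) (nat_lit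 0) (nat_lit 5941737657) (nat_lit 760) (nat_lit 5810999578) (nat_lit 304) (nat_lit 1) (nat_lit 293) (nat_lit 1) (nat_lit 303) (nat_lit 1) (nat_lit 311) (nat_lit 355) (nat_lit 354)))) (XT.nd (nat_lit 78) (nat_lit 0) (nat_lit 76) (XT.lf (nat_lit 836) (nat_lit 5839859997) (nat_lit 76) (nat_lit 3979183712) (nat_lit 0) (nat_lit 2110377526) (nat_lit 304) (nat_lit 1) (nat_lit 294) (nat_lit 1) (nat_lit 293) (nat_lit 1) (nat_lit 312) (nat_lit 355) (nat_lit 353)) (XT.nd (nat_lit 78) (nat_lit 0) (nat_lit 76) (XT.lf (nat_lit 836) (nat_lit 5046117446) (nat_lit 76) (nat_lit 1667648312) (nat_lit 0) (nat_lit 4779473021) (nat_lit 305) (nat_lit 1) (nat_lit 295) (nat_lit 1) (nat_lit 294) (nat_lit 1) (nat_lit 313) (nat_lit 355) (nat_lit 352)) (XT.lf (nat_lit 836) (nat_lit 3734555916) (nat_lit 0) (nat_lit 6987177594) (nat_lit 760) (nat_lit 357183520) (nat_lit 306) (nat_lit 1) (nat_lit 295) (nat_lit 1) (nat_lit 305)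 (nat_lit 1) (nat_lit 314) (nat_lit 355) (nat_lit 351))))) (XT.nd (nat_lit 234) (nat_lit 1596) (nat_lit 0) (XT.nd (nat_lit 78) (nat_lit 684) (nat_lit 0) (XT.lf (nat_lit 836) (nat_lit 896070075) (nat_lit 0) (nat_lit 7705304411) (nat_lit 760) (nat_lit 2083007558) (nat_lit 307) (nat_lit 1) (nat_lit 296) (nat_lit 1) (nat_lit 306) (nat_lit 1) (nat_lit 315) (nat_lit 355) (nat_lit 350)) (XT.nd (nat_lit 78) (nat_lit 684) (nat_lit 0) (XT.lf (nat_lit 836) (nat_lit 1721882223) (nat_lit 76) (nat_lit 6696537003) (nat_lit 0) (nat_lit 1889845361) (nat_lit 307) (nat_lit 1) (nat_lit 297) (nat_lit 1) (nat_lit 296) (nat_lit 1) (nat_lit 316) (nat_lit 355) (nat_lit 349)) (XT.lf (nat_lit 836) (nat_lit 353635344) (nat_lit 0) (nat_lit 5006104368) (nat_lit 760) (nat_lit 4590545253) (nat_lit 298) (nat_lit 1) (nat_lit 287) (nat_lit 1) (nat_lit 297) (nat_lit 1) (nat_lit 317) (nat_lit 355) (nat_lit 348)))) (XT.nd (nat_lit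 156) (nat_lit 684) (nat_lit 0) (XT.nd (nat_lit 78) (nat_lit 380) (nat_lit 0) (XT.lf (nat_lit 76) (nat_lit 2448644790) (nat_lit 0) (nat_lit 1061111738) (nat_lit 532) (nat_lit 6099498805) (nat_lit 281) (nat_lit 1) (nat_lit 280) (nat_lit 1) (nat_lit 287) (nat_lit 1) (nat_lit 318) (nat_lit 355) (nat_lit 347)) (XT.lf (nat_lit 456) (nat_lit 6748156838) (nat_lit 0) (nat_lit 2196670529) (nat_lit 380) (nat_lit 339618836) (nat_lit 281) (nat_lit 1) (nat_lit 275) (nat_lit 1) (nat_lit 280) (nat_lit 1) (nat_lit 319) (nat_lit 355) (nat_lit 346))) (XT.nd (nat_lit 78) (nat_lit 304) (nat_lit 0) (XT.lf (nat_lit 456) (nat_lit 4869534235) (nat_lit 0) (nat_lit 1023877596) (nat_lit 380) (nat_lit 3080191455) (nat_lit 276) (nat_lit 1) (nat_lit 270) (nat_lit 1) (nat_lit 275) (nat_lit 1) (nat_lit 320) (nat_lit 355) (nat_lit 345)) (XT.lf (nat_lit 380) (nat_lit 2963049476) (nat_lit 0) (nat_lit 18851250) (nat_lit 304) (nat_lit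 5695931740) (nat_lit 271) (nat_lit 1) (nat_lit 266) (nat_lit 1) (nat_lit 270) (nat_lit 1) (nat_lit 321) (nat_lit 355) (nat_lit 344)))))) (XT.nd (nat_lit 546) (nat_lit 1596) (nat_lit 0) (XT.nd (nat_lit 234) (nat_lit 1140) (nat_lit 0) (XT.nd (nat_lit 78) (nat_lit 684) (nat_lit 0) (XT.lf (nat_lit 76) (nat_lit 218599787) (nat_lit 0) (nat_lit 7372244062) (nat_lit 380) (nat_lit 804823783) (nat_lit 267) (nat_lit 1) (nat_lit 266) (nat_lit 1) (nat_lit 271) (nat_lit 1) (nat_lit 322) (nat_lit 355) (nat_lit 343)) (XT.nd (nat_lit 78) (nat_lit 304) (nat_lit 0) (XT.lf (nat_lit 76) (nat_lit 5644303199) (nat_lit 0) (nat_lit 936168079) (nat_lit 380) (nat_lit 1543911183) (nat_lit 262) (nat_lit 1) (nat_lit 261) (nat_lit 1) (nat_lit 266) (nat_lit 1) (nat_lit 323) (nat_lit 355) (nat_lit 342)) (XT.lf (nat_lit 76) (nat_lit 2823987921) (nat_lit 0) (nat_lit 2867649012) (nat_lit 380) (nat_lit 2173447121) (nat_lit 258)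 (nat_lit 1) (nat_lit 257) (nat_lit 1) (nat_lit 262) (nat_lit 1) (nat_lit 324) (nat_lit 355) (nat_lit 341)))) (XT.nd (nat_lit 156) (nat_lit 608) (nat_lit 0) (XT.nd (nat_lit 78) (nat_lit 228) (nat_lit 0) (XT.lf (nat_lit 76) (nat_lit 139385781) (nat_lit 0) (nat_lit 4794664619) (nat_lit 380) (nat_lit 2684012166) (nat_lit 254) (nat_lit 1) (nat_lit 253) (nat_lit 1) (nat_lit 258) (nat_lit 1) (nat_lit 325) (nat_lit 355) (nat_lit 340)) (XT.lf (nat_lit 304) (nat_lit 629458334) (nat_lit 0) (nat_lit 4256725413) (nat_lit 228) (nat_lit 2494538922) (nat_lit 254) (nat_lit 1) (nat_lit 250) (nat_lit 1) (nat_lit 253) (nat_lit 1) (nat_lit 326) (nat_lit 355) (nat_lit 339))) (XT.nd (nat_lit 78) (nat_lit 228) (nat_lit 0) (XT.lf (nat_lit 76) (nat_lit 2174947781) (nat_lit 0) (nat_lit 1490722723) (nat_lit 380) (nat_lit 3487517208) (nat_lit 246) (nat_lit 1) (nat_lit 245) (nat_lit 1) (nat_lit 250) (nat_lit 1) (nat_lit 327)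 (nat_lit 355) (nat_lit 338)) (XT.lf (nat_lit 304) (nat_lit 3367342308) (nat_lit 0) (nat_lit 3163182880) (nat_lit 228) (nat_lit 404883654) (nat_lit 246) (nat_lit 1) (nat_lit 242) (nat_lit 1) (nat_lit 245) (nat_lit 1) (nat_lit 328) (nat_lit 355) (nat_lit 337))))) (XT.nd (nat_lit 234) (nat_lit 836) (nat_lit 0) (XT.nd (nat_lit 78) (nat_lit 532) (nat_lit 0) (XT.lf (nat_lit 304) (nat_lit 1079216942) (nat_lit 0) (nat_lit 2723370928) (nat_lit 228) (nat_lit 2923411404) (nat_lit 243) (nat_lit 1) (nat_lit 239) (nat_lit 1) (nat_lit 242) (nat_lit 1) (nat_lit 329) (nat_lit 355) (nat_lit 336)) (XT.nd (nat_lit 78) (nat_lit 228) (nat_lit 0) (XT.lf (nat_lit 76) (nat_lit 1230046540) (nat_lit 0) (nat_lit 1126214501) (nat_lit 304) (nat_lit 4169025840) (nat_lit 236) (nat_lit 1) (nat_lit 235) (nat_lit 1) (nat_lit 239) (nat_lit 1) (nat_lit 330) (nat_lit 355) (nat_lit 335)) (XT.lf (nat_lit 304) (nat_lit 3060809372) (nat_lit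 0) (nat_lit 2036549131) (nat_lit 228) (nat_lit 1234562779) (nat_lit 236) (nat_lit 1) (nat_lit 232) (nat_lit 1) (nat_lit 235) (nat_lit 1) (nat_lit 331) (nat_lit 355) (nat_lit 334)))) (XT.nd (nat_lit 156) (nat_lit 380) (nat_lit 0) (XT.nd (nat_lit 78) (nat_lit 304) (nat_lit 0) (XT.lf (nat_lit 228) (nat_lit 758779162) (nat_lit 0) (nat_lit 1776740571) (nat_lit 152) (nat_lit 3610836859) (nat_lit 233) (nat_lit 1) (nat_lit 230) (nat_lit 1) (nat_lit 232) (nat_lit 1) (nat_lit 332) (nat_lit 355) (nat_lit 333)) (XT.lf (nat_lit 76) (nat_lit 128542037) (nat_lit 0) (nat_lit 1438413308) (nat_lit 304) (nat_lit 4401029532) (nat_lit 227) (nat_lit 1) (nat_lit 226) (nat_lit 1) (nat_lit 230) (nat_lit 1) (nat_lit 333) (nat_lit 355) (nat_lit 332))) (XT.nd (nat_lit 78) (nat_lit 228) (nat_lit 0) (XT.lf (nat_lit 228) (nat_lit 2204873021) (nat_lit 0) (nat_lit 1377856482) (nat_lit 152) (nat_lit 2212546001) (nat_lit 227)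 (nat_lit 1) (nat_lit 224) (nat_lit 1) (nat_lit 226) (nat_lit 1) (nat_lit 334) (nat_lit 355) (nat_lit 331)) (XT.lf (nat_lit 76) (nat_lit 1196271959) (nat_lit 0) (nat_lit 55256551) (nat_lit 228) (nat_lit 4378574063) (nat_lit 222) (nat_lit 1) (nat_lit 221) (nat_lit 1) (nat_lit 224) (nat_lit 1) (nat_lit 335) (nat_lit 355) (nat_lit 330))))))))
noncomputable def ec52 : XT := (XT.nd (nat_lit 2028) (nat_lit 3268) (nat_lit 0) (XT.nd (nat_lit 1014) (nat_lit 1596) (nat_lit 0) (XT.nd (nat_lit 468) (nat_lit 988) (nat_lit 0) (XT.nd (nat_lit 234) (nat_lit 456) (nat_lit 0) (XT.nd (nat_lit 78) (nat_lit 380) (nat_lit 0) (XT.lf (nat_lit 228) (nat_lit 3270376530) (nat_lit 0) (nat_lit 1133258795) (nat_lit 152) (nat_lit 1066099079) (nat_lit 222) (nat_lit 1) (nat_lit 219) (nat_lit 1) (nat_lit 221) (nat_lit 1) (nat_lit 336) (nat_lit 355) (nat_lit 329)) (XT.nd (nat_lit 78) (nat_lit 228) (nat_lit 0) (XT.lf (nat_lit 228)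 (nat_lit 1015910003) (nat_lit 0) (nat_lit 1053489368) (nat_lit 152) (nat_lit 3246098442) (nat_lit 220) (nat_lit 1) (nat_lit 217) (nat_lit 1) (nat_lit 219) (nat_lit 1) (nat_lit 337) (nat_lit 355) (nat_lit 328)) (XT.lf (nat_lit 228) (nat_lit 4032789356) (nat_lit 0) (nat_lit 1006523584) (nat_lit 152) (nat_lit 127689194) (nat_lit 217) (nat_lit 1) (nat_lit 214) (nat_lit 1) (nat_lit 216) (nat_lit 1) (nat_lit 338) (nat_lit 355) (nat_lit 327)))) (XT.nd (nat_lit 78) (nat_lit 304) (nat_lit 0) (XT.lf (nat_lit 228) (nat_lit 1804889612) (nat_lit 0) (nat_lit 960890677) (nat_lit 152) (nat_lit 2256852393) (nat_lit 215) (nat_lit 1) (nat_lit 212) (nat_lit 1) (nat_lit 214) (nat_lit 1) (nat_lit 339) (nat_lit 355) (nat_lit 326)) (XT.nd (nat_lit 78) (nat_lit 152) (nat_lit 0) (XT.lf (nat_lit 76) (nat_lit 618244376) (nat_lit 0) (nat_lit 339814968) (nat_lit 152) (nat_lit 3926191957) (nat_lit 211) (nat_lit 1) (nat_lit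 210) (nat_lit 1) (nat_lit 212) (nat_lit 1) (nat_lit 340) (nat_lit 355) (nat_lit 325)) (XT.lf (nat_lit 228) (nat_lit 2368118971) (nat_lit 0) (nat_lit 947914563) (nat_lit 152) (nat_lit 1433328310) (nat_lit 211) (nat_lit 1) (nat_lit 208) (nat_lit 1) (nat_lit 210) (nat_lit 1) (nat_lit 341) (nat_lit 355) (nat_lit 324))))) (XT.nd (nat_lit 234) (nat_lit 608) (nat_lit 0) (XT.nd (nat_lit 78) (nat_lit 304) (nat_lit 0) (XT.lf (nat_lit 152) (nat_lit 255012762) (nat_lit 0) (nat_lit 971196570) (nat_lit 76) (nat_lit 3393588316) (nat_lit 209) (nat_lit 1) (nat_lit 207) (nat_lit 1) (nat_lit 208) (nat_lit 1) (nat_lit 342) (nat_lit 355) (nat_lit 323)) (XT.nd (nat_lit 78) (nat_lit 76) (nat_lit 0) (XT.lf (nat_lit 228) (nat_lit 2752768623) (nat_lit 0) (nat_lit 993274924) (nat_lit 152) (nat_lit 747762390) (nat_lit 207) (nat_lit 1) (nat_lit 204) (nat_lit 1) (nat_lit 206) (nat_lit 1) (nat_lit 343) (nat_lit 355) (nat_lit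 322)) (XT.lf (nat_lit 152) (nat_lit 692341607) (nat_lit 0) (nat_lit 1030414474) (nat_lit 76) (nat_lit 2649304319) (nat_lit 205) (nat_lit 1) (nat_lit 203) (nat_lit 1) (nat_lit 204) (nat_lit 1) (nat_lit 344) (nat_lit 355) (nat_lit 321)))) (XT.nd (nat_lit 156) (nat_lit 304) (nat_lit 0) (XT.nd (nat_lit 78) (nat_lit 76) (nat_lit 0) (XT.lf (nat_lit 228) (nat_lit 2996976554) (nat_lit 0) (nat_lit 1080111669) (nat_lit 152) (nat_lit 177255571) (nat_lit 203) (nat_lit 1) (nat_lit 200) (nat_lit 1) (nat_lit 202) (nat_lit 1) (nat_lit 345) (nat_lit 355) (nat_lit 320)) (XT.lf (nat_lit 152) (nat_lit 996374557) (nat_lit 0) (nat_lit 1126029394) (nat_lit 76) (nat_lit 2017378904) (nat_lit 201) (nat_lit 1) (nat_lit 199) (nat_lit 1) (nat_lit 200) (nat_lit 1) (nat_lit 346) (nat_lit 355) (nat_lit 319))) (XT.nd (nat_lit 78) (nat_lit 76) (nat_lit 0) (XT.lf (nat_lit 76) (nat_lit 287593349) (nat_lit 0) (nat_lit 902678862)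 (nat_lit 228) (nat_lit 2839065314) (nat_lit 197) (nat_lit 1) (nat_lit 196) (nat_lit 1) (nat_lit 199) (nat_lit 1) (nat_lit 347) (nat_lit 355) (nat_lit 318)) (XT.lf (nat_lit 152) (nat_lit 1195739364) (nat_lit 0) (nat_lit 1245903740) (nat_lit 76) (nat_lit 1479991933) (nat_lit 197) (nat_lit 1) (nat_lit 195) (nat_lit 1) (nat_lit 196) (nat_lit 1) (nat_lit 348) (nat_lit 355) (nat_lit 317)))))) (XT.nd (nat_lit 468) (nat_lit 836) (nat_lit 0) (XT.nd (nat_lit 234) (nat_lit 304) (nat_lit 0) (XT.nd (nat_lit 78) (nat_lit 228) (nat_lit 0) (XT.lf (nat_lit 76) (nat_lit 668835044) (nat_lit 0) (nat_lit 647811967) (nat_lit 228) (nat_lit 2501070467) (nat_lit 193) (nat_lit 1) (nat_lit 192) (nat_lit 1) (nat_lit 195) (nat_lit 1) (nat_lit 349) (nat_lit 355) (nat_lit 316)) (XT.nd (nat_lit 78) (nat_lit 152) (nat_lit 0) (XT.lf (nat_lit 152) (nat_lit 1313522374) (nat_lit 0) (nat_lit 1380562756) (nat_lit 76) (nat_lit 1022369843)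 (nat_lit 193) (nat_lit 1) (nat_lit 191) (nat_lit 1) (nat_lit 192) (nat_lit 1) (nat_lit 350) (nat_lit 355) (nat_lit 315)) (XT.lf (nat_lit 76) (nat_lit 984679847) (nat_lit 0) (nat_lit 469182328) (nat_lit 152) (nat_lit 2164674528) (nat_lit 190) (nat_lit 1) (nat_lit 189) (nat_lit 1) (nat_lit 191) (nat_lit 1) (nat_lit 351) (nat_lit 355) (nat_lit 314)))) (XT.nd (nat_lit 78) (nat_lit 228) (nat_lit 0) (XT.lf (nat_lit 152) (nat_lit 1368303976) (nat_lit 0) (nat_lit 1522675540) (nat_lit 76) (nat_lit 632242203) (nat_lit 190) (nat_lit 1) (nat_lit 188) (nat_lit 1) (nat_lit 189) (nat_lit 1) (nat_lit 352) (nat_lit 355) (nat_lit 313)) (XT.nd (nat_lit 78) (nat_lit 76) (nat_lit 0) (XT.lf (nat_lit 76) (nat_lit 1245528453) (nat_lit 0) (nat_lit 350016134) (nat_lit 152) (nat_lit 1835293938) (nat_lit 187) (nat_lit 1) (nat_lit 186) (nat_lit 1) (nat_lit 188) (nat_lit 1) (nat_lit 353) (nat_lit 355) (nat_lit 312)) (XT.lf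 (nat_lit 152) (nat_lit 1375002901) (nat_lit 0) (nat_lit 1666633272) (nat_lit 76) (nat_lit 299396966) (nat_lit 187) (nat_lit 1) (nat_lit 185) (nat_lit 1) (nat_lit 186) (nat_lit 1) (nat_lit 354) (nat_lit 355) (nat_lit 311))))) (XT.nd (nat_lit 234) (nat_lit 456) (nat_lit 0) (XT.nd (nat_lit 78) (nat_lit 228) (nat_lit 0) (XT.lf (nat_lit 76) (nat_lit 1460025001) (nat_lit 0) (nat_lit 276825683) (nat_lit 152) (nat_lit 1516924207) (nat_lit 184) (nat_lit 1) (nat_lit 183) (nat_lit 1) (nat_lit 185) (nat_lit 1) (nat_lit 355) (nat_lit 355) (nat_lit 310)) (XT.nd (nat_lit 78) (nat_lit 152) (nat_lit 0) (XT.lf (nat_lit 152) (nat_lit 1345564513) (nat_lit 0) (nat_lit 1808206682) (nat_lit 76) (nat_lit 15316387) (nat_lit 184) (nat_lit 1) (nat_lit 182) (nat_lit 1) (nat_lit 183) (nat_lit 1) (nat_lit 356) (nat_lit 355) (nat_lit 309)) (XT.lf (nat_lit 76) (nat_lit 1635368000) (nat_lit 0) (nat_lit 238792353) (nat_lit 152)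 (nat_lit 1212429476) (nat_lit 181) (nat_lit 1) (nat_lit 180) (nat_lit 1) (nat_lit 182) (nat_lit 1) (nat_lit 357) (nat_lit 355) (nat_lit 308)))) (XT.nd (nat_lit 156) (nat_lit 228) (nat_lit 0) (XT.nd (nat_lit 78) (nat_lit 152) (nat_lit 0) (XT.lf (nat_lit 0) (nat_lit 219851853) (nat_lit 0) (nat_lit 1720692948) (nat_lit 152) (nat_lit 1065946634) (nat_lit 179) (nat_lit 3) (nat_lit 179) (nat_lit 1) (nat_lit 181) (nat_lit 1) (nat_lit 358) (nat_lit 355) (nat_lit 307)) (XT.lf (nat_lit 76) (nat_lit 1777564978) (nat_lit 0) (nat_lit 227263692) (nat_lit 152) (nat_lit 923777109) (nat_lit 178) (nat_lit 1) (nat_lit 177) (nat_lit 1) (nat_lit 179) (nat_lit 1) (nat_lit 359) (nat_lit 355) (nat_lit 306))) (XT.nd (nat_lit 78) (nat_lit 152) (nat_lit 0) (XT.lf (nat_lit 0) (nat_lit 419998376) (nat_lit 0) (nat_lit 1645454883) (nat_lit 152) (nat_lit 787341134) (nat_lit 176) (nat_lit 3) (nat_lit 176) (nat_lit 1) (nat_lit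 178) (nat_lit 1) (nat_lit 360) (nat_lit 355) (nat_lit 305)) (XT.lf (nat_lit 76) (nat_lit 1891641116) (nat_lit 0) (nat_lit 235343628) (nat_lit 152) (nat_lit 652227512) (nat_lit 175) (nat_lit 1) (nat_lit 174) (nat_lit 1) (nat_lit 176) (nat_lit 1) (nat_lit 361) (nat_lit 355) (nat_lit 304))))))) (XT.nd (nat_lit 1014) (nat_lit 1748) (nat_lit 0) (XT.nd (nat_lit 468) (nat_lit 760) (nat_lit 0) (XT.nd (nat_lit 234) (nat_lit 456) (nat_lit 0) (XT.nd (nat_lit 78) (nat_lit 228) (nat_lit 0) (XT.lf (nat_lit 0) (nat_lit 590470975) (nat_lit 0) (nat_lit 1591072343) (nat_lit 152) (nat_lit 525880096) (nat_lit 173) (nat_lit 3) (nat_lit 173) (nat_lit 1) (nat_lit 175) (nat_lit 1) (nat_lit 362) (nat_lit 355) (nat_lit 303)) (XT.nd (nat_lit 78) (nat_lit 76) (nat_lit 0) (XT.lf (nat_lit 76) (nat_lit 1981810288) (nat_lit 0) (nat_lit 257558653) (nat_lit 152) (nat_lit 398487509) (nat_lit 172) (nat_lit 1) (nat_lit 171) (nat_lit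 1) (nat_lit 173) (nat_lit 1) (nat_lit 363) (nat_lit 355) (nat_lit 302)) (XT.lf (nat_lit 0) (nat_lit 735365080) (nat_lit 0) (nat_lit 1552369267) (nat_lit 152) (nat_lit 282113554) (nat_lit 170) (nat_lit 3) (nat_lit 170) (nat_lit 1) (nat_lit 172) (nat_lit 1) (nat_lit 364) (nat_lit 355) (nat_lit 301)))) (XT.nd (nat_lit 78) (nat_lit 304) (nat_lit 0) (XT.lf (nat_lit 76) (nat_lit 2051615338) (nat_lit 0) (nat_lit 289586006) (nat_lit 152) (nat_lit 162834045) (nat_lit 169) (nat_lit 1) (nat_lit 168) (nat_lit 1) (nat_lit 170) (nat_lit 1) (nat_lit 365) (nat_lit 355) (nat_lit 300)) (XT.nd (nat_lit 78) (nat_lit 228) (nat_lit 0) (XT.lf (nat_lit 0) (nat_lit 858144446) (nat_lit 0) (nat_lit 1525239118) (nat_lit 152) (nat_lit 56200791) (nat_lit 167) (nat_lit 3) (nat_lit 167) (nat_lit 1) (nat_lit 169) (nat_lit 1) (nat_lit 366) (nat_lit 355) (nat_lit 299)) (XT.lf (nat_lit 152) (nat_lit 2048329162) (nat_lit 0) (nat_lit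 56597698) (nat_lit 76) (nat_lit 272318375) (nat_lit 166) (nat_lit 1) (nat_lit 164) (nat_lit 1) (nat_lit 165) (nat_lit 1) (nat_lit 367) (nat_lit 355) (nat_lit 298))))) (XT.nd (nat_lit 234) (nat_lit 456) (nat_lit 0) (XT.nd (nat_lit 78) (nat_lit 228) (nat_lit 0) (XT.lf (nat_lit 76) (nat_lit 807176226) (nat_lit 0) (nat_lit 157023665) (nat_lit 76) (nat_lit 1351867807) (nat_lit 164) (nat_lit 3) (nat_lit 163) (nat_lit 1) (nat_lit 164) (nat_lit 1) (nat_lit 368) (nat_lit 355) (nat_lit 297)) (XT.nd (nat_lit 78) (nat_lit 76) (nat_lit 0) (XT.lf (nat_lit 152) (nat_lit 1882629497) (nat_lit 0) (nat_lit 263097708) (nat_lit 76) (nat_lit 111264127) (nat_lit 163) (nat_lit 1) (nat_lit 161) (nat_lit 1) (nat_lit 162) (nat_lit 1) (nat_lit 369) (nat_lit 355) (nat_lit 296)) (XT.lf (nat_lit 76) (nat_lit 700025446) (nat_lit 0) (nat_lit 354183839) (nat_lit 76) (nat_lit 1144773291) (nat_lit 161) (nat_lit 3) (nat_lit 160)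 (nat_lit 1) (nat_lit 161) (nat_lit 1) (nat_lit 370) (nat_lit 355) (nat_lit 295)))) (XT.nd (nat_lit 156) (nat_lit 228) (nat_lit 0) (XT.nd (nat_lit 78) (nat_lit 76) (nat_lit 0) (XT.lf (nat_lit 0) (nat_lit 29546910) (nat_lit 0) (nat_lit 421740777) (nat_lit 152) (nat_lit 1691704529) (nat_lit 158) (nat_lit 3) (nat_lit 158) (nat_lit 1) (nat_lit 160) (nat_lit 1) (nat_lit 371) (nat_lit 355) (nat_lit 294)) (XT.lf (nat_lit 76) (nat_lit 595442847) (nat_lit 0) (nat_lit 533970721) (nat_lit 76) (nat_lit 958585316) (nat_lit 158) (nat_lit 3) (nat_lit 157) (nat_lit 1) (nat_lit 158) (nat_lit 1) (nat_lit 372) (nat_lit 355) (nat_lit 293))) (XT.nd (nat_lit 78) (nat_lit 76) (nat_lit 0) (XT.lf (nat_lit 0) (nat_lit 150269108) (nat_lit 0) (nat_lit 470500562) (nat_lit 152) (nat_lit 1414068838) (nat_lit 155) (nat_lit 3) (nat_lit 155) (nat_lit 1) (nat_lit 157) (nat_lit 1) (nat_lit 373) (nat_lit 355) (nat_lit 292)) (XT.lf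 (nat_lit 76) (nat_lit 494600688) (nat_lit 0) (nat_lit 697057093) (nat_lit 76) (nat_lit 791111294) (nat_lit 155) (nat_lit 3) (nat_lit 154) (nat_lit 1) (nat_lit 155) (nat_lit 1) (nat_lit 374) (nat_lit 355) (nat_lit 291)))))) (XT.nd (nat_lit 546) (nat_lit 912) (nat_lit 0) (XT.nd (nat_lit 234) (nat_lit 456) (nat_lit 0) (XT.nd (nat_lit 78) (nat_lit 228) (nat_lit 0) (XT.lf (nat_lit 0) (nat_lit 256303343) (nat_lit 0) (nat_lit 517776541) (nat_lit 152) (nat_lit 1158202057) (nat_lit 152) (nat_lit 3) (nat_lit 152) (nat_lit 1) (nat_lit 154) (nat_lit 1) (nat_lit 375) (nat_lit 355) (nat_lit 290)) (XT.nd (nat_lit 78) (nat_lit 152) (nat_lit 0) (XT.lf (nat_lit 76) (nat_lit 398332430) (nat_lit 0) (nat_lit 844200776) (nat_lit 76) (nat_lit 640437242) (nat_lit 152) (nat_lit 3) (nat_lit 151) (nat_lit 1) (nat_lit 152) (nat_lit 1) (nat_lit 376) (nat_lit 355) (nat_lit 289)) (XT.lf (nat_lit 0) (nat_lit 349251355) (nat_lit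 0) (nat_lit 562747662) (nat_lit 152) (nat_lit 923011852) (nat_lit 149) (nat_lit 3) (nat_lit 149) (nat_lit 1) (nat_lit 151) (nat_lit 1) (nat_lit 377) (nat_lit 355) (nat_lit 288)))) (XT.nd (nat_lit 156) (nat_lit 228) (nat_lit 0) (XT.nd (nat_lit 78) (nat_lit 152) (nat_lit 0) (XT.lf (nat_lit 76) (nat_lit 307203275) (nat_lit 0) (nat_lit 976214245) (nat_lit 76) (nat_lit 504885041) (nat_lit 149) (nat_lit 3) (nat_lit 148) (nat_lit 1) (nat_lit 149) (nat_lit 1) (nat_lit 378) (nat_lit 355) (nat_lit 287)) (XT.lf (nat_lit 0) (nat_lit 430513472) (nat_lit 0) (nat_lit 604836017) (nat_lit 152) (nat_lit 707385252) (nat_lit 146) (nat_lit 3) (nat_lit 146) (nat_lit 1) (nat_lit 148) (nat_lit 1) (nat_lit 379) (nat_lit 355) (nat_lit 286))) (XT.nd (nat_lit 78) (nat_lit 152) (nat_lit 0) (XT.lf (nat_lit 76) (nat_lit 221567236) (nat_lit 0) (nat_lit 1093940779) (nat_lit 76) (nat_lit 382977000) (nat_lit 146) (nat_lit 3) (nat_lit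 145) (nat_lit 1) (nat_lit 146) (nat_lit 1) (nat_lit 380) (nat_lit 355) (nat_lit 285)) (XT.lf (nat_lit 0) (nat_lit 501318953) (nat_lit 0) (nat_lit 643655606) (nat_lit 152) (nat_lit 510207508) (nat_lit 143) (nat_lit 3) (nat_lit 143) (nat_lit 1) (nat_lit 145) (nat_lit 1) (nat_lit 381) (nat_lit 355) (nat_lit 284))))) (XT.nd (nat_lit 234) (nat_lit 608) (nat_lit 0) (XT.nd (nat_lit 78) (nat_lit 228) (nat_lit 0) (XT.lf (nat_lit 76) (nat_lit 141613232) (nat_lit 0) (nat_lit 1198235898) (nat_lit 76) (nat_lit 273406429) (nat_lit 143) (nat_lit 3) (nat_lit 142) (nat_lit 1) (nat_lit 143) (nat_lit 1) (nat_lit 382) (nat_lit 355) (nat_lit 283)) (XT.nd (nat_lit 78) (nat_lit 76) (nat_lit 0) (XT.lf (nat_lit 0) (nat_lit 562751190) (nat_lit 0) (nat_lit 678970940) (nat_lit 152) (nat_lit 330376514) (nat_lit 140) (nat_lit 3) (nat_lit 140) (nat_lit 1) (nat_lit 142) (nat_lit 1) (nat_lit 383) (nat_lit 355) (nat_lit 282))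 (XT.lf (nat_lit 76) (nat_lit 67402247) (nat_lit 0) (nat_lit 1289953065) (nat_lit 76) (nat_lit 175013127) (nat_lit 140) (nat_lit 3) (nat_lit 139) (nat_lit 1) (nat_lit 140) (nat_lit 1) (nat_lit 384) (nat_lit 355) (nat_lit 281)))) (XT.nd (nat_lit 156) (nat_lit 304) (nat_lit 0) (XT.nd (nat_lit 78) (nat_lit 152) (nat_lit 0) (XT.lf (nat_lit 0) (nat_lit 615768702) (nat_lit 0) (nat_lit 710663658) (nat_lit 152) (nat_lit 166813685) (nat_lit 137) (nat_lit 3) (nat_lit 137) (nat_lit 1) (nat_lit 139) (nat_lit 1) (nat_lit 385) (nat_lit 355) (nat_lit 280)) (XT.lf (nat_lit 76) (nat_lit 1368847259) (nat_lit 0) (nat_lit 1067467) (nat_lit 152) (nat_lit 85677392) (nat_lit 136) (nat_lit 1) (nat_lit 135) (nat_lit 1) (nat_lit 137) (nat_lit 1) (nat_lit 386) (nat_lit 355) (nat_lit 279))) (XT.nd (nat_lit 78) (nat_lit 228) (nat_lit 0) (XT.lf (nat_lit 0) (nat_lit 661222656) (nat_lit 0) (nat_lit 738705637) (nat_lit 152) (nat_lit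 18471984) (nat_lit 134) (nat_lit 3) (nat_lit 134) (nat_lit 1) (nat_lit 136) (nat_lit 1) (nat_lit 387) (nat_lit 355) (nat_lit 278)) (XT.lf (nat_lit 152) (nat_lit 1319762055) (nat_lit 0) (nat_lit 57110720) (nat_lit 76) (nat_lit 5744997) (nat_lit 133) (nat_lit 1) (nat_lit 131) (nat_lit 1) (nat_lit 132) (nat_lit 1) (nat_lit 388) (nat_lit 355) (nat_lit 277))))))))
noncomputable def ec53 : XT := (XT.nd (nat_lit 2106) (nat_lit 456) (nat_lit 0) (XT.nd (nat_lit 1014) (nat_lit 1748) (nat_lit 0) (XT.nd (nat_lit 468) (nat_lit 760) (nat_lit 0) (XT.nd (nat_lit 234) (nat_lit 380) (nat_lit 0) (XT.nd (nat_lit 78) (nat_lit 228) (nat_lit 0) (XT.lf (nat_lit 76) (nat_lit 582254486) (nat_lit 0) (nat_lit 119482506) (nat_lit 76) (nat_lit 645520359) (nat_lit 131) (nat_lit 3) (nat_lit 130) (nat_lit 1) (nat_lit 131) (nat_lit 1) (nat_lit 389) (nat_lit 355) (nat_lit 276)) (XT.nd (nat_lit 78) (nat_lit 76) (nat_lit 0) (XT.lf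 (nat_lit 0) (nat_lit 65820753) (nat_lit 0) (nat_lit 121610765) (nat_lit 152) (nat_lit 1125795730) (nat_lit 128) (nat_lit 3) (nat_lit 128) (nat_lit 1) (nat_lit 130) (nat_lit 1) (nat_lit 390) (nat_lit 355) (nat_lit 275)) (XT.lf (nat_lit 76) (nat_lit 491841731) (nat_lit 0) (nat_lit 244366970) (nat_lit 76) (nat_lit 543499149) (nat_lit 128) (nat_lit 3) (nat_lit 127) (nat_lit 1) (nat_lit 128) (nat_lit 1) (nat_lit 391) (nat_lit 355) (nat_lit 274)))) (XT.nd (nat_lit 78) (nat_lit 228) (nat_lit 0) (XT.lf (nat_lit 0) (nat_lit 129515677) (nat_lit 0) (nat_lit 175068956) (nat_lit 152) (nat_lit 942766521) (nat_lit 125) (nat_lit 3) (nat_lit 125) (nat_lit 1) (nat_lit 127) (nat_lit 1) (nat_lit 392) (nat_lit 355) (nat_lit 273)) (XT.nd (nat_lit 78) (nat_lit 152) (nat_lit 0) (XT.lf (nat_lit 76) (nat_lit 408436964) (nat_lit 0) (nat_lit 356525906) (nat_lit 76) (nat_lit 450615926) (nat_lit 125) (nat_lit 3) (nat_lit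 124) (nat_lit 1) (nat_lit 125) (nat_lit 1) (nat_lit 393) (nat_lit 355) (nat_lit 272)) (XT.lf (nat_lit 0) (nat_lit 186196479) (nat_lit 0) (nat_lit 223391331) (nat_lit 152) (nat_lit 775223260) (nat_lit 122) (nat_lit 3) (nat_lit 122) (nat_lit 1) (nat_lit 124) (nat_lit 1) (nat_lit 394) (nat_lit 355) (nat_lit 271))))) (XT.nd (nat_lit 234) (nat_lit 456) (nat_lit 0) (XT.nd (nat_lit 78) (nat_lit 228) (nat_lit 0) (XT.lf (nat_lit 76) (nat_lit 331692647) (nat_lit 0) (nat_lit 456867895) (nat_lit 76) (nat_lit 366132324) (nat_lit 122) (nat_lit 3) (nat_lit 121) (nat_lit 1) (nat_lit 122) (nat_lit 1) (nat_lit 395) (nat_lit 355) (nat_lit 270)) (XT.nd (nat_lit 78) (nat_lit 76) (nat_lit 0) (XT.lf (nat_lit 0) (nat_lit 236473950) (nat_lit 0) (nat_lit 266844036) (nat_lit 152) (nat_lit 622116310) (nat_lit 119) (nat_lit 3) (nat_lit 119) (nat_lit 1) (nat_lit 121) (nat_lit 1) (nat_lit 396) (nat_lit 355) (nat_lit 269))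 (XT.lf (nat_lit 76) (nat_lit 261253919) (nat_lit 0) (nat_lit 546254295) (nat_lit 76) (nat_lit 289374369) (nat_lit 119) (nat_lit 3) (nat_lit 118) (nat_lit 1) (nat_lit 119) (nat_lit 1) (nat_lit 397) (nat_lit 355) (nat_lit 268)))) (XT.nd (nat_lit 156) (nat_lit 228) (nat_lit 0) (XT.nd (nat_lit 78) (nat_lit 76) (nat_lit 0) (XT.lf (nat_lit 0) (nat_lit 280903867) (nat_lit 0) (nat_lit 305701442) (nat_lit 152) (nat_lit 482452350) (nat_lit 116) (nat_lit 3) (nat_lit 116) (nat_lit 1) (nat_lit 118) (nat_lit 1) (nat_lit 398) (nat_lit 355) (nat_lit 267)) (XT.lf (nat_lit 76) (nat_lit 196764772) (nat_lit 0) (nat_lit 625499382) (nat_lit 76) (nat_lit 219725489) (nat_lit 116) (nat_lit 3) (nat_lit 115) (nat_lit 1) (nat_lit 116) (nat_lit 1) (nat_lit 399) (nat_lit 355) (nat_lit 266))) (XT.nd (nat_lit 78) (nat_lit 76) (nat_lit 0) (XT.lf (nat_lit 0) (nat_lit 319993002) (nat_lit 0) (nat_lit 340240548) (nat_lit 152) (nat_lit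 355293325) (nat_lit 113) (nat_lit 3) (nat_lit 113) (nat_lit 1) (nat_lit 115) (nat_lit 1) (nat_lit 400) (nat_lit 355) (nat_lit 265)) (XT.lf (nat_lit 76) (nat_lit 137872781) (nat_lit 0) (nat_lit 695371043) (nat_lit 76) (nat_lit 156620509) (nat_lit 113) (nat_lit 3) (nat_lit 112) (nat_lit 1) (nat_lit 113) (nat_lit 1) (nat_lit 401) (nat_lit 355) (nat_lit 264)))))) (XT.nd (nat_lit 546) (nat_lit 836) (nat_lit 0) (XT.nd (nat_lit 234) (nat_lit 532) (nat_lit 0) (XT.nd (nat_lit 78) (nat_lit 228) (nat_lit 0) (XT.lf (nat_lit 0) (nat_lit 354204309) (nat_lit 0) (nat_lit 370736698) (nat_lit 152) (nat_lit 239754992) (nat_lit 110) (nat_lit 3) (nat_lit 110) (nat_lit 1) (nat_lit 112) (nat_lit 1) (nat_lit 402) (nat_lit 355) (nat_lit 263)) (XT.nd (nat_lit 78) (nat_lit 152) (nat_lit 0) (XT.lf (nat_lit 76) (nat_lit 84232684) (nat_lit 0) (nat_lit 756591852) (nat_lit 76) (nat_lit 99540451) (nat_lit 110) (nat_lit 3) (nat_lit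 109) (nat_lit 1) (nat_lit 110) (nat_lit 1) (nat_lit 403) (nat_lit 355) (nat_lit 262)) (XT.lf (nat_lit 0) (nat_lit 383961407) (nat_lit 0) (nat_lit 397460319) (nat_lit 152) (nat_lit 135005170) (nat_lit 107) (nat_lit 3) (nat_lit 107) (nat_lit 1) (nat_lit 109) (nat_lit 1) (nat_lit 404) (nat_lit 355) (nat_lit 261)))) (XT.nd (nat_lit 156) (nat_lit 304) (nat_lit 0) (XT.nd (nat_lit 78) (nat_lit 152) (nat_lit 0) (XT.lf (nat_lit 76) (nat_lit 35509024) (nat_lit 0) (nat_lit 809840451) (nat_lit 76) (nat_lit 48008017) (nat_lit 107) (nat_lit 3) (nat_lit 106) (nat_lit 1) (nat_lit 107) (nat_lit 1) (nat_lit 405) (nat_lit 355) (nat_lit 260)) (XT.lf (nat_lit 0) (nat_lit 409652469) (nat_lit 0) (nat_lit 420674508) (nat_lit 152) (nat_lit 40261795) (nat_lit 104) (nat_lit 3) (nat_lit 104) (nat_lit 1) (nat_lit 106) (nat_lit 1) (nat_lit 406) (nat_lit 355) (nat_lit 259))) (XT.nd (nat_lit 78) (nat_lit 76) (nat_lit 0) (XT.lf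 (nat_lit 152) (nat_lit 840245201) (nat_lit 0) (nat_lit 7131950) (nat_lit 76) (nat_lit 1325387) (nat_lit 103) (nat_lit 1) (nat_lit 101) (nat_lit 1) (nat_lit 102) (nat_lit 1) (nat_lit 407) (nat_lit 355) (nat_lit 258)) (XT.lf (nat_lit 76) (nat_lit 385658831) (nat_lit 0) (nat_lit 46703981) (nat_lit 76) (nat_lit 394658472) (nat_lit 101) (nat_lit 3) (nat_lit 100) (nat_lit 1) (nat_lit 101) (nat_lit 1) (nat_lit 408) (nat_lit 355) (nat_lit 257))))) (XT.nd (nat_lit 234) (nat_lit 456) (nat_lit 0) (XT.nd (nat_lit 78) (nat_lit 228) (nat_lit 0) (XT.lf (nat_lit 0) (nat_lit 41062645) (nat_lit 0) (nat_lit 48998836) (nat_lit 152) (nat_lit 716113410) (nat_lit 98) (nat_lit 3) (nat_lit 98) (nat_lit 1) (nat_lit 100) (nat_lit 1) (nat_lit 409) (nat_lit 355) (nat_lit 256)) (XT.nd (nat_lit 78) (nat_lit 152) (nat_lit 0) (XT.lf (nat_lit 76) (nat_lit 326068365) (nat_lit 0) (nat_lit 126132904) (nat_lit 76) (nat_lit 333416690)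 (nat_lit 98) (nat_lit 3) (nat_lit 97) (nat_lit 1) (nat_lit 98) (nat_lit 1) (nat_lit 410) (nat_lit 355) (nat_lit 255)) (XT.lf (nat_lit 0) (nat_lit 79019561) (nat_lit 0) (nat_lit 85499565) (nat_lit 152) (nat_lit 601270871) (nat_lit 95) (nat_lit 3) (nat_lit 95) (nat_lit 1) (nat_lit 97) (nat_lit 1) (nat_lit 411) (nat_lit 355) (nat_lit 254)))) (XT.nd (nat_lit 156) (nat_lit 228) (nat_lit 0) (XT.nd (nat_lit 78) (nat_lit 152) (nat_lit 0) (XT.lf (nat_lit 76) (nat_lit 271469981) (nat_lit 0) (nat_lit 197359532) (nat_lit 76) (nat_lit 277469985) (nat_lit 95) (nat_lit 3) (nat_lit 94) (nat_lit 1) (nat_lit 95) (nat_lit 1) (nat_lit 412) (nat_lit 355) (nat_lit 253)) (XT.lf (nat_lit 0) (nat_lit 112936952) (nat_lit 0) (nat_lit 118227960) (nat_lit 152) (nat_lit 496274883) (nat_lit 92) (nat_lit 3) (nat_lit 92) (nat_lit 1) (nat_lit 94) (nat_lit 1) (nat_lit 413) (nat_lit 355) (nat_lit 252))) (XT.nd (nat_lit 78) (nat_lit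 152) (nat_lit 0) (XT.lf (nat_lit 76) (nat_lit 221527028) (nat_lit 0) (nat_lit 261006812) (nat_lit 76) (nat_lit 226426110) (nat_lit 92) (nat_lit 3) (nat_lit 91) (nat_lit 1) (nat_lit 92) (nat_lit 1) (nat_lit 414) (nat_lit 355) (nat_lit 251)) (XT.lf (nat_lit 0) (nat_lit 143137805) (nat_lit 0) (nat_lit 147457983) (nat_lit 152) (nat_lit 400425076) (nat_lit 89) (nat_lit 3) (nat_lit 89) (nat_lit 1) (nat_lit 91) (nat_lit 1) (nat_lit 415) (nat_lit 355) (nat_lit 250))))))) (XT.nd (nat_lit 45396) (nat_lit 0) (nat_lit 11172) (XT.nd (nat_lit 44850) (nat_lit 0) (nat_lit 14972) (XT.nd (nat_lit 234) (nat_lit 152) (nat_lit 0) (XT.nd (nat_lit 78) (nat_lit 228) (nat_lit 0) (XT.lf (nat_lit 76) (nat_lit 175920800) (nat_lit 0) (nat_lit 317657094) (nat_lit 76) (nat_lit 179920965) (nat_lit 89) (nat_lit 3) (nat_lit 88) (nat_lit 1) (nat_lit 89) (nat_lit 1) (nat_lit 416) (nat_lit 355) (nat_lit 249)) (XT.nd (nat_lit 78)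 (nat_lit 76) (nat_lit 0) (XT.lf (nat_lit 0) (nat_lit 169921040) (nat_lit 0) (nat_lit 173448523) (nat_lit 152) (nat_lit 313065580) (nat_lit 86) (nat_lit 3) (nat_lit 86) (nat_lit 1) (nat_lit 88) (nat_lit 1) (nat_lit 417) (nat_lit 355) (nat_lit 248)) (XT.lf (nat_lit 76) (nat_lit 134350225) (nat_lit 0) (nat_lit 367854330) (nat_lit 76) (nat_lit 137616412) (nat_lit 86) (nat_lit 3) (nat_lit 85) (nat_lit 1) (nat_lit 86) (nat_lit 1) (nat_lit 418) (nat_lit 355) (nat_lit 247)))) (XT.nd (nat_lit 44460) (nat_lit 0) (nat_lit 15884) (XT.lf (nat_lit 0) (nat_lit 193563411) (nat_lit 0) (nat_lit 196443647) (nat_lit 152) (nat_lit 233582577) (nat_lit 83) (nat_lit 3) (nat_lit 83) (nat_lit 1) (nat_lit 85) (nat_lit 1) (nat_lit 419) (nat_lit 355) (nat_lit 246)) (XT.nd (nat_lit 78) (nat_lit 0) (nat_lit 76) (XT.lf (nat_lit 836) (nat_lit 1840898173) (nat_lit 0) (nat_lit 3268510475) (nat_lit 836) (nat_lit 1840898173) (nat_lit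 303) (nat_lit 1) (nat_lit 292) (nat_lit 0) (nat_lit 303) (nat_lit 0) (nat_lit 308) (nat_lit 356) (nat_lit 356)) (XT.lf (nat_lit 836) (nat_lit 686711504) (nat_lit 0) (nat_lit 6417076670) (nat_lit 760) (nat_lit 6275879544) (nat_lit 304) (nat_lit 1) (nat_lit 293) (nat_lit 1) (nat_lit 303) (nat_lit 1) (nat_lit 309) (nat_lit 356) (nat_lit 355))))) (XT.nd (nat_lit 234) (nat_lit 988) (nat_lit 0) (XT.nd (nat_lit 78) (nat_lit 0) (nat_lit 76) (XT.lf (nat_lit 836) (nat_lit 6307048797) (nat_lit 76) (nat_lit 4297518409) (nat_lit 0) (nat_lit 2279207728) (nat_lit 304) (nat_lit 1) (nat_lit 294) (nat_lit 1) (nat_lit 293) (nat_lit 1) (nat_lit 310) (nat_lit 356) (nat_lit 354)) (XT.nd (nat_lit 78) (nat_lit 0) (nat_lit 76) (XT.lf (nat_lit 836) (nat_lit 5449806842) (nat_lit 76) (nat_lit 1801060177) (nat_lit 0) (nat_lit 5161830863) (nat_lit 305) (nat_lit 1) (nat_lit 295) (nat_lit 1) (nat_lit 294) (nat_lit 1) (nat_lit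 311) (nat_lit 356) (nat_lit 353)) (XT.lf (nat_lit 836) (nat_lit 4033320389) (nat_lit 0) (nat_lit 7546151802) (nat_lit 760) (nat_lit 385758202) (nat_lit 306) (nat_lit 1) (nat_lit 295) (nat_lit 1) (nat_lit 305) (nat_lit 1) (nat_lit 312) (nat_lit 356) (nat_lit 352)))) (XT.nd (nat_lit 156) (nat_lit 1216) (nat_lit 0) (XT.nd (nat_lit 78) (nat_lit 0) (nat_lit 0) (XT.lf (nat_lit 836) (nat_lit 967755681) (nat_lit 0) (nat_lit 8321728764) (nat_lit 760) (nat_lit 2249648163) (nat_lit 307) (nat_lit 1) (nat_lit 296) (nat_lit 1) (nat_lit 306) (nat_lit 1) (nat_lit 313) (nat_lit 356) (nat_lit 351)) (XT.lf (nat_lit 836) (nat_lit 1859632801) (nat_lit 76) (nat_lit 7232259963) (nat_lit 0) (nat_lit 2041032990) (nat_lit 307) (nat_lit 1) (nat_lit 297) (nat_lit 1) (nat_lit 296) (nat_lit 1) (nat_lit 314) (nat_lit 356) (nat_lit 350))) (XT.nd (nat_lit 78) (nat_lit 532) (nat_lit 0) (XT.lf (nat_lit 836) (nat_lit 381926172)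 (nat_lit 0) (nat_lit 5406592718) (nat_lit 760) (nat_lit 4957788873) (nat_lit 298) (nat_lit 1) (nat_lit 287) (nat_lit 1) (nat_lit 297) (nat_lit 1) (nat_lit 315) (nat_lit 356) (nat_lit 349)) (XT.lf (nat_lit 76) (nat_lit 2644536373) (nat_lit 0) (nat_lit 1146000677) (nat_lit 532) (nat_lit 6587458709) (nat_lit 281) (nat_lit 1) (nat_lit 280) (nat_lit 1) (nat_lit 287) (nat_lit 1) (nat_lit 316) (nat_lit 356) (nat_lit 348)))))) (XT.nd (nat_lit 546) (nat_lit 1748) (nat_lit 0) (XT.nd (nat_lit 234) (nat_lit 988) (nat_lit 0) (XT.nd (nat_lit 78) (nat_lit 684) (nat_lit 0) (XT.lf (nat_lit 456) (nat_lit 7288009385) (nat_lit 0) (nat_lit 2372404171) (nat_lit 380) (nat_lit 366788343) (nat_lit 281) (nat_lit 1) (nat_lit 275) (nat_lit 1) (nat_lit 280) (nat_lit 1) (nat_lit 317) (nat_lit 356) (nat_lit 347)) (XT.nd (nat_lit 78) (nat_lit 304) (nat_lit 0) (XT.lf (nat_lit 456) (nat_lit 5259096974) (nat_lit 0) (nat_lit 1105787803)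 (nat_lit 380) (nat_lit 3326606772) (nat_lit 276) (nat_lit 1) (nat_lit 270) (nat_lit 1) (nat_lit 275) (nat_lit 1) (nat_lit 318) (nat_lit 356) (nat_lit 346)) (XT.lf (nat_lit 380) (nat_lit 3200093434) (nat_lit 0) (nat_lit 20359350) (nat_lit 304) (nat_lit 6151606280) (nat_lit 271) (nat_lit 1) (nat_lit 266) (nat_lit 1) (nat_lit 270) (nat_lit 1) (nat_lit 319) (nat_lit 356) (nat_lit 345)))) (XT.nd (nat_lit 156) (nat_lit 608) (nat_lit 0) (XT.nd (nat_lit 78) (nat_lit 380) (nat_lit 0) (XT.lf (nat_lit 76) (nat_lit 236087770) (nat_lit 0) (nat_lit 7962023587) (nat_lit 380) (nat_lit 869209686) (nat_lit 267) (nat_lit 1) (nat_lit 266) (nat_lit 1) (nat_lit 271) (nat_lit 1) (nat_lit 320) (nat_lit 356) (nat_lit 344)) (XT.lf (nat_lit 76) (nat_lit 6095847455) (nat_lit 0) (nat_lit 1011061525) (nat_lit 380) (nat_lit 1667424078) (nat_lit 262) (nat_lit 1) (nat_lit 261) (nat_lit 1) (nat_lit 266) (nat_lit 1) (nat_lit 321)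 (nat_lit 356) (nat_lit 343))) (XT.nd (nat_lit 78) (nat_lit 304) (nat_lit 0) (XT.lf (nat_lit 76) (nat_lit 3049906954) (nat_lit 0) (nat_lit 3097060933) (nat_lit 380) (nat_lit 2347322890) (nat_lit 258) (nat_lit 1) (nat_lit 257) (nat_lit 1) (nat_lit 262) (nat_lit 1) (nat_lit 322) (nat_lit 356) (nat_lit 342)) (XT.lf (nat_lit 76) (nat_lit 150536644) (nat_lit 0) (nat_lit 5178237789) (nat_lit 380) (nat_lit 2898733140) (nat_lit 254) (nat_lit 1) (nat_lit 253) (nat_lit 1) (nat_lit 258) (nat_lit 1) (nat_lit 323) (nat_lit 356) (nat_lit 341))))) (XT.nd (nat_lit 234) (nat_lit 912) (nat_lit 0) (XT.nd (nat_lit 78) (nat_lit 608) (nat_lit 0) (XT.lf (nat_lit 304) (nat_lit 679815001) (nat_lit 0) (nat_lit 4597263446) (nat_lit 228) (nat_lit 2694102036) (nat_lit 254) (nat_lit 1) (nat_lit 250) (nat_lit 1) (nat_lit 253) (nat_lit 1) (nat_lit 324) (nat_lit 356) (nat_lit 340)) (XT.nd (nat_lit 78) (nat_lit 228) (nat_lit 0)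 (XT.lf (nat_lit 76) (nat_lit 2348943603) (nat_lit 0) (nat_lit 1609980541) (nat_lit 380) (nat_lit 3766518584) (nat_lit 246) (nat_lit 1) (nat_lit 245) (nat_lit 1) (nat_lit 250) (nat_lit 1) (nat_lit 325) (nat_lit 356) (nat_lit 339)) (XT.lf (nat_lit 304) (nat_lit 3636729693) (nat_lit 0) (nat_lit 3416237510) (nat_lit 228) (nat_lit 437274346) (nat_lit 246) (nat_lit 1) (nat_lit 242) (nat_lit 1) (nat_lit 245) (nat_lit 1) (nat_lit 326) (nat_lit 356) (nat_lit 338)))) (XT.nd (nat_lit 156) (nat_lit 380) (nat_lit 0) (XT.nd (nat_lit 78) (nat_lit 304) (nat_lit 0) (XT.lf (nat_lit 304) (nat_lit 1165554297) (nat_lit 0) (nat_lit 2941240602) (nat_lit 228) (nat_lit 3157284317) (nat_lit 243) (nat_lit 1) (nat_lit 239) (nat_lit 1) (nat_lit 242) (nat_lit 1) (nat_lit 327) (nat_lit 356) (nat_lit 337)) (XT.lf (nat_lit 76) (nat_lit 1328450263) (nat_lit 0) (nat_lit 1216311661) (nat_lit 304) (nat_lit 4502547907) (nat_lit 236)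 (nat_lit 1) (nat_lit 235) (nat_lit 1) (nat_lit 239) (nat_lit 1) (nat_lit 328) (nat_lit 356) (nat_lit 336))) (XT.nd (nat_lit 78) (nat_lit 152) (nat_lit 0) (XT.lf (nat_lit 304) (nat_lit 3305674122) (nat_lit 0) (nat_lit 2199473062) (nat_lit 228) (nat_lit 1333327801) (nat_lit 236) (nat_lit 1) (nat_lit 232) (nat_lit 1) (nat_lit 235) (nat_lit 1) (nat_lit 329) (nat_lit 356) (nat_lit 335)) (XT.lf (nat_lit 228) (nat_lit 819481495) (nat_lit 0) (nat_lit 1918879816) (nat_lit 152) (nat_lit 3899703807) (nat_lit 233) (nat_lit 1) (nat_lit 230) (nat_lit 1) (nat_lit 232) (nat_lit 1) (nat_lit 330) (nat_lit 356) (nat_lit 334))))))))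
noncomputable def ec54 : XT := (XT.nd (nat_lit 2028) (nat_lit 3192) (nat_lit 0) (XT.nd (nat_lit 1014) (nat_lit 1596) (nat_lit 0) (XT.nd (nat_lit 468) (nat_lit 1064) (nat_lit 0) (XT.nd (nat_lit 234) (nat_lit 532) (nat_lit 0) (XT.nd (nat_lit 78) (nat_lit 380) (nat_lit 0) (XT.lf (nat_lit 76) (nat_lit 138825400) (nat_lit 0) (nat_lit 1553486373) (nat_lit 304) (nat_lit 4753111894) (nat_lit 227) (nat_lit 1) (nat_lit 226) (nat_lit 1) (nat_lit 230) (nat_lit 1) (nat_lit 331) (nat_lit 356) (nat_lit 333)) (XT.nd (nat_lit 78) (nat_lit 228) (nat_lit 0) (XT.lf (nat_lit 228) (nat_lit 2381262862) (nat_lit 0) (nat_lit 1488085001) (nat_lit 152) (nat_lit 2389549681) (nat_lit 227) (nat_lit 1) (nat_lit 224) (nat_lit 1) (nat_lit 226) (nat_lit 1) (nat_lit 332) (nat_lit 356) (nat_lit 332)) (XT.lf (nat_lit 76) (nat_lit 1291973715) (nat_lit 0) (nat_lit 59677075) (nat_lit 228) (nat_lit 4728859988) (nat_lit 222) (nat_lit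 1) (nat_lit 221) (nat_lit 1) (nat_lit 224) (nat_lit 1) (nat_lit 333) (nat_lit 356) (nat_lit 331)))) (XT.nd (nat_lit 78) (nat_lit 380) (nat_lit 0) (XT.lf (nat_lit 228) (nat_lit 3532006653) (nat_lit 0) (nat_lit 1223919499) (nat_lit 152) (nat_lit 1151387005) (nat_lit 222) (nat_lit 1) (nat_lit 219) (nat_lit 1) (nat_lit 221) (nat_lit 1) (nat_lit 334) (nat_lit 356) (nat_lit 330)) (XT.nd (nat_lit 78) (nat_lit 228) (nat_lit 0) (XT.lf (nat_lit 228) (nat_lit 1097182803) (nat_lit 0) (nat_lit 1137768517) (nat_lit 152) (nat_lit 3505786317) (nat_lit 220) (nat_lit 1) (nat_lit 217) (nat_lit 1) (nat_lit 219) (nat_lit 1) (nat_lit 335) (nat_lit 356) (nat_lit 329)) (XT.lf (nat_lit 228) (nat_lit 4355412505) (nat_lit 0) (nat_lit 1087045471) (nat_lit 152) (nat_lit 137904329) (nat_lit 217) (nat_lit 1) (nat_lit 214) (nat_lit 1) (nat_lit 216) (nat_lit 1) (nat_lit 336) (nat_lit 356) (nat_lit 328))))) (XT.nd (nat_lit 234)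 (nat_lit 608) (nat_lit 0) (XT.nd (nat_lit 78) (nat_lit 304) (nat_lit 0) (XT.lf (nat_lit 228) (nat_lit 1949280781) (nat_lit 0) (nat_lit 1037761931) (nat_lit 152) (nat_lit 2437400585) (nat_lit 215) (nat_lit 1) (nat_lit 212) (nat_lit 1) (nat_lit 214) (nat_lit 1) (nat_lit 337) (nat_lit 356) (nat_lit 327)) (XT.nd (nat_lit 78) (nat_lit 152) (nat_lit 0) (XT.lf (nat_lit 76) (nat_lit 667703927) (nat_lit 0) (nat_lit 367000165) (nat_lit 152) (nat_lit 4240287314) (nat_lit 211) (nat_lit 1) (nat_lit 210) (nat_lit 1) (nat_lit 212) (nat_lit 1) (nat_lit 338) (nat_lit 356) (nat_lit 326)) (XT.lf (nat_lit 228) (nat_lit 2557568489) (nat_lit 0) (nat_lit 1023747728) (nat_lit 152) (nat_lit 1547994574) (nat_lit 211) (nat_lit 1) (nat_lit 208) (nat_lit 1) (nat_lit 210) (nat_lit 1) (nat_lit 339) (nat_lit 356) (nat_lit 325)))) (XT.nd (nat_lit 156) (nat_lit 304) (nat_lit 0) (XT.nd (nat_lit 78) (nat_lit 228) (nat_lit 0) (XT.lf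 (nat_lit 152) (nat_lit 275413783) (nat_lit 0) (nat_lit 1048892295) (nat_lit 76) (nat_lit 3665075381) (nat_lit 209) (nat_lit 1) (nat_lit 207) (nat_lit 1) (nat_lit 208) (nat_lit 1) (nat_lit 340) (nat_lit 356) (nat_lit 324)) (XT.lf (nat_lit 228) (nat_lit 2972990113) (nat_lit 0) (nat_lit 1072736917) (nat_lit 152) (nat_lit 807583382) (nat_lit 207) (nat_lit 1) (nat_lit 204) (nat_lit 1) (nat_lit 206) (nat_lit 1) (nat_lit 341) (nat_lit 356) (nat_lit 323))) (XT.nd (nat_lit 78) (nat_lit 228) (nat_lit 0) (XT.lf (nat_lit 152) (nat_lit 747728936) (nat_lit 0) (nat_lit 1112847632) (nat_lit 76) (nat_lit 2861248665) (nat_lit 205) (nat_lit 1) (nat_lit 203) (nat_lit 1) (nat_lit 204) (nat_lit 1) (nat_lit 342) (nat_lit 356) (nat_lit 322)) (XT.lf (nat_lit 228) (nat_lit 3236734678) (nat_lit 0) (nat_lit 1166520602) (nat_lit 152) (nat_lit 191436016) (nat_lit 203) (nat_lit 1) (nat_lit 200) (nat_lit 1) (nat_lit 202) (nat_lit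 1) (nat_lit 343) (nat_lit 356) (nat_lit 321)))))) (XT.nd (nat_lit 468) (nat_lit 760) (nat_lit 0) (XT.nd (nat_lit 234) (nat_lit 456) (nat_lit 0) (XT.nd (nat_lit 78) (nat_lit 304) (nat_lit 0) (XT.lf (nat_lit 152) (nat_lit 1076084521) (nat_lit 0) (nat_lit 1216111745) (nat_lit 76) (nat_lit 2178769216) (nat_lit 201) (nat_lit 1) (nat_lit 199) (nat_lit 1) (nat_lit 200) (nat_lit 1) (nat_lit 344) (nat_lit 356) (nat_lit 320)) (XT.nd (nat_lit 78) (nat_lit 76) (nat_lit 0) (XT.lf (nat_lit 76) (nat_lit 310600817) (nat_lit 0) (nat_lit 974893171) (nat_lit 228) (nat_lit 3066190539) (nat_lit 197) (nat_lit 1) (nat_lit 196) (nat_lit 1) (nat_lit 199) (nat_lit 1) (nat_lit 345) (nat_lit 356) (nat_lit 319)) (XT.lf (nat_lit 152) (nat_lit 1291398513) (nat_lit 0) (nat_lit 1345576040) (nat_lit 76) (nat_lit 1598391287) (nat_lit 197) (nat_lit 1) (nat_lit 195) (nat_lit 1) (nat_lit 196) (nat_lit 1) (nat_lit 346) (nat_lit 356)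 (nat_lit 318)))) (XT.nd (nat_lit 78) (nat_lit 228) (nat_lit 0) (XT.lf (nat_lit 76) (nat_lit 722341848) (nat_lit 0) (nat_lit 699636924) (nat_lit 228) (nat_lit 2701156104) (nat_lit 193) (nat_lit 1) (nat_lit 192) (nat_lit 1) (nat_lit 195) (nat_lit 1) (nat_lit 347) (nat_lit 356) (nat_lit 317)) (XT.nd (nat_lit 78) (nat_lit 152) (nat_lit 0) (XT.lf (nat_lit 152) (nat_lit 1418604164) (nat_lit 0) (nat_lit 1491007777) (nat_lit 76) (nat_lit 1104159431) (nat_lit 193) (nat_lit 1) (nat_lit 191) (nat_lit 1) (nat_lit 192) (nat_lit 1) (nat_lit 348) (nat_lit 356) (nat_lit 316)) (XT.lf (nat_lit 76) (nat_lit 1063454235) (nat_lit 0) (nat_lit 506716914) (nat_lit 152) (nat_lit 2337848490) (nat_lit 190) (nat_lit 1) (nat_lit 189) (nat_lit 1) (nat_lit 191) (nat_lit 1) (nat_lit 349) (nat_lit 356) (nat_lit 315))))) (XT.nd (nat_lit 234) (nat_lit 456) (nat_lit 0) (XT.nd (nat_lit 78) (nat_lit 228) (nat_lit 0) (XT.lf (nat_lit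 152) (nat_lit 1477768295) (nat_lit 0) (nat_lit 1644489583) (nat_lit 76) (nat_lit 682821580) (nat_lit 190) (nat_lit 1) (nat_lit 188) (nat_lit 1) (nat_lit 189) (nat_lit 1) (nat_lit 350) (nat_lit 356) (nat_lit 314)) (XT.nd (nat_lit 78) (nat_lit 76) (nat_lit 0) (XT.lf (nat_lit 76) (nat_lit 1345170729) (nat_lit 0) (nat_lit 378017425) (nat_lit 152) (nat_lit 1982117453) (nat_lit 187) (nat_lit 1) (nat_lit 186) (nat_lit 1) (nat_lit 188) (nat_lit 1) (nat_lit 351) (nat_lit 356) (nat_lit 313)) (XT.lf (nat_lit 152) (nat_lit 1485003133) (nat_lit 0) (nat_lit 1799963934) (nat_lit 76) (nat_lit 323348724) (nat_lit 187) (nat_lit 1) (nat_lit 185) (nat_lit 1) (nat_lit 186) (nat_lit 1) (nat_lit 352) (nat_lit 356) (nat_lit 312)))) (XT.nd (nat_lit 156) (nat_lit 228) (nat_lit 0) (XT.nd (nat_lit 78) (nat_lit 76) (nat_lit 0) (XT.lf (nat_lit 76) (nat_lit 1576827001) (nat_lit 0) (nat_lit 298971738) (nat_lit 152) (nat_lit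 1638278144) (nat_lit 184) (nat_lit 1) (nat_lit 183) (nat_lit 1) (nat_lit 185) (nat_lit 1) (nat_lit 353) (nat_lit 356) (nat_lit 311)) (XT.lf (nat_lit 152) (nat_lit 1453209674) (nat_lit 0) (nat_lit 1952863216) (nat_lit 76) (nat_lit 16541698) (nat_lit 184) (nat_lit 1) (nat_lit 182) (nat_lit 1) (nat_lit 183) (nat_lit 1) (nat_lit 354) (nat_lit 356) (nat_lit 310))) (XT.nd (nat_lit 78) (nat_lit 76) (nat_lit 0) (XT.lf (nat_lit 76) (nat_lit 1766197440) (nat_lit 0) (nat_lit 257895741) (nat_lit 152) (nat_lit 1309423835) (nat_lit 181) (nat_lit 1) (nat_lit 180) (nat_lit 1) (nat_lit 182) (nat_lit 1) (nat_lit 355) (nat_lit 356) (nat_lit 309)) (XT.lf (nat_lit 0) (nat_lit 237440002) (nat_lit 0) (nat_lit 1858348383) (nat_lit 152) (nat_lit 1151222365) (nat_lit 179) (nat_lit 3) (nat_lit 179) (nat_lit 1) (nat_lit 181) (nat_lit 1) (nat_lit 356) (nat_lit 356) (nat_lit 308))))))) (XT.nd (nat_lit 1014) (nat_lit 1596)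 (nat_lit 0) (XT.nd (nat_lit 468) (nat_lit 912) (nat_lit 0) (XT.nd (nat_lit 234) (nat_lit 304) (nat_lit 0) (XT.nd (nat_lit 78) (nat_lit 228) (nat_lit 0) (XT.lf (nat_lit 76) (nat_lit 1919770176) (nat_lit 0) (nat_lit 245444788) (nat_lit 152) (nat_lit 997679278) (nat_lit 178) (nat_lit 1) (nat_lit 177) (nat_lit 1) (nat_lit 179) (nat_lit 1) (nat_lit 357) (nat_lit 356) (nat_lit 307)) (XT.nd (nat_lit 78) (nat_lit 152) (nat_lit 0) (XT.lf (nat_lit 0) (nat_lit 453598246) (nat_lit 0) (nat_lit 1777091274) (nat_lit 152) (nat_lit 850328425) (nat_lit 176) (nat_lit 3) (nat_lit 176) (nat_lit 1) (nat_lit 178) (nat_lit 1) (nat_lit 358) (nat_lit 356) (nat_lit 306)) (XT.lf (nat_lit 76) (nat_lit 2042972405) (nat_lit 0) (nat_lit 254171118) (nat_lit 152) (nat_lit 704405714) (nat_lit 175) (nat_lit 1) (nat_lit 174) (nat_lit 1) (nat_lit 176) (nat_lit 1) (nat_lit 359) (nat_lit 356) (nat_lit 305)))) (XT.nd (nat_lit 78) (nat_lit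 228) (nat_lit 0) (XT.lf (nat_lit 0) (nat_lit 637708653) (nat_lit 0) (nat_lit 1718358131) (nat_lit 152) (nat_lit 567950504) (nat_lit 173) (nat_lit 3) (nat_lit 173) (nat_lit 1) (nat_lit 175) (nat_lit 1) (nat_lit 360) (nat_lit 356) (nat_lit 304)) (XT.nd (nat_lit 78) (nat_lit 76) (nat_lit 0) (XT.lf (nat_lit 76) (nat_lit 2140355111) (nat_lit 0) (nat_lit 278163345) (nat_lit 152) (nat_lit 430366509) (nat_lit 172) (nat_lit 1) (nat_lit 171) (nat_lit 1) (nat_lit 173) (nat_lit 1) (nat_lit 361) (nat_lit 356) (nat_lit 303)) (XT.lf (nat_lit 0) (nat_lit 794194287) (nat_lit 0) (nat_lit 1676558809) (nat_lit 152) (nat_lit 304682639) (nat_lit 170) (nat_lit 3) (nat_lit 170) (nat_lit 1) (nat_lit 172) (nat_lit 1) (nat_lit 362) (nat_lit 356) (nat_lit 302))))) (XT.nd (nat_lit 234) (nat_lit 456) (nat_lit 0) (XT.nd (nat_lit 78) (nat_lit 304) (nat_lit 0) (XT.lf (nat_lit 76) (nat_lit 2215744565) (nat_lit 0) (nat_lit 312752886)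 (nat_lit 152) (nat_lit 175860769) (nat_lit 169) (nat_lit 1) (nat_lit 168) (nat_lit 1) (nat_lit 170) (nat_lit 1) (nat_lit 363) (nat_lit 356) (nat_lit 301)) (XT.nd (nat_lit 78) (nat_lit 228) (nat_lit 0) (XT.lf (nat_lit 0) (nat_lit 926796001) (nat_lit 0) (nat_lit 1647258248) (nat_lit 152) (nat_lit 60696854) (nat_lit 167) (nat_lit 3) (nat_lit 167) (nat_lit 1) (nat_lit 169) (nat_lit 1) (nat_lit 364) (nat_lit 356) (nat_lit 300)) (XT.lf (nat_lit 152) (nat_lit 2212195495) (nat_lit 0) (nat_lit 61125514) (nat_lit 76) (nat_lit 294103845) (nat_lit 166) (nat_lit 1) (nat_lit 164) (nat_lit 1) (nat_lit 165) (nat_lit 1) (nat_lit 365) (nat_lit 356) (nat_lit 299)))) (XT.nd (nat_lit 156) (nat_lit 228) (nat_lit 0) (XT.nd (nat_lit 78) (nat_lit 152) (nat_lit 0) (XT.lf (nat_lit 76) (nat_lit 871750324) (nat_lit 0) (nat_lit 169585558) (nat_lit 76) (nat_lit 1460017231) (nat_lit 164) (nat_lit 3) (nat_lit 163) (nat_lit 1)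 (nat_lit 164) (nat_lit 1) (nat_lit 366) (nat_lit 356) (nat_lit 298)) (XT.lf (nat_lit 152) (nat_lit 2033239856) (nat_lit 0) (nat_lit 284145525) (nat_lit 76) (nat_lit 120165257) (nat_lit 163) (nat_lit 1) (nat_lit 161) (nat_lit 1) (nat_lit 162) (nat_lit 1) (nat_lit 367) (nat_lit 356) (nat_lit 297))) (XT.nd (nat_lit 78) (nat_lit 152) (nat_lit 0) (XT.lf (nat_lit 76) (nat_lit 756027482) (nat_lit 0) (nat_lit 382518546) (nat_lit 76) (nat_lit 1236355154) (nat_lit 161) (nat_lit 3) (nat_lit 160) (nat_lit 1) (nat_lit 161) (nat_lit 1) (nat_lit 368) (nat_lit 356) (nat_lit 296)) (XT.lf (nat_lit 0) (nat_lit 31910663) (nat_lit 0) (nat_lit 455480039) (nat_lit 152) (nat_lit 1827040892) (nat_lit 158) (nat_lit 3) (nat_lit 158) (nat_lit 1) (nat_lit 160) (nat_lit 1) (nat_lit 369) (nat_lit 356) (nat_lit 295)))))) (XT.nd (nat_lit 546) (nat_lit 836) (nat_lit 0) (XT.nd (nat_lit 234) (nat_lit 456) (nat_lit 0) (XT.nd (nat_lit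 78) (nat_lit 228) (nat_lit 0) (XT.lf (nat_lit 76) (nat_lit 643078274) (nat_lit 0) (nat_lit 576688379) (nat_lit 76) (nat_lit 1035272141) (nat_lit 158) (nat_lit 3) (nat_lit 157) (nat_lit 1) (nat_lit 158) (nat_lit 1) (nat_lit 370) (nat_lit 356) (nat_lit 294)) (XT.nd (nat_lit 78) (nat_lit 76) (nat_lit 0) (XT.lf (nat_lit 0) (nat_lit 162290637) (nat_lit 0) (nat_lit 508140607) (nat_lit 152) (nat_lit 1527194345) (nat_lit 155) (nat_lit 3) (nat_lit 155) (nat_lit 1) (nat_lit 157) (nat_lit 1) (nat_lit 371) (nat_lit 356) (nat_lit 293)) (XT.lf (nat_lit 76) (nat_lit 534168743) (nat_lit 0) (nat_lit 752821660) (nat_lit 76) (nat_lit 854400197) (nat_lit 155) (nat_lit 3) (nat_lit 154) (nat_lit 1) (nat_lit 155) (nat_lit 1) (nat_lit 372) (nat_lit 356) (nat_lit 292)))) (XT.nd (nat_lit 156) (nat_lit 228) (nat_lit 0) (XT.nd (nat_lit 78) (nat_lit 76) (nat_lit 0) (XT.lf (nat_lit 0) (nat_lit 276807611) (nat_lit 0) (nat_lit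 559198664) (nat_lit 152) (nat_lit 1250858222) (nat_lit 152) (nat_lit 3) (nat_lit 152) (nat_lit 1) (nat_lit 154) (nat_lit 1) (nat_lit 373) (nat_lit 356) (nat_lit 291)) (XT.lf (nat_lit 76) (nat_lit 430199024) (nat_lit 0) (nat_lit 911736838) (nat_lit 76) (nat_lit 691672222) (nat_lit 152) (nat_lit 3) (nat_lit 151) (nat_lit 1) (nat_lit 152) (nat_lit 1) (nat_lit 374) (nat_lit 356) (nat_lit 290))) (XT.nd (nat_lit 78) (nat_lit 76) (nat_lit 0) (XT.lf (nat_lit 0) (nat_lit 377191463) (nat_lit 0) (nat_lit 607767475) (nat_lit 152) (nat_lit 996852800) (nat_lit 149) (nat_lit 3) (nat_lit 149) (nat_lit 1) (nat_lit 151) (nat_lit 1) (nat_lit 375) (nat_lit 356) (nat_lit 289)) (XT.lf (nat_lit 76) (nat_lit 331779537) (nat_lit 0) (nat_lit 1054311385) (nat_lit 76) (nat_lit 545275844) (nat_lit 149) (nat_lit 3) (nat_lit 148) (nat_lit 1) (nat_lit 149) (nat_lit 1) (nat_lit 376) (nat_lit 356) (nat_lit 288))))) (XT.nd (nat_lit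 234) (nat_lit 456) (nat_lit 0) (XT.nd (nat_lit 78) (nat_lit 228) (nat_lit 0) (XT.lf (nat_lit 0) (nat_lit 464954550) (nat_lit 0) (nat_lit 653222899) (nat_lit 152) (nat_lit 763976073) (nat_lit 146) (nat_lit 3) (nat_lit 146) (nat_lit 1) (nat_lit 148) (nat_lit 1) (nat_lit 377) (nat_lit 356) (nat_lit 287)) (XT.nd (nat_lit 78) (nat_lit 152) (nat_lit 0) (XT.lf (nat_lit 76) (nat_lit 239292615) (nat_lit 0) (nat_lit 1181456041) (nat_lit 76) (nat_lit 413615160) (nat_lit 146) (nat_lit 3) (nat_lit 145) (nat_lit 1) (nat_lit 146) (nat_lit 1) (nat_lit 378) (nat_lit 356) (nat_lit 286)) (XT.lf (nat_lit 0) (nat_lit 541424469) (nat_lit 0) (nat_lit 695148054) (nat_lit 152) (nat_lit 551024109) (nat_lit 143) (nat_lit 3) (nat_lit 143) (nat_lit 1) (nat_lit 145) (nat_lit 1) (nat_lit 379) (nat_lit 356) (nat_lit 285)))) (XT.nd (nat_lit 156) (nat_lit 228) (nat_lit 0) (XT.nd (nat_lit 78) (nat_lit 152) (nat_lit 0) (XT.lf (nat_lit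 76) (nat_lit 152942290) (nat_lit 0) (nat_lit 1294094770) (nat_lit 76) (nat_lit 295278943) (nat_lit 143) (nat_lit 3) (nat_lit 142) (nat_lit 1) (nat_lit 143) (nat_lit 1) (nat_lit 380) (nat_lit 356) (nat_lit 284)) (XT.lf (nat_lit 0) (nat_lit 607771286) (nat_lit 0) (nat_lit 733288616) (nat_lit 152) (nat_lit 356806635) (nat_lit 140) (nat_lit 3) (nat_lit 140) (nat_lit 1) (nat_lit 142) (nat_lit 1) (nat_lit 381) (nat_lit 356) (nat_lit 283))) (XT.nd (nat_lit 78) (nat_lit 152) (nat_lit 0) (XT.lf (nat_lit 76) (nat_lit 72794427) (nat_lit 0) (nat_lit 1393149310) (nat_lit 76) (nat_lit 189014177) (nat_lit 140) (nat_lit 3) (nat_lit 139) (nat_lit 1) (nat_lit 140) (nat_lit 1) (nat_lit 382) (nat_lit 356) (nat_lit 282)) (XT.lf (nat_lit 0) (nat_lit 665030198) (nat_lit 0) (nat_lit 767516751) (nat_lit 152) (nat_lit 180158780) (nat_lit 137) (nat_lit 3) (nat_lit 137) (nat_lit 1) (nat_lit 139) (nat_lit 1) (nat_lit 383)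 (nat_lit 356) (nat_lit 281))))))))
noncomputable def ec55 : XT := (XT.nd (nat_lit 2106) (nat_lit 1064) (nat_lit 0) (XT.nd (nat_lit 1014) (nat_lit 1672) (nat_lit 0) (XT.nd (nat_lit 468) (nat_lit 836) (nat_lit 0) (XT.nd (nat_lit 234) (nat_lit 304) (nat_lit 0) (XT.nd (nat_lit 78) (nat_lit 304) (nat_lit 0) (XT.lf (nat_lit 76) (nat_lit 1478355040) (nat_lit 0) (nat_lit 1152864) (nat_lit 152) (nat_lit 92531583) (nat_lit 136) (nat_lit 1) (nat_lit 135) (nat_lit 1) (nat_lit 137) (nat_lit 1) (nat_lit 384) (nat_lit 356) (nat_lit 280)) (XT.nd (nat_lit 78) (nat_lit 228) (nat_lit 0) (XT.lf (nat_lit 0) (nat_lit 714120469) (nat_lit 0) (nat_lit 797802088) (nat_lit 152) (nat_lit 19949743) (nat_lit 134) (nat_lit 3) (nat_lit 134) (nat_lit 1) (nat_lit 136) (nat_lit 1) (nat_lit 385) (nat_lit 356) (nat_lit 279)) (XT.lf (nat_lit 152) (nat_lit 1425343019) (nat_lit 0) (nat_lit 61679577) (nat_lit 76) (nat_lit 6204596) (nat_lit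 133) (nat_lit 1) (nat_lit 131) (nat_lit 1) (nat_lit 132) (nat_lit 1) (nat_lit 386) (nat_lit 356) (nat_lit 278)))) (XT.nd (nat_lit 78) (nat_lit 228) (nat_lit 0) (XT.lf (nat_lit 76) (nat_lit 628834844) (nat_lit 0) (nat_lit 129041106) (nat_lit 76) (nat_lit 697161988) (nat_lit 131) (nat_lit 3) (nat_lit 130) (nat_lit 1) (nat_lit 131) (nat_lit 1) (nat_lit 387) (nat_lit 356) (nat_lit 277)) (XT.nd (nat_lit 78) (nat_lit 76) (nat_lit 0) (XT.lf (nat_lit 0) (nat_lit 71086413) (nat_lit 0) (nat_lit 131339626) (nat_lit 152) (nat_lit 1215859388) (nat_lit 128) (nat_lit 3) (nat_lit 128) (nat_lit 1) (nat_lit 130) (nat_lit 1) (nat_lit 388) (nat_lit 356) (nat_lit 276)) (XT.lf (nat_lit 76) (nat_lit 531189069) (nat_lit 0) (nat_lit 263916328) (nat_lit 76) (nat_lit 586979081) (nat_lit 128) (nat_lit 3) (nat_lit 127) (nat_lit 1) (nat_lit 128) (nat_lit 1) (nat_lit 389) (nat_lit 356) (nat_lit 275))))) (XT.nd (nat_lit 234)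 (nat_lit 456) (nat_lit 0) (XT.nd (nat_lit 78) (nat_lit 228) (nat_lit 0) (XT.lf (nat_lit 0) (nat_lit 139876932) (nat_lit 0) (nat_lit 189074473) (nat_lit 152) (nat_lit 1018187843) (nat_lit 125) (nat_lit 3) (nat_lit 125) (nat_lit 1) (nat_lit 127) (nat_lit 1) (nat_lit 390) (nat_lit 356) (nat_lit 274)) (XT.nd (nat_lit 78) (nat_lit 152) (nat_lit 0) (XT.lf (nat_lit 76) (nat_lit 441111921) (nat_lit 0) (nat_lit 385047978) (nat_lit 76) (nat_lit 486665200) (nat_lit 125) (nat_lit 3) (nat_lit 124) (nat_lit 1) (nat_lit 125) (nat_lit 1) (nat_lit 391) (nat_lit 356) (nat_lit 273)) (XT.lf (nat_lit 0) (nat_lit 201092197) (nat_lit 0) (nat_lit 241262637) (nat_lit 152) (nat_lit 837241121) (nat_lit 122) (nat_lit 3) (nat_lit 122) (nat_lit 1) (nat_lit 124) (nat_lit 1) (nat_lit 392) (nat_lit 356) (nat_lit 272)))) (XT.nd (nat_lit 156) (nat_lit 228) (nat_lit 0) (XT.nd (nat_lit 78) (nat_lit 152) (nat_lit 0) (XT.lf (nat_lit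 76) (nat_lit 358228059) (nat_lit 0) (nat_lit 493417327) (nat_lit 76) (nat_lit 395422910) (nat_lit 122) (nat_lit 3) (nat_lit 121) (nat_lit 1) (nat_lit 122) (nat_lit 1) (nat_lit 393) (nat_lit 356) (nat_lit 271)) (XT.lf (nat_lit 0) (nat_lit 255391866) (nat_lit 0) (nat_lit 288191559) (nat_lit 152) (nat_lit 671885615) (nat_lit 119) (nat_lit 3) (nat_lit 119) (nat_lit 1) (nat_lit 121) (nat_lit 1) (nat_lit 394) (nat_lit 356) (nat_lit 270))) (XT.nd (nat_lit 78) (nat_lit 152) (nat_lit 0) (XT.lf (nat_lit 76) (nat_lit 282154233) (nat_lit 0) (nat_lit 589954638) (nat_lit 76) (nat_lit 312524319) (nat_lit 119) (nat_lit 3) (nat_lit 118) (nat_lit 1) (nat_lit 119) (nat_lit 1) (nat_lit 395) (nat_lit 356) (nat_lit 269)) (XT.lf (nat_lit 0) (nat_lit 303376176) (nat_lit 0) (nat_lit 330157557) (nat_lit 152) (nat_lit 521048538) (nat_lit 116) (nat_lit 3) (nat_lit 116) (nat_lit 1) (nat_lit 118) (nat_lit 1) (nat_lit 396)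 (nat_lit 356) (nat_lit 268)))))) (XT.nd (nat_lit 546) (nat_lit 912) (nat_lit 0) (XT.nd (nat_lit 234) (nat_lit 456) (nat_lit 0) (XT.nd (nat_lit 78) (nat_lit 228) (nat_lit 0) (XT.lf (nat_lit 76) (nat_lit 212505954) (nat_lit 0) (nat_lit 675539333) (nat_lit 76) (nat_lit 237303529) (nat_lit 116) (nat_lit 3) (nat_lit 115) (nat_lit 1) (nat_lit 116) (nat_lit 1) (nat_lit 397) (nat_lit 356) (nat_lit 267)) (XT.nd (nat_lit 78) (nat_lit 76) (nat_lit 0) (XT.lf (nat_lit 0) (nat_lit 345592442) (nat_lit 0) (nat_lit 367459792) (nat_lit 152) (nat_lit 383716791) (nat_lit 113) (nat_lit 3) (nat_lit 113) (nat_lit 1) (nat_lit 115) (nat_lit 1) (nat_lit 398) (nat_lit 356) (nat_lit 266)) (XT.lf (nat_lit 76) (nat_lit 148902604) (nat_lit 0) (nat_lit 751000726) (nat_lit 76) (nat_lit 169150150) (nat_lit 113) (nat_lit 3) (nat_lit 112) (nat_lit 1) (nat_lit 113) (nat_lit 1) (nat_lit 399) (nat_lit 356) (nat_lit 265)))) (XT.nd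 (nat_lit 156) (nat_lit 228) (nat_lit 0) (XT.nd (nat_lit 78) (nat_lit 76) (nat_lit 0) (XT.lf (nat_lit 0) (nat_lit 382540654) (nat_lit 0) (nat_lit 400395633) (nat_lit 152) (nat_lit 258935391) (nat_lit 110) (nat_lit 3) (nat_lit 110) (nat_lit 1) (nat_lit 112) (nat_lit 1) (nat_lit 400) (nat_lit 356) (nat_lit 264)) (XT.lf (nat_lit 76) (nat_lit 90971299) (nat_lit 0) (nat_lit 817119200) (nat_lit 76) (nat_lit 107503687) (nat_lit 110) (nat_lit 3) (nat_lit 109) (nat_lit 1) (nat_lit 110) (nat_lit 1) (nat_lit 401) (nat_lit 356) (nat_lit 263))) (XT.nd (nat_lit 78) (nat_lit 76) (nat_lit 0) (XT.lf (nat_lit 0) (nat_lit 414678319) (nat_lit 0) (nat_lit 429257145) (nat_lit 152) (nat_lit 145805584) (nat_lit 107) (nat_lit 3) (nat_lit 107) (nat_lit 1) (nat_lit 109) (nat_lit 1) (nat_lit 402) (nat_lit 356) (nat_lit 262)) (XT.lf (nat_lit 76) (nat_lit 38349746) (nat_lit 0) (nat_lit 874627687) (nat_lit 76) (nat_lit 51848658)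 (nat_lit 107) (nat_lit 3) (nat_lit 106) (nat_lit 1) (nat_lit 107) (nat_lit 1) (nat_lit 403) (nat_lit 356) (nat_lit 261))))) (XT.nd (nat_lit 234) (nat_lit 456) (nat_lit 0) (XT.nd (nat_lit 78) (nat_lit 304) (nat_lit 0) (XT.lf (nat_lit 0) (nat_lit 442424666) (nat_lit 0) (nat_lit 454328469) (nat_lit 152) (nat_lit 43482739) (nat_lit 104) (nat_lit 3) (nat_lit 104) (nat_lit 1) (nat_lit 106) (nat_lit 1) (nat_lit 404) (nat_lit 356) (nat_lit 260)) (XT.nd (nat_lit 78) (nat_lit 76) (nat_lit 0) (XT.lf (nat_lit 152) (nat_lit 907464817) (nat_lit 0) (nat_lit 7702506) (nat_lit 76) (nat_lit 1431418) (nat_lit 103) (nat_lit 1) (nat_lit 101) (nat_lit 1) (nat_lit 102) (nat_lit 1) (nat_lit 405) (nat_lit 356) (nat_lit 259)) (XT.lf (nat_lit 76) (nat_lit 416511538) (nat_lit 0) (nat_lit 50440299) (nat_lit 76) (nat_lit 426231150) (nat_lit 101) (nat_lit 3) (nat_lit 100) (nat_lit 1) (nat_lit 101) (nat_lit 1) (nat_lit 406)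 (nat_lit 356) (nat_lit 258)))) (XT.nd (nat_lit 156) (nat_lit 228) (nat_lit 0) (XT.nd (nat_lit 78) (nat_lit 76) (nat_lit 0) (XT.lf (nat_lit 0) (nat_lit 44347656) (nat_lit 0) (nat_lit 52918743) (nat_lit 152) (nat_lit 773402483) (nat_lit 98) (nat_lit 3) (nat_lit 98) (nat_lit 1) (nat_lit 100) (nat_lit 1) (nat_lit 407) (nat_lit 356) (nat_lit 257)) (XT.lf (nat_lit 76) (nat_lit 352153835) (nat_lit 0) (nat_lit 136223537) (nat_lit 76) (nat_lit 360090026) (nat_lit 98) (nat_lit 3) (nat_lit 97) (nat_lit 1) (nat_lit 98) (nat_lit 1) (nat_lit 408) (nat_lit 356) (nat_lit 256))) (XT.nd (nat_lit 78) (nat_lit 76) (nat_lit 0) (XT.lf (nat_lit 0) (nat_lit 85341126) (nat_lit 0) (nat_lit 92339530) (nat_lit 152) (nat_lit 649372540) (nat_lit 95) (nat_lit 3) (nat_lit 95) (nat_lit 1) (nat_lit 97) (nat_lit 1) (nat_lit 409) (nat_lit 356) (nat_lit 255)) (XT.lf (nat_lit 76) (nat_lit 293187580) (nat_lit 0) (nat_lit 213148295)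 (nat_lit 76) (nat_lit 299667584) (nat_lit 95) (nat_lit 3) (nat_lit 94) (nat_lit 1) (nat_lit 95) (nat_lit 1) (nat_lit 410) (nat_lit 356) (nat_lit 254))))))) (XT.nd (nat_lit 45240) (nat_lit 0) (nat_lit 12540) (XT.nd (nat_lit 468) (nat_lit 380) (nat_lit 0) (XT.nd (nat_lit 234) (nat_lit 304) (nat_lit 0) (XT.nd (nat_lit 78) (nat_lit 228) (nat_lit 0) (XT.lf (nat_lit 0) (nat_lit 121971908) (nat_lit 0) (nat_lit 127686197) (nat_lit 152) (nat_lit 535976874) (nat_lit 92) (nat_lit 3) (nat_lit 92) (nat_lit 1) (nat_lit 94) (nat_lit 1) (nat_lit 411) (nat_lit 356) (nat_lit 253)) (XT.nd (nat_lit 78) (nat_lit 152) (nat_lit 0) (XT.lf (nat_lit 76) (nat_lit 239249190) (nat_lit 0) (nat_lit 281887357) (nat_lit 76) (nat_lit 244540199) (nat_lit 92) (nat_lit 3) (nat_lit 91) (nat_lit 1) (nat_lit 92) (nat_lit 1) (nat_lit 412) (nat_lit 356) (nat_lit 252)) (XT.lf (nat_lit 0) (nat_lit 154588829) (nat_lit 0) (nat_lit 159254622)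 (nat_lit 152) (nat_lit 432459082) (nat_lit 89) (nat_lit 3) (nat_lit 89) (nat_lit 1) (nat_lit 91) (nat_lit 1) (nat_lit 413) (nat_lit 356) (nat_lit 251)))) (XT.nd (nat_lit 78) (nat_lit 228) (nat_lit 0) (XT.lf (nat_lit 76) (nat_lit 189994464) (nat_lit 0) (nat_lit 343069662) (nat_lit 76) (nat_lit 194314643) (nat_lit 89) (nat_lit 3) (nat_lit 88) (nat_lit 1) (nat_lit 89) (nat_lit 1) (nat_lit 414) (nat_lit 356) (nat_lit 250)) (XT.nd (nat_lit 78) (nat_lit 76) (nat_lit 0) (XT.lf (nat_lit 0) (nat_lit 183514723) (nat_lit 0) (nat_lit 187324404) (nat_lit 152) (nat_lit 338110827) (nat_lit 86) (nat_lit 3) (nat_lit 86) (nat_lit 1) (nat_lit 88) (nat_lit 1) (nat_lit 415) (nat_lit 356) (nat_lit 249)) (XT.lf (nat_lit 76) (nat_lit 145098243) (nat_lit 0) (nat_lit 397282676) (nat_lit 76) (nat_lit 148625725) (nat_lit 86) (nat_lit 3) (nat_lit 85) (nat_lit 1) (nat_lit 86) (nat_lit 1) (nat_lit 416) (nat_lit 356) (nat_lit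 248))))) (XT.nd (nat_lit 44460) (nat_lit 0) (nat_lit 16112) (XT.nd (nat_lit 78) (nat_lit 228) (nat_lit 0) (XT.lf (nat_lit 0) (nat_lit 209048484) (nat_lit 0) (nat_lit 212159138) (nat_lit 152) (nat_lit 252269183) (nat_lit 83) (nat_lit 3) (nat_lit 83) (nat_lit 1) (nat_lit 85) (nat_lit 1) (nat_lit 417) (nat_lit 356) (nat_lit 247)) (XT.nd (nat_lit 78) (nat_lit 152) (nat_lit 0) (XT.lf (nat_lit 76) (nat_lit 104253922) (nat_lit 0) (nat_lit 445074717) (nat_lit 76) (nat_lit 107134158) (nat_lit 83) (nat_lit 3) (nat_lit 82) (nat_lit 1) (nat_lit 83) (nat_lit 1) (nat_lit 418) (nat_lit 356) (nat_lit 246)) (XT.lf (nat_lit 0) (nat_lit 231466922) (nat_lit 0) (nat_lit 234006813) (nat_lit 152) (nat_lit 174314089) (nat_lit 80) (nat_lit 3) (nat_lit 80) (nat_lit 1) (nat_lit 82) (nat_lit 1) (nat_lit 419) (nat_lit 356) (nat_lit 245)))) (XT.nd (nat_lit 156) (nat_lit 0) (nat_lit 76) (XT.nd (nat_lit 78) (nat_lit 0) (nat_lit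 76) (XT.lf (nat_lit 836) (nat_lit 1988170027) (nat_lit 0) (nat_lit 3529991313) (nat_lit 836) (nat_lit 1988170027) (nat_lit 303) (nat_lit 1) (nat_lit 292) (nat_lit 0) (nat_lit 303) (nat_lit 0) (nat_lit 306) (nat_lit 357) (nat_lit 357)) (XT.lf (nat_lit 836) (nat_lit 741648425) (nat_lit 0) (nat_lit 6930442804) (nat_lit 760) (nat_lit 6777949908) (nat_lit 304) (nat_lit 1) (nat_lit 293) (nat_lit 1) (nat_lit 303) (nat_lit 1) (nat_lit 307) (nat_lit 357) (nat_lit 356))) (XT.nd (nat_lit 78) (nat_lit 0) (nat_lit 76) (XT.lf (nat_lit 836) (nat_lit 6811612701) (nat_lit 76) (nat_lit 4641319882) (nat_lit 0) (nat_lit 2461544346) (nat_lit 304) (nat_lit 1) (nat_lit 294) (nat_lit 1) (nat_lit 293) (nat_lit 1) (nat_lit 308) (nat_lit 357) (nat_lit 355)) (XT.lf (nat_lit 836) (nat_lit 5885791389) (nat_lit 76) (nat_lit 1945144991) (nat_lit 0) (nat_lit 5574777332) (nat_lit 305) (nat_lit 1) (nat_lit 295) (nat_lit 1) (nat_lit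 294) (nat_lit 1) (nat_lit 309) (nat_lit 357) (nat_lit 354)))))) (XT.nd (nat_lit 546) (nat_lit 1900) (nat_lit 0) (XT.nd (nat_lit 234) (nat_lit 1900) (nat_lit 0) (XT.nd (nat_lit 78) (nat_lit 0) (nat_lit 76) (XT.lf (nat_lit 836) (nat_lit 4355986020) (nat_lit 0) (nat_lit 8149843946) (nat_lit 760) (nat_lit 416618858) (nat_lit 306) (nat_lit 1) (nat_lit 295) (nat_lit 1) (nat_lit 305) (nat_lit 1) (nat_lit 310) (nat_lit 357) (nat_lit 353)) (XT.nd (nat_lit 78) (nat_lit 0) (nat_lit 0) (XT.lf (nat_lit 836) (nat_lit 1045176136) (nat_lit 0) (nat_lit 8987467065) (nat_lit 760) (nat_lit 2429620016) (nat_lit 307) (nat_lit 1) (nat_lit 296) (nat_lit 1) (nat_lit 306) (nat_lit 1) (nat_lit 311) (nat_lit 357) (nat_lit 352)) (XT.lf (nat_lit 836) (nat_lit 2008403425) (nat_lit 76) (nat_lit 7810840760) (nat_lit 0) (nat_lit 2204315630) (nat_lit 307) (nat_lit 1) (nat_lit 297) (nat_lit 1) (nat_lit 296) (nat_lit 1) (nat_lit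 312) (nat_lit 357) (nat_lit 351)))) (XT.nd (nat_lit 156) (nat_lit 760) (nat_lit 0) (XT.nd (nat_lit 78) (nat_lit 532) (nat_lit 0) (XT.lf (nat_lit 836) (nat_lit 412480265) (nat_lit 0) (nat_lit 5839120135) (nat_lit 760) (nat_lit 5354411983) (nat_lit 298) (nat_lit 1) (nat_lit 287) (nat_lit 1) (nat_lit 297) (nat_lit 1) (nat_lit 313) (nat_lit 357) (nat_lit 350)) (XT.lf (nat_lit 76) (nat_lit 2856099283) (nat_lit 0) (nat_lit 1237680731) (nat_lit 532) (nat_lit 7114455406) (nat_lit 281) (nat_lit 1) (nat_lit 280) (nat_lit 1) (nat_lit 287) (nat_lit 1) (nat_lit 314) (nat_lit 357) (nat_lit 349))) (XT.nd (nat_lit 78) (nat_lit 380) (nat_lit 0) (XT.lf (nat_lit 456) (nat_lit 7871050136) (nat_lit 0) (nat_lit 2562196505) (nat_lit 380) (nat_lit 396131411) (nat_lit 281) (nat_lit 1) (nat_lit 275) (nat_lit 1) (nat_lit 280) (nat_lit 1) (nat_lit 315) (nat_lit 357) (nat_lit 348)) (XT.lf (nat_lit 456) (nat_lit 5679824732)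 (nat_lit 0) (nat_lit 1194250828) (nat_lit 380) (nat_lit 3592735314) (nat_lit 276) (nat_lit 1) (nat_lit 270) (nat_lit 1) (nat_lit 275) (nat_lit 1) (nat_lit 316) (nat_lit 357) (nat_lit 347))))) (XT.nd (nat_lit 234) (nat_lit 1216) (nat_lit 0) (XT.nd (nat_lit 78) (nat_lit 380) (nat_lit 0) (XT.lf (nat_lit 380) (nat_lit 3456100909) (nat_lit 0) (nat_lit 21988098) (nat_lit 304) (nat_lit 6643734782) (nat_lit 271) (nat_lit 1) (nat_lit 266) (nat_lit 1) (nat_lit 270) (nat_lit 1) (nat_lit 317) (nat_lit 357) (nat_lit 346)) (XT.nd (nat_lit 78) (nat_lit 380) (nat_lit 0) (XT.lf (nat_lit 76) (nat_lit 254974791) (nat_lit 0) (nat_lit 8598985474) (nat_lit 380) (nat_lit 938746461) (nat_lit 267) (nat_lit 1) (nat_lit 266) (nat_lit 1) (nat_lit 271) (nat_lit 1) (nat_lit 318) (nat_lit 357) (nat_lit 345)) (XT.lf (nat_lit 76) (nat_lit 6583515252) (nat_lit 0) (nat_lit 1091946447) (nat_lit 380) (nat_lit 1800818004) (nat_lit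 262) (nat_lit 1) (nat_lit 261) (nat_lit 1) (nat_lit 266) (nat_lit 1) (nat_lit 319) (nat_lit 357) (nat_lit 344)))) (XT.nd (nat_lit 156) (nat_lit 608) (nat_lit 0) (XT.nd (nat_lit 78) (nat_lit 304) (nat_lit 0) (XT.lf (nat_lit 76) (nat_lit 3293899511) (nat_lit 0) (nat_lit 3344825807) (nat_lit 380) (nat_lit 2535108722) (nat_lit 258) (nat_lit 1) (nat_lit 257) (nat_lit 1) (nat_lit 262) (nat_lit 1) (nat_lit 320) (nat_lit 357) (nat_lit 343)) (XT.lf (nat_lit 76) (nat_lit 162579575) (nat_lit 0) (nat_lit 5592496812) (nat_lit 380) (nat_lit 3130631791) (nat_lit 254) (nat_lit 1) (nat_lit 253) (nat_lit 1) (nat_lit 258) (nat_lit 1) (nat_lit 321) (nat_lit 357) (nat_lit 342))) (XT.nd (nat_lit 78) (nat_lit 380) (nat_lit 0) (XT.lf (nat_lit 304) (nat_lit 734200201) (nat_lit 0) (nat_lit 4965044522) (nat_lit 228) (nat_lit 2909630199) (nat_lit 254) (nat_lit 1) (nat_lit 250) (nat_lit 1) (nat_lit 253) (nat_lit 1) (nat_lit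 322) (nat_lit 357) (nat_lit 341)) (XT.lf (nat_lit 76) (nat_lit 2536859092) (nat_lit 0) (nat_lit 1738778985) (nat_lit 380) (nat_lit 4067840071) (nat_lit 246) (nat_lit 1) (nat_lit 245) (nat_lit 1) (nat_lit 250) (nat_lit 1) (nat_lit 323) (nat_lit 357) (nat_lit 340))))))))
noncomputable def ec56 : XT := (XT.nd (nat_lit 2028) (nat_lit 3116) (nat_lit 0) (XT.nd (nat_lit 1014) (nat_lit 1824) (nat_lit 0) (XT.nd (nat_lit 468) (nat_lit 1216) (nat_lit 0) (XT.nd (nat_lit 234) (nat_lit 684) (nat_lit 0) (XT.nd (nat_lit 78) (nat_lit 532) (nat_lit 0) (XT.lf (nat_lit 304) (nat_lit 3927668068) (nat_lit 0) (nat_lit 3689536511) (nat_lit 228) (nat_lit 472256294) (nat_lit 246) (nat_lit 1) (nat_lit 242) (nat_lit 1) (nat_lit 245) (nat_lit 1) (nat_lit 324) (nat_lit 357) (nat_lit 339)) (XT.nd (nat_lit 78) (nat_lit 304) (nat_lit 0) (XT.lf (nat_lit 304) (nat_lit 1258798641) (nat_lit 0) (nat_lit 3176539851) (nat_lit 228)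 (nat_lit 3409867062) (nat_lit 243) (nat_lit 1) (nat_lit 239) (nat_lit 1) (nat_lit 242) (nat_lit 1) (nat_lit 325) (nat_lit 357) (nat_lit 338)) (XT.lf (nat_lit 76) (nat_lit 1434726284) (nat_lit 0) (nat_lit 1313616594) (nat_lit 304) (nat_lit 4862751739) (nat_lit 236) (nat_lit 1) (nat_lit 235) (nat_lit 1) (nat_lit 239) (nat_lit 1) (nat_lit 326) (nat_lit 357) (nat_lit 337)))) (XT.nd (nat_lit 78) (nat_lit 456) (nat_lit 0) (XT.lf (nat_lit 304) (nat_lit 3570128051) (nat_lit 0) (nat_lit 2375430907) (nat_lit 228) (nat_lit 1439994025) (nat_lit 236) (nat_lit 1) (nat_lit 232) (nat_lit 1) (nat_lit 235) (nat_lit 1) (nat_lit 327) (nat_lit 357) (nat_lit 336)) (XT.nd (nat_lit 78) (nat_lit 304) (nat_lit 0) (XT.lf (nat_lit 228) (nat_lit 885040015) (nat_lit 0) (nat_lit 2072390202) (nat_lit 152) (nat_lit 4211680112) (nat_lit 233) (nat_lit 1) (nat_lit 230) (nat_lit 1) (nat_lit 232) (nat_lit 1) (nat_lit 328) (nat_lit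 357) (nat_lit 335)) (XT.lf (nat_lit 76) (nat_lit 149931432) (nat_lit 0) (nat_lit 1677765283) (nat_lit 304) (nat_lit 5133360846) (nat_lit 227) (nat_lit 1) (nat_lit 226) (nat_lit 1) (nat_lit 230) (nat_lit 1) (nat_lit 329) (nat_lit 357) (nat_lit 334))))) (XT.nd (nat_lit 234) (nat_lit 684) (nat_lit 0) (XT.nd (nat_lit 78) (nat_lit 380) (nat_lit 0) (XT.lf (nat_lit 228) (nat_lit 2571763891) (nat_lit 0) (nat_lit 1607131801) (nat_lit 152) (nat_lit 2580713656) (nat_lit 227) (nat_lit 1) (nat_lit 224) (nat_lit 1) (nat_lit 226) (nat_lit 1) (nat_lit 330) (nat_lit 357) (nat_lit 333)) (XT.nd (nat_lit 78) (nat_lit 152) (nat_lit 0) (XT.lf (nat_lit 76) (nat_lit 1395331613) (nat_lit 0) (nat_lit 64451242) (nat_lit 228) (nat_lit 5107168787) (nat_lit 222) (nat_lit 1) (nat_lit 221) (nat_lit 1) (nat_lit 224) (nat_lit 1) (nat_lit 331) (nat_lit 357) (nat_lit 332)) (XT.lf (nat_lit 228) (nat_lit 3814567185) (nat_lit 0) (nat_lit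 1321833059) (nat_lit 152) (nat_lit 1243497965) (nat_lit 222) (nat_lit 1) (nat_lit 219) (nat_lit 1) (nat_lit 221) (nat_lit 1) (nat_lit 332) (nat_lit 357) (nat_lit 331)))) (XT.nd (nat_lit 156) (nat_lit 304) (nat_lit 0) (XT.nd (nat_lit 78) (nat_lit 228) (nat_lit 0) (XT.lf (nat_lit 228) (nat_lit 1184957428) (nat_lit 0) (nat_lit 1228789999) (nat_lit 152) (nat_lit 3786249223) (nat_lit 220) (nat_lit 1) (nat_lit 217) (nat_lit 1) (nat_lit 219) (nat_lit 1) (nat_lit 333) (nat_lit 357) (nat_lit 330)) (XT.lf (nat_lit 228) (nat_lit 4703845505) (nat_lit 0) (nat_lit 1174009109) (nat_lit 152) (nat_lit 148936676) (nat_lit 217) (nat_lit 1) (nat_lit 214) (nat_lit 1) (nat_lit 216) (nat_lit 1) (nat_lit 334) (nat_lit 357) (nat_lit 329))) (XT.nd (nat_lit 78) (nat_lit 152) (nat_lit 0) (XT.lf (nat_lit 228) (nat_lit 2105223243) (nat_lit 0) (nat_lit 1120782886) (nat_lit 152) (nat_lit 2632392632) (nat_lit 215) (nat_lit 1)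 (nat_lit 212) (nat_lit 1) (nat_lit 214) (nat_lit 1) (nat_lit 335) (nat_lit 357) (nat_lit 328)) (XT.lf (nat_lit 76) (nat_lit 721120241) (nat_lit 0) (nat_lit 396360179) (nat_lit 152) (nat_lit 4579510299) (nat_lit 211) (nat_lit 1) (nat_lit 210) (nat_lit 1) (nat_lit 212) (nat_lit 1) (nat_lit 336) (nat_lit 357) (nat_lit 327)))))) (XT.nd (nat_lit 468) (nat_lit 988) (nat_lit 0) (XT.nd (nat_lit 234) (nat_lit 380) (nat_lit 0) (XT.nd (nat_lit 78) (nat_lit 304) (nat_lit 0) (XT.lf (nat_lit 228) (nat_lit 2762173968) (nat_lit 0) (nat_lit 1105647546) (nat_lit 152) (nat_lit 1671834140) (nat_lit 211) (nat_lit 1) (nat_lit 208) (nat_lit 1) (nat_lit 210) (nat_lit 1) (nat_lit 337) (nat_lit 357) (nat_lit 326)) (XT.nd (nat_lit 78) (nat_lit 228) (nat_lit 0) (XT.lf (nat_lit 152) (nat_lit 297446886) (nat_lit 0) (nat_lit 1132803679) (nat_lit 76) (nat_lit 3958281412) (nat_lit 209) (nat_lit 1) (nat_lit 207) (nat_lit 1) (nat_lit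 208) (nat_lit 1) (nat_lit 338) (nat_lit 357) (nat_lit 325)) (XT.lf (nat_lit 228) (nat_lit 3210829322) (nat_lit 0) (nat_lit 1158555871) (nat_lit 152) (nat_lit 872190052) (nat_lit 207) (nat_lit 1) (nat_lit 204) (nat_lit 1) (nat_lit 206) (nat_lit 1) (nat_lit 339) (nat_lit 357) (nat_lit 324)))) (XT.nd (nat_lit 78) (nat_lit 304) (nat_lit 0) (XT.lf (nat_lit 152) (nat_lit 807547251) (nat_lit 0) (nat_lit 1201875442) (nat_lit 76) (nat_lit 3090148558) (nat_lit 205) (nat_lit 1) (nat_lit 203) (nat_lit 1) (nat_lit 204) (nat_lit 1) (nat_lit 340) (nat_lit 357) (nat_lit 323)) (XT.nd (nat_lit 78) (nat_lit 76) (nat_lit 0) (XT.lf (nat_lit 228) (nat_lit 3495673452) (nat_lit 0) (nat_lit 1259842251) (nat_lit 152) (nat_lit 206750898) (nat_lit 203) (nat_lit 1) (nat_lit 200) (nat_lit 1) (nat_lit 202) (nat_lit 1) (nat_lit 341) (nat_lit 357) (nat_lit 322)) (XT.lf (nat_lit 152) (nat_lit 1162171283) (nat_lit 0) (nat_lit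 1313400685) (nat_lit 76) (nat_lit 2353070753) (nat_lit 201) (nat_lit 1) (nat_lit 199) (nat_lit 1) (nat_lit 200) (nat_lit 1) (nat_lit 342) (nat_lit 357) (nat_lit 321))))) (XT.nd (nat_lit 234) (nat_lit 456) (nat_lit 0) (XT.nd (nat_lit 78) (nat_lit 304) (nat_lit 0) (XT.lf (nat_lit 76) (nat_lit 335448882) (nat_lit 0) (nat_lit 1052884624) (nat_lit 228) (nat_lit 3311485783) (nat_lit 197) (nat_lit 1) (nat_lit 196) (nat_lit 1) (nat_lit 199) (nat_lit 1) (nat_lit 343) (nat_lit 357) (nat_lit 320)) (XT.nd (nat_lit 78) (nat_lit 228) (nat_lit 0) (XT.lf (nat_lit 152) (nat_lit 1394710394) (nat_lit 0) (nat_lit 1453222123) (nat_lit 76) (nat_lit 1726262590) (nat_lit 197) (nat_lit 1) (nat_lit 195) (nat_lit 1) (nat_lit 196) (nat_lit 1) (nat_lit 344) (nat_lit 357) (nat_lit 319)) (XT.lf (nat_lit 76) (nat_lit 780129196) (nat_lit 0) (nat_lit 755607878) (nat_lit 228) (nat_lit 2917248593) (nat_lit 193) (nat_lit 1) (nat_lit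 192) (nat_lit 1) (nat_lit 195) (nat_lit 1) (nat_lit 345) (nat_lit 357) (nat_lit 318)))) (XT.nd (nat_lit 156) (nat_lit 228) (nat_lit 0) (XT.nd (nat_lit 78) (nat_lit 152) (nat_lit 0) (XT.lf (nat_lit 152) (nat_lit 1532092497) (nat_lit 0) (nat_lit 1610288399) (nat_lit 76) (nat_lit 1192492186) (nat_lit 193) (nat_lit 1) (nat_lit 191) (nat_lit 1) (nat_lit 192) (nat_lit 1) (nat_lit 346) (nat_lit 357) (nat_lit 317)) (XT.lf (nat_lit 76) (nat_lit 1148530574) (nat_lit 0) (nat_lit 547254268) (nat_lit 152) (nat_lit 2524876370) (nat_lit 190) (nat_lit 1) (nat_lit 189) (nat_lit 1) (nat_lit 191) (nat_lit 1) (nat_lit 347) (nat_lit 357) (nat_lit 316))) (XT.nd (nat_lit 78) (nat_lit 152) (nat_lit 0) (XT.lf (nat_lit 152) (nat_lit 1595989758) (nat_lit 0) (nat_lit 1776048750) (nat_lit 76) (nat_lit 737447306) (nat_lit 190) (nat_lit 1) (nat_lit 188) (nat_lit 1) (nat_lit 189) (nat_lit 1) (nat_lit 348) (nat_lit 357) (nat_lit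 315)) (XT.lf (nat_lit 76) (nat_lit 1452784387) (nat_lit 0) (nat_lit 408258819) (nat_lit 152) (nat_lit 2140686850) (nat_lit 187) (nat_lit 1) (nat_lit 186) (nat_lit 1) (nat_lit 188) (nat_lit 1) (nat_lit 349) (nat_lit 357) (nat_lit 314))))))) (XT.nd (nat_lit 1014) (nat_lit 1672) (nat_lit 0) (XT.nd (nat_lit 468) (nat_lit 760) (nat_lit 0) (XT.nd (nat_lit 234) (nat_lit 380) (nat_lit 0) (XT.nd (nat_lit 78) (nat_lit 228) (nat_lit 0) (XT.lf (nat_lit 152) (nat_lit 1603803384) (nat_lit 0) (nat_lit 1943961048) (nat_lit 76) (nat_lit 349216622) (nat_lit 187) (nat_lit 1) (nat_lit 185) (nat_lit 1) (nat_lit 186) (nat_lit 1) (nat_lit 350) (nat_lit 357) (nat_lit 313)) (XT.nd (nat_lit 78) (nat_lit 76) (nat_lit 0) (XT.lf (nat_lit 76) (nat_lit 1702973161) (nat_lit 0) (nat_lit 322889477) (nat_lit 152) (nat_lit 1769340395) (nat_lit 184) (nat_lit 1) (nat_lit 183) (nat_lit 1) (nat_lit 185) (nat_lit 1) (nat_lit 351) (nat_lit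 357) (nat_lit 312)) (XT.lf (nat_lit 152) (nat_lit 1569466448) (nat_lit 0) (nat_lit 2109092274) (nat_lit 76) (nat_lit 17865034) (nat_lit 184) (nat_lit 1) (nat_lit 182) (nat_lit 1) (nat_lit 183) (nat_lit 1) (nat_lit 352) (nat_lit 357) (nat_lit 311)))) (XT.nd (nat_lit 78) (nat_lit 228) (nat_lit 0) (XT.lf (nat_lit 76) (nat_lit 1907493236) (nat_lit 0) (nat_lit 278527400) (nat_lit 152) (nat_lit 1414177741) (nat_lit 181) (nat_lit 1) (nat_lit 180) (nat_lit 1) (nat_lit 182) (nat_lit 1) (nat_lit 353) (nat_lit 357) (nat_lit 310)) (XT.nd (nat_lit 78) (nat_lit 152) (nat_lit 0) (XT.lf (nat_lit 0) (nat_lit 256435202) (nat_lit 0) (nat_lit 2007016254) (nat_lit 152) (nat_lit 1243320154) (nat_lit 179) (nat_lit 3) (nat_lit 179) (nat_lit 1) (nat_lit 181) (nat_lit 1) (nat_lit 354) (nat_lit 357) (nat_lit 309)) (XT.lf (nat_lit 76) (nat_lit 2073351790) (nat_lit 0) (nat_lit 265080371) (nat_lit 152) (nat_lit 1077493620)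 (nat_lit 178) (nat_lit 1) (nat_lit 177) (nat_lit 1) (nat_lit 179) (nat_lit 1) (nat_lit 355) (nat_lit 357) (nat_lit 308))))) (XT.nd (nat_lit 234) (nat_lit 456) (nat_lit 0) (XT.nd (nat_lit 78) (nat_lit 228) (nat_lit 0) (XT.lf (nat_lit 0) (nat_lit 489886105) (nat_lit 0) (nat_lit 1919258576) (nat_lit 152) (nat_lit 918354699) (nat_lit 176) (nat_lit 3) (nat_lit 176) (nat_lit 1) (nat_lit 178) (nat_lit 1) (nat_lit 356) (nat_lit 357) (nat_lit 307)) (XT.nd (nat_lit 78) (nat_lit 76) (nat_lit 0) (XT.lf (nat_lit 76) (nat_lit 2206410198) (nat_lit 0) (nat_lit 274504808) (nat_lit 152) (nat_lit 760758171) (nat_lit 175) (nat_lit 1) (nat_lit 174) (nat_lit 1) (nat_lit 176) (nat_lit 1) (nat_lit 357) (nat_lit 357) (nat_lit 306)) (XT.lf (nat_lit 0) (nat_lit 688725346) (nat_lit 0) (nat_lit 1855826781) (nat_lit 152) (nat_lit 613386545) (nat_lit 173) (nat_lit 3) (nat_lit 173) (nat_lit 1) (nat_lit 175) (nat_lit 1) (nat_lit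 358) (nat_lit 357) (nat_lit 305)))) (XT.nd (nat_lit 156) (nat_lit 228) (nat_lit 0) (XT.nd (nat_lit 78) (nat_lit 76) (nat_lit 0) (XT.lf (nat_lit 76) (nat_lit 2311583520) (nat_lit 0) (nat_lit 300416413) (nat_lit 152) (nat_lit 464795830) (nat_lit 172) (nat_lit 1) (nat_lit 171) (nat_lit 1) (nat_lit 173) (nat_lit 1) (nat_lit 359) (nat_lit 357) (nat_lit 304)) (XT.lf (nat_lit 0) (nat_lit 857729830) (nat_lit 0) (nat_lit 1810683514) (nat_lit 152) (nat_lit 329057250) (nat_lit 170) (nat_lit 3) (nat_lit 170) (nat_lit 1) (nat_lit 172) (nat_lit 1) (nat_lit 360) (nat_lit 357) (nat_lit 303))) (XT.nd (nat_lit 78) (nat_lit 76) (nat_lit 0) (XT.lf (nat_lit 76) (nat_lit 2393004131) (nat_lit 0) (nat_lit 337773117) (nat_lit 152) (nat_lit 189929630) (nat_lit 169) (nat_lit 1) (nat_lit 168) (nat_lit 1) (nat_lit 170) (nat_lit 1) (nat_lit 361) (nat_lit 357) (nat_lit 302)) (XT.lf (nat_lit 0) (nat_lit 1000939682) (nat_lit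 0) (nat_lit 1779038908) (nat_lit 152) (nat_lit 65552603) (nat_lit 167) (nat_lit 3) (nat_lit 167) (nat_lit 1) (nat_lit 169) (nat_lit 1) (nat_lit 362) (nat_lit 357) (nat_lit 301)))))) (XT.nd (nat_lit 546) (nat_lit 760) (nat_lit 0) (XT.nd (nat_lit 234) (nat_lit 456) (nat_lit 0) (XT.nd (nat_lit 78) (nat_lit 228) (nat_lit 0) (XT.lf (nat_lit 152) (nat_lit 2389171134) (nat_lit 0) (nat_lit 66015555) (nat_lit 76) (nat_lit 317632152) (nat_lit 166) (nat_lit 1) (nat_lit 164) (nat_lit 1) (nat_lit 165) (nat_lit 1) (nat_lit 363) (nat_lit 357) (nat_lit 300)) (XT.nd (nat_lit 78) (nat_lit 152) (nat_lit 0) (XT.lf (nat_lit 76) (nat_lit 941490350) (nat_lit 0) (nat_lit 183152403) (nat_lit 76) (nat_lit 1576818610) (nat_lit 164) (nat_lit 3) (nat_lit 163) (nat_lit 1) (nat_lit 164) (nat_lit 1) (nat_lit 364) (nat_lit 357) (nat_lit 299)) (XT.lf (nat_lit 152) (nat_lit 2195899045) (nat_lit 0) (nat_lit 306877167) (nat_lit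 76) (nat_lit 129778478) (nat_lit 163) (nat_lit 1) (nat_lit 161) (nat_lit 1) (nat_lit 162) (nat_lit 1) (nat_lit 365) (nat_lit 357) (nat_lit 298)))) (XT.nd (nat_lit 156) (nat_lit 228) (nat_lit 0) (XT.nd (nat_lit 78) (nat_lit 152) (nat_lit 0) (XT.lf (nat_lit 76) (nat_lit 816509681) (nat_lit 0) (nat_lit 413120030) (nat_lit 76) (nat_lit 1335263567) (nat_lit 161) (nat_lit 3) (nat_lit 160) (nat_lit 1) (nat_lit 161) (nat_lit 1) (nat_lit 366) (nat_lit 357) (nat_lit 297)) (XT.lf (nat_lit 0) (nat_lit 34463516) (nat_lit 0) (nat_lit 491918442) (nat_lit 152) (nat_lit 1973204163) (nat_lit 158) (nat_lit 3) (nat_lit 158) (nat_lit 1) (nat_lit 160) (nat_lit 1) (nat_lit 367) (nat_lit 357) (nat_lit 296))) (XT.nd (nat_lit 78) (nat_lit 152) (nat_lit 0) (XT.lf (nat_lit 76) (nat_lit 694524536) (nat_lit 0) (nat_lit 622823450) (nat_lit 76) (nat_lit 1118093912) (nat_lit 158) (nat_lit 3) (nat_lit 157) (nat_lit 1) (nat_lit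 158) (nat_lit 1) (nat_lit 368) (nat_lit 357) (nat_lit 295)) (XT.lf (nat_lit 0) (nat_lit 175273888) (nat_lit 0) (nat_lit 548791856) (nat_lit 152) (nat_lit 1649369893) (nat_lit 155) (nat_lit 3) (nat_lit 155) (nat_lit 1) (nat_lit 157) (nat_lit 1) (nat_lit 369) (nat_lit 357) (nat_lit 294))))) (XT.nd (nat_lit 234) (nat_lit 456) (nat_lit 0) (XT.nd (nat_lit 78) (nat_lit 228) (nat_lit 0) (XT.lf (nat_lit 76) (nat_lit 576902243) (nat_lit 0) (nat_lit 813047393) (nat_lit 76) (nat_lit 922752213) (nat_lit 155) (nat_lit 3) (nat_lit 154) (nat_lit 1) (nat_lit 155) (nat_lit 1) (nat_lit 370) (nat_lit 357) (nat_lit 293)) (XT.nd (nat_lit 78) (nat_lit 76) (nat_lit 0) (XT.lf (nat_lit 0) (nat_lit 298952220) (nat_lit 0) (nat_lit 603934557) (nat_lit 152) (nat_lit 1350926879) (nat_lit 152) (nat_lit 3) (nat_lit 152) (nat_lit 1) (nat_lit 154) (nat_lit 1) (nat_lit 371) (nat_lit 357) (nat_lit 292)) (XT.lf (nat_lit 76) (nat_lit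 464614946) (nat_lit 0) (nat_lit 984675785) (nat_lit 76) (nat_lit 747005999) (nat_lit 152) (nat_lit 3) (nat_lit 151) (nat_lit 1) (nat_lit 152) (nat_lit 1) (nat_lit 372) (nat_lit 357) (nat_lit 291)))) (XT.nd (nat_lit 156) (nat_lit 228) (nat_lit 0) (XT.nd (nat_lit 78) (nat_lit 76) (nat_lit 0) (XT.lf (nat_lit 0) (nat_lit 407366780) (nat_lit 0) (nat_lit 656388873) (nat_lit 152) (nat_lit 1076601024) (nat_lit 149) (nat_lit 3) (nat_lit 149) (nat_lit 1) (nat_lit 151) (nat_lit 1) (nat_lit 373) (nat_lit 357) (nat_lit 290)) (XT.lf (nat_lit 76) (nat_lit 358321900) (nat_lit 0) (nat_lit 1138656296) (nat_lit 76) (nat_lit 588897911) (nat_lit 149) (nat_lit 3) (nat_lit 148) (nat_lit 1) (nat_lit 149) (nat_lit 1) (nat_lit 374) (nat_lit 357) (nat_lit 289))) (XT.nd (nat_lit 78) (nat_lit 76) (nat_lit 0) (XT.lf (nat_lit 0) (nat_lit 502150914) (nat_lit 0) (nat_lit 705480731) (nat_lit 152) (nat_lit 825094159) (nat_lit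 146) (nat_lit 3) (nat_lit 146) (nat_lit 1) (nat_lit 148) (nat_lit 1) (nat_lit 375) (nat_lit 357) (nat_lit 288)) (XT.lf (nat_lit 76) (nat_lit 258436024) (nat_lit 0) (nat_lit 1275972524) (nat_lit 76) (nat_lit 446704373) (nat_lit 146) (nat_lit 3) (nat_lit 145) (nat_lit 1) (nat_lit 146) (nat_lit 1) (nat_lit 376) (nat_lit 357) (nat_lit 287))))))))
noncomputable def ec57 : XT := (XT.nd (nat_lit 2106) (nat_lit 1824) (nat_lit 0) (XT.nd (nat_lit 1014) (nat_lit 1748) (nat_lit 0) (XT.nd (nat_lit 468) (nat_lit 836) (nat_lit 0) (XT.nd (nat_lit 234) (nat_lit 380) (nat_lit 0) (XT.nd (nat_lit 78) (nat_lit 228) (nat_lit 0) (XT.lf (nat_lit 0) (nat_lit 584738427) (nat_lit 0) (nat_lit 750759898) (nat_lit 152) (nat_lit 595106038) (nat_lit 143) (nat_lit 3) (nat_lit 143) (nat_lit 1) (nat_lit 145) (nat_lit 1) (nat_lit 377) (nat_lit 357) (nat_lit 286)) (XT.nd (nat_lit 78) (nat_lit 152) (nat_lit 0) (XT.lf (nat_lit 76)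 (nat_lit 165177674) (nat_lit 0) (nat_lit 1397622351) (nat_lit 76) (nat_lit 318901258) (nat_lit 143) (nat_lit 3) (nat_lit 142) (nat_lit 1) (nat_lit 143) (nat_lit 1) (nat_lit 378) (nat_lit 357) (nat_lit 285)) (XT.lf (nat_lit 0) (nat_lit 656392988) (nat_lit 0) (nat_lit 791951705) (nat_lit 152) (nat_lit 385351166) (nat_lit 140) (nat_lit 3) (nat_lit 140) (nat_lit 1) (nat_lit 142) (nat_lit 1) (nat_lit 379) (nat_lit 357) (nat_lit 284)))) (XT.nd (nat_lit 78) (nat_lit 304) (nat_lit 0) (XT.lf (nat_lit 76) (nat_lit 78617981) (nat_lit 0) (nat_lit 1504601255) (nat_lit 76) (nat_lit 204135311) (nat_lit 140) (nat_lit 3) (nat_lit 139) (nat_lit 1) (nat_lit 140) (nat_lit 1) (nat_lit 380) (nat_lit 357) (nat_lit 283)) (XT.nd (nat_lit 78) (nat_lit 152) (nat_lit 0) (XT.lf (nat_lit 0) (nat_lit 718232614) (nat_lit 0) (nat_lit 828918091) (nat_lit 152) (nat_lit 194571483) (nat_lit 137) (nat_lit 3) (nat_lit 137) (nat_lit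 1) (nat_lit 139) (nat_lit 1) (nat_lit 381) (nat_lit 357) (nat_lit 282)) (XT.lf (nat_lit 76) (nat_lit 1596623443) (nat_lit 0) (nat_lit 1245093) (nat_lit 152) (nat_lit 99934110) (nat_lit 136) (nat_lit 1) (nat_lit 135) (nat_lit 1) (nat_lit 137) (nat_lit 1) (nat_lit 382) (nat_lit 357) (nat_lit 281))))) (XT.nd (nat_lit 234) (nat_lit 456) (nat_lit 0) (XT.nd (nat_lit 78) (nat_lit 304) (nat_lit 0) (XT.lf (nat_lit 0) (nat_lit 771250106) (nat_lit 0) (nat_lit 861626255) (nat_lit 152) (nat_lit 21545722) (nat_lit 134) (nat_lit 3) (nat_lit 134) (nat_lit 1) (nat_lit 136) (nat_lit 1) (nat_lit 383) (nat_lit 357) (nat_lit 280)) (XT.nd (nat_lit 78) (nat_lit 76) (nat_lit 0) (XT.lf (nat_lit 152) (nat_lit 1539370461) (nat_lit 0) (nat_lit 66613944) (nat_lit 76) (nat_lit 6700964) (nat_lit 133) (nat_lit 1) (nat_lit 131) (nat_lit 1) (nat_lit 132) (nat_lit 1) (nat_lit 384) (nat_lit 357) (nat_lit 279)) (XT.lf (nat_lit 76)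 (nat_lit 679141632) (nat_lit 0) (nat_lit 139364395) (nat_lit 76) (nat_lit 752934947) (nat_lit 131) (nat_lit 3) (nat_lit 130) (nat_lit 1) (nat_lit 131) (nat_lit 1) (nat_lit 385) (nat_lit 357) (nat_lit 278)))) (XT.nd (nat_lit 156) (nat_lit 228) (nat_lit 0) (XT.nd (nat_lit 78) (nat_lit 76) (nat_lit 0) (XT.lf (nat_lit 0) (nat_lit 76773326) (nat_lit 0) (nat_lit 141846796) (nat_lit 152) (nat_lit 1313128139) (nat_lit 128) (nat_lit 3) (nat_lit 128) (nat_lit 1) (nat_lit 130) (nat_lit 1) (nat_lit 386) (nat_lit 357) (nat_lit 277)) (XT.lf (nat_lit 76) (nat_lit 573684195) (nat_lit 0) (nat_lit 285029634) (nat_lit 76) (nat_lit 633937408) (nat_lit 128) (nat_lit 3) (nat_lit 127) (nat_lit 1) (nat_lit 128) (nat_lit 1) (nat_lit 387) (nat_lit 357) (nat_lit 276))) (XT.nd (nat_lit 78) (nat_lit 76) (nat_lit 0) (XT.lf (nat_lit 0) (nat_lit 151067086) (nat_lit 0) (nat_lit 204200431) (nat_lit 152) (nat_lit 1099642870) (nat_lit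 125) (nat_lit 3) (nat_lit 125) (nat_lit 1) (nat_lit 127) (nat_lit 1) (nat_lit 388) (nat_lit 357) (nat_lit 275)) (XT.lf (nat_lit 76) (nat_lit 476400875) (nat_lit 0) (nat_lit 415851816) (nat_lit 76) (nat_lit 525598416) (nat_lit 125) (nat_lit 3) (nat_lit 124) (nat_lit 1) (nat_lit 125) (nat_lit 1) (nat_lit 389) (nat_lit 357) (nat_lit 274)))))) (XT.nd (nat_lit 546) (nat_lit 912) (nat_lit 0) (XT.nd (nat_lit 234) (nat_lit 456) (nat_lit 0) (XT.nd (nat_lit 78) (nat_lit 228) (nat_lit 0) (XT.lf (nat_lit 0) (nat_lit 217179573) (nat_lit 0) (nat_lit 260563648) (nat_lit 152) (nat_lit 904220411) (nat_lit 122) (nat_lit 3) (nat_lit 122) (nat_lit 1) (nat_lit 124) (nat_lit 1) (nat_lit 390) (nat_lit 357) (nat_lit 273)) (XT.nd (nat_lit 78) (nat_lit 152) (nat_lit 0) (XT.lf (nat_lit 76) (nat_lit 386886303) (nat_lit 0) (nat_lit 532890713) (nat_lit 76) (nat_lit 427056743) (nat_lit 122) (nat_lit 3) (nat_lit 121) (nat_lit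 1) (nat_lit 122) (nat_lit 1) (nat_lit 391) (nat_lit 357) (nat_lit 272)) (XT.lf (nat_lit 0) (nat_lit 275823216) (nat_lit 0) (nat_lit 311246884) (nat_lit 152) (nat_lit 725636464) (nat_lit 119) (nat_lit 3) (nat_lit 119) (nat_lit 1) (nat_lit 121) (nat_lit 1) (nat_lit 392) (nat_lit 357) (nat_lit 271)))) (XT.nd (nat_lit 156) (nat_lit 228) (nat_lit 0) (XT.nd (nat_lit 78) (nat_lit 152) (nat_lit 0) (XT.lf (nat_lit 76) (nat_lit 304726571) (nat_lit 0) (nat_lit 637151009) (nat_lit 76) (nat_lit 337526264) (nat_lit 119) (nat_lit 3) (nat_lit 118) (nat_lit 1) (nat_lit 119) (nat_lit 1) (nat_lit 393) (nat_lit 357) (nat_lit 270)) (XT.lf (nat_lit 0) (nat_lit 327646270) (nat_lit 0) (nat_lit 356570161) (nat_lit 152) (nat_lit 562732421) (nat_lit 116) (nat_lit 3) (nat_lit 116) (nat_lit 1) (nat_lit 118) (nat_lit 1) (nat_lit 394) (nat_lit 357) (nat_lit 269))) (XT.nd (nat_lit 78) (nat_lit 152) (nat_lit 0) (XT.lf (nat_lit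 76) (nat_lit 229506430) (nat_lit 0) (nat_lit 729582479) (nat_lit 76) (nat_lit 256287811) (nat_lit 116) (nat_lit 3) (nat_lit 115) (nat_lit 1) (nat_lit 116) (nat_lit 1) (nat_lit 395) (nat_lit 357) (nat_lit 268)) (XT.lf (nat_lit 0) (nat_lit 373239837) (nat_lit 0) (nat_lit 396856575) (nat_lit 152) (nat_lit 414414135) (nat_lit 113) (nat_lit 3) (nat_lit 113) (nat_lit 1) (nat_lit 115) (nat_lit 1) (nat_lit 396) (nat_lit 357) (nat_lit 267))))) (XT.nd (nat_lit 234) (nat_lit 608) (nat_lit 0) (XT.nd (nat_lit 78) (nat_lit 228) (nat_lit 0) (XT.lf (nat_lit 76) (nat_lit 160814812) (nat_lit 0) (nat_lit 811080784) (nat_lit 76) (nat_lit 182682162) (nat_lit 113) (nat_lit 3) (nat_lit 112) (nat_lit 1) (nat_lit 113) (nat_lit 1) (nat_lit 397) (nat_lit 357) (nat_lit 266)) (XT.nd (nat_lit 78) (nat_lit 76) (nat_lit 0) (XT.lf (nat_lit 0) (nat_lit 413143907) (nat_lit 0) (nat_lit 432427284) (nat_lit 152) (nat_lit 279650222)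 (nat_lit 110) (nat_lit 3) (nat_lit 110) (nat_lit 1) (nat_lit 112) (nat_lit 1) (nat_lit 398) (nat_lit 357) (nat_lit 265)) (XT.lf (nat_lit 76) (nat_lit 98249003) (nat_lit 0) (nat_lit 882488736) (nat_lit 76) (nat_lit 116103982) (nat_lit 110) (nat_lit 3) (nat_lit 109) (nat_lit 1) (nat_lit 110) (nat_lit 1) (nat_lit 399) (nat_lit 357) (nat_lit 264)))) (XT.nd (nat_lit 156) (nat_lit 380) (nat_lit 0) (XT.nd (nat_lit 78) (nat_lit 76) (nat_lit 0) (XT.lf (nat_lit 0) (nat_lit 447852585) (nat_lit 0) (nat_lit 463597716) (nat_lit 152) (nat_lit 157470030) (nat_lit 107) (nat_lit 3) (nat_lit 107) (nat_lit 1) (nat_lit 109) (nat_lit 1) (nat_lit 400) (nat_lit 357) (nat_lit 263)) (XT.lf (nat_lit 76) (nat_lit 41417726) (nat_lit 0) (nat_lit 944597902) (nat_lit 76) (nat_lit 55996551) (nat_lit 107) (nat_lit 3) (nat_lit 106) (nat_lit 1) (nat_lit 107) (nat_lit 1) (nat_lit 401) (nat_lit 357) (nat_lit 262))) (XT.nd (nat_lit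 78) (nat_lit 228) (nat_lit 0) (XT.lf (nat_lit 0) (nat_lit 477818639) (nat_lit 0) (nat_lit 490674747) (nat_lit 152) (nat_lit 46961358) (nat_lit 104) (nat_lit 3) (nat_lit 104) (nat_lit 1) (nat_lit 106) (nat_lit 1) (nat_lit 402) (nat_lit 357) (nat_lit 261)) (XT.lf (nat_lit 152) (nat_lit 980062003) (nat_lit 0) (nat_lit 8318707) (nat_lit 76) (nat_lit 1545931) (nat_lit 103) (nat_lit 1) (nat_lit 101) (nat_lit 1) (nat_lit 102) (nat_lit 1) (nat_lit 403) (nat_lit 357) (nat_lit 260))))))) (XT.nd (nat_lit 1014) (nat_lit 380) (nat_lit 0) (XT.nd (nat_lit 468) (nat_lit 760) (nat_lit 0) (XT.nd (nat_lit 234) (nat_lit 380) (nat_lit 0) (XT.nd (nat_lit 78) (nat_lit 228) (nat_lit 0) (XT.lf (nat_lit 76) (nat_lit 449832461) (nat_lit 0) (nat_lit 54475523) (nat_lit 76) (nat_lit 460329642) (nat_lit 101) (nat_lit 3) (nat_lit 100) (nat_lit 1) (nat_lit 101) (nat_lit 1) (nat_lit 404) (nat_lit 357) (nat_lit 259)) (XT.nd (nat_lit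 78) (nat_lit 76) (nat_lit 0) (XT.lf (nat_lit 0) (nat_lit 47895469) (nat_lit 0) (nat_lit 57152242) (nat_lit 152) (nat_lit 835274682) (nat_lit 98) (nat_lit 3) (nat_lit 98) (nat_lit 1) (nat_lit 100) (nat_lit 1) (nat_lit 405) (nat_lit 357) (nat_lit 258)) (XT.lf (nat_lit 76) (nat_lit 380326141) (nat_lit 0) (nat_lit 147121420) (nat_lit 76) (nat_lit 388897228) (nat_lit 98) (nat_lit 3) (nat_lit 97) (nat_lit 1) (nat_lit 98) (nat_lit 1) (nat_lit 406) (nat_lit 357) (nat_lit 257)))) (XT.nd (nat_lit 78) (nat_lit 228) (nat_lit 0) (XT.lf (nat_lit 0) (nat_lit 92168416) (nat_lit 0) (nat_lit 99726693) (nat_lit 152) (nat_lit 701322344) (nat_lit 95) (nat_lit 3) (nat_lit 95) (nat_lit 1) (nat_lit 97) (nat_lit 1) (nat_lit 407) (nat_lit 357) (nat_lit 256)) (XT.nd (nat_lit 78) (nat_lit 152) (nat_lit 0) (XT.lf (nat_lit 76) (nat_lit 316642586) (nat_lit 0) (nat_lit 230200158) (nat_lit 76) (nat_lit 323640991) (nat_lit 95)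 (nat_lit 3) (nat_lit 94) (nat_lit 1) (nat_lit 95) (nat_lit 1) (nat_lit 408) (nat_lit 357) (nat_lit 255)) (XT.lf (nat_lit 0) (nat_lit 131729660) (nat_lit 0) (nat_lit 137901093) (nat_lit 152) (nat_lit 578855023) (nat_lit 92) (nat_lit 3) (nat_lit 92) (nat_lit 1) (nat_lit 94) (nat_lit 1) (nat_lit 409) (nat_lit 357) (nat_lit 254))))) (XT.nd (nat_lit 234) (nat_lit 456) (nat_lit 0) (XT.nd (nat_lit 78) (nat_lit 228) (nat_lit 0) (XT.lf (nat_lit 76) (nat_lit 258389125) (nat_lit 0) (nat_lit 304438346) (nat_lit 76) (nat_lit 264103415) (nat_lit 92) (nat_lit 3) (nat_lit 91) (nat_lit 1) (nat_lit 92) (nat_lit 1) (nat_lit 410) (nat_lit 357) (nat_lit 253)) (XT.nd (nat_lit 78) (nat_lit 76) (nat_lit 0) (XT.lf (nat_lit 0) (nat_lit 166955936) (nat_lit 0) (nat_lit 171994992) (nat_lit 152) (nat_lit 467055809) (nat_lit 89) (nat_lit 3) (nat_lit 89) (nat_lit 1) (nat_lit 91) (nat_lit 1) (nat_lit 411) (nat_lit 357) (nat_lit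 252)) (XT.lf (nat_lit 76) (nat_lit 205194022) (nat_lit 0) (nat_lit 370515235) (nat_lit 76) (nat_lit 209859814) (nat_lit 89) (nat_lit 3) (nat_lit 88) (nat_lit 1) (nat_lit 89) (nat_lit 1) (nat_lit 412) (nat_lit 357) (nat_lit 251)))) (XT.nd (nat_lit 156) (nat_lit 228) (nat_lit 0) (XT.nd (nat_lit 78) (nat_lit 76) (nat_lit 0) (XT.lf (nat_lit 0) (nat_lit 198195901) (nat_lit 0) (nat_lit 202310357) (nat_lit 152) (nat_lit 365159693) (nat_lit 86) (nat_lit 3) (nat_lit 86) (nat_lit 1) (nat_lit 88) (nat_lit 1) (nat_lit 413) (nat_lit 357) (nat_lit 250)) (XT.lf (nat_lit 76) (nat_lit 156706102) (nat_lit 0) (nat_lit 429065290) (nat_lit 76) (nat_lit 160515783) (nat_lit 86) (nat_lit 3) (nat_lit 85) (nat_lit 1) (nat_lit 86) (nat_lit 1) (nat_lit 414) (nat_lit 357) (nat_lit 249))) (XT.nd (nat_lit 78) (nat_lit 76) (nat_lit 0) (XT.lf (nat_lit 0) (nat_lit 225772362) (nat_lit 0) (nat_lit 229131869) (nat_lit 152) (nat_lit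 272450718) (nat_lit 83) (nat_lit 3) (nat_lit 83) (nat_lit 1) (nat_lit 85) (nat_lit 1) (nat_lit 415) (nat_lit 357) (nat_lit 248)) (XT.lf (nat_lit 76) (nat_lit 112594236) (nat_lit 0) (nat_lit 480680694) (nat_lit 76) (nat_lit 115704891) (nat_lit 83) (nat_lit 3) (nat_lit 82) (nat_lit 1) (nat_lit 83) (nat_lit 1) (nat_lit 416) (nat_lit 357) (nat_lit 247)))))) (XT.nd (nat_lit 44616) (nat_lit 0) (nat_lit 14668) (XT.nd (nat_lit 44304) (nat_lit 0) (nat_lit 16340) (XT.nd (nat_lit 78) (nat_lit 228) (nat_lit 0) (XT.lf (nat_lit 0) (nat_lit 249984276) (nat_lit 0) (nat_lit 252727358) (nat_lit 152) (nat_lit 188259216) (nat_lit 80) (nat_lit 3) (nat_lit 80) (nat_lit 1) (nat_lit 82) (nat_lit 1) (nat_lit 417) (nat_lit 357) (nat_lit 246)) (XT.nd (nat_lit 78) (nat_lit 152) (nat_lit 0) (XT.lf (nat_lit 76) (nat_lit 72546694) (nat_lit 0) (nat_lit 525913762) (nat_lit 76) (nat_lit 75086585) (nat_lit 80) (nat_lit 3) (nat_lit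 79) (nat_lit 1) (nat_lit 80) (nat_lit 1) (nat_lit 418) (nat_lit 357) (nat_lit 245)) (XT.lf (nat_lit 0) (nat_lit 271108570) (nat_lit 0) (nat_lit 273348333) (nat_lit 152) (nat_lit 111959158) (nat_lit 77) (nat_lit 3) (nat_lit 77) (nat_lit 1) (nat_lit 79) (nat_lit 1) (nat_lit 419) (nat_lit 357) (nat_lit 244)))) (XT.nd (nat_lit 156) (nat_lit 0) (nat_lit 76) (XT.nd (nat_lit 78) (nat_lit 0) (nat_lit 76) (XT.lf (nat_lit 836) (nat_lit 2147223629) (nat_lit 0) (nat_lit 3812390618) (nat_lit 836) (nat_lit 2147223629) (nat_lit 303) (nat_lit 1) (nat_lit 292) (nat_lit 0) (nat_lit 303) (nat_lit 0) (nat_lit 304) (nat_lit 358) (nat_lit 358)) (XT.lf (nat_lit 836) (nat_lit 800980299) (nat_lit 0) (nat_lit 7484878228) (nat_lit 760) (nat_lit 7320185901) (nat_lit 304) (nat_lit 1) (nat_lit 293) (nat_lit 1) (nat_lit 303) (nat_lit 1) (nat_lit 305) (nat_lit 358) (nat_lit 357))) (XT.nd (nat_lit 78) (nat_lit 0) (nat_lit 76)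 (XT.lf (nat_lit 836) (nat_lit 7356541717) (nat_lit 76) (nat_lit 5012625472) (nat_lit 0) (nat_lit 2658467894) (nat_lit 304) (nat_lit 1) (nat_lit 294) (nat_lit 1) (nat_lit 293) (nat_lit 1) (nat_lit 306) (nat_lit 358) (nat_lit 356)) (XT.lf (nat_lit 836) (nat_lit 6356654700) (nat_lit 76) (nat_lit 2100756591) (nat_lit 0) (nat_lit 6020759518) (nat_lit 305) (nat_lit 1) (nat_lit 295) (nat_lit 1) (nat_lit 294) (nat_lit 1) (nat_lit 307) (nat_lit 358) (nat_lit 355))))) (XT.nd (nat_lit 234) (nat_lit 1900) (nat_lit 0) (XT.nd (nat_lit 78) (nat_lit 0) (nat_lit 76) (XT.lf (nat_lit 836) (nat_lit 4704464902) (nat_lit 0) (nat_lit 8801831462) (nat_lit 760) (nat_lit 449948366) (nat_lit 306) (nat_lit 1) (nat_lit 295) (nat_lit 1) (nat_lit 305) (nat_lit 1) (nat_lit 308) (nat_lit 358) (nat_lit 354)) (XT.nd (nat_lit 78) (nat_lit 0) (nat_lit 0) (XT.lf (nat_lit 836) (nat_lit 1128790227) (nat_lit 0) (nat_lit 9706464430)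 (nat_lit 760) (nat_lit 2623989617) (nat_lit 307) (nat_lit 1) (nat_lit 296) (nat_lit 1) (nat_lit 306) (nat_lit 1) (nat_lit 309) (nat_lit 358) (nat_lit 353)) (XT.lf (nat_lit 836) (nat_lit 2169075699) (nat_lit 76) (nat_lit 8435708021) (nat_lit 0) (nat_lit 2380660880) (nat_lit 307) (nat_lit 1) (nat_lit 297) (nat_lit 1) (nat_lit 296) (nat_lit 1) (nat_lit 310) (nat_lit 358) (nat_lit 352)))) (XT.nd (nat_lit 156) (nat_lit 760) (nat_lit 0) (XT.nd (nat_lit 78) (nat_lit 532) (nat_lit 0) (XT.lf (nat_lit 836) (nat_lit 445478687) (nat_lit 0) (nat_lit 6306249746) (nat_lit 760) (nat_lit 5782764941) (nat_lit 298) (nat_lit 1) (nat_lit 287) (nat_lit 1) (nat_lit 297) (nat_lit 1) (nat_lit 311) (nat_lit 358) (nat_lit 351)) (XT.lf (nat_lit 76) (nat_lit 3084587225) (nat_lit 0) (nat_lit 1336695190) (nat_lit 532) (nat_lit 7683611839) (nat_lit 281) (nat_lit 1) (nat_lit 280) (nat_lit 1) (nat_lit 287) (nat_lit 1) (nat_lit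 312) (nat_lit 358) (nat_lit 350))) (XT.nd (nat_lit 78) (nat_lit 380) (nat_lit 0) (XT.lf (nat_lit 456) (nat_lit 8500734147) (nat_lit 0) (nat_lit 2767172226) (nat_lit 380) (nat_lit 427821924) (nat_lit 281) (nat_lit 1) (nat_lit 275) (nat_lit 1) (nat_lit 280) (nat_lit 1) (nat_lit 313) (nat_lit 358) (nat_lit 349)) (XT.lf (nat_lit 456) (nat_lit 6134210710) (nat_lit 0) (nat_lit 1289790894) (nat_lit 380) (nat_lit 3880154139) (nat_lit 276) (nat_lit 1) (nat_lit 270) (nat_lit 1) (nat_lit 275) (nat_lit 1) (nat_lit 314) (nat_lit 358) (nat_lit 348))))))))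
noncomputable def ec58 : XT := (XT.nd (nat_lit 2028) (nat_lit 3344) (nat_lit 0) (XT.nd (nat_lit 1014) (nat_lit 2052) (nat_lit 0) (XT.nd (nat_lit 468) (nat_lit 1824) (nat_lit 0) (XT.nd (nat_lit 234) (nat_lit 836) (nat_lit 0) (XT.nd (nat_lit 78) (nat_lit 380) (nat_lit 0) (XT.lf (nat_lit 380) (nat_lit 3732588982) (nat_lit 0) (nat_lit 23747146) (nat_lit 304) (nat_lit 7175233565) (nat_lit 271) (nat_lit 1) (nat_lit 266) (nat_lit 1) (nat_lit 270) (nat_lit 1) (nat_lit 315) (nat_lit 358) (nat_lit 347)) (XT.nd (nat_lit 78) (nat_lit 380) (nat_lit 0) (XT.lf (nat_lit 76) (nat_lit 275372774) (nat_lit 0) (nat_lit 9286904312) (nat_lit 380) (nat_lit 1013846178) (nat_lit 267) (nat_lit 1) (nat_lit 266) (nat_lit 1) (nat_lit 271) (nat_lit 1) (nat_lit 316) (nat_lit 358) (nat_lit 346)) (XT.lf (nat_lit 76) (nat_lit 7110196472) (nat_lit 0) (nat_lit 1179302163) (nat_lit 380) (nat_lit 1944883445) (nat_lit 262) (nat_lit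 1) (nat_lit 261) (nat_lit 1) (nat_lit 266) (nat_lit 1) (nat_lit 317) (nat_lit 358) (nat_lit 345)))) (XT.nd (nat_lit 78) (nat_lit 532) (nat_lit 0) (XT.lf (nat_lit 76) (nat_lit 3557411472) (nat_lit 0) (nat_lit 3612411872) (nat_lit 380) (nat_lit 2737917419) (nat_lit 258) (nat_lit 1) (nat_lit 257) (nat_lit 1) (nat_lit 262) (nat_lit 1) (nat_lit 318) (nat_lit 358) (nat_lit 344)) (XT.nd (nat_lit 78) (nat_lit 228) (nat_lit 0) (XT.lf (nat_lit 76) (nat_lit 175585941) (nat_lit 0) (nat_lit 6039896557) (nat_lit 380) (nat_lit 3381082334) (nat_lit 254) (nat_lit 1) (nat_lit 253) (nat_lit 1) (nat_lit 258) (nat_lit 1) (nat_lit 319) (nat_lit 358) (nat_lit 343)) (XT.lf (nat_lit 304) (nat_lit 792936217) (nat_lit 0) (nat_lit 5362248083) (nat_lit 228) (nat_lit 3142400615) (nat_lit 254) (nat_lit 1) (nat_lit 250) (nat_lit 1) (nat_lit 253) (nat_lit 1) (nat_lit 320) (nat_lit 358) (nat_lit 342))))) (XT.nd (nat_lit 234)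 (nat_lit 988) (nat_lit 0) (XT.nd (nat_lit 78) (nat_lit 456) (nat_lit 0) (XT.lf (nat_lit 76) (nat_lit 2739807819) (nat_lit 0) (nat_lit 1877881304) (nat_lit 380) (nat_lit 4393267277) (nat_lit 246) (nat_lit 1) (nat_lit 245) (nat_lit 1) (nat_lit 250) (nat_lit 1) (nat_lit 321) (nat_lit 358) (nat_lit 341)) (XT.nd (nat_lit 78) (nat_lit 228) (nat_lit 0) (XT.lf (nat_lit 304) (nat_lit 4241881514) (nat_lit 0) (nat_lit 3984699432) (nat_lit 228) (nat_lit 510036798) (nat_lit 246) (nat_lit 1) (nat_lit 242) (nat_lit 1) (nat_lit 245) (nat_lit 1) (nat_lit 322) (nat_lit 358) (nat_lit 340)) (XT.lf (nat_lit 304) (nat_lit 1359502532) (nat_lit 0) (nat_lit 3430663039) (nat_lit 228) (nat_lit 3682656427) (nat_lit 243) (nat_lit 1) (nat_lit 239) (nat_lit 1) (nat_lit 242) (nat_lit 1) (nat_lit 323) (nat_lit 358) (nat_lit 339)))) (XT.nd (nat_lit 156) (nat_lit 456) (nat_lit 0) (XT.nd (nat_lit 78) (nat_lit 228) (nat_lit 0) (XT.lf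 (nat_lit 76) (nat_lit 1549504387) (nat_lit 0) (nat_lit 1418705921) (nat_lit 304) (nat_lit 5251771879) (nat_lit 236) (nat_lit 1) (nat_lit 235) (nat_lit 1) (nat_lit 239) (nat_lit 1) (nat_lit 324) (nat_lit 358) (nat_lit 338)) (XT.lf (nat_lit 304) (nat_lit 3855738296) (nat_lit 0) (nat_lit 2565465379) (nat_lit 228) (nat_lit 1555193547) (nat_lit 236) (nat_lit 1) (nat_lit 232) (nat_lit 1) (nat_lit 235) (nat_lit 1) (nat_lit 325) (nat_lit 358) (nat_lit 337))) (XT.nd (nat_lit 78) (nat_lit 304) (nat_lit 0) (XT.lf (nat_lit 228) (nat_lit 955843216) (nat_lit 0) (nat_lit 2238181418) (nat_lit 152) (nat_lit 4548614521) (nat_lit 233) (nat_lit 1) (nat_lit 230) (nat_lit 1) (nat_lit 232) (nat_lit 1) (nat_lit 326) (nat_lit 358) (nat_lit 336)) (XT.lf (nat_lit 76) (nat_lit 161925947) (nat_lit 0) (nat_lit 1811986506) (nat_lit 304) (nat_lit 5544029713) (nat_lit 227) (nat_lit 1) (nat_lit 226) (nat_lit 1) (nat_lit 230)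 (nat_lit 1) (nat_lit 327) (nat_lit 358) (nat_lit 335)))))) (XT.nd (nat_lit 468) (nat_lit 988) (nat_lit 0) (XT.nd (nat_lit 234) (nat_lit 532) (nat_lit 0) (XT.nd (nat_lit 78) (nat_lit 380) (nat_lit 0) (XT.lf (nat_lit 228) (nat_lit 2777505003) (nat_lit 0) (nat_lit 1735702345) (nat_lit 152) (nat_lit 2787170748) (nat_lit 227) (nat_lit 1) (nat_lit 224) (nat_lit 1) (nat_lit 226) (nat_lit 1) (nat_lit 328) (nat_lit 358) (nat_lit 334)) (XT.nd (nat_lit 78) (nat_lit 152) (nat_lit 0) (XT.lf (nat_lit 76) (nat_lit 1506958142) (nat_lit 0) (nat_lit 69607341) (nat_lit 228) (nat_lit 5515742290) (nat_lit 222) (nat_lit 1) (nat_lit 221) (nat_lit 1) (nat_lit 224) (nat_lit 1) (nat_lit 329) (nat_lit 358) (nat_lit 333)) (XT.lf (nat_lit 228) (nat_lit 4119732560) (nat_lit 0) (nat_lit 1427579704) (nat_lit 152) (nat_lit 1342977803) (nat_lit 222) (nat_lit 1) (nat_lit 219) (nat_lit 1) (nat_lit 221) (nat_lit 1) (nat_lit 330)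 (nat_lit 358) (nat_lit 332)))) (XT.nd (nat_lit 78) (nat_lit 380) (nat_lit 0) (XT.lf (nat_lit 228) (nat_lit 1279754022) (nat_lit 0) (nat_lit 1327093199) (nat_lit 152) (nat_lit 4089149160) (nat_lit 220) (nat_lit 1) (nat_lit 217) (nat_lit 1) (nat_lit 219) (nat_lit 1) (nat_lit 331) (nat_lit 358) (nat_lit 331)) (XT.nd (nat_lit 78) (nat_lit 152) (nat_lit 0) (XT.lf (nat_lit 228) (nat_lit 5080153146) (nat_lit 0) (nat_lit 1267929838) (nat_lit 152) (nat_lit 160851610) (nat_lit 217) (nat_lit 1) (nat_lit 214) (nat_lit 1) (nat_lit 216) (nat_lit 1) (nat_lit 332) (nat_lit 358) (nat_lit 330)) (XT.lf (nat_lit 228) (nat_lit 2273641102) (nat_lit 0) (nat_lit 1210445517) (nat_lit 152) (nat_lit 2842984042) (nat_lit 215) (nat_lit 1) (nat_lit 212) (nat_lit 1) (nat_lit 214) (nat_lit 1) (nat_lit 333) (nat_lit 358) (nat_lit 329))))) (XT.nd (nat_lit 234) (nat_lit 608) (nat_lit 0) (XT.nd (nat_lit 78) (nat_lit 228) (nat_lit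 0) (XT.lf (nat_lit 76) (nat_lit 778809860) (nat_lit 0) (nat_lit 428068993) (nat_lit 152) (nat_lit 4945871123) (nat_lit 211) (nat_lit 1) (nat_lit 210) (nat_lit 1) (nat_lit 212) (nat_lit 1) (nat_lit 334) (nat_lit 358) (nat_lit 328)) (XT.nd (nat_lit 78) (nat_lit 76) (nat_lit 0) (XT.lf (nat_lit 228) (nat_lit 2983147885) (nat_lit 0) (nat_lit 1194099350) (nat_lit 152) (nat_lit 1805580872) (nat_lit 211) (nat_lit 1) (nat_lit 208) (nat_lit 1) (nat_lit 210) (nat_lit 1) (nat_lit 335) (nat_lit 358) (nat_lit 327)) (XT.lf (nat_lit 152) (nat_lit 321242637) (nat_lit 0) (nat_lit 1223427973) (nat_lit 76) (nat_lit 4274943925) (nat_lit 209) (nat_lit 1) (nat_lit 207) (nat_lit 1) (nat_lit 208) (nat_lit 1) (nat_lit 336) (nat_lit 358) (nat_lit 326)))) (XT.nd (nat_lit 156) (nat_lit 304) (nat_lit 0) (XT.nd (nat_lit 78) (nat_lit 76) (nat_lit 0) (XT.lf (nat_lit 228) (nat_lit 3467695668) (nat_lit 0) (nat_lit 1251240341)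 (nat_lit 152) (nat_lit 941965257) (nat_lit 207) (nat_lit 1) (nat_lit 204) (nat_lit 1) (nat_lit 206) (nat_lit 1) (nat_lit 337) (nat_lit 358) (nat_lit 325)) (XT.lf (nat_lit 152) (nat_lit 872151031) (nat_lit 0) (nat_lit 1298025478) (nat_lit 76) (nat_lit 3337360443) (nat_lit 205) (nat_lit 1) (nat_lit 203) (nat_lit 1) (nat_lit 204) (nat_lit 1) (nat_lit 338) (nat_lit 358) (nat_lit 324))) (XT.nd (nat_lit 78) (nat_lit 76) (nat_lit 0) (XT.lf (nat_lit 228) (nat_lit 3775327328) (nat_lit 0) (nat_lit 1360629631) (nat_lit 152) (nat_lit 223290970) (nat_lit 203) (nat_lit 1) (nat_lit 200) (nat_lit 1) (nat_lit 202) (nat_lit 1) (nat_lit 339) (nat_lit 358) (nat_lit 323)) (XT.lf (nat_lit 152) (nat_lit 1255144986) (nat_lit 0) (nat_lit 1418472740) (nat_lit 76) (nat_lit 2541316414) (nat_lit 201) (nat_lit 1) (nat_lit 199) (nat_lit 1) (nat_lit 200) (nat_lit 1) (nat_lit 340) (nat_lit 358) (nat_lit 322))))))) (XT.nd (nat_lit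 1014) (nat_lit 1672) (nat_lit 0) (XT.nd (nat_lit 468) (nat_lit 836) (nat_lit 0) (XT.nd (nat_lit 234) (nat_lit 304) (nat_lit 0) (XT.nd (nat_lit 78) (nat_lit 304) (nat_lit 0) (XT.lf (nat_lit 76) (nat_lit 362284793) (nat_lit 0) (nat_lit 1137115394) (nat_lit 228) (nat_lit 3576404645) (nat_lit 197) (nat_lit 1) (nat_lit 196) (nat_lit 1) (nat_lit 199) (nat_lit 1) (nat_lit 341) (nat_lit 358) (nat_lit 321)) (XT.nd (nat_lit 78) (nat_lit 228) (nat_lit 0) (XT.lf (nat_lit 152) (nat_lit 1506287226) (nat_lit 0) (nat_lit 1569479893) (nat_lit 76) (nat_lit 1864363597) (nat_lit 197) (nat_lit 1) (nat_lit 195) (nat_lit 1) (nat_lit 196) (nat_lit 1) (nat_lit 342) (nat_lit 358) (nat_lit 320)) (XT.lf (nat_lit 76) (nat_lit 842539532) (nat_lit 0) (nat_lit 816056509) (nat_lit 228) (nat_lit 3150628480) (nat_lit 193) (nat_lit 1) (nat_lit 192) (nat_lit 1) (nat_lit 195) (nat_lit 1) (nat_lit 343) (nat_lit 358) (nat_lit 319))))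 (XT.nd (nat_lit 78) (nat_lit 228) (nat_lit 0) (XT.lf (nat_lit 152) (nat_lit 1654659897) (nat_lit 0) (nat_lit 1739111471) (nat_lit 76) (nat_lit 1287891560) (nat_lit 193) (nat_lit 1) (nat_lit 191) (nat_lit 1) (nat_lit 192) (nat_lit 1) (nat_lit 344) (nat_lit 358) (nat_lit 318)) (XT.nd (nat_lit 78) (nat_lit 76) (nat_lit 0) (XT.lf (nat_lit 76) (nat_lit 1240413020) (nat_lit 0) (nat_lit 591034609) (nat_lit 152) (nat_lit 2726866479) (nat_lit 190) (nat_lit 1) (nat_lit 189) (nat_lit 1) (nat_lit 191) (nat_lit 1) (nat_lit 345) (nat_lit 358) (nat_lit 317)) (XT.lf (nat_lit 152) (nat_lit 1723668939) (nat_lit 0) (nat_lit 1918132650) (nat_lit 76) (nat_lit 796443091) (nat_lit 190) (nat_lit 1) (nat_lit 188) (nat_lit 1) (nat_lit 189) (nat_lit 1) (nat_lit 346) (nat_lit 358) (nat_lit 316))))) (XT.nd (nat_lit 234) (nat_lit 456) (nat_lit 0) (XT.nd (nat_lit 78) (nat_lit 228) (nat_lit 0) (XT.lf (nat_lit 76) (nat_lit 1569007138)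 (nat_lit 0) (nat_lit 440919525) (nat_lit 152) (nat_lit 2311941798) (nat_lit 187) (nat_lit 1) (nat_lit 186) (nat_lit 1) (nat_lit 188) (nat_lit 1) (nat_lit 347) (nat_lit 358) (nat_lit 315)) (XT.nd (nat_lit 78) (nat_lit 152) (nat_lit 0) (XT.lf (nat_lit 152) (nat_lit 1732107655) (nat_lit 0) (nat_lit 2099477932) (nat_lit 76) (nat_lit 377153951) (nat_lit 187) (nat_lit 1) (nat_lit 185) (nat_lit 1) (nat_lit 186) (nat_lit 1) (nat_lit 348) (nat_lit 358) (nat_lit 314)) (XT.lf (nat_lit 76) (nat_lit 1839211014) (nat_lit 0) (nat_lit 348720635) (nat_lit 152) (nat_lit 1910887627) (nat_lit 184) (nat_lit 1) (nat_lit 183) (nat_lit 1) (nat_lit 185) (nat_lit 1) (nat_lit 349) (nat_lit 358) (nat_lit 313)))) (XT.nd (nat_lit 156) (nat_lit 228) (nat_lit 0) (XT.nd (nat_lit 78) (nat_lit 152) (nat_lit 0) (XT.lf (nat_lit 152) (nat_lit 1695023764) (nat_lit 0) (nat_lit 2277819655) (nat_lit 76) (nat_lit 19294236) (nat_lit 184)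 (nat_lit 1) (nat_lit 182) (nat_lit 1) (nat_lit 183) (nat_lit 1) (nat_lit 350) (nat_lit 358) (nat_lit 312)) (XT.lf (nat_lit 76) (nat_lit 2060092695) (nat_lit 0) (nat_lit 300809592) (nat_lit 152) (nat_lit 1527311961) (nat_lit 181) (nat_lit 1) (nat_lit 180) (nat_lit 1) (nat_lit 182) (nat_lit 1) (nat_lit 351) (nat_lit 358) (nat_lit 311))) (XT.nd (nat_lit 78) (nat_lit 152) (nat_lit 0) (XT.lf (nat_lit 0) (nat_lit 276950018) (nat_lit 0) (nat_lit 2167577554) (nat_lit 152) (nat_lit 1342785767) (nat_lit 179) (nat_lit 3) (nat_lit 179) (nat_lit 1) (nat_lit 181) (nat_lit 1) (nat_lit 352) (nat_lit 358) (nat_lit 310)) (XT.lf (nat_lit 76) (nat_lit 2239219933) (nat_lit 0) (nat_lit 286286800) (nat_lit 152) (nat_lit 1163693110) (nat_lit 178) (nat_lit 1) (nat_lit 177) (nat_lit 1) (nat_lit 179) (nat_lit 1) (nat_lit 353) (nat_lit 358) (nat_lit 309)))))) (XT.nd (nat_lit 546) (nat_lit 912) (nat_lit 0) (XT.nd (nat_lit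 234) (nat_lit 456) (nat_lit 0) (XT.nd (nat_lit 78) (nat_lit 228) (nat_lit 0) (XT.lf (nat_lit 0) (nat_lit 529076994) (nat_lit 0) (nat_lit 2072799262) (nat_lit 152) (nat_lit 991823075) (nat_lit 176) (nat_lit 3) (nat_lit 176) (nat_lit 1) (nat_lit 178) (nat_lit 1) (nat_lit 354) (nat_lit 358) (nat_lit 308)) (XT.nd (nat_lit 78) (nat_lit 76) (nat_lit 0) (XT.lf (nat_lit 76) (nat_lit 2382923013) (nat_lit 0) (nat_lit 296465193) (nat_lit 152) (nat_lit 821618824) (nat_lit 175) (nat_lit 1) (nat_lit 174) (nat_lit 1) (nat_lit 176) (nat_lit 1) (nat_lit 355) (nat_lit 358) (nat_lit 307)) (XT.lf (nat_lit 0) (nat_lit 743823373) (nat_lit 0) (nat_lit 2004292924) (nat_lit 152) (nat_lit 662457468) (nat_lit 173) (nat_lit 3) (nat_lit 173) (nat_lit 1) (nat_lit 175) (nat_lit 1) (nat_lit 356) (nat_lit 358) (nat_lit 306)))) (XT.nd (nat_lit 156) (nat_lit 228) (nat_lit 0) (XT.nd (nat_lit 78) (nat_lit 76) (nat_lit 0) (XT.lf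 (nat_lit 76) (nat_lit 2496510202) (nat_lit 0) (nat_lit 324449726) (nat_lit 152) (nat_lit 501979496) (nat_lit 172) (nat_lit 1) (nat_lit 171) (nat_lit 1) (nat_lit 173) (nat_lit 1) (nat_lit 357) (nat_lit 358) (nat_lit 305)) (XT.lf (nat_lit 0) (nat_lit 926348216) (nat_lit 0) (nat_lit 1955538195) (nat_lit 152) (nat_lit 355381830) (nat_lit 170) (nat_lit 3) (nat_lit 170) (nat_lit 1) (nat_lit 172) (nat_lit 1) (nat_lit 358) (nat_lit 358) (nat_lit 304))) (XT.nd (nat_lit 78) (nat_lit 76) (nat_lit 0) (XT.lf (nat_lit 76) (nat_lit 2584444461) (nat_lit 0) (nat_lit 364794967) (nat_lit 152) (nat_lit 205124001) (nat_lit 169) (nat_lit 1) (nat_lit 168) (nat_lit 1) (nat_lit 170) (nat_lit 1) (nat_lit 359) (nat_lit 358) (nat_lit 303)) (XT.lf (nat_lit 0) (nat_lit 1081014856) (nat_lit 0) (nat_lit 1921362020) (nat_lit 152) (nat_lit 70796811) (nat_lit 167) (nat_lit 3) (nat_lit 167) (nat_lit 1) (nat_lit 169) (nat_lit 1)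 (nat_lit 360) (nat_lit 358) (nat_lit 302))))) (XT.nd (nat_lit 234) (nat_lit 456) (nat_lit 0) (XT.nd (nat_lit 78) (nat_lit 228) (nat_lit 0) (XT.lf (nat_lit 152) (nat_lit 2580304825) (nat_lit 0) (nat_lit 71296799) (nat_lit 76) (nat_lit 343042724) (nat_lit 166) (nat_lit 1) (nat_lit 164) (nat_lit 1) (nat_lit 165) (nat_lit 1) (nat_lit 361) (nat_lit 358) (nat_lit 301)) (XT.nd (nat_lit 78) (nat_lit 152) (nat_lit 0) (XT.lf (nat_lit 76) (nat_lit 1016809578) (nat_lit 0) (nat_lit 197804595) (nat_lit 76) (nat_lit 1702964099) (nat_lit 164) (nat_lit 3) (nat_lit 163) (nat_lit 1) (nat_lit 164) (nat_lit 1) (nat_lit 362) (nat_lit 358) (nat_lit 300)) (XT.lf (nat_lit 152) (nat_lit 2371570969) (nat_lit 0) (nat_lit 331427341) (nat_lit 76) (nat_lit 140160756) (nat_lit 163) (nat_lit 1) (nat_lit 161) (nat_lit 1) (nat_lit 162) (nat_lit 1) (nat_lit 363) (nat_lit 358) (nat_lit 299)))) (XT.nd (nat_lit 156) (nat_lit 228)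 (nat_lit 0) (XT.nd (nat_lit 78) (nat_lit 152) (nat_lit 0) (XT.lf (nat_lit 76) (nat_lit 881830455) (nat_lit 0) (nat_lit 446169632) (nat_lit 76) (nat_lit 1442084652) (nat_lit 161) (nat_lit 3) (nat_lit 160) (nat_lit 1) (nat_lit 161) (nat_lit 1) (nat_lit 364) (nat_lit 358) (nat_lit 298)) (XT.lf (nat_lit 0) (nat_lit 37220598) (nat_lit 0) (nat_lit 531271918) (nat_lit 152) (nat_lit 2131060496) (nat_lit 158) (nat_lit 3) (nat_lit 158) (nat_lit 1) (nat_lit 160) (nat_lit 1) (nat_lit 365) (nat_lit 358) (nat_lit 297))) (XT.nd (nat_lit 78) (nat_lit 152) (nat_lit 0) (XT.lf (nat_lit 76) (nat_lit 750086499) (nat_lit 0) (nat_lit 672649326) (nat_lit 76) (nat_lit 1207541425) (nat_lit 158) (nat_lit 3) (nat_lit 157) (nat_lit 1) (nat_lit 158) (nat_lit 1) (nat_lit 366) (nat_lit 358) (nat_lit 296)) (XT.lf (nat_lit 0) (nat_lit 189295799) (nat_lit 0) (nat_lit 592695205) (nat_lit 152) (nat_lit 1781319484) (nat_lit 155)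 (nat_lit 3) (nat_lit 155) (nat_lit 1) (nat_lit 157) (nat_lit 1) (nat_lit 367) (nat_lit 358) (nat_lit 295))))))))
noncomputable def ec59 : XT := (XT.nd (nat_lit 2106) (nat_lit 2964) (nat_lit 0) (XT.nd (nat_lit 1014) (nat_lit 1672) (nat_lit 0) (XT.nd (nat_lit 468) (nat_lit 836) (nat_lit 0) (XT.nd (nat_lit 234) (nat_lit 380) (nat_lit 0) (XT.nd (nat_lit 78) (nat_lit 228) (nat_lit 0) (XT.lf (nat_lit 76) (nat_lit 623054422) (nat_lit 0) (nat_lit 878091185) (nat_lit 76) (nat_lit 996572390) (nat_lit 155) (nat_lit 3) (nat_lit 154) (nat_lit 1) (nat_lit 155) (nat_lit 1) (nat_lit 368) (nat_lit 358) (nat_lit 294)) (XT.nd (nat_lit 78) (nat_lit 76) (nat_lit 0) (XT.lf (nat_lit 0) (nat_lit 322868397) (nat_lit 0) (nat_lit 652249322) (nat_lit 152) (nat_lit 1459001030) (nat_lit 152) (nat_lit 3) (nat_lit 152) (nat_lit 1) (nat_lit 154) (nat_lit 1) (nat_lit 369) (nat_lit 358) (nat_lit 293)) (XT.lf (nat_lit 76) (nat_lit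 501784142) (nat_lit 0) (nat_lit 1063449848) (nat_lit 76) (nat_lit 806766479) (nat_lit 152) (nat_lit 3) (nat_lit 151) (nat_lit 1) (nat_lit 152) (nat_lit 1) (nat_lit 370) (nat_lit 358) (nat_lit 292)))) (XT.nd (nat_lit 78) (nat_lit 228) (nat_lit 0) (XT.lf (nat_lit 0) (nat_lit 439956123) (nat_lit 0) (nat_lit 708899983) (nat_lit 152) (nat_lit 1162729106) (nat_lit 149) (nat_lit 3) (nat_lit 149) (nat_lit 1) (nat_lit 151) (nat_lit 1) (nat_lit 371) (nat_lit 358) (nat_lit 291)) (XT.nd (nat_lit 78) (nat_lit 152) (nat_lit 0) (XT.lf (nat_lit 76) (nat_lit 386987652) (nat_lit 0) (nat_lit 1229748800) (nat_lit 76) (nat_lit 636009744) (nat_lit 149) (nat_lit 3) (nat_lit 148) (nat_lit 1) (nat_lit 149) (nat_lit 1) (nat_lit 372) (nat_lit 358) (nat_lit 290)) (XT.lf (nat_lit 0) (nat_lit 542322987) (nat_lit 0) (nat_lit 761919189) (nat_lit 152) (nat_lit 891101691) (nat_lit 146) (nat_lit 3) (nat_lit 146) (nat_lit 1) (nat_lit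 148) (nat_lit 1) (nat_lit 373) (nat_lit 358) (nat_lit 289))))) (XT.nd (nat_lit 234) (nat_lit 532) (nat_lit 0) (XT.nd (nat_lit 78) (nat_lit 228) (nat_lit 0) (XT.lf (nat_lit 76) (nat_lit 279110906) (nat_lit 0) (nat_lit 1378050326) (nat_lit 76) (nat_lit 482440723) (nat_lit 146) (nat_lit 3) (nat_lit 145) (nat_lit 1) (nat_lit 146) (nat_lit 1) (nat_lit 374) (nat_lit 358) (nat_lit 288)) (XT.nd (nat_lit 78) (nat_lit 76) (nat_lit 0) (XT.lf (nat_lit 0) (nat_lit 631517501) (nat_lit 0) (nat_lit 810820690) (nat_lit 152) (nat_lit 642714521) (nat_lit 143) (nat_lit 3) (nat_lit 143) (nat_lit 1) (nat_lit 145) (nat_lit 1) (nat_lit 375) (nat_lit 358) (nat_lit 287)) (XT.lf (nat_lit 76) (nat_lit 178391888) (nat_lit 0) (nat_lit 1509432139) (nat_lit 76) (nat_lit 344413359) (nat_lit 143) (nat_lit 3) (nat_lit 142) (nat_lit 1) (nat_lit 143) (nat_lit 1) (nat_lit 376) (nat_lit 358) (nat_lit 286)))) (XT.nd (nat_lit 156) (nat_lit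 304) (nat_lit 0) (XT.nd (nat_lit 78) (nat_lit 76) (nat_lit 0) (XT.lf (nat_lit 0) (nat_lit 708904428) (nat_lit 0) (nat_lit 855307841) (nat_lit 152) (nat_lit 416179260) (nat_lit 140) (nat_lit 3) (nat_lit 140) (nat_lit 1) (nat_lit 142) (nat_lit 1) (nat_lit 377) (nat_lit 358) (nat_lit 285)) (XT.lf (nat_lit 76) (nat_lit 84907420) (nat_lit 0) (nat_lit 1624969356) (nat_lit 76) (nat_lit 220466136) (nat_lit 140) (nat_lit 3) (nat_lit 139) (nat_lit 1) (nat_lit 140) (nat_lit 1) (nat_lit 378) (nat_lit 358) (nat_lit 284))) (XT.nd (nat_lit 78) (nat_lit 152) (nat_lit 0) (XT.lf (nat_lit 0) (nat_lit 775691224) (nat_lit 0) (nat_lit 895231538) (nat_lit 152) (nat_lit 210137201) (nat_lit 137) (nat_lit 3) (nat_lit 137) (nat_lit 1) (nat_lit 139) (nat_lit 1) (nat_lit 379) (nat_lit 358) (nat_lit 283)) (XT.lf (nat_lit 76) (nat_lit 1724353319) (nat_lit 0) (nat_lit 1344701) (nat_lit 152) (nat_lit 107928838) (nat_lit 136)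 (nat_lit 1) (nat_lit 135) (nat_lit 1) (nat_lit 137) (nat_lit 1) (nat_lit 380) (nat_lit 358) (nat_lit 282)))))) (XT.nd (nat_lit 546) (nat_lit 836) (nat_lit 0) (XT.nd (nat_lit 234) (nat_lit 456) (nat_lit 0) (XT.nd (nat_lit 78) (nat_lit 304) (nat_lit 0) (XT.lf (nat_lit 0) (nat_lit 832950115) (nat_lit 0) (nat_lit 930556355) (nat_lit 152) (nat_lit 23269380) (nat_lit 134) (nat_lit 3) (nat_lit 134) (nat_lit 1) (nat_lit 136) (nat_lit 1) (nat_lit 381) (nat_lit 358) (nat_lit 281)) (XT.nd (nat_lit 78) (nat_lit 76) (nat_lit 0) (XT.lf (nat_lit 152) (nat_lit 1662520098) (nat_lit 0) (nat_lit 71943059) (nat_lit 76) (nat_lit 7237041) (nat_lit 133) (nat_lit 1) (nat_lit 131) (nat_lit 1) (nat_lit 132) (nat_lit 1) (nat_lit 382) (nat_lit 358) (nat_lit 280)) (XT.lf (nat_lit 76) (nat_lit 733472963) (nat_lit 0) (nat_lit 150513546) (nat_lit 76) (nat_lit 813169742) (nat_lit 131) (nat_lit 3) (nat_lit 130) (nat_lit 1) (nat_lit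 131) (nat_lit 1) (nat_lit 383) (nat_lit 358) (nat_lit 279)))) (XT.nd (nat_lit 156) (nat_lit 228) (nat_lit 0) (XT.nd (nat_lit 78) (nat_lit 76) (nat_lit 0) (XT.lf (nat_lit 0) (nat_lit 82915193) (nat_lit 0) (nat_lit 153194540) (nat_lit 152) (nat_lit 1418178391) (nat_lit 128) (nat_lit 3) (nat_lit 128) (nat_lit 1) (nat_lit 130) (nat_lit 1) (nat_lit 384) (nat_lit 358) (nat_lit 278)) (XT.lf (nat_lit 76) (nat_lit 619578931) (nat_lit 0) (nat_lit 307832005) (nat_lit 76) (nat_lit 684652400) (nat_lit 128) (nat_lit 3) (nat_lit 127) (nat_lit 1) (nat_lit 128) (nat_lit 1) (nat_lit 385) (nat_lit 358) (nat_lit 277))) (XT.nd (nat_lit 78) (nat_lit 76) (nat_lit 0) (XT.lf (nat_lit 0) (nat_lit 163152453) (nat_lit 0) (nat_lit 220536465) (nat_lit 152) (nat_lit 1187614300) (nat_lit 125) (nat_lit 3) (nat_lit 125) (nat_lit 1) (nat_lit 127) (nat_lit 1) (nat_lit 386) (nat_lit 358) (nat_lit 276)) (XT.lf (nat_lit 76) (nat_lit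 514512945) (nat_lit 0) (nat_lit 449119962) (nat_lit 76) (nat_lit 567646289) (nat_lit 125) (nat_lit 3) (nat_lit 124) (nat_lit 1) (nat_lit 125) (nat_lit 1) (nat_lit 387) (nat_lit 358) (nat_lit 275))))) (XT.nd (nat_lit 234) (nat_lit 456) (nat_lit 0) (XT.nd (nat_lit 78) (nat_lit 228) (nat_lit 0) (XT.lf (nat_lit 0) (nat_lit 234553939) (nat_lit 0) (nat_lit 281408740) (nat_lit 152) (nat_lit 976558044) (nat_lit 122) (nat_lit 3) (nat_lit 122) (nat_lit 1) (nat_lit 124) (nat_lit 1) (nat_lit 388) (nat_lit 358) (nat_lit 274)) (XT.nd (nat_lit 78) (nat_lit 152) (nat_lit 0) (XT.lf (nat_lit 76) (nat_lit 417837208) (nat_lit 0) (nat_lit 575521970) (nat_lit 76) (nat_lit 461221283) (nat_lit 122) (nat_lit 3) (nat_lit 121) (nat_lit 1) (nat_lit 122) (nat_lit 1) (nat_lit 389) (nat_lit 358) (nat_lit 273)) (XT.lf (nat_lit 0) (nat_lit 297889073) (nat_lit 0) (nat_lit 336146635) (nat_lit 152) (nat_lit 783687381) (nat_lit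 119) (nat_lit 3) (nat_lit 119) (nat_lit 1) (nat_lit 121) (nat_lit 1) (nat_lit 390) (nat_lit 358) (nat_lit 272)))) (XT.nd (nat_lit 156) (nat_lit 228) (nat_lit 0) (XT.nd (nat_lit 78) (nat_lit 152) (nat_lit 0) (XT.lf (nat_lit 76) (nat_lit 329104697) (nat_lit 0) (nat_lit 688123090) (nat_lit 76) (nat_lit 364528366) (nat_lit 119) (nat_lit 3) (nat_lit 118) (nat_lit 1) (nat_lit 119) (nat_lit 1) (nat_lit 391) (nat_lit 358) (nat_lit 271)) (XT.lf (nat_lit 0) (nat_lit 353857972) (nat_lit 0) (nat_lit 385095774) (nat_lit 152) (nat_lit 607751015) (nat_lit 116) (nat_lit 3) (nat_lit 116) (nat_lit 1) (nat_lit 118) (nat_lit 1) (nat_lit 392) (nat_lit 358) (nat_lit 270))) (XT.nd (nat_lit 78) (nat_lit 152) (nat_lit 0) (XT.lf (nat_lit 76) (nat_lit 247866944) (nat_lit 0) (nat_lit 787949078) (nat_lit 76) (nat_lit 276790836) (nat_lit 116) (nat_lit 3) (nat_lit 115) (nat_lit 1) (nat_lit 116) (nat_lit 1) (nat_lit 393) (nat_lit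 358) (nat_lit 269)) (XT.lf (nat_lit 0) (nat_lit 403099024) (nat_lit 0) (nat_lit 428605101) (nat_lit 152) (nat_lit 447567265) (nat_lit 113) (nat_lit 3) (nat_lit 113) (nat_lit 1) (nat_lit 115) (nat_lit 1) (nat_lit 394) (nat_lit 358) (nat_lit 268))))))) (XT.nd (nat_lit 1014) (nat_lit 1368) (nat_lit 0) (XT.nd (nat_lit 468) (nat_lit 912) (nat_lit 0) (XT.nd (nat_lit 234) (nat_lit 380) (nat_lit 0) (XT.nd (nat_lit 78) (nat_lit 228) (nat_lit 0) (XT.lf (nat_lit 76) (nat_lit 173679997) (nat_lit 0) (nat_lit 875967247) (nat_lit 76) (nat_lit 197296735) (nat_lit 113) (nat_lit 3) (nat_lit 112) (nat_lit 1) (nat_lit 113) (nat_lit 1) (nat_lit 395) (nat_lit 358) (nat_lit 267)) (XT.nd (nat_lit 78) (nat_lit 76) (nat_lit 0) (XT.lf (nat_lit 0) (nat_lit 446195419) (nat_lit 0) (nat_lit 467021467) (nat_lit 152) (nat_lit 302022240) (nat_lit 110) (nat_lit 3) (nat_lit 110) (nat_lit 1) (nat_lit 112) (nat_lit 1) (nat_lit 396)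 (nat_lit 358) (nat_lit 266)) (XT.lf (nat_lit 76) (nat_lit 106108923) (nat_lit 0) (nat_lit 953087835) (nat_lit 76) (nat_lit 125392301) (nat_lit 110) (nat_lit 3) (nat_lit 109) (nat_lit 1) (nat_lit 110) (nat_lit 1) (nat_lit 397) (nat_lit 358) (nat_lit 265)))) (XT.nd (nat_lit 78) (nat_lit 228) (nat_lit 0) (XT.lf (nat_lit 0) (nat_lit 483680791) (nat_lit 0) (nat_lit 500685534) (nat_lit 152) (nat_lit 170067633) (nat_lit 107) (nat_lit 3) (nat_lit 107) (nat_lit 1) (nat_lit 109) (nat_lit 1) (nat_lit 398) (nat_lit 358) (nat_lit 264)) (XT.nd (nat_lit 78) (nat_lit 152) (nat_lit 0) (XT.lf (nat_lit 76) (nat_lit 44731144) (nat_lit 0) (nat_lit 1020165734) (nat_lit 76) (nat_lit 60476275) (nat_lit 107) (nat_lit 3) (nat_lit 106) (nat_lit 1) (nat_lit 107) (nat_lit 1) (nat_lit 399) (nat_lit 358) (nat_lit 263)) (XT.lf (nat_lit 0) (nat_lit 516044131) (nat_lit 0) (nat_lit 529928726) (nat_lit 152) (nat_lit 50718267) (nat_lit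 104) (nat_lit 3) (nat_lit 104) (nat_lit 1) (nat_lit 106) (nat_lit 1) (nat_lit 400) (nat_lit 358) (nat_lit 262))))) (XT.nd (nat_lit 234) (nat_lit 456) (nat_lit 0) (XT.nd (nat_lit 78) (nat_lit 228) (nat_lit 0) (XT.lf (nat_lit 152) (nat_lit 1058466963) (nat_lit 0) (nat_lit 8984203) (nat_lit 76) (nat_lit 1669606) (nat_lit 103) (nat_lit 1) (nat_lit 101) (nat_lit 1) (nat_lit 102) (nat_lit 1) (nat_lit 401) (nat_lit 358) (nat_lit 261)) (XT.nd (nat_lit 78) (nat_lit 152) (nat_lit 0) (XT.lf (nat_lit 76) (nat_lit 485819058) (nat_lit 0) (nat_lit 58833565) (nat_lit 76) (nat_lit 497156013) (nat_lit 101) (nat_lit 3) (nat_lit 100) (nat_lit 1) (nat_lit 101) (nat_lit 1) (nat_lit 402) (nat_lit 358) (nat_lit 260)) (XT.lf (nat_lit 0) (nat_lit 51727107) (nat_lit 0) (nat_lit 61724422) (nat_lit 152) (nat_lit 902096657) (nat_lit 98) (nat_lit 3) (nat_lit 98) (nat_lit 1) (nat_lit 100) (nat_lit 1) (nat_lit 403) (nat_lit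 358) (nat_lit 259)))) (XT.nd (nat_lit 156) (nat_lit 228) (nat_lit 0) (XT.nd (nat_lit 78) (nat_lit 152) (nat_lit 0) (XT.lf (nat_lit 76) (nat_lit 410752233) (nat_lit 0) (nat_lit 158891133) (nat_lit 76) (nat_lit 420009006) (nat_lit 98) (nat_lit 3) (nat_lit 97) (nat_lit 1) (nat_lit 98) (nat_lit 1) (nat_lit 404) (nat_lit 358) (nat_lit 258)) (XT.lf (nat_lit 0) (nat_lit 99541889) (nat_lit 0) (nat_lit 107704828) (nat_lit 152) (nat_lit 757428131) (nat_lit 95) (nat_lit 3) (nat_lit 95) (nat_lit 1) (nat_lit 97) (nat_lit 1) (nat_lit 405) (nat_lit 358) (nat_lit 257))) (XT.nd (nat_lit 78) (nat_lit 152) (nat_lit 0) (XT.lf (nat_lit 76) (nat_lit 341973993) (nat_lit 0) (nat_lit 248616171) (nat_lit 76) (nat_lit 349532270) (nat_lit 95) (nat_lit 3) (nat_lit 94) (nat_lit 1) (nat_lit 95) (nat_lit 1) (nat_lit 406) (nat_lit 358) (nat_lit 256)) (XT.lf (nat_lit 0) (nat_lit 142268033) (nat_lit 0) (nat_lit 148933181) (nat_lit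 152) (nat_lit 625163425) (nat_lit 92) (nat_lit 3) (nat_lit 92) (nat_lit 1) (nat_lit 94) (nat_lit 1) (nat_lit 407) (nat_lit 358) (nat_lit 255)))))) (XT.nd (nat_lit 546) (nat_lit 608) (nat_lit 0) (XT.nd (nat_lit 234) (nat_lit 456) (nat_lit 0) (XT.nd (nat_lit 78) (nat_lit 228) (nat_lit 0) (XT.lf (nat_lit 76) (nat_lit 279060255) (nat_lit 0) (nat_lit 328793414) (nat_lit 76) (nat_lit 285231688) (nat_lit 92) (nat_lit 3) (nat_lit 91) (nat_lit 1) (nat_lit 92) (nat_lit 1) (nat_lit 408) (nat_lit 358) (nat_lit 254)) (XT.nd (nat_lit 78) (nat_lit 76) (nat_lit 0) (XT.lf (nat_lit 0) (nat_lit 180312411) (nat_lit 0) (nat_lit 185754591) (nat_lit 152) (nat_lit 504420274) (nat_lit 89) (nat_lit 3) (nat_lit 89) (nat_lit 1) (nat_lit 91) (nat_lit 1) (nat_lit 409) (nat_lit 358) (nat_lit 253)) (XT.lf (nat_lit 76) (nat_lit 221609543) (nat_lit 0) (nat_lit 400156453) (nat_lit 76) (nat_lit 226648599) (nat_lit 89) (nat_lit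 3) (nat_lit 88) (nat_lit 1) (nat_lit 89) (nat_lit 1) (nat_lit 410) (nat_lit 358) (nat_lit 252)))) (XT.nd (nat_lit 156) (nat_lit 228) (nat_lit 0) (XT.nd (nat_lit 78) (nat_lit 76) (nat_lit 0) (XT.lf (nat_lit 0) (nat_lit 214051573) (nat_lit 0) (nat_lit 218495185) (nat_lit 152) (nat_lit 394372468) (nat_lit 86) (nat_lit 3) (nat_lit 86) (nat_lit 1) (nat_lit 88) (nat_lit 1) (nat_lit 411) (nat_lit 358) (nat_lit 251)) (XT.lf (nat_lit 76) (nat_lit 169242591) (nat_lit 0) (nat_lit 463390514) (nat_lit 76) (nat_lit 173357046) (nat_lit 86) (nat_lit 3) (nat_lit 85) (nat_lit 1) (nat_lit 86) (nat_lit 1) (nat_lit 412) (nat_lit 358) (nat_lit 250))) (XT.nd (nat_lit 78) (nat_lit 76) (nat_lit 0) (XT.lf (nat_lit 0) (nat_lit 243834151) (nat_lit 0) (nat_lit 247462419) (nat_lit 152) (nat_lit 294246775) (nat_lit 83) (nat_lit 3) (nat_lit 83) (nat_lit 1) (nat_lit 85) (nat_lit 1) (nat_lit 413) (nat_lit 358) (nat_lit 249))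 (XT.lf (nat_lit 76) (nat_lit 121601775) (nat_lit 0) (nat_lit 519135150) (nat_lit 76) (nat_lit 124961282) (nat_lit 83) (nat_lit 3) (nat_lit 82) (nat_lit 1) (nat_lit 83) (nat_lit 1) (nat_lit 414) (nat_lit 358) (nat_lit 248))))) (XT.nd (nat_lit 234) (nat_lit 228) (nat_lit 0) (XT.nd (nat_lit 78) (nat_lit 228) (nat_lit 0) (XT.lf (nat_lit 0) (nat_lit 269983018) (nat_lit 0) (nat_lit 272945547) (nat_lit 152) (nat_lit 203319954) (nat_lit 80) (nat_lit 3) (nat_lit 80) (nat_lit 1) (nat_lit 82) (nat_lit 1) (nat_lit 415) (nat_lit 358) (nat_lit 247)) (XT.nd (nat_lit 78) (nat_lit 152) (nat_lit 0) (XT.lf (nat_lit 76) (nat_lit 78350430) (nat_lit 0) (nat_lit 567986864) (nat_lit 76) (nat_lit 81093511) (nat_lit 80) (nat_lit 3) (nat_lit 79) (nat_lit 1) (nat_lit 80) (nat_lit 1) (nat_lit 416) (nat_lit 358) (nat_lit 246)) (XT.lf (nat_lit 0) (nat_lit 292797256) (nat_lit 0) (nat_lit 295216200) (nat_lit 152) (nat_lit 120915890)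 (nat_lit 77) (nat_lit 3) (nat_lit 77) (nat_lit 1) (nat_lit 79) (nat_lit 1) (nat_lit 417) (nat_lit 358) (nat_lit 245)))) (XT.nd (nat_lit 44070) (nat_lit 0) (nat_lit 16568) (XT.nd (nat_lit 78) (nat_lit 152) (nat_lit 0) (XT.lf (nat_lit 76) (nat_lit 39172074) (nat_lit 0) (nat_lit 610501614) (nat_lit 76) (nat_lit 41411836) (nat_lit 77) (nat_lit 3) (nat_lit 76) (nat_lit 1) (nat_lit 77) (nat_lit 1) (nat_lit 418) (nat_lit 358) (nat_lit 244)) (XT.lf (nat_lit 0) (nat_lit 312553942) (nat_lit 0) (nat_lit 314529041) (nat_lit 152) (nat_lit 46402852) (nat_lit 74) (nat_lit 3) (nat_lit 74) (nat_lit 1) (nat_lit 76) (nat_lit 1) (nat_lit 419) (nat_lit 358) (nat_lit 243))) (XT.nd (nat_lit 78) (nat_lit 0) (nat_lit 76) (XT.lf (nat_lit 836) (nat_lit 2319001519) (nat_lit 0) (nat_lit 4117381867) (nat_lit 836) (nat_lit 2319001519) (nat_lit 303) (nat_lit 1) (nat_lit 292) (nat_lit 0) (nat_lit 303) (nat_lit 0) (nat_lit 302)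 (nat_lit 359) (nat_lit 359)) (XT.lf (nat_lit 836) (nat_lit 865058723) (nat_lit 0) (nat_lit 8083668486) (nat_lit 760) (nat_lit 7905800773) (nat_lit 304) (nat_lit 1) (nat_lit 293) (nat_lit 1) (nat_lit 303) (nat_lit 1) (nat_lit 303) (nat_lit 359) (nat_lit 358))))))))
noncomputable def ec60 : XT := (XT.nd (nat_lit 2028) (nat_lit 3572) (nat_lit 0) (XT.nd (nat_lit 1014) (nat_lit 3040) (nat_lit 0) (XT.nd (nat_lit 468) (nat_lit 2280) (nat_lit 0) (XT.nd (nat_lit 234) (nat_lit 456) (nat_lit 0) (XT.nd (nat_lit 78) (nat_lit 0) (nat_lit 76) (XT.lf (nat_lit 836) (nat_lit 7945065055) (nat_lit 76) (nat_lit 5413635510) (nat_lit 0) (nat_lit 2871145325) (nat_lit 304) (nat_lit 1) (nat_lit 294) (nat_lit 1) (nat_lit 293) (nat_lit 1) (nat_lit 304) (nat_lit 359) (nat_lit 357)) (XT.nd (nat_lit 78) (nat_lit 0) (nat_lit 76) (XT.lf (nat_lit 836) (nat_lit 6865187076) (nat_lit 76) (nat_lit 2268817118) (nat_lit 0) (nat_lit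 6502420280) (nat_lit 305) (nat_lit 1) (nat_lit 295) (nat_lit 1) (nat_lit 294) (nat_lit 1) (nat_lit 305) (nat_lit 359) (nat_lit 356)) (XT.lf (nat_lit 836) (nat_lit 5080822094) (nat_lit 0) (nat_lit 9505977979) (nat_lit 760) (nat_lit 485944236) (nat_lit 306) (nat_lit 1) (nat_lit 295) (nat_lit 1) (nat_lit 305) (nat_lit 1) (nat_lit 306) (nat_lit 359) (nat_lit 355)))) (XT.nd (nat_lit 78) (nat_lit 684) (nat_lit 0) (XT.lf (nat_lit 836) (nat_lit 1219093445) (nat_lit 0) (nat_lit 10482981584) (nat_lit 760) (nat_lit 2833908787) (nat_lit 307) (nat_lit 1) (nat_lit 296) (nat_lit 1) (nat_lit 306) (nat_lit 1) (nat_lit 307) (nat_lit 359) (nat_lit 354)) (XT.nd (nat_lit 78) (nat_lit 684) (nat_lit 0) (XT.lf (nat_lit 836) (nat_lit 2342601755) (nat_lit 76) (nat_lit 9110564663) (nat_lit 0) (nat_lit 2571113750) (nat_lit 307) (nat_lit 1) (nat_lit 297) (nat_lit 1) (nat_lit 296) (nat_lit 1) (nat_lit 308) (nat_lit 359) (nat_lit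 353)) (XT.lf (nat_lit 836) (nat_lit 481116981) (nat_lit 0) (nat_lit 6810749726) (nat_lit 760) (nat_lit 6245386137) (nat_lit 298) (nat_lit 1) (nat_lit 287) (nat_lit 1) (nat_lit 297) (nat_lit 1) (nat_lit 309) (nat_lit 359) (nat_lit 352))))) (XT.nd (nat_lit 234) (nat_lit 988) (nat_lit 0) (XT.nd (nat_lit 78) (nat_lit 760) (nat_lit 0) (XT.lf (nat_lit 76) (nat_lit 3331354203) (nat_lit 0) (nat_lit 1443630805) (nat_lit 532) (nat_lit 8298300786) (nat_lit 281) (nat_lit 1) (nat_lit 280) (nat_lit 1) (nat_lit 287) (nat_lit 1) (nat_lit 310) (nat_lit 359) (nat_lit 351)) (XT.nd (nat_lit 78) (nat_lit 380) (nat_lit 0) (XT.lf (nat_lit 456) (nat_lit 9180792879) (nat_lit 0) (nat_lit 2988546004) (nat_lit 380) (nat_lit 462047678) (nat_lit 281) (nat_lit 1) (nat_lit 275) (nat_lit 1) (nat_lit 280) (nat_lit 1) (nat_lit 311) (nat_lit 359) (nat_lit 350)) (XT.lf (nat_lit 456) (nat_lit 6624947567) (nat_lit 0) (nat_lit 1392974166)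 (nat_lit 380) (nat_lit 4190566470) (nat_lit 276) (nat_lit 1) (nat_lit 270) (nat_lit 1) (nat_lit 275) (nat_lit 1) (nat_lit 312) (nat_lit 359) (nat_lit 349)))) (XT.nd (nat_lit 156) (nat_lit 684) (nat_lit 0) (XT.nd (nat_lit 78) (nat_lit 0) (nat_lit 0) (XT.lf (nat_lit 380) (nat_lit 4031196100) (nat_lit 0) (nat_lit 25646918) (nat_lit 304) (nat_lit 7749252250) (nat_lit 271) (nat_lit 1) (nat_lit 266) (nat_lit 1) (nat_lit 270) (nat_lit 1) (nat_lit 313) (nat_lit 359) (nat_lit 348)) (XT.lf (nat_lit 76) (nat_lit 297402596) (nat_lit 0) (nat_lit 10029856657) (nat_lit 380) (nat_lit 1094953872) (nat_lit 267) (nat_lit 1) (nat_lit 266) (nat_lit 1) (nat_lit 271) (nat_lit 1) (nat_lit 314) (nat_lit 359) (nat_lit 347))) (XT.nd (nat_lit 78) (nat_lit 304) (nat_lit 0) (XT.lf (nat_lit 76) (nat_lit 7679012190) (nat_lit 0) (nat_lit 1273646336) (nat_lit 380) (nat_lit 2100474120) (nat_lit 262) (nat_lit 1) (nat_lit 261) (nat_lit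 1) (nat_lit 266) (nat_lit 1) (nat_lit 315) (nat_lit 359) (nat_lit 346)) (XT.lf (nat_lit 76) (nat_lit 3842004389) (nat_lit 0) (nat_lit 3901404822) (nat_lit 380) (nat_lit 2956950813) (nat_lit 258) (nat_lit 1) (nat_lit 257) (nat_lit 1) (nat_lit 262) (nat_lit 1) (nat_lit 316) (nat_lit 359) (nat_lit 345)))))) (XT.nd (nat_lit 468) (nat_lit 1368) (nat_lit 0) (XT.nd (nat_lit 234) (nat_lit 760) (nat_lit 0) (XT.nd (nat_lit 78) (nat_lit 608) (nat_lit 0) (XT.lf (nat_lit 76) (nat_lit 189632817) (nat_lit 0) (nat_lit 6523088282) (nat_lit 380) (nat_lit 3651568921) (nat_lit 254) (nat_lit 1) (nat_lit 253) (nat_lit 1) (nat_lit 258) (nat_lit 1) (nat_lit 317) (nat_lit 359) (nat_lit 344)) (XT.nd (nat_lit 78) (nat_lit 380) (nat_lit 0) (XT.lf (nat_lit 304) (nat_lit 856371114) (nat_lit 0) (nat_lit 5791227930) (nat_lit 228) (nat_lit 3393792664) (nat_lit 254) (nat_lit 1) (nat_lit 250) (nat_lit 1) (nat_lit 253) (nat_lit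 1) (nat_lit 318) (nat_lit 359) (nat_lit 343)) (XT.lf (nat_lit 76) (nat_lit 2958992445) (nat_lit 0) (nat_lit 2028111808) (nat_lit 380) (nat_lit 4744728659) (nat_lit 246) (nat_lit 1) (nat_lit 245) (nat_lit 1) (nat_lit 250) (nat_lit 1) (nat_lit 319) (nat_lit 359) (nat_lit 342)))) (XT.nd (nat_lit 78) (nat_lit 532) (nat_lit 0) (XT.lf (nat_lit 304) (nat_lit 4581232035) (nat_lit 0) (nat_lit 4303475386) (nat_lit 228) (nat_lit 550839742) (nat_lit 246) (nat_lit 1) (nat_lit 242) (nat_lit 1) (nat_lit 245) (nat_lit 1) (nat_lit 320) (nat_lit 359) (nat_lit 341)) (XT.nd (nat_lit 78) (nat_lit 304) (nat_lit 0) (XT.lf (nat_lit 304) (nat_lit 1468262735) (nat_lit 0) (nat_lit 3705116082) (nat_lit 228) (nat_lit 3977268941) (nat_lit 243) (nat_lit 1) (nat_lit 239) (nat_lit 1) (nat_lit 242) (nat_lit 1) (nat_lit 321) (nat_lit 359) (nat_lit 340)) (XT.lf (nat_lit 76) (nat_lit 1673464738) (nat_lit 0) (nat_lit 1532202395)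 (nat_lit 304) (nat_lit 5671913629) (nat_lit 236) (nat_lit 1) (nat_lit 235) (nat_lit 1) (nat_lit 239) (nat_lit 1) (nat_lit 322) (nat_lit 359) (nat_lit 339))))) (XT.nd (nat_lit 234) (nat_lit 684) (nat_lit 0) (XT.nd (nat_lit 78) (nat_lit 456) (nat_lit 0) (XT.lf (nat_lit 304) (nat_lit 4164197359) (nat_lit 0) (nat_lit 2770702610) (nat_lit 228) (nat_lit 1679609031) (nat_lit 236) (nat_lit 1) (nat_lit 232) (nat_lit 1) (nat_lit 235) (nat_lit 1) (nat_lit 323) (nat_lit 359) (nat_lit 338)) (XT.nd (nat_lit 78) (nat_lit 304) (nat_lit 0) (XT.lf (nat_lit 228) (nat_lit 1032310674) (nat_lit 0) (nat_lit 2417235931) (nat_lit 152) (nat_lit 4912503683) (nat_lit 233) (nat_lit 1) (nat_lit 230) (nat_lit 1) (nat_lit 232) (nat_lit 1) (nat_lit 324) (nat_lit 359) (nat_lit 337)) (XT.lf (nat_lit 76) (nat_lit 174880023) (nat_lit 0) (nat_lit 1956945426) (nat_lit 304) (nat_lit 5987552090) (nat_lit 227) (nat_lit 1) (nat_lit 226)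 (nat_lit 1) (nat_lit 230) (nat_lit 1) (nat_lit 325) (nat_lit 359) (nat_lit 336)))) (XT.nd (nat_lit 156) (nat_lit 304) (nat_lit 0) (XT.nd (nat_lit 78) (nat_lit 228) (nat_lit 0) (XT.lf (nat_lit 228) (nat_lit 2999705403) (nat_lit 0) (nat_lit 1874558533) (nat_lit 152) (nat_lit 3010144408) (nat_lit 227) (nat_lit 1) (nat_lit 224) (nat_lit 1) (nat_lit 226) (nat_lit 1) (nat_lit 326) (nat_lit 359) (nat_lit 335)) (XT.lf (nat_lit 76) (nat_lit 1627514793) (nat_lit 0) (nat_lit 75175928) (nat_lit 228) (nat_lit 5957001673) (nat_lit 222) (nat_lit 1) (nat_lit 221) (nat_lit 1) (nat_lit 224) (nat_lit 1) (nat_lit 327) (nat_lit 359) (nat_lit 334))) (XT.nd (nat_lit 78) (nat_lit 152) (nat_lit 0) (XT.lf (nat_lit 228) (nat_lit 4449311164) (nat_lit 0) (nat_lit 1541786080) (nat_lit 152) (nat_lit 1450416027) (nat_lit 222) (nat_lit 1) (nat_lit 219) (nat_lit 1) (nat_lit 221) (nat_lit 1) (nat_lit 328) (nat_lit 359) (nat_lit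 333)) (XT.lf (nat_lit 228) (nat_lit 1382134344) (nat_lit 0) (nat_lit 1433260655) (nat_lit 152) (nat_lit 4416281093) (nat_lit 220) (nat_lit 1) (nat_lit 217) (nat_lit 1) (nat_lit 219) (nat_lit 1) (nat_lit 329) (nat_lit 359) (nat_lit 332))))))) (XT.nd (nat_lit 1014) (nat_lit 1596) (nat_lit 0) (XT.nd (nat_lit 468) (nat_lit 988) (nat_lit 0) (XT.nd (nat_lit 234) (nat_lit 456) (nat_lit 0) (XT.nd (nat_lit 78) (nat_lit 304) (nat_lit 0) (XT.lf (nat_lit 228) (nat_lit 5486565397) (nat_lit 0) (nat_lit 1369364225) (nat_lit 152) (nat_lit 173719738) (nat_lit 217) (nat_lit 1) (nat_lit 214) (nat_lit 1) (nat_lit 216) (nat_lit 1) (nat_lit 330) (nat_lit 359) (nat_lit 331)) (XT.nd (nat_lit 78) (nat_lit 152) (nat_lit 0) (XT.lf (nat_lit 228) (nat_lit 2455532391) (nat_lit 0) (nat_lit 1307281158) (nat_lit 152) (nat_lit 3070422766) (nat_lit 215) (nat_lit 1) (nat_lit 212) (nat_lit 1) (nat_lit 214) (nat_lit 1) (nat_lit 331)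 (nat_lit 359) (nat_lit 330)) (XT.lf (nat_lit 76) (nat_lit 841114649) (nat_lit 0) (nat_lit 462314513) (nat_lit 152) (nat_lit 5341540813) (nat_lit 211) (nat_lit 1) (nat_lit 210) (nat_lit 1) (nat_lit 212) (nat_lit 1) (nat_lit 332) (nat_lit 359) (nat_lit 329)))) (XT.nd (nat_lit 78) (nat_lit 304) (nat_lit 0) (XT.lf (nat_lit 228) (nat_lit 3221799716) (nat_lit 0) (nat_lit 1289627298) (nat_lit 152) (nat_lit 1950027342) (nat_lit 211) (nat_lit 1) (nat_lit 208) (nat_lit 1) (nat_lit 210) (nat_lit 1) (nat_lit 333) (nat_lit 359) (nat_lit 328)) (XT.nd (nat_lit 78) (nat_lit 228) (nat_lit 0) (XT.lf (nat_lit 152) (nat_lit 346942048) (nat_lit 0) (nat_lit 1321302211) (nat_lit 76) (nat_lit 4616939439) (nat_lit 209) (nat_lit 1) (nat_lit 207) (nat_lit 1) (nat_lit 208) (nat_lit 1) (nat_lit 334) (nat_lit 359) (nat_lit 327)) (XT.lf (nat_lit 228) (nat_lit 3745111321) (nat_lit 0) (nat_lit 1351339568) (nat_lit 152) (nat_lit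 1017322477) (nat_lit 207) (nat_lit 1) (nat_lit 204) (nat_lit 1) (nat_lit 206) (nat_lit 1) (nat_lit 335) (nat_lit 359) (nat_lit 326))))) (XT.nd (nat_lit 234) (nat_lit 608) (nat_lit 0) (XT.nd (nat_lit 78) (nat_lit 304) (nat_lit 0) (XT.lf (nat_lit 152) (nat_lit 941923113) (nat_lit 0) (nat_lit 1401867516) (nat_lit 76) (nat_lit 3604349278) (nat_lit 205) (nat_lit 1) (nat_lit 203) (nat_lit 1) (nat_lit 204) (nat_lit 1) (nat_lit 336) (nat_lit 359) (nat_lit 325)) (XT.nd (nat_lit 78) (nat_lit 76) (nat_lit 0) (XT.lf (nat_lit 228) (nat_lit 4077353515) (nat_lit 0) (nat_lit 1469480001) (nat_lit 152) (nat_lit 241154247) (nat_lit 203) (nat_lit 1) (nat_lit 200) (nat_lit 1) (nat_lit 202) (nat_lit 1) (nat_lit 337) (nat_lit 359) (nat_lit 324)) (XT.lf (nat_lit 152) (nat_lit 1355556585) (nat_lit 0) (nat_lit 1531950559) (nat_lit 76) (nat_lit 2744621727) (nat_lit 201) (nat_lit 1) (nat_lit 199) (nat_lit 1) (nat_lit 200)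 (nat_lit 1) (nat_lit 338) (nat_lit 359) (nat_lit 323)))) (XT.nd (nat_lit 156) (nat_lit 304) (nat_lit 0) (XT.nd (nat_lit 78) (nat_lit 76) (nat_lit 0) (XT.lf (nat_lit 76) (nat_lit 391267576) (nat_lit 0) (nat_lit 1228084626) (nat_lit 228) (nat_lit 3862517017) (nat_lit 197) (nat_lit 1) (nat_lit 196) (nat_lit 1) (nat_lit 199) (nat_lit 1) (nat_lit 339) (nat_lit 359) (nat_lit 322)) (XT.lf (nat_lit 152) (nat_lit 1626790204) (nat_lit 0) (nat_lit 1695038284) (nat_lit 76) (nat_lit 2013512685) (nat_lit 197) (nat_lit 1) (nat_lit 195) (nat_lit 1) (nat_lit 196) (nat_lit 1) (nat_lit 340) (nat_lit 359) (nat_lit 321))) (XT.nd (nat_lit 78) (nat_lit 76) (nat_lit 0) (XT.lf (nat_lit 76) (nat_lit 909942694) (nat_lit 0) (nat_lit 881341029) (nat_lit 228) (nat_lit 3402678758) (nat_lit 193) (nat_lit 1) (nat_lit 192) (nat_lit 1) (nat_lit 195) (nat_lit 1) (nat_lit 341) (nat_lit 359) (nat_lit 320)) (XT.lf (nat_lit 152) (nat_lit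 1787032689) (nat_lit 0) (nat_lit 1878240388) (nat_lit 76) (nat_lit 1390922885) (nat_lit 193) (nat_lit 1) (nat_lit 191) (nat_lit 1) (nat_lit 192) (nat_lit 1) (nat_lit 342) (nat_lit 359) (nat_lit 319)))))) (XT.nd (nat_lit 546) (nat_lit 760) (nat_lit 0) (XT.nd (nat_lit 234) (nat_lit 456) (nat_lit 0) (XT.nd (nat_lit 78) (nat_lit 228) (nat_lit 0) (XT.lf (nat_lit 76) (nat_lit 1339646061) (nat_lit 0) (nat_lit 638317378) (nat_lit 152) (nat_lit 2945015797) (nat_lit 190) (nat_lit 1) (nat_lit 189) (nat_lit 1) (nat_lit 191) (nat_lit 1) (nat_lit 343) (nat_lit 359) (nat_lit 318)) (XT.nd (nat_lit 78) (nat_lit 152) (nat_lit 0) (XT.lf (nat_lit 152) (nat_lit 1861562454) (nat_lit 0) (nat_lit 2071583262) (nat_lit 76) (nat_lit 860158538) (nat_lit 190) (nat_lit 1) (nat_lit 188) (nat_lit 1) (nat_lit 189) (nat_lit 1) (nat_lit 344) (nat_lit 359) (nat_lit 317)) (XT.lf (nat_lit 76) (nat_lit 1694527710) (nat_lit 0) (nat_lit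 476193087) (nat_lit 152) (nat_lit 2496897141) (nat_lit 187) (nat_lit 1) (nat_lit 186) (nat_lit 1) (nat_lit 188) (nat_lit 1) (nat_lit 345) (nat_lit 359) (nat_lit 316)))) (XT.nd (nat_lit 156) (nat_lit 228) (nat_lit 0) (XT.nd (nat_lit 78) (nat_lit 152) (nat_lit 0) (XT.lf (nat_lit 152) (nat_lit 1870676267) (nat_lit 0) (nat_lit 2267436167) (nat_lit 76) (nat_lit 407326267) (nat_lit 187) (nat_lit 1) (nat_lit 185) (nat_lit 1) (nat_lit 186) (nat_lit 1) (nat_lit 346) (nat_lit 359) (nat_lit 315)) (XT.lf (nat_lit 76) (nat_lit 1986347895) (nat_lit 0) (nat_lit 376618286) (nat_lit 152) (nat_lit 2063758637) (nat_lit 184) (nat_lit 1) (nat_lit 183) (nat_lit 1) (nat_lit 185) (nat_lit 1) (nat_lit 347) (nat_lit 359) (nat_lit 314))) (XT.nd (nat_lit 78) (nat_lit 152) (nat_lit 0) (XT.lf (nat_lit 152) (nat_lit 1830625665) (nat_lit 0) (nat_lit 2460045228) (nat_lit 76) (nat_lit 20837775) (nat_lit 184) (nat_lit 1) (nat_lit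 182) (nat_lit 1) (nat_lit 183) (nat_lit 1) (nat_lit 348) (nat_lit 359) (nat_lit 313)) (XT.lf (nat_lit 76) (nat_lit 2224900110) (nat_lit 0) (nat_lit 324874360) (nat_lit 152) (nat_lit 1649496918) (nat_lit 181) (nat_lit 1) (nat_lit 180) (nat_lit 1) (nat_lit 182) (nat_lit 1) (nat_lit 349) (nat_lit 359) (nat_lit 312))))) (XT.nd (nat_lit 234) (nat_lit 456) (nat_lit 0) (XT.nd (nat_lit 78) (nat_lit 228) (nat_lit 0) (XT.lf (nat_lit 0) (nat_lit 299106020) (nat_lit 0) (nat_lit 2340983759) (nat_lit 152) (nat_lit 1450208628) (nat_lit 179) (nat_lit 3) (nat_lit 179) (nat_lit 1) (nat_lit 181) (nat_lit 1) (nat_lit 350) (nat_lit 359) (nat_lit 311)) (XT.nd (nat_lit 78) (nat_lit 76) (nat_lit 0) (XT.lf (nat_lit 76) (nat_lit 2418357528) (nat_lit 0) (nat_lit 309189744) (nat_lit 152) (nat_lit 1256788559) (nat_lit 178) (nat_lit 1) (nat_lit 177) (nat_lit 1) (nat_lit 179) (nat_lit 1) (nat_lit 351) (nat_lit 359) (nat_lit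 310)) (XT.lf (nat_lit 0) (nat_lit 571403154) (nat_lit 0) (nat_lit 2238623203) (nat_lit 152) (nat_lit 1071168921) (nat_lit 176) (nat_lit 3) (nat_lit 176) (nat_lit 1) (nat_lit 178) (nat_lit 1) (nat_lit 352) (nat_lit 359) (nat_lit 309)))) (XT.nd (nat_lit 156) (nat_lit 228) (nat_lit 0) (XT.nd (nat_lit 78) (nat_lit 76) (nat_lit 0) (XT.lf (nat_lit 76) (nat_lit 2573556855) (nat_lit 0) (nat_lit 320182408) (nat_lit 152) (nat_lit 887348330) (nat_lit 175) (nat_lit 1) (nat_lit 174) (nat_lit 1) (nat_lit 176) (nat_lit 1) (nat_lit 353) (nat_lit 359) (nat_lit 308)) (XT.lf (nat_lit 0) (nat_lit 803329243) (nat_lit 0) (nat_lit 2164636358) (nat_lit 152) (nat_lit 715454066) (nat_lit 173) (nat_lit 3) (nat_lit 173) (nat_lit 1) (nat_lit 175) (nat_lit 1) (nat_lit 354) (nat_lit 359) (nat_lit 307))) (XT.nd (nat_lit 78) (nat_lit 76) (nat_lit 0) (XT.lf (nat_lit 76) (nat_lit 2696231018) (nat_lit 0) (nat_lit 350405704) (nat_lit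 152) (nat_lit 542137856) (nat_lit 172) (nat_lit 1) (nat_lit 171) (nat_lit 1) (nat_lit 173) (nat_lit 1) (nat_lit 355) (nat_lit 359) (nat_lit 306)) (XT.lf (nat_lit 0) (nat_lit 1000456073) (nat_lit 0) (nat_lit 2111981250) (nat_lit 152) (nat_lit 383812377) (nat_lit 170) (nat_lit 3) (nat_lit 170) (nat_lit 1) (nat_lit 172) (nat_lit 1) (nat_lit 356) (nat_lit 359) (nat_lit 305))))))))
noncomputable def ec61 : XT := (XT.nd (nat_lit 2106) (nat_lit 3192) (nat_lit 0) (XT.nd (nat_lit 1014) (nat_lit 1672) (nat_lit 0) (XT.nd (nat_lit 468) (nat_lit 836) (nat_lit 0) (XT.nd (nat_lit 234) (nat_lit 304) (nat_lit 0) (XT.nd (nat_lit 78) (nat_lit 304) (nat_lit 0) (XT.lf (nat_lit 76) (nat_lit 2791200018) (nat_lit 0) (nat_lit 393978564) (nat_lit 152) (nat_lit 221533921) (nat_lit 169) (nat_lit 1) (nat_lit 168) (nat_lit 1) (nat_lit 170) (nat_lit 1) (nat_lit 357) (nat_lit 359) (nat_lit 304)) (XT.nd (nat_lit 78) (nat_lit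 228) (nat_lit 0) (XT.lf (nat_lit 0) (nat_lit 1167496045) (nat_lit 0) (nat_lit 2075070982) (nat_lit 152) (nat_lit 76460556) (nat_lit 167) (nat_lit 3) (nat_lit 167) (nat_lit 1) (nat_lit 169) (nat_lit 1) (nat_lit 358) (nat_lit 359) (nat_lit 303)) (XT.lf (nat_lit 152) (nat_lit 2786729211) (nat_lit 0) (nat_lit 77000543) (nat_lit 76) (nat_lit 370486142) (nat_lit 166) (nat_lit 1) (nat_lit 164) (nat_lit 1) (nat_lit 165) (nat_lit 1) (nat_lit 359) (nat_lit 359) (nat_lit 302)))) (XT.nd (nat_lit 78) (nat_lit 228) (nat_lit 0) (XT.lf (nat_lit 76) (nat_lit 1098154345) (nat_lit 0) (nat_lit 213628963) (nat_lit 76) (nat_lit 1839201226) (nat_lit 164) (nat_lit 3) (nat_lit 163) (nat_lit 1) (nat_lit 164) (nat_lit 1) (nat_lit 360) (nat_lit 359) (nat_lit 301)) (XT.nd (nat_lit 78) (nat_lit 76) (nat_lit 0) (XT.lf (nat_lit 152) (nat_lit 2561296646) (nat_lit 0) (nat_lit 357941528) (nat_lit 76) (nat_lit 151373617) (nat_lit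 163) (nat_lit 1) (nat_lit 161) (nat_lit 1) (nat_lit 162) (nat_lit 1) (nat_lit 361) (nat_lit 359) (nat_lit 300)) (XT.lf (nat_lit 76) (nat_lit 952376892) (nat_lit 0) (nat_lit 481863203) (nat_lit 76) (nat_lit 1557451424) (nat_lit 161) (nat_lit 3) (nat_lit 160) (nat_lit 1) (nat_lit 161) (nat_lit 1) (nat_lit 362) (nat_lit 359) (nat_lit 299))))) (XT.nd (nat_lit 234) (nat_lit 456) (nat_lit 0) (XT.nd (nat_lit 78) (nat_lit 228) (nat_lit 0) (XT.lf (nat_lit 0) (nat_lit 40198245) (nat_lit 0) (nat_lit 573773671) (nat_lit 152) (nat_lit 2301545336) (nat_lit 158) (nat_lit 3) (nat_lit 158) (nat_lit 1) (nat_lit 160) (nat_lit 1) (nat_lit 363) (nat_lit 359) (nat_lit 298)) (XT.nd (nat_lit 78) (nat_lit 152) (nat_lit 0) (XT.lf (nat_lit 76) (nat_lit 810093419) (nat_lit 0) (nat_lit 726461272) (nat_lit 76) (nat_lit 1304144739) (nat_lit 158) (nat_lit 3) (nat_lit 157) (nat_lit 1) (nat_lit 158) (nat_lit 1) (nat_lit 364)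 (nat_lit 359) (nat_lit 297)) (XT.lf (nat_lit 0) (nat_lit 204439463) (nat_lit 0) (nat_lit 640110821) (nat_lit 152) (nat_lit 1923825043) (nat_lit 155) (nat_lit 3) (nat_lit 155) (nat_lit 1) (nat_lit 157) (nat_lit 1) (nat_lit 365) (nat_lit 359) (nat_lit 296)))) (XT.nd (nat_lit 156) (nat_lit 228) (nat_lit 0) (XT.nd (nat_lit 78) (nat_lit 152) (nat_lit 0) (XT.lf (nat_lit 76) (nat_lit 672898776) (nat_lit 0) (nat_lit 948338479) (nat_lit 76) (nat_lit 1076298182) (nat_lit 155) (nat_lit 3) (nat_lit 154) (nat_lit 1) (nat_lit 155) (nat_lit 1) (nat_lit 366) (nat_lit 359) (nat_lit 295)) (XT.lf (nat_lit 0) (nat_lit 348697869) (nat_lit 0) (nat_lit 704429268) (nat_lit 152) (nat_lit 1575721112) (nat_lit 152) (nat_lit 3) (nat_lit 152) (nat_lit 1) (nat_lit 154) (nat_lit 1) (nat_lit 367) (nat_lit 359) (nat_lit 294))) (XT.nd (nat_lit 78) (nat_lit 152) (nat_lit 0) (XT.lf (nat_lit 76) (nat_lit 541926873) (nat_lit 0) (nat_lit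 1148525836) (nat_lit 76) (nat_lit 871307798) (nat_lit 152) (nat_lit 3) (nat_lit 151) (nat_lit 1) (nat_lit 152) (nat_lit 1) (nat_lit 368) (nat_lit 359) (nat_lit 293)) (XT.lf (nat_lit 0) (nat_lit 475152613) (nat_lit 0) (nat_lit 765611982) (nat_lit 152) (nat_lit 1255747434) (nat_lit 149) (nat_lit 3) (nat_lit 149) (nat_lit 1) (nat_lit 151) (nat_lit 1) (nat_lit 369) (nat_lit 359) (nat_lit 292)))))) (XT.nd (nat_lit 546) (nat_lit 912) (nat_lit 0) (XT.nd (nat_lit 234) (nat_lit 456) (nat_lit 0) (XT.nd (nat_lit 78) (nat_lit 228) (nat_lit 0) (XT.lf (nat_lit 76) (nat_lit 417946664) (nat_lit 0) (nat_lit 1328128704) (nat_lit 76) (nat_lit 686890524) (nat_lit 149) (nat_lit 3) (nat_lit 148) (nat_lit 1) (nat_lit 149) (nat_lit 1) (nat_lit 370) (nat_lit 359) (nat_lit 291)) (XT.nd (nat_lit 78) (nat_lit 76) (nat_lit 0) (XT.lf (nat_lit 0) (nat_lit 585708826) (nat_lit 0) (nat_lit 822872724) (nat_lit 152) (nat_lit 962389827)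 (nat_lit 146) (nat_lit 3) (nat_lit 146) (nat_lit 1) (nat_lit 148) (nat_lit 1) (nat_lit 371) (nat_lit 359) (nat_lit 290)) (XT.lf (nat_lit 76) (nat_lit 301439779) (nat_lit 0) (nat_lit 1488294353) (nat_lit 76) (nat_lit 521035981) (nat_lit 146) (nat_lit 3) (nat_lit 145) (nat_lit 1) (nat_lit 146) (nat_lit 1) (nat_lit 372) (nat_lit 359) (nat_lit 289)))) (XT.nd (nat_lit 156) (nat_lit 228) (nat_lit 0) (XT.nd (nat_lit 78) (nat_lit 76) (nat_lit 0) (XT.lf (nat_lit 0) (nat_lit 682038901) (nat_lit 0) (nat_lit 875686346) (nat_lit 152) (nat_lit 694131683) (nat_lit 143) (nat_lit 3) (nat_lit 143) (nat_lit 1) (nat_lit 145) (nat_lit 1) (nat_lit 373) (nat_lit 359) (nat_lit 288)) (XT.lf (nat_lit 76) (nat_lit 192663239) (nat_lit 0) (nat_lit 1630186711) (nat_lit 76) (nat_lit 371966428) (nat_lit 143) (nat_lit 3) (nat_lit 142) (nat_lit 1) (nat_lit 143) (nat_lit 1) (nat_lit 374) (nat_lit 359) (nat_lit 287))) (XT.nd (nat_lit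 78) (nat_lit 76) (nat_lit 0) (XT.lf (nat_lit 0) (nat_lit 765616782) (nat_lit 0) (nat_lit 923732469) (nat_lit 152) (nat_lit 449473601) (nat_lit 140) (nat_lit 3) (nat_lit 140) (nat_lit 1) (nat_lit 142) (nat_lit 1) (nat_lit 375) (nat_lit 359) (nat_lit 286)) (XT.lf (nat_lit 76) (nat_lit 91700013) (nat_lit 0) (nat_lit 1754966904) (nat_lit 76) (nat_lit 238103427) (nat_lit 140) (nat_lit 3) (nat_lit 139) (nat_lit 1) (nat_lit 140) (nat_lit 1) (nat_lit 376) (nat_lit 359) (nat_lit 285))))) (XT.nd (nat_lit 234) (nat_lit 532) (nat_lit 0) (XT.nd (nat_lit 78) (nat_lit 228) (nat_lit 0) (XT.lf (nat_lit 0) (nat_lit 837746521) (nat_lit 0) (nat_lit 966850061) (nat_lit 152) (nat_lit 226948177) (nat_lit 137) (nat_lit 3) (nat_lit 137) (nat_lit 1) (nat_lit 139) (nat_lit 1) (nat_lit 377) (nat_lit 359) (nat_lit 284)) (XT.nd (nat_lit 78) (nat_lit 76) (nat_lit 0) (XT.lf (nat_lit 76) (nat_lit 1862301584) (nat_lit 0) (nat_lit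 1452277) (nat_lit 152) (nat_lit 116563146) (nat_lit 136) (nat_lit 1) (nat_lit 135) (nat_lit 1) (nat_lit 137) (nat_lit 1) (nat_lit 378) (nat_lit 359) (nat_lit 283)) (XT.lf (nat_lit 0) (nat_lit 899586124) (nat_lit 0) (nat_lit 1005000863) (nat_lit 152) (nat_lit 25130931) (nat_lit 134) (nat_lit 3) (nat_lit 134) (nat_lit 1) (nat_lit 136) (nat_lit 1) (nat_lit 379) (nat_lit 359) (nat_lit 282)))) (XT.nd (nat_lit 156) (nat_lit 228) (nat_lit 0) (XT.nd (nat_lit 78) (nat_lit 76) (nat_lit 0) (XT.lf (nat_lit 152) (nat_lit 1795521706) (nat_lit 0) (nat_lit 77698504) (nat_lit 76) (nat_lit 7816005) (nat_lit 133) (nat_lit 1) (nat_lit 131) (nat_lit 1) (nat_lit 132) (nat_lit 1) (nat_lit 380) (nat_lit 359) (nat_lit 281)) (XT.lf (nat_lit 76) (nat_lit 792150800) (nat_lit 0) (nat_lit 162554630) (nat_lit 76) (nat_lit 878223322) (nat_lit 131) (nat_lit 3) (nat_lit 130) (nat_lit 1) (nat_lit 131) (nat_lit 1) (nat_lit 381)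 (nat_lit 359) (nat_lit 280))) (XT.nd (nat_lit 78) (nat_lit 76) (nat_lit 0) (XT.lf (nat_lit 0) (nat_lit 89548408) (nat_lit 0) (nat_lit 165450103) (nat_lit 152) (nat_lit 1531632662) (nat_lit 128) (nat_lit 3) (nat_lit 128) (nat_lit 1) (nat_lit 130) (nat_lit 1) (nat_lit 382) (nat_lit 359) (nat_lit 279)) (XT.lf (nat_lit 76) (nat_lit 669145245) (nat_lit 0) (nat_lit 332458565) (nat_lit 76) (nat_lit 739424592) (nat_lit 128) (nat_lit 3) (nat_lit 127) (nat_lit 1) (nat_lit 128) (nat_lit 1) (nat_lit 383) (nat_lit 359) (nat_lit 278))))))) (XT.nd (nat_lit 1014) (nat_lit 1672) (nat_lit 0) (XT.nd (nat_lit 468) (nat_lit 836) (nat_lit 0) (XT.nd (nat_lit 234) (nat_lit 304) (nat_lit 0) (XT.nd (nat_lit 78) (nat_lit 228) (nat_lit 0) (XT.lf (nat_lit 0) (nat_lit 176204649) (nat_lit 0) (nat_lit 238179382) (nat_lit 152) (nat_lit 1282623444) (nat_lit 125) (nat_lit 3) (nat_lit 125) (nat_lit 1) (nat_lit 127) (nat_lit 1)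 (nat_lit 384) (nat_lit 359) (nat_lit 277)) (XT.nd (nat_lit 78) (nat_lit 152) (nat_lit 0) (XT.lf (nat_lit 76) (nat_lit 555673980) (nat_lit 0) (nat_lit 485049559) (nat_lit 76) (nat_lit 613057992) (nat_lit 125) (nat_lit 3) (nat_lit 124) (nat_lit 1) (nat_lit 125) (nat_lit 1) (nat_lit 385) (nat_lit 359) (nat_lit 276)) (XT.lf (nat_lit 0) (nat_lit 253318254) (nat_lit 0) (nat_lit 303921439) (nat_lit 152) (nat_lit 1054682687) (nat_lit 122) (nat_lit 3) (nat_lit 122) (nat_lit 1) (nat_lit 124) (nat_lit 1) (nat_lit 386) (nat_lit 359) (nat_lit 275)))) (XT.nd (nat_lit 78) (nat_lit 228) (nat_lit 0) (XT.lf (nat_lit 76) (nat_lit 451264184) (nat_lit 0) (nat_lit 621563728) (nat_lit 76) (nat_lit 498118985) (nat_lit 122) (nat_lit 3) (nat_lit 121) (nat_lit 1) (nat_lit 122) (nat_lit 1) (nat_lit 387) (nat_lit 359) (nat_lit 274)) (XT.nd (nat_lit 78) (nat_lit 76) (nat_lit 0) (XT.lf (nat_lit 0) (nat_lit 321720199) (nat_lit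 0) (nat_lit 363038366) (nat_lit 152) (nat_lit 846382372) (nat_lit 119) (nat_lit 3) (nat_lit 119) (nat_lit 1) (nat_lit 121) (nat_lit 1) (nat_lit 388) (nat_lit 359) (nat_lit 273)) (XT.lf (nat_lit 76) (nat_lit 355433073) (nat_lit 0) (nat_lit 743172938) (nat_lit 76) (nat_lit 393690635) (nat_lit 119) (nat_lit 3) (nat_lit 118) (nat_lit 1) (nat_lit 119) (nat_lit 1) (nat_lit 389) (nat_lit 359) (nat_lit 272))))) (XT.nd (nat_lit 234) (nat_lit 456) (nat_lit 0) (XT.nd (nat_lit 78) (nat_lit 228) (nat_lit 0) (XT.lf (nat_lit 0) (nat_lit 382166609) (nat_lit 0) (nat_lit 415903436) (nat_lit 152) (nat_lit 656371096) (nat_lit 116) (nat_lit 3) (nat_lit 116) (nat_lit 1) (nat_lit 118) (nat_lit 1) (nat_lit 390) (nat_lit 359) (nat_lit 271)) (XT.nd (nat_lit 78) (nat_lit 152) (nat_lit 0) (XT.lf (nat_lit 76) (nat_lit 267696300) (nat_lit 0) (nat_lit 850985004) (nat_lit 76) (nat_lit 298934103) (nat_lit 116) (nat_lit 3) (nat_lit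 115) (nat_lit 1) (nat_lit 116) (nat_lit 1) (nat_lit 391) (nat_lit 359) (nat_lit 270)) (XT.lf (nat_lit 0) (nat_lit 435346946) (nat_lit 0) (nat_lit 462893509) (nat_lit 152) (nat_lit 483372647) (nat_lit 113) (nat_lit 3) (nat_lit 113) (nat_lit 1) (nat_lit 115) (nat_lit 1) (nat_lit 392) (nat_lit 359) (nat_lit 269)))) (XT.nd (nat_lit 156) (nat_lit 228) (nat_lit 0) (XT.nd (nat_lit 78) (nat_lit 152) (nat_lit 0) (XT.lf (nat_lit 76) (nat_lit 187574397) (nat_lit 0) (nat_lit 946044627) (nat_lit 76) (nat_lit 213080474) (nat_lit 113) (nat_lit 3) (nat_lit 112) (nat_lit 1) (nat_lit 113) (nat_lit 1) (nat_lit 393) (nat_lit 359) (nat_lit 268)) (XT.lf (nat_lit 0) (nat_lit 481891053) (nat_lit 0) (nat_lit 504383184) (nat_lit 152) (nat_lit 326184020) (nat_lit 110) (nat_lit 3) (nat_lit 110) (nat_lit 1) (nat_lit 112) (nat_lit 1) (nat_lit 394) (nat_lit 359) (nat_lit 267))) (XT.nd (nat_lit 78) (nat_lit 152) (nat_lit 0)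 (XT.lf (nat_lit 76) (nat_lit 114597637) (nat_lit 0) (nat_lit 1029334862) (nat_lit 76) (nat_lit 135423685) (nat_lit 110) (nat_lit 3) (nat_lit 109) (nat_lit 1) (nat_lit 110) (nat_lit 1) (nat_lit 395) (nat_lit 359) (nat_lit 266)) (XT.lf (nat_lit 0) (nat_lit 522375255) (nat_lit 0) (nat_lit 540740376) (nat_lit 152) (nat_lit 183673043) (nat_lit 107) (nat_lit 3) (nat_lit 107) (nat_lit 1) (nat_lit 109) (nat_lit 1) (nat_lit 396) (nat_lit 359) (nat_lit 265)))))) (XT.nd (nat_lit 546) (nat_lit 760) (nat_lit 0) (XT.nd (nat_lit 234) (nat_lit 456) (nat_lit 0) (XT.nd (nat_lit 78) (nat_lit 380) (nat_lit 0) (XT.lf (nat_lit 76) (nat_lit 48309635) (nat_lit 0) (nat_lit 1101778993) (nat_lit 76) (nat_lit 65314377) (nat_lit 107) (nat_lit 3) (nat_lit 106) (nat_lit 1) (nat_lit 107) (nat_lit 1) (nat_lit 397) (nat_lit 359) (nat_lit 264)) (XT.nd (nat_lit 78) (nat_lit 228) (nat_lit 0) (XT.lf (nat_lit 0) (nat_lit 557327661)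 (nat_lit 0) (nat_lit 572323025) (nat_lit 152) (nat_lit 54775728) (nat_lit 104) (nat_lit 3) (nat_lit 104) (nat_lit 1) (nat_lit 106) (nat_lit 1) (nat_lit 398) (nat_lit 359) (nat_lit 263)) (XT.lf (nat_lit 152) (nat_lit 1143144320) (nat_lit 0) (nat_lit 9702940) (nat_lit 76) (nat_lit 1803174) (nat_lit 103) (nat_lit 1) (nat_lit 101) (nat_lit 1) (nat_lit 102) (nat_lit 1) (nat_lit 399) (nat_lit 359) (nat_lit 262)))) (XT.nd (nat_lit 156) (nat_lit 228) (nat_lit 0) (XT.nd (nat_lit 78) (nat_lit 152) (nat_lit 0) (XT.lf (nat_lit 76) (nat_lit 524684583) (nat_lit 0) (nat_lit 63540250) (nat_lit 76) (nat_lit 536928494) (nat_lit 101) (nat_lit 3) (nat_lit 100) (nat_lit 1) (nat_lit 101) (nat_lit 1) (nat_lit 400) (nat_lit 359) (nat_lit 261)) (XT.lf (nat_lit 0) (nat_lit 55865275) (nat_lit 0) (nat_lit 66662375) (nat_lit 152) (nat_lit 974264389) (nat_lit 98) (nat_lit 3) (nat_lit 98) (nat_lit 1) (nat_lit 100) (nat_lit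 1) (nat_lit 401) (nat_lit 359) (nat_lit 260))) (XT.nd (nat_lit 78) (nat_lit 152) (nat_lit 0) (XT.lf (nat_lit 76) (nat_lit 443612411) (nat_lit 0) (nat_lit 171602424) (nat_lit 76) (nat_lit 453609726) (nat_lit 98) (nat_lit 3) (nat_lit 97) (nat_lit 1) (nat_lit 98) (nat_lit 1) (nat_lit 402) (nat_lit 359) (nat_lit 259)) (XT.lf (nat_lit 0) (nat_lit 107505240) (nat_lit 0) (nat_lit 116321215) (nat_lit 152) (nat_lit 818022382) (nat_lit 95) (nat_lit 3) (nat_lit 95) (nat_lit 1) (nat_lit 97) (nat_lit 1) (nat_lit 403) (nat_lit 359) (nat_lit 258))))) (XT.nd (nat_lit 234) (nat_lit 456) (nat_lit 0) (XT.nd (nat_lit 78) (nat_lit 228) (nat_lit 0) (XT.lf (nat_lit 76) (nat_lit 369331913) (nat_lit 0) (nat_lit 268505465) (nat_lit 76) (nat_lit 377494852) (nat_lit 95) (nat_lit 3) (nat_lit 94) (nat_lit 1) (nat_lit 95) (nat_lit 1) (nat_lit 404) (nat_lit 359) (nat_lit 257)) (XT.nd (nat_lit 78) (nat_lit 76) (nat_lit 0) (XT.lf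 (nat_lit 0) (nat_lit 153649476) (nat_lit 0) (nat_lit 160847835) (nat_lit 152) (nat_lit 675176499) (nat_lit 92) (nat_lit 3) (nat_lit 92) (nat_lit 1) (nat_lit 94) (nat_lit 1) (nat_lit 405) (nat_lit 359) (nat_lit 256)) (XT.lf (nat_lit 76) (nat_lit 301385076) (nat_lit 0) (nat_lit 355096887) (nat_lit 76) (nat_lit 308050223) (nat_lit 92) (nat_lit 3) (nat_lit 91) (nat_lit 1) (nat_lit 92) (nat_lit 1) (nat_lit 406) (nat_lit 359) (nat_lit 255)))) (XT.nd (nat_lit 156) (nat_lit 228) (nat_lit 0) (XT.nd (nat_lit 78) (nat_lit 76) (nat_lit 0) (XT.lf (nat_lit 0) (nat_lit 194737404) (nat_lit 0) (nat_lit 200614959) (nat_lit 152) (nat_lit 544773895) (nat_lit 89) (nat_lit 3) (nat_lit 89) (nat_lit 1) (nat_lit 91) (nat_lit 1) (nat_lit 407) (nat_lit 359) (nat_lit 254)) (XT.lf (nat_lit 76) (nat_lit 239338307) (nat_lit 0) (nat_lit 432168970) (nat_lit 76) (nat_lit 244780487) (nat_lit 89) (nat_lit 3) (nat_lit 88) (nat_lit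 1) (nat_lit 89) (nat_lit 1) (nat_lit 408) (nat_lit 359) (nat_lit 253))) (XT.nd (nat_lit 78) (nat_lit 76) (nat_lit 0) (XT.lf (nat_lit 0) (nat_lit 231175699) (nat_lit 0) (nat_lit 235974800) (nat_lit 152) (nat_lit 425922266) (nat_lit 86) (nat_lit 3) (nat_lit 86) (nat_lit 1) (nat_lit 88) (nat_lit 1) (nat_lit 409) (nat_lit 359) (nat_lit 252)) (XT.lf (nat_lit 76) (nat_lit 182781998) (nat_lit 0) (nat_lit 500461755) (nat_lit 76) (nat_lit 187225610) (nat_lit 86) (nat_lit 3) (nat_lit 85) (nat_lit 1) (nat_lit 86) (nat_lit 1) (nat_lit 410) (nat_lit 359) (nat_lit 251))))))))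
noncomputable def ec62 : XT := (XT.nd (nat_lit 45786) (nat_lit 0) (nat_lit 8816) (XT.nd (nat_lit 44772) (nat_lit 0) (nat_lit 13680) (XT.nd (nat_lit 468) (nat_lit 456) (nat_lit 0) (XT.nd (nat_lit 234) (nat_lit 304) (nat_lit 0) (XT.nd (nat_lit 78) (nat_lit 228) (nat_lit 0) (XT.lf (nat_lit 0) (nat_lit 263340883) (nat_lit 0) (nat_lit 267259413) (nat_lit 152) (nat_lit 317786517) (nat_lit 83) (nat_lit 3) (nat_lit 83) (nat_lit 1) (nat_lit 85) (nat_lit 1) (nat_lit 411) (nat_lit 359) (nat_lit 250)) (XT.nd (nat_lit 78) (nat_lit 152) (nat_lit 0) (XT.lf (nat_lit 76) (nat_lit 131329917) (nat_lit 0) (nat_lit 560665962) (nat_lit 76) (nat_lit 134958184) (nat_lit 83) (nat_lit 3) (nat_lit 82) (nat_lit 1) (nat_lit 83) (nat_lit 1) (nat_lit 412) (nat_lit 359) (nat_lit 249)) (XT.lf (nat_lit 0) (nat_lit 291581660) (nat_lit 0) (nat_lit 294781190) (nat_lit 152) (nat_lit 219585550) (nat_lit 80) (nat_lit 3) (nat_lit 80)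 (nat_lit 1) (nat_lit 82) (nat_lit 1) (nat_lit 413) (nat_lit 359) (nat_lit 248)))) (XT.nd (nat_lit 78) (nat_lit 228) (nat_lit 0) (XT.lf (nat_lit 76) (nat_lit 84618464) (nat_lit 0) (nat_lit 613425813) (nat_lit 76) (nat_lit 87580992) (nat_lit 80) (nat_lit 3) (nat_lit 79) (nat_lit 1) (nat_lit 80) (nat_lit 1) (nat_lit 414) (nat_lit 359) (nat_lit 247)) (XT.nd (nat_lit 78) (nat_lit 76) (nat_lit 0) (XT.lf (nat_lit 0) (nat_lit 316221037) (nat_lit 0) (nat_lit 318833496) (nat_lit 152) (nat_lit 130589162) (nat_lit 77) (nat_lit 3) (nat_lit 77) (nat_lit 1) (nat_lit 79) (nat_lit 1) (nat_lit 415) (nat_lit 359) (nat_lit 246)) (XT.lf (nat_lit 76) (nat_lit 42305840) (nat_lit 0) (nat_lit 659341743) (nat_lit 76) (nat_lit 44724783) (nat_lit 77) (nat_lit 3) (nat_lit 76) (nat_lit 1) (nat_lit 77) (nat_lit 1) (nat_lit 416) (nat_lit 359) (nat_lit 245))))) (XT.nd (nat_lit 43992) (nat_lit 0) (nat_lit 16872) (XT.nd (nat_lit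 78) (nat_lit 304) (nat_lit 0) (XT.lf (nat_lit 0) (nat_lit 337558257) (nat_lit 0) (nat_lit 339691364) (nat_lit 152) (nat_lit 50115080) (nat_lit 74) (nat_lit 3) (nat_lit 74) (nat_lit 1) (nat_lit 76) (nat_lit 1) (nat_lit 417) (nat_lit 359) (nat_lit 244)) (XT.nd (nat_lit 78) (nat_lit 228) (nat_lit 0) (XT.lf (nat_lit 76) (nat_lit 4071148) (nat_lit 0) (nat_lit 698973011) (nat_lit 76) (nat_lit 6046247) (nat_lit 74) (nat_lit 3) (nat_lit 73) (nat_lit 1) (nat_lit 74) (nat_lit 1) (nat_lit 418) (nat_lit 359) (nat_lit 243)) (XT.lf (nat_lit 76) (nat_lit 333016087) (nat_lit 0) (nat_lit 23216954) (nat_lit 76) (nat_lit 334757797) (nat_lit 71) (nat_lit 3) (nat_lit 70) (nat_lit 1) (nat_lit 71) (nat_lit 1) (nat_lit 419) (nat_lit 359) (nat_lit 242)))) (XT.nd (nat_lit 156) (nat_lit 0) (nat_lit 76) (XT.nd (nat_lit 78) (nat_lit 0) (nat_lit 76) (XT.lf (nat_lit 836) (nat_lit 2504521641) (nat_lit 0) (nat_lit 4446772417)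 (nat_lit 836) (nat_lit 2504521641) (nat_lit 303) (nat_lit 1) (nat_lit 292) (nat_lit 0) (nat_lit 303) (nat_lit 0) (nat_lit 300) (nat_lit 360) (nat_lit 360)) (XT.lf (nat_lit 836) (nat_lit 934263421) (nat_lit 0) (nat_lit 8730361965) (nat_lit 760) (nat_lit 8538264835) (nat_lit 304) (nat_lit 1) (nat_lit 293) (nat_lit 1) (nat_lit 303) (nat_lit 1) (nat_lit 301) (nat_lit 360) (nat_lit 359))) (XT.nd (nat_lit 78) (nat_lit 0) (nat_lit 76) (XT.lf (nat_lit 836) (nat_lit 8580670259) (nat_lit 76) (nat_lit 5846726351) (nat_lit 0) (nat_lit 3100836951) (nat_lit 304) (nat_lit 1) (nat_lit 294) (nat_lit 1) (nat_lit 293) (nat_lit 1) (nat_lit 302) (nat_lit 360) (nat_lit 358)) (XT.lf (nat_lit 836) (nat_lit 7414402042) (nat_lit 76) (nat_lit 2450322488) (nat_lit 0) (nat_lit 7022613902) (nat_lit 305) (nat_lit 1) (nat_lit 295) (nat_lit 1) (nat_lit 294) (nat_lit 1) (nat_lit 303) (nat_lit 360) (nat_lit 357)))))) (XT.nd (nat_lit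 468) (nat_lit 1900) (nat_lit 0) (XT.nd (nat_lit 234) (nat_lit 1520) (nat_lit 0) (XT.nd (nat_lit 78) (nat_lit 0) (nat_lit 76) (XT.lf (nat_lit 836) (nat_lit 5487287862) (nat_lit 0) (nat_lit 10266456217) (nat_lit 760) (nat_lit 524819775) (nat_lit 306) (nat_lit 1) (nat_lit 295) (nat_lit 1) (nat_lit 305) (nat_lit 1) (nat_lit 304) (nat_lit 360) (nat_lit 356)) (XT.nd (nat_lit 78) (nat_lit 0) (nat_lit 0) (XT.lf (nat_lit 836) (nat_lit 1316620921) (nat_lit 0) (nat_lit 11321620111) (nat_lit 760) (nat_lit 3060621490) (nat_lit 307) (nat_lit 1) (nat_lit 296) (nat_lit 1) (nat_lit 306) (nat_lit 1) (nat_lit 305) (nat_lit 360) (nat_lit 355)) (XT.lf (nat_lit 836) (nat_lit 2530009895) (nat_lit 76) (nat_lit 9839409836) (nat_lit 0) (nat_lit 2776802851) (nat_lit 307) (nat_lit 1) (nat_lit 297) (nat_lit 1) (nat_lit 296) (nat_lit 1) (nat_lit 306) (nat_lit 360) (nat_lit 354)))) (XT.nd (nat_lit 78) (nat_lit 912) (nat_lit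 0) (XT.lf (nat_lit 836) (nat_lit 519606340) (nat_lit 0) (nat_lit 7355609704) (nat_lit 760) (nat_lit 6745017028) (nat_lit 298) (nat_lit 1) (nat_lit 287) (nat_lit 1) (nat_lit 297) (nat_lit 1) (nat_lit 307) (nat_lit 360) (nat_lit 353)) (XT.nd (nat_lit 78) (nat_lit 380) (nat_lit 0) (XT.lf (nat_lit 76) (nat_lit 3597862540) (nat_lit 0) (nat_lit 1559121269) (nat_lit 532) (nat_lit 8962164849) (nat_lit 281) (nat_lit 1) (nat_lit 280) (nat_lit 1) (nat_lit 287) (nat_lit 1) (nat_lit 308) (nat_lit 360) (nat_lit 352)) (XT.lf (nat_lit 456) (nat_lit 9915256309) (nat_lit 0) (nat_lit 3227629684) (nat_lit 380) (nat_lit 499011492) (nat_lit 281) (nat_lit 1) (nat_lit 275) (nat_lit 1) (nat_lit 280) (nat_lit 1) (nat_lit 309) (nat_lit 360) (nat_lit 351))))) (XT.nd (nat_lit 234) (nat_lit 1216) (nat_lit 0) (XT.nd (nat_lit 78) (nat_lit 304) (nat_lit 0) (XT.lf (nat_lit 456) (nat_lit 7154943373) (nat_lit 0) (nat_lit 1504412099)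 (nat_lit 380) (nat_lit 4525811788) (nat_lit 276) (nat_lit 1) (nat_lit 270) (nat_lit 1) (nat_lit 275) (nat_lit 1) (nat_lit 310) (nat_lit 360) (nat_lit 350)) (XT.nd (nat_lit 78) (nat_lit 0) (nat_lit 0) (XT.lf (nat_lit 380) (nat_lit 4353691788) (nat_lit 0) (nat_lit 27698671) (nat_lit 304) (nat_lit 8369192430) (nat_lit 271) (nat_lit 1) (nat_lit 266) (nat_lit 1) (nat_lit 270) (nat_lit 1) (nat_lit 311) (nat_lit 360) (nat_lit 349)) (XT.lf (nat_lit 76) (nat_lit 321194804) (nat_lit 0) (nat_lit 10832245190) (nat_lit 380) (nat_lit 1182550182) (nat_lit 267) (nat_lit 1) (nat_lit 266) (nat_lit 1) (nat_lit 271) (nat_lit 1) (nat_lit 312) (nat_lit 360) (nat_lit 348)))) (XT.nd (nat_lit 156) (nat_lit 532) (nat_lit 0) (XT.nd (nat_lit 78) (nat_lit 304) (nat_lit 0) (XT.lf (nat_lit 76) (nat_lit 8293333165) (nat_lit 0) (nat_lit 1375538043) (nat_lit 380) (nat_lit 2268512050) (nat_lit 262) (nat_lit 1) (nat_lit 261) (nat_lit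 1) (nat_lit 266) (nat_lit 1) (nat_lit 313) (nat_lit 360) (nat_lit 347)) (XT.lf (nat_lit 76) (nat_lit 4149364741) (nat_lit 0) (nat_lit 4213517207) (nat_lit 380) (nat_lit 3193506878) (nat_lit 258) (nat_lit 1) (nat_lit 257) (nat_lit 1) (nat_lit 262) (nat_lit 1) (nat_lit 314) (nat_lit 360) (nat_lit 346))) (XT.nd (nat_lit 78) (nat_lit 228) (nat_lit 0) (XT.lf (nat_lit 76) (nat_lit 204803442) (nat_lit 0) (nat_lit 7044935345) (nat_lit 380) (nat_lit 3943694435) (nat_lit 254) (nat_lit 1) (nat_lit 253) (nat_lit 1) (nat_lit 258) (nat_lit 1) (nat_lit 315) (nat_lit 360) (nat_lit 345)) (XT.lf (nat_lit 304) (nat_lit 924880803) (nat_lit 0) (nat_lit 6254526165) (nat_lit 228) (nat_lit 3665296077) (nat_lit 254) (nat_lit 1) (nat_lit 250) (nat_lit 1) (nat_lit 253) (nat_lit 1) (nat_lit 316) (nat_lit 360) (nat_lit 344))))))) (XT.nd (nat_lit 1014) (nat_lit 1976) (nat_lit 0) (XT.nd (nat_lit 468) (nat_lit 1368) (nat_lit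 0) (XT.nd (nat_lit 234) (nat_lit 684) (nat_lit 0) (XT.nd (nat_lit 78) (nat_lit 456) (nat_lit 0) (XT.lf (nat_lit 76) (nat_lit 3195711840) (nat_lit 0) (nat_lit 2190360753) (nat_lit 380) (nat_lit 5124306952) (nat_lit 246) (nat_lit 1) (nat_lit 245) (nat_lit 1) (nat_lit 250) (nat_lit 1) (nat_lit 317) (nat_lit 360) (nat_lit 343)) (XT.nd (nat_lit 78) (nat_lit 228) (nat_lit 0) (XT.lf (nat_lit 304) (nat_lit 4947730598) (nat_lit 0) (nat_lit 4647753417) (nat_lit 228) (nat_lit 594906921) (nat_lit 246) (nat_lit 1) (nat_lit 242) (nat_lit 1) (nat_lit 245) (nat_lit 1) (nat_lit 318) (nat_lit 360) (nat_lit 342)) (XT.lf (nat_lit 304) (nat_lit 1585723753) (nat_lit 0) (nat_lit 4001525369) (nat_lit 228) (nat_lit 4295450457) (nat_lit 243) (nat_lit 1) (nat_lit 239) (nat_lit 1) (nat_lit 242) (nat_lit 1) (nat_lit 319) (nat_lit 360) (nat_lit 341)))) (XT.nd (nat_lit 78) (nat_lit 380) (nat_lit 0) (XT.lf (nat_lit 76) (nat_lit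 1807341917) (nat_lit 0) (nat_lit 1654778586) (nat_lit 304) (nat_lit 6125666719) (nat_lit 236) (nat_lit 1) (nat_lit 235) (nat_lit 1) (nat_lit 239) (nat_lit 1) (nat_lit 320) (nat_lit 360) (nat_lit 340)) (XT.nd (nat_lit 78) (nat_lit 152) (nat_lit 0) (XT.lf (nat_lit 304) (nat_lit 4497333148) (nat_lit 0) (nat_lit 2992358818) (nat_lit 228) (nat_lit 1813977754) (nat_lit 236) (nat_lit 1) (nat_lit 232) (nat_lit 1) (nat_lit 235) (nat_lit 1) (nat_lit 321) (nat_lit 360) (nat_lit 339)) (XT.lf (nat_lit 228) (nat_lit 1114895528) (nat_lit 0) (nat_lit 2610614806) (nat_lit 152) (nat_lit 5305503977) (nat_lit 233) (nat_lit 1) (nat_lit 230) (nat_lit 1) (nat_lit 232) (nat_lit 1) (nat_lit 322) (nat_lit 360) (nat_lit 338))))) (XT.nd (nat_lit 234) (nat_lit 684) (nat_lit 0) (XT.nd (nat_lit 78) (nat_lit 380) (nat_lit 0) (XT.lf (nat_lit 76) (nat_lit 188870425) (nat_lit 0) (nat_lit 2113501060) (nat_lit 304) (nat_lit 6466556258)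 (nat_lit 227) (nat_lit 1) (nat_lit 226) (nat_lit 1) (nat_lit 230) (nat_lit 1) (nat_lit 323) (nat_lit 360) (nat_lit 337)) (XT.nd (nat_lit 78) (nat_lit 228) (nat_lit 0) (XT.lf (nat_lit 228) (nat_lit 3239681835) (nat_lit 0) (nat_lit 2024523215) (nat_lit 152) (nat_lit 3250955961) (nat_lit 227) (nat_lit 1) (nat_lit 224) (nat_lit 1) (nat_lit 226) (nat_lit 1) (nat_lit 324) (nat_lit 360) (nat_lit 336)) (XT.lf (nat_lit 76) (nat_lit 1757715977) (nat_lit 0) (nat_lit 81190002) (nat_lit 228) (nat_lit 6433561807) (nat_lit 222) (nat_lit 1) (nat_lit 221) (nat_lit 1) (nat_lit 224) (nat_lit 1) (nat_lit 325) (nat_lit 360) (nat_lit 335)))) (XT.nd (nat_lit 156) (nat_lit 380) (nat_lit 0) (XT.nd (nat_lit 78) (nat_lit 152) (nat_lit 0) (XT.lf (nat_lit 228) (nat_lit 4805256058) (nat_lit 0) (nat_lit 1665128967) (nat_lit 152) (nat_lit 1566449309) (nat_lit 222) (nat_lit 1) (nat_lit 219) (nat_lit 1) (nat_lit 221) (nat_lit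 1) (nat_lit 326) (nat_lit 360) (nat_lit 334)) (XT.lf (nat_lit 228) (nat_lit 1492705091) (nat_lit 0) (nat_lit 1547921507) (nat_lit 152) (nat_lit 4769583581) (nat_lit 220) (nat_lit 1) (nat_lit 217) (nat_lit 1) (nat_lit 219) (nat_lit 1) (nat_lit 327) (nat_lit 360) (nat_lit 333))) (XT.nd (nat_lit 78) (nat_lit 152) (nat_lit 0) (XT.lf (nat_lit 228) (nat_lit 5925490629) (nat_lit 0) (nat_lit 1478913363) (nat_lit 152) (nat_lit 187617318) (nat_lit 217) (nat_lit 1) (nat_lit 214) (nat_lit 1) (nat_lit 216) (nat_lit 1) (nat_lit 328) (nat_lit 360) (nat_lit 332)) (XT.lf (nat_lit 228) (nat_lit 2651974982) (nat_lit 0) (nat_lit 1411863651) (nat_lit 152) (nat_lit 3316056587) (nat_lit 215) (nat_lit 1) (nat_lit 212) (nat_lit 1) (nat_lit 214) (nat_lit 1) (nat_lit 329) (nat_lit 360) (nat_lit 331)))))) (XT.nd (nat_lit 546) (nat_lit 988) (nat_lit 0) (XT.nd (nat_lit 234) (nat_lit 608) (nat_lit 0) (XT.nd (nat_lit 78) (nat_lit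 228) (nat_lit 0) (XT.lf (nat_lit 76) (nat_lit 908403821) (nat_lit 0) (nat_lit 499299674) (nat_lit 152) (nat_lit 5768864078) (nat_lit 211) (nat_lit 1) (nat_lit 210) (nat_lit 1) (nat_lit 212) (nat_lit 1) (nat_lit 330) (nat_lit 360) (nat_lit 330)) (XT.nd (nat_lit 78) (nat_lit 76) (nat_lit 0) (XT.lf (nat_lit 228) (nat_lit 3479543694) (nat_lit 0) (nat_lit 1392797482) (nat_lit 152) (nat_lit 2106029529) (nat_lit 211) (nat_lit 1) (nat_lit 208) (nat_lit 1) (nat_lit 210) (nat_lit 1) (nat_lit 331) (nat_lit 360) (nat_lit 329)) (XT.lf (nat_lit 152) (nat_lit 374697412) (nat_lit 0) (nat_lit 1427006388) (nat_lit 76) (nat_lit 4986294594) (nat_lit 209) (nat_lit 1) (nat_lit 207) (nat_lit 1) (nat_lit 208) (nat_lit 1) (nat_lit 332) (nat_lit 360) (nat_lit 328)))) (XT.nd (nat_lit 156) (nat_lit 304) (nat_lit 0) (XT.nd (nat_lit 78) (nat_lit 76) (nat_lit 0) (XT.lf (nat_lit 228) (nat_lit 4044720227) (nat_lit 0) (nat_lit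 1459446733) (nat_lit 152) (nat_lit 1098708275) (nat_lit 207) (nat_lit 1) (nat_lit 204) (nat_lit 1) (nat_lit 206) (nat_lit 1) (nat_lit 333) (nat_lit 360) (nat_lit 327)) (XT.lf (nat_lit 152) (nat_lit 1017276962) (nat_lit 0) (nat_lit 1514016917) (nat_lit 76) (nat_lit 3892697220) (nat_lit 205) (nat_lit 1) (nat_lit 203) (nat_lit 1) (nat_lit 204) (nat_lit 1) (nat_lit 334) (nat_lit 360) (nat_lit 326))) (XT.nd (nat_lit 78) (nat_lit 76) (nat_lit 0) (XT.lf (nat_lit 228) (nat_lit 4403541796) (nat_lit 0) (nat_lit 1587038401) (nat_lit 152) (nat_lit 260446587) (nat_lit 203) (nat_lit 1) (nat_lit 200) (nat_lit 1) (nat_lit 202) (nat_lit 1) (nat_lit 335) (nat_lit 360) (nat_lit 325)) (XT.lf (nat_lit 152) (nat_lit 1464001111) (nat_lit 0) (nat_lit 1654506604) (nat_lit 76) (nat_lit 2964191465) (nat_lit 201) (nat_lit 1) (nat_lit 199) (nat_lit 1) (nat_lit 200) (nat_lit 1) (nat_lit 336) (nat_lit 360) (nat_lit 324)))))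 (XT.nd (nat_lit 234) (nat_lit 456) (nat_lit 0) (XT.nd (nat_lit 78) (nat_lit 304) (nat_lit 0) (XT.lf (nat_lit 76) (nat_lit 422568982) (nat_lit 0) (nat_lit 1326331396) (nat_lit 228) (nat_lit 4171518378) (nat_lit 197) (nat_lit 1) (nat_lit 196) (nat_lit 1) (nat_lit 199) (nat_lit 1) (nat_lit 337) (nat_lit 360) (nat_lit 323)) (XT.nd (nat_lit 78) (nat_lit 228) (nat_lit 0) (XT.lf (nat_lit 152) (nat_lit 1756933420) (nat_lit 0) (nat_lit 1830641347) (nat_lit 76) (nat_lit 2174593700) (nat_lit 197) (nat_lit 1) (nat_lit 195) (nat_lit 1) (nat_lit 196) (nat_lit 1) (nat_lit 338) (nat_lit 360) (nat_lit 322)) (XT.lf (nat_lit 76) (nat_lit 982738110) (nat_lit 0) (nat_lit 951848312) (nat_lit 228) (nat_lit 3674893059) (nat_lit 193) (nat_lit 1) (nat_lit 192) (nat_lit 1) (nat_lit 195) (nat_lit 1) (nat_lit 339) (nat_lit 360) (nat_lit 321)))) (XT.nd (nat_lit 156) (nat_lit 228) (nat_lit 0) (XT.nd (nat_lit 78) (nat_lit 152)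 (nat_lit 0) (XT.lf (nat_lit 152) (nat_lit 1929995304) (nat_lit 0) (nat_lit 2028499620) (nat_lit 76) (nat_lit 1502196716) (nat_lit 193) (nat_lit 1) (nat_lit 191) (nat_lit 1) (nat_lit 192) (nat_lit 1) (nat_lit 340) (nat_lit 360) (nat_lit 320)) (XT.lf (nat_lit 76) (nat_lit 1446817746) (nat_lit 0) (nat_lit 689382768) (nat_lit 152) (nat_lit 3180617061) (nat_lit 190) (nat_lit 1) (nat_lit 189) (nat_lit 1) (nat_lit 191) (nat_lit 1) (nat_lit 341) (nat_lit 360) (nat_lit 319))) (XT.nd (nat_lit 78) (nat_lit 152) (nat_lit 0) (XT.lf (nat_lit 152) (nat_lit 2010487450) (nat_lit 0) (nat_lit 2237309923) (nat_lit 76) (nat_lit 928971221) (nat_lit 190) (nat_lit 1) (nat_lit 188) (nat_lit 1) (nat_lit 189) (nat_lit 1) (nat_lit 342) (nat_lit 360) (nat_lit 318)) (XT.lf (nat_lit 76) (nat_lit 1830089926) (nat_lit 0) (nat_lit 514288534) (nat_lit 152) (nat_lit 2696648913) (nat_lit 187) (nat_lit 1) (nat_lit 186) (nat_lit 1)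 (nat_lit 188) (nat_lit 1) (nat_lit 343) (nat_lit 360) (nat_lit 317))))))))
noncomputable def ec63 : XT := (XT.nd (nat_lit 2106) (nat_lit 3344) (nat_lit 0) (XT.nd (nat_lit 1014) (nat_lit 1672) (nat_lit 0) (XT.nd (nat_lit 468) (nat_lit 760) (nat_lit 0) (XT.nd (nat_lit 234) (nat_lit 380) (nat_lit 0) (XT.nd (nat_lit 78) (nat_lit 228) (nat_lit 0) (XT.lf (nat_lit 152) (nat_lit 2020330369) (nat_lit 0) (nat_lit 2448831060) (nat_lit 76) (nat_lit 439912369) (nat_lit 187) (nat_lit 1) (nat_lit 185) (nat_lit 1) (nat_lit 186) (nat_lit 1) (nat_lit 344) (nat_lit 360) (nat_lit 316)) (XT.nd (nat_lit 78) (nat_lit 76) (nat_lit 0) (XT.lf (nat_lit 76) (nat_lit 2145255727) (nat_lit 0) (nat_lit 406747749) (nat_lit 152) (nat_lit 2228859328) (nat_lit 184) (nat_lit 1) (nat_lit 183) (nat_lit 1) (nat_lit 185) (nat_lit 1) (nat_lit 345) (nat_lit 360) (nat_lit 315)) (XT.lf (nat_lit 152) (nat_lit 1977075718) (nat_lit 0) (nat_lit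 2656848846) (nat_lit 76) (nat_lit 22504797) (nat_lit 184) (nat_lit 1) (nat_lit 182) (nat_lit 1) (nat_lit 183) (nat_lit 1) (nat_lit 346) (nat_lit 360) (nat_lit 314)))) (XT.nd (nat_lit 78) (nat_lit 228) (nat_lit 0) (XT.lf (nat_lit 76) (nat_lit 2402892119) (nat_lit 0) (nat_lit 350864308) (nat_lit 152) (nat_lit 1781456671) (nat_lit 181) (nat_lit 1) (nat_lit 180) (nat_lit 1) (nat_lit 182) (nat_lit 1) (nat_lit 347) (nat_lit 360) (nat_lit 313)) (XT.nd (nat_lit 78) (nat_lit 152) (nat_lit 0) (XT.lf (nat_lit 0) (nat_lit 323034501) (nat_lit 0) (nat_lit 2528262460) (nat_lit 152) (nat_lit 1566225318) (nat_lit 179) (nat_lit 3) (nat_lit 179) (nat_lit 1) (nat_lit 181) (nat_lit 1) (nat_lit 348) (nat_lit 360) (nat_lit 312)) (XT.lf (nat_lit 76) (nat_lit 2611826130) (nat_lit 0) (nat_lit 333924924) (nat_lit 152) (nat_lit 1357331643) (nat_lit 178) (nat_lit 1) (nat_lit 177) (nat_lit 1) (nat_lit 179) (nat_lit 1) (nat_lit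 349) (nat_lit 360) (nat_lit 311))))) (XT.nd (nat_lit 234) (nat_lit 456) (nat_lit 0) (XT.nd (nat_lit 78) (nat_lit 228) (nat_lit 0) (XT.lf (nat_lit 0) (nat_lit 617115406) (nat_lit 0) (nat_lit 2417713059) (nat_lit 152) (nat_lit 1156862435) (nat_lit 176) (nat_lit 3) (nat_lit 176) (nat_lit 1) (nat_lit 178) (nat_lit 1) (nat_lit 350) (nat_lit 360) (nat_lit 310)) (XT.nd (nat_lit 78) (nat_lit 76) (nat_lit 0) (XT.lf (nat_lit 76) (nat_lit 2779441403) (nat_lit 0) (nat_lit 345797001) (nat_lit 152) (nat_lit 958336197) (nat_lit 175) (nat_lit 1) (nat_lit 174) (nat_lit 1) (nat_lit 176) (nat_lit 1) (nat_lit 351) (nat_lit 360) (nat_lit 309)) (XT.lf (nat_lit 0) (nat_lit 867595583) (nat_lit 0) (nat_lit 2337807267) (nat_lit 152) (nat_lit 772690391) (nat_lit 173) (nat_lit 3) (nat_lit 173) (nat_lit 1) (nat_lit 175) (nat_lit 1) (nat_lit 352) (nat_lit 360) (nat_lit 308)))) (XT.nd (nat_lit 156) (nat_lit 228) (nat_lit 0)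 (XT.nd (nat_lit 78) (nat_lit 76) (nat_lit 0) (XT.lf (nat_lit 76) (nat_lit 2911929500) (nat_lit 0) (nat_lit 378438160) (nat_lit 152) (nat_lit 585508885) (nat_lit 172) (nat_lit 1) (nat_lit 171) (nat_lit 1) (nat_lit 173) (nat_lit 1) (nat_lit 353) (nat_lit 360) (nat_lit 307)) (XT.lf (nat_lit 0) (nat_lit 1080492559) (nat_lit 0) (nat_lit 2280939750) (nat_lit 152) (nat_lit 414517367) (nat_lit 170) (nat_lit 3) (nat_lit 170) (nat_lit 1) (nat_lit 172) (nat_lit 1) (nat_lit 354) (nat_lit 360) (nat_lit 306))) (XT.nd (nat_lit 78) (nat_lit 76) (nat_lit 0) (XT.lf (nat_lit 76) (nat_lit 3014496019) (nat_lit 0) (nat_lit 425496849) (nat_lit 152) (nat_lit 239256635) (nat_lit 169) (nat_lit 1) (nat_lit 168) (nat_lit 1) (nat_lit 170) (nat_lit 1) (nat_lit 355) (nat_lit 360) (nat_lit 305)) (XT.lf (nat_lit 0) (nat_lit 1260895728) (nat_lit 0) (nat_lit 2241076660) (nat_lit 152) (nat_lit 82577400) (nat_lit 167) (nat_lit 3)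 (nat_lit 167) (nat_lit 1) (nat_lit 169) (nat_lit 1) (nat_lit 356) (nat_lit 360) (nat_lit 304)))))) (XT.nd (nat_lit 546) (nat_lit 760) (nat_lit 0) (XT.nd (nat_lit 234) (nat_lit 456) (nat_lit 0) (XT.nd (nat_lit 78) (nat_lit 228) (nat_lit 0) (XT.lf (nat_lit 152) (nat_lit 3009667548) (nat_lit 0) (nat_lit 83160587) (nat_lit 76) (nat_lit 400125034) (nat_lit 166) (nat_lit 1) (nat_lit 164) (nat_lit 1) (nat_lit 165) (nat_lit 1) (nat_lit 357) (nat_lit 360) (nat_lit 303)) (XT.nd (nat_lit 78) (nat_lit 152) (nat_lit 0) (XT.lf (nat_lit 76) (nat_lit 1186006692) (nat_lit 0) (nat_lit 230719280) (nat_lit 76) (nat_lit 1986337325) (nat_lit 164) (nat_lit 3) (nat_lit 163) (nat_lit 1) (nat_lit 164) (nat_lit 1) (nat_lit 358) (nat_lit 360) (nat_lit 302)) (XT.lf (nat_lit 152) (nat_lit 2766200378) (nat_lit 0) (nat_lit 386576850) (nat_lit 76) (nat_lit 163483506) (nat_lit 163) (nat_lit 1) (nat_lit 161) (nat_lit 1) (nat_lit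 162) (nat_lit 1) (nat_lit 359) (nat_lit 360) (nat_lit 301)))) (XT.nd (nat_lit 156) (nat_lit 228) (nat_lit 0) (XT.nd (nat_lit 78) (nat_lit 152) (nat_lit 0) (XT.lf (nat_lit 76) (nat_lit 1028567043) (nat_lit 0) (nat_lit 520412259) (nat_lit 76) (nat_lit 1682047538) (nat_lit 161) (nat_lit 3) (nat_lit 160) (nat_lit 1) (nat_lit 161) (nat_lit 1) (nat_lit 360) (nat_lit 360) (nat_lit 300)) (XT.lf (nat_lit 0) (nat_lit 43414105) (nat_lit 0) (nat_lit 619675565) (nat_lit 152) (nat_lit 2485668963) (nat_lit 158) (nat_lit 3) (nat_lit 158) (nat_lit 1) (nat_lit 160) (nat_lit 1) (nat_lit 361) (nat_lit 360) (nat_lit 299))) (XT.nd (nat_lit 78) (nat_lit 152) (nat_lit 0) (XT.lf (nat_lit 76) (nat_lit 874900893) (nat_lit 0) (nat_lit 784578173) (nat_lit 76) (nat_lit 1408476319) (nat_lit 158) (nat_lit 3) (nat_lit 157) (nat_lit 1) (nat_lit 158) (nat_lit 1) (nat_lit 362) (nat_lit 360) (nat_lit 298)) (XT.lf (nat_lit 0) (nat_lit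 220794620) (nat_lit 0) (nat_lit 691319687) (nat_lit 152) (nat_lit 2077731047) (nat_lit 155) (nat_lit 3) (nat_lit 155) (nat_lit 1) (nat_lit 157) (nat_lit 1) (nat_lit 363) (nat_lit 360) (nat_lit 297))))) (XT.nd (nat_lit 234) (nat_lit 456) (nat_lit 0) (XT.nd (nat_lit 78) (nat_lit 228) (nat_lit 0) (XT.lf (nat_lit 76) (nat_lit 726730678) (nat_lit 0) (nat_lit 1024205558) (nat_lit 76) (nat_lit 1162402036) (nat_lit 155) (nat_lit 3) (nat_lit 154) (nat_lit 1) (nat_lit 155) (nat_lit 1) (nat_lit 364) (nat_lit 360) (nat_lit 296)) (XT.nd (nat_lit 78) (nat_lit 76) (nat_lit 0) (XT.lf (nat_lit 0) (nat_lit 376593699) (nat_lit 0) (nat_lit 760783609) (nat_lit 152) (nat_lit 1701778801) (nat_lit 152) (nat_lit 3) (nat_lit 152) (nat_lit 1) (nat_lit 154) (nat_lit 1) (nat_lit 365) (nat_lit 360) (nat_lit 295)) (XT.lf (nat_lit 76) (nat_lit 585281023) (nat_lit 0) (nat_lit 1240407903) (nat_lit 76) (nat_lit 941012422) (nat_lit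 152) (nat_lit 3) (nat_lit 151) (nat_lit 1) (nat_lit 152) (nat_lit 1) (nat_lit 366) (nat_lit 360) (nat_lit 294)))) (XT.nd (nat_lit 156) (nat_lit 228) (nat_lit 0) (XT.nd (nat_lit 78) (nat_lit 76) (nat_lit 0) (XT.lf (nat_lit 0) (nat_lit 513164822) (nat_lit 0) (nat_lit 826860940) (nat_lit 152) (nat_lit 1356207229) (nat_lit 149) (nat_lit 3) (nat_lit 149) (nat_lit 1) (nat_lit 151) (nat_lit 1) (nat_lit 367) (nat_lit 360) (nat_lit 293)) (XT.lf (nat_lit 76) (nat_lit 451382397) (nat_lit 0) (nat_lit 1434379000) (nat_lit 76) (nat_lit 741841766) (nat_lit 149) (nat_lit 3) (nat_lit 148) (nat_lit 1) (nat_lit 149) (nat_lit 1) (nat_lit 368) (nat_lit 360) (nat_lit 292))) (XT.nd (nat_lit 78) (nat_lit 76) (nat_lit 0) (XT.lf (nat_lit 0) (nat_lit 632565533) (nat_lit 0) (nat_lit 888702542) (nat_lit 152) (nat_lit 1039381013) (nat_lit 146) (nat_lit 3) (nat_lit 146) (nat_lit 1) (nat_lit 148) (nat_lit 1) (nat_lit 369) (nat_lit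 360) (nat_lit 291)) (XT.lf (nat_lit 76) (nat_lit 325554961) (nat_lit 0) (nat_lit 1607357901) (nat_lit 76) (nat_lit 562718859) (nat_lit 146) (nat_lit 3) (nat_lit 145) (nat_lit 1) (nat_lit 146) (nat_lit 1) (nat_lit 370) (nat_lit 360) (nat_lit 290))))))) (XT.nd (nat_lit 1014) (nat_lit 1748) (nat_lit 0) (XT.nd (nat_lit 468) (nat_lit 836) (nat_lit 0) (XT.nd (nat_lit 234) (nat_lit 380) (nat_lit 0) (XT.nd (nat_lit 78) (nat_lit 228) (nat_lit 0) (XT.lf (nat_lit 0) (nat_lit 736602014) (nat_lit 0) (nat_lit 945741253) (nat_lit 152) (nat_lit 749662217) (nat_lit 143) (nat_lit 3) (nat_lit 143) (nat_lit 1) (nat_lit 145) (nat_lit 1) (nat_lit 371) (nat_lit 360) (nat_lit 289)) (XT.nd (nat_lit 78) (nat_lit 152) (nat_lit 0) (XT.lf (nat_lit 76) (nat_lit 208076298) (nat_lit 0) (nat_lit 1760601648) (nat_lit 76) (nat_lit 401723742) (nat_lit 143) (nat_lit 3) (nat_lit 142) (nat_lit 1) (nat_lit 143) (nat_lit 1) (nat_lit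 372) (nat_lit 360) (nat_lit 288)) (XT.lf (nat_lit 0) (nat_lit 826866124) (nat_lit 0) (nat_lit 997631066) (nat_lit 152) (nat_lit 485431489) (nat_lit 140) (nat_lit 3) (nat_lit 140) (nat_lit 1) (nat_lit 142) (nat_lit 1) (nat_lit 373) (nat_lit 360) (nat_lit 287)))) (XT.nd (nat_lit 78) (nat_lit 304) (nat_lit 0) (XT.lf (nat_lit 76) (nat_lit 99036014) (nat_lit 0) (nat_lit 1895364257) (nat_lit 76) (nat_lit 257151701) (nat_lit 140) (nat_lit 3) (nat_lit 139) (nat_lit 1) (nat_lit 140) (nat_lit 1) (nat_lit 374) (nat_lit 360) (nat_lit 286)) (XT.nd (nat_lit 78) (nat_lit 152) (nat_lit 0) (XT.lf (nat_lit 0) (nat_lit 904766243) (nat_lit 0) (nat_lit 1044198066) (nat_lit 152) (nat_lit 245104031) (nat_lit 137) (nat_lit 3) (nat_lit 137) (nat_lit 1) (nat_lit 139) (nat_lit 1) (nat_lit 375) (nat_lit 360) (nat_lit 285)) (XT.lf (nat_lit 76) (nat_lit 2011285711) (nat_lit 0) (nat_lit 1568459) (nat_lit 152) (nat_lit 125888197)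 (nat_lit 136) (nat_lit 1) (nat_lit 135) (nat_lit 1) (nat_lit 137) (nat_lit 1) (nat_lit 376) (nat_lit 360) (nat_lit 284))))) (XT.nd (nat_lit 234) (nat_lit 456) (nat_lit 0) (XT.nd (nat_lit 78) (nat_lit 304) (nat_lit 0) (XT.lf (nat_lit 0) (nat_lit 971553014) (nat_lit 0) (nat_lit 1085400933) (nat_lit 152) (nat_lit 27141405) (nat_lit 134) (nat_lit 3) (nat_lit 134) (nat_lit 1) (nat_lit 136) (nat_lit 1) (nat_lit 377) (nat_lit 360) (nat_lit 283)) (XT.nd (nat_lit 78) (nat_lit 76) (nat_lit 0) (XT.lf (nat_lit 152) (nat_lit 1939163442) (nat_lit 0) (nat_lit 83914384) (nat_lit 76) (nat_lit 8441285) (nat_lit 133) (nat_lit 1) (nat_lit 131) (nat_lit 1) (nat_lit 132) (nat_lit 1) (nat_lit 378) (nat_lit 360) (nat_lit 282)) (XT.lf (nat_lit 76) (nat_lit 855522864) (nat_lit 0) (nat_lit 175559001) (nat_lit 76) (nat_lit 948481188) (nat_lit 131) (nat_lit 3) (nat_lit 130) (nat_lit 1) (nat_lit 131) (nat_lit 1) (nat_lit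 379) (nat_lit 360) (nat_lit 281)))) (XT.nd (nat_lit 156) (nat_lit 228) (nat_lit 0) (XT.nd (nat_lit 78) (nat_lit 76) (nat_lit 0) (XT.lf (nat_lit 0) (nat_lit 96712281) (nat_lit 0) (nat_lit 178686111) (nat_lit 152) (nat_lit 1654163275) (nat_lit 128) (nat_lit 3) (nat_lit 128) (nat_lit 1) (nat_lit 130) (nat_lit 1) (nat_lit 380) (nat_lit 360) (nat_lit 280)) (XT.lf (nat_lit 76) (nat_lit 722676865) (nat_lit 0) (nat_lit 359055250) (nat_lit 76) (nat_lit 798578560) (nat_lit 128) (nat_lit 3) (nat_lit 127) (nat_lit 1) (nat_lit 128) (nat_lit 1) (nat_lit 381) (nat_lit 360) (nat_lit 279))) (XT.nd (nat_lit 78) (nat_lit 76) (nat_lit 0) (XT.lf (nat_lit 0) (nat_lit 190301021) (nat_lit 0) (nat_lit 257233733) (nat_lit 152) (nat_lit 1385233319) (nat_lit 125) (nat_lit 3) (nat_lit 125) (nat_lit 1) (nat_lit 127) (nat_lit 1) (nat_lit 382) (nat_lit 360) (nat_lit 278)) (XT.lf (nat_lit 76) (nat_lit 600127899) (nat_lit 0)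 (nat_lit 523853523) (nat_lit 76) (nat_lit 662102632) (nat_lit 125) (nat_lit 3) (nat_lit 124) (nat_lit 1) (nat_lit 125) (nat_lit 1) (nat_lit 383) (nat_lit 360) (nat_lit 277)))))) (XT.nd (nat_lit 546) (nat_lit 912) (nat_lit 0) (XT.nd (nat_lit 234) (nat_lit 456) (nat_lit 0) (XT.nd (nat_lit 78) (nat_lit 228) (nat_lit 0) (XT.lf (nat_lit 0) (nat_lit 273583714) (nat_lit 0) (nat_lit 328235154) (nat_lit 152) (nat_lit 1139057302) (nat_lit 122) (nat_lit 3) (nat_lit 122) (nat_lit 1) (nat_lit 124) (nat_lit 1) (nat_lit 384) (nat_lit 360) (nat_lit 276)) (XT.nd (nat_lit 78) (nat_lit 152) (nat_lit 0) (XT.lf (nat_lit 76) (nat_lit 487365319) (nat_lit 0) (nat_lit 671288826) (nat_lit 76) (nat_lit 537968504) (nat_lit 122) (nat_lit 3) (nat_lit 121) (nat_lit 1) (nat_lit 122) (nat_lit 1) (nat_lit 385) (nat_lit 360) (nat_lit 275)) (XT.lf (nat_lit 0) (nat_lit 347457815) (nat_lit 0) (nat_lit 392081435) (nat_lit 152) (nat_lit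 914092961) (nat_lit 119) (nat_lit 3) (nat_lit 119) (nat_lit 1) (nat_lit 121) (nat_lit 1) (nat_lit 386) (nat_lit 360) (nat_lit 274)))) (XT.nd (nat_lit 156) (nat_lit 228) (nat_lit 0) (XT.nd (nat_lit 78) (nat_lit 152) (nat_lit 0) (XT.lf (nat_lit 76) (nat_lit 383867719) (nat_lit 0) (nat_lit 802626773) (nat_lit 76) (nat_lit 425185886) (nat_lit 119) (nat_lit 3) (nat_lit 118) (nat_lit 1) (nat_lit 119) (nat_lit 1) (nat_lit 387) (nat_lit 360) (nat_lit 273)) (XT.lf (nat_lit 0) (nat_lit 412739938) (nat_lit 0) (nat_lit 449175711) (nat_lit 152) (nat_lit 708880784) (nat_lit 116) (nat_lit 3) (nat_lit 116) (nat_lit 1) (nat_lit 118) (nat_lit 1) (nat_lit 388) (nat_lit 360) (nat_lit 272))) (XT.nd (nat_lit 78) (nat_lit 152) (nat_lit 0) (XT.lf (nat_lit 76) (nat_lit 289112004) (nat_lit 0) (nat_lit 919063805) (nat_lit 76) (nat_lit 322848831) (nat_lit 116) (nat_lit 3) (nat_lit 115) (nat_lit 1) (nat_lit 116) (nat_lit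 1) (nat_lit 389) (nat_lit 360) (nat_lit 271)) (XT.lf (nat_lit 0) (nat_lit 470174702) (nat_lit 0) (nat_lit 499924990) (nat_lit 152) (nat_lit 522042459) (nat_lit 113) (nat_lit 3) (nat_lit 113) (nat_lit 1) (nat_lit 115) (nat_lit 1) (nat_lit 390) (nat_lit 360) (nat_lit 270))))) (XT.nd (nat_lit 234) (nat_lit 608) (nat_lit 0) (XT.nd (nat_lit 78) (nat_lit 228) (nat_lit 0) (XT.lf (nat_lit 76) (nat_lit 202580349) (nat_lit 0) (nat_lit 1021728197) (nat_lit 76) (nat_lit 230126912) (nat_lit 113) (nat_lit 3) (nat_lit 112) (nat_lit 1) (nat_lit 113) (nat_lit 1) (nat_lit 391) (nat_lit 360) (nat_lit 269)) (XT.nd (nat_lit 78) (nat_lit 76) (nat_lit 0) (XT.lf (nat_lit 0) (nat_lit 520442337) (nat_lit 0) (nat_lit 544733839) (nat_lit 152) (nat_lit 352278741) (nat_lit 110) (nat_lit 3) (nat_lit 110) (nat_lit 1) (nat_lit 112) (nat_lit 1) (nat_lit 392) (nat_lit 360) (nat_lit 268)) (XT.lf (nat_lit 76) (nat_lit 123765448)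 (nat_lit 0) (nat_lit 1111681651) (nat_lit 76) (nat_lit 146257580) (nat_lit 110) (nat_lit 3) (nat_lit 109) (nat_lit 1) (nat_lit 110) (nat_lit 1) (nat_lit 393) (nat_lit 360) (nat_lit 267)))) (XT.nd (nat_lit 156) (nat_lit 380) (nat_lit 0) (XT.nd (nat_lit 78) (nat_lit 76) (nat_lit 0) (XT.lf (nat_lit 0) (nat_lit 564165275) (nat_lit 0) (nat_lit 583999606) (nat_lit 152) (nat_lit 198366887) (nat_lit 107) (nat_lit 3) (nat_lit 107) (nat_lit 1) (nat_lit 109) (nat_lit 1) (nat_lit 394) (nat_lit 360) (nat_lit 266)) (XT.lf (nat_lit 76) (nat_lit 52174406) (nat_lit 0) (nat_lit 1189921313) (nat_lit 76) (nat_lit 70539527) (nat_lit 107) (nat_lit 3) (nat_lit 106) (nat_lit 1) (nat_lit 107) (nat_lit 1) (nat_lit 395) (nat_lit 360) (nat_lit 265))) (XT.nd (nat_lit 78) (nat_lit 228) (nat_lit 0) (XT.lf (nat_lit 0) (nat_lit 601913874) (nat_lit 0) (nat_lit 618108867) (nat_lit 152) (nat_lit 59157787) (nat_lit 104) (nat_lit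 3) (nat_lit 104) (nat_lit 1) (nat_lit 106) (nat_lit 1) (nat_lit 396) (nat_lit 360) (nat_lit 264)) (XT.lf (nat_lit 152) (nat_lit 1234595866) (nat_lit 0) (nat_lit 10479175) (nat_lit 76) (nat_lit 1947428) (nat_lit 103) (nat_lit 1) (nat_lit 101) (nat_lit 1) (nat_lit 102) (nat_lit 1) (nat_lit 397) (nat_lit 360) (nat_lit 263))))))))
noncomputable def ec64 : XT := (XT.nd (nat_lit 45630) (nat_lit 0) (nat_lit 10868) (XT.nd (nat_lit 1014) (nat_lit 1140) (nat_lit 0) (XT.nd (nat_lit 468) (nat_lit 760) (nat_lit 0) (XT.nd (nat_lit 234) (nat_lit 380) (nat_lit 0) (XT.nd (nat_lit 78) (nat_lit 228) (nat_lit 0) (XT.lf (nat_lit 76) (nat_lit 566659349) (nat_lit 0) (nat_lit 68623470) (nat_lit 76) (nat_lit 579882774) (nat_lit 101) (nat_lit 3) (nat_lit 100) (nat_lit 1) (nat_lit 101) (nat_lit 1) (nat_lit 398) (nat_lit 360) (nat_lit 262)) (XT.nd (nat_lit 78) (nat_lit 76) (nat_lit 0) (XT.lf (nat_lit 0) (nat_lit 60334497)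 (nat_lit 0) (nat_lit 71995365) (nat_lit 152) (nat_lit 1052205540) (nat_lit 98) (nat_lit 3) (nat_lit 98) (nat_lit 1) (nat_lit 100) (nat_lit 1) (nat_lit 399) (nat_lit 360) (nat_lit 261)) (XT.lf (nat_lit 76) (nat_lit 479101404) (nat_lit 0) (nat_lit 185330618) (nat_lit 76) (nat_lit 489898505) (nat_lit 98) (nat_lit 3) (nat_lit 97) (nat_lit 1) (nat_lit 98) (nat_lit 1) (nat_lit 400) (nat_lit 360) (nat_lit 260)))) (XT.nd (nat_lit 78) (nat_lit 228) (nat_lit 0) (XT.lf (nat_lit 0) (nat_lit 116105660) (nat_lit 0) (nat_lit 125626912) (nat_lit 152) (nat_lit 883464172) (nat_lit 95) (nat_lit 3) (nat_lit 95) (nat_lit 1) (nat_lit 97) (nat_lit 1) (nat_lit 401) (nat_lit 360) (nat_lit 259)) (XT.nd (nat_lit 78) (nat_lit 152) (nat_lit 0) (XT.lf (nat_lit 76) (nat_lit 398878466) (nat_lit 0) (nat_lit 289985902) (nat_lit 76) (nat_lit 407694440) (nat_lit 95) (nat_lit 3) (nat_lit 94) (nat_lit 1) (nat_lit 95) (nat_lit 1)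 (nat_lit 402) (nat_lit 360) (nat_lit 258)) (XT.lf (nat_lit 0) (nat_lit 165941434) (nat_lit 0) (nat_lit 173715662) (nat_lit 152) (nat_lit 729190619) (nat_lit 92) (nat_lit 3) (nat_lit 92) (nat_lit 1) (nat_lit 94) (nat_lit 1) (nat_lit 403) (nat_lit 360) (nat_lit 257))))) (XT.nd (nat_lit 234) (nat_lit 456) (nat_lit 0) (XT.nd (nat_lit 78) (nat_lit 228) (nat_lit 0) (XT.lf (nat_lit 76) (nat_lit 325495882) (nat_lit 0) (nat_lit 383504638) (nat_lit 76) (nat_lit 332694241) (nat_lit 92) (nat_lit 3) (nat_lit 91) (nat_lit 1) (nat_lit 92) (nat_lit 1) (nat_lit 404) (nat_lit 360) (nat_lit 256)) (XT.nd (nat_lit 78) (nat_lit 76) (nat_lit 0) (XT.lf (nat_lit 0) (nat_lit 210316396) (nat_lit 0) (nat_lit 216664155) (nat_lit 152) (nat_lit 588355807) (nat_lit 89) (nat_lit 3) (nat_lit 89) (nat_lit 1) (nat_lit 91) (nat_lit 1) (nat_lit 405) (nat_lit 360) (nat_lit 255)) (XT.lf (nat_lit 76) (nat_lit 258485371) (nat_lit 0)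 (nat_lit 466742487) (nat_lit 76) (nat_lit 264362926) (nat_lit 89) (nat_lit 3) (nat_lit 88) (nat_lit 1) (nat_lit 89) (nat_lit 1) (nat_lit 406) (nat_lit 360) (nat_lit 254)))) (XT.nd (nat_lit 156) (nat_lit 228) (nat_lit 0) (XT.nd (nat_lit 78) (nat_lit 76) (nat_lit 0) (XT.lf (nat_lit 0) (nat_lit 249669755) (nat_lit 0) (nat_lit 254852784) (nat_lit 152) (nat_lit 459996047) (nat_lit 86) (nat_lit 3) (nat_lit 86) (nat_lit 1) (nat_lit 88) (nat_lit 1) (nat_lit 407) (nat_lit 360) (nat_lit 253)) (XT.lf (nat_lit 76) (nat_lit 197404558) (nat_lit 0) (nat_lit 540498695) (nat_lit 76) (nat_lit 202203659) (nat_lit 86) (nat_lit 3) (nat_lit 85) (nat_lit 1) (nat_lit 86) (nat_lit 1) (nat_lit 408) (nat_lit 360) (nat_lit 252))) (XT.nd (nat_lit 78) (nat_lit 76) (nat_lit 0) (XT.lf (nat_lit 0) (nat_lit 284408154) (nat_lit 0) (nat_lit 288640166) (nat_lit 152) (nat_lit 343209439) (nat_lit 83) (nat_lit 3) (nat_lit 83) (nat_lit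 1) (nat_lit 85) (nat_lit 1) (nat_lit 409) (nat_lit 360) (nat_lit 251)) (XT.lf (nat_lit 76) (nat_lit 141836310) (nat_lit 0) (nat_lit 605519239) (nat_lit 76) (nat_lit 145754839) (nat_lit 83) (nat_lit 3) (nat_lit 82) (nat_lit 1) (nat_lit 83) (nat_lit 1) (nat_lit 410) (nat_lit 360) (nat_lit 250)))))) (XT.nd (nat_lit 468) (nat_lit 456) (nat_lit 0) (XT.nd (nat_lit 234) (nat_lit 304) (nat_lit 0) (XT.nd (nat_lit 78) (nat_lit 228) (nat_lit 0) (XT.lf (nat_lit 0) (nat_lit 314908193) (nat_lit 0) (nat_lit 318363686) (nat_lit 152) (nat_lit 237152394) (nat_lit 80) (nat_lit 3) (nat_lit 80) (nat_lit 1) (nat_lit 82) (nat_lit 1) (nat_lit 411) (nat_lit 360) (nat_lit 249)) (XT.nd (nat_lit 78) (nat_lit 152) (nat_lit 0) (XT.lf (nat_lit 76) (nat_lit 91387941) (nat_lit 0) (nat_lit 662499878) (nat_lit 76) (nat_lit 94587472) (nat_lit 80) (nat_lit 3) (nat_lit 79) (nat_lit 1) (nat_lit 80) (nat_lit 1) (nat_lit 412) (nat_lit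 360) (nat_lit 248)) (XT.lf (nat_lit 0) (nat_lit 341518720) (nat_lit 0) (nat_lit 344340175) (nat_lit 152) (nat_lit 141036295) (nat_lit 77) (nat_lit 3) (nat_lit 77) (nat_lit 1) (nat_lit 79) (nat_lit 1) (nat_lit 413) (nat_lit 360) (nat_lit 247)))) (XT.nd (nat_lit 78) (nat_lit 228) (nat_lit 0) (XT.lf (nat_lit 76) (nat_lit 45690307) (nat_lit 0) (nat_lit 712089083) (nat_lit 76) (nat_lit 48302766) (nat_lit 77) (nat_lit 3) (nat_lit 76) (nat_lit 1) (nat_lit 77) (nat_lit 1) (nat_lit 414) (nat_lit 360) (nat_lit 246)) (XT.nd (nat_lit 78) (nat_lit 76) (nat_lit 0) (XT.lf (nat_lit 0) (nat_lit 364562918) (nat_lit 0) (nat_lit 366866673) (nat_lit 152) (nat_lit 54124287) (nat_lit 74) (nat_lit 3) (nat_lit 74) (nat_lit 1) (nat_lit 76) (nat_lit 1) (nat_lit 415) (nat_lit 360) (nat_lit 245)) (XT.lf (nat_lit 76) (nat_lit 4396840) (nat_lit 0) (nat_lit 754890852) (nat_lit 76) (nat_lit 6529947) (nat_lit 74) (nat_lit 3)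 (nat_lit 73) (nat_lit 1) (nat_lit 74) (nat_lit 1) (nat_lit 416) (nat_lit 360) (nat_lit 244))))) (XT.nd (nat_lit 43836) (nat_lit 0) (nat_lit 17100) (XT.nd (nat_lit 78) (nat_lit 228) (nat_lit 0) (XT.lf (nat_lit 76) (nat_lit 359657374) (nat_lit 0) (nat_lit 25074310) (nat_lit 76) (nat_lit 361538421) (nat_lit 71) (nat_lit 3) (nat_lit 70) (nat_lit 1) (nat_lit 71) (nat_lit 1) (nat_lit 417) (nat_lit 360) (nat_lit 243)) (XT.nd (nat_lit 78) (nat_lit 76) (nat_lit 0) (XT.lf (nat_lit 0) (nat_lit 31640930) (nat_lit 0) (nat_lit 33299701) (nat_lit 152) (nat_lit 662531312) (nat_lit 68) (nat_lit 3) (nat_lit 68) (nat_lit 1) (nat_lit 70) (nat_lit 1) (nat_lit 418) (nat_lit 360) (nat_lit 242)) (XT.lf (nat_lit 76) (nat_lit 304728333) (nat_lit 0) (nat_lit 97928579) (nat_lit 76) (nat_lit 306264233) (nat_lit 68) (nat_lit 3) (nat_lit 67) (nat_lit 1) (nat_lit 68) (nat_lit 1) (nat_lit 419) (nat_lit 360) (nat_lit 241))))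 (XT.nd (nat_lit 156) (nat_lit 0) (nat_lit 76) (XT.nd (nat_lit 78) (nat_lit 0) (nat_lit 76) (XT.lf (nat_lit 836) (nat_lit 2704883372) (nat_lit 0) (nat_lit 4802514210) (nat_lit 836) (nat_lit 2704883372) (nat_lit 303) (nat_lit 1) (nat_lit 292) (nat_lit 0) (nat_lit 303) (nat_lit 0) (nat_lit 298) (nat_lit 361) (nat_lit 361)) (XT.lf (nat_lit 836) (nat_lit 1009004494) (nat_lit 0) (nat_lit 9428790923) (nat_lit 760) (nat_lit 9221326021) (nat_lit 304) (nat_lit 1) (nat_lit 293) (nat_lit 1) (nat_lit 303) (nat_lit 1) (nat_lit 299) (nat_lit 361) (nat_lit 360))) (XT.nd (nat_lit 78) (nat_lit 0) (nat_lit 76) (XT.lf (nat_lit 836) (nat_lit 9267123880) (nat_lit 76) (nat_lit 6314464459) (nat_lit 0) (nat_lit 3348903908) (nat_lit 304) (nat_lit 1) (nat_lit 294) (nat_lit 1) (nat_lit 293) (nat_lit 1) (nat_lit 300) (nat_lit 361) (nat_lit 359)) (XT.lf (nat_lit 836) (nat_lit 8007554206) (nat_lit 76) (nat_lit 2646348287)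 (nat_lit 0) (nat_lit 7584423014) (nat_lit 305) (nat_lit 1) (nat_lit 295) (nat_lit 1) (nat_lit 294) (nat_lit 1) (nat_lit 301) (nat_lit 361) (nat_lit 358))))))) (XT.nd (nat_lit 1014) (nat_lit 3040) (nat_lit 0) (XT.nd (nat_lit 468) (nat_lit 1900) (nat_lit 0) (XT.nd (nat_lit 234) (nat_lit 1520) (nat_lit 0) (XT.nd (nat_lit 78) (nat_lit 0) (nat_lit 76) (XT.lf (nat_lit 836) (nat_lit 5926270891) (nat_lit 0) (nat_lit 11087772714) (nat_lit 760) (nat_lit 566805357) (nat_lit 306) (nat_lit 1) (nat_lit 295) (nat_lit 1) (nat_lit 305) (nat_lit 1) (nat_lit 302) (nat_lit 361) (nat_lit 357)) (XT.nd (nat_lit 78) (nat_lit 0) (nat_lit 0) (XT.lf (nat_lit 836) (nat_lit 1421950594) (nat_lit 0) (nat_lit 12227349720) (nat_lit 760) (nat_lit 3305471209) (nat_lit 307) (nat_lit 1) (nat_lit 296) (nat_lit 1) (nat_lit 306) (nat_lit 1) (nat_lit 303) (nat_lit 361) (nat_lit 356)) (XT.lf (nat_lit 836) (nat_lit 2732410687) (nat_lit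 76) (nat_lit 10626562623) (nat_lit 0) (nat_lit 2998947079) (nat_lit 307) (nat_lit 1) (nat_lit 297) (nat_lit 1) (nat_lit 296) (nat_lit 1) (nat_lit 304) (nat_lit 361) (nat_lit 355)))) (XT.nd (nat_lit 78) (nat_lit 912) (nat_lit 0) (XT.lf (nat_lit 836) (nat_lit 561174847) (nat_lit 0) (nat_lit 7944058480) (nat_lit 760) (nat_lit 7284618390) (nat_lit 298) (nat_lit 1) (nat_lit 287) (nat_lit 1) (nat_lit 297) (nat_lit 1) (nat_lit 305) (nat_lit 361) (nat_lit 354)) (XT.nd (nat_lit 78) (nat_lit 380) (nat_lit 0) (XT.lf (nat_lit 76) (nat_lit 3885691543) (nat_lit 0) (nat_lit 1683850971) (nat_lit 532) (nat_lit 9679138037) (nat_lit 281) (nat_lit 1) (nat_lit 280) (nat_lit 1) (nat_lit 287) (nat_lit 1) (nat_lit 306) (nat_lit 361) (nat_lit 353)) (XT.lf (nat_lit 456) (nat_lit 10708476814) (nat_lit 0) (nat_lit 3485840059) (nat_lit 380) (nat_lit 538932411) (nat_lit 281) (nat_lit 1) (nat_lit 275) (nat_lit 1) (nat_lit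 280) (nat_lit 1) (nat_lit 307) (nat_lit 361) (nat_lit 352))))) (XT.nd (nat_lit 234) (nat_lit 1216) (nat_lit 0) (XT.nd (nat_lit 78) (nat_lit 304) (nat_lit 0) (XT.lf (nat_lit 456) (nat_lit 7727338843) (nat_lit 0) (nat_lit 1624765067) (nat_lit 380) (nat_lit 4887876731) (nat_lit 276) (nat_lit 1) (nat_lit 270) (nat_lit 1) (nat_lit 275) (nat_lit 1) (nat_lit 308) (nat_lit 361) (nat_lit 351)) (XT.nd (nat_lit 78) (nat_lit 0) (nat_lit 0) (XT.lf (nat_lit 380) (nat_lit 4701987132) (nat_lit 0) (nat_lit 29914565) (nat_lit 304) (nat_lit 9038727824) (nat_lit 271) (nat_lit 1) (nat_lit 266) (nat_lit 1) (nat_lit 270) (nat_lit 1) (nat_lit 309) (nat_lit 361) (nat_lit 350)) (XT.lf (nat_lit 76) (nat_lit 346890389) (nat_lit 0) (nat_lit 11698824805) (nat_lit 380) (nat_lit 1277154197) (nat_lit 267) (nat_lit 1) (nat_lit 266) (nat_lit 1) (nat_lit 271) (nat_lit 1) (nat_lit 310) (nat_lit 361) (nat_lit 349)))) (XT.nd (nat_lit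 156) (nat_lit 532) (nat_lit 0) (XT.nd (nat_lit 78) (nat_lit 304) (nat_lit 0) (XT.lf (nat_lit 76) (nat_lit 8956799818) (nat_lit 0) (nat_lit 1485581087) (nat_lit 380) (nat_lit 2449993014) (nat_lit 262) (nat_lit 1) (nat_lit 261) (nat_lit 1) (nat_lit 266) (nat_lit 1) (nat_lit 311) (nat_lit 361) (nat_lit 348)) (XT.lf (nat_lit 76) (nat_lit 4481313920) (nat_lit 0) (nat_lit 4550598584) (nat_lit 380) (nat_lit 3448987428) (nat_lit 258) (nat_lit 1) (nat_lit 257) (nat_lit 1) (nat_lit 262) (nat_lit 1) (nat_lit 312) (nat_lit 361) (nat_lit 347))) (XT.nd (nat_lit 78) (nat_lit 228) (nat_lit 0) (XT.lf (nat_lit 76) (nat_lit 221187717) (nat_lit 0) (nat_lit 7608530172) (nat_lit 380) (nat_lit 4259189990) (nat_lit 254) (nat_lit 1) (nat_lit 253) (nat_lit 1) (nat_lit 258) (nat_lit 1) (nat_lit 313) (nat_lit 361) (nat_lit 346)) (XT.lf (nat_lit 304) (nat_lit 998871268) (nat_lit 0) (nat_lit 6754888258) (nat_lit 228) (nat_lit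 3958519763) (nat_lit 254) (nat_lit 1) (nat_lit 250) (nat_lit 1) (nat_lit 253) (nat_lit 1) (nat_lit 314) (nat_lit 361) (nat_lit 345)))))) (XT.nd (nat_lit 546) (nat_lit 1216) (nat_lit 0) (XT.nd (nat_lit 234) (nat_lit 988) (nat_lit 0) (XT.nd (nat_lit 78) (nat_lit 456) (nat_lit 0) (XT.lf (nat_lit 76) (nat_lit 3451368788) (nat_lit 0) (nat_lit 2365589613) (nat_lit 380) (nat_lit 5534251508) (nat_lit 246) (nat_lit 1) (nat_lit 245) (nat_lit 1) (nat_lit 250) (nat_lit 1) (nat_lit 315) (nat_lit 361) (nat_lit 344)) (XT.nd (nat_lit 78) (nat_lit 228) (nat_lit 0) (XT.lf (nat_lit 304) (nat_lit 5343549045) (nat_lit 0) (nat_lit 5019573691) (nat_lit 228) (nat_lit 642499475) (nat_lit 246) (nat_lit 1) (nat_lit 242) (nat_lit 1) (nat_lit 245) (nat_lit 1) (nat_lit 316) (nat_lit 361) (nat_lit 343)) (XT.lf (nat_lit 304) (nat_lit 1712581654) (nat_lit 0) (nat_lit 4321647398) (nat_lit 228) (nat_lit 4639086493) (nat_lit 243)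 (nat_lit 1) (nat_lit 239) (nat_lit 1) (nat_lit 242) (nat_lit 1) (nat_lit 317) (nat_lit 361) (nat_lit 342)))) (XT.nd (nat_lit 156) (nat_lit 456) (nat_lit 0) (XT.nd (nat_lit 78) (nat_lit 228) (nat_lit 0) (XT.lf (nat_lit 76) (nat_lit 1951929270) (nat_lit 0) (nat_lit 1787160873) (nat_lit 304) (nat_lit 6615720057) (nat_lit 236) (nat_lit 1) (nat_lit 235) (nat_lit 1) (nat_lit 239) (nat_lit 1) (nat_lit 318) (nat_lit 361) (nat_lit 341)) (XT.lf (nat_lit 304) (nat_lit 4857119800) (nat_lit 0) (nat_lit 3231747524) (nat_lit 228) (nat_lit 1959095974) (nat_lit 236) (nat_lit 1) (nat_lit 232) (nat_lit 1) (nat_lit 235) (nat_lit 1) (nat_lit 319) (nat_lit 361) (nat_lit 340))) (XT.nd (nat_lit 78) (nat_lit 304) (nat_lit 0) (XT.lf (nat_lit 228) (nat_lit 1204087170) (nat_lit 0) (nat_lit 2819463990) (nat_lit 152) (nat_lit 5729944295) (nat_lit 233) (nat_lit 1) (nat_lit 230) (nat_lit 1) (nat_lit 232) (nat_lit 1) (nat_lit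 320) (nat_lit 361) (nat_lit 339)) (XT.lf (nat_lit 76) (nat_lit 203980059) (nat_lit 0) (nat_lit 2282581145) (nat_lit 304) (nat_lit 6983880758) (nat_lit 227) (nat_lit 1) (nat_lit 226) (nat_lit 1) (nat_lit 230) (nat_lit 1) (nat_lit 321) (nat_lit 361) (nat_lit 338))))) (XT.nd (nat_lit 234) (nat_lit 684) (nat_lit 0) (XT.nd (nat_lit 78) (nat_lit 380) (nat_lit 0) (XT.lf (nat_lit 228) (nat_lit 3498856382) (nat_lit 0) (nat_lit 2186485072) (nat_lit 152) (nat_lit 3511032438) (nat_lit 227) (nat_lit 1) (nat_lit 224) (nat_lit 1) (nat_lit 226) (nat_lit 1) (nat_lit 322) (nat_lit 361) (nat_lit 337)) (XT.nd (nat_lit 78) (nat_lit 152) (nat_lit 0) (XT.lf (nat_lit 76) (nat_lit 1898333255) (nat_lit 0) (nat_lit 87685203) (nat_lit 228) (nat_lit 6948246751) (nat_lit 222) (nat_lit 1) (nat_lit 221) (nat_lit 1) (nat_lit 224) (nat_lit 1) (nat_lit 323) (nat_lit 361) (nat_lit 336)) (XT.lf (nat_lit 228) (nat_lit 5189676542)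 (nat_lit 0) (nat_lit 1798339284) (nat_lit 152) (nat_lit 1691765254) (nat_lit 222) (nat_lit 1) (nat_lit 219) (nat_lit 1) (nat_lit 221) (nat_lit 1) (nat_lit 324) (nat_lit 361) (nat_lit 335)))) (XT.nd (nat_lit 156) (nat_lit 304) (nat_lit 0) (XT.nd (nat_lit 78) (nat_lit 228) (nat_lit 0) (XT.lf (nat_lit 228) (nat_lit 1612121499) (nat_lit 0) (nat_lit 1671755228) (nat_lit 152) (nat_lit 5151150267) (nat_lit 220) (nat_lit 1) (nat_lit 217) (nat_lit 1) (nat_lit 219) (nat_lit 1) (nat_lit 325) (nat_lit 361) (nat_lit 334)) (XT.lf (nat_lit 228) (nat_lit 6399529879) (nat_lit 0) (nat_lit 1597226432) (nat_lit 152) (nat_lit 202626703) (nat_lit 217) (nat_lit 1) (nat_lit 214) (nat_lit 1) (nat_lit 216) (nat_lit 1) (nat_lit 326) (nat_lit 361) (nat_lit 333))) (XT.nd (nat_lit 78) (nat_lit 152) (nat_lit 0) (XT.lf (nat_lit 228) (nat_lit 2864132981) (nat_lit 0) (nat_lit 1524812743) (nat_lit 152) (nat_lit 3581341114) (nat_lit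 215) (nat_lit 1) (nat_lit 212) (nat_lit 1) (nat_lit 214) (nat_lit 1) (nat_lit 327) (nat_lit 361) (nat_lit 332)) (XT.lf (nat_lit 76) (nat_lit 981076127) (nat_lit 0) (nat_lit 539243648) (nat_lit 152) (nat_lit 6230373204) (nat_lit 211) (nat_lit 1) (nat_lit 210) (nat_lit 1) (nat_lit 212) (nat_lit 1) (nat_lit 328) (nat_lit 361) (nat_lit 331))))))))
noncomputable def ec65 : XT := (XT.nd (nat_lit 2028) (nat_lit 3268) (nat_lit 0) (XT.nd (nat_lit 1014) (nat_lit 1444) (nat_lit 0) (XT.nd (nat_lit 468) (nat_lit 988) (nat_lit 0) (XT.nd (nat_lit 234) (nat_lit 380) (nat_lit 0) (XT.nd (nat_lit 78) (nat_lit 304) (nat_lit 0) (XT.lf (nat_lit 228) (nat_lit 3757907189) (nat_lit 0) (nat_lit 1504221281) (nat_lit 152) (nat_lit 2274511891) (nat_lit 211) (nat_lit 1) (nat_lit 208) (nat_lit 1) (nat_lit 210) (nat_lit 1) (nat_lit 329) (nat_lit 361) (nat_lit 330)) (XT.nd (nat_lit 78) (nat_lit 228) (nat_lit 0) (XT.lf (nat_lit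 152) (nat_lit 404673205) (nat_lit 0) (nat_lit 1541166899) (nat_lit 76) (nat_lit 5385198162) (nat_lit 209) (nat_lit 1) (nat_lit 207) (nat_lit 1) (nat_lit 208) (nat_lit 1) (nat_lit 330) (nat_lit 361) (nat_lit 329)) (XT.lf (nat_lit 228) (nat_lit 4368297845) (nat_lit 0) (nat_lit 1576202472) (nat_lit 152) (nat_lit 1186604937) (nat_lit 207) (nat_lit 1) (nat_lit 204) (nat_lit 1) (nat_lit 206) (nat_lit 1) (nat_lit 331) (nat_lit 361) (nat_lit 328)))) (XT.nd (nat_lit 78) (nat_lit 304) (nat_lit 0) (XT.lf (nat_lit 152) (nat_lit 1098659119) (nat_lit 0) (nat_lit 1635138271) (nat_lit 76) (nat_lit 4204112998) (nat_lit 205) (nat_lit 1) (nat_lit 203) (nat_lit 1) (nat_lit 204) (nat_lit 1) (nat_lit 332) (nat_lit 361) (nat_lit 327)) (XT.nd (nat_lit 78) (nat_lit 76) (nat_lit 0) (XT.lf (nat_lit 228) (nat_lit 4755825140) (nat_lit 0) (nat_lit 1714001473) (nat_lit 152) (nat_lit 281282314) (nat_lit 203) (nat_lit 1) (nat_lit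 200) (nat_lit 1) (nat_lit 202) (nat_lit 1) (nat_lit 333) (nat_lit 361) (nat_lit 326)) (XT.lf (nat_lit 152) (nat_lit 1581121200) (nat_lit 0) (nat_lit 1786867132) (nat_lit 76) (nat_lit 3201326782) (nat_lit 201) (nat_lit 1) (nat_lit 199) (nat_lit 1) (nat_lit 200) (nat_lit 1) (nat_lit 334) (nat_lit 361) (nat_lit 325))))) (XT.nd (nat_lit 234) (nat_lit 456) (nat_lit 0) (XT.nd (nat_lit 78) (nat_lit 304) (nat_lit 0) (XT.lf (nat_lit 76) (nat_lit 456374501) (nat_lit 0) (nat_lit 1432437908) (nat_lit 228) (nat_lit 4505239848) (nat_lit 197) (nat_lit 1) (nat_lit 196) (nat_lit 1) (nat_lit 199) (nat_lit 1) (nat_lit 335) (nat_lit 361) (nat_lit 324)) (XT.nd (nat_lit 78) (nat_lit 228) (nat_lit 0) (XT.lf (nat_lit 152) (nat_lit 1897488094) (nat_lit 0) (nat_lit 1977092655) (nat_lit 76) (nat_lit 2348561196) (nat_lit 197) (nat_lit 1) (nat_lit 195) (nat_lit 1) (nat_lit 196) (nat_lit 1) (nat_lit 336) (nat_lit 361) (nat_lit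 323)) (XT.lf (nat_lit 76) (nat_lit 1061357159) (nat_lit 0) (nat_lit 1027996177) (nat_lit 228) (nat_lit 3968884504) (nat_lit 193) (nat_lit 1) (nat_lit 192) (nat_lit 1) (nat_lit 195) (nat_lit 1) (nat_lit 337) (nat_lit 361) (nat_lit 322)))) (XT.nd (nat_lit 156) (nat_lit 228) (nat_lit 0) (XT.nd (nat_lit 78) (nat_lit 152) (nat_lit 0) (XT.lf (nat_lit 152) (nat_lit 2084394929) (nat_lit 0) (nat_lit 2190779589) (nat_lit 76) (nat_lit 1622372453) (nat_lit 193) (nat_lit 1) (nat_lit 191) (nat_lit 1) (nat_lit 192) (nat_lit 1) (nat_lit 338) (nat_lit 361) (nat_lit 321)) (XT.lf (nat_lit 76) (nat_lit 1562563166) (nat_lit 0) (nat_lit 744533390) (nat_lit 152) (nat_lit 3435066426) (nat_lit 190) (nat_lit 1) (nat_lit 189) (nat_lit 1) (nat_lit 191) (nat_lit 1) (nat_lit 339) (nat_lit 361) (nat_lit 320))) (XT.nd (nat_lit 78) (nat_lit 152) (nat_lit 0) (XT.lf (nat_lit 152) (nat_lit 2171326447) (nat_lit 0) (nat_lit 2416294716)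 (nat_lit 76) (nat_lit 1003288919) (nat_lit 190) (nat_lit 1) (nat_lit 188) (nat_lit 1) (nat_lit 189) (nat_lit 1) (nat_lit 340) (nat_lit 361) (nat_lit 319)) (XT.lf (nat_lit 76) (nat_lit 1976497121) (nat_lit 0) (nat_lit 555431617) (nat_lit 152) (nat_lit 2912380826) (nat_lit 187) (nat_lit 1) (nat_lit 186) (nat_lit 1) (nat_lit 188) (nat_lit 1) (nat_lit 341) (nat_lit 361) (nat_lit 318)))))) (XT.nd (nat_lit 468) (nat_lit 760) (nat_lit 0) (XT.nd (nat_lit 234) (nat_lit 380) (nat_lit 0) (XT.nd (nat_lit 78) (nat_lit 228) (nat_lit 0) (XT.lf (nat_lit 152) (nat_lit 2181956798) (nat_lit 0) (nat_lit 2644737545) (nat_lit 76) (nat_lit 475105358) (nat_lit 187) (nat_lit 1) (nat_lit 185) (nat_lit 1) (nat_lit 186) (nat_lit 1) (nat_lit 342) (nat_lit 361) (nat_lit 317)) (XT.nd (nat_lit 78) (nat_lit 76) (nat_lit 0) (XT.lf (nat_lit 76) (nat_lit 2316876185) (nat_lit 0) (nat_lit 439287568) (nat_lit 152) (nat_lit 2407168075)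 (nat_lit 184) (nat_lit 1) (nat_lit 183) (nat_lit 1) (nat_lit 185) (nat_lit 1) (nat_lit 343) (nat_lit 361) (nat_lit 316)) (XT.lf (nat_lit 152) (nat_lit 2135241776) (nat_lit 0) (nat_lit 2869396754) (nat_lit 76) (nat_lit 24305181) (nat_lit 184) (nat_lit 1) (nat_lit 182) (nat_lit 1) (nat_lit 183) (nat_lit 1) (nat_lit 344) (nat_lit 361) (nat_lit 315)))) (XT.nd (nat_lit 78) (nat_lit 228) (nat_lit 0) (XT.lf (nat_lit 76) (nat_lit 2595123489) (nat_lit 0) (nat_lit 378933453) (nat_lit 152) (nat_lit 1923973205) (nat_lit 181) (nat_lit 1) (nat_lit 180) (nat_lit 1) (nat_lit 182) (nat_lit 1) (nat_lit 345) (nat_lit 361) (nat_lit 314)) (XT.nd (nat_lit 78) (nat_lit 152) (nat_lit 0) (XT.lf (nat_lit 0) (nat_lit 348877261) (nat_lit 0) (nat_lit 2730523456) (nat_lit 152) (nat_lit 1691523344) (nat_lit 179) (nat_lit 3) (nat_lit 179) (nat_lit 1) (nat_lit 181) (nat_lit 1) (nat_lit 346) (nat_lit 361) (nat_lit 313)) (XT.lf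 (nat_lit 76) (nat_lit 2820772221) (nat_lit 0) (nat_lit 360638918) (nat_lit 152) (nat_lit 1465918175) (nat_lit 178) (nat_lit 1) (nat_lit 177) (nat_lit 1) (nat_lit 179) (nat_lit 1) (nat_lit 347) (nat_lit 361) (nat_lit 312))))) (XT.nd (nat_lit 234) (nat_lit 456) (nat_lit 0) (XT.nd (nat_lit 78) (nat_lit 228) (nat_lit 0) (XT.lf (nat_lit 0) (nat_lit 666484638) (nat_lit 0) (nat_lit 2611130104) (nat_lit 152) (nat_lit 1249411430) (nat_lit 176) (nat_lit 3) (nat_lit 176) (nat_lit 1) (nat_lit 178) (nat_lit 1) (nat_lit 348) (nat_lit 361) (nat_lit 311)) (XT.nd (nat_lit 78) (nat_lit 76) (nat_lit 0) (XT.lf (nat_lit 76) (nat_lit 3001796715) (nat_lit 0) (nat_lit 373460761) (nat_lit 152) (nat_lit 1035003093) (nat_lit 175) (nat_lit 1) (nat_lit 174) (nat_lit 1) (nat_lit 176) (nat_lit 1) (nat_lit 349) (nat_lit 361) (nat_lit 310)) (XT.lf (nat_lit 0) (nat_lit 937003229) (nat_lit 0) (nat_lit 2524831848) (nat_lit 152)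 (nat_lit 834505622) (nat_lit 173) (nat_lit 3) (nat_lit 173) (nat_lit 1) (nat_lit 175) (nat_lit 1) (nat_lit 350) (nat_lit 361) (nat_lit 309)))) (XT.nd (nat_lit 156) (nat_lit 228) (nat_lit 0) (XT.nd (nat_lit 78) (nat_lit 76) (nat_lit 0) (XT.lf (nat_lit 76) (nat_lit 3144883860) (nat_lit 0) (nat_lit 408713213) (nat_lit 152) (nat_lit 632349596) (nat_lit 172) (nat_lit 1) (nat_lit 171) (nat_lit 1) (nat_lit 173) (nat_lit 1) (nat_lit 351) (nat_lit 361) (nat_lit 308)) (XT.lf (nat_lit 0) (nat_lit 1166931964) (nat_lit 0) (nat_lit 2463414930) (nat_lit 152) (nat_lit 447678756) (nat_lit 170) (nat_lit 3) (nat_lit 170) (nat_lit 1) (nat_lit 172) (nat_lit 1) (nat_lit 352) (nat_lit 361) (nat_lit 307))) (XT.nd (nat_lit 78) (nat_lit 76) (nat_lit 0) (XT.lf (nat_lit 76) (nat_lit 3255655701) (nat_lit 0) (nat_lit 459536597) (nat_lit 152) (nat_lit 258397165) (nat_lit 169) (nat_lit 1) (nat_lit 168) (nat_lit 1) (nat_lit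 170) (nat_lit 1) (nat_lit 353) (nat_lit 361) (nat_lit 306)) (XT.lf (nat_lit 0) (nat_lit 1361767387) (nat_lit 0) (nat_lit 2420362793) (nat_lit 152) (nat_lit 89183592) (nat_lit 167) (nat_lit 3) (nat_lit 167) (nat_lit 1) (nat_lit 169) (nat_lit 1) (nat_lit 354) (nat_lit 361) (nat_lit 305))))))) (XT.nd (nat_lit 1014) (nat_lit 1672) (nat_lit 0) (XT.nd (nat_lit 468) (nat_lit 836) (nat_lit 0) (XT.nd (nat_lit 234) (nat_lit 304) (nat_lit 0) (XT.nd (nat_lit 78) (nat_lit 228) (nat_lit 0) (XT.lf (nat_lit 152) (nat_lit 3250440952) (nat_lit 0) (nat_lit 89813434) (nat_lit 76) (nat_lit 432135037) (nat_lit 166) (nat_lit 1) (nat_lit 164) (nat_lit 1) (nat_lit 165) (nat_lit 1) (nat_lit 355) (nat_lit 361) (nat_lit 304)) (XT.nd (nat_lit 78) (nat_lit 152) (nat_lit 0) (XT.lf (nat_lit 76) (nat_lit 1280887228) (nat_lit 0) (nat_lit 249176823) (nat_lit 76) (nat_lit 2145244311) (nat_lit 164) (nat_lit 3) (nat_lit 163) (nat_lit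 1) (nat_lit 164) (nat_lit 1) (nat_lit 356) (nat_lit 361) (nat_lit 303)) (XT.lf (nat_lit 152) (nat_lit 2987496408) (nat_lit 0) (nat_lit 417502998) (nat_lit 76) (nat_lit 176562187) (nat_lit 163) (nat_lit 1) (nat_lit 161) (nat_lit 1) (nat_lit 162) (nat_lit 1) (nat_lit 357) (nat_lit 361) (nat_lit 302)))) (XT.nd (nat_lit 78) (nat_lit 228) (nat_lit 0) (XT.lf (nat_lit 76) (nat_lit 1110852406) (nat_lit 0) (nat_lit 562045240) (nat_lit 76) (nat_lit 1816611341) (nat_lit 161) (nat_lit 3) (nat_lit 160) (nat_lit 1) (nat_lit 161) (nat_lit 1) (nat_lit 358) (nat_lit 361) (nat_lit 301)) (XT.nd (nat_lit 78) (nat_lit 76) (nat_lit 0) (XT.lf (nat_lit 0) (nat_lit 46887234) (nat_lit 0) (nat_lit 669249610) (nat_lit 152) (nat_lit 2684522480) (nat_lit 158) (nat_lit 3) (nat_lit 158) (nat_lit 1) (nat_lit 160) (nat_lit 1) (nat_lit 359) (nat_lit 361) (nat_lit 300)) (XT.lf (nat_lit 76) (nat_lit 944892964) (nat_lit 0) (nat_lit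 847344427) (nat_lit 76) (nat_lit 1521154424) (nat_lit 158) (nat_lit 3) (nat_lit 157) (nat_lit 1) (nat_lit 158) (nat_lit 1) (nat_lit 360) (nat_lit 361) (nat_lit 299))))) (XT.nd (nat_lit 234) (nat_lit 456) (nat_lit 0) (XT.nd (nat_lit 78) (nat_lit 228) (nat_lit 0) (XT.lf (nat_lit 0) (nat_lit 238458189) (nat_lit 0) (nat_lit 746625262) (nat_lit 152) (nat_lit 2243949530) (nat_lit 155) (nat_lit 3) (nat_lit 155) (nat_lit 1) (nat_lit 157) (nat_lit 1) (nat_lit 361) (nat_lit 361) (nat_lit 298)) (XT.nd (nat_lit 78) (nat_lit 152) (nat_lit 0) (XT.lf (nat_lit 76) (nat_lit 784869132) (nat_lit 0) (nat_lit 1106142002) (nat_lit 76) (nat_lit 1255394199) (nat_lit 155) (nat_lit 3) (nat_lit 154) (nat_lit 1) (nat_lit 155) (nat_lit 1) (nat_lit 362) (nat_lit 361) (nat_lit 297)) (XT.lf (nat_lit 0) (nat_lit 406721195) (nat_lit 0) (nat_lit 821646298) (nat_lit 152) (nat_lit 1837921105) (nat_lit 152) (nat_lit 3) (nat_lit 152)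 (nat_lit 1) (nat_lit 154) (nat_lit 1) (nat_lit 363) (nat_lit 361) (nat_lit 296)))) (XT.nd (nat_lit 156) (nat_lit 228) (nat_lit 0) (XT.nd (nat_lit 78) (nat_lit 152) (nat_lit 0) (XT.lf (nat_lit 76) (nat_lit 632103505) (nat_lit 0) (nat_lit 1339640535) (nat_lit 76) (nat_lit 1016293415) (nat_lit 152) (nat_lit 3) (nat_lit 151) (nat_lit 1) (nat_lit 152) (nat_lit 1) (nat_lit 364) (nat_lit 361) (nat_lit 295)) (XT.lf (nat_lit 0) (nat_lit 554218008) (nat_lit 0) (nat_lit 893009816) (nat_lit 152) (nat_lit 1464703807) (nat_lit 149) (nat_lit 3) (nat_lit 149) (nat_lit 1) (nat_lit 151) (nat_lit 1) (nat_lit 365) (nat_lit 361) (nat_lit 294))) (XT.nd (nat_lit 78) (nat_lit 152) (nat_lit 0) (XT.lf (nat_lit 76) (nat_lit 487492989) (nat_lit 0) (nat_lit 1549129320) (nat_lit 76) (nat_lit 801189107) (nat_lit 149) (nat_lit 3) (nat_lit 148) (nat_lit 1) (nat_lit 149) (nat_lit 1) (nat_lit 366) (nat_lit 361) (nat_lit 293))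 (XT.lf (nat_lit 0) (nat_lit 683170775) (nat_lit 0) (nat_lit 959798746) (nat_lit 152) (nat_lit 1122531494) (nat_lit 146) (nat_lit 3) (nat_lit 146) (nat_lit 1) (nat_lit 148) (nat_lit 1) (nat_lit 367) (nat_lit 361) (nat_lit 292)))))) (XT.nd (nat_lit 546) (nat_lit 836) (nat_lit 0) (XT.nd (nat_lit 234) (nat_lit 532) (nat_lit 0) (XT.nd (nat_lit 78) (nat_lit 228) (nat_lit 0) (XT.lf (nat_lit 76) (nat_lit 351599358) (nat_lit 0) (nat_lit 1735946533) (nat_lit 76) (nat_lit 607736368) (nat_lit 146) (nat_lit 3) (nat_lit 145) (nat_lit 1) (nat_lit 146) (nat_lit 1) (nat_lit 368) (nat_lit 361) (nat_lit 291)) (XT.nd (nat_lit 78) (nat_lit 76) (nat_lit 0) (XT.lf (nat_lit 0) (nat_lit 795530175) (nat_lit 0) (nat_lit 1021400554) (nat_lit 152) (nat_lit 809635195) (nat_lit 143) (nat_lit 3) (nat_lit 143) (nat_lit 1) (nat_lit 145) (nat_lit 1) (nat_lit 369) (nat_lit 361) (nat_lit 290)) (XT.lf (nat_lit 76) (nat_lit 224722402)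 (nat_lit 0) (nat_lit 1901449779) (nat_lit 76) (nat_lit 433861641) (nat_lit 143) (nat_lit 3) (nat_lit 142) (nat_lit 1) (nat_lit 143) (nat_lit 1) (nat_lit 370) (nat_lit 361) (nat_lit 289)))) (XT.nd (nat_lit 156) (nat_lit 304) (nat_lit 0) (XT.nd (nat_lit 78) (nat_lit 76) (nat_lit 0) (XT.lf (nat_lit 0) (nat_lit 893015414) (nat_lit 0) (nat_lit 1077441552) (nat_lit 152) (nat_lit 524266008) (nat_lit 140) (nat_lit 3) (nat_lit 140) (nat_lit 1) (nat_lit 142) (nat_lit 1) (nat_lit 371) (nat_lit 361) (nat_lit 288)) (XT.lf (nat_lit 76) (nat_lit 106958895) (nat_lit 0) (nat_lit 2046993397) (nat_lit 76) (nat_lit 277723837) (nat_lit 140) (nat_lit 3) (nat_lit 139) (nat_lit 1) (nat_lit 140) (nat_lit 1) (nat_lit 372) (nat_lit 361) (nat_lit 287))) (XT.nd (nat_lit 78) (nat_lit 152) (nat_lit 0) (XT.lf (nat_lit 0) (nat_lit 977147543) (nat_lit 0) (nat_lit 1127733911) (nat_lit 152) (nat_lit 264712354) (nat_lit 137) (nat_lit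 3) (nat_lit 137) (nat_lit 1) (nat_lit 139) (nat_lit 1) (nat_lit 373) (nat_lit 361) (nat_lit 286)) (XT.lf (nat_lit 76) (nat_lit 2172188568) (nat_lit 0) (nat_lit 1693936) (nat_lit 152) (nat_lit 135959253) (nat_lit 136) (nat_lit 1) (nat_lit 135) (nat_lit 1) (nat_lit 137) (nat_lit 1) (nat_lit 374) (nat_lit 361) (nat_lit 285))))) (XT.nd (nat_lit 234) (nat_lit 456) (nat_lit 0) (XT.nd (nat_lit 78) (nat_lit 304) (nat_lit 0) (XT.lf (nat_lit 0) (nat_lit 1049277255) (nat_lit 0) (nat_lit 1172233007) (nat_lit 152) (nat_lit 29312718) (nat_lit 134) (nat_lit 3) (nat_lit 134) (nat_lit 1) (nat_lit 136) (nat_lit 1) (nat_lit 375) (nat_lit 361) (nat_lit 284)) (XT.nd (nat_lit 78) (nat_lit 76) (nat_lit 0) (XT.lf (nat_lit 152) (nat_lit 2094296517) (nat_lit 0) (nat_lit 90627535) (nat_lit 76) (nat_lit 9116588) (nat_lit 133) (nat_lit 1) (nat_lit 131) (nat_lit 1) (nat_lit 132) (nat_lit 1) (nat_lit 376) (nat_lit 361) (nat_lit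 283)) (XT.lf (nat_lit 76) (nat_lit 923964693) (nat_lit 0) (nat_lit 189603721) (nat_lit 76) (nat_lit 1024359683) (nat_lit 131) (nat_lit 3) (nat_lit 130) (nat_lit 1) (nat_lit 131) (nat_lit 1) (nat_lit 377) (nat_lit 361) (nat_lit 282)))) (XT.nd (nat_lit 156) (nat_lit 228) (nat_lit 0) (XT.nd (nat_lit 78) (nat_lit 76) (nat_lit 0) (XT.lf (nat_lit 0) (nat_lit 104449263) (nat_lit 0) (nat_lit 192981000) (nat_lit 152) (nat_lit 1786496337) (nat_lit 128) (nat_lit 3) (nat_lit 128) (nat_lit 1) (nat_lit 130) (nat_lit 1) (nat_lit 378) (nat_lit 361) (nat_lit 281)) (XT.lf (nat_lit 76) (nat_lit 780491014) (nat_lit 0) (nat_lit 387779671) (nat_lit 76) (nat_lit 862464845) (nat_lit 128) (nat_lit 3) (nat_lit 127) (nat_lit 1) (nat_lit 128) (nat_lit 1) (nat_lit 379) (nat_lit 361) (nat_lit 280))) (XT.nd (nat_lit 78) (nat_lit 76) (nat_lit 0) (XT.lf (nat_lit 0) (nat_lit 205525103) (nat_lit 0) (nat_lit 277812432) (nat_lit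 152) (nat_lit 1496051985) (nat_lit 125) (nat_lit 3) (nat_lit 125) (nat_lit 1) (nat_lit 127) (nat_lit 1) (nat_lit 380) (nat_lit 361) (nat_lit 279)) (XT.lf (nat_lit 76) (nat_lit 648138131) (nat_lit 0) (nat_lit 565761805) (nat_lit 76) (nat_lit 715070842) (nat_lit 125) (nat_lit 3) (nat_lit 124) (nat_lit 1) (nat_lit 125) (nat_lit 1) (nat_lit 381) (nat_lit 361) (nat_lit 278))))))))
noncomputable def ec66 : XT := (XT.nd (nat_lit 2028) (nat_lit 1444) (nat_lit 0) (XT.nd (nat_lit 1014) (nat_lit 1596) (nat_lit 0) (XT.nd (nat_lit 468) (nat_lit 836) (nat_lit 0) (XT.nd (nat_lit 234) (nat_lit 304) (nat_lit 0) (XT.nd (nat_lit 78) (nat_lit 228) (nat_lit 0) (XT.lf (nat_lit 0) (nat_lit 295470412) (nat_lit 0) (nat_lit 354493967) (nat_lit 152) (nat_lit 1230181887) (nat_lit 122) (nat_lit 3) (nat_lit 122) (nat_lit 1) (nat_lit 124) (nat_lit 1) (nat_lit 382) (nat_lit 361) (nat_lit 277)) (XT.nd (nat_lit 78) (nat_lit 152)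 (nat_lit 0) (XT.lf (nat_lit 76) (nat_lit 526354545) (nat_lit 0) (nat_lit 724991932) (nat_lit 76) (nat_lit 581005985) (nat_lit 122) (nat_lit 3) (nat_lit 121) (nat_lit 1) (nat_lit 122) (nat_lit 1) (nat_lit 383) (nat_lit 361) (nat_lit 276)) (XT.lf (nat_lit 0) (nat_lit 375254440) (nat_lit 0) (nat_lit 423447950) (nat_lit 152) (nat_lit 987220398) (nat_lit 119) (nat_lit 3) (nat_lit 119) (nat_lit 1) (nat_lit 121) (nat_lit 1) (nat_lit 384) (nat_lit 361) (nat_lit 275)))) (XT.nd (nat_lit 78) (nat_lit 228) (nat_lit 0) (XT.lf (nat_lit 76) (nat_lit 414577136) (nat_lit 0) (nat_lit 866836914) (nat_lit 76) (nat_lit 459200757) (nat_lit 119) (nat_lit 3) (nat_lit 118) (nat_lit 1) (nat_lit 119) (nat_lit 1) (nat_lit 385) (nat_lit 361) (nat_lit 274)) (XT.nd (nat_lit 78) (nat_lit 76) (nat_lit 0) (XT.lf (nat_lit 0) (nat_lit 445759133) (nat_lit 0) (nat_lit 485109768) (nat_lit 152) (nat_lit 765591246) (nat_lit 116) (nat_lit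 3) (nat_lit 116) (nat_lit 1) (nat_lit 118) (nat_lit 1) (nat_lit 386) (nat_lit 361) (nat_lit 273)) (XT.lf (nat_lit 76) (nat_lit 312240964) (nat_lit 0) (nat_lit 992588909) (nat_lit 76) (nat_lit 348676738) (nat_lit 116) (nat_lit 3) (nat_lit 115) (nat_lit 1) (nat_lit 116) (nat_lit 1) (nat_lit 387) (nat_lit 361) (nat_lit 272))))) (XT.nd (nat_lit 234) (nat_lit 456) (nat_lit 0) (XT.nd (nat_lit 78) (nat_lit 228) (nat_lit 0) (XT.lf (nat_lit 0) (nat_lit 507788678) (nat_lit 0) (nat_lit 539918990) (nat_lit 152) (nat_lit 563805855) (nat_lit 113) (nat_lit 3) (nat_lit 113) (nat_lit 1) (nat_lit 115) (nat_lit 1) (nat_lit 388) (nat_lit 361) (nat_lit 271)) (XT.nd (nat_lit 78) (nat_lit 152) (nat_lit 0) (XT.lf (nat_lit 76) (nat_lit 218786777) (nat_lit 0) (nat_lit 1103466453) (nat_lit 76) (nat_lit 248537065) (nat_lit 113) (nat_lit 3) (nat_lit 112) (nat_lit 1) (nat_lit 113) (nat_lit 1) (nat_lit 389) (nat_lit 361) (nat_lit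 270)) (XT.lf (nat_lit 0) (nat_lit 562077724) (nat_lit 0) (nat_lit 588312546) (nat_lit 152) (nat_lit 380461041) (nat_lit 110) (nat_lit 3) (nat_lit 110) (nat_lit 1) (nat_lit 112) (nat_lit 1) (nat_lit 390) (nat_lit 361) (nat_lit 269)))) (XT.nd (nat_lit 156) (nat_lit 228) (nat_lit 0) (XT.nd (nat_lit 78) (nat_lit 152) (nat_lit 0) (XT.lf (nat_lit 76) (nat_lit 133666684) (nat_lit 0) (nat_lit 1200616183) (nat_lit 76) (nat_lit 157958186) (nat_lit 110) (nat_lit 3) (nat_lit 109) (nat_lit 1) (nat_lit 110) (nat_lit 1) (nat_lit 391) (nat_lit 361) (nat_lit 268)) (XT.lf (nat_lit 0) (nat_lit 609298497) (nat_lit 0) (nat_lit 630719575) (nat_lit 152) (nat_lit 214236238) (nat_lit 107) (nat_lit 3) (nat_lit 107) (nat_lit 1) (nat_lit 109) (nat_lit 1) (nat_lit 392) (nat_lit 361) (nat_lit 267))) (XT.nd (nat_lit 78) (nat_lit 152) (nat_lit 0) (XT.lf (nat_lit 76) (nat_lit 56348359) (nat_lit 0) (nat_lit 1285115018) (nat_lit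 76) (nat_lit 76182690) (nat_lit 107) (nat_lit 3) (nat_lit 106) (nat_lit 1) (nat_lit 107) (nat_lit 1) (nat_lit 393) (nat_lit 361) (nat_lit 266)) (XT.lf (nat_lit 0) (nat_lit 650066984) (nat_lit 0) (nat_lit 667557576) (nat_lit 152) (nat_lit 63890410) (nat_lit 104) (nat_lit 3) (nat_lit 104) (nat_lit 1) (nat_lit 106) (nat_lit 1) (nat_lit 394) (nat_lit 361) (nat_lit 265)))))) (XT.nd (nat_lit 468) (nat_lit 836) (nat_lit 0) (XT.nd (nat_lit 234) (nat_lit 304) (nat_lit 0) (XT.nd (nat_lit 78) (nat_lit 228) (nat_lit 0) (XT.lf (nat_lit 152) (nat_lit 1333363535) (nat_lit 0) (nat_lit 11317509) (nat_lit 76) (nat_lit 2103223) (nat_lit 103) (nat_lit 1) (nat_lit 101) (nat_lit 1) (nat_lit 102) (nat_lit 1) (nat_lit 395) (nat_lit 361) (nat_lit 264)) (XT.nd (nat_lit 78) (nat_lit 152) (nat_lit 0) (XT.lf (nat_lit 76) (nat_lit 611992097) (nat_lit 0) (nat_lit 74113348) (nat_lit 76) (nat_lit 626273396) (nat_lit 101) (nat_lit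 3) (nat_lit 100) (nat_lit 1) (nat_lit 101) (nat_lit 1) (nat_lit 396) (nat_lit 361) (nat_lit 263)) (XT.lf (nat_lit 0) (nat_lit 65161257) (nat_lit 0) (nat_lit 77754995) (nat_lit 152) (nat_lit 1136381984) (nat_lit 98) (nat_lit 3) (nat_lit 98) (nat_lit 1) (nat_lit 100) (nat_lit 1) (nat_lit 397) (nat_lit 361) (nat_lit 262)))) (XT.nd (nat_lit 78) (nat_lit 228) (nat_lit 0) (XT.lf (nat_lit 76) (nat_lit 517429517) (nat_lit 0) (nat_lit 200157067) (nat_lit 76) (nat_lit 529090385) (nat_lit 98) (nat_lit 3) (nat_lit 97) (nat_lit 1) (nat_lit 98) (nat_lit 1) (nat_lit 398) (nat_lit 361) (nat_lit 261)) (XT.nd (nat_lit 78) (nat_lit 76) (nat_lit 0) (XT.lf (nat_lit 0) (nat_lit 125394112) (nat_lit 0) (nat_lit 135677065) (nat_lit 152) (nat_lit 954141306) (nat_lit 95) (nat_lit 3) (nat_lit 95) (nat_lit 1) (nat_lit 97) (nat_lit 1) (nat_lit 399) (nat_lit 361) (nat_lit 260)) (XT.lf (nat_lit 76) (nat_lit 430788743) (nat_lit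 0) (nat_lit 313184774) (nat_lit 76) (nat_lit 440309996) (nat_lit 95) (nat_lit 3) (nat_lit 94) (nat_lit 1) (nat_lit 95) (nat_lit 1) (nat_lit 400) (nat_lit 361) (nat_lit 259))))) (XT.nd (nat_lit 234) (nat_lit 456) (nat_lit 0) (XT.nd (nat_lit 78) (nat_lit 228) (nat_lit 0) (XT.lf (nat_lit 0) (nat_lit 179216749) (nat_lit 0) (nat_lit 187612915) (nat_lit 152) (nat_lit 787525869) (nat_lit 92) (nat_lit 3) (nat_lit 92) (nat_lit 1) (nat_lit 94) (nat_lit 1) (nat_lit 401) (nat_lit 361) (nat_lit 258)) (XT.nd (nat_lit 78) (nat_lit 152) (nat_lit 0) (XT.lf (nat_lit 76) (nat_lit 351535553) (nat_lit 0) (nat_lit 414185009) (nat_lit 76) (nat_lit 359309780) (nat_lit 92) (nat_lit 3) (nat_lit 91) (nat_lit 1) (nat_lit 92) (nat_lit 1) (nat_lit 402) (nat_lit 361) (nat_lit 257)) (XT.lf (nat_lit 0) (nat_lit 227141708) (nat_lit 0) (nat_lit 233997288) (nat_lit 152) (nat_lit 635424272) (nat_lit 89) (nat_lit 3) (nat_lit 89)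 (nat_lit 1) (nat_lit 91) (nat_lit 1) (nat_lit 403) (nat_lit 361) (nat_lit 256)))) (XT.nd (nat_lit 156) (nat_lit 228) (nat_lit 0) (XT.nd (nat_lit 78) (nat_lit 152) (nat_lit 0) (XT.lf (nat_lit 76) (nat_lit 279164201) (nat_lit 0) (nat_lit 504081886) (nat_lit 76) (nat_lit 285511961) (nat_lit 89) (nat_lit 3) (nat_lit 88) (nat_lit 1) (nat_lit 89) (nat_lit 1) (nat_lit 404) (nat_lit 361) (nat_lit 255)) (XT.lf (nat_lit 0) (nat_lit 269643336) (nat_lit 0) (nat_lit 275241007) (nat_lit 152) (nat_lit 496795731) (nat_lit 86) (nat_lit 3) (nat_lit 86) (nat_lit 1) (nat_lit 88) (nat_lit 1) (nat_lit 405) (nat_lit 361) (nat_lit 254))) (XT.nd (nat_lit 78) (nat_lit 152) (nat_lit 0) (XT.lf (nat_lit 76) (nat_lit 213196922) (nat_lit 0) (nat_lit 583738591) (nat_lit 76) (nat_lit 218379952) (nat_lit 86) (nat_lit 3) (nat_lit 85) (nat_lit 1) (nat_lit 86) (nat_lit 1) (nat_lit 406) (nat_lit 361) (nat_lit 253)) (XT.lf (nat_lit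 0) (nat_lit 307160806) (nat_lit 0) (nat_lit 311731379) (nat_lit 152) (nat_lit 370666194) (nat_lit 83) (nat_lit 3) (nat_lit 83) (nat_lit 1) (nat_lit 85) (nat_lit 1) (nat_lit 407) (nat_lit 361) (nat_lit 252))))))) (XT.nd (nat_lit 44460) (nat_lit 0) (nat_lit 14668) (XT.nd (nat_lit 468) (nat_lit 760) (nat_lit 0) (XT.nd (nat_lit 234) (nat_lit 380) (nat_lit 0) (XT.nd (nat_lit 78) (nat_lit 228) (nat_lit 0) (XT.lf (nat_lit 76) (nat_lit 153183215) (nat_lit 0) (nat_lit 653960778) (nat_lit 76) (nat_lit 157415226) (nat_lit 83) (nat_lit 3) (nat_lit 82) (nat_lit 1) (nat_lit 83) (nat_lit 1) (nat_lit 408) (nat_lit 361) (nat_lit 251)) (XT.nd (nat_lit 78) (nat_lit 76) (nat_lit 0) (XT.lf (nat_lit 0) (nat_lit 340100848) (nat_lit 0) (nat_lit 343832780) (nat_lit 152) (nat_lit 256124586) (nat_lit 80) (nat_lit 3) (nat_lit 80) (nat_lit 1) (nat_lit 82) (nat_lit 1) (nat_lit 409) (nat_lit 361) (nat_lit 250)) (XT.lf (nat_lit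 76) (nat_lit 98698977) (nat_lit 0) (nat_lit 715499868) (nat_lit 76) (nat_lit 102154470) (nat_lit 80) (nat_lit 3) (nat_lit 79) (nat_lit 1) (nat_lit 80) (nat_lit 1) (nat_lit 410) (nat_lit 361) (nat_lit 249)))) (XT.nd (nat_lit 78) (nat_lit 228) (nat_lit 0) (XT.lf (nat_lit 0) (nat_lit 368840217) (nat_lit 0) (nat_lit 371887389) (nat_lit 152) (nat_lit 152319198) (nat_lit 77) (nat_lit 3) (nat_lit 77) (nat_lit 1) (nat_lit 79) (nat_lit 1) (nat_lit 411) (nat_lit 361) (nat_lit 248)) (XT.nd (nat_lit 78) (nat_lit 152) (nat_lit 0) (XT.lf (nat_lit 76) (nat_lit 49345532) (nat_lit 0) (nat_lit 769056210) (nat_lit 76) (nat_lit 52166987) (nat_lit 77) (nat_lit 3) (nat_lit 76) (nat_lit 1) (nat_lit 77) (nat_lit 1) (nat_lit 412) (nat_lit 361) (nat_lit 247)) (XT.lf (nat_lit 0) (nat_lit 393727951) (nat_lit 0) (nat_lit 396216007) (nat_lit 152) (nat_lit 58454230) (nat_lit 74) (nat_lit 3) (nat_lit 74) (nat_lit 1) (nat_lit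 76) (nat_lit 1) (nat_lit 413) (nat_lit 361) (nat_lit 246))))) (XT.nd (nat_lit 234) (nat_lit 304) (nat_lit 0) (XT.nd (nat_lit 78) (nat_lit 380) (nat_lit 0) (XT.lf (nat_lit 76) (nat_lit 4748587) (nat_lit 0) (nat_lit 815282121) (nat_lit 76) (nat_lit 7052343) (nat_lit 74) (nat_lit 3) (nat_lit 73) (nat_lit 1) (nat_lit 74) (nat_lit 1) (nat_lit 414) (nat_lit 361) (nat_lit 245)) (XT.nd (nat_lit 78) (nat_lit 152) (nat_lit 0) (XT.lf (nat_lit 76) (nat_lit 388429964) (nat_lit 0) (nat_lit 27080255) (nat_lit 76) (nat_lit 390461495) (nat_lit 71) (nat_lit 3) (nat_lit 70) (nat_lit 1) (nat_lit 71) (nat_lit 1) (nat_lit 415) (nat_lit 361) (nat_lit 244)) (XT.lf (nat_lit 0) (nat_lit 34172204) (nat_lit 0) (nat_lit 35963678) (nat_lit 152) (nat_lit 715533817) (nat_lit 68) (nat_lit 3) (nat_lit 68) (nat_lit 1) (nat_lit 70) (nat_lit 1) (nat_lit 416) (nat_lit 361) (nat_lit 243)))) (XT.nd (nat_lit 156) (nat_lit 76) (nat_lit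 0) (XT.nd (nat_lit 78) (nat_lit 152) (nat_lit 0) (XT.lf (nat_lit 76) (nat_lit 329106600) (nat_lit 0) (nat_lit 105762865) (nat_lit 76) (nat_lit 330765371) (nat_lit 68) (nat_lit 3) (nat_lit 67) (nat_lit 1) (nat_lit 68) (nat_lit 1) (nat_lit 417) (nat_lit 361) (nat_lit 242)) (XT.lf (nat_lit 0) (nat_lit 71218753) (nat_lit 0) (nat_lit 72681514) (nat_lit 152) (nat_lit 602422900) (nat_lit 65) (nat_lit 3) (nat_lit 65) (nat_lit 1) (nat_lit 67) (nat_lit 1) (nat_lit 418) (nat_lit 361) (nat_lit 241))) (XT.nd (nat_lit 43524) (nat_lit 0) (nat_lit 17328) (XT.lf (nat_lit 76) (nat_lit 274821313) (nat_lit 0) (nat_lit 176329526) (nat_lit 76) (nat_lit 276175722) (nat_lit 65) (nat_lit 3) (nat_lit 64) (nat_lit 1) (nat_lit 65) (nat_lit 1) (nat_lit 419) (nat_lit 361) (nat_lit 240)) (XT.lf (nat_lit 836) (nat_lit 2921274042) (nat_lit 0) (nat_lit 5186715347) (nat_lit 836) (nat_lit 2921274042) (nat_lit 303) (nat_lit 1) (nat_lit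 292) (nat_lit 0) (nat_lit 303) (nat_lit 0) (nat_lit 296) (nat_lit 362) (nat_lit 362)))))) (XT.nd (nat_lit 546) (nat_lit 2280) (nat_lit 0) (XT.nd (nat_lit 234) (nat_lit 456) (nat_lit 0) (XT.nd (nat_lit 78) (nat_lit 0) (nat_lit 0) (XT.lf (nat_lit 836) (nat_lit 1089724854) (nat_lit 0) (nat_lit 10183094196) (nat_lit 760) (nat_lit 9959032103) (nat_lit 304) (nat_lit 1) (nat_lit 293) (nat_lit 1) (nat_lit 303) (nat_lit 1) (nat_lit 297) (nat_lit 362) (nat_lit 361)) (XT.nd (nat_lit 78) (nat_lit 0) (nat_lit 76) (XT.lf (nat_lit 836) (nat_lit 10008493790) (nat_lit 76) (nat_lit 6819621616) (nat_lit 0) (nat_lit 3616816220) (nat_lit 304) (nat_lit 1) (nat_lit 294) (nat_lit 1) (nat_lit 293) (nat_lit 1) (nat_lit 298) (nat_lit 362) (nat_lit 360)) (XT.lf (nat_lit 836) (nat_lit 8648158542) (nat_lit 76) (nat_lit 2858056150) (nat_lit 0) (nat_lit 8191176856) (nat_lit 305) (nat_lit 1) (nat_lit 295) (nat_lit 1) (nat_lit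 294) (nat_lit 1) (nat_lit 299) (nat_lit 362) (nat_lit 359)))) (XT.nd (nat_lit 156) (nat_lit 608) (nat_lit 0) (XT.nd (nat_lit 78) (nat_lit 0) (nat_lit 76) (XT.lf (nat_lit 836) (nat_lit 6400372562) (nat_lit 0) (nat_lit 11974794531) (nat_lit 760) (nat_lit 612149785) (nat_lit 306) (nat_lit 1) (nat_lit 295) (nat_lit 1) (nat_lit 305) (nat_lit 1) (nat_lit 300) (nat_lit 362) (nat_lit 358)) (XT.lf (nat_lit 836) (nat_lit 1535706642) (nat_lit 0) (nat_lit 13205537698) (nat_lit 760) (nat_lit 3569908906) (nat_lit 307) (nat_lit 1) (nat_lit 296) (nat_lit 1) (nat_lit 306) (nat_lit 1) (nat_lit 301) (nat_lit 362) (nat_lit 357))) (XT.nd (nat_lit 78) (nat_lit 684) (nat_lit 0) (XT.lf (nat_lit 836) (nat_lit 2951003542) (nat_lit 76) (nat_lit 11476687632) (nat_lit 0) (nat_lit 3238862845) (nat_lit 307) (nat_lit 1) (nat_lit 297) (nat_lit 1) (nat_lit 296) (nat_lit 1) (nat_lit 302) (nat_lit 362) (nat_lit 356)) (XT.lf (nat_lit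 836) (nat_lit 606068835) (nat_lit 0) (nat_lit 8579583159) (nat_lit 760) (nat_lit 7867387861) (nat_lit 298) (nat_lit 1) (nat_lit 287) (nat_lit 1) (nat_lit 297) (nat_lit 1) (nat_lit 303) (nat_lit 362) (nat_lit 355))))) (XT.nd (nat_lit 234) (nat_lit 988) (nat_lit 0) (XT.nd (nat_lit 78) (nat_lit 760) (nat_lit 0) (XT.lf (nat_lit 76) (nat_lit 4196546867) (nat_lit 0) (nat_lit 1818559048) (nat_lit 532) (nat_lit 10453469080) (nat_lit 281) (nat_lit 1) (nat_lit 280) (nat_lit 1) (nat_lit 287) (nat_lit 1) (nat_lit 304) (nat_lit 362) (nat_lit 354)) (XT.nd (nat_lit 78) (nat_lit 380) (nat_lit 0) (XT.lf (nat_lit 456) (nat_lit 11565154959) (nat_lit 0) (nat_lit 3764707263) (nat_lit 380) (nat_lit 582047004) (nat_lit 281) (nat_lit 1) (nat_lit 275) (nat_lit 1) (nat_lit 280) (nat_lit 1) (nat_lit 305) (nat_lit 362) (nat_lit 353)) (XT.lf (nat_lit 456) (nat_lit 8345525950) (nat_lit 0) (nat_lit 1754746272) (nat_lit 380)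 (nat_lit 5278906869) (nat_lit 276) (nat_lit 1) (nat_lit 270) (nat_lit 1) (nat_lit 275) (nat_lit 1) (nat_lit 306) (nat_lit 362) (nat_lit 352)))) (XT.nd (nat_lit 156) (nat_lit 684) (nat_lit 0) (XT.nd (nat_lit 78) (nat_lit 0) (nat_lit 0) (XT.lf (nat_lit 380) (nat_lit 5078146102) (nat_lit 0) (nat_lit 32307730) (nat_lit 304) (nat_lit 9761826050) (nat_lit 271) (nat_lit 1) (nat_lit 266) (nat_lit 1) (nat_lit 270) (nat_lit 1) (nat_lit 307) (nat_lit 362) (nat_lit 351)) (XT.lf (nat_lit 76) (nat_lit 374641620) (nat_lit 0) (nat_lit 12634730790) (nat_lit 380) (nat_lit 1379326532) (nat_lit 267) (nat_lit 1) (nat_lit 266) (nat_lit 1) (nat_lit 271) (nat_lit 1) (nat_lit 308) (nat_lit 362) (nat_lit 350))) (XT.nd (nat_lit 78) (nat_lit 304) (nat_lit 0) (XT.lf (nat_lit 76) (nat_lit 9673343804) (nat_lit 0) (nat_lit 1604427574) (nat_lit 380) (nat_lit 2645992455) (nat_lit 262) (nat_lit 1) (nat_lit 261) (nat_lit 1) (nat_lit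 266) (nat_lit 1) (nat_lit 309) (nat_lit 362) (nat_lit 349)) (XT.lf (nat_lit 76) (nat_lit 4839819034) (nat_lit 0) (nat_lit 4914646471) (nat_lit 380) (nat_lit 3724906423) (nat_lit 258) (nat_lit 1) (nat_lit 257) (nat_lit 1) (nat_lit 262) (nat_lit 1) (nat_lit 310) (nat_lit 362) (nat_lit 348))))))))
noncomputable def ec67 : XT := (XT.nd (nat_lit 2106) (nat_lit 3116) (nat_lit 0) (XT.nd (nat_lit 1014) (nat_lit 2128) (nat_lit 0) (XT.nd (nat_lit 468) (nat_lit 1368) (nat_lit 0) (XT.nd (nat_lit 234) (nat_lit 760) (nat_lit 0) (XT.nd (nat_lit 78) (nat_lit 608) (nat_lit 0) (XT.lf (nat_lit 76) (nat_lit 238882735) (nat_lit 0) (nat_lit 8217212586) (nat_lit 380) (nat_lit 4599925189) (nat_lit 254) (nat_lit 1) (nat_lit 253) (nat_lit 1) (nat_lit 258) (nat_lit 1) (nat_lit 311) (nat_lit 362) (nat_lit 347)) (XT.nd (nat_lit 78) (nat_lit 380) (nat_lit 0) (XT.lf (nat_lit 304) (nat_lit 1078780969) (nat_lit 0) (nat_lit 7295279318)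 (nat_lit 228) (nat_lit 4275201344) (nat_lit 254) (nat_lit 1) (nat_lit 250) (nat_lit 1) (nat_lit 253) (nat_lit 1) (nat_lit 312) (nat_lit 362) (nat_lit 346)) (XT.lf (nat_lit 76) (nat_lit 3727478291) (nat_lit 0) (nat_lit 2554836782) (nat_lit 380) (nat_lit 5976991628) (nat_lit 246) (nat_lit 1) (nat_lit 245) (nat_lit 1) (nat_lit 250) (nat_lit 1) (nat_lit 313) (nat_lit 362) (nat_lit 345)))) (XT.nd (nat_lit 78) (nat_lit 532) (nat_lit 0) (XT.lf (nat_lit 304) (nat_lit 5771032969) (nat_lit 0) (nat_lit 5421139586) (nat_lit 228) (nat_lit 693899433) (nat_lit 246) (nat_lit 1) (nat_lit 242) (nat_lit 1) (nat_lit 245) (nat_lit 1) (nat_lit 314) (nat_lit 362) (nat_lit 344)) (XT.nd (nat_lit 78) (nat_lit 304) (nat_lit 0) (XT.lf (nat_lit 304) (nat_lit 1849588186) (nat_lit 0) (nat_lit 4667379190) (nat_lit 228) (nat_lit 5010213413) (nat_lit 243) (nat_lit 1) (nat_lit 239) (nat_lit 1) (nat_lit 242) (nat_lit 1) (nat_lit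 315) (nat_lit 362) (nat_lit 343)) (XT.lf (nat_lit 76) (nat_lit 2108083612) (nat_lit 0) (nat_lit 1930133743) (nat_lit 304) (nat_lit 7144977662) (nat_lit 236) (nat_lit 1) (nat_lit 235) (nat_lit 1) (nat_lit 239) (nat_lit 1) (nat_lit 316) (nat_lit 362) (nat_lit 342))))) (XT.nd (nat_lit 234) (nat_lit 684) (nat_lit 0) (XT.nd (nat_lit 78) (nat_lit 456) (nat_lit 0) (XT.lf (nat_lit 304) (nat_lit 5245689384) (nat_lit 0) (nat_lit 3490287326) (nat_lit 228) (nat_lit 2115823652) (nat_lit 236) (nat_lit 1) (nat_lit 232) (nat_lit 1) (nat_lit 235) (nat_lit 1) (nat_lit 317) (nat_lit 362) (nat_lit 341)) (XT.nd (nat_lit 78) (nat_lit 304) (nat_lit 0) (XT.lf (nat_lit 228) (nat_lit 1300414144) (nat_lit 0) (nat_lit 3045021109) (nat_lit 152) (nat_lit 6188339839) (nat_lit 233) (nat_lit 1) (nat_lit 230) (nat_lit 1) (nat_lit 232) (nat_lit 1) (nat_lit 318) (nat_lit 362) (nat_lit 340)) (XT.lf (nat_lit 76) (nat_lit 220298464)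 (nat_lit 0) (nat_lit 2465187637) (nat_lit 304) (nat_lit 7542591219) (nat_lit 227) (nat_lit 1) (nat_lit 226) (nat_lit 1) (nat_lit 230) (nat_lit 1) (nat_lit 319) (nat_lit 362) (nat_lit 339)))) (XT.nd (nat_lit 156) (nat_lit 304) (nat_lit 0) (XT.nd (nat_lit 78) (nat_lit 228) (nat_lit 0) (XT.lf (nat_lit 228) (nat_lit 3778764893) (nat_lit 0) (nat_lit 2361403878) (nat_lit 152) (nat_lit 3791915033) (nat_lit 227) (nat_lit 1) (nat_lit 224) (nat_lit 1) (nat_lit 226) (nat_lit 1) (nat_lit 320) (nat_lit 362) (nat_lit 338)) (XT.lf (nat_lit 76) (nat_lit 2050199915) (nat_lit 0) (nat_lit 94700019) (nat_lit 228) (nat_lit 7504106492) (nat_lit 222) (nat_lit 1) (nat_lit 221) (nat_lit 1) (nat_lit 224) (nat_lit 1) (nat_lit 321) (nat_lit 362) (nat_lit 337))) (XT.nd (nat_lit 78) (nat_lit 152) (nat_lit 0) (XT.lf (nat_lit 228) (nat_lit 5604850666) (nat_lit 0) (nat_lit 1942206427) (nat_lit 152) (nat_lit 1827106474) (nat_lit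 222) (nat_lit 1) (nat_lit 219) (nat_lit 1) (nat_lit 221) (nat_lit 1) (nat_lit 322) (nat_lit 362) (nat_lit 336)) (XT.lf (nat_lit 228) (nat_lit 1741091218) (nat_lit 0) (nat_lit 1805495646) (nat_lit 152) (nat_lit 5563242289) (nat_lit 220) (nat_lit 1) (nat_lit 217) (nat_lit 1) (nat_lit 219) (nat_lit 1) (nat_lit 323) (nat_lit 362) (nat_lit 335)))))) (XT.nd (nat_lit 546) (nat_lit 1064) (nat_lit 0) (XT.nd (nat_lit 234) (nat_lit 532) (nat_lit 0) (XT.nd (nat_lit 78) (nat_lit 304) (nat_lit 0) (XT.lf (nat_lit 228) (nat_lit 6911492270) (nat_lit 0) (nat_lit 1725004547) (nat_lit 152) (nat_lit 218836839) (nat_lit 217) (nat_lit 1) (nat_lit 214) (nat_lit 1) (nat_lit 216) (nat_lit 1) (nat_lit 324) (nat_lit 362) (nat_lit 334)) (XT.nd (nat_lit 78) (nat_lit 152) (nat_lit 0) (XT.lf (nat_lit 228) (nat_lit 3093263619) (nat_lit 0) (nat_lit 1646797762) (nat_lit 152) (nat_lit 3867848403) (nat_lit 215) (nat_lit 1) (nat_lit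 212) (nat_lit 1) (nat_lit 214) (nat_lit 1) (nat_lit 325) (nat_lit 362) (nat_lit 333)) (XT.lf (nat_lit 76) (nat_lit 1059562217) (nat_lit 0) (nat_lit 582383139) (nat_lit 152) (nat_lit 6728803060) (nat_lit 211) (nat_lit 1) (nat_lit 210) (nat_lit 1) (nat_lit 212) (nat_lit 1) (nat_lit 326) (nat_lit 362) (nat_lit 332)))) (XT.nd (nat_lit 156) (nat_lit 304) (nat_lit 0) (XT.nd (nat_lit 78) (nat_lit 76) (nat_lit 0) (XT.lf (nat_lit 228) (nat_lit 4058539764) (nat_lit 0) (nat_lit 1624558983) (nat_lit 152) (nat_lit 2456472843) (nat_lit 211) (nat_lit 1) (nat_lit 208) (nat_lit 1) (nat_lit 210) (nat_lit 1) (nat_lit 327) (nat_lit 362) (nat_lit 331)) (XT.lf (nat_lit 152) (nat_lit 437047061) (nat_lit 0) (nat_lit 1664460251) (nat_lit 76) (nat_lit 5816014015) (nat_lit 209) (nat_lit 1) (nat_lit 207) (nat_lit 1) (nat_lit 208) (nat_lit 1) (nat_lit 328) (nat_lit 362) (nat_lit 330))) (XT.nd (nat_lit 78) (nat_lit 76) (nat_lit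 0) (XT.lf (nat_lit 228) (nat_lit 4717761673) (nat_lit 0) (nat_lit 1702298670) (nat_lit 152) (nat_lit 1281533332) (nat_lit 207) (nat_lit 1) (nat_lit 204) (nat_lit 1) (nat_lit 206) (nat_lit 1) (nat_lit 329) (nat_lit 362) (nat_lit 329)) (XT.lf (nat_lit 152) (nat_lit 1186551849) (nat_lit 0) (nat_lit 1765949333) (nat_lit 76) (nat_lit 4540442038) (nat_lit 205) (nat_lit 1) (nat_lit 203) (nat_lit 1) (nat_lit 204) (nat_lit 1) (nat_lit 330) (nat_lit 362) (nat_lit 328))))) (XT.nd (nat_lit 234) (nat_lit 532) (nat_lit 0) (XT.nd (nat_lit 78) (nat_lit 304) (nat_lit 0) (XT.lf (nat_lit 228) (nat_lit 5136291151) (nat_lit 0) (nat_lit 1851121591) (nat_lit 152) (nat_lit 303784899) (nat_lit 203) (nat_lit 1) (nat_lit 200) (nat_lit 1) (nat_lit 202) (nat_lit 1) (nat_lit 331) (nat_lit 362) (nat_lit 327)) (XT.nd (nat_lit 78) (nat_lit 228) (nat_lit 0) (XT.lf (nat_lit 152) (nat_lit 1707610896) (nat_lit 0) (nat_lit 1929816503)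 (nat_lit 76) (nat_lit 3457432925) (nat_lit 201) (nat_lit 1) (nat_lit 199) (nat_lit 1) (nat_lit 200) (nat_lit 1) (nat_lit 332) (nat_lit 362) (nat_lit 326)) (XT.lf (nat_lit 76) (nat_lit 492884461) (nat_lit 0) (nat_lit 1547032940) (nat_lit 228) (nat_lit 4865659036) (nat_lit 197) (nat_lit 1) (nat_lit 196) (nat_lit 1) (nat_lit 199) (nat_lit 1) (nat_lit 333) (nat_lit 362) (nat_lit 325)))) (XT.nd (nat_lit 156) (nat_lit 228) (nat_lit 0) (XT.nd (nat_lit 78) (nat_lit 228) (nat_lit 0) (XT.lf (nat_lit 152) (nat_lit 2049287141) (nat_lit 0) (nat_lit 2135260067) (nat_lit 76) (nat_lit 2536446092) (nat_lit 197) (nat_lit 1) (nat_lit 195) (nat_lit 1) (nat_lit 196) (nat_lit 1) (nat_lit 334) (nat_lit 362) (nat_lit 324)) (XT.lf (nat_lit 76) (nat_lit 1146265731) (nat_lit 0) (nat_lit 1110235871) (nat_lit 228) (nat_lit 4286395264) (nat_lit 193) (nat_lit 1) (nat_lit 192) (nat_lit 1) (nat_lit 195) (nat_lit 1) (nat_lit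 335) (nat_lit 362) (nat_lit 323))) (XT.nd (nat_lit 78) (nat_lit 152) (nat_lit 0) (XT.lf (nat_lit 152) (nat_lit 2251146523) (nat_lit 0) (nat_lit 2366041956) (nat_lit 76) (nat_lit 1752162250) (nat_lit 193) (nat_lit 1) (nat_lit 191) (nat_lit 1) (nat_lit 192) (nat_lit 1) (nat_lit 336) (nat_lit 362) (nat_lit 322)) (XT.lf (nat_lit 76) (nat_lit 1687568219) (nat_lit 0) (nat_lit 804096061) (nat_lit 152) (nat_lit 3709871740) (nat_lit 190) (nat_lit 1) (nat_lit 189) (nat_lit 1) (nat_lit 191) (nat_lit 1) (nat_lit 337) (nat_lit 362) (nat_lit 321))))))) (XT.nd (nat_lit 1014) (nat_lit 1672) (nat_lit 0) (XT.nd (nat_lit 468) (nat_lit 760) (nat_lit 0) (XT.nd (nat_lit 234) (nat_lit 380) (nat_lit 0) (XT.nd (nat_lit 78) (nat_lit 228) (nat_lit 0) (XT.lf (nat_lit 152) (nat_lit 2345032562) (nat_lit 0) (nat_lit 2609598294) (nat_lit 76) (nat_lit 1083552032) (nat_lit 190) (nat_lit 1) (nat_lit 188) (nat_lit 1) (nat_lit 189)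 (nat_lit 1) (nat_lit 338) (nat_lit 362) (nat_lit 320)) (XT.nd (nat_lit 78) (nat_lit 76) (nat_lit 0) (XT.lf (nat_lit 76) (nat_lit 2134616890) (nat_lit 0) (nat_lit 599866146) (nat_lit 152) (nat_lit 3145371292) (nat_lit 187) (nat_lit 1) (nat_lit 186) (nat_lit 1) (nat_lit 188) (nat_lit 1) (nat_lit 339) (nat_lit 362) (nat_lit 319)) (XT.lf (nat_lit 152) (nat_lit 2356513342) (nat_lit 0) (nat_lit 2856316549) (nat_lit 76) (nat_lit 513113787) (nat_lit 187) (nat_lit 1) (nat_lit 185) (nat_lit 1) (nat_lit 186) (nat_lit 1) (nat_lit 340) (nat_lit 362) (nat_lit 318)))) (XT.nd (nat_lit 78) (nat_lit 228) (nat_lit 0) (XT.lf (nat_lit 76) (nat_lit 2502226280) (nat_lit 0) (nat_lit 474430574) (nat_lit 152) (nat_lit 2599741521) (nat_lit 184) (nat_lit 1) (nat_lit 183) (nat_lit 1) (nat_lit 185) (nat_lit 1) (nat_lit 341) (nat_lit 362) (nat_lit 317)) (XT.nd (nat_lit 78) (nat_lit 152) (nat_lit 0) (XT.lf (nat_lit 152) (nat_lit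 2306061118) (nat_lit 0) (nat_lit 3098948494) (nat_lit 76) (nat_lit 26249596) (nat_lit 184) (nat_lit 1) (nat_lit 182) (nat_lit 1) (nat_lit 183) (nat_lit 1) (nat_lit 342) (nat_lit 362) (nat_lit 316)) (XT.lf (nat_lit 76) (nat_lit 2802733368) (nat_lit 0) (nat_lit 409248129) (nat_lit 152) (nat_lit 2077891061) (nat_lit 181) (nat_lit 1) (nat_lit 180) (nat_lit 1) (nat_lit 182) (nat_lit 1) (nat_lit 343) (nat_lit 362) (nat_lit 315))))) (XT.nd (nat_lit 234) (nat_lit 456) (nat_lit 0) (XT.nd (nat_lit 78) (nat_lit 228) (nat_lit 0) (XT.lf (nat_lit 0) (nat_lit 376787442) (nat_lit 0) (nat_lit 2948965333) (nat_lit 152) (nat_lit 1826845211) (nat_lit 179) (nat_lit 3) (nat_lit 179) (nat_lit 1) (nat_lit 181) (nat_lit 1) (nat_lit 344) (nat_lit 362) (nat_lit 314)) (XT.nd (nat_lit 78) (nat_lit 76) (nat_lit 0) (XT.lf (nat_lit 76) (nat_lit 3046433998) (nat_lit 0) (nat_lit 389490031) (nat_lit 152) (nat_lit 1583191629) (nat_lit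 178) (nat_lit 1) (nat_lit 177) (nat_lit 1) (nat_lit 179) (nat_lit 1) (nat_lit 345) (nat_lit 362) (nat_lit 313)) (XT.lf (nat_lit 0) (nat_lit 719803409) (nat_lit 0) (nat_lit 2820020513) (nat_lit 152) (nat_lit 1349364344) (nat_lit 176) (nat_lit 3) (nat_lit 176) (nat_lit 1) (nat_lit 178) (nat_lit 1) (nat_lit 346) (nat_lit 362) (nat_lit 312)))) (XT.nd (nat_lit 156) (nat_lit 228) (nat_lit 0) (XT.nd (nat_lit 78) (nat_lit 76) (nat_lit 0) (XT.lf (nat_lit 76) (nat_lit 3241940453) (nat_lit 0) (nat_lit 403337622) (nat_lit 152) (nat_lit 1117803340) (nat_lit 175) (nat_lit 1) (nat_lit 174) (nat_lit 1) (nat_lit 176) (nat_lit 1) (nat_lit 347) (nat_lit 362) (nat_lit 311)) (XT.lf (nat_lit 0) (nat_lit 1011963488) (nat_lit 0) (nat_lit 2726818396) (nat_lit 152) (nat_lit 901266072) (nat_lit 173) (nat_lit 3) (nat_lit 173) (nat_lit 1) (nat_lit 175) (nat_lit 1) (nat_lit 348) (nat_lit 362) (nat_lit 310))) (XT.nd (nat_lit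 78) (nat_lit 76) (nat_lit 0) (XT.lf (nat_lit 76) (nat_lit 3396474568) (nat_lit 0) (nat_lit 441410270) (nat_lit 152) (nat_lit 682937563) (nat_lit 172) (nat_lit 1) (nat_lit 171) (nat_lit 1) (nat_lit 173) (nat_lit 1) (nat_lit 349) (nat_lit 362) (nat_lit 309)) (XT.lf (nat_lit 0) (nat_lit 1260286521) (nat_lit 0) (nat_lit 2660488125) (nat_lit 152) (nat_lit 483493057) (nat_lit 170) (nat_lit 3) (nat_lit 170) (nat_lit 1) (nat_lit 172) (nat_lit 1) (nat_lit 350) (nat_lit 362) (nat_lit 308)))))) (XT.nd (nat_lit 546) (nat_lit 760) (nat_lit 0) (XT.nd (nat_lit 234) (nat_lit 456) (nat_lit 0) (XT.nd (nat_lit 78) (nat_lit 304) (nat_lit 0) (XT.lf (nat_lit 76) (nat_lit 3516108157) (nat_lit 0) (nat_lit 496299525) (nat_lit 152) (nat_lit 279068939) (nat_lit 169) (nat_lit 1) (nat_lit 168) (nat_lit 1) (nat_lit 170) (nat_lit 1) (nat_lit 351) (nat_lit 362) (nat_lit 307)) (XT.nd (nat_lit 78) (nat_lit 228) (nat_lit 0) (XT.lf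 (nat_lit 0) (nat_lit 1470708778) (nat_lit 0) (nat_lit 2613991817) (nat_lit 152) (nat_lit 96318280) (nat_lit 167) (nat_lit 3) (nat_lit 167) (nat_lit 1) (nat_lit 169) (nat_lit 1) (nat_lit 352) (nat_lit 362) (nat_lit 306)) (XT.lf (nat_lit 152) (nat_lit 3510476228) (nat_lit 0) (nat_lit 96998509) (nat_lit 76) (nat_lit 466705840) (nat_lit 166) (nat_lit 1) (nat_lit 164) (nat_lit 1) (nat_lit 165) (nat_lit 1) (nat_lit 353) (nat_lit 362) (nat_lit 305)))) (XT.nd (nat_lit 156) (nat_lit 228) (nat_lit 0) (XT.nd (nat_lit 78) (nat_lit 152) (nat_lit 0) (XT.lf (nat_lit 76) (nat_lit 1383358206) (nat_lit 0) (nat_lit 269110968) (nat_lit 76) (nat_lit 2316863855) (nat_lit 164) (nat_lit 3) (nat_lit 163) (nat_lit 1) (nat_lit 164) (nat_lit 1) (nat_lit 354) (nat_lit 362) (nat_lit 304)) (XT.lf (nat_lit 152) (nat_lit 3226496121) (nat_lit 0) (nat_lit 450903238) (nat_lit 76) (nat_lit 190687162) (nat_lit 163) (nat_lit 1) (nat_lit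 161) (nat_lit 1) (nat_lit 162) (nat_lit 1) (nat_lit 355) (nat_lit 362) (nat_lit 303))) (XT.nd (nat_lit 78) (nat_lit 152) (nat_lit 0) (XT.lf (nat_lit 76) (nat_lit 1199720599) (nat_lit 0) (nat_lit 607008859) (nat_lit 76) (nat_lit 1961940249) (nat_lit 161) (nat_lit 3) (nat_lit 160) (nat_lit 1) (nat_lit 161) (nat_lit 1) (nat_lit 356) (nat_lit 362) (nat_lit 302)) (XT.lf (nat_lit 0) (nat_lit 50638212) (nat_lit 0) (nat_lit 722789579) (nat_lit 152) (nat_lit 2899284278) (nat_lit 158) (nat_lit 3) (nat_lit 158) (nat_lit 1) (nat_lit 160) (nat_lit 1) (nat_lit 357) (nat_lit 362) (nat_lit 301))))) (XT.nd (nat_lit 234) (nat_lit 456) (nat_lit 0) (XT.nd (nat_lit 78) (nat_lit 228) (nat_lit 0) (XT.lf (nat_lit 76) (nat_lit 1020484401) (nat_lit 0) (nat_lit 915131982) (nat_lit 76) (nat_lit 1642846778) (nat_lit 158) (nat_lit 3) (nat_lit 157) (nat_lit 1) (nat_lit 158) (nat_lit 1) (nat_lit 358) (nat_lit 362) (nat_lit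 300)) (XT.nd (nat_lit 78) (nat_lit 76) (nat_lit 0) (XT.lf (nat_lit 0) (nat_lit 257534845) (nat_lit 0) (nat_lit 806355283) (nat_lit 152) (nat_lit 2423465493) (nat_lit 155) (nat_lit 3) (nat_lit 155) (nat_lit 1) (nat_lit 157) (nat_lit 1) (nat_lit 359) (nat_lit 362) (nat_lit 299)) (XT.lf (nat_lit 76) (nat_lit 847658663) (nat_lit 0) (nat_lit 1194633363) (nat_lit 76) (nat_lit 1355825735) (nat_lit 155) (nat_lit 3) (nat_lit 154) (nat_lit 1) (nat_lit 155) (nat_lit 1) (nat_lit 360) (nat_lit 362) (nat_lit 298)))) (XT.nd (nat_lit 156) (nat_lit 228) (nat_lit 0) (XT.nd (nat_lit 78) (nat_lit 76) (nat_lit 0) (XT.lf (nat_lit 0) (nat_lit 439258890) (nat_lit 0) (nat_lit 887378002) (nat_lit 152) (nat_lit 1984954794) (nat_lit 152) (nat_lit 3) (nat_lit 152) (nat_lit 1) (nat_lit 154) (nat_lit 1) (nat_lit 361) (nat_lit 362) (nat_lit 297)) (XT.lf (nat_lit 76) (nat_lit 682671786) (nat_lit 0) (nat_lit 1446811778) (nat_lit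 76) (nat_lit 1097596889) (nat_lit 152) (nat_lit 3) (nat_lit 151) (nat_lit 1) (nat_lit 152) (nat_lit 1) (nat_lit 362) (nat_lit 362) (nat_lit 296))) (XT.nd (nat_lit 78) (nat_lit 76) (nat_lit 0) (XT.lf (nat_lit 0) (nat_lit 598555448) (nat_lit 0) (nat_lit 964450601) (nat_lit 152) (nat_lit 1581880112) (nat_lit 149) (nat_lit 3) (nat_lit 149) (nat_lit 1) (nat_lit 151) (nat_lit 1) (nat_lit 363) (nat_lit 362) (nat_lit 295)) (XT.lf (nat_lit 76) (nat_lit 526492428) (nat_lit 0) (nat_lit 1673059666) (nat_lit 76) (nat_lit 865284236) (nat_lit 149) (nat_lit 3) (nat_lit 148) (nat_lit 1) (nat_lit 149) (nat_lit 1) (nat_lit 364) (nat_lit 362) (nat_lit 294))))))))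
noncomputable def ec68 : XT := (XT.nd (nat_lit 2028) (nat_lit 3268) (nat_lit 0) (XT.nd (nat_lit 1014) (nat_lit 1520) (nat_lit 0) (XT.nd (nat_lit 468) (nat_lit 912) (nat_lit 0) (XT.nd (nat_lit 234) (nat_lit 304) (nat_lit 0) (XT.nd (nat_lit 78) (nat_lit 228) (nat_lit 0) (XT.lf (nat_lit 0) (nat_lit 737824437) (nat_lit 0) (nat_lit 1036582645) (nat_lit 152) (nat_lit 1212334013) (nat_lit 146) (nat_lit 3) (nat_lit 146) (nat_lit 1) (nat_lit 148) (nat_lit 1) (nat_lit 365) (nat_lit 362) (nat_lit 293)) (XT.nd (nat_lit 78) (nat_lit 152) (nat_lit 0) (XT.lf (nat_lit 76) (nat_lit 379727307) (nat_lit 0) (nat_lit 1874822256) (nat_lit 76) (nat_lit 656355277) (nat_lit 146) (nat_lit 3) (nat_lit 145) (nat_lit 1) (nat_lit 146) (nat_lit 1) (nat_lit 366) (nat_lit 362) (nat_lit 292)) (XT.lf (nat_lit 0) (nat_lit 859172589) (nat_lit 0) (nat_lit 1103112598) (nat_lit 152) (nat_lit 874406010) (nat_lit 143) (nat_lit 3) (nat_lit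 143) (nat_lit 1) (nat_lit 145) (nat_lit 1) (nat_lit 367) (nat_lit 362) (nat_lit 291)))) (XT.nd (nat_lit 78) (nat_lit 228) (nat_lit 0) (XT.lf (nat_lit 76) (nat_lit 242700194) (nat_lit 0) (nat_lit 2053565762) (nat_lit 76) (nat_lit 468570573) (nat_lit 143) (nat_lit 3) (nat_lit 142) (nat_lit 1) (nat_lit 143) (nat_lit 1) (nat_lit 368) (nat_lit 362) (nat_lit 290)) (XT.nd (nat_lit 78) (nat_lit 76) (nat_lit 0) (XT.lf (nat_lit 0) (nat_lit 964456648) (nat_lit 0) (nat_lit 1163636876) (nat_lit 152) (nat_lit 566207288) (nat_lit 140) (nat_lit 3) (nat_lit 140) (nat_lit 1) (nat_lit 142) (nat_lit 1) (nat_lit 369) (nat_lit 362) (nat_lit 289)) (XT.lf (nat_lit 76) (nat_lit 115515607) (nat_lit 0) (nat_lit 2210752869) (nat_lit 76) (nat_lit 299941744) (nat_lit 140) (nat_lit 3) (nat_lit 139) (nat_lit 1) (nat_lit 140) (nat_lit 1) (nat_lit 370) (nat_lit 362) (nat_lit 288))))) (XT.nd (nat_lit 234) (nat_lit 532) (nat_lit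 0) (XT.nd (nat_lit 78) (nat_lit 228) (nat_lit 0) (XT.lf (nat_lit 0) (nat_lit 1055319346) (nat_lit 0) (nat_lit 1217952624) (nat_lit 152) (nat_lit 285889342) (nat_lit 137) (nat_lit 3) (nat_lit 137) (nat_lit 1) (nat_lit 139) (nat_lit 1) (nat_lit 371) (nat_lit 362) (nat_lit 287)) (XT.nd (nat_lit 78) (nat_lit 76) (nat_lit 0) (XT.lf (nat_lit 76) (nat_lit 2345963653) (nat_lit 0) (nat_lit 1829451) (nat_lit 152) (nat_lit 146835993) (nat_lit 136) (nat_lit 1) (nat_lit 135) (nat_lit 1) (nat_lit 137) (nat_lit 1) (nat_lit 372) (nat_lit 362) (nat_lit 286)) (XT.lf (nat_lit 0) (nat_lit 1133219436) (nat_lit 0) (nat_lit 1266011648) (nat_lit 152) (nat_lit 31657735) (nat_lit 134) (nat_lit 3) (nat_lit 134) (nat_lit 1) (nat_lit 136) (nat_lit 1) (nat_lit 373) (nat_lit 362) (nat_lit 285)))) (XT.nd (nat_lit 156) (nat_lit 228) (nat_lit 0) (XT.nd (nat_lit 78) (nat_lit 76) (nat_lit 0) (XT.lf (nat_lit 152) (nat_lit 2261840239)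 (nat_lit 0) (nat_lit 97877738) (nat_lit 76) (nat_lit 9845915) (nat_lit 133) (nat_lit 1) (nat_lit 131) (nat_lit 1) (nat_lit 132) (nat_lit 1) (nat_lit 374) (nat_lit 362) (nat_lit 284)) (XT.lf (nat_lit 76) (nat_lit 997881868) (nat_lit 0) (nat_lit 204772018) (nat_lit 76) (nat_lit 1106308457) (nat_lit 131) (nat_lit 3) (nat_lit 130) (nat_lit 1) (nat_lit 131) (nat_lit 1) (nat_lit 375) (nat_lit 362) (nat_lit 283))) (XT.nd (nat_lit 78) (nat_lit 76) (nat_lit 0) (XT.lf (nat_lit 0) (nat_lit 112805204) (nat_lit 0) (nat_lit 208419480) (nat_lit 152) (nat_lit 1929416044) (nat_lit 128) (nat_lit 3) (nat_lit 128) (nat_lit 1) (nat_lit 130) (nat_lit 1) (nat_lit 376) (nat_lit 362) (nat_lit 282)) (XT.lf (nat_lit 76) (nat_lit 842930295) (nat_lit 0) (nat_lit 418802044) (nat_lit 76) (nat_lit 931462032) (nat_lit 128) (nat_lit 3) (nat_lit 127) (nat_lit 1) (nat_lit 128) (nat_lit 1) (nat_lit 377) (nat_lit 362) (nat_lit 281))))))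 (XT.nd (nat_lit 468) (nat_lit 836) (nat_lit 0) (XT.nd (nat_lit 234) (nat_lit 304) (nat_lit 0) (XT.nd (nat_lit 78) (nat_lit 228) (nat_lit 0) (XT.lf (nat_lit 0) (nat_lit 221967111) (nat_lit 0) (nat_lit 300037426) (nat_lit 152) (nat_lit 1615736144) (nat_lit 125) (nat_lit 3) (nat_lit 125) (nat_lit 1) (nat_lit 127) (nat_lit 1) (nat_lit 378) (nat_lit 362) (nat_lit 280)) (XT.nd (nat_lit 78) (nat_lit 152) (nat_lit 0) (XT.lf (nat_lit 76) (nat_lit 699989181) (nat_lit 0) (nat_lit 611022750) (nat_lit 76) (nat_lit 772276510) (nat_lit 125) (nat_lit 3) (nat_lit 124) (nat_lit 1) (nat_lit 125) (nat_lit 1) (nat_lit 379) (nat_lit 362) (nat_lit 279)) (XT.lf (nat_lit 0) (nat_lit 319108045) (nat_lit 0) (nat_lit 382853484) (nat_lit 152) (nat_lit 1328596438) (nat_lit 122) (nat_lit 3) (nat_lit 122) (nat_lit 1) (nat_lit 124) (nat_lit 1) (nat_lit 380) (nat_lit 362) (nat_lit 278)))) (XT.nd (nat_lit 78) (nat_lit 228) (nat_lit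 0) (XT.lf (nat_lit 76) (nat_lit 568462908) (nat_lit 0) (nat_lit 782991287) (nat_lit 76) (nat_lit 627486464) (nat_lit 122) (nat_lit 3) (nat_lit 121) (nat_lit 1) (nat_lit 122) (nat_lit 1) (nat_lit 381) (nat_lit 362) (nat_lit 277)) (XT.nd (nat_lit 78) (nat_lit 76) (nat_lit 0) (XT.lf (nat_lit 0) (nat_lit 405274795) (nat_lit 0) (nat_lit 457323786) (nat_lit 152) (nat_lit 1066198030) (nat_lit 119) (nat_lit 3) (nat_lit 119) (nat_lit 1) (nat_lit 121) (nat_lit 1) (nat_lit 382) (nat_lit 362) (nat_lit 276)) (XT.lf (nat_lit 76) (nat_lit 447743307) (nat_lit 0) (nat_lit 936183868) (nat_lit 76) (nat_lit 495936817) (nat_lit 119) (nat_lit 3) (nat_lit 118) (nat_lit 1) (nat_lit 119) (nat_lit 1) (nat_lit 383) (nat_lit 362) (nat_lit 275))))) (XT.nd (nat_lit 234) (nat_lit 456) (nat_lit 0) (XT.nd (nat_lit 78) (nat_lit 228) (nat_lit 0) (XT.lf (nat_lit 0) (nat_lit 481419864) (nat_lit 0) (nat_lit 523918550) (nat_lit 152)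 (nat_lit 826838546) (nat_lit 116) (nat_lit 3) (nat_lit 116) (nat_lit 1) (nat_lit 118) (nat_lit 1) (nat_lit 384) (nat_lit 362) (nat_lit 274)) (XT.nd (nat_lit 78) (nat_lit 152) (nat_lit 0) (XT.lf (nat_lit 76) (nat_lit 337220242) (nat_lit 0) (nat_lit 1071996022) (nat_lit 76) (nat_lit 376570877) (nat_lit 116) (nat_lit 3) (nat_lit 115) (nat_lit 1) (nat_lit 116) (nat_lit 1) (nat_lit 385) (nat_lit 362) (nat_lit 273)) (XT.lf (nat_lit 0) (nat_lit 548411772) (nat_lit 0) (nat_lit 583112509) (nat_lit 152) (nat_lit 608910324) (nat_lit 113) (nat_lit 3) (nat_lit 113) (nat_lit 1) (nat_lit 115) (nat_lit 1) (nat_lit 386) (nat_lit 362) (nat_lit 272)))) (XT.nd (nat_lit 156) (nat_lit 228) (nat_lit 0) (XT.nd (nat_lit 78) (nat_lit 152) (nat_lit 0) (XT.lf (nat_lit 76) (nat_lit 236289719) (nat_lit 0) (nat_lit 1191743769) (nat_lit 76) (nat_lit 268420030) (nat_lit 113) (nat_lit 3) (nat_lit 112) (nat_lit 1) (nat_lit 113)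 (nat_lit 1) (nat_lit 387) (nat_lit 362) (nat_lit 271)) (XT.lf (nat_lit 0) (nat_lit 607043942) (nat_lit 0) (nat_lit 635377550) (nat_lit 152) (nat_lit 410897924) (nat_lit 110) (nat_lit 3) (nat_lit 110) (nat_lit 1) (nat_lit 112) (nat_lit 1) (nat_lit 388) (nat_lit 362) (nat_lit 270))) (XT.nd (nat_lit 78) (nat_lit 152) (nat_lit 0) (XT.lf (nat_lit 76) (nat_lit 144360019) (nat_lit 0) (nat_lit 1296665478) (nat_lit 76) (nat_lit 170594841) (nat_lit 110) (nat_lit 3) (nat_lit 109) (nat_lit 1) (nat_lit 110) (nat_lit 1) (nat_lit 389) (nat_lit 362) (nat_lit 269)) (XT.lf (nat_lit 0) (nat_lit 658042377) (nat_lit 0) (nat_lit 681177141) (nat_lit 152) (nat_lit 231375137) (nat_lit 107) (nat_lit 3) (nat_lit 107) (nat_lit 1) (nat_lit 109) (nat_lit 1) (nat_lit 390) (nat_lit 362) (nat_lit 268))))))) (XT.nd (nat_lit 1014) (nat_lit 1672) (nat_lit 0) (XT.nd (nat_lit 468) (nat_lit 836) (nat_lit 0) (XT.nd (nat_lit 234) (nat_lit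 304) (nat_lit 0) (XT.nd (nat_lit 78) (nat_lit 380) (nat_lit 0) (XT.lf (nat_lit 76) (nat_lit 60856227) (nat_lit 0) (nat_lit 1387924219) (nat_lit 76) (nat_lit 82277305) (nat_lit 107) (nat_lit 3) (nat_lit 106) (nat_lit 1) (nat_lit 107) (nat_lit 1) (nat_lit 391) (nat_lit 362) (nat_lit 267)) (XT.nd (nat_lit 78) (nat_lit 228) (nat_lit 0) (XT.lf (nat_lit 0) (nat_lit 702072343) (nat_lit 0) (nat_lit 720962182) (nat_lit 152) (nat_lit 69001643) (nat_lit 104) (nat_lit 3) (nat_lit 104) (nat_lit 1) (nat_lit 106) (nat_lit 1) (nat_lit 392) (nat_lit 362) (nat_lit 266)) (XT.lf (nat_lit 152) (nat_lit 1440032618) (nat_lit 0) (nat_lit 12222910) (nat_lit 76) (nat_lit 2271481) (nat_lit 103) (nat_lit 1) (nat_lit 101) (nat_lit 1) (nat_lit 102) (nat_lit 1) (nat_lit 393) (nat_lit 362) (nat_lit 265)))) (XT.nd (nat_lit 78) (nat_lit 228) (nat_lit 0) (XT.lf (nat_lit 76) (nat_lit 660951465) (nat_lit 0) (nat_lit 80042416) (nat_lit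 76) (nat_lit 676375267) (nat_lit 101) (nat_lit 3) (nat_lit 100) (nat_lit 1) (nat_lit 101) (nat_lit 1) (nat_lit 394) (nat_lit 362) (nat_lit 264)) (XT.nd (nat_lit 78) (nat_lit 76) (nat_lit 0) (XT.lf (nat_lit 0) (nat_lit 70374158) (nat_lit 0) (nat_lit 83975394) (nat_lit 152) (nat_lit 1227292542) (nat_lit 98) (nat_lit 3) (nat_lit 98) (nat_lit 1) (nat_lit 100) (nat_lit 1) (nat_lit 395) (nat_lit 362) (nat_lit 263)) (XT.lf (nat_lit 76) (nat_lit 558823878) (nat_lit 0) (nat_lit 216169633) (nat_lit 76) (nat_lit 571417616) (nat_lit 98) (nat_lit 3) (nat_lit 97) (nat_lit 1) (nat_lit 98) (nat_lit 1) (nat_lit 396) (nat_lit 362) (nat_lit 262))))) (XT.nd (nat_lit 234) (nat_lit 456) (nat_lit 0) (XT.nd (nat_lit 78) (nat_lit 228) (nat_lit 0) (XT.lf (nat_lit 0) (nat_lit 135425641) (nat_lit 0) (nat_lit 146531230) (nat_lit 152) (nat_lit 1030472610) (nat_lit 95) (nat_lit 3) (nat_lit 95) (nat_lit 1) (nat_lit 97) (nat_lit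 1) (nat_lit 397) (nat_lit 362) (nat_lit 261)) (XT.nd (nat_lit 78) (nat_lit 152) (nat_lit 0) (XT.lf (nat_lit 76) (nat_lit 465251843) (nat_lit 0) (nat_lit 338239556) (nat_lit 76) (nat_lit 475534795) (nat_lit 95) (nat_lit 3) (nat_lit 94) (nat_lit 1) (nat_lit 95) (nat_lit 1) (nat_lit 398) (nat_lit 362) (nat_lit 260)) (XT.lf (nat_lit 0) (nat_lit 193554089) (nat_lit 0) (nat_lit 202621948) (nat_lit 152) (nat_lit 850527939) (nat_lit 92) (nat_lit 3) (nat_lit 92) (nat_lit 1) (nat_lit 94) (nat_lit 1) (nat_lit 399) (nat_lit 362) (nat_lit 259)))) (XT.nd (nat_lit 156) (nat_lit 228) (nat_lit 0) (XT.nd (nat_lit 78) (nat_lit 152) (nat_lit 0) (XT.lf (nat_lit 76) (nat_lit 379658397) (nat_lit 0) (nat_lit 447319810) (nat_lit 76) (nat_lit 388054563) (nat_lit 92) (nat_lit 3) (nat_lit 91) (nat_lit 1) (nat_lit 92) (nat_lit 1) (nat_lit 400) (nat_lit 362) (nat_lit 258)) (XT.lf (nat_lit 0) (nat_lit 245313044) (nat_lit 0)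 (nat_lit 252717071) (nat_lit 152) (nat_lit 686258214) (nat_lit 89) (nat_lit 3) (nat_lit 89) (nat_lit 1) (nat_lit 91) (nat_lit 1) (nat_lit 401) (nat_lit 362) (nat_lit 257))) (XT.nd (nat_lit 78) (nat_lit 152) (nat_lit 0) (XT.lf (nat_lit 76) (nat_lit 301497337) (nat_lit 0) (nat_lit 544408437) (nat_lit 76) (nat_lit 308352917) (nat_lit 89) (nat_lit 3) (nat_lit 88) (nat_lit 1) (nat_lit 89) (nat_lit 1) (nat_lit 402) (nat_lit 362) (nat_lit 256)) (XT.lf (nat_lit 0) (nat_lit 291214803) (nat_lit 0) (nat_lit 297260288) (nat_lit 152) (nat_lit 536539389) (nat_lit 86) (nat_lit 3) (nat_lit 86) (nat_lit 1) (nat_lit 88) (nat_lit 1) (nat_lit 403) (nat_lit 362) (nat_lit 255)))))) (XT.nd (nat_lit 546) (nat_lit 912) (nat_lit 0) (XT.nd (nat_lit 234) (nat_lit 456) (nat_lit 0) (XT.nd (nat_lit 78) (nat_lit 228) (nat_lit 0) (XT.lf (nat_lit 76) (nat_lit 230252676) (nat_lit 0) (nat_lit 630437678) (nat_lit 76) (nat_lit 235850348)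 (nat_lit 86) (nat_lit 3) (nat_lit 85) (nat_lit 1) (nat_lit 86) (nat_lit 1) (nat_lit 404) (nat_lit 362) (nat_lit 254)) (XT.nd (nat_lit 78) (nat_lit 76) (nat_lit 0) (XT.lf (nat_lit 0) (nat_lit 331733671) (nat_lit 0) (nat_lit 336669889) (nat_lit 152) (nat_lit 400319489) (nat_lit 83) (nat_lit 3) (nat_lit 83) (nat_lit 1) (nat_lit 85) (nat_lit 1) (nat_lit 405) (nat_lit 362) (nat_lit 253)) (XT.lf (nat_lit 76) (nat_lit 165437872) (nat_lit 0) (nat_lit 706277641) (nat_lit 76) (nat_lit 170008445) (nat_lit 83) (nat_lit 3) (nat_lit 82) (nat_lit 1) (nat_lit 83) (nat_lit 1) (nat_lit 406) (nat_lit 362) (nat_lit 252)))) (XT.nd (nat_lit 156) (nat_lit 228) (nat_lit 0) (XT.nd (nat_lit 78) (nat_lit 76) (nat_lit 0) (XT.lf (nat_lit 0) (nat_lit 367308916) (nat_lit 0) (nat_lit 371339403) (nat_lit 152) (nat_lit 276614553) (nat_lit 80) (nat_lit 3) (nat_lit 80) (nat_lit 1) (nat_lit 82) (nat_lit 1) (nat_lit 407) (nat_lit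 362) (nat_lit 251)) (XT.lf (nat_lit 76) (nat_lit 106594895) (nat_lit 0) (nat_lit 772739857) (nat_lit 76) (nat_lit 110326827) (nat_lit 80) (nat_lit 3) (nat_lit 79) (nat_lit 1) (nat_lit 80) (nat_lit 1) (nat_lit 408) (nat_lit 362) (nat_lit 250))) (XT.nd (nat_lit 78) (nat_lit 76) (nat_lit 0) (XT.lf (nat_lit 0) (nat_lit 398347435) (nat_lit 0) (nat_lit 401638380) (nat_lit 152) (nat_lit 164504734) (nat_lit 77) (nat_lit 3) (nat_lit 77) (nat_lit 1) (nat_lit 79) (nat_lit 1) (nat_lit 409) (nat_lit 362) (nat_lit 249)) (XT.lf (nat_lit 76) (nat_lit 53293174) (nat_lit 0) (nat_lit 830580706) (nat_lit 76) (nat_lit 56340346) (nat_lit 77) (nat_lit 3) (nat_lit 76) (nat_lit 1) (nat_lit 77) (nat_lit 1) (nat_lit 410) (nat_lit 362) (nat_lit 248))))) (XT.nd (nat_lit 234) (nat_lit 456) (nat_lit 0) (XT.nd (nat_lit 78) (nat_lit 304) (nat_lit 0) (XT.lf (nat_lit 0) (nat_lit 425226187) (nat_lit 0) (nat_lit 427913288) (nat_lit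 152) (nat_lit 63130568) (nat_lit 74) (nat_lit 3) (nat_lit 74) (nat_lit 1) (nat_lit 76) (nat_lit 1) (nat_lit 411) (nat_lit 362) (nat_lit 247)) (XT.nd (nat_lit 78) (nat_lit 228) (nat_lit 0) (XT.lf (nat_lit 76) (nat_lit 5128474) (nat_lit 0) (nat_lit 880504690) (nat_lit 76) (nat_lit 7616530) (nat_lit 74) (nat_lit 3) (nat_lit 73) (nat_lit 1) (nat_lit 74) (nat_lit 1) (nat_lit 412) (nat_lit 362) (nat_lit 246)) (XT.lf (nat_lit 76) (nat_lit 419504361) (nat_lit 0) (nat_lit 29246675) (nat_lit 76) (nat_lit 421698414) (nat_lit 71) (nat_lit 3) (nat_lit 70) (nat_lit 1) (nat_lit 71) (nat_lit 1) (nat_lit 413) (nat_lit 362) (nat_lit 245)))) (XT.nd (nat_lit 156) (nat_lit 228) (nat_lit 0) (XT.nd (nat_lit 78) (nat_lit 76) (nat_lit 0) (XT.lf (nat_lit 0) (nat_lit 36905981) (nat_lit 0) (nat_lit 38840772) (nat_lit 152) (nat_lit 772776522) (nat_lit 68) (nat_lit 3) (nat_lit 68) (nat_lit 1) (nat_lit 70) (nat_lit 1) (nat_lit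 414) (nat_lit 362) (nat_lit 244)) (XT.lf (nat_lit 76) (nat_lit 355435128) (nat_lit 0) (nat_lit 114223894) (nat_lit 76) (nat_lit 357226601) (nat_lit 68) (nat_lit 3) (nat_lit 67) (nat_lit 1) (nat_lit 68) (nat_lit 1) (nat_lit 415) (nat_lit 362) (nat_lit 243))) (XT.nd (nat_lit 78) (nat_lit 76) (nat_lit 0) (XT.lf (nat_lit 0) (nat_lit 76916253) (nat_lit 0) (nat_lit 78496035) (nat_lit 152) (nat_lit 650616732) (nat_lit 65) (nat_lit 3) (nat_lit 65) (nat_lit 1) (nat_lit 67) (nat_lit 1) (nat_lit 416) (nat_lit 362) (nat_lit 242)) (XT.lf (nat_lit 76) (nat_lit 296807019) (nat_lit 0) (nat_lit 190435889) (nat_lit 76) (nat_lit 298269780) (nat_lit 65) (nat_lit 3) (nat_lit 64) (nat_lit 1) (nat_lit 65) (nat_lit 1) (nat_lit 417) (nat_lit 362) (nat_lit 241))))))))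
noncomputable def ec69 : XT := (XT.nd (nat_lit 45396) (nat_lit 0) (nat_lit 8588) (XT.nd (nat_lit 44304) (nat_lit 0) (nat_lit 12388) (XT.nd (nat_lit 43758) (nat_lit 0) (nat_lit 15884) (XT.nd (nat_lit 43524) (nat_lit 0) (nat_lit 17632) (XT.nd (nat_lit 78) (nat_lit 76) (nat_lit 0) (XT.lf (nat_lit 0) (nat_lit 112721981) (nat_lit 0) (nat_lit 114011894) (nat_lit 152) (nat_lit 538939389) (nat_lit 62) (nat_lit 3) (nat_lit 62) (nat_lit 1) (nat_lit 64) (nat_lit 1) (nat_lit 418) (nat_lit 362) (nat_lit 240)) (XT.nd (nat_lit 43368) (nat_lit 0) (nat_lit 17556) (XT.lf (nat_lit 76) (nat_lit 243234643) (nat_lit 0) (nat_lit 258556174) (nat_lit 76) (nat_lit 244429006) (nat_lit 62) (nat_lit 3) (nat_lit 61) (nat_lit 1) (nat_lit 62) (nat_lit 1) (nat_lit 419) (nat_lit 362) (nat_lit 239)) (XT.lf (nat_lit 836) (nat_lit 3154975965) (nat_lit 0) (nat_lit 5601652574) (nat_lit 836) (nat_lit 3154975965) (nat_lit 303) (nat_lit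 1) (nat_lit 292) (nat_lit 0) (nat_lit 303) (nat_lit 0) (nat_lit 294) (nat_lit 363) (nat_lit 363)))) (XT.nd (nat_lit 78) (nat_lit 0) (nat_lit 0) (XT.lf (nat_lit 836) (nat_lit 1176902842) (nat_lit 0) (nat_lit 10997741732) (nat_lit 760) (nat_lit 10755754671) (nat_lit 304) (nat_lit 1) (nat_lit 293) (nat_lit 1) (nat_lit 303) (nat_lit 1) (nat_lit 295) (nat_lit 363) (nat_lit 362)) (XT.nd (nat_lit 78) (nat_lit 0) (nat_lit 76) (XT.lf (nat_lit 836) (nat_lit 10809173293) (nat_lit 76) (nat_lit 7365191345) (nat_lit 0) (nat_lit 3906161518) (nat_lit 304) (nat_lit 1) (nat_lit 294) (nat_lit 1) (nat_lit 293) (nat_lit 1) (nat_lit 296) (nat_lit 363) (nat_lit 361)) (XT.lf (nat_lit 836) (nat_lit 9340011226) (nat_lit 76) (nat_lit 3086700642) (nat_lit 0) (nat_lit 8846471004) (nat_lit 305) (nat_lit 1) (nat_lit 295) (nat_lit 1) (nat_lit 294) (nat_lit 1) (nat_lit 297) (nat_lit 363) (nat_lit 360))))) (XT.nd (nat_lit 234)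 (nat_lit 1900) (nat_lit 0) (XT.nd (nat_lit 78) (nat_lit 0) (nat_lit 76) (XT.lf (nat_lit 836) (nat_lit 6912402367) (nat_lit 0) (nat_lit 12932778094) (nat_lit 760) (nat_lit 661121768) (nat_lit 306) (nat_lit 1) (nat_lit 295) (nat_lit 1) (nat_lit 305) (nat_lit 1) (nat_lit 298) (nat_lit 363) (nat_lit 359)) (XT.nd (nat_lit 78) (nat_lit 0) (nat_lit 0) (XT.lf (nat_lit 836) (nat_lit 1658563173) (nat_lit 0) (nat_lit 14261980714) (nat_lit 760) (nat_lit 3855501618) (nat_lit 307) (nat_lit 1) (nat_lit 296) (nat_lit 1) (nat_lit 306) (nat_lit 1) (nat_lit 299) (nat_lit 363) (nat_lit 358)) (XT.lf (nat_lit 836) (nat_lit 3187083825) (nat_lit 76) (nat_lit 12394822643) (nat_lit 0) (nat_lit 3497971873) (nat_lit 307) (nat_lit 1) (nat_lit 297) (nat_lit 1) (nat_lit 296) (nat_lit 1) (nat_lit 300) (nat_lit 363) (nat_lit 357)))) (XT.nd (nat_lit 156) (nat_lit 760) (nat_lit 0) (XT.nd (nat_lit 78) (nat_lit 532) (nat_lit 0)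 (XT.lf (nat_lit 836) (nat_lit 654554342) (nat_lit 0) (nat_lit 9265949812) (nat_lit 760) (nat_lit 8496778890) (nat_lit 298) (nat_lit 1) (nat_lit 287) (nat_lit 1) (nat_lit 297) (nat_lit 1) (nat_lit 301) (nat_lit 363) (nat_lit 356)) (XT.lf (nat_lit 76) (nat_lit 4532270616) (nat_lit 0) (nat_lit 1964043772) (nat_lit 532) (nat_lit 11289746606) (nat_lit 281) (nat_lit 1) (nat_lit 280) (nat_lit 1) (nat_lit 287) (nat_lit 1) (nat_lit 302) (nat_lit 363) (nat_lit 355))) (XT.nd (nat_lit 78) (nat_lit 380) (nat_lit 0) (XT.lf (nat_lit 456) (nat_lit 12490367356) (nat_lit 0) (nat_lit 4065883845) (nat_lit 380) (nat_lit 628610765) (nat_lit 281) (nat_lit 1) (nat_lit 275) (nat_lit 1) (nat_lit 280) (nat_lit 1) (nat_lit 303) (nat_lit 363) (nat_lit 354)) (XT.lf (nat_lit 456) (nat_lit 9013168026) (nat_lit 0) (nat_lit 1895125974) (nat_lit 380) (nat_lit 5701219419) (nat_lit 276) (nat_lit 1) (nat_lit 270) (nat_lit 1) (nat_lit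 275) (nat_lit 1) (nat_lit 304) (nat_lit 363) (nat_lit 353)))))) (XT.nd (nat_lit 546) (nat_lit 1596) (nat_lit 0) (XT.nd (nat_lit 234) (nat_lit 1216) (nat_lit 0) (XT.nd (nat_lit 78) (nat_lit 380) (nat_lit 0) (XT.lf (nat_lit 380) (nat_lit 5484397790) (nat_lit 0) (nat_lit 34892348) (nat_lit 304) (nat_lit 10542772134) (nat_lit 271) (nat_lit 1) (nat_lit 266) (nat_lit 1) (nat_lit 270) (nat_lit 1) (nat_lit 305) (nat_lit 363) (nat_lit 352)) (XT.nd (nat_lit 78) (nat_lit 380) (nat_lit 0) (XT.lf (nat_lit 76) (nat_lit 404612949) (nat_lit 0) (nat_lit 13645509253) (nat_lit 380) (nat_lit 1489672655) (nat_lit 267) (nat_lit 1) (nat_lit 266) (nat_lit 1) (nat_lit 271) (nat_lit 1) (nat_lit 306) (nat_lit 363) (nat_lit 351)) (XT.lf (nat_lit 76) (nat_lit 10447211308) (nat_lit 0) (nat_lit 1732781779) (nat_lit 380) (nat_lit 2857671852) (nat_lit 262) (nat_lit 1) (nat_lit 261) (nat_lit 1) (nat_lit 266) (nat_lit 1) (nat_lit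 307) (nat_lit 363) (nat_lit 350)))) (XT.nd (nat_lit 156) (nat_lit 608) (nat_lit 0) (XT.nd (nat_lit 78) (nat_lit 304) (nat_lit 0) (XT.lf (nat_lit 76) (nat_lit 5227004556) (nat_lit 0) (nat_lit 5307818189) (nat_lit 380) (nat_lit 4022898937) (nat_lit 258) (nat_lit 1) (nat_lit 257) (nat_lit 1) (nat_lit 262) (nat_lit 1) (nat_lit 308) (nat_lit 363) (nat_lit 349)) (XT.lf (nat_lit 76) (nat_lit 257993354) (nat_lit 0) (nat_lit 8874589593) (nat_lit 380) (nat_lit 4967919204) (nat_lit 254) (nat_lit 1) (nat_lit 253) (nat_lit 1) (nat_lit 258) (nat_lit 1) (nat_lit 309) (nat_lit 363) (nat_lit 348))) (XT.nd (nat_lit 78) (nat_lit 380) (nat_lit 0) (XT.lf (nat_lit 304) (nat_lit 1165083447) (nat_lit 0) (nat_lit 7878901664) (nat_lit 228) (nat_lit 4617217452) (nat_lit 254) (nat_lit 1) (nat_lit 250) (nat_lit 1) (nat_lit 253) (nat_lit 1) (nat_lit 310) (nat_lit 363) (nat_lit 347)) (XT.lf (nat_lit 76) (nat_lit 4025676554)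 (nat_lit 0) (nat_lit 2759223724) (nat_lit 380) (nat_lit 6455150959) (nat_lit 246) (nat_lit 1) (nat_lit 245) (nat_lit 1) (nat_lit 250) (nat_lit 1) (nat_lit 311) (nat_lit 363) (nat_lit 346))))) (XT.nd (nat_lit 234) (nat_lit 836) (nat_lit 0) (XT.nd (nat_lit 78) (nat_lit 532) (nat_lit 0) (XT.lf (nat_lit 304) (nat_lit 6232715607) (nat_lit 0) (nat_lit 5854830753) (nat_lit 228) (nat_lit 749411387) (nat_lit 246) (nat_lit 1) (nat_lit 242) (nat_lit 1) (nat_lit 245) (nat_lit 1) (nat_lit 312) (nat_lit 363) (nat_lit 345)) (XT.nd (nat_lit 78) (nat_lit 304) (nat_lit 0) (XT.lf (nat_lit 304) (nat_lit 1997555241) (nat_lit 0) (nat_lit 5040769525) (nat_lit 228) (nat_lit 5411030486) (nat_lit 243) (nat_lit 1) (nat_lit 239) (nat_lit 1) (nat_lit 242) (nat_lit 1) (nat_lit 313) (nat_lit 363) (nat_lit 344)) (XT.lf (nat_lit 76) (nat_lit 2276730301) (nat_lit 0) (nat_lit 2084544443) (nat_lit 304) (nat_lit 7716575875) (nat_lit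 236) (nat_lit 1) (nat_lit 235) (nat_lit 1) (nat_lit 239) (nat_lit 1) (nat_lit 314) (nat_lit 363) (nat_lit 343)))) (XT.nd (nat_lit 156) (nat_lit 456) (nat_lit 0) (XT.nd (nat_lit 78) (nat_lit 152) (nat_lit 0) (XT.lf (nat_lit 304) (nat_lit 5665344535) (nat_lit 0) (nat_lit 3769510312) (nat_lit 228) (nat_lit 2285089544) (nat_lit 236) (nat_lit 1) (nat_lit 232) (nat_lit 1) (nat_lit 235) (nat_lit 1) (nat_lit 315) (nat_lit 363) (nat_lit 342)) (XT.lf (nat_lit 228) (nat_lit 1404447275) (nat_lit 0) (nat_lit 3288622798) (nat_lit 152) (nat_lit 6683407026) (nat_lit 233) (nat_lit 1) (nat_lit 230) (nat_lit 1) (nat_lit 232) (nat_lit 1) (nat_lit 316) (nat_lit 363) (nat_lit 341))) (XT.nd (nat_lit 78) (nat_lit 152) (nat_lit 0) (XT.lf (nat_lit 76) (nat_lit 237922341) (nat_lit 0) (nat_lit 2662402648) (nat_lit 304) (nat_lit 8145998517) (nat_lit 227) (nat_lit 1) (nat_lit 226) (nat_lit 1) (nat_lit 230) (nat_lit 1) (nat_lit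 317) (nat_lit 363) (nat_lit 340)) (XT.lf (nat_lit 228) (nat_lit 4081066084) (nat_lit 0) (nat_lit 2550316189) (nat_lit 152) (nat_lit 4095268235) (nat_lit 227) (nat_lit 1) (nat_lit 224) (nat_lit 1) (nat_lit 226) (nat_lit 1) (nat_lit 318) (nat_lit 363) (nat_lit 339))))))) (XT.nd (nat_lit 1014) (nat_lit 1672) (nat_lit 0) (XT.nd (nat_lit 468) (nat_lit 1064) (nat_lit 0) (XT.nd (nat_lit 234) (nat_lit 532) (nat_lit 0) (XT.nd (nat_lit 78) (nat_lit 304) (nat_lit 0) (XT.lf (nat_lit 76) (nat_lit 2214215908) (nat_lit 0) (nat_lit 102276021) (nat_lit 228) (nat_lit 8104435011) (nat_lit 222) (nat_lit 1) (nat_lit 221) (nat_lit 1) (nat_lit 224) (nat_lit 1) (nat_lit 319) (nat_lit 363) (nat_lit 338)) (XT.nd (nat_lit 78) (nat_lit 152) (nat_lit 0) (XT.lf (nat_lit 228) (nat_lit 6053238719) (nat_lit 0) (nat_lit 2097582941) (nat_lit 152) (nat_lit 1973274992) (nat_lit 222) (nat_lit 1) (nat_lit 219) (nat_lit 1) (nat_lit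 221) (nat_lit 1) (nat_lit 320) (nat_lit 363) (nat_lit 337)) (XT.lf (nat_lit 228) (nat_lit 1880378516) (nat_lit 0) (nat_lit 1949935298) (nat_lit 152) (nat_lit 6008301672) (nat_lit 220) (nat_lit 1) (nat_lit 217) (nat_lit 1) (nat_lit 219) (nat_lit 1) (nat_lit 321) (nat_lit 363) (nat_lit 336)))) (XT.nd (nat_lit 78) (nat_lit 304) (nat_lit 0) (XT.lf (nat_lit 228) (nat_lit 7464411651) (nat_lit 0) (nat_lit 1863004910) (nat_lit 152) (nat_lit 236343786) (nat_lit 217) (nat_lit 1) (nat_lit 214) (nat_lit 1) (nat_lit 216) (nat_lit 1) (nat_lit 322) (nat_lit 363) (nat_lit 335)) (XT.nd (nat_lit 78) (nat_lit 152) (nat_lit 0) (XT.lf (nat_lit 228) (nat_lit 3340724709) (nat_lit 0) (nat_lit 1778541583) (nat_lit 152) (nat_lit 4177276276) (nat_lit 215) (nat_lit 1) (nat_lit 212) (nat_lit 1) (nat_lit 214) (nat_lit 1) (nat_lit 323) (nat_lit 363) (nat_lit 334)) (XT.lf (nat_lit 76) (nat_lit 1144327194) (nat_lit 0) (nat_lit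 628973791) (nat_lit 152) (nat_lit 7267107305) (nat_lit 211) (nat_lit 1) (nat_lit 210) (nat_lit 1) (nat_lit 212) (nat_lit 1) (nat_lit 324) (nat_lit 363) (nat_lit 333))))) (XT.nd (nat_lit 234) (nat_lit 608) (nat_lit 0) (XT.nd (nat_lit 78) (nat_lit 304) (nat_lit 0) (XT.lf (nat_lit 228) (nat_lit 4383222945) (nat_lit 0) (nat_lit 1754523702) (nat_lit 152) (nat_lit 2652990670) (nat_lit 211) (nat_lit 1) (nat_lit 208) (nat_lit 1) (nat_lit 210) (nat_lit 1) (nat_lit 325) (nat_lit 363) (nat_lit 332)) (XT.nd (nat_lit 78) (nat_lit 228) (nat_lit 0) (XT.lf (nat_lit 152) (nat_lit 472010826) (nat_lit 0) (nat_lit 1797617071) (nat_lit 76) (nat_lit 6281295136) (nat_lit 209) (nat_lit 1) (nat_lit 207) (nat_lit 1) (nat_lit 208) (nat_lit 1) (nat_lit 326) (nat_lit 363) (nat_lit 331)) (XT.lf (nat_lit 228) (nat_lit 5095182607) (nat_lit 0) (nat_lit 1838482564) (nat_lit 152) (nat_lit 1384055999) (nat_lit 207) (nat_lit 1)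 (nat_lit 204) (nat_lit 1) (nat_lit 206) (nat_lit 1) (nat_lit 327) (nat_lit 363) (nat_lit 330)))) (XT.nd (nat_lit 156) (nat_lit 304) (nat_lit 0) (XT.nd (nat_lit 78) (nat_lit 228) (nat_lit 0) (XT.lf (nat_lit 152) (nat_lit 1281475997) (nat_lit 0) (nat_lit 1907225279) (nat_lit 76) (nat_lit 4903677401) (nat_lit 205) (nat_lit 1) (nat_lit 203) (nat_lit 1) (nat_lit 204) (nat_lit 1) (nat_lit 328) (nat_lit 363) (nat_lit 329)) (XT.lf (nat_lit 228) (nat_lit 5547194443) (nat_lit 0) (nat_lit 1999211319) (nat_lit 152) (nat_lit 328087691) (nat_lit 203) (nat_lit 1) (nat_lit 200) (nat_lit 1) (nat_lit 202) (nat_lit 1) (nat_lit 329) (nat_lit 363) (nat_lit 328))) (XT.nd (nat_lit 78) (nat_lit 228) (nat_lit 0) (XT.lf (nat_lit 152) (nat_lit 1844219768) (nat_lit 0) (nat_lit 2084201823) (nat_lit 76) (nat_lit 3734027559) (nat_lit 201) (nat_lit 1) (nat_lit 199) (nat_lit 1) (nat_lit 200) (nat_lit 1) (nat_lit 330) (nat_lit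 363) (nat_lit 327)) (XT.lf (nat_lit 76) (nat_lit 532315218) (nat_lit 0) (nat_lit 1670795575) (nat_lit 228) (nat_lit 5254911759) (nat_lit 197) (nat_lit 1) (nat_lit 196) (nat_lit 1) (nat_lit 199) (nat_lit 1) (nat_lit 331) (nat_lit 363) (nat_lit 326)))))) (XT.nd (nat_lit 546) (nat_lit 836) (nat_lit 0) (XT.nd (nat_lit 234) (nat_lit 456) (nat_lit 0) (XT.nd (nat_lit 78) (nat_lit 304) (nat_lit 0) (XT.lf (nat_lit 152) (nat_lit 2213230112) (nat_lit 0) (nat_lit 2306080873) (nat_lit 76) (nat_lit 2739361779) (nat_lit 197) (nat_lit 1) (nat_lit 195) (nat_lit 1) (nat_lit 196) (nat_lit 1) (nat_lit 332) (nat_lit 363) (nat_lit 325)) (XT.nd (nat_lit 78) (nat_lit 76) (nat_lit 0) (XT.lf (nat_lit 76) (nat_lit 1237966990) (nat_lit 0) (nat_lit 1199054741) (nat_lit 228) (nat_lit 4629306885) (nat_lit 193) (nat_lit 1) (nat_lit 192) (nat_lit 1) (nat_lit 195) (nat_lit 1) (nat_lit 333) (nat_lit 363) (nat_lit 324)) (XT.lf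 (nat_lit 152) (nat_lit 2431238245) (nat_lit 0) (nat_lit 2555325313) (nat_lit 76) (nat_lit 1892335230) (nat_lit 193) (nat_lit 1) (nat_lit 191) (nat_lit 1) (nat_lit 192) (nat_lit 1) (nat_lit 334) (nat_lit 363) (nat_lit 323)))) (XT.nd (nat_lit 156) (nat_lit 228) (nat_lit 0) (XT.nd (nat_lit 78) (nat_lit 76) (nat_lit 0) (XT.lf (nat_lit 76) (nat_lit 1822573677) (nat_lit 0) (nat_lit 868423746) (nat_lit 152) (nat_lit 4006661480) (nat_lit 190) (nat_lit 1) (nat_lit 189) (nat_lit 1) (nat_lit 191) (nat_lit 1) (nat_lit 335) (nat_lit 363) (nat_lit 322)) (XT.lf (nat_lit 152) (nat_lit 2532635167) (nat_lit 0) (nat_lit 2818366157) (nat_lit 76) (nat_lit 1170236195) (nat_lit 190) (nat_lit 1) (nat_lit 188) (nat_lit 1) (nat_lit 189) (nat_lit 1) (nat_lit 336) (nat_lit 363) (nat_lit 321))) (XT.nd (nat_lit 78) (nat_lit 76) (nat_lit 0) (XT.lf (nat_lit 76) (nat_lit 2305386241) (nat_lit 0) (nat_lit 647855438) (nat_lit 152)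 (nat_lit 3397000995) (nat_lit 187) (nat_lit 1) (nat_lit 186) (nat_lit 1) (nat_lit 188) (nat_lit 1) (nat_lit 337) (nat_lit 363) (nat_lit 320)) (XT.lf (nat_lit 152) (nat_lit 2545034409) (nat_lit 0) (nat_lit 3084821873) (nat_lit 76) (nat_lit 554162890) (nat_lit 187) (nat_lit 1) (nat_lit 185) (nat_lit 1) (nat_lit 186) (nat_lit 1) (nat_lit 338) (nat_lit 363) (nat_lit 319))))) (XT.nd (nat_lit 234) (nat_lit 456) (nat_lit 0) (XT.nd (nat_lit 78) (nat_lit 228) (nat_lit 0) (XT.lf (nat_lit 76) (nat_lit 2702404382) (nat_lit 0) (nat_lit 512385020) (nat_lit 152) (nat_lit 2807720842) (nat_lit 184) (nat_lit 1) (nat_lit 183) (nat_lit 1) (nat_lit 185) (nat_lit 1) (nat_lit 339) (nat_lit 363) (nat_lit 318)) (XT.nd (nat_lit 78) (nat_lit 152) (nat_lit 0) (XT.lf (nat_lit 152) (nat_lit 2490546007) (nat_lit 0) (nat_lit 3346864374) (nat_lit 76) (nat_lit 28349563) (nat_lit 184) (nat_lit 1) (nat_lit 182) (nat_lit 1) (nat_lit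 183) (nat_lit 1) (nat_lit 340) (nat_lit 363) (nat_lit 317)) (XT.lf (nat_lit 76) (nat_lit 3026952037) (nat_lit 0) (nat_lit 441987980) (nat_lit 152) (nat_lit 2244122346) (nat_lit 181) (nat_lit 1) (nat_lit 180) (nat_lit 1) (nat_lit 182) (nat_lit 1) (nat_lit 341) (nat_lit 363) (nat_lit 316)))) (XT.nd (nat_lit 156) (nat_lit 228) (nat_lit 0) (XT.nd (nat_lit 78) (nat_lit 152) (nat_lit 0) (XT.lf (nat_lit 0) (nat_lit 406930438) (nat_lit 0) (nat_lit 3184882560) (nat_lit 152) (nat_lit 1972992828) (nat_lit 179) (nat_lit 3) (nat_lit 179) (nat_lit 1) (nat_lit 181) (nat_lit 1) (nat_lit 342) (nat_lit 363) (nat_lit 315)) (XT.lf (nat_lit 76) (nat_lit 3290148718) (nat_lit 0) (nat_lit 420649234) (nat_lit 152) (nat_lit 1709846959) (nat_lit 178) (nat_lit 1) (nat_lit 177) (nat_lit 1) (nat_lit 179) (nat_lit 1) (nat_lit 343) (nat_lit 363) (nat_lit 314))) (XT.nd (nat_lit 78) (nat_lit 152) (nat_lit 0) (XT.lf (nat_lit 0)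 (nat_lit 777387682) (nat_lit 0) (nat_lit 3045622154) (nat_lit 152) (nat_lit 1457313492) (nat_lit 176) (nat_lit 3) (nat_lit 176) (nat_lit 1) (nat_lit 178) (nat_lit 1) (nat_lit 344) (nat_lit 363) (nat_lit 313)) (XT.lf (nat_lit 76) (nat_lit 3501295689) (nat_lit 0) (nat_lit 435604631) (nat_lit 152) (nat_lit 1207227607) (nat_lit 175) (nat_lit 1) (nat_lit 174) (nat_lit 1) (nat_lit 176) (nat_lit 1) (nat_lit 345) (nat_lit 363) (nat_lit 312))))))))
noncomputable def ec70 : XT := (XT.nd (nat_lit 2028) (nat_lit 3268) (nat_lit 0) (XT.nd (nat_lit 1014) (nat_lit 1520) (nat_lit 0) (XT.nd (nat_lit 468) (nat_lit 760) (nat_lit 0) (XT.nd (nat_lit 234) (nat_lit 456) (nat_lit 0) (XT.nd (nat_lit 78) (nat_lit 228) (nat_lit 0) (XT.lf (nat_lit 0) (nat_lit 1092920567) (nat_lit 0) (nat_lit 2944963868) (nat_lit 152) (nat_lit 973367358) (nat_lit 173) (nat_lit 3) (nat_lit 173) (nat_lit 1) (nat_lit 175) (nat_lit 1) (nat_lit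 346) (nat_lit 363) (nat_lit 311)) (XT.nd (nat_lit 78) (nat_lit 76) (nat_lit 0) (XT.lf (nat_lit 76) (nat_lit 3668192534) (nat_lit 0) (nat_lit 476723092) (nat_lit 152) (nat_lit 737572568) (nat_lit 172) (nat_lit 1) (nat_lit 171) (nat_lit 1) (nat_lit 173) (nat_lit 1) (nat_lit 347) (nat_lit 363) (nat_lit 310)) (XT.lf (nat_lit 0) (nat_lit 1361109443) (nat_lit 0) (nat_lit 2873327175) (nat_lit 152) (nat_lit 522172501) (nat_lit 170) (nat_lit 3) (nat_lit 170) (nat_lit 1) (nat_lit 172) (nat_lit 1) (nat_lit 348) (nat_lit 363) (nat_lit 309)))) (XT.nd (nat_lit 78) (nat_lit 304) (nat_lit 0) (XT.lf (nat_lit 76) (nat_lit 3797396810) (nat_lit 0) (nat_lit 536003487) (nat_lit 152) (nat_lit 301394454) (nat_lit 169) (nat_lit 1) (nat_lit 168) (nat_lit 1) (nat_lit 170) (nat_lit 1) (nat_lit 349) (nat_lit 363) (nat_lit 308)) (XT.nd (nat_lit 78) (nat_lit 228) (nat_lit 0) (XT.lf (nat_lit 0) (nat_lit 1588365480) (nat_lit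 0) (nat_lit 2823111162) (nat_lit 152) (nat_lit 104023742) (nat_lit 167) (nat_lit 3) (nat_lit 167) (nat_lit 1) (nat_lit 169) (nat_lit 1) (nat_lit 350) (nat_lit 363) (nat_lit 307)) (XT.lf (nat_lit 152) (nat_lit 3791314326) (nat_lit 0) (nat_lit 104758389) (nat_lit 76) (nat_lit 504042307) (nat_lit 166) (nat_lit 1) (nat_lit 164) (nat_lit 1) (nat_lit 165) (nat_lit 1) (nat_lit 351) (nat_lit 363) (nat_lit 306))))) (XT.nd (nat_lit 234) (nat_lit 456) (nat_lit 0) (XT.nd (nat_lit 78) (nat_lit 228) (nat_lit 0) (XT.lf (nat_lit 76) (nat_lit 1494026862) (nat_lit 0) (nat_lit 290639846) (nat_lit 76) (nat_lit 2502212964) (nat_lit 164) (nat_lit 3) (nat_lit 163) (nat_lit 1) (nat_lit 164) (nat_lit 1) (nat_lit 352) (nat_lit 363) (nat_lit 305)) (XT.nd (nat_lit 78) (nat_lit 76) (nat_lit 0) (XT.lf (nat_lit 152) (nat_lit 3484615810) (nat_lit 0) (nat_lit 486975497) (nat_lit 76) (nat_lit 205942135) (nat_lit 163) (nat_lit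 1) (nat_lit 161) (nat_lit 1) (nat_lit 162) (nat_lit 1) (nat_lit 353) (nat_lit 363) (nat_lit 304)) (XT.lf (nat_lit 76) (nat_lit 1295698247) (nat_lit 0) (nat_lit 655569568) (nat_lit 76) (nat_lit 2118895469) (nat_lit 161) (nat_lit 3) (nat_lit 160) (nat_lit 1) (nat_lit 161) (nat_lit 1) (nat_lit 354) (nat_lit 363) (nat_lit 303)))) (XT.nd (nat_lit 156) (nat_lit 228) (nat_lit 0) (XT.nd (nat_lit 78) (nat_lit 76) (nat_lit 0) (XT.lf (nat_lit 0) (nat_lit 54689269) (nat_lit 0) (nat_lit 780612745) (nat_lit 152) (nat_lit 3131227021) (nat_lit 158) (nat_lit 3) (nat_lit 158) (nat_lit 1) (nat_lit 160) (nat_lit 1) (nat_lit 355) (nat_lit 363) (nat_lit 302)) (XT.lf (nat_lit 76) (nat_lit 1102123154) (nat_lit 0) (nat_lit 988342540) (nat_lit 76) (nat_lit 1774274520) (nat_lit 158) (nat_lit 3) (nat_lit 157) (nat_lit 1) (nat_lit 158) (nat_lit 1) (nat_lit 356) (nat_lit 363) (nat_lit 301))) (XT.nd (nat_lit 78) (nat_lit 76)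 (nat_lit 0) (XT.lf (nat_lit 0) (nat_lit 278137632) (nat_lit 0) (nat_lit 870863705) (nat_lit 152) (nat_lit 2617342732) (nat_lit 155) (nat_lit 3) (nat_lit 155) (nat_lit 1) (nat_lit 157) (nat_lit 1) (nat_lit 357) (nat_lit 363) (nat_lit 300)) (XT.lf (nat_lit 76) (nat_lit 915471356) (nat_lit 0) (nat_lit 1290204032) (nat_lit 76) (nat_lit 1464291794) (nat_lit 155) (nat_lit 3) (nat_lit 154) (nat_lit 1) (nat_lit 155) (nat_lit 1) (nat_lit 358) (nat_lit 363) (nat_lit 299)))))) (XT.nd (nat_lit 468) (nat_lit 836) (nat_lit 0) (XT.nd (nat_lit 234) (nat_lit 304) (nat_lit 0) (XT.nd (nat_lit 78) (nat_lit 228) (nat_lit 0) (XT.lf (nat_lit 0) (nat_lit 474399602) (nat_lit 0) (nat_lit 958368242) (nat_lit 152) (nat_lit 2143751177) (nat_lit 152) (nat_lit 3) (nat_lit 152) (nat_lit 1) (nat_lit 154) (nat_lit 1) (nat_lit 359) (nat_lit 363) (nat_lit 298)) (XT.nd (nat_lit 78) (nat_lit 152) (nat_lit 0) (XT.lf (nat_lit 76) (nat_lit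 737285528) (nat_lit 0) (nat_lit 1562556720) (nat_lit 76) (nat_lit 1185404640) (nat_lit 152) (nat_lit 3) (nat_lit 151) (nat_lit 1) (nat_lit 152) (nat_lit 1) (nat_lit 360) (nat_lit 363) (nat_lit 297)) (XT.lf (nat_lit 0) (nat_lit 646439884) (nat_lit 0) (nat_lit 1041606649) (nat_lit 152) (nat_lit 1708430521) (nat_lit 149) (nat_lit 3) (nat_lit 149) (nat_lit 1) (nat_lit 151) (nat_lit 1) (nat_lit 361) (nat_lit 363) (nat_lit 296)))) (XT.nd (nat_lit 78) (nat_lit 228) (nat_lit 0) (XT.lf (nat_lit 76) (nat_lit 568611822) (nat_lit 0) (nat_lit 1806904439) (nat_lit 76) (nat_lit 934506975) (nat_lit 149) (nat_lit 3) (nat_lit 148) (nat_lit 1) (nat_lit 149) (nat_lit 1) (nat_lit 362) (nat_lit 363) (nat_lit 295)) (XT.nd (nat_lit 78) (nat_lit 76) (nat_lit 0) (XT.lf (nat_lit 0) (nat_lit 796850392) (nat_lit 0) (nat_lit 1119509257) (nat_lit 152) (nat_lit 1309320735) (nat_lit 146) (nat_lit 3) (nat_lit 146) (nat_lit 1)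 (nat_lit 148) (nat_lit 1) (nat_lit 363) (nat_lit 363) (nat_lit 294)) (XT.lf (nat_lit 76) (nat_lit 410105491) (nat_lit 0) (nat_lit 2024808036) (nat_lit 76) (nat_lit 708863699) (nat_lit 146) (nat_lit 3) (nat_lit 145) (nat_lit 1) (nat_lit 146) (nat_lit 1) (nat_lit 364) (nat_lit 363) (nat_lit 293))))) (XT.nd (nat_lit 234) (nat_lit 456) (nat_lit 0) (XT.nd (nat_lit 78) (nat_lit 228) (nat_lit 0) (XT.lf (nat_lit 0) (nat_lit 927906396) (nat_lit 0) (nat_lit 1191361606) (nat_lit 152) (nat_lit 944358491) (nat_lit 143) (nat_lit 3) (nat_lit 143) (nat_lit 1) (nat_lit 145) (nat_lit 1) (nat_lit 365) (nat_lit 363) (nat_lit 292)) (XT.nd (nat_lit 78) (nat_lit 152) (nat_lit 0) (XT.lf (nat_lit 76) (nat_lit 262116210) (nat_lit 0) (nat_lit 2217851023) (nat_lit 76) (nat_lit 506056219) (nat_lit 143) (nat_lit 3) (nat_lit 142) (nat_lit 1) (nat_lit 143) (nat_lit 1) (nat_lit 366) (nat_lit 363) (nat_lit 291)) (XT.lf (nat_lit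 0) (nat_lit 1041613179) (nat_lit 0) (nat_lit 1256727826) (nat_lit 152) (nat_lit 611503872) (nat_lit 140) (nat_lit 3) (nat_lit 140) (nat_lit 1) (nat_lit 142) (nat_lit 1) (nat_lit 367) (nat_lit 363) (nat_lit 290)))) (XT.nd (nat_lit 156) (nat_lit 228) (nat_lit 0) (XT.nd (nat_lit 78) (nat_lit 152) (nat_lit 0) (XT.lf (nat_lit 76) (nat_lit 124756856) (nat_lit 0) (nat_lit 2387613098) (nat_lit 76) (nat_lit 323937084) (nat_lit 140) (nat_lit 3) (nat_lit 139) (nat_lit 1) (nat_lit 140) (nat_lit 1) (nat_lit 368) (nat_lit 363) (nat_lit 289)) (XT.lf (nat_lit 0) (nat_lit 1139744894) (nat_lit 0) (nat_lit 1315388834) (nat_lit 152) (nat_lit 308760490) (nat_lit 137) (nat_lit 3) (nat_lit 137) (nat_lit 1) (nat_lit 139) (nat_lit 1) (nat_lit 369) (nat_lit 363) (nat_lit 288))) (XT.nd (nat_lit 78) (nat_lit 76) (nat_lit 0) (XT.lf (nat_lit 76) (nat_lit 2533640746) (nat_lit 0) (nat_lit 1975807) (nat_lit 152) (nat_lit 158582873)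 (nat_lit 136) (nat_lit 1) (nat_lit 135) (nat_lit 1) (nat_lit 137) (nat_lit 1) (nat_lit 370) (nat_lit 363) (nat_lit 287)) (XT.lf (nat_lit 0) (nat_lit 1223876991) (nat_lit 0) (nat_lit 1367292580) (nat_lit 152) (nat_lit 34190354) (nat_lit 134) (nat_lit 3) (nat_lit 134) (nat_lit 1) (nat_lit 136) (nat_lit 1) (nat_lit 371) (nat_lit 363) (nat_lit 286))))))) (XT.nd (nat_lit 1014) (nat_lit 1672) (nat_lit 0) (XT.nd (nat_lit 468) (nat_lit 836) (nat_lit 0) (XT.nd (nat_lit 234) (nat_lit 304) (nat_lit 0) (XT.nd (nat_lit 78) (nat_lit 228) (nat_lit 0) (XT.lf (nat_lit 152) (nat_lit 2442787458) (nat_lit 0) (nat_lit 105707957) (nat_lit 76) (nat_lit 10633588) (nat_lit 133) (nat_lit 1) (nat_lit 131) (nat_lit 1) (nat_lit 132) (nat_lit 1) (nat_lit 372) (nat_lit 363) (nat_lit 285)) (XT.nd (nat_lit 78) (nat_lit 152) (nat_lit 0) (XT.lf (nat_lit 76) (nat_lit 1077712418) (nat_lit 0) (nat_lit 221153780) (nat_lit 76) (nat_lit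 1194813134) (nat_lit 131) (nat_lit 3) (nat_lit 130) (nat_lit 1) (nat_lit 131) (nat_lit 1) (nat_lit 373) (nat_lit 363) (nat_lit 284)) (XT.lf (nat_lit 0) (nat_lit 121829621) (nat_lit 0) (nat_lit 225093039) (nat_lit 152) (nat_lit 2083769327) (nat_lit 128) (nat_lit 3) (nat_lit 128) (nat_lit 1) (nat_lit 130) (nat_lit 1) (nat_lit 374) (nat_lit 363) (nat_lit 283)))) (XT.nd (nat_lit 78) (nat_lit 228) (nat_lit 0) (XT.lf (nat_lit 76) (nat_lit 910364719) (nat_lit 0) (nat_lit 452306208) (nat_lit 76) (nat_lit 1005978995) (nat_lit 128) (nat_lit 3) (nat_lit 127) (nat_lit 1) (nat_lit 128) (nat_lit 1) (nat_lit 375) (nat_lit 363) (nat_lit 282)) (XT.nd (nat_lit 78) (nat_lit 76) (nat_lit 0) (XT.lf (nat_lit 0) (nat_lit 239724480) (nat_lit 0) (nat_lit 324040420) (nat_lit 152) (nat_lit 1744995035) (nat_lit 125) (nat_lit 3) (nat_lit 125) (nat_lit 1) (nat_lit 127) (nat_lit 1) (nat_lit 376) (nat_lit 363) (nat_lit 281))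 (XT.lf (nat_lit 76) (nat_lit 755988316) (nat_lit 0) (nat_lit 659904570) (nat_lit 76) (nat_lit 834058631) (nat_lit 125) (nat_lit 3) (nat_lit 124) (nat_lit 1) (nat_lit 125) (nat_lit 1) (nat_lit 377) (nat_lit 363) (nat_lit 280))))) (XT.nd (nat_lit 234) (nat_lit 456) (nat_lit 0) (XT.nd (nat_lit 78) (nat_lit 228) (nat_lit 0) (XT.lf (nat_lit 0) (nat_lit 344636688) (nat_lit 0) (nat_lit 413481763) (nat_lit 152) (nat_lit 1434884153) (nat_lit 122) (nat_lit 3) (nat_lit 122) (nat_lit 1) (nat_lit 124) (nat_lit 1) (nat_lit 378) (nat_lit 363) (nat_lit 279)) (XT.nd (nat_lit 78) (nat_lit 152) (nat_lit 0) (XT.lf (nat_lit 76) (nat_lit 613939941) (nat_lit 0) (nat_lit 845630590) (nat_lit 76) (nat_lit 677685381) (nat_lit 122) (nat_lit 3) (nat_lit 121) (nat_lit 1) (nat_lit 122) (nat_lit 1) (nat_lit 379) (nat_lit 363) (nat_lit 278)) (XT.lf (nat_lit 0) (nat_lit 437696779) (nat_lit 0) (nat_lit 493909689) (nat_lit 152)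 (nat_lit 1151493873) (nat_lit 119) (nat_lit 3) (nat_lit 119) (nat_lit 1) (nat_lit 121) (nat_lit 1) (nat_lit 380) (nat_lit 363) (nat_lit 277)))) (XT.nd (nat_lit 156) (nat_lit 228) (nat_lit 0) (XT.nd (nat_lit 78) (nat_lit 152) (nat_lit 0) (XT.lf (nat_lit 76) (nat_lit 483562772) (nat_lit 0) (nat_lit 1011078577) (nat_lit 76) (nat_lit 535611763) (nat_lit 119) (nat_lit 3) (nat_lit 118) (nat_lit 1) (nat_lit 119) (nat_lit 1) (nat_lit 381) (nat_lit 363) (nat_lit 276)) (XT.lf (nat_lit 0) (nat_lit 519933453) (nat_lit 0) (nat_lit 565832034) (nat_lit 152) (nat_lit 892985630) (nat_lit 116) (nat_lit 3) (nat_lit 116) (nat_lit 1) (nat_lit 118) (nat_lit 1) (nat_lit 382) (nat_lit 363) (nat_lit 275))) (XT.nd (nat_lit 78) (nat_lit 152) (nat_lit 0) (XT.lf (nat_lit 76) (nat_lit 364197861) (nat_lit 0) (nat_lit 1157755703) (nat_lit 76) (nat_lit 406696547) (nat_lit 116) (nat_lit 3) (nat_lit 115) (nat_lit 1) (nat_lit 116)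 (nat_lit 1) (nat_lit 383) (nat_lit 363) (nat_lit 274)) (XT.lf (nat_lit 0) (nat_lit 592284714) (nat_lit 0) (nat_lit 629761509) (nat_lit 152) (nat_lit 657623150) (nat_lit 113) (nat_lit 3) (nat_lit 113) (nat_lit 1) (nat_lit 115) (nat_lit 1) (nat_lit 384) (nat_lit 363) (nat_lit 273)))))) (XT.nd (nat_lit 546) (nat_lit 760) (nat_lit 0) (XT.nd (nat_lit 234) (nat_lit 608) (nat_lit 0) (XT.nd (nat_lit 78) (nat_lit 228) (nat_lit 0) (XT.lf (nat_lit 76) (nat_lit 255192897) (nat_lit 0) (nat_lit 1287083271) (nat_lit 76) (nat_lit 289893633) (nat_lit 113) (nat_lit 3) (nat_lit 112) (nat_lit 1) (nat_lit 113) (nat_lit 1) (nat_lit 385) (nat_lit 363) (nat_lit 272)) (XT.nd (nat_lit 78) (nat_lit 76) (nat_lit 0) (XT.lf (nat_lit 0) (nat_lit 655607457) (nat_lit 0) (nat_lit 686207754) (nat_lit 152) (nat_lit 443769758) (nat_lit 110) (nat_lit 3) (nat_lit 110) (nat_lit 1) (nat_lit 112) (nat_lit 1) (nat_lit 386) (nat_lit 363)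 (nat_lit 271)) (XT.lf (nat_lit 76) (nat_lit 155908821) (nat_lit 0) (nat_lit 1400398716) (nat_lit 76) (nat_lit 184242428) (nat_lit 110) (nat_lit 3) (nat_lit 109) (nat_lit 1) (nat_lit 110) (nat_lit 1) (nat_lit 387) (nat_lit 363) (nat_lit 270)))) (XT.nd (nat_lit 156) (nat_lit 380) (nat_lit 0) (XT.nd (nat_lit 78) (nat_lit 76) (nat_lit 0) (XT.lf (nat_lit 0) (nat_lit 710685767) (nat_lit 0) (nat_lit 735671312) (nat_lit 152) (nat_lit 249885148) (nat_lit 107) (nat_lit 3) (nat_lit 107) (nat_lit 1) (nat_lit 109) (nat_lit 1) (nat_lit 388) (nat_lit 363) (nat_lit 269)) (XT.lf (nat_lit 76) (nat_lit 65724726) (nat_lit 0) (nat_lit 1498958157) (nat_lit 76) (nat_lit 88859489) (nat_lit 107) (nat_lit 3) (nat_lit 106) (nat_lit 1) (nat_lit 107) (nat_lit 1) (nat_lit 389) (nat_lit 363) (nat_lit 268))) (XT.nd (nat_lit 78) (nat_lit 228) (nat_lit 0) (XT.lf (nat_lit 0) (nat_lit 758238130) (nat_lit 0) (nat_lit 778639157)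 (nat_lit 152) (nat_lit 74521774) (nat_lit 104) (nat_lit 3) (nat_lit 104) (nat_lit 1) (nat_lit 106) (nat_lit 1) (nat_lit 390) (nat_lit 363) (nat_lit 267)) (XT.lf (nat_lit 152) (nat_lit 1555235228) (nat_lit 0) (nat_lit 13200742) (nat_lit 76) (nat_lit 2453199) (nat_lit 103) (nat_lit 1) (nat_lit 101) (nat_lit 1) (nat_lit 102) (nat_lit 1) (nat_lit 391) (nat_lit 363) (nat_lit 266))))) (XT.nd (nat_lit 234) (nat_lit 456) (nat_lit 0) (XT.nd (nat_lit 78) (nat_lit 228) (nat_lit 0) (XT.lf (nat_lit 76) (nat_lit 713827582) (nat_lit 0) (nat_lit 86445809) (nat_lit 76) (nat_lit 730485289) (nat_lit 101) (nat_lit 3) (nat_lit 100) (nat_lit 1) (nat_lit 101) (nat_lit 1) (nat_lit 392) (nat_lit 363) (nat_lit 265)) (XT.nd (nat_lit 78) (nat_lit 76) (nat_lit 0) (XT.lf (nat_lit 0) (nat_lit 76004090) (nat_lit 0) (nat_lit 90693426) (nat_lit 152) (nat_lit 1325475946) (nat_lit 98) (nat_lit 3) (nat_lit 98) (nat_lit 1) (nat_lit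 100) (nat_lit 1) (nat_lit 393) (nat_lit 363) (nat_lit 264)) (XT.lf (nat_lit 76) (nat_lit 603529788) (nat_lit 0) (nat_lit 233463203) (nat_lit 76) (nat_lit 617131025) (nat_lit 98) (nat_lit 3) (nat_lit 97) (nat_lit 1) (nat_lit 98) (nat_lit 1) (nat_lit 394) (nat_lit 363) (nat_lit 263)))) (XT.nd (nat_lit 156) (nat_lit 228) (nat_lit 0) (XT.nd (nat_lit 78) (nat_lit 76) (nat_lit 0) (XT.lf (nat_lit 0) (nat_lit 146259693) (nat_lit 0) (nat_lit 158253729) (nat_lit 152) (nat_lit 1112910419) (nat_lit 95) (nat_lit 3) (nat_lit 95) (nat_lit 1) (nat_lit 97) (nat_lit 1) (nat_lit 395) (nat_lit 363) (nat_lit 262)) (XT.lf (nat_lit 76) (nat_lit 502471990) (nat_lit 0) (nat_lit 365298721) (nat_lit 76) (nat_lit 513577579) (nat_lit 95) (nat_lit 3) (nat_lit 94) (nat_lit 1) (nat_lit 95) (nat_lit 1) (nat_lit 396) (nat_lit 363) (nat_lit 261))) (XT.nd (nat_lit 78) (nat_lit 76) (nat_lit 0) (XT.lf (nat_lit 0) (nat_lit 209038416)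 (nat_lit 0) (nat_lit 218831704) (nat_lit 152) (nat_lit 918570174) (nat_lit 92) (nat_lit 3) (nat_lit 92) (nat_lit 1) (nat_lit 94) (nat_lit 1) (nat_lit 397) (nat_lit 363) (nat_lit 260)) (XT.lf (nat_lit 76) (nat_lit 410031069) (nat_lit 0) (nat_lit 483105395) (nat_lit 76) (nat_lit 419098928) (nat_lit 92) (nat_lit 3) (nat_lit 91) (nat_lit 1) (nat_lit 92) (nat_lit 1) (nat_lit 398) (nat_lit 363) (nat_lit 259))))))))
noncomputable def ec71 : XT := (XT.nd (nat_lit 45318) (nat_lit 0) (nat_lit 11020) (XT.nd (nat_lit 1014) (nat_lit 836) (nat_lit 0) (XT.nd (nat_lit 468) (nat_lit 912) (nat_lit 0) (XT.nd (nat_lit 234) (nat_lit 304) (nat_lit 0) (XT.nd (nat_lit 78) (nat_lit 228) (nat_lit 0) (XT.lf (nat_lit 0) (nat_lit 264938088) (nat_lit 0) (nat_lit 272934436) (nat_lit 152) (nat_lit 741158871) (nat_lit 89) (nat_lit 3) (nat_lit 89) (nat_lit 1) (nat_lit 91) (nat_lit 1) (nat_lit 399) (nat_lit 363) (nat_lit 258))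 (XT.nd (nat_lit 78) (nat_lit 152) (nat_lit 0) (XT.lf (nat_lit 76) (nat_lit 325617124) (nat_lit 0) (nat_lit 587961112) (nat_lit 76) (nat_lit 333021151) (nat_lit 89) (nat_lit 3) (nat_lit 88) (nat_lit 1) (nat_lit 89) (nat_lit 1) (nat_lit 400) (nat_lit 363) (nat_lit 257)) (XT.lf (nat_lit 0) (nat_lit 314511987) (nat_lit 0) (nat_lit 321041111) (nat_lit 152) (nat_lit 579462540) (nat_lit 86) (nat_lit 3) (nat_lit 86) (nat_lit 1) (nat_lit 88) (nat_lit 1) (nat_lit 401) (nat_lit 363) (nat_lit 256)))) (XT.nd (nat_lit 78) (nat_lit 228) (nat_lit 0) (XT.lf (nat_lit 76) (nat_lit 248672890) (nat_lit 0) (nat_lit 680872692) (nat_lit 76) (nat_lit 254718376) (nat_lit 86) (nat_lit 3) (nat_lit 85) (nat_lit 1) (nat_lit 86) (nat_lit 1) (nat_lit 402) (nat_lit 363) (nat_lit 255)) (XT.nd (nat_lit 78) (nat_lit 76) (nat_lit 0) (XT.lf (nat_lit 0) (nat_lit 358272365) (nat_lit 0) (nat_lit 363603480) (nat_lit 152) (nat_lit 432345048)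 (nat_lit 83) (nat_lit 3) (nat_lit 83) (nat_lit 1) (nat_lit 85) (nat_lit 1) (nat_lit 403) (nat_lit 363) (nat_lit 254)) (XT.lf (nat_lit 76) (nat_lit 178672902) (nat_lit 0) (nat_lit 762779852) (nat_lit 76) (nat_lit 183609120) (nat_lit 83) (nat_lit 3) (nat_lit 82) (nat_lit 1) (nat_lit 83) (nat_lit 1) (nat_lit 404) (nat_lit 363) (nat_lit 253))))) (XT.nd (nat_lit 234) (nat_lit 532) (nat_lit 0) (XT.nd (nat_lit 78) (nat_lit 228) (nat_lit 0) (XT.lf (nat_lit 0) (nat_lit 396693629) (nat_lit 0) (nat_lit 401046555) (nat_lit 152) (nat_lit 298743717) (nat_lit 80) (nat_lit 3) (nat_lit 80) (nat_lit 1) (nat_lit 82) (nat_lit 1) (nat_lit 405) (nat_lit 363) (nat_lit 252)) (XT.nd (nat_lit 78) (nat_lit 152) (nat_lit 0) (XT.lf (nat_lit 76) (nat_lit 115122486) (nat_lit 0) (nat_lit 834559046) (nat_lit 76) (nat_lit 119152973) (nat_lit 80) (nat_lit 3) (nat_lit 79) (nat_lit 1) (nat_lit 80) (nat_lit 1) (nat_lit 406) (nat_lit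 363) (nat_lit 251)) (XT.lf (nat_lit 0) (nat_lit 430215229) (nat_lit 0) (nat_lit 433769451) (nat_lit 152) (nat_lit 177665113) (nat_lit 77) (nat_lit 3) (nat_lit 77) (nat_lit 1) (nat_lit 79) (nat_lit 1) (nat_lit 407) (nat_lit 363) (nat_lit 250)))) (XT.nd (nat_lit 156) (nat_lit 304) (nat_lit 0) (XT.nd (nat_lit 78) (nat_lit 152) (nat_lit 0) (XT.lf (nat_lit 76) (nat_lit 57556628) (nat_lit 0) (nat_lit 897027163) (nat_lit 76) (nat_lit 60847574) (nat_lit 77) (nat_lit 3) (nat_lit 76) (nat_lit 1) (nat_lit 77) (nat_lit 1) (nat_lit 408) (nat_lit 363) (nat_lit 249)) (XT.lf (nat_lit 0) (nat_lit 459244282) (nat_lit 0) (nat_lit 462146351) (nat_lit 152) (nat_lit 68181014) (nat_lit 74) (nat_lit 3) (nat_lit 74) (nat_lit 1) (nat_lit 76) (nat_lit 1) (nat_lit 409) (nat_lit 363) (nat_lit 248))) (XT.nd (nat_lit 78) (nat_lit 228) (nat_lit 0) (XT.lf (nat_lit 76) (nat_lit 5538752) (nat_lit 0) (nat_lit 950945066) (nat_lit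 76) (nat_lit 8225853) (nat_lit 74) (nat_lit 3) (nat_lit 73) (nat_lit 1) (nat_lit 74) (nat_lit 1) (nat_lit 410) (nat_lit 363) (nat_lit 247)) (XT.lf (nat_lit 76) (nat_lit 453064710) (nat_lit 0) (nat_lit 31586409) (nat_lit 76) (nat_lit 455434288) (nat_lit 71) (nat_lit 3) (nat_lit 70) (nat_lit 1) (nat_lit 71) (nat_lit 1) (nat_lit 411) (nat_lit 363) (nat_lit 246)))))) (XT.nd (nat_lit 43758) (nat_lit 0) (nat_lit 17708) (XT.nd (nat_lit 234) (nat_lit 456) (nat_lit 0) (XT.nd (nat_lit 78) (nat_lit 228) (nat_lit 0) (XT.lf (nat_lit 0) (nat_lit 39858459) (nat_lit 0) (nat_lit 41948034) (nat_lit 152) (nat_lit 834598644) (nat_lit 68) (nat_lit 3) (nat_lit 68) (nat_lit 1) (nat_lit 70) (nat_lit 1) (nat_lit 412) (nat_lit 363) (nat_lit 245)) (XT.nd (nat_lit 78) (nat_lit 152) (nat_lit 0) (XT.lf (nat_lit 76) (nat_lit 383869938) (nat_lit 0) (nat_lit 123361806) (nat_lit 76) (nat_lit 385804729) (nat_lit 68) (nat_lit 3)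 (nat_lit 67) (nat_lit 1) (nat_lit 68) (nat_lit 1) (nat_lit 413) (nat_lit 363) (nat_lit 244)) (XT.lf (nat_lit 0) (nat_lit 83069553) (nat_lit 0) (nat_lit 84775718) (nat_lit 152) (nat_lit 702666070) (nat_lit 65) (nat_lit 3) (nat_lit 65) (nat_lit 1) (nat_lit 67) (nat_lit 1) (nat_lit 414) (nat_lit 363) (nat_lit 243)))) (XT.nd (nat_lit 156) (nat_lit 228) (nat_lit 0) (XT.nd (nat_lit 78) (nat_lit 152) (nat_lit 0) (XT.lf (nat_lit 76) (nat_lit 320551580) (nat_lit 0) (nat_lit 205670760) (nat_lit 76) (nat_lit 322131362) (nat_lit 65) (nat_lit 3) (nat_lit 64) (nat_lit 1) (nat_lit 65) (nat_lit 1) (nat_lit 415) (nat_lit 363) (nat_lit 242)) (XT.lf (nat_lit 0) (nat_lit 121739740) (nat_lit 0) (nat_lit 123132846) (nat_lit 152) (nat_lit 582054540) (nat_lit 62) (nat_lit 3) (nat_lit 62) (nat_lit 1) (nat_lit 64) (nat_lit 1) (nat_lit 416) (nat_lit 363) (nat_lit 241))) (XT.nd (nat_lit 78) (nat_lit 152) (nat_lit 0) (XT.lf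 (nat_lit 76) (nat_lit 262693414) (nat_lit 0) (nat_lit 279240668) (nat_lit 76) (nat_lit 263983327) (nat_lit 62) (nat_lit 3) (nat_lit 61) (nat_lit 1) (nat_lit 62) (nat_lit 1) (nat_lit 417) (nat_lit 363) (nat_lit 240)) (XT.lf (nat_lit 0) (nat_lit 156223493) (nat_lit 0) (nat_lit 157360983) (nat_lit 152) (nat_lit 471951124) (nat_lit 59) (nat_lit 3) (nat_lit 59) (nat_lit 1) (nat_lit 61) (nat_lit 1) (nat_lit 418) (nat_lit 363) (nat_lit 239))))) (XT.nd (nat_lit 234) (nat_lit 0) (nat_lit 152) (XT.nd (nat_lit 78) (nat_lit 0) (nat_lit 76) (XT.lf (nat_lit 836) (nat_lit 3407374042) (nat_lit 0) (nat_lit 6049784780) (nat_lit 836) (nat_lit 3407374042) (nat_lit 303) (nat_lit 1) (nat_lit 292) (nat_lit 0) (nat_lit 303) (nat_lit 0) (nat_lit 292) (nat_lit 364) (nat_lit 364)) (XT.nd (nat_lit 78) (nat_lit 0) (nat_lit 0) (XT.lf (nat_lit 836) (nat_lit 1271055070) (nat_lit 0) (nat_lit 11877561071) (nat_lit 760) (nat_lit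 11616215045) (nat_lit 304) (nat_lit 1) (nat_lit 293) (nat_lit 1) (nat_lit 303) (nat_lit 1) (nat_lit 293) (nat_lit 364) (nat_lit 363)) (XT.lf (nat_lit 836) (nat_lit 11673907157) (nat_lit 76) (nat_lit 7954406653) (nat_lit 0) (nat_lit 4218654439) (nat_lit 304) (nat_lit 1) (nat_lit 294) (nat_lit 1) (nat_lit 293) (nat_lit 1) (nat_lit 294) (nat_lit 364) (nat_lit 362)))) (XT.nd (nat_lit 156) (nat_lit 0) (nat_lit 152) (XT.nd (nat_lit 78) (nat_lit 0) (nat_lit 76) (XT.lf (nat_lit 836) (nat_lit 10087212124) (nat_lit 76) (nat_lit 3333636693) (nat_lit 0) (nat_lit 9554188684) (nat_lit 305) (nat_lit 1) (nat_lit 295) (nat_lit 1) (nat_lit 294) (nat_lit 1) (nat_lit 295) (nat_lit 364) (nat_lit 361)) (XT.lf (nat_lit 836) (nat_lit 7465394556) (nat_lit 0) (nat_lit 13967400342) (nat_lit 760) (nat_lit 714011509) (nat_lit 306) (nat_lit 1) (nat_lit 295) (nat_lit 1) (nat_lit 305) (nat_lit 1) (nat_lit 296) (nat_lit 364)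 (nat_lit 360))) (XT.nd (nat_lit 78) (nat_lit 0) (nat_lit 0) (XT.lf (nat_lit 836) (nat_lit 1791248227) (nat_lit 0) (nat_lit 15402939171) (nat_lit 760) (nat_lit 4163941748) (nat_lit 307) (nat_lit 1) (nat_lit 296) (nat_lit 1) (nat_lit 306) (nat_lit 1) (nat_lit 297) (nat_lit 364) (nat_lit 359)) (XT.lf (nat_lit 836) (nat_lit 3442050531) (nat_lit 76) (nat_lit 13386408455) (nat_lit 0) (nat_lit 3777809622) (nat_lit 307) (nat_lit 1) (nat_lit 297) (nat_lit 1) (nat_lit 296) (nat_lit 1) (nat_lit 298) (nat_lit 364) (nat_lit 358))))))) (XT.nd (nat_lit 1014) (nat_lit 2660) (nat_lit 0) (XT.nd (nat_lit 468) (nat_lit 2052) (nat_lit 0) (XT.nd (nat_lit 234) (nat_lit 684) (nat_lit 0) (XT.nd (nat_lit 78) (nat_lit 912) (nat_lit 0) (XT.lf (nat_lit 836) (nat_lit 706918689) (nat_lit 0) (nat_lit 10007225797) (nat_lit 760) (nat_lit 9176521201) (nat_lit 298) (nat_lit 1) (nat_lit 287) (nat_lit 1) (nat_lit 297) (nat_lit 1)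 (nat_lit 299) (nat_lit 364) (nat_lit 357)) (XT.nd (nat_lit 78) (nat_lit 380) (nat_lit 0) (XT.lf (nat_lit 76) (nat_lit 4894852265) (nat_lit 0) (nat_lit 2121167274) (nat_lit 532) (nat_lit 12192926335) (nat_lit 281) (nat_lit 1) (nat_lit 280) (nat_lit 1) (nat_lit 287) (nat_lit 1) (nat_lit 300) (nat_lit 364) (nat_lit 356)) (XT.lf (nat_lit 456) (nat_lit 13489596744) (nat_lit 0) (nat_lit 4391154552) (nat_lit 380) (nat_lit 678899626) (nat_lit 281) (nat_lit 1) (nat_lit 275) (nat_lit 1) (nat_lit 280) (nat_lit 1) (nat_lit 301) (nat_lit 364) (nat_lit 355)))) (XT.nd (nat_lit 78) (nat_lit 304) (nat_lit 0) (XT.lf (nat_lit 456) (nat_lit 9734221468) (nat_lit 0) (nat_lit 2046736052) (nat_lit 380) (nat_lit 6157316972) (nat_lit 276) (nat_lit 1) (nat_lit 270) (nat_lit 1) (nat_lit 275) (nat_lit 1) (nat_lit 302) (nat_lit 364) (nat_lit 354)) (XT.nd (nat_lit 78) (nat_lit 0) (nat_lit 0) (XT.lf (nat_lit 380) (nat_lit 5923149614)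 (nat_lit 0) (nat_lit 37683736) (nat_lit 304) (nat_lit 11386193905) (nat_lit 271) (nat_lit 1) (nat_lit 266) (nat_lit 1) (nat_lit 270) (nat_lit 1) (nat_lit 303) (nat_lit 364) (nat_lit 353)) (XT.lf (nat_lit 76) (nat_lit 436981985) (nat_lit 0) (nat_lit 14737149993) (nat_lit 380) (nat_lit 1608846467) (nat_lit 267) (nat_lit 1) (nat_lit 266) (nat_lit 1) (nat_lit 271) (nat_lit 1) (nat_lit 304) (nat_lit 364) (nat_lit 352))))) (XT.nd (nat_lit 234) (nat_lit 1064) (nat_lit 0) (XT.nd (nat_lit 78) (nat_lit 608) (nat_lit 0) (XT.lf (nat_lit 76) (nat_lit 11282988213) (nat_lit 0) (nat_lit 1871404322) (nat_lit 380) (nat_lit 3086285600) (nat_lit 262) (nat_lit 1) (nat_lit 261) (nat_lit 1) (nat_lit 266) (nat_lit 1) (nat_lit 305) (nat_lit 364) (nat_lit 351)) (XT.nd (nat_lit 78) (nat_lit 304) (nat_lit 0) (XT.lf (nat_lit 76) (nat_lit 5645164921) (nat_lit 0) (nat_lit 5732443644) (nat_lit 380) (nat_lit 4344730852) (nat_lit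 258) (nat_lit 1) (nat_lit 257) (nat_lit 1) (nat_lit 262) (nat_lit 1) (nat_lit 306) (nat_lit 364) (nat_lit 350)) (XT.lf (nat_lit 76) (nat_lit 278632822) (nat_lit 0) (nat_lit 9584556760) (nat_lit 380) (nat_lit 5365352740) (nat_lit 254) (nat_lit 1) (nat_lit 253) (nat_lit 1) (nat_lit 258) (nat_lit 1) (nat_lit 307) (nat_lit 364) (nat_lit 349)))) (XT.nd (nat_lit 156) (nat_lit 456) (nat_lit 0) (XT.nd (nat_lit 78) (nat_lit 380) (nat_lit 0) (XT.lf (nat_lit 304) (nat_lit 1258290123) (nat_lit 0) (nat_lit 8509213797) (nat_lit 228) (nat_lit 4986594848) (nat_lit 254) (nat_lit 1) (nat_lit 250) (nat_lit 1) (nat_lit 253) (nat_lit 1) (nat_lit 308) (nat_lit 364) (nat_lit 348)) (XT.lf (nat_lit 76) (nat_lit 4347730678) (nat_lit 0) (nat_lit 2979961622) (nat_lit 380) (nat_lit 6971563035) (nat_lit 246) (nat_lit 1) (nat_lit 245) (nat_lit 1) (nat_lit 250) (nat_lit 1) (nat_lit 309) (nat_lit 364) (nat_lit 347))) (XT.nd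 (nat_lit 78) (nat_lit 228) (nat_lit 0) (XT.lf (nat_lit 304) (nat_lit 6731332855) (nat_lit 0) (nat_lit 6323217213) (nat_lit 228) (nat_lit 809364298) (nat_lit 246) (nat_lit 1) (nat_lit 242) (nat_lit 1) (nat_lit 245) (nat_lit 1) (nat_lit 310) (nat_lit 364) (nat_lit 346)) (XT.lf (nat_lit 304) (nat_lit 2157359660) (nat_lit 0) (nat_lit 5444031087) (nat_lit 228) (nat_lit 5843912925) (nat_lit 243) (nat_lit 1) (nat_lit 239) (nat_lit 1) (nat_lit 242) (nat_lit 1) (nat_lit 311) (nat_lit 364) (nat_lit 345)))))) (XT.nd (nat_lit 546) (nat_lit 1140) (nat_lit 0) (XT.nd (nat_lit 234) (nat_lit 836) (nat_lit 0) (XT.nd (nat_lit 78) (nat_lit 380) (nat_lit 0) (XT.lf (nat_lit 76) (nat_lit 2458868725) (nat_lit 0) (nat_lit 2251307998) (nat_lit 304) (nat_lit 8333901945) (nat_lit 236) (nat_lit 1) (nat_lit 235) (nat_lit 1) (nat_lit 239) (nat_lit 1) (nat_lit 312) (nat_lit 364) (nat_lit 344)) (XT.nd (nat_lit 78) (nat_lit 152)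 (nat_lit 0) (XT.lf (nat_lit 304) (nat_lit 6118572098) (nat_lit 0) (nat_lit 4071071137) (nat_lit 228) (nat_lit 2467896708) (nat_lit 236) (nat_lit 1) (nat_lit 232) (nat_lit 1) (nat_lit 235) (nat_lit 1) (nat_lit 313) (nat_lit 364) (nat_lit 343)) (XT.lf (nat_lit 228) (nat_lit 1516803057) (nat_lit 0) (nat_lit 3551712622) (nat_lit 152) (nat_lit 7218079588) (nat_lit 233) (nat_lit 1) (nat_lit 230) (nat_lit 1) (nat_lit 232) (nat_lit 1) (nat_lit 314) (nat_lit 364) (nat_lit 342)))) (XT.nd (nat_lit 156) (nat_lit 380) (nat_lit 0) (XT.nd (nat_lit 78) (nat_lit 152) (nat_lit 0) (XT.lf (nat_lit 76) (nat_lit 256956128) (nat_lit 0) (nat_lit 2875394860) (nat_lit 304) (nat_lit 8797678398) (nat_lit 227) (nat_lit 1) (nat_lit 226) (nat_lit 1) (nat_lit 230) (nat_lit 1) (nat_lit 315) (nat_lit 364) (nat_lit 341)) (XT.lf (nat_lit 228) (nat_lit 4407551371) (nat_lit 0) (nat_lit 2754341484) (nat_lit 152) (nat_lit 4422889694)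 (nat_lit 227) (nat_lit 1) (nat_lit 224) (nat_lit 1) (nat_lit 226) (nat_lit 1) (nat_lit 316) (nat_lit 364) (nat_lit 340))) (XT.nd (nat_lit 78) (nat_lit 152) (nat_lit 0) (XT.lf (nat_lit 76) (nat_lit 2391353181) (nat_lit 0) (nat_lit 110458102) (nat_lit 228) (nat_lit 8752789812) (nat_lit 222) (nat_lit 1) (nat_lit 221) (nat_lit 1) (nat_lit 224) (nat_lit 1) (nat_lit 317) (nat_lit 364) (nat_lit 339)) (XT.lf (nat_lit 228) (nat_lit 6537497817) (nat_lit 0) (nat_lit 2265389576) (nat_lit 152) (nat_lit 2131136992) (nat_lit 222) (nat_lit 1) (nat_lit 219) (nat_lit 1) (nat_lit 221) (nat_lit 1) (nat_lit 318) (nat_lit 364) (nat_lit 338))))) (XT.nd (nat_lit 234) (nat_lit 608) (nat_lit 0) (XT.nd (nat_lit 78) (nat_lit 380) (nat_lit 0) (XT.lf (nat_lit 228) (nat_lit 2030808797) (nat_lit 0) (nat_lit 2105930122) (nat_lit 152) (nat_lit 6488965806) (nat_lit 220) (nat_lit 1) (nat_lit 217) (nat_lit 1) (nat_lit 219) (nat_lit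 1) (nat_lit 319) (nat_lit 364) (nat_lit 337)) (XT.nd (nat_lit 78) (nat_lit 152) (nat_lit 0) (XT.lf (nat_lit 228) (nat_lit 8061564584) (nat_lit 0) (nat_lit 2012045303) (nat_lit 152) (nat_lit 255251289) (nat_lit 217) (nat_lit 1) (nat_lit 214) (nat_lit 1) (nat_lit 216) (nat_lit 1) (nat_lit 320) (nat_lit 364) (nat_lit 336)) (XT.lf (nat_lit 228) (nat_lit 3607982685) (nat_lit 0) (nat_lit 1920824910) (nat_lit 152) (nat_lit 4511458378) (nat_lit 215) (nat_lit 1) (nat_lit 212) (nat_lit 1) (nat_lit 214) (nat_lit 1) (nat_lit 321) (nat_lit 364) (nat_lit 335)))) (XT.nd (nat_lit 156) (nat_lit 304) (nat_lit 0) (XT.nd (nat_lit 78) (nat_lit 152) (nat_lit 0) (XT.lf (nat_lit 76) (nat_lit 1235873370) (nat_lit 0) (nat_lit 679291694) (nat_lit 152) (nat_lit 7848475890) (nat_lit 211) (nat_lit 1) (nat_lit 210) (nat_lit 1) (nat_lit 212) (nat_lit 1) (nat_lit 322) (nat_lit 364) (nat_lit 334)) (XT.lf (nat_lit 228) (nat_lit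 4733880781) (nat_lit 0) (nat_lit 1894885598) (nat_lit 152) (nat_lit 2865229924) (nat_lit 211) (nat_lit 1) (nat_lit 208) (nat_lit 1) (nat_lit 210) (nat_lit 1) (nat_lit 323) (nat_lit 364) (nat_lit 333))) (XT.nd (nat_lit 78) (nat_lit 228) (nat_lit 0) (XT.lf (nat_lit 152) (nat_lit 509771692) (nat_lit 0) (nat_lit 1941426437) (nat_lit 76) (nat_lit 6783798747) (nat_lit 209) (nat_lit 1) (nat_lit 207) (nat_lit 1) (nat_lit 208) (nat_lit 1) (nat_lit 324) (nat_lit 364) (nat_lit 332)) (XT.lf (nat_lit 228) (nat_lit 5502797216) (nat_lit 0) (nat_lit 1985561169) (nat_lit 152) (nat_lit 1494780479) (nat_lit 207) (nat_lit 1) (nat_lit 204) (nat_lit 1) (nat_lit 206) (nat_lit 1) (nat_lit 325) (nat_lit 364) (nat_lit 331))))))))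
noncomputable def ec72 : XT := (XT.nd (nat_lit 2028) (nat_lit 3192) (nat_lit 0) (XT.nd (nat_lit 1014) (nat_lit 1596) (nat_lit 0) (XT.nd (nat_lit 468) (nat_lit 760) (nat_lit 0) (XT.nd (nat_lit 234) (nat_lit 532) (nat_lit 0) (XT.nd (nat_lit 78) (nat_lit 304) (nat_lit 0) (XT.lf (nat_lit 152) (nat_lit 1383994077) (nat_lit 0) (nat_lit 2059803302) (nat_lit 76) (nat_lit 5295971593) (nat_lit 205) (nat_lit 1) (nat_lit 203) (nat_lit 1) (nat_lit 204) (nat_lit 1) (nat_lit 326) (nat_lit 364) (nat_lit 330)) (XT.nd (nat_lit 78) (nat_lit 76) (nat_lit 0) (XT.lf (nat_lit 228) (nat_lit 5990969998) (nat_lit 0) (nat_lit 2159148224) (nat_lit 152) (nat_lit 354334707) (nat_lit 203) (nat_lit 1) (nat_lit 200) (nat_lit 1) (nat_lit 202) (nat_lit 1) (nat_lit 327) (nat_lit 364) (nat_lit 329)) (XT.lf (nat_lit 152) (nat_lit 1991757350) (nat_lit 0) (nat_lit 2250937969) (nat_lit 76) (nat_lit 4032749764) (nat_lit 201) (nat_lit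 1) (nat_lit 199) (nat_lit 1) (nat_lit 200) (nat_lit 1) (nat_lit 328) (nat_lit 364) (nat_lit 328)))) (XT.nd (nat_lit 78) (nat_lit 304) (nat_lit 0) (XT.lf (nat_lit 76) (nat_lit 574900435) (nat_lit 0) (nat_lit 1804459222) (nat_lit 228) (nat_lit 5675304700) (nat_lit 197) (nat_lit 1) (nat_lit 196) (nat_lit 1) (nat_lit 199) (nat_lit 1) (nat_lit 329) (nat_lit 364) (nat_lit 327)) (XT.nd (nat_lit 78) (nat_lit 228) (nat_lit 0) (XT.lf (nat_lit 152) (nat_lit 2390288522) (nat_lit 0) (nat_lit 2490567342) (nat_lit 76) (nat_lit 2958510722) (nat_lit 197) (nat_lit 1) (nat_lit 195) (nat_lit 1) (nat_lit 196) (nat_lit 1) (nat_lit 330) (nat_lit 364) (nat_lit 326)) (XT.lf (nat_lit 76) (nat_lit 1337004349) (nat_lit 0) (nat_lit 1294979120) (nat_lit 228) (nat_lit 4999651436) (nat_lit 193) (nat_lit 1) (nat_lit 192) (nat_lit 1) (nat_lit 195) (nat_lit 1) (nat_lit 331) (nat_lit 364) (nat_lit 325))))) (XT.nd (nat_lit 234)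 (nat_lit 456) (nat_lit 0) (XT.nd (nat_lit 78) (nat_lit 228) (nat_lit 0) (XT.lf (nat_lit 152) (nat_lit 2625737304) (nat_lit 0) (nat_lit 2759751338) (nat_lit 76) (nat_lit 2043722048) (nat_lit 193) (nat_lit 1) (nat_lit 191) (nat_lit 1) (nat_lit 192) (nat_lit 1) (nat_lit 332) (nat_lit 364) (nat_lit 324)) (XT.nd (nat_lit 78) (nat_lit 76) (nat_lit 0) (XT.lf (nat_lit 76) (nat_lit 1968379571) (nat_lit 0) (nat_lit 937897645) (nat_lit 152) (nat_lit 4327194398) (nat_lit 190) (nat_lit 1) (nat_lit 189) (nat_lit 1) (nat_lit 191) (nat_lit 1) (nat_lit 333) (nat_lit 364) (nat_lit 323)) (XT.lf (nat_lit 152) (nat_lit 2735245981) (nat_lit 0) (nat_lit 3043835450) (nat_lit 76) (nat_lit 1263855091) (nat_lit 190) (nat_lit 1) (nat_lit 188) (nat_lit 1) (nat_lit 189) (nat_lit 1) (nat_lit 334) (nat_lit 364) (nat_lit 322)))) (XT.nd (nat_lit 156) (nat_lit 228) (nat_lit 0) (XT.nd (nat_lit 78) (nat_lit 76) (nat_lit 0) (XT.lf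 (nat_lit 76) (nat_lit 2489817141) (nat_lit 0) (nat_lit 699683873) (nat_lit 152) (nat_lit 3668761075) (nat_lit 187) (nat_lit 1) (nat_lit 186) (nat_lit 1) (nat_lit 188) (nat_lit 1) (nat_lit 335) (nat_lit 364) (nat_lit 321)) (XT.lf (nat_lit 152) (nat_lit 2748637162) (nat_lit 0) (nat_lit 3331607623) (nat_lit 76) (nat_lit 598495921) (nat_lit 187) (nat_lit 1) (nat_lit 185) (nat_lit 1) (nat_lit 186) (nat_lit 1) (nat_lit 336) (nat_lit 364) (nat_lit 320))) (XT.nd (nat_lit 78) (nat_lit 76) (nat_lit 0) (XT.lf (nat_lit 76) (nat_lit 2918596733) (nat_lit 0) (nat_lit 553375822) (nat_lit 152) (nat_lit 3032338510) (nat_lit 184) (nat_lit 1) (nat_lit 183) (nat_lit 1) (nat_lit 185) (nat_lit 1) (nat_lit 337) (nat_lit 364) (nat_lit 319)) (XT.lf (nat_lit 152) (nat_lit 2689789688) (nat_lit 0) (nat_lit 3614613524) (nat_lit 76) (nat_lit 30617528) (nat_lit 184) (nat_lit 1) (nat_lit 182) (nat_lit 1) (nat_lit 183) (nat_lit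 1) (nat_lit 338) (nat_lit 364) (nat_lit 318)))))) (XT.nd (nat_lit 468) (nat_lit 912) (nat_lit 0) (XT.nd (nat_lit 234) (nat_lit 304) (nat_lit 0) (XT.nd (nat_lit 78) (nat_lit 228) (nat_lit 0) (XT.lf (nat_lit 76) (nat_lit 3269108200) (nat_lit 0) (nat_lit 477347018) (nat_lit 152) (nat_lit 2423652134) (nat_lit 181) (nat_lit 1) (nat_lit 180) (nat_lit 1) (nat_lit 182) (nat_lit 1) (nat_lit 339) (nat_lit 364) (nat_lit 317)) (XT.nd (nat_lit 78) (nat_lit 152) (nat_lit 0) (XT.lf (nat_lit 0) (nat_lit 439484873) (nat_lit 0) (nat_lit 3439673164) (nat_lit 152) (nat_lit 2130832254) (nat_lit 179) (nat_lit 3) (nat_lit 179) (nat_lit 1) (nat_lit 181) (nat_lit 1) (nat_lit 340) (nat_lit 364) (nat_lit 316)) (XT.lf (nat_lit 76) (nat_lit 3553360616) (nat_lit 0) (nat_lit 454301173) (nat_lit 152) (nat_lit 1846634716) (nat_lit 178) (nat_lit 1) (nat_lit 177) (nat_lit 1) (nat_lit 179) (nat_lit 1) (nat_lit 341) (nat_lit 364)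 (nat_lit 315)))) (XT.nd (nat_lit 78) (nat_lit 228) (nat_lit 0) (XT.lf (nat_lit 0) (nat_lit 839578697) (nat_lit 0) (nat_lit 3289271926) (nat_lit 152) (nat_lit 1573898571) (nat_lit 176) (nat_lit 3) (nat_lit 176) (nat_lit 1) (nat_lit 178) (nat_lit 1) (nat_lit 342) (nat_lit 364) (nat_lit 314)) (XT.nd (nat_lit 78) (nat_lit 76) (nat_lit 0) (XT.lf (nat_lit 76) (nat_lit 3781399344) (nat_lit 0) (nat_lit 470453002) (nat_lit 152) (nat_lit 1303805816) (nat_lit 175) (nat_lit 1) (nat_lit 174) (nat_lit 1) (nat_lit 176) (nat_lit 1) (nat_lit 343) (nat_lit 364) (nat_lit 313)) (XT.lf (nat_lit 0) (nat_lit 1180354212) (nat_lit 0) (nat_lit 3180560977) (nat_lit 152) (nat_lit 1051236747) (nat_lit 173) (nat_lit 3) (nat_lit 173) (nat_lit 1) (nat_lit 175) (nat_lit 1) (nat_lit 344) (nat_lit 364) (nat_lit 312))))) (XT.nd (nat_lit 234) (nat_lit 532) (nat_lit 0) (XT.nd (nat_lit 78) (nat_lit 228) (nat_lit 0) (XT.lf (nat_lit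 76) (nat_lit 3961647937) (nat_lit 0) (nat_lit 514860939) (nat_lit 152) (nat_lit 796578374) (nat_lit 172) (nat_lit 1) (nat_lit 171) (nat_lit 1) (nat_lit 173) (nat_lit 1) (nat_lit 345) (nat_lit 364) (nat_lit 311)) (XT.nd (nat_lit 78) (nat_lit 152) (nat_lit 0) (XT.lf (nat_lit 0) (nat_lit 1469998198) (nat_lit 0) (nat_lit 3103193349) (nat_lit 152) (nat_lit 563946301) (nat_lit 170) (nat_lit 3) (nat_lit 170) (nat_lit 1) (nat_lit 172) (nat_lit 1) (nat_lit 346) (nat_lit 364) (nat_lit 310)) (XT.lf (nat_lit 76) (nat_lit 4101188555) (nat_lit 0) (nat_lit 578883766) (nat_lit 152) (nat_lit 325506010) (nat_lit 169) (nat_lit 1) (nat_lit 168) (nat_lit 1) (nat_lit 170) (nat_lit 1) (nat_lit 347) (nat_lit 364) (nat_lit 309)))) (XT.nd (nat_lit 156) (nat_lit 228) (nat_lit 0) (XT.nd (nat_lit 78) (nat_lit 228) (nat_lit 0) (XT.lf (nat_lit 0) (nat_lit 1715434718) (nat_lit 0) (nat_lit 3048960055) (nat_lit 152) (nat_lit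 112345641) (nat_lit 167) (nat_lit 3) (nat_lit 167) (nat_lit 1) (nat_lit 169) (nat_lit 1) (nat_lit 348) (nat_lit 364) (nat_lit 308)) (XT.lf (nat_lit 152) (nat_lit 4094619472) (nat_lit 0) (nat_lit 113139060) (nat_lit 76) (nat_lit 544365691) (nat_lit 166) (nat_lit 1) (nat_lit 164) (nat_lit 1) (nat_lit 165) (nat_lit 1) (nat_lit 349) (nat_lit 364) (nat_lit 307))) (XT.nd (nat_lit 78) (nat_lit 152) (nat_lit 0) (XT.lf (nat_lit 76) (nat_lit 1613549011) (nat_lit 0) (nat_lit 313891034) (nat_lit 76) (nat_lit 2702390001) (nat_lit 164) (nat_lit 3) (nat_lit 163) (nat_lit 1) (nat_lit 164) (nat_lit 1) (nat_lit 350) (nat_lit 364) (nat_lit 306)) (XT.lf (nat_lit 152) (nat_lit 3763385075) (nat_lit 0) (nat_lit 525933537) (nat_lit 76) (nat_lit 222417505) (nat_lit 163) (nat_lit 1) (nat_lit 161) (nat_lit 1) (nat_lit 162) (nat_lit 1) (nat_lit 351) (nat_lit 364) (nat_lit 305))))))) (XT.nd (nat_lit 1014) (nat_lit 1748)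 (nat_lit 0) (XT.nd (nat_lit 468) (nat_lit 760) (nat_lit 0) (XT.nd (nat_lit 234) (nat_lit 380) (nat_lit 0) (XT.nd (nat_lit 78) (nat_lit 228) (nat_lit 0) (XT.lf (nat_lit 76) (nat_lit 1399354107) (nat_lit 0) (nat_lit 708015133) (nat_lit 76) (nat_lit 2288407106) (nat_lit 161) (nat_lit 3) (nat_lit 160) (nat_lit 1) (nat_lit 161) (nat_lit 1) (nat_lit 352) (nat_lit 364) (nat_lit 304)) (XT.nd (nat_lit 78) (nat_lit 76) (nat_lit 0) (XT.lf (nat_lit 0) (nat_lit 59064411) (nat_lit 0) (nat_lit 843061765) (nat_lit 152) (nat_lit 3381725182) (nat_lit 158) (nat_lit 3) (nat_lit 158) (nat_lit 1) (nat_lit 160) (nat_lit 1) (nat_lit 353) (nat_lit 364) (nat_lit 303)) (XT.lf (nat_lit 76) (nat_lit 1190293006) (nat_lit 0) (nat_lit 1067409943) (nat_lit 76) (nat_lit 1916216482) (nat_lit 158) (nat_lit 3) (nat_lit 157) (nat_lit 1) (nat_lit 158) (nat_lit 1) (nat_lit 354) (nat_lit 364) (nat_lit 302)))) (XT.nd (nat_lit 78) (nat_lit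 228) (nat_lit 0) (XT.lf (nat_lit 0) (nat_lit 300388643) (nat_lit 0) (nat_lit 940532802) (nat_lit 152) (nat_lit 2826730151) (nat_lit 155) (nat_lit 3) (nat_lit 155) (nat_lit 1) (nat_lit 157) (nat_lit 1) (nat_lit 355) (nat_lit 364) (nat_lit 301)) (XT.nd (nat_lit 78) (nat_lit 152) (nat_lit 0) (XT.lf (nat_lit 76) (nat_lit 988709065) (nat_lit 0) (nat_lit 1393420354) (nat_lit 76) (nat_lit 1581435138) (nat_lit 155) (nat_lit 3) (nat_lit 154) (nat_lit 1) (nat_lit 155) (nat_lit 1) (nat_lit 356) (nat_lit 364) (nat_lit 300)) (XT.lf (nat_lit 0) (nat_lit 512351570) (nat_lit 0) (nat_lit 1035037701) (nat_lit 152) (nat_lit 2315251272) (nat_lit 152) (nat_lit 3) (nat_lit 152) (nat_lit 1) (nat_lit 154) (nat_lit 1) (nat_lit 357) (nat_lit 364) (nat_lit 299))))) (XT.nd (nat_lit 234) (nat_lit 456) (nat_lit 0) (XT.nd (nat_lit 78) (nat_lit 228) (nat_lit 0) (XT.lf (nat_lit 76) (nat_lit 796268371) (nat_lit 0) (nat_lit 1687561258)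 (nat_lit 76) (nat_lit 1280237011) (nat_lit 152) (nat_lit 3) (nat_lit 151) (nat_lit 1) (nat_lit 152) (nat_lit 1) (nat_lit 358) (nat_lit 364) (nat_lit 298)) (XT.nd (nat_lit 78) (nat_lit 76) (nat_lit 0) (XT.lf (nat_lit 0) (nat_lit 698155075) (nat_lit 0) (nat_lit 1124935181) (nat_lit 152) (nat_lit 1845104963) (nat_lit 149) (nat_lit 3) (nat_lit 149) (nat_lit 1) (nat_lit 151) (nat_lit 1) (nat_lit 359) (nat_lit 364) (nat_lit 297)) (XT.lf (nat_lit 76) (nat_lit 614100768) (nat_lit 0) (nat_lit 1951456794) (nat_lit 76) (nat_lit 1009267533) (nat_lit 149) (nat_lit 3) (nat_lit 148) (nat_lit 1) (nat_lit 149) (nat_lit 1) (nat_lit 360) (nat_lit 364) (nat_lit 296)))) (XT.nd (nat_lit 156) (nat_lit 228) (nat_lit 0) (XT.nd (nat_lit 78) (nat_lit 76) (nat_lit 0) (XT.lf (nat_lit 0) (nat_lit 860598424) (nat_lit 0) (nat_lit 1209069998) (nat_lit 152) (nat_lit 1414066393) (nat_lit 146) (nat_lit 3) (nat_lit 146) (nat_lit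 1) (nat_lit 148) (nat_lit 1) (nat_lit 361) (nat_lit 364) (nat_lit 295)) (XT.lf (nat_lit 76) (nat_lit 442913931) (nat_lit 0) (nat_lit 2186792679) (nat_lit 76) (nat_lit 765572795) (nat_lit 146) (nat_lit 3) (nat_lit 145) (nat_lit 1) (nat_lit 146) (nat_lit 1) (nat_lit 362) (nat_lit 364) (nat_lit 294))) (XT.nd (nat_lit 78) (nat_lit 76) (nat_lit 0) (XT.lf (nat_lit 0) (nat_lit 1002138908) (nat_lit 0) (nat_lit 1286670534) (nat_lit 152) (nat_lit 1019907171) (nat_lit 143) (nat_lit 3) (nat_lit 143) (nat_lit 1) (nat_lit 145) (nat_lit 1) (nat_lit 363) (nat_lit 364) (nat_lit 293)) (XT.lf (nat_lit 76) (nat_lit 283085506) (nat_lit 0) (nat_lit 2395279105) (nat_lit 76) (nat_lit 546540716) (nat_lit 143) (nat_lit 3) (nat_lit 142) (nat_lit 1) (nat_lit 143) (nat_lit 1) (nat_lit 364) (nat_lit 364) (nat_lit 292)))))) (XT.nd (nat_lit 546) (nat_lit 836) (nat_lit 0) (XT.nd (nat_lit 234) (nat_lit 532) (nat_lit 0) (XT.nd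 (nat_lit 78) (nat_lit 228) (nat_lit 0) (XT.lf (nat_lit 0) (nat_lit 1124942234) (nat_lit 0) (nat_lit 1357266052) (nat_lit 152) (nat_lit 660424181) (nat_lit 140) (nat_lit 3) (nat_lit 140) (nat_lit 1) (nat_lit 142) (nat_lit 1) (nat_lit 365) (nat_lit 364) (nat_lit 291)) (XT.nd (nat_lit 78) (nat_lit 152) (nat_lit 0) (XT.lf (nat_lit 76) (nat_lit 134737404) (nat_lit 0) (nat_lit 2578622146) (nat_lit 76) (nat_lit 349852051) (nat_lit 140) (nat_lit 3) (nat_lit 139) (nat_lit 1) (nat_lit 140) (nat_lit 1) (nat_lit 366) (nat_lit 364) (nat_lit 290)) (XT.lf (nat_lit 0) (nat_lit 1230924485) (nat_lit 0) (nat_lit 1420619941) (nat_lit 152) (nat_lit 333461329) (nat_lit 137) (nat_lit 3) (nat_lit 137) (nat_lit 1) (nat_lit 139) (nat_lit 1) (nat_lit 367) (nat_lit 364) (nat_lit 289)))) (XT.nd (nat_lit 156) (nat_lit 304) (nat_lit 0) (XT.nd (nat_lit 78) (nat_lit 76) (nat_lit 0) (XT.lf (nat_lit 76) (nat_lit 2736332005) (nat_lit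 0) (nat_lit 2133871) (nat_lit 152) (nat_lit 171269503) (nat_lit 136) (nat_lit 1) (nat_lit 135) (nat_lit 1) (nat_lit 137) (nat_lit 1) (nat_lit 368) (nat_lit 364) (nat_lit 288)) (XT.lf (nat_lit 0) (nat_lit 1321787150) (nat_lit 0) (nat_lit 1476675986) (nat_lit 152) (nat_lit 36925582) (nat_lit 134) (nat_lit 3) (nat_lit 134) (nat_lit 1) (nat_lit 136) (nat_lit 1) (nat_lit 369) (nat_lit 364) (nat_lit 287))) (XT.nd (nat_lit 78) (nat_lit 76) (nat_lit 0) (XT.lf (nat_lit 152) (nat_lit 2638210455) (nat_lit 0) (nat_lit 114164593) (nat_lit 76) (nat_lit 11484275) (nat_lit 133) (nat_lit 1) (nat_lit 131) (nat_lit 1) (nat_lit 132) (nat_lit 1) (nat_lit 370) (nat_lit 364) (nat_lit 286)) (XT.lf (nat_lit 76) (nat_lit 1163929411) (nat_lit 0) (nat_lit 238846082) (nat_lit 76) (nat_lit 1290398185) (nat_lit 131) (nat_lit 3) (nat_lit 130) (nat_lit 1) (nat_lit 131) (nat_lit 1) (nat_lit 371) (nat_lit 364) (nat_lit 285)))))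 (XT.nd (nat_lit 234) (nat_lit 456) (nat_lit 0) (XT.nd (nat_lit 78) (nat_lit 228) (nat_lit 0) (XT.lf (nat_lit 0) (nat_lit 131575990) (nat_lit 0) (nat_lit 243100482) (nat_lit 152) (nat_lit 2250470874) (nat_lit 128) (nat_lit 3) (nat_lit 128) (nat_lit 1) (nat_lit 130) (nat_lit 1) (nat_lit 372) (nat_lit 364) (nat_lit 284)) (XT.nd (nat_lit 78) (nat_lit 152) (nat_lit 0) (XT.lf (nat_lit 76) (nat_lit 983193897) (nat_lit 0) (nat_lit 488490704) (nat_lit 76) (nat_lit 1086457315) (nat_lit 128) (nat_lit 3) (nat_lit 127) (nat_lit 1) (nat_lit 128) (nat_lit 1) (nat_lit 373) (nat_lit 364) (nat_lit 283)) (XT.lf (nat_lit 0) (nat_lit 258902439) (nat_lit 0) (nat_lit 349963654) (nat_lit 152) (nat_lit 1884594638) (nat_lit 125) (nat_lit 3) (nat_lit 125) (nat_lit 1) (nat_lit 127) (nat_lit 1) (nat_lit 374) (nat_lit 364) (nat_lit 282)))) (XT.nd (nat_lit 156) (nat_lit 228) (nat_lit 0) (XT.nd (nat_lit 78) (nat_lit 152) (nat_lit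 0) (XT.lf (nat_lit 76) (nat_lit 816467381) (nat_lit 0) (nat_lit 712696935) (nat_lit 76) (nat_lit 900783321) (nat_lit 125) (nat_lit 3) (nat_lit 124) (nat_lit 1) (nat_lit 125) (nat_lit 1) (nat_lit 375) (nat_lit 364) (nat_lit 281)) (XT.lf (nat_lit 0) (nat_lit 372207623) (nat_lit 0) (nat_lit 446560304) (nat_lit 152) (nat_lit 1549674885) (nat_lit 122) (nat_lit 3) (nat_lit 122) (nat_lit 1) (nat_lit 124) (nat_lit 1) (nat_lit 376) (nat_lit 364) (nat_lit 280))) (XT.nd (nat_lit 78) (nat_lit 152) (nat_lit 0) (XT.lf (nat_lit 76) (nat_lit 663055136) (nat_lit 0) (nat_lit 913281037) (nat_lit 76) (nat_lit 731900211) (nat_lit 122) (nat_lit 3) (nat_lit 121) (nat_lit 1) (nat_lit 122) (nat_lit 1) (nat_lit 377) (nat_lit 364) (nat_lit 279)) (XT.lf (nat_lit 0) (nat_lit 472712521) (nat_lit 0) (nat_lit 533422464) (nat_lit 152) (nat_lit 1243613383) (nat_lit 119) (nat_lit 3) (nat_lit 119) (nat_lit 1) (nat_lit 121) (nat_lit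 1) (nat_lit 378) (nat_lit 364) (nat_lit 278))))))))
noncomputable def ec73 : XT := (XT.nd (nat_lit 2106) (nat_lit 1596) (nat_lit 0) (XT.nd (nat_lit 1014) (nat_lit 1596) (nat_lit 0) (XT.nd (nat_lit 468) (nat_lit 912) (nat_lit 0) (XT.nd (nat_lit 234) (nat_lit 380) (nat_lit 0) (XT.nd (nat_lit 78) (nat_lit 228) (nat_lit 0) (XT.lf (nat_lit 76) (nat_lit 522247794) (nat_lit 0) (nat_lit 1091964863) (nat_lit 76) (nat_lit 578460704) (nat_lit 119) (nat_lit 3) (nat_lit 118) (nat_lit 1) (nat_lit 119) (nat_lit 1) (nat_lit 379) (nat_lit 364) (nat_lit 277)) (XT.nd (nat_lit 78) (nat_lit 76) (nat_lit 0) (XT.lf (nat_lit 0) (nat_lit 561528129) (nat_lit 0) (nat_lit 611098597) (nat_lit 152) (nat_lit 964424480) (nat_lit 116) (nat_lit 3) (nat_lit 116) (nat_lit 1) (nat_lit 118) (nat_lit 1) (nat_lit 380) (nat_lit 364) (nat_lit 276)) (XT.lf (nat_lit 76) (nat_lit 393333690) (nat_lit 0) (nat_lit 1250376160) (nat_lit 76)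 (nat_lit 439232271) (nat_lit 116) (nat_lit 3) (nat_lit 115) (nat_lit 1) (nat_lit 116) (nat_lit 1) (nat_lit 381) (nat_lit 364) (nat_lit 275)))) (XT.nd (nat_lit 78) (nat_lit 228) (nat_lit 0) (XT.lf (nat_lit 0) (nat_lit 639667491) (nat_lit 0) (nat_lit 680142430) (nat_lit 152) (nat_lit 710233002) (nat_lit 113) (nat_lit 3) (nat_lit 113) (nat_lit 1) (nat_lit 115) (nat_lit 1) (nat_lit 382) (nat_lit 364) (nat_lit 274)) (XT.nd (nat_lit 78) (nat_lit 152) (nat_lit 0) (XT.lf (nat_lit 76) (nat_lit 275608328) (nat_lit 0) (nat_lit 1390049933) (nat_lit 76) (nat_lit 313085124) (nat_lit 113) (nat_lit 3) (nat_lit 112) (nat_lit 1) (nat_lit 113) (nat_lit 1) (nat_lit 383) (nat_lit 364) (nat_lit 273)) (XT.lf (nat_lit 0) (nat_lit 708056054) (nat_lit 0) (nat_lit 741104374) (nat_lit 152) (nat_lit 479271338) (nat_lit 110) (nat_lit 3) (nat_lit 110) (nat_lit 1) (nat_lit 112) (nat_lit 1) (nat_lit 384) (nat_lit 364) (nat_lit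 272))))) (XT.nd (nat_lit 234) (nat_lit 608) (nat_lit 0) (XT.nd (nat_lit 78) (nat_lit 228) (nat_lit 0) (XT.lf (nat_lit 76) (nat_lit 168381526) (nat_lit 0) (nat_lit 1512430613) (nat_lit 76) (nat_lit 198981823) (nat_lit 110) (nat_lit 3) (nat_lit 109) (nat_lit 1) (nat_lit 110) (nat_lit 1) (nat_lit 385) (nat_lit 364) (nat_lit 271)) (XT.nd (nat_lit 78) (nat_lit 76) (nat_lit 0) (XT.lf (nat_lit 0) (nat_lit 767540629) (nat_lit 0) (nat_lit 794525017) (nat_lit 152) (nat_lit 269875960) (nat_lit 107) (nat_lit 3) (nat_lit 107) (nat_lit 1) (nat_lit 109) (nat_lit 1) (nat_lit 386) (nat_lit 364) (nat_lit 270)) (XT.lf (nat_lit 76) (nat_lit 70982704) (nat_lit 0) (nat_lit 1618874809) (nat_lit 76) (nat_lit 95968249) (nat_lit 107) (nat_lit 3) (nat_lit 106) (nat_lit 1) (nat_lit 107) (nat_lit 1) (nat_lit 387) (nat_lit 364) (nat_lit 269)))) (XT.nd (nat_lit 156) (nat_lit 228) (nat_lit 0) (XT.nd (nat_lit 78) (nat_lit 228)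 (nat_lit 0) (XT.lf (nat_lit 0) (nat_lit 818897181) (nat_lit 0) (nat_lit 840930289) (nat_lit 152) (nat_lit 80483516) (nat_lit 104) (nat_lit 3) (nat_lit 104) (nat_lit 1) (nat_lit 106) (nat_lit 1) (nat_lit 388) (nat_lit 364) (nat_lit 268)) (XT.lf (nat_lit 152) (nat_lit 1679654046) (nat_lit 0) (nat_lit 14256802) (nat_lit 76) (nat_lit 2649455) (nat_lit 103) (nat_lit 1) (nat_lit 101) (nat_lit 1) (nat_lit 102) (nat_lit 1) (nat_lit 389) (nat_lit 364) (nat_lit 267))) (XT.nd (nat_lit 78) (nat_lit 152) (nat_lit 0) (XT.lf (nat_lit 76) (nat_lit 770933789) (nat_lit 0) (nat_lit 93361474) (nat_lit 76) (nat_lit 788924112) (nat_lit 101) (nat_lit 3) (nat_lit 100) (nat_lit 1) (nat_lit 101) (nat_lit 1) (nat_lit 390) (nat_lit 364) (nat_lit 266)) (XT.lf (nat_lit 0) (nat_lit 82084418) (nat_lit 0) (nat_lit 97948900) (nat_lit 152) (nat_lit 1431514022) (nat_lit 98) (nat_lit 3) (nat_lit 98) (nat_lit 1) (nat_lit 100) (nat_lit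 1) (nat_lit 391) (nat_lit 364) (nat_lit 265)))))) (XT.nd (nat_lit 546) (nat_lit 836) (nat_lit 0) (XT.nd (nat_lit 234) (nat_lit 456) (nat_lit 0) (XT.nd (nat_lit 78) (nat_lit 228) (nat_lit 0) (XT.lf (nat_lit 76) (nat_lit 651812172) (nat_lit 0) (nat_lit 252140260) (nat_lit 76) (nat_lit 666501507) (nat_lit 98) (nat_lit 3) (nat_lit 97) (nat_lit 1) (nat_lit 98) (nat_lit 1) (nat_lit 392) (nat_lit 364) (nat_lit 264)) (XT.nd (nat_lit 78) (nat_lit 76) (nat_lit 0) (XT.lf (nat_lit 0) (nat_lit 157960468) (nat_lit 0) (nat_lit 170914027) (nat_lit 152) (nat_lit 1201943253) (nat_lit 95) (nat_lit 3) (nat_lit 95) (nat_lit 1) (nat_lit 97) (nat_lit 1) (nat_lit 393) (nat_lit 364) (nat_lit 263)) (XT.lf (nat_lit 76) (nat_lit 542669749) (nat_lit 0) (nat_lit 394522618) (nat_lit 76) (nat_lit 554663785) (nat_lit 95) (nat_lit 3) (nat_lit 94) (nat_lit 1) (nat_lit 95) (nat_lit 1) (nat_lit 394) (nat_lit 364) (nat_lit 262))))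 (XT.nd (nat_lit 156) (nat_lit 228) (nat_lit 0) (XT.nd (nat_lit 78) (nat_lit 76) (nat_lit 0) (XT.lf (nat_lit 0) (nat_lit 225761489) (nat_lit 0) (nat_lit 236338240) (nat_lit 152) (nat_lit 992055788) (nat_lit 92) (nat_lit 3) (nat_lit 92) (nat_lit 1) (nat_lit 94) (nat_lit 1) (nat_lit 395) (nat_lit 364) (nat_lit 261)) (XT.lf (nat_lit 76) (nat_lit 442833554) (nat_lit 0) (nat_lit 521753826) (nat_lit 76) (nat_lit 452626842) (nat_lit 92) (nat_lit 3) (nat_lit 91) (nat_lit 1) (nat_lit 92) (nat_lit 1) (nat_lit 396) (nat_lit 364) (nat_lit 260))) (XT.nd (nat_lit 78) (nat_lit 76) (nat_lit 0) (XT.lf (nat_lit 0) (nat_lit 286133135) (nat_lit 0) (nat_lit 294769191) (nat_lit 152) (nat_lit 800451580) (nat_lit 89) (nat_lit 3) (nat_lit 89) (nat_lit 1) (nat_lit 91) (nat_lit 1) (nat_lit 397) (nat_lit 364) (nat_lit 259)) (XT.lf (nat_lit 76) (nat_lit 351666494) (nat_lit 0) (nat_lit 634998001) (nat_lit 76) (nat_lit 359662843)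 (nat_lit 89) (nat_lit 3) (nat_lit 88) (nat_lit 1) (nat_lit 89) (nat_lit 1) (nat_lit 398) (nat_lit 364) (nat_lit 258))))) (XT.nd (nat_lit 234) (nat_lit 456) (nat_lit 0) (XT.nd (nat_lit 78) (nat_lit 228) (nat_lit 0) (XT.lf (nat_lit 0) (nat_lit 339672946) (nat_lit 0) (nat_lit 346724400) (nat_lit 152) (nat_lit 625819544) (nat_lit 86) (nat_lit 3) (nat_lit 86) (nat_lit 1) (nat_lit 88) (nat_lit 1) (nat_lit 399) (nat_lit 364) (nat_lit 257)) (XT.nd (nat_lit 78) (nat_lit 152) (nat_lit 0) (XT.lf (nat_lit 76) (nat_lit 268566722) (nat_lit 0) (nat_lit 735342508) (nat_lit 76) (nat_lit 275095846) (nat_lit 86) (nat_lit 3) (nat_lit 85) (nat_lit 1) (nat_lit 86) (nat_lit 1) (nat_lit 400) (nat_lit 364) (nat_lit 256)) (XT.lf (nat_lit 0) (nat_lit 386934154) (nat_lit 0) (nat_lit 392691759) (nat_lit 152) (nat_lit 466932652) (nat_lit 83) (nat_lit 3) (nat_lit 83) (nat_lit 1) (nat_lit 85) (nat_lit 1) (nat_lit 401) (nat_lit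 364) (nat_lit 255)))) (XT.nd (nat_lit 156) (nat_lit 228) (nat_lit 0) (XT.nd (nat_lit 78) (nat_lit 152) (nat_lit 0) (XT.lf (nat_lit 76) (nat_lit 192966734) (nat_lit 0) (nat_lit 823802240) (nat_lit 76) (nat_lit 198297850) (nat_lit 83) (nat_lit 3) (nat_lit 82) (nat_lit 1) (nat_lit 83) (nat_lit 1) (nat_lit 402) (nat_lit 364) (nat_lit 254)) (XT.lf (nat_lit 0) (nat_lit 428429119) (nat_lit 0) (nat_lit 433130280) (nat_lit 152) (nat_lit 322643214) (nat_lit 80) (nat_lit 3) (nat_lit 80) (nat_lit 1) (nat_lit 82) (nat_lit 1) (nat_lit 403) (nat_lit 364) (nat_lit 253))) (XT.nd (nat_lit 78) (nat_lit 152) (nat_lit 0) (XT.lf (nat_lit 76) (nat_lit 124332285) (nat_lit 0) (nat_lit 901323770) (nat_lit 76) (nat_lit 128685211) (nat_lit 80) (nat_lit 3) (nat_lit 79) (nat_lit 1) (nat_lit 80) (nat_lit 1) (nat_lit 404) (nat_lit 364) (nat_lit 252)) (XT.lf (nat_lit 0) (nat_lit 464632448) (nat_lit 0) (nat_lit 468471007) (nat_lit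 152) (nat_lit 191878322) (nat_lit 77) (nat_lit 3) (nat_lit 77) (nat_lit 1) (nat_lit 79) (nat_lit 1) (nat_lit 405) (nat_lit 364) (nat_lit 251))))))) (XT.nd (nat_lit 44070) (nat_lit 0) (nat_lit 15580) (XT.nd (nat_lit 468) (nat_lit 836) (nat_lit 0) (XT.nd (nat_lit 234) (nat_lit 456) (nat_lit 0) (XT.nd (nat_lit 78) (nat_lit 228) (nat_lit 0) (XT.lf (nat_lit 76) (nat_lit 62161158) (nat_lit 0) (nat_lit 968789336) (nat_lit 76) (nat_lit 65715380) (nat_lit 77) (nat_lit 3) (nat_lit 76) (nat_lit 1) (nat_lit 77) (nat_lit 1) (nat_lit 406) (nat_lit 364) (nat_lit 250)) (XT.nd (nat_lit 78) (nat_lit 76) (nat_lit 0) (XT.lf (nat_lit 0) (nat_lit 495983825) (nat_lit 0) (nat_lit 499118059) (nat_lit 152) (nat_lit 73635495) (nat_lit 74) (nat_lit 3) (nat_lit 74) (nat_lit 1) (nat_lit 76) (nat_lit 1) (nat_lit 407) (nat_lit 364) (nat_lit 249)) (XT.lf (nat_lit 76) (nat_lit 5981852) (nat_lit 0) (nat_lit 1027020671) (nat_lit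 76) (nat_lit 8883921) (nat_lit 74) (nat_lit 3) (nat_lit 73) (nat_lit 1) (nat_lit 74) (nat_lit 1) (nat_lit 408) (nat_lit 364) (nat_lit 248)))) (XT.nd (nat_lit 78) (nat_lit 228) (nat_lit 0) (XT.lf (nat_lit 76) (nat_lit 489309887) (nat_lit 0) (nat_lit 34113322) (nat_lit 76) (nat_lit 491869031) (nat_lit 71) (nat_lit 3) (nat_lit 70) (nat_lit 1) (nat_lit 71) (nat_lit 1) (nat_lit 409) (nat_lit 364) (nat_lit 247)) (XT.nd (nat_lit 78) (nat_lit 76) (nat_lit 0) (XT.lf (nat_lit 0) (nat_lit 43047136) (nat_lit 0) (nat_lit 45303876) (nat_lit 152) (nat_lit 901366536) (nat_lit 68) (nat_lit 3) (nat_lit 68) (nat_lit 1) (nat_lit 70) (nat_lit 1) (nat_lit 410) (nat_lit 364) (nat_lit 246)) (XT.lf (nat_lit 76) (nat_lit 414579533) (nat_lit 0) (nat_lit 133230750) (nat_lit 76) (nat_lit 416669107) (nat_lit 68) (nat_lit 3) (nat_lit 67) (nat_lit 1) (nat_lit 68) (nat_lit 1) (nat_lit 411) (nat_lit 364) (nat_lit 245))))) (XT.nd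 (nat_lit 234) (nat_lit 456) (nat_lit 0) (XT.nd (nat_lit 78) (nat_lit 228) (nat_lit 0) (XT.lf (nat_lit 0) (nat_lit 89715117) (nat_lit 0) (nat_lit 91557775) (nat_lit 152) (nat_lit 758879356) (nat_lit 65) (nat_lit 3) (nat_lit 65) (nat_lit 1) (nat_lit 67) (nat_lit 1) (nat_lit 412) (nat_lit 364) (nat_lit 244)) (XT.nd (nat_lit 78) (nat_lit 152) (nat_lit 0) (XT.lf (nat_lit 76) (nat_lit 346195707) (nat_lit 0) (nat_lit 222124421) (nat_lit 76) (nat_lit 347901871) (nat_lit 65) (nat_lit 3) (nat_lit 64) (nat_lit 1) (nat_lit 65) (nat_lit 1) (nat_lit 413) (nat_lit 364) (nat_lit 243)) (XT.lf (nat_lit 0) (nat_lit 131478919) (nat_lit 0) (nat_lit 132983474) (nat_lit 152) (nat_lit 628618904) (nat_lit 62) (nat_lit 3) (nat_lit 62) (nat_lit 1) (nat_lit 64) (nat_lit 1) (nat_lit 414) (nat_lit 364) (nat_lit 242)))) (XT.nd (nat_lit 156) (nat_lit 228) (nat_lit 0) (XT.nd (nat_lit 78) (nat_lit 152) (nat_lit 0) (XT.lf (nat_lit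 76) (nat_lit 283708887) (nat_lit 0) (nat_lit 301579922) (nat_lit 76) (nat_lit 285101993) (nat_lit 62) (nat_lit 3) (nat_lit 61) (nat_lit 1) (nat_lit 62) (nat_lit 1) (nat_lit 415) (nat_lit 364) (nat_lit 241)) (XT.lf (nat_lit 0) (nat_lit 168721373) (nat_lit 0) (nat_lit 169949861) (nat_lit 152) (nat_lit 509707214) (nat_lit 59) (nat_lit 3) (nat_lit 59) (nat_lit 1) (nat_lit 61) (nat_lit 1) (nat_lit 416) (nat_lit 364) (nat_lit 240))) (XT.nd (nat_lit 78) (nat_lit 152) (nat_lit 0) (XT.lf (nat_lit 76) (nat_lit 226698035) (nat_lit 0) (nat_lit 372329578) (nat_lit 76) (nat_lit 227835524) (nat_lit 59) (nat_lit 3) (nat_lit 58) (nat_lit 1) (nat_lit 59) (nat_lit 1) (nat_lit 417) (nat_lit 364) (nat_lit 239)) (XT.lf (nat_lit 0) (nat_lit 201798465) (nat_lit 0) (nat_lit 202801542) (nat_lit 152) (nat_lit 401323896) (nat_lit 56) (nat_lit 3) (nat_lit 56) (nat_lit 1) (nat_lit 58) (nat_lit 1) (nat_lit 418) (nat_lit 364)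 (nat_lit 238)))))) (XT.nd (nat_lit 546) (nat_lit 2356) (nat_lit 0) (XT.nd (nat_lit 234) (nat_lit 0) (nat_lit 152) (XT.nd (nat_lit 78) (nat_lit 0) (nat_lit 76) (XT.lf (nat_lit 836) (nat_lit 3679963966) (nat_lit 0) (nat_lit 6533767563) (nat_lit 836) (nat_lit 3679963966) (nat_lit 303) (nat_lit 1) (nat_lit 292) (nat_lit 0) (nat_lit 303) (nat_lit 0) (nat_lit 290) (nat_lit 365) (nat_lit 365)) (XT.nd (nat_lit 78) (nat_lit 0) (nat_lit 0) (XT.lf (nat_lit 836) (nat_lit 1372739475) (nat_lit 0) (nat_lit 12827765956) (nat_lit 760) (nat_lit 12545512249) (nat_lit 304) (nat_lit 1) (nat_lit 293) (nat_lit 1) (nat_lit 303) (nat_lit 1) (nat_lit 291) (nat_lit 365) (nat_lit 364)) (XT.lf (nat_lit 836) (nat_lit 12607819729) (nat_lit 76) (nat_lit 8590759185) (nat_lit 0) (nat_lit 4556146794) (nat_lit 304) (nat_lit 1) (nat_lit 294) (nat_lit 1) (nat_lit 293) (nat_lit 1) (nat_lit 292) (nat_lit 365) (nat_lit 363)))) (XT.nd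 (nat_lit 156) (nat_lit 0) (nat_lit 152) (XT.nd (nat_lit 78) (nat_lit 0) (nat_lit 76) (XT.lf (nat_lit 836) (nat_lit 10894189094) (nat_lit 76) (nat_lit 3600327629) (nat_lit 0) (nat_lit 10318523779) (nat_lit 305) (nat_lit 1) (nat_lit 295) (nat_lit 1) (nat_lit 294) (nat_lit 1) (nat_lit 293) (nat_lit 365) (nat_lit 362)) (XT.lf (nat_lit 836) (nat_lit 8062626121) (nat_lit 0) (nat_lit 15084792369) (nat_lit 760) (nat_lit 771132430) (nat_lit 306) (nat_lit 1) (nat_lit 295) (nat_lit 1) (nat_lit 305) (nat_lit 1) (nat_lit 294) (nat_lit 365) (nat_lit 361))) (XT.nd (nat_lit 78) (nat_lit 0) (nat_lit 0) (XT.lf (nat_lit 836) (nat_lit 1934548085) (nat_lit 0) (nat_lit 16635174305) (nat_lit 760) (nat_lit 4497057088) (nat_lit 307) (nat_lit 1) (nat_lit 296) (nat_lit 1) (nat_lit 306) (nat_lit 1) (nat_lit 295) (nat_lit 365) (nat_lit 360)) (XT.lf (nat_lit 836) (nat_lit 3717414573) (nat_lit 76) (nat_lit 14457321131) (nat_lit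 0) (nat_lit 4080034392) (nat_lit 307) (nat_lit 1) (nat_lit 297) (nat_lit 1) (nat_lit 296) (nat_lit 1) (nat_lit 296) (nat_lit 365) (nat_lit 359))))) (XT.nd (nat_lit 234) (nat_lit 1064) (nat_lit 0) (XT.nd (nat_lit 78) (nat_lit 912) (nat_lit 0) (XT.lf (nat_lit 836) (nat_lit 763472185) (nat_lit 0) (nat_lit 10807803860) (nat_lit 760) (nat_lit 9910642897) (nat_lit 298) (nat_lit 1) (nat_lit 287) (nat_lit 1) (nat_lit 297) (nat_lit 1) (nat_lit 297) (nat_lit 365) (nat_lit 358)) (XT.nd (nat_lit 78) (nat_lit 380) (nat_lit 0) (XT.lf (nat_lit 76) (nat_lit 5286440446) (nat_lit 0) (nat_lit 2290860656) (nat_lit 532) (nat_lit 13168360441) (nat_lit 281) (nat_lit 1) (nat_lit 280) (nat_lit 1) (nat_lit 287) (nat_lit 1) (nat_lit 298) (nat_lit 365) (nat_lit 357)) (XT.lf (nat_lit 456) (nat_lit 14568764484) (nat_lit 0) (nat_lit 4742446916) (nat_lit 380) (nat_lit 733211596) (nat_lit 281) (nat_lit 1) (nat_lit 275) (nat_lit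 1) (nat_lit 280) (nat_lit 1) (nat_lit 299) (nat_lit 365) (nat_lit 356)))) (XT.nd (nat_lit 156) (nat_lit 380) (nat_lit 0) (XT.nd (nat_lit 78) (nat_lit 304) (nat_lit 0) (XT.lf (nat_lit 456) (nat_lit 10512959186) (nat_lit 0) (nat_lit 2210474936) (nat_lit 380) (nat_lit 6649902330) (nat_lit 276) (nat_lit 1) (nat_lit 270) (nat_lit 1) (nat_lit 275) (nat_lit 1) (nat_lit 300) (nat_lit 365) (nat_lit 355)) (XT.lf (nat_lit 380) (nat_lit 6397001583) (nat_lit 0) (nat_lit 40698435) (nat_lit 304) (nat_lit 12297089417) (nat_lit 271) (nat_lit 1) (nat_lit 266) (nat_lit 1) (nat_lit 270) (nat_lit 1) (nat_lit 301) (nat_lit 365) (nat_lit 354))) (XT.nd (nat_lit 78) (nat_lit 380) (nat_lit 0) (XT.lf (nat_lit 76) (nat_lit 471940544) (nat_lit 0) (nat_lit 15916121993) (nat_lit 380) (nat_lit 1737554185) (nat_lit 267) (nat_lit 1) (nat_lit 266) (nat_lit 1) (nat_lit 271) (nat_lit 1) (nat_lit 302) (nat_lit 365) (nat_lit 353))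 (XT.lf (nat_lit 76) (nat_lit 12185627270) (nat_lit 0) (nat_lit 2021116668) (nat_lit 380) (nat_lit 3333188448) (nat_lit 262) (nat_lit 1) (nat_lit 261) (nat_lit 1) (nat_lit 266) (nat_lit 1) (nat_lit 303) (nat_lit 365) (nat_lit 352))))))))
noncomputable def ec74 : XT := (XT.nd (nat_lit 2028) (nat_lit 3116) (nat_lit 0) (XT.nd (nat_lit 1014) (nat_lit 2052) (nat_lit 0) (XT.nd (nat_lit 468) (nat_lit 1520) (nat_lit 0) (XT.nd (nat_lit 234) (nat_lit 836) (nat_lit 0) (XT.nd (nat_lit 78) (nat_lit 532) (nat_lit 0) (XT.lf (nat_lit 76) (nat_lit 6096778114) (nat_lit 0) (nat_lit 6191039135) (nat_lit 380) (nat_lit 4692309320) (nat_lit 258) (nat_lit 1) (nat_lit 257) (nat_lit 1) (nat_lit 262) (nat_lit 1) (nat_lit 304) (nat_lit 365) (nat_lit 351)) (XT.nd (nat_lit 78) (nat_lit 228) (nat_lit 0) (XT.lf (nat_lit 76) (nat_lit 300923448) (nat_lit 0) (nat_lit 10351321301) (nat_lit 380) (nat_lit 5794580959) (nat_lit 254)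 (nat_lit 1) (nat_lit 253) (nat_lit 1) (nat_lit 258) (nat_lit 1) (nat_lit 305) (nat_lit 365) (nat_lit 350)) (XT.lf (nat_lit 304) (nat_lit 1358953332) (nat_lit 0) (nat_lit 9189950901) (nat_lit 228) (nat_lit 5385522436) (nat_lit 254) (nat_lit 1) (nat_lit 250) (nat_lit 1) (nat_lit 253) (nat_lit 1) (nat_lit 306) (nat_lit 365) (nat_lit 349)))) (XT.nd (nat_lit 78) (nat_lit 456) (nat_lit 0) (XT.lf (nat_lit 76) (nat_lit 4695549133) (nat_lit 0) (nat_lit 3218358552) (nat_lit 380) (nat_lit 7529288078) (nat_lit 246) (nat_lit 1) (nat_lit 245) (nat_lit 1) (nat_lit 250) (nat_lit 1) (nat_lit 307) (nat_lit 365) (nat_lit 348)) (XT.nd (nat_lit 78) (nat_lit 228) (nat_lit 0) (XT.lf (nat_lit 304) (nat_lit 7269839484) (nat_lit 0) (nat_lit 6829074590) (nat_lit 228) (nat_lit 874113442) (nat_lit 246) (nat_lit 1) (nat_lit 242) (nat_lit 1) (nat_lit 245) (nat_lit 1) (nat_lit 308) (nat_lit 365) (nat_lit 347)) (XT.lf (nat_lit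 304) (nat_lit 2329948433) (nat_lit 0) (nat_lit 5879553574) (nat_lit 228) (nat_lit 6311425959) (nat_lit 243) (nat_lit 1) (nat_lit 239) (nat_lit 1) (nat_lit 242) (nat_lit 1) (nat_lit 309) (nat_lit 365) (nat_lit 346))))) (XT.nd (nat_lit 234) (nat_lit 836) (nat_lit 0) (XT.nd (nat_lit 78) (nat_lit 380) (nat_lit 0) (XT.lf (nat_lit 76) (nat_lit 2655578223) (nat_lit 0) (nat_lit 2431412638) (nat_lit 304) (nat_lit 9000614100) (nat_lit 236) (nat_lit 1) (nat_lit 235) (nat_lit 1) (nat_lit 239) (nat_lit 1) (nat_lit 310) (nat_lit 365) (nat_lit 345)) (XT.nd (nat_lit 78) (nat_lit 152) (nat_lit 0) (XT.lf (nat_lit 304) (nat_lit 6608057866) (nat_lit 0) (nat_lit 4396756828) (nat_lit 228) (nat_lit 2665328445) (nat_lit 236) (nat_lit 1) (nat_lit 232) (nat_lit 1) (nat_lit 235) (nat_lit 1) (nat_lit 311) (nat_lit 365) (nat_lit 344)) (XT.lf (nat_lit 228) (nat_lit 1638147302) (nat_lit 0) (nat_lit 3835849632) (nat_lit 152)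 (nat_lit 7795525956) (nat_lit 233) (nat_lit 1) (nat_lit 230) (nat_lit 1) (nat_lit 232) (nat_lit 1) (nat_lit 312) (nat_lit 365) (nat_lit 343)))) (XT.nd (nat_lit 156) (nat_lit 380) (nat_lit 0) (XT.nd (nat_lit 78) (nat_lit 152) (nat_lit 0) (XT.lf (nat_lit 76) (nat_lit 277512618) (nat_lit 0) (nat_lit 3105426448) (nat_lit 304) (nat_lit 9501492670) (nat_lit 227) (nat_lit 1) (nat_lit 226) (nat_lit 1) (nat_lit 230) (nat_lit 1) (nat_lit 313) (nat_lit 365) (nat_lit 342)) (XT.lf (nat_lit 228) (nat_lit 4760155481) (nat_lit 0) (nat_lit 2974688802) (nat_lit 152) (nat_lit 4776720870) (nat_lit 227) (nat_lit 1) (nat_lit 224) (nat_lit 1) (nat_lit 226) (nat_lit 1) (nat_lit 314) (nat_lit 365) (nat_lit 341))) (XT.nd (nat_lit 78) (nat_lit 152) (nat_lit 0) (XT.lf (nat_lit 76) (nat_lit 2582661436) (nat_lit 0) (nat_lit 119294750) (nat_lit 228) (nat_lit 9453012997) (nat_lit 222) (nat_lit 1) (nat_lit 221) (nat_lit 1) (nat_lit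 224) (nat_lit 1) (nat_lit 315) (nat_lit 365) (nat_lit 340)) (XT.lf (nat_lit 228) (nat_lit 7060497642) (nat_lit 0) (nat_lit 2446620742) (nat_lit 152) (nat_lit 2301627951) (nat_lit 222) (nat_lit 1) (nat_lit 219) (nat_lit 1) (nat_lit 221) (nat_lit 1) (nat_lit 316) (nat_lit 365) (nat_lit 339)))))) (XT.nd (nat_lit 468) (nat_lit 1140) (nat_lit 0) (XT.nd (nat_lit 234) (nat_lit 380) (nat_lit 0) (XT.nd (nat_lit 78) (nat_lit 380) (nat_lit 0) (XT.lf (nat_lit 228) (nat_lit 2193273501) (nat_lit 0) (nat_lit 2274404531) (nat_lit 152) (nat_lit 7008083070) (nat_lit 220) (nat_lit 1) (nat_lit 217) (nat_lit 1) (nat_lit 219) (nat_lit 1) (nat_lit 317) (nat_lit 365) (nat_lit 338)) (XT.nd (nat_lit 78) (nat_lit 152) (nat_lit 0) (XT.lf (nat_lit 228) (nat_lit 8706489750) (nat_lit 0) (nat_lit 2173008927) (nat_lit 152) (nat_lit 275671393) (nat_lit 217) (nat_lit 1) (nat_lit 214) (nat_lit 1) (nat_lit 216) (nat_lit 1) (nat_lit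 318) (nat_lit 365) (nat_lit 337)) (XT.lf (nat_lit 228) (nat_lit 3896621300) (nat_lit 0) (nat_lit 2074490903) (nat_lit 152) (nat_lit 4872375048) (nat_lit 215) (nat_lit 1) (nat_lit 212) (nat_lit 1) (nat_lit 214) (nat_lit 1) (nat_lit 319) (nat_lit 365) (nat_lit 336)))) (XT.nd (nat_lit 78) (nat_lit 228) (nat_lit 0) (XT.lf (nat_lit 76) (nat_lit 1334743239) (nat_lit 0) (nat_lit 733635029) (nat_lit 152) (nat_lit 8476353961) (nat_lit 211) (nat_lit 1) (nat_lit 210) (nat_lit 1) (nat_lit 212) (nat_lit 1) (nat_lit 320) (nat_lit 365) (nat_lit 335)) (XT.nd (nat_lit 78) (nat_lit 76) (nat_lit 0) (XT.lf (nat_lit 228) (nat_lit 5112591244) (nat_lit 0) (nat_lit 2046476446) (nat_lit 152) (nat_lit 3094448318) (nat_lit 211) (nat_lit 1) (nat_lit 208) (nat_lit 1) (nat_lit 210) (nat_lit 1) (nat_lit 321) (nat_lit 365) (nat_lit 334)) (XT.lf (nat_lit 152) (nat_lit 550553427) (nat_lit 0) (nat_lit 2096740552) (nat_lit 76)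 (nat_lit 7326502647) (nat_lit 209) (nat_lit 1) (nat_lit 207) (nat_lit 1) (nat_lit 208) (nat_lit 1) (nat_lit 322) (nat_lit 365) (nat_lit 333))))) (XT.nd (nat_lit 234) (nat_lit 608) (nat_lit 0) (XT.nd (nat_lit 78) (nat_lit 304) (nat_lit 0) (XT.lf (nat_lit 228) (nat_lit 5943020993) (nat_lit 0) (nat_lit 2144406062) (nat_lit 152) (nat_lit 1614362917) (nat_lit 207) (nat_lit 1) (nat_lit 204) (nat_lit 1) (nat_lit 206) (nat_lit 1) (nat_lit 323) (nat_lit 365) (nat_lit 332)) (XT.nd (nat_lit 78) (nat_lit 228) (nat_lit 0) (XT.lf (nat_lit 152) (nat_lit 1494713603) (nat_lit 0) (nat_lit 2224587566) (nat_lit 76) (nat_lit 5719649320) (nat_lit 205) (nat_lit 1) (nat_lit 203) (nat_lit 1) (nat_lit 204) (nat_lit 1) (nat_lit 324) (nat_lit 365) (nat_lit 331)) (XT.lf (nat_lit 228) (nat_lit 6470247598) (nat_lit 0) (nat_lit 2331880082) (nat_lit 152) (nat_lit 382681483) (nat_lit 203) (nat_lit 1) (nat_lit 200) (nat_lit 1)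 (nat_lit 202) (nat_lit 1) (nat_lit 325) (nat_lit 365) (nat_lit 330)))) (XT.nd (nat_lit 156) (nat_lit 304) (nat_lit 0) (XT.nd (nat_lit 78) (nat_lit 228) (nat_lit 0) (XT.lf (nat_lit 152) (nat_lit 2151097938) (nat_lit 0) (nat_lit 2431013006) (nat_lit 76) (nat_lit 4355369745) (nat_lit 201) (nat_lit 1) (nat_lit 199) (nat_lit 1) (nat_lit 200) (nat_lit 1) (nat_lit 326) (nat_lit 365) (nat_lit 329)) (XT.lf (nat_lit 76) (nat_lit 620892470) (nat_lit 0) (nat_lit 1948815959) (nat_lit 228) (nat_lit 6129329076) (nat_lit 197) (nat_lit 1) (nat_lit 196) (nat_lit 1) (nat_lit 199) (nat_lit 1) (nat_lit 327) (nat_lit 365) (nat_lit 328))) (XT.nd (nat_lit 78) (nat_lit 228) (nat_lit 0) (XT.lf (nat_lit 152) (nat_lit 2581511603) (nat_lit 0) (nat_lit 2689812730) (nat_lit 76) (nat_lit 3195191580) (nat_lit 197) (nat_lit 1) (nat_lit 195) (nat_lit 1) (nat_lit 196) (nat_lit 1) (nat_lit 328) (nat_lit 365) (nat_lit 327)) (XT.lf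 (nat_lit 76) (nat_lit 1443964697) (nat_lit 0) (nat_lit 1398577450) (nat_lit 228) (nat_lit 5399623551) (nat_lit 193) (nat_lit 1) (nat_lit 192) (nat_lit 1) (nat_lit 195) (nat_lit 1) (nat_lit 329) (nat_lit 365) (nat_lit 326))))))) (XT.nd (nat_lit 1014) (nat_lit 1672) (nat_lit 0) (XT.nd (nat_lit 468) (nat_lit 760) (nat_lit 0) (XT.nd (nat_lit 234) (nat_lit 380) (nat_lit 0) (XT.nd (nat_lit 78) (nat_lit 228) (nat_lit 0) (XT.lf (nat_lit 152) (nat_lit 2835796289) (nat_lit 0) (nat_lit 2980531445) (nat_lit 76) (nat_lit 2207219812) (nat_lit 193) (nat_lit 1) (nat_lit 191) (nat_lit 1) (nat_lit 192) (nat_lit 1) (nat_lit 330) (nat_lit 365) (nat_lit 325)) (XT.nd (nat_lit 78) (nat_lit 76) (nat_lit 0) (XT.lf (nat_lit 76) (nat_lit 2125849937) (nat_lit 0) (nat_lit 1012929457) (nat_lit 152) (nat_lit 4673369950) (nat_lit 190) (nat_lit 1) (nat_lit 189) (nat_lit 1) (nat_lit 191) (nat_lit 1) (nat_lit 331) (nat_lit 365)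 (nat_lit 324)) (XT.lf (nat_lit 152) (nat_lit 2954065659) (nat_lit 0) (nat_lit 3287342286) (nat_lit 76) (nat_lit 1364963498) (nat_lit 190) (nat_lit 1) (nat_lit 188) (nat_lit 1) (nat_lit 189) (nat_lit 1) (nat_lit 332) (nat_lit 365) (nat_lit 323)))) (XT.nd (nat_lit 78) (nat_lit 228) (nat_lit 0) (XT.lf (nat_lit 76) (nat_lit 2689002512) (nat_lit 0) (nat_lit 755658583) (nat_lit 152) (nat_lit 3962261961) (nat_lit 187) (nat_lit 1) (nat_lit 186) (nat_lit 1) (nat_lit 188) (nat_lit 1) (nat_lit 333) (nat_lit 365) (nat_lit 322)) (XT.nd (nat_lit 78) (nat_lit 152) (nat_lit 0) (XT.lf (nat_lit 152) (nat_lit 2968528135) (nat_lit 0) (nat_lit 3598136233) (nat_lit 76) (nat_lit 646375595) (nat_lit 187) (nat_lit 1) (nat_lit 185) (nat_lit 1) (nat_lit 186) (nat_lit 1) (nat_lit 334) (nat_lit 365) (nat_lit 321)) (XT.lf (nat_lit 76) (nat_lit 3152084471) (nat_lit 0) (nat_lit 597645887) (nat_lit 152) (nat_lit 3274925591)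 (nat_lit 184) (nat_lit 1) (nat_lit 183) (nat_lit 1) (nat_lit 185) (nat_lit 1) (nat_lit 335) (nat_lit 365) (nat_lit 320))))) (XT.nd (nat_lit 234) (nat_lit 456) (nat_lit 0) (XT.nd (nat_lit 78) (nat_lit 228) (nat_lit 0) (XT.lf (nat_lit 152) (nat_lit 2904972863) (nat_lit 0) (nat_lit 3903782606) (nat_lit 76) (nat_lit 33066931) (nat_lit 184) (nat_lit 1) (nat_lit 182) (nat_lit 1) (nat_lit 183) (nat_lit 1) (nat_lit 336) (nat_lit 365) (nat_lit 319)) (XT.nd (nat_lit 78) (nat_lit 76) (nat_lit 0) (XT.lf (nat_lit 76) (nat_lit 3530636856) (nat_lit 0) (nat_lit 515534780) (nat_lit 152) (nat_lit 2617544305) (nat_lit 181) (nat_lit 1) (nat_lit 180) (nat_lit 1) (nat_lit 182) (nat_lit 1) (nat_lit 337) (nat_lit 365) (nat_lit 318)) (XT.lf (nat_lit 0) (nat_lit 474643663) (nat_lit 0) (nat_lit 3714847018) (nat_lit 152) (nat_lit 2301298835) (nat_lit 179) (nat_lit 3) (nat_lit 179) (nat_lit 1) (nat_lit 181) (nat_lit 1) (nat_lit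 338) (nat_lit 365) (nat_lit 317)))) (XT.nd (nat_lit 156) (nat_lit 228) (nat_lit 0) (XT.nd (nat_lit 78) (nat_lit 76) (nat_lit 0) (XT.lf (nat_lit 76) (nat_lit 3837629465) (nat_lit 0) (nat_lit 490645267) (nat_lit 152) (nat_lit 1994365494) (nat_lit 178) (nat_lit 1) (nat_lit 177) (nat_lit 1) (nat_lit 179) (nat_lit 1) (nat_lit 339) (nat_lit 365) (nat_lit 316)) (XT.lf (nat_lit 0) (nat_lit 906744993) (nat_lit 0) (nat_lit 3552413680) (nat_lit 152) (nat_lit 1699810457) (nat_lit 176) (nat_lit 3) (nat_lit 176) (nat_lit 1) (nat_lit 178) (nat_lit 1) (nat_lit 340) (nat_lit 365) (nat_lit 315))) (XT.nd (nat_lit 78) (nat_lit 76) (nat_lit 0) (XT.lf (nat_lit 76) (nat_lit 4083911291) (nat_lit 0) (nat_lit 508089242) (nat_lit 152) (nat_lit 1408110281) (nat_lit 175) (nat_lit 1) (nat_lit 174) (nat_lit 1) (nat_lit 176) (nat_lit 1) (nat_lit 341) (nat_lit 365) (nat_lit 314)) (XT.lf (nat_lit 0) (nat_lit 1274782549) (nat_lit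 0) (nat_lit 3435005855) (nat_lit 152) (nat_lit 1135335686) (nat_lit 173) (nat_lit 3) (nat_lit 173) (nat_lit 1) (nat_lit 175) (nat_lit 1) (nat_lit 342) (nat_lit 365) (nat_lit 313)))))) (XT.nd (nat_lit 546) (nat_lit 760) (nat_lit 0) (XT.nd (nat_lit 234) (nat_lit 532) (nat_lit 0) (XT.nd (nat_lit 78) (nat_lit 228) (nat_lit 0) (XT.lf (nat_lit 76) (nat_lit 4278579772) (nat_lit 0) (nat_lit 556049814) (nat_lit 152) (nat_lit 860304644) (nat_lit 172) (nat_lit 1) (nat_lit 171) (nat_lit 1) (nat_lit 173) (nat_lit 1) (nat_lit 343) (nat_lit 365) (nat_lit 312)) (XT.nd (nat_lit 78) (nat_lit 152) (nat_lit 0) (XT.lf (nat_lit 0) (nat_lit 1587598054) (nat_lit 0) (nat_lit 3351448817) (nat_lit 152) (nat_lit 609062005) (nat_lit 170) (nat_lit 3) (nat_lit 170) (nat_lit 1) (nat_lit 172) (nat_lit 1) (nat_lit 344) (nat_lit 365) (nat_lit 311)) (XT.lf (nat_lit 76) (nat_lit 4429283639) (nat_lit 0) (nat_lit 625194467) (nat_lit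 152) (nat_lit 351546491) (nat_lit 169) (nat_lit 1) (nat_lit 168) (nat_lit 1) (nat_lit 170) (nat_lit 1) (nat_lit 345) (nat_lit 365) (nat_lit 310)))) (XT.nd (nat_lit 156) (nat_lit 228) (nat_lit 0) (XT.nd (nat_lit 78) (nat_lit 228) (nat_lit 0) (XT.lf (nat_lit 0) (nat_lit 1852669496) (nat_lit 0) (nat_lit 3292876860) (nat_lit 152) (nat_lit 121333293) (nat_lit 167) (nat_lit 3) (nat_lit 167) (nat_lit 1) (nat_lit 169) (nat_lit 1) (nat_lit 346) (nat_lit 365) (nat_lit 309)) (XT.lf (nat_lit 152) (nat_lit 4422189030) (nat_lit 0) (nat_lit 122190185) (nat_lit 76) (nat_lit 587914947) (nat_lit 166) (nat_lit 1) (nat_lit 164) (nat_lit 1) (nat_lit 165) (nat_lit 1) (nat_lit 347) (nat_lit 365) (nat_lit 308))) (XT.nd (nat_lit 78) (nat_lit 152) (nat_lit 0) (XT.lf (nat_lit 76) (nat_lit 1742632932) (nat_lit 0) (nat_lit 339002316) (nat_lit 76) (nat_lit 2918581201) (nat_lit 164) (nat_lit 3) (nat_lit 163) (nat_lit 1) (nat_lit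 164) (nat_lit 1) (nat_lit 348) (nat_lit 365) (nat_lit 307)) (XT.lf (nat_lit 152) (nat_lit 4064455881) (nat_lit 0) (nat_lit 568008220) (nat_lit 76) (nat_lit 240210906) (nat_lit 163) (nat_lit 1) (nat_lit 161) (nat_lit 1) (nat_lit 162) (nat_lit 1) (nat_lit 349) (nat_lit 365) (nat_lit 306))))) (XT.nd (nat_lit 234) (nat_lit 456) (nat_lit 0) (XT.nd (nat_lit 78) (nat_lit 228) (nat_lit 0) (XT.lf (nat_lit 76) (nat_lit 1511302435) (nat_lit 0) (nat_lit 764656344) (nat_lit 76) (nat_lit 2471479675) (nat_lit 161) (nat_lit 3) (nat_lit 160) (nat_lit 1) (nat_lit 161) (nat_lit 1) (nat_lit 350) (nat_lit 365) (nat_lit 305)) (XT.nd (nat_lit 78) (nat_lit 76) (nat_lit 0) (XT.lf (nat_lit 0) (nat_lit 63789564) (nat_lit 0) (nat_lit 910506706) (nat_lit 152) (nat_lit 3652263197) (nat_lit 158) (nat_lit 3) (nat_lit 158) (nat_lit 1) (nat_lit 160) (nat_lit 1) (nat_lit 351) (nat_lit 365) (nat_lit 304)) (XT.lf (nat_lit 76) (nat_lit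 1285516446) (nat_lit 0) (nat_lit 1152802739) (nat_lit 76) (nat_lit 2069513801) (nat_lit 158) (nat_lit 3) (nat_lit 157) (nat_lit 1) (nat_lit 158) (nat_lit 1) (nat_lit 352) (nat_lit 365) (nat_lit 303)))) (XT.nd (nat_lit 156) (nat_lit 228) (nat_lit 0) (XT.nd (nat_lit 78) (nat_lit 76) (nat_lit 0) (XT.lf (nat_lit 0) (nat_lit 324419734) (nat_lit 0) (nat_lit 1015775426) (nat_lit 152) (nat_lit 3052868563) (nat_lit 155) (nat_lit 3) (nat_lit 155) (nat_lit 1) (nat_lit 157) (nat_lit 1) (nat_lit 353) (nat_lit 365) (nat_lit 302)) (XT.lf (nat_lit 76) (nat_lit 1067805790) (nat_lit 0) (nat_lit 1504893983) (nat_lit 76) (nat_lit 1707949949) (nat_lit 155) (nat_lit 3) (nat_lit 154) (nat_lit 1) (nat_lit 155) (nat_lit 1) (nat_lit 354) (nat_lit 365) (nat_lit 301))) (XT.nd (nat_lit 78) (nat_lit 76) (nat_lit 0) (XT.lf (nat_lit 0) (nat_lit 553339696) (nat_lit 0) (nat_lit 1117840717) (nat_lit 152) (nat_lit 2500471373) (nat_lit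 152) (nat_lit 3) (nat_lit 152) (nat_lit 1) (nat_lit 154) (nat_lit 1) (nat_lit 355) (nat_lit 365) (nat_lit 300)) (XT.lf (nat_lit 76) (nat_lit 859969840) (nat_lit 0) (nat_lit 1822566159) (nat_lit 76) (nat_lit 1382655972) (nat_lit 152) (nat_lit 3) (nat_lit 151) (nat_lit 1) (nat_lit 152) (nat_lit 1) (nat_lit 356) (nat_lit 365) (nat_lit 299))))))))
noncomputable def ec75 : XT := (XT.nd (nat_lit 2106) (nat_lit 3344) (nat_lit 0) (XT.nd (nat_lit 1014) (nat_lit 1596) (nat_lit 0) (XT.nd (nat_lit 468) (nat_lit 912) (nat_lit 0) (XT.nd (nat_lit 234) (nat_lit 304) (nat_lit 0) (XT.nd (nat_lit 78) (nat_lit 228) (nat_lit 0) (XT.lf (nat_lit 0) (nat_lit 754007481) (nat_lit 0) (nat_lit 1214929996) (nat_lit 152) (nat_lit 1992713360) (nat_lit 149) (nat_lit 3) (nat_lit 149) (nat_lit 1) (nat_lit 151) (nat_lit 1) (nat_lit 357) (nat_lit 365) (nat_lit 298)) (XT.nd (nat_lit 78) (nat_lit 152) (nat_lit 0) (XT.lf (nat_lit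 76) (nat_lit 663228829) (nat_lit 0) (nat_lit 2107573338) (nat_lit 76) (nat_lit 1090008935) (nat_lit 149) (nat_lit 3) (nat_lit 148) (nat_lit 1) (nat_lit 149) (nat_lit 1) (nat_lit 358) (nat_lit 365) (nat_lit 297)) (XT.lf (nat_lit 0) (nat_lit 929446298) (nat_lit 0) (nat_lit 1305795597) (nat_lit 152) (nat_lit 1527191705) (nat_lit 146) (nat_lit 3) (nat_lit 146) (nat_lit 1) (nat_lit 148) (nat_lit 1) (nat_lit 359) (nat_lit 365) (nat_lit 296)))) (XT.nd (nat_lit 78) (nat_lit 228) (nat_lit 0) (XT.lf (nat_lit 76) (nat_lit 478347045) (nat_lit 0) (nat_lit 2361736093) (nat_lit 76) (nat_lit 826818619) (nat_lit 146) (nat_lit 3) (nat_lit 145) (nat_lit 1) (nat_lit 146) (nat_lit 1) (nat_lit 360) (nat_lit 365) (nat_lit 295)) (XT.nd (nat_lit 78) (nat_lit 76) (nat_lit 0) (XT.lf (nat_lit 0) (nat_lit 1082310020) (nat_lit 0) (nat_lit 1389604177) (nat_lit 152) (nat_lit 1101499744) (nat_lit 143) (nat_lit 3) (nat_lit 143)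 (nat_lit 1) (nat_lit 145) (nat_lit 1) (nat_lit 361) (nat_lit 365) (nat_lit 294)) (XT.lf (nat_lit 76) (nat_lit 305732347) (nat_lit 0) (nat_lit 2586901433) (nat_lit 76) (nat_lit 590263974) (nat_lit 143) (nat_lit 3) (nat_lit 142) (nat_lit 1) (nat_lit 143) (nat_lit 1) (nat_lit 362) (nat_lit 365) (nat_lit 293))))) (XT.nd (nat_lit 234) (nat_lit 532) (nat_lit 0) (XT.nd (nat_lit 78) (nat_lit 228) (nat_lit 0) (XT.lf (nat_lit 0) (nat_lit 1214937612) (nat_lit 0) (nat_lit 1465847336) (nat_lit 152) (nat_lit 713258116) (nat_lit 140) (nat_lit 3) (nat_lit 140) (nat_lit 1) (nat_lit 142) (nat_lit 1) (nat_lit 363) (nat_lit 365) (nat_lit 292)) (XT.nd (nat_lit 78) (nat_lit 152) (nat_lit 0) (XT.lf (nat_lit 76) (nat_lit 145516397) (nat_lit 0) (nat_lit 2784911918) (nat_lit 76) (nat_lit 377840215) (nat_lit 140) (nat_lit 3) (nat_lit 139) (nat_lit 1) (nat_lit 140) (nat_lit 1) (nat_lit 364) (nat_lit 365) (nat_lit 291))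 (XT.lf (nat_lit 0) (nat_lit 1329398444) (nat_lit 0) (nat_lit 1534269536) (nat_lit 152) (nat_lit 360138235) (nat_lit 137) (nat_lit 3) (nat_lit 137) (nat_lit 1) (nat_lit 139) (nat_lit 1) (nat_lit 365) (nat_lit 365) (nat_lit 290)))) (XT.nd (nat_lit 156) (nat_lit 304) (nat_lit 0) (XT.nd (nat_lit 78) (nat_lit 76) (nat_lit 0) (XT.lf (nat_lit 76) (nat_lit 2955238566) (nat_lit 0) (nat_lit 2304581) (nat_lit 152) (nat_lit 184971063) (nat_lit 136) (nat_lit 1) (nat_lit 135) (nat_lit 1) (nat_lit 137) (nat_lit 1) (nat_lit 366) (nat_lit 365) (nat_lit 289)) (XT.lf (nat_lit 0) (nat_lit 1427530122) (nat_lit 0) (nat_lit 1594810065) (nat_lit 152) (nat_lit 39879629) (nat_lit 134) (nat_lit 3) (nat_lit 134) (nat_lit 1) (nat_lit 136) (nat_lit 1) (nat_lit 367) (nat_lit 365) (nat_lit 288))) (XT.nd (nat_lit 78) (nat_lit 76) (nat_lit 0) (XT.lf (nat_lit 152) (nat_lit 2849267291) (nat_lit 0) (nat_lit 123297761) (nat_lit 76)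 (nat_lit 12403017) (nat_lit 133) (nat_lit 1) (nat_lit 131) (nat_lit 1) (nat_lit 132) (nat_lit 1) (nat_lit 368) (nat_lit 365) (nat_lit 287)) (XT.lf (nat_lit 76) (nat_lit 1257043764) (nat_lit 0) (nat_lit 257953769) (nat_lit 76) (nat_lit 1393630040) (nat_lit 131) (nat_lit 3) (nat_lit 130) (nat_lit 1) (nat_lit 131) (nat_lit 1) (nat_lit 369) (nat_lit 365) (nat_lit 286)))))) (XT.nd (nat_lit 546) (nat_lit 760) (nat_lit 0) (XT.nd (nat_lit 234) (nat_lit 456) (nat_lit 0) (XT.nd (nat_lit 78) (nat_lit 228) (nat_lit 0) (XT.lf (nat_lit 0) (nat_lit 142102070) (nat_lit 0) (nat_lit 262548521) (nat_lit 152) (nat_lit 2430508544) (nat_lit 128) (nat_lit 3) (nat_lit 128) (nat_lit 1) (nat_lit 130) (nat_lit 1) (nat_lit 370) (nat_lit 365) (nat_lit 285)) (XT.nd (nat_lit 78) (nat_lit 152) (nat_lit 0) (XT.lf (nat_lit 76) (nat_lit 1061849408) (nat_lit 0) (nat_lit 527569961) (nat_lit 76) (nat_lit 1173373900) (nat_lit 128)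 (nat_lit 3) (nat_lit 127) (nat_lit 1) (nat_lit 128) (nat_lit 1) (nat_lit 371) (nat_lit 365) (nat_lit 284)) (XT.lf (nat_lit 0) (nat_lit 279614634) (nat_lit 0) (nat_lit 377960746) (nat_lit 152) (nat_lit 2035362209) (nat_lit 125) (nat_lit 3) (nat_lit 125) (nat_lit 1) (nat_lit 127) (nat_lit 1) (nat_lit 372) (nat_lit 365) (nat_lit 283)))) (XT.nd (nat_lit 156) (nat_lit 228) (nat_lit 0) (XT.nd (nat_lit 78) (nat_lit 152) (nat_lit 0) (XT.lf (nat_lit 76) (nat_lit 881784771) (nat_lit 0) (nat_lit 769712690) (nat_lit 76) (nat_lit 972845987) (nat_lit 125) (nat_lit 3) (nat_lit 124) (nat_lit 1) (nat_lit 125) (nat_lit 1) (nat_lit 373) (nat_lit 365) (nat_lit 282)) (XT.lf (nat_lit 0) (nat_lit 401984233) (nat_lit 0) (nat_lit 482285128) (nat_lit 152) (nat_lit 1673648876) (nat_lit 122) (nat_lit 3) (nat_lit 122) (nat_lit 1) (nat_lit 124) (nat_lit 1) (nat_lit 374) (nat_lit 365) (nat_lit 281))) (XT.nd (nat_lit 78) (nat_lit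 152) (nat_lit 0) (XT.lf (nat_lit 76) (nat_lit 716099547) (nat_lit 0) (nat_lit 986343520) (nat_lit 76) (nat_lit 790452228) (nat_lit 122) (nat_lit 3) (nat_lit 121) (nat_lit 1) (nat_lit 122) (nat_lit 1) (nat_lit 375) (nat_lit 365) (nat_lit 280)) (XT.lf (nat_lit 0) (nat_lit 510529523) (nat_lit 0) (nat_lit 576096261) (nat_lit 152) (nat_lit 1343102453) (nat_lit 119) (nat_lit 3) (nat_lit 119) (nat_lit 1) (nat_lit 121) (nat_lit 1) (nat_lit 376) (nat_lit 365) (nat_lit 279))))) (XT.nd (nat_lit 234) (nat_lit 456) (nat_lit 0) (XT.nd (nat_lit 78) (nat_lit 228) (nat_lit 0) (XT.lf (nat_lit 76) (nat_lit 564027617) (nat_lit 0) (nat_lit 1179322052) (nat_lit 76) (nat_lit 624737560) (nat_lit 119) (nat_lit 3) (nat_lit 118) (nat_lit 1) (nat_lit 119) (nat_lit 1) (nat_lit 377) (nat_lit 365) (nat_lit 278)) (XT.nd (nat_lit 78) (nat_lit 76) (nat_lit 0) (XT.lf (nat_lit 0) (nat_lit 606450380) (nat_lit 0) (nat_lit 659986484)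 (nat_lit 152) (nat_lit 1041578439) (nat_lit 116) (nat_lit 3) (nat_lit 116) (nat_lit 1) (nat_lit 118) (nat_lit 1) (nat_lit 378) (nat_lit 365) (nat_lit 277)) (XT.lf (nat_lit 76) (nat_lit 424800385) (nat_lit 0) (nat_lit 1350406253) (nat_lit 76) (nat_lit 474370852) (nat_lit 116) (nat_lit 3) (nat_lit 115) (nat_lit 1) (nat_lit 116) (nat_lit 1) (nat_lit 379) (nat_lit 365) (nat_lit 276)))) (XT.nd (nat_lit 156) (nat_lit 228) (nat_lit 0) (XT.nd (nat_lit 78) (nat_lit 76) (nat_lit 0) (XT.lf (nat_lit 0) (nat_lit 690840891) (nat_lit 0) (nat_lit 734553825) (nat_lit 152) (nat_lit 767051642) (nat_lit 113) (nat_lit 3) (nat_lit 113) (nat_lit 1) (nat_lit 115) (nat_lit 1) (nat_lit 380) (nat_lit 365) (nat_lit 275)) (XT.lf (nat_lit 76) (nat_lit 297656995) (nat_lit 0) (nat_lit 1501253927) (nat_lit 76) (nat_lit 338131934) (nat_lit 113) (nat_lit 3) (nat_lit 112) (nat_lit 1) (nat_lit 113) (nat_lit 1) (nat_lit 381) (nat_lit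 365) (nat_lit 274))) (XT.nd (nat_lit 78) (nat_lit 76) (nat_lit 0) (XT.lf (nat_lit 0) (nat_lit 764700538) (nat_lit 0) (nat_lit 800392724) (nat_lit 152) (nat_lit 517613046) (nat_lit 110) (nat_lit 3) (nat_lit 110) (nat_lit 1) (nat_lit 112) (nat_lit 1) (nat_lit 382) (nat_lit 365) (nat_lit 273)) (XT.lf (nat_lit 76) (nat_lit 181852048) (nat_lit 0) (nat_lit 1633425062) (nat_lit 76) (nat_lit 214900369) (nat_lit 110) (nat_lit 3) (nat_lit 109) (nat_lit 1) (nat_lit 110) (nat_lit 1) (nat_lit 383) (nat_lit 365) (nat_lit 272))))))) (XT.nd (nat_lit 1014) (nat_lit 1748) (nat_lit 0) (XT.nd (nat_lit 468) (nat_lit 760) (nat_lit 0) (XT.nd (nat_lit 234) (nat_lit 456) (nat_lit 0) (XT.nd (nat_lit 78) (nat_lit 228) (nat_lit 0) (XT.lf (nat_lit 0) (nat_lit 828943879) (nat_lit 0) (nat_lit 858087019) (nat_lit 152) (nat_lit 291466037) (nat_lit 107) (nat_lit 3) (nat_lit 107) (nat_lit 1) (nat_lit 109) (nat_lit 1) (nat_lit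 384) (nat_lit 365) (nat_lit 271)) (XT.nd (nat_lit 78) (nat_lit 152) (nat_lit 0) (XT.lf (nat_lit 76) (nat_lit 76661320) (nat_lit 0) (nat_lit 1748384794) (nat_lit 76) (nat_lit 103645709) (nat_lit 107) (nat_lit 3) (nat_lit 106) (nat_lit 1) (nat_lit 107) (nat_lit 1) (nat_lit 385) (nat_lit 365) (nat_lit 270)) (XT.lf (nat_lit 0) (nat_lit 884408955) (nat_lit 0) (nat_lit 908204712) (nat_lit 152) (nat_lit 86922197) (nat_lit 104) (nat_lit 3) (nat_lit 104) (nat_lit 1) (nat_lit 106) (nat_lit 1) (nat_lit 386) (nat_lit 365) (nat_lit 269)))) (XT.nd (nat_lit 78) (nat_lit 228) (nat_lit 0) (XT.lf (nat_lit 152) (nat_lit 1814026369) (nat_lit 0) (nat_lit 15397346) (nat_lit 76) (nat_lit 2861411) (nat_lit 103) (nat_lit 1) (nat_lit 101) (nat_lit 1) (nat_lit 102) (nat_lit 1) (nat_lit 387) (nat_lit 365) (nat_lit 268)) (XT.nd (nat_lit 78) (nat_lit 152) (nat_lit 0) (XT.lf (nat_lit 76) (nat_lit 832608492) (nat_lit 0) (nat_lit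 100830392) (nat_lit 76) (nat_lit 852038041) (nat_lit 101) (nat_lit 3) (nat_lit 100) (nat_lit 1) (nat_lit 101) (nat_lit 1) (nat_lit 388) (nat_lit 365) (nat_lit 267)) (XT.lf (nat_lit 0) (nat_lit 88651171) (nat_lit 0) (nat_lit 105784812) (nat_lit 152) (nat_lit 1546035143) (nat_lit 98) (nat_lit 3) (nat_lit 98) (nat_lit 1) (nat_lit 100) (nat_lit 1) (nat_lit 389) (nat_lit 365) (nat_lit 266))))) (XT.nd (nat_lit 234) (nat_lit 456) (nat_lit 0) (XT.nd (nat_lit 78) (nat_lit 228) (nat_lit 0) (XT.lf (nat_lit 76) (nat_lit 703957145) (nat_lit 0) (nat_lit 272311481) (nat_lit 76) (nat_lit 719821628) (nat_lit 98) (nat_lit 3) (nat_lit 97) (nat_lit 1) (nat_lit 98) (nat_lit 1) (nat_lit 390) (nat_lit 365) (nat_lit 265)) (XT.nd (nat_lit 78) (nat_lit 76) (nat_lit 0) (XT.lf (nat_lit 0) (nat_lit 170597306) (nat_lit 0) (nat_lit 184587149) (nat_lit 152) (nat_lit 1298098713) (nat_lit 95) (nat_lit 3) (nat_lit 95) (nat_lit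 1) (nat_lit 97) (nat_lit 1) (nat_lit 391) (nat_lit 365) (nat_lit 264)) (XT.lf (nat_lit 76) (nat_lit 586083329) (nat_lit 0) (nat_lit 426084428) (nat_lit 76) (nat_lit 599036888) (nat_lit 95) (nat_lit 3) (nat_lit 94) (nat_lit 1) (nat_lit 95) (nat_lit 1) (nat_lit 392) (nat_lit 365) (nat_lit 263)))) (XT.nd (nat_lit 156) (nat_lit 228) (nat_lit 0) (XT.nd (nat_lit 78) (nat_lit 76) (nat_lit 0) (XT.lf (nat_lit 0) (nat_lit 243822408) (nat_lit 0) (nat_lit 255245300) (nat_lit 152) (nat_lit 1071420251) (nat_lit 92) (nat_lit 3) (nat_lit 92) (nat_lit 1) (nat_lit 94) (nat_lit 1) (nat_lit 393) (nat_lit 365) (nat_lit 262)) (XT.lf (nat_lit 76) (nat_lit 478260239) (nat_lit 0) (nat_lit 563494132) (nat_lit 76) (nat_lit 488836990) (nat_lit 92) (nat_lit 3) (nat_lit 91) (nat_lit 1) (nat_lit 92) (nat_lit 1) (nat_lit 394) (nat_lit 365) (nat_lit 261))) (XT.nd (nat_lit 78) (nat_lit 76) (nat_lit 0) (XT.lf (nat_lit 0) (nat_lit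 309023786) (nat_lit 0) (nat_lit 318350727) (nat_lit 152) (nat_lit 864487707) (nat_lit 89) (nat_lit 3) (nat_lit 89) (nat_lit 1) (nat_lit 91) (nat_lit 1) (nat_lit 395) (nat_lit 365) (nat_lit 260)) (XT.lf (nat_lit 76) (nat_lit 379799814) (nat_lit 0) (nat_lit 685797842) (nat_lit 76) (nat_lit 388435870) (nat_lit 89) (nat_lit 3) (nat_lit 88) (nat_lit 1) (nat_lit 89) (nat_lit 1) (nat_lit 396) (nat_lit 365) (nat_lit 259)))))) (XT.nd (nat_lit 546) (nat_lit 912) (nat_lit 0) (XT.nd (nat_lit 234) (nat_lit 456) (nat_lit 0) (XT.nd (nat_lit 78) (nat_lit 228) (nat_lit 0) (XT.lf (nat_lit 0) (nat_lit 366846782) (nat_lit 0) (nat_lit 374462352) (nat_lit 152) (nat_lit 675885107) (nat_lit 86) (nat_lit 3) (nat_lit 86) (nat_lit 1) (nat_lit 88) (nat_lit 1) (nat_lit 397) (nat_lit 365) (nat_lit 258)) (XT.nd (nat_lit 78) (nat_lit 152) (nat_lit 0) (XT.lf (nat_lit 76) (nat_lit 290052059) (nat_lit 0) (nat_lit 794169908) (nat_lit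 76) (nat_lit 297103513) (nat_lit 86) (nat_lit 3) (nat_lit 85) (nat_lit 1) (nat_lit 86) (nat_lit 1) (nat_lit 398) (nat_lit 365) (nat_lit 257)) (XT.lf (nat_lit 0) (nat_lit 417888886) (nat_lit 0) (nat_lit 424107100) (nat_lit 152) (nat_lit 504287265) (nat_lit 83) (nat_lit 3) (nat_lit 83) (nat_lit 1) (nat_lit 85) (nat_lit 1) (nat_lit 399) (nat_lit 365) (nat_lit 256)))) (XT.nd (nat_lit 156) (nat_lit 228) (nat_lit 0) (XT.nd (nat_lit 78) (nat_lit 152) (nat_lit 0) (XT.lf (nat_lit 76) (nat_lit 208404073) (nat_lit 0) (nat_lit 889706419) (nat_lit 76) (nat_lit 214161678) (nat_lit 83) (nat_lit 3) (nat_lit 82) (nat_lit 1) (nat_lit 83) (nat_lit 1) (nat_lit 400) (nat_lit 365) (nat_lit 255)) (XT.lf (nat_lit 0) (nat_lit 462703449) (nat_lit 0) (nat_lit 467780702) (nat_lit 152) (nat_lit 348454671) (nat_lit 80) (nat_lit 3) (nat_lit 80) (nat_lit 1) (nat_lit 82) (nat_lit 1) (nat_lit 401) (nat_lit 365) (nat_lit 254)))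 (XT.nd (nat_lit 78) (nat_lit 152) (nat_lit 0) (XT.lf (nat_lit 76) (nat_lit 134278868) (nat_lit 0) (nat_lit 973429671) (nat_lit 76) (nat_lit 138980028) (nat_lit 80) (nat_lit 3) (nat_lit 79) (nat_lit 1) (nat_lit 80) (nat_lit 1) (nat_lit 402) (nat_lit 365) (nat_lit 253)) (XT.lf (nat_lit 0) (nat_lit 501803044) (nat_lit 0) (nat_lit 505948688) (nat_lit 152) (nat_lit 207228588) (nat_lit 77) (nat_lit 3) (nat_lit 77) (nat_lit 1) (nat_lit 79) (nat_lit 1) (nat_lit 403) (nat_lit 365) (nat_lit 252))))) (XT.nd (nat_lit 234) (nat_lit 608) (nat_lit 0) (XT.nd (nat_lit 78) (nat_lit 228) (nat_lit 0) (XT.lf (nat_lit 76) (nat_lit 67134051) (nat_lit 0) (nat_lit 1046292483) (nat_lit 76) (nat_lit 70972610) (nat_lit 77) (nat_lit 3) (nat_lit 76) (nat_lit 1) (nat_lit 77) (nat_lit 1) (nat_lit 404) (nat_lit 365) (nat_lit 251)) (XT.nd (nat_lit 78) (nat_lit 76) (nat_lit 0) (XT.lf (nat_lit 0) (nat_lit 535662531) (nat_lit 0)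 (nat_lit 539047504) (nat_lit 152) (nat_lit 79526335) (nat_lit 74) (nat_lit 3) (nat_lit 74) (nat_lit 1) (nat_lit 76) (nat_lit 1) (nat_lit 405) (nat_lit 365) (nat_lit 250)) (XT.lf (nat_lit 76) (nat_lit 6460401) (nat_lit 0) (nat_lit 1109182325) (nat_lit 76) (nat_lit 9594635) (nat_lit 74) (nat_lit 3) (nat_lit 73) (nat_lit 1) (nat_lit 74) (nat_lit 1) (nat_lit 406) (nat_lit 365) (nat_lit 249)))) (XT.nd (nat_lit 156) (nat_lit 228) (nat_lit 0) (XT.nd (nat_lit 78) (nat_lit 152) (nat_lit 0) (XT.lf (nat_lit 76) (nat_lit 528454678) (nat_lit 0) (nat_lit 36842388) (nat_lit 76) (nat_lit 531218553) (nat_lit 71) (nat_lit 3) (nat_lit 70) (nat_lit 1) (nat_lit 71) (nat_lit 1) (nat_lit 407) (nat_lit 365) (nat_lit 248)) (XT.lf (nat_lit 0) (nat_lit 46490907) (nat_lit 0) (nat_lit 48928186) (nat_lit 152) (nat_lit 973475859) (nat_lit 68) (nat_lit 3) (nat_lit 68) (nat_lit 1) (nat_lit 70) (nat_lit 1) (nat_lit 408) (nat_lit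 365) (nat_lit 247))) (XT.nd (nat_lit 78) (nat_lit 152) (nat_lit 0) (XT.lf (nat_lit 76) (nat_lit 447745896) (nat_lit 0) (nat_lit 143889210) (nat_lit 76) (nat_lit 450002636) (nat_lit 68) (nat_lit 3) (nat_lit 67) (nat_lit 1) (nat_lit 68) (nat_lit 1) (nat_lit 409) (nat_lit 365) (nat_lit 246)) (XT.lf (nat_lit 0) (nat_lit 96892327) (nat_lit 0) (nat_lit 98882398) (nat_lit 152) (nat_lit 819589705) (nat_lit 65) (nat_lit 3) (nat_lit 65) (nat_lit 1) (nat_lit 67) (nat_lit 1) (nat_lit 410) (nat_lit 365) (nat_lit 245))))))))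
noncomputable def ec76 : XT := (XT.nd (nat_lit 44928) (nat_lit 0) (nat_lit 10032) (XT.nd (nat_lit 43914) (nat_lit 0) (nat_lit 14592) (XT.nd (nat_lit 468) (nat_lit 228) (nat_lit 0) (XT.nd (nat_lit 234) (nat_lit 380) (nat_lit 0) (XT.nd (nat_lit 78) (nat_lit 228) (nat_lit 0) (XT.lf (nat_lit 76) (nat_lit 373891363) (nat_lit 0) (nat_lit 239894374) (nat_lit 76) (nat_lit 375734021) (nat_lit 65) (nat_lit 3) (nat_lit 64) (nat_lit 1) (nat_lit 65) (nat_lit 1) (nat_lit 411) (nat_lit 365) (nat_lit 244)) (XT.nd (nat_lit 78) (nat_lit 76) (nat_lit 0) (XT.lf (nat_lit 0) (nat_lit 141997233) (nat_lit 0) (nat_lit 143622152) (nat_lit 152) (nat_lit 678908416) (nat_lit 62) (nat_lit 3) (nat_lit 62) (nat_lit 1) (nat_lit 64) (nat_lit 1) (nat_lit 412) (nat_lit 365) (nat_lit 243)) (XT.lf (nat_lit 76) (nat_lit 306405598) (nat_lit 0) (nat_lit 325706316) (nat_lit 76) (nat_lit 307910153) (nat_lit 62) (nat_lit 3) (nat_lit 61)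 (nat_lit 1) (nat_lit 62) (nat_lit 1) (nat_lit 413) (nat_lit 365) (nat_lit 242)))) (XT.nd (nat_lit 78) (nat_lit 228) (nat_lit 0) (XT.lf (nat_lit 0) (nat_lit 182219083) (nat_lit 0) (nat_lit 183545850) (nat_lit 152) (nat_lit 550483791) (nat_lit 59) (nat_lit 3) (nat_lit 59) (nat_lit 1) (nat_lit 61) (nat_lit 1) (nat_lit 414) (nat_lit 365) (nat_lit 241)) (XT.nd (nat_lit 78) (nat_lit 152) (nat_lit 0) (XT.lf (nat_lit 76) (nat_lit 244833877) (nat_lit 0) (nat_lit 402115944) (nat_lit 76) (nat_lit 246062366) (nat_lit 59) (nat_lit 3) (nat_lit 58) (nat_lit 1) (nat_lit 59) (nat_lit 1) (nat_lit 415) (nat_lit 365) (nat_lit 240)) (XT.lf (nat_lit 0) (nat_lit 217942342) (nat_lit 0) (nat_lit 219025665) (nat_lit 152) (nat_lit 433429808) (nat_lit 56) (nat_lit 3) (nat_lit 56) (nat_lit 1) (nat_lit 58) (nat_lit 1) (nat_lit 416) (nat_lit 365) (nat_lit 239))))) (XT.nd (nat_lit 43134) (nat_lit 0) (nat_lit 18240) (XT.nd (nat_lit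 78) (nat_lit 152) (nat_lit 0) (XT.lf (nat_lit 76) (nat_lit 188750549) (nat_lit 0) (nat_lit 469860219) (nat_lit 76) (nat_lit 189753626) (nat_lit 56) (nat_lit 3) (nat_lit 55) (nat_lit 1) (nat_lit 56) (nat_lit 1) (nat_lit 417) (nat_lit 365) (nat_lit 238)) (XT.nd (nat_lit 42978) (nat_lit 0) (nat_lit 18164) (XT.lf (nat_lit 0) (nat_lit 249524460) (nat_lit 0) (nat_lit 250409007) (nat_lit 152) (nat_lit 326918816) (nat_lit 53) (nat_lit 3) (nat_lit 53) (nat_lit 1) (nat_lit 55) (nat_lit 1) (nat_lit 418) (nat_lit 365) (nat_lit 237)) (XT.lf (nat_lit 836) (nat_lit 3974361083) (nat_lit 0) (nat_lit 7056468968) (nat_lit 836) (nat_lit 3974361083) (nat_lit 303) (nat_lit 1) (nat_lit 292) (nat_lit 0) (nat_lit 303) (nat_lit 0) (nat_lit 288) (nat_lit 366) (nat_lit 366)))) (XT.nd (nat_lit 156) (nat_lit 0) (nat_lit 76) (XT.nd (nat_lit 78) (nat_lit 0) (nat_lit 0) (XT.lf (nat_lit 836) (nat_lit 1482558634) (nat_lit 0) (nat_lit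 13853987233) (nat_lit 760) (nat_lit 13549153229) (nat_lit 304) (nat_lit 1) (nat_lit 293) (nat_lit 1) (nat_lit 303) (nat_lit 1) (nat_lit 289) (nat_lit 366) (nat_lit 365)) (XT.lf (nat_lit 836) (nat_lit 13616445308) (nat_lit 76) (nat_lit 9278019920) (nat_lit 0) (nat_lit 4920638538) (nat_lit 304) (nat_lit 1) (nat_lit 294) (nat_lit 1) (nat_lit 293) (nat_lit 1) (nat_lit 290) (nat_lit 366) (nat_lit 364))) (XT.nd (nat_lit 78) (nat_lit 0) (nat_lit 76) (XT.lf (nat_lit 836) (nat_lit 11765724221) (nat_lit 76) (nat_lit 3888353839) (nat_lit 0) (nat_lit 11144005682) (nat_lit 305) (nat_lit 1) (nat_lit 295) (nat_lit 1) (nat_lit 294) (nat_lit 1) (nat_lit 291) (nat_lit 366) (nat_lit 363)) (XT.lf (nat_lit 836) (nat_lit 8707636211) (nat_lit 0) (nat_lit 16291575758) (nat_lit 760) (nat_lit 832823025) (nat_lit 306) (nat_lit 1) (nat_lit 295) (nat_lit 1) (nat_lit 305) (nat_lit 1) (nat_lit 292) (nat_lit 366) (nat_lit 362))))))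 (XT.nd (nat_lit 468) (nat_lit 1900) (nat_lit 0) (XT.nd (nat_lit 234) (nat_lit 1292) (nat_lit 0) (XT.nd (nat_lit 78) (nat_lit 684) (nat_lit 0) (XT.lf (nat_lit 836) (nat_lit 2089311932) (nat_lit 0) (nat_lit 17965988249) (nat_lit 760) (nat_lit 4856821655) (nat_lit 307) (nat_lit 1) (nat_lit 296) (nat_lit 1) (nat_lit 306) (nat_lit 1) (nat_lit 293) (nat_lit 366) (nat_lit 361)) (XT.nd (nat_lit 78) (nat_lit 684) (nat_lit 0) (XT.lf (nat_lit 836) (nat_lit 4014807739) (nat_lit 76) (nat_lit 15613906822) (nat_lit 0) (nat_lit 4406437144) (nat_lit 307) (nat_lit 1) (nat_lit 297) (nat_lit 1) (nat_lit 296) (nat_lit 1) (nat_lit 294) (nat_lit 366) (nat_lit 360)) (XT.lf (nat_lit 836) (nat_lit 824549959) (nat_lit 0) (nat_lit 11672428169) (nat_lit 760) (nat_lit 10703494329) (nat_lit 298) (nat_lit 1) (nat_lit 287) (nat_lit 1) (nat_lit 297) (nat_lit 1) (nat_lit 295) (nat_lit 366) (nat_lit 359)))) (XT.nd (nat_lit 78)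 (nat_lit 760) (nat_lit 0) (XT.lf (nat_lit 76) (nat_lit 5709355682) (nat_lit 0) (nat_lit 2474129509) (nat_lit 532) (nat_lit 14221829277) (nat_lit 281) (nat_lit 1) (nat_lit 280) (nat_lit 1) (nat_lit 287) (nat_lit 1) (nat_lit 296) (nat_lit 366) (nat_lit 358)) (XT.nd (nat_lit 78) (nat_lit 380) (nat_lit 0) (XT.lf (nat_lit 456) (nat_lit 15734265643) (nat_lit 0) (nat_lit 5121842670) (nat_lit 380) (nat_lit 791868524) (nat_lit 281) (nat_lit 1) (nat_lit 275) (nat_lit 1) (nat_lit 280) (nat_lit 1) (nat_lit 297) (nat_lit 366) (nat_lit 357)) (XT.lf (nat_lit 456) (nat_lit 11353995921) (nat_lit 0) (nat_lit 2387312931) (nat_lit 380) (nat_lit 7181894517) (nat_lit 276) (nat_lit 1) (nat_lit 270) (nat_lit 1) (nat_lit 275) (nat_lit 1) (nat_lit 298) (nat_lit 366) (nat_lit 356))))) (XT.nd (nat_lit 234) (nat_lit 1216) (nat_lit 0) (XT.nd (nat_lit 78) (nat_lit 380) (nat_lit 0) (XT.lf (nat_lit 380) (nat_lit 6908761709)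 (nat_lit 0) (nat_lit 43954310) (nat_lit 304) (nat_lit 13280856571) (nat_lit 271) (nat_lit 1) (nat_lit 266) (nat_lit 1) (nat_lit 270) (nat_lit 1) (nat_lit 299) (nat_lit 366) (nat_lit 355)) (XT.nd (nat_lit 78) (nat_lit 380) (nat_lit 0) (XT.lf (nat_lit 76) (nat_lit 509695788) (nat_lit 0) (nat_lit 17189411752) (nat_lit 380) (nat_lit 1876558520) (nat_lit 267) (nat_lit 1) (nat_lit 266) (nat_lit 1) (nat_lit 271) (nat_lit 1) (nat_lit 300) (nat_lit 366) (nat_lit 354)) (XT.lf (nat_lit 76) (nat_lit 13160477451) (nat_lit 0) (nat_lit 2182806001) (nat_lit 380) (nat_lit 3599843524) (nat_lit 262) (nat_lit 1) (nat_lit 261) (nat_lit 1) (nat_lit 266) (nat_lit 1) (nat_lit 301) (nat_lit 366) (nat_lit 353)))) (XT.nd (nat_lit 156) (nat_lit 608) (nat_lit 0) (XT.nd (nat_lit 78) (nat_lit 304) (nat_lit 0) (XT.lf (nat_lit 76) (nat_lit 6584520364) (nat_lit 0) (nat_lit 6686322266) (nat_lit 380) (nat_lit 5067694065) (nat_lit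 258) (nat_lit 1) (nat_lit 257) (nat_lit 1) (nat_lit 262) (nat_lit 1) (nat_lit 302) (nat_lit 366) (nat_lit 352)) (XT.lf (nat_lit 76) (nat_lit 324997324) (nat_lit 0) (nat_lit 11179427005) (nat_lit 380) (nat_lit 6258147436) (nat_lit 254) (nat_lit 1) (nat_lit 253) (nat_lit 1) (nat_lit 258) (nat_lit 1) (nat_lit 303) (nat_lit 366) (nat_lit 351))) (XT.nd (nat_lit 78) (nat_lit 380) (nat_lit 0) (XT.lf (nat_lit 304) (nat_lit 1467669599) (nat_lit 0) (nat_lit 9925146973) (nat_lit 228) (nat_lit 5816364231) (nat_lit 254) (nat_lit 1) (nat_lit 250) (nat_lit 1) (nat_lit 253) (nat_lit 1) (nat_lit 304) (nat_lit 366) (nat_lit 350)) (XT.lf (nat_lit 76) (nat_lit 5071193063) (nat_lit 0) (nat_lit 3475827236) (nat_lit 380) (nat_lit 8131631125) (nat_lit 246) (nat_lit 1) (nat_lit 245) (nat_lit 1) (nat_lit 250) (nat_lit 1) (nat_lit 305) (nat_lit 366) (nat_lit 349))))))) (XT.nd (nat_lit 1014) (nat_lit 1900) (nat_lit 0) (XT.nd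 (nat_lit 468) (nat_lit 1216) (nat_lit 0) (XT.nd (nat_lit 234) (nat_lit 684) (nat_lit 0) (XT.nd (nat_lit 78) (nat_lit 532) (nat_lit 0) (XT.lf (nat_lit 304) (nat_lit 7851426642) (nat_lit 0) (nat_lit 7375400558) (nat_lit 228) (nat_lit 944042518) (nat_lit 246) (nat_lit 1) (nat_lit 242) (nat_lit 1) (nat_lit 245) (nat_lit 1) (nat_lit 306) (nat_lit 366) (nat_lit 348)) (XT.nd (nat_lit 78) (nat_lit 304) (nat_lit 0) (XT.lf (nat_lit 304) (nat_lit 2516344308) (nat_lit 0) (nat_lit 6349917860) (nat_lit 228) (nat_lit 6816340035) (nat_lit 243) (nat_lit 1) (nat_lit 239) (nat_lit 1) (nat_lit 242) (nat_lit 1) (nat_lit 307) (nat_lit 366) (nat_lit 347)) (XT.lf (nat_lit 76) (nat_lit 2868024481) (nat_lit 0) (nat_lit 2625925649) (nat_lit 304) (nat_lit 9720663228) (nat_lit 236) (nat_lit 1) (nat_lit 235) (nat_lit 1) (nat_lit 239) (nat_lit 1) (nat_lit 308) (nat_lit 366) (nat_lit 346)))) (XT.nd (nat_lit 78) (nat_lit 456)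 (nat_lit 0) (XT.lf (nat_lit 304) (nat_lit 7136702495) (nat_lit 0) (nat_lit 4748497374) (nat_lit 228) (nat_lit 2878554720) (nat_lit 236) (nat_lit 1) (nat_lit 232) (nat_lit 1) (nat_lit 235) (nat_lit 1) (nat_lit 309) (nat_lit 366) (nat_lit 345)) (XT.nd (nat_lit 78) (nat_lit 304) (nat_lit 0) (XT.lf (nat_lit 228) (nat_lit 1769199086) (nat_lit 0) (nat_lit 4142717603) (nat_lit 152) (nat_lit 8419168032) (nat_lit 233) (nat_lit 1) (nat_lit 230) (nat_lit 1) (nat_lit 232) (nat_lit 1) (nat_lit 310) (nat_lit 366) (nat_lit 344)) (XT.lf (nat_lit 76) (nat_lit 299713628) (nat_lit 0) (nat_lit 3353860564) (nat_lit 304) (nat_lit 10261612084) (nat_lit 227) (nat_lit 1) (nat_lit 226) (nat_lit 1) (nat_lit 230) (nat_lit 1) (nat_lit 311) (nat_lit 366) (nat_lit 343))))) (XT.nd (nat_lit 234) (nat_lit 684) (nat_lit 0) (XT.nd (nat_lit 78) (nat_lit 380) (nat_lit 0) (XT.lf (nat_lit 228) (nat_lit 5140967919) (nat_lit 0) (nat_lit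 3212663907) (nat_lit 152) (nat_lit 5158858540) (nat_lit 227) (nat_lit 1) (nat_lit 224) (nat_lit 1) (nat_lit 226) (nat_lit 1) (nat_lit 312) (nat_lit 366) (nat_lit 342)) (XT.nd (nat_lit 78) (nat_lit 152) (nat_lit 0) (XT.lf (nat_lit 76) (nat_lit 2789274350) (nat_lit 0) (nat_lit 128838330) (nat_lit 228) (nat_lit 10209254037) (nat_lit 222) (nat_lit 1) (nat_lit 221) (nat_lit 1) (nat_lit 224) (nat_lit 1) (nat_lit 313) (nat_lit 366) (nat_lit 341)) (XT.lf (nat_lit 228) (nat_lit 7625337453) (nat_lit 0) (nat_lit 2642350402) (nat_lit 152) (nat_lit 2485758187) (nat_lit 222) (nat_lit 1) (nat_lit 219) (nat_lit 1) (nat_lit 221) (nat_lit 1) (nat_lit 314) (nat_lit 366) (nat_lit 340)))) (XT.nd (nat_lit 156) (nat_lit 304) (nat_lit 0) (XT.nd (nat_lit 78) (nat_lit 228) (nat_lit 0) (XT.lf (nat_lit 228) (nat_lit 2368735381) (nat_lit 0) (nat_lit 2456356894) (nat_lit 152) (nat_lit 7568729716) (nat_lit 220) (nat_lit 1)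 (nat_lit 217) (nat_lit 1) (nat_lit 219) (nat_lit 1) (nat_lit 315) (nat_lit 366) (nat_lit 339)) (XT.lf (nat_lit 228) (nat_lit 9403008930) (nat_lit 0) (nat_lit 2346849642) (nat_lit 152) (nat_lit 297725104) (nat_lit 217) (nat_lit 1) (nat_lit 214) (nat_lit 1) (nat_lit 216) (nat_lit 1) (nat_lit 316) (nat_lit 366) (nat_lit 338))) (XT.nd (nat_lit 78) (nat_lit 152) (nat_lit 0) (XT.lf (nat_lit 228) (nat_lit 4208351004) (nat_lit 0) (nat_lit 2240450175) (nat_lit 152) (nat_lit 5262165052) (nat_lit 215) (nat_lit 1) (nat_lit 212) (nat_lit 1) (nat_lit 214) (nat_lit 1) (nat_lit 317) (nat_lit 366) (nat_lit 337)) (XT.lf (nat_lit 76) (nat_lit 1441522699) (nat_lit 0) (nat_lit 792325832) (nat_lit 152) (nat_lit 9154462278) (nat_lit 211) (nat_lit 1) (nat_lit 210) (nat_lit 1) (nat_lit 212) (nat_lit 1) (nat_lit 318) (nat_lit 366) (nat_lit 336)))))) (XT.nd (nat_lit 546) (nat_lit 836) (nat_lit 0) (XT.nd (nat_lit 234) (nat_lit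 608) (nat_lit 0) (XT.nd (nat_lit 78) (nat_lit 304) (nat_lit 0) (XT.lf (nat_lit 228) (nat_lit 5521598543) (nat_lit 0) (nat_lit 2210194562) (nat_lit 152) (nat_lit 3342004183) (nat_lit 211) (nat_lit 1) (nat_lit 208) (nat_lit 1) (nat_lit 210) (nat_lit 1) (nat_lit 319) (nat_lit 366) (nat_lit 335)) (XT.nd (nat_lit 78) (nat_lit 228) (nat_lit 0) (XT.lf (nat_lit 152) (nat_lit 594597702) (nat_lit 0) (nat_lit 2264479796) (nat_lit 76) (nat_lit 7912622859) (nat_lit 209) (nat_lit 1) (nat_lit 207) (nat_lit 1) (nat_lit 208) (nat_lit 1) (nat_lit 320) (nat_lit 366) (nat_lit 334)) (XT.lf (nat_lit 228) (nat_lit 6418462672) (nat_lit 0) (nat_lit 2315958547) (nat_lit 152) (nat_lit 1743511951) (nat_lit 207) (nat_lit 1) (nat_lit 204) (nat_lit 1) (nat_lit 206) (nat_lit 1) (nat_lit 321) (nat_lit 366) (nat_lit 333)))) (XT.nd (nat_lit 156) (nat_lit 304) (nat_lit 0) (XT.nd (nat_lit 78) (nat_lit 228) (nat_lit 0) (XT.lf (nat_lit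 152) (nat_lit 1614290691) (nat_lit 0) (nat_lit 2402554571) (nat_lit 76) (nat_lit 6177221266) (nat_lit 205) (nat_lit 1) (nat_lit 203) (nat_lit 1) (nat_lit 204) (nat_lit 1) (nat_lit 322) (nat_lit 366) (nat_lit 332)) (XT.lf (nat_lit 228) (nat_lit 6987867406) (nat_lit 0) (nat_lit 2518430489) (nat_lit 152) (nat_lit 413296002) (nat_lit 203) (nat_lit 1) (nat_lit 200) (nat_lit 1) (nat_lit 202) (nat_lit 1) (nat_lit 323) (nat_lit 366) (nat_lit 331))) (XT.nd (nat_lit 78) (nat_lit 228) (nat_lit 0) (XT.lf (nat_lit 152) (nat_lit 2323185773) (nat_lit 0) (nat_lit 2625494047) (nat_lit 76) (nat_lit 4703799324) (nat_lit 201) (nat_lit 1) (nat_lit 199) (nat_lit 1) (nat_lit 200) (nat_lit 1) (nat_lit 324) (nat_lit 366) (nat_lit 330)) (XT.lf (nat_lit 76) (nat_lit 670563868) (nat_lit 0) (nat_lit 2104721236) (nat_lit 228) (nat_lit 6619675402) (nat_lit 197) (nat_lit 1) (nat_lit 196) (nat_lit 1) (nat_lit 199) (nat_lit 1)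 (nat_lit 325) (nat_lit 366) (nat_lit 329))))) (XT.nd (nat_lit 234) (nat_lit 456) (nat_lit 0) (XT.nd (nat_lit 78) (nat_lit 304) (nat_lit 0) (XT.lf (nat_lit 152) (nat_lit 2788032532) (nat_lit 0) (nat_lit 2904997748) (nat_lit 76) (nat_lit 3450806906) (nat_lit 197) (nat_lit 1) (nat_lit 195) (nat_lit 1) (nat_lit 196) (nat_lit 1) (nat_lit 326) (nat_lit 366) (nat_lit 328)) (XT.nd (nat_lit 78) (nat_lit 76) (nat_lit 0) (XT.lf (nat_lit 76) (nat_lit 1559481873) (nat_lit 0) (nat_lit 1510463646) (nat_lit 228) (nat_lit 5831593435) (nat_lit 193) (nat_lit 1) (nat_lit 192) (nat_lit 1) (nat_lit 195) (nat_lit 1) (nat_lit 327) (nat_lit 366) (nat_lit 327)) (XT.lf (nat_lit 152) (nat_lit 3062659992) (nat_lit 0) (nat_lit 3218973961) (nat_lit 76) (nat_lit 2383797397) (nat_lit 193) (nat_lit 1) (nat_lit 191) (nat_lit 1) (nat_lit 192) (nat_lit 1) (nat_lit 328) (nat_lit 366) (nat_lit 326)))) (XT.nd (nat_lit 156) (nat_lit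 228) (nat_lit 0) (XT.nd (nat_lit 78) (nat_lit 76) (nat_lit 0) (XT.lf (nat_lit 76) (nat_lit 2295917932) (nat_lit 0) (nat_lit 1093963814) (nat_lit 152) (nat_lit 5047239546) (nat_lit 190) (nat_lit 1) (nat_lit 189) (nat_lit 1) (nat_lit 191) (nat_lit 1) (nat_lit 329) (nat_lit 366) (nat_lit 325)) (XT.lf (nat_lit 152) (nat_lit 3190390912) (nat_lit 0) (nat_lit 3550329669) (nat_lit 76) (nat_lit 1474160578) (nat_lit 190) (nat_lit 1) (nat_lit 188) (nat_lit 1) (nat_lit 189) (nat_lit 1) (nat_lit 330) (nat_lit 366) (nat_lit 324))) (XT.nd (nat_lit 78) (nat_lit 76) (nat_lit 0) (XT.lf (nat_lit 76) (nat_lit 2904122713) (nat_lit 0) (nat_lit 816111269) (nat_lit 152) (nat_lit 4279242918) (nat_lit 187) (nat_lit 1) (nat_lit 186) (nat_lit 1) (nat_lit 188) (nat_lit 1) (nat_lit 331) (nat_lit 366) (nat_lit 323)) (XT.lf (nat_lit 152) (nat_lit 3206010386) (nat_lit 0) (nat_lit 3885987131) (nat_lit 76) (nat_lit 698085643)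 (nat_lit 187) (nat_lit 1) (nat_lit 185) (nat_lit 1) (nat_lit 186) (nat_lit 1) (nat_lit 332) (nat_lit 366) (nat_lit 322))))))))
noncomputable def ec77 : XT := (XT.nd (nat_lit 2106) (nat_lit 3268) (nat_lit 0) (XT.nd (nat_lit 1014) (nat_lit 1596) (nat_lit 0) (XT.nd (nat_lit 468) (nat_lit 912) (nat_lit 0) (XT.nd (nat_lit 234) (nat_lit 304) (nat_lit 0) (XT.nd (nat_lit 78) (nat_lit 228) (nat_lit 0) (XT.lf (nat_lit 76) (nat_lit 3404251229) (nat_lit 0) (nat_lit 645457558) (nat_lit 152) (nat_lit 3536919638) (nat_lit 184) (nat_lit 1) (nat_lit 183) (nat_lit 1) (nat_lit 185) (nat_lit 1) (nat_lit 333) (nat_lit 366) (nat_lit 321)) (XT.nd (nat_lit 78) (nat_lit 152) (nat_lit 0) (XT.lf (nat_lit 152) (nat_lit 3137370692) (nat_lit 0) (nat_lit 4216085214) (nat_lit 76) (nat_lit 35712285) (nat_lit 184) (nat_lit 1) (nat_lit 182) (nat_lit 1) (nat_lit 183) (nat_lit 1) (nat_lit 334) (nat_lit 366) (nat_lit 320)) (XT.lf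 (nat_lit 76) (nat_lit 3813087805) (nat_lit 0) (nat_lit 556777562) (nat_lit 152) (nat_lit 2826947849) (nat_lit 181) (nat_lit 1) (nat_lit 180) (nat_lit 1) (nat_lit 182) (nat_lit 1) (nat_lit 335) (nat_lit 366) (nat_lit 319)))) (XT.nd (nat_lit 78) (nat_lit 228) (nat_lit 0) (XT.lf (nat_lit 0) (nat_lit 512615156) (nat_lit 0) (nat_lit 4012034779) (nat_lit 152) (nat_lit 2485402742) (nat_lit 179) (nat_lit 3) (nat_lit 179) (nat_lit 1) (nat_lit 181) (nat_lit 1) (nat_lit 336) (nat_lit 366) (nat_lit 318)) (XT.nd (nat_lit 78) (nat_lit 76) (nat_lit 0) (XT.lf (nat_lit 76) (nat_lit 4144639822) (nat_lit 0) (nat_lit 529896888) (nat_lit 152) (nat_lit 2153914733) (nat_lit 178) (nat_lit 1) (nat_lit 177) (nat_lit 1) (nat_lit 179) (nat_lit 1) (nat_lit 337) (nat_lit 366) (nat_lit 317)) (XT.lf (nat_lit 0) (nat_lit 979284592) (nat_lit 0) (nat_lit 3836606775) (nat_lit 152) (nat_lit 1835795293) (nat_lit 176) (nat_lit 3)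 (nat_lit 176) (nat_lit 1) (nat_lit 178) (nat_lit 1) (nat_lit 338) (nat_lit 366) (nat_lit 316))))) (XT.nd (nat_lit 234) (nat_lit 532) (nat_lit 0) (XT.nd (nat_lit 78) (nat_lit 228) (nat_lit 0) (XT.lf (nat_lit 76) (nat_lit 4410624195) (nat_lit 0) (nat_lit 548736382) (nat_lit 152) (nat_lit 1520759104) (nat_lit 175) (nat_lit 1) (nat_lit 174) (nat_lit 1) (nat_lit 176) (nat_lit 1) (nat_lit 339) (nat_lit 366) (nat_lit 315)) (XT.nd (nat_lit 78) (nat_lit 152) (nat_lit 0) (XT.lf (nat_lit 0) (nat_lit 1376765153) (nat_lit 0) (nat_lit 3709806324) (nat_lit 152) (nat_lit 1226162541) (nat_lit 173) (nat_lit 3) (nat_lit 173) (nat_lit 1) (nat_lit 175) (nat_lit 1) (nat_lit 340) (nat_lit 366) (nat_lit 314)) (XT.lf (nat_lit 76) (nat_lit 4620866153) (nat_lit 0) (nat_lit 600533800) (nat_lit 152) (nat_lit 929129015) (nat_lit 172) (nat_lit 1) (nat_lit 171) (nat_lit 1) (nat_lit 173) (nat_lit 1) (nat_lit 341) (nat_lit 366)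 (nat_lit 313)))) (XT.nd (nat_lit 156) (nat_lit 304) (nat_lit 0) (XT.nd (nat_lit 78) (nat_lit 152) (nat_lit 0) (XT.lf (nat_lit 0) (nat_lit 1714605899) (nat_lit 0) (nat_lit 3619564722) (nat_lit 152) (nat_lit 657786966) (nat_lit 170) (nat_lit 3) (nat_lit 170) (nat_lit 1) (nat_lit 172) (nat_lit 1) (nat_lit 342) (nat_lit 366) (nat_lit 312)) (XT.lf (nat_lit 76) (nat_lit 4783626330) (nat_lit 0) (nat_lit 675210025) (nat_lit 152) (nat_lit 379670210) (nat_lit 169) (nat_lit 1) (nat_lit 168) (nat_lit 1) (nat_lit 170) (nat_lit 1) (nat_lit 343) (nat_lit 366) (nat_lit 311))) (XT.nd (nat_lit 78) (nat_lit 228) (nat_lit 0) (XT.lf (nat_lit 0) (nat_lit 2000883056) (nat_lit 0) (nat_lit 3556307009) (nat_lit 152) (nat_lit 131039956) (nat_lit 167) (nat_lit 3) (nat_lit 167) (nat_lit 1) (nat_lit 169) (nat_lit 1) (nat_lit 344) (nat_lit 366) (nat_lit 310)) (XT.lf (nat_lit 152) (nat_lit 4775964153) (nat_lit 0) (nat_lit 131965400)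 (nat_lit 76) (nat_lit 634948143) (nat_lit 166) (nat_lit 1) (nat_lit 164) (nat_lit 1) (nat_lit 165) (nat_lit 1) (nat_lit 345) (nat_lit 366) (nat_lit 309)))))) (XT.nd (nat_lit 546) (nat_lit 836) (nat_lit 0) (XT.nd (nat_lit 234) (nat_lit 456) (nat_lit 0) (XT.nd (nat_lit 78) (nat_lit 228) (nat_lit 0) (XT.lf (nat_lit 76) (nat_lit 1882043567) (nat_lit 0) (nat_lit 366122502) (nat_lit 76) (nat_lit 3152067697) (nat_lit 164) (nat_lit 3) (nat_lit 163) (nat_lit 1) (nat_lit 164) (nat_lit 1) (nat_lit 346) (nat_lit 366) (nat_lit 308)) (XT.nd (nat_lit 78) (nat_lit 76) (nat_lit 0) (XT.lf (nat_lit 152) (nat_lit 4389612352) (nat_lit 0) (nat_lit 613448878) (nat_lit 76) (nat_lit 259427778) (nat_lit 163) (nat_lit 1) (nat_lit 161) (nat_lit 1) (nat_lit 162) (nat_lit 1) (nat_lit 347) (nat_lit 366) (nat_lit 307)) (XT.lf (nat_lit 76) (nat_lit 1632206630) (nat_lit 0) (nat_lit 825828851) (nat_lit 76) (nat_lit 2669198049)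 (nat_lit 161) (nat_lit 3) (nat_lit 160) (nat_lit 1) (nat_lit 161) (nat_lit 1) (nat_lit 348) (nat_lit 366) (nat_lit 306)))) (XT.nd (nat_lit 156) (nat_lit 228) (nat_lit 0) (XT.nd (nat_lit 78) (nat_lit 76) (nat_lit 0) (XT.lf (nat_lit 0) (nat_lit 68892729) (nat_lit 0) (nat_lit 983347243) (nat_lit 152) (nat_lit 3944444253) (nat_lit 158) (nat_lit 3) (nat_lit 158) (nat_lit 1) (nat_lit 160) (nat_lit 1) (nat_lit 349) (nat_lit 366) (nat_lit 305)) (XT.lf (nat_lit 76) (nat_lit 1388357762) (nat_lit 0) (nat_lit 1245026958) (nat_lit 76) (nat_lit 2235074905) (nat_lit 158) (nat_lit 3) (nat_lit 157) (nat_lit 1) (nat_lit 158) (nat_lit 1) (nat_lit 350) (nat_lit 366) (nat_lit 304))) (XT.nd (nat_lit 78) (nat_lit 76) (nat_lit 0) (XT.lf (nat_lit 0) (nat_lit 350373313) (nat_lit 0) (nat_lit 1097037460) (nat_lit 152) (nat_lit 3297098048) (nat_lit 155) (nat_lit 3) (nat_lit 155) (nat_lit 1) (nat_lit 157) (nat_lit 1) (nat_lit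 351) (nat_lit 366) (nat_lit 303)) (XT.lf (nat_lit 76) (nat_lit 1153230253) (nat_lit 0) (nat_lit 1625285501) (nat_lit 76) (nat_lit 1844585945) (nat_lit 155) (nat_lit 3) (nat_lit 154) (nat_lit 1) (nat_lit 155) (nat_lit 1) (nat_lit 352) (nat_lit 366) (nat_lit 302))))) (XT.nd (nat_lit 234) (nat_lit 456) (nat_lit 0) (XT.nd (nat_lit 78) (nat_lit 228) (nat_lit 0) (XT.lf (nat_lit 0) (nat_lit 597606871) (nat_lit 0) (nat_lit 1207267975) (nat_lit 152) (nat_lit 2700509083) (nat_lit 152) (nat_lit 3) (nat_lit 152) (nat_lit 1) (nat_lit 154) (nat_lit 1) (nat_lit 353) (nat_lit 366) (nat_lit 301)) (XT.nd (nat_lit 78) (nat_lit 152) (nat_lit 0) (XT.lf (nat_lit 76) (nat_lit 928767428) (nat_lit 0) (nat_lit 1968371452) (nat_lit 76) (nat_lit 1493268450) (nat_lit 152) (nat_lit 3) (nat_lit 151) (nat_lit 1) (nat_lit 152) (nat_lit 1) (nat_lit 354) (nat_lit 366) (nat_lit 300)) (XT.lf (nat_lit 0) (nat_lit 814328080) (nat_lit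 0) (nat_lit 1312124395) (nat_lit 152) (nat_lit 2152130429) (nat_lit 149) (nat_lit 3) (nat_lit 149) (nat_lit 1) (nat_lit 151) (nat_lit 1) (nat_lit 355) (nat_lit 366) (nat_lit 299)))) (XT.nd (nat_lit 156) (nat_lit 228) (nat_lit 0) (XT.nd (nat_lit 78) (nat_lit 152) (nat_lit 0) (XT.lf (nat_lit 76) (nat_lit 716287136) (nat_lit 0) (nat_lit 2276179205) (nat_lit 76) (nat_lit 1177209650) (nat_lit 149) (nat_lit 3) (nat_lit 148) (nat_lit 1) (nat_lit 149) (nat_lit 1) (nat_lit 356) (nat_lit 366) (nat_lit 298)) (XT.lf (nat_lit 0) (nat_lit 1003802001) (nat_lit 0) (nat_lit 1410259245) (nat_lit 152) (nat_lit 1649367041) (nat_lit 146) (nat_lit 3) (nat_lit 146) (nat_lit 1) (nat_lit 148) (nat_lit 1) (nat_lit 357) (nat_lit 366) (nat_lit 297))) (XT.nd (nat_lit 78) (nat_lit 152) (nat_lit 0) (XT.lf (nat_lit 76) (nat_lit 516614809) (nat_lit 0) (nat_lit 2550674981) (nat_lit 76) (nat_lit 892964109) (nat_lit 146) (nat_lit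 3) (nat_lit 145) (nat_lit 1) (nat_lit 146) (nat_lit 1) (nat_lit 358) (nat_lit 366) (nat_lit 296)) (XT.lf (nat_lit 0) (nat_lit 1168894822) (nat_lit 0) (nat_lit 1500772511) (nat_lit 152) (nat_lit 1189619724) (nat_lit 143) (nat_lit 3) (nat_lit 143) (nat_lit 1) (nat_lit 145) (nat_lit 1) (nat_lit 359) (nat_lit 366) (nat_lit 295))))))) (XT.nd (nat_lit 1014) (nat_lit 1672) (nat_lit 0) (XT.nd (nat_lit 468) (nat_lit 912) (nat_lit 0) (XT.nd (nat_lit 234) (nat_lit 380) (nat_lit 0) (XT.nd (nat_lit 78) (nat_lit 228) (nat_lit 0) (XT.lf (nat_lit 76) (nat_lit 330190935) (nat_lit 0) (nat_lit 2793853548) (nat_lit 76) (nat_lit 637485092) (nat_lit 143) (nat_lit 3) (nat_lit 142) (nat_lit 1) (nat_lit 143) (nat_lit 1) (nat_lit 360) (nat_lit 366) (nat_lit 294)) (XT.nd (nat_lit 78) (nat_lit 76) (nat_lit 0) (XT.lf (nat_lit 0) (nat_lit 1312132622) (nat_lit 0) (nat_lit 1583115123) (nat_lit 152) (nat_lit 770318765) (nat_lit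 140) (nat_lit 3) (nat_lit 140) (nat_lit 1) (nat_lit 142) (nat_lit 1) (nat_lit 361) (nat_lit 366) (nat_lit 293)) (XT.lf (nat_lit 76) (nat_lit 157157708) (nat_lit 0) (nat_lit 3007704872) (nat_lit 76) (nat_lit 408067432) (nat_lit 140) (nat_lit 3) (nat_lit 139) (nat_lit 1) (nat_lit 140) (nat_lit 1) (nat_lit 362) (nat_lit 366) (nat_lit 292)))) (XT.nd (nat_lit 78) (nat_lit 228) (nat_lit 0) (XT.lf (nat_lit 0) (nat_lit 1435750320) (nat_lit 0) (nat_lit 1657011099) (nat_lit 152) (nat_lit 388949294) (nat_lit 137) (nat_lit 3) (nat_lit 137) (nat_lit 1) (nat_lit 139) (nat_lit 1) (nat_lit 363) (nat_lit 366) (nat_lit 291)) (XT.nd (nat_lit 78) (nat_lit 76) (nat_lit 0) (XT.lf (nat_lit 76) (nat_lit 3191657651) (nat_lit 0) (nat_lit 2488947) (nat_lit 152) (nat_lit 199768748) (nat_lit 136) (nat_lit 1) (nat_lit 135) (nat_lit 1) (nat_lit 137) (nat_lit 1) (nat_lit 364) (nat_lit 366) (nat_lit 290)) (XT.lf (nat_lit 0)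 (nat_lit 1541732532) (nat_lit 0) (nat_lit 1722394870) (nat_lit 152) (nat_lit 43069999) (nat_lit 134) (nat_lit 3) (nat_lit 134) (nat_lit 1) (nat_lit 136) (nat_lit 1) (nat_lit 365) (nat_lit 366) (nat_lit 289))))) (XT.nd (nat_lit 234) (nat_lit 456) (nat_lit 0) (XT.nd (nat_lit 78) (nat_lit 228) (nat_lit 0) (XT.lf (nat_lit 152) (nat_lit 3077208674) (nat_lit 0) (nat_lit 133161582) (nat_lit 76) (nat_lit 13395259) (nat_lit 133) (nat_lit 1) (nat_lit 131) (nat_lit 1) (nat_lit 132) (nat_lit 1) (nat_lit 366) (nat_lit 366) (nat_lit 288)) (XT.nd (nat_lit 78) (nat_lit 152) (nat_lit 0) (XT.lf (nat_lit 76) (nat_lit 1357607265) (nat_lit 0) (nat_lit 278590070) (nat_lit 76) (nat_lit 1505120443) (nat_lit 131) (nat_lit 3) (nat_lit 130) (nat_lit 1) (nat_lit 131) (nat_lit 1) (nat_lit 367) (nat_lit 366) (nat_lit 287)) (XT.lf (nat_lit 0) (nat_lit 153470235) (nat_lit 0) (nat_lit 283552402) (nat_lit 152) (nat_lit 2624949227)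 (nat_lit 128) (nat_lit 3) (nat_lit 128) (nat_lit 1) (nat_lit 130) (nat_lit 1) (nat_lit 368) (nat_lit 366) (nat_lit 286)))) (XT.nd (nat_lit 156) (nat_lit 228) (nat_lit 0) (XT.nd (nat_lit 78) (nat_lit 152) (nat_lit 0) (XT.lf (nat_lit 76) (nat_lit 1146797361) (nat_lit 0) (nat_lit 569775558) (nat_lit 76) (nat_lit 1267243812) (nat_lit 128) (nat_lit 3) (nat_lit 127) (nat_lit 1) (nat_lit 128) (nat_lit 1) (nat_lit 369) (nat_lit 366) (nat_lit 285)) (XT.lf (nat_lit 0) (nat_lit 301983805) (nat_lit 0) (nat_lit 408197606) (nat_lit 152) (nat_lit 2198191186) (nat_lit 125) (nat_lit 3) (nat_lit 125) (nat_lit 1) (nat_lit 127) (nat_lit 1) (nat_lit 370) (nat_lit 366) (nat_lit 284))) (XT.nd (nat_lit 78) (nat_lit 152) (nat_lit 0) (XT.lf (nat_lit 76) (nat_lit 952327553) (nat_lit 0) (nat_lit 831289705) (nat_lit 76) (nat_lit 1050673666) (nat_lit 125) (nat_lit 3) (nat_lit 124) (nat_lit 1) (nat_lit 125) (nat_lit 1) (nat_lit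 371) (nat_lit 366) (nat_lit 283)) (XT.lf (nat_lit 0) (nat_lit 434142972) (nat_lit 0) (nat_lit 520867939) (nat_lit 152) (nat_lit 1807540786) (nat_lit 122) (nat_lit 3) (nat_lit 122) (nat_lit 1) (nat_lit 124) (nat_lit 1) (nat_lit 372) (nat_lit 366) (nat_lit 282)))))) (XT.nd (nat_lit 546) (nat_lit 912) (nat_lit 0) (XT.nd (nat_lit 234) (nat_lit 456) (nat_lit 0) (XT.nd (nat_lit 78) (nat_lit 228) (nat_lit 0) (XT.lf (nat_lit 76) (nat_lit 773387511) (nat_lit 0) (nat_lit 1065251002) (nat_lit 76) (nat_lit 853688406) (nat_lit 122) (nat_lit 3) (nat_lit 121) (nat_lit 1) (nat_lit 122) (nat_lit 1) (nat_lit 373) (nat_lit 366) (nat_lit 281)) (XT.nd (nat_lit 78) (nat_lit 76) (nat_lit 0) (XT.lf (nat_lit 0) (nat_lit 551371885) (nat_lit 0) (nat_lit 622183962) (nat_lit 152) (nat_lit 1450550650) (nat_lit 119) (nat_lit 3) (nat_lit 119) (nat_lit 1) (nat_lit 121) (nat_lit 1) (nat_lit 374) (nat_lit 366) (nat_lit 280)) (XT.lf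 (nat_lit 76) (nat_lit 609149827) (nat_lit 0) (nat_lit 1273667817) (nat_lit 76) (nat_lit 674716565) (nat_lit 119) (nat_lit 3) (nat_lit 118) (nat_lit 1) (nat_lit 119) (nat_lit 1) (nat_lit 375) (nat_lit 366) (nat_lit 279)))) (XT.nd (nat_lit 156) (nat_lit 228) (nat_lit 0) (XT.nd (nat_lit 78) (nat_lit 76) (nat_lit 0) (XT.lf (nat_lit 0) (nat_lit 654966410) (nat_lit 0) (nat_lit 712785403) (nat_lit 152) (nat_lit 1124904714) (nat_lit 116) (nat_lit 3) (nat_lit 116) (nat_lit 1) (nat_lit 118) (nat_lit 1) (nat_lit 376) (nat_lit 366) (nat_lit 278)) (XT.lf (nat_lit 76) (nat_lit 458784416) (nat_lit 0) (nat_lit 1458438753) (nat_lit 76) (nat_lit 512320521) (nat_lit 116) (nat_lit 3) (nat_lit 115) (nat_lit 1) (nat_lit 116) (nat_lit 1) (nat_lit 377) (nat_lit 366) (nat_lit 277))) (XT.nd (nat_lit 78) (nat_lit 76) (nat_lit 0) (XT.lf (nat_lit 0) (nat_lit 746108162) (nat_lit 0) (nat_lit 793318131) (nat_lit 152) (nat_lit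 828415773) (nat_lit 113) (nat_lit 3) (nat_lit 113) (nat_lit 1) (nat_lit 115) (nat_lit 1) (nat_lit 378) (nat_lit 366) (nat_lit 276)) (XT.lf (nat_lit 76) (nat_lit 321469554) (nat_lit 0) (nat_lit 1621354242) (nat_lit 76) (nat_lit 365182488) (nat_lit 113) (nat_lit 3) (nat_lit 112) (nat_lit 1) (nat_lit 113) (nat_lit 1) (nat_lit 379) (nat_lit 366) (nat_lit 275))))) (XT.nd (nat_lit 234) (nat_lit 532) (nat_lit 0) (XT.nd (nat_lit 78) (nat_lit 228) (nat_lit 0) (XT.lf (nat_lit 0) (nat_lit 825876581) (nat_lit 0) (nat_lit 864424142) (nat_lit 152) (nat_lit 559022089) (nat_lit 110) (nat_lit 3) (nat_lit 110) (nat_lit 1) (nat_lit 112) (nat_lit 1) (nat_lit 380) (nat_lit 366) (nat_lit 274)) (XT.nd (nat_lit 78) (nat_lit 152) (nat_lit 0) (XT.lf (nat_lit 76) (nat_lit 196400212) (nat_lit 0) (nat_lit 1764099067) (nat_lit 76) (nat_lit 232092398) (nat_lit 110) (nat_lit 3) (nat_lit 109) (nat_lit 1) (nat_lit 110) (nat_lit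 1) (nat_lit 381) (nat_lit 366) (nat_lit 273)) (XT.lf (nat_lit 0) (nat_lit 895259389) (nat_lit 0) (nat_lit 926733980) (nat_lit 152) (nat_lit 314783320) (nat_lit 107) (nat_lit 3) (nat_lit 107) (nat_lit 1) (nat_lit 109) (nat_lit 1) (nat_lit 382) (nat_lit 366) (nat_lit 272)))) (XT.nd (nat_lit 156) (nat_lit 304) (nat_lit 0) (XT.nd (nat_lit 78) (nat_lit 152) (nat_lit 0) (XT.lf (nat_lit 76) (nat_lit 82794226) (nat_lit 0) (nat_lit 1888255578) (nat_lit 76) (nat_lit 111937365) (nat_lit 107) (nat_lit 3) (nat_lit 106) (nat_lit 1) (nat_lit 107) (nat_lit 1) (nat_lit 383) (nat_lit 366) (nat_lit 271)) (XT.lf (nat_lit 0) (nat_lit 955161672) (nat_lit 0) (nat_lit 980861089) (nat_lit 152) (nat_lit 93875973) (nat_lit 104) (nat_lit 3) (nat_lit 104) (nat_lit 1) (nat_lit 106) (nat_lit 1) (nat_lit 384) (nat_lit 366) (nat_lit 270))) (XT.nd (nat_lit 78) (nat_lit 76) (nat_lit 0) (XT.lf (nat_lit 152) (nat_lit 1959148479)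 (nat_lit 0) (nat_lit 16629134) (nat_lit 76) (nat_lit 3090324) (nat_lit 103) (nat_lit 1) (nat_lit 101) (nat_lit 1) (nat_lit 102) (nat_lit 1) (nat_lit 385) (nat_lit 366) (nat_lit 269)) (XT.lf (nat_lit 76) (nat_lit 899217171) (nat_lit 0) (nat_lit 108896824) (nat_lit 76) (nat_lit 920201084) (nat_lit 101) (nat_lit 3) (nat_lit 100) (nat_lit 1) (nat_lit 101) (nat_lit 1) (nat_lit 386) (nat_lit 366) (nat_lit 268))))))))
noncomputable def ec78 : XT := (XT.nd (nat_lit 2028) (nat_lit 684) (nat_lit 0) (XT.nd (nat_lit 1014) (nat_lit 1596) (nat_lit 0) (XT.nd (nat_lit 468) (nat_lit 836) (nat_lit 0) (XT.nd (nat_lit 234) (nat_lit 304) (nat_lit 0) (XT.nd (nat_lit 78) (nat_lit 228) (nat_lit 0) (XT.lf (nat_lit 0) (nat_lit 95743265) (nat_lit 0) (nat_lit 114247597) (nat_lit 152) (nat_lit 1669717955) (nat_lit 98) (nat_lit 3) (nat_lit 98) (nat_lit 1) (nat_lit 100) (nat_lit 1) (nat_lit 387) (nat_lit 366) (nat_lit 267))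 (XT.nd (nat_lit 78) (nat_lit 152) (nat_lit 0) (XT.lf (nat_lit 76) (nat_lit 760273717) (nat_lit 0) (nat_lit 294096399) (nat_lit 76) (nat_lit 777407358) (nat_lit 98) (nat_lit 3) (nat_lit 97) (nat_lit 1) (nat_lit 98) (nat_lit 1) (nat_lit 388) (nat_lit 366) (nat_lit 266)) (XT.lf (nat_lit 0) (nat_lit 184245090) (nat_lit 0) (nat_lit 199354121) (nat_lit 152) (nat_lit 1401946610) (nat_lit 95) (nat_lit 3) (nat_lit 95) (nat_lit 1) (nat_lit 97) (nat_lit 1) (nat_lit 389) (nat_lit 366) (nat_lit 265)))) (XT.nd (nat_lit 78) (nat_lit 228) (nat_lit 0) (XT.lf (nat_lit 76) (nat_lit 632969996) (nat_lit 0) (nat_lit 460171182) (nat_lit 76) (nat_lit 646959839) (nat_lit 95) (nat_lit 3) (nat_lit 94) (nat_lit 1) (nat_lit 95) (nat_lit 1) (nat_lit 390) (nat_lit 366) (nat_lit 264)) (XT.nd (nat_lit 78) (nat_lit 76) (nat_lit 0) (XT.lf (nat_lit 0) (nat_lit 263328201) (nat_lit 0) (nat_lit 275664924) (nat_lit 152) (nat_lit 1157133871)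 (nat_lit 92) (nat_lit 3) (nat_lit 92) (nat_lit 1) (nat_lit 94) (nat_lit 1) (nat_lit 391) (nat_lit 366) (nat_lit 263)) (XT.lf (nat_lit 76) (nat_lit 516521058) (nat_lit 0) (nat_lit 608573663) (nat_lit 76) (nat_lit 527943949) (nat_lit 92) (nat_lit 3) (nat_lit 91) (nat_lit 1) (nat_lit 92) (nat_lit 1) (nat_lit 392) (nat_lit 366) (nat_lit 262))))) (XT.nd (nat_lit 234) (nat_lit 456) (nat_lit 0) (XT.nd (nat_lit 78) (nat_lit 228) (nat_lit 0) (XT.lf (nat_lit 0) (nat_lit 333745689) (nat_lit 0) (nat_lit 343818785) (nat_lit 152) (nat_lit 933646723) (nat_lit 89) (nat_lit 3) (nat_lit 89) (nat_lit 1) (nat_lit 91) (nat_lit 1) (nat_lit 393) (nat_lit 366) (nat_lit 261)) (XT.nd (nat_lit 78) (nat_lit 152) (nat_lit 0) (XT.lf (nat_lit 76) (nat_lit 410183799) (nat_lit 0) (nat_lit 740661669) (nat_lit 76) (nat_lit 419510740) (nat_lit 89) (nat_lit 3) (nat_lit 88) (nat_lit 1) (nat_lit 89) (nat_lit 1) (nat_lit 394) (nat_lit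 366) (nat_lit 260)) (XT.lf (nat_lit 0) (nat_lit 396194524) (nat_lit 0) (nat_lit 404419340) (nat_lit 152) (nat_lit 729955916) (nat_lit 86) (nat_lit 3) (nat_lit 86) (nat_lit 1) (nat_lit 88) (nat_lit 1) (nat_lit 395) (nat_lit 366) (nat_lit 259)))) (XT.nd (nat_lit 156) (nat_lit 228) (nat_lit 0) (XT.nd (nat_lit 78) (nat_lit 152) (nat_lit 0) (XT.lf (nat_lit 76) (nat_lit 313256224) (nat_lit 0) (nat_lit 857703501) (nat_lit 76) (nat_lit 320871794) (nat_lit 86) (nat_lit 3) (nat_lit 85) (nat_lit 1) (nat_lit 86) (nat_lit 1) (nat_lit 396) (nat_lit 366) (nat_lit 258)) (XT.lf (nat_lit 0) (nat_lit 451319997) (nat_lit 0) (nat_lit 458035668) (nat_lit 152) (nat_lit 544630246) (nat_lit 83) (nat_lit 3) (nat_lit 83) (nat_lit 1) (nat_lit 85) (nat_lit 1) (nat_lit 397) (nat_lit 366) (nat_lit 257))) (XT.nd (nat_lit 78) (nat_lit 152) (nat_lit 0) (XT.lf (nat_lit 76) (nat_lit 225076399) (nat_lit 0) (nat_lit 960882933) (nat_lit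 76) (nat_lit 231294612) (nat_lit 83) (nat_lit 3) (nat_lit 82) (nat_lit 1) (nat_lit 83) (nat_lit 1) (nat_lit 398) (nat_lit 366) (nat_lit 256)) (XT.lf (nat_lit 0) (nat_lit 499719725) (nat_lit 0) (nat_lit 505203158) (nat_lit 152) (nat_lit 376331045) (nat_lit 80) (nat_lit 3) (nat_lit 80) (nat_lit 1) (nat_lit 82) (nat_lit 1) (nat_lit 399) (nat_lit 366) (nat_lit 255)))))) (XT.nd (nat_lit 468) (nat_lit 836) (nat_lit 0) (XT.nd (nat_lit 234) (nat_lit 456) (nat_lit 0) (XT.nd (nat_lit 78) (nat_lit 228) (nat_lit 0) (XT.lf (nat_lit 76) (nat_lit 145021178) (nat_lit 0) (nat_lit 1051304045) (nat_lit 76) (nat_lit 150098431) (nat_lit 80) (nat_lit 3) (nat_lit 79) (nat_lit 1) (nat_lit 80) (nat_lit 1) (nat_lit 400) (nat_lit 366) (nat_lit 254)) (XT.nd (nat_lit 78) (nat_lit 76) (nat_lit 0) (XT.lf (nat_lit 0) (nat_lit 541947287) (nat_lit 0) (nat_lit 546424583) (nat_lit 152) (nat_lit 223806875) (nat_lit 77) (nat_lit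 3) (nat_lit 77) (nat_lit 1) (nat_lit 79) (nat_lit 1) (nat_lit 401) (nat_lit 366) (nat_lit 253)) (XT.lf (nat_lit 76) (nat_lit 72504775) (nat_lit 0) (nat_lit 1129995882) (nat_lit 76) (nat_lit 76650419) (nat_lit 77) (nat_lit 3) (nat_lit 76) (nat_lit 1) (nat_lit 77) (nat_lit 1) (nat_lit 402) (nat_lit 366) (nat_lit 252)))) (XT.nd (nat_lit 78) (nat_lit 304) (nat_lit 0) (XT.lf (nat_lit 0) (nat_lit 578515534) (nat_lit 0) (nat_lit 582171304) (nat_lit 152) (nat_lit 85888441) (nat_lit 74) (nat_lit 3) (nat_lit 74) (nat_lit 1) (nat_lit 76) (nat_lit 1) (nat_lit 403) (nat_lit 366) (nat_lit 251)) (XT.nd (nat_lit 78) (nat_lit 228) (nat_lit 0) (XT.lf (nat_lit 76) (nat_lit 6977233) (nat_lit 0) (nat_lit 1197916911) (nat_lit 76) (nat_lit 10362206) (nat_lit 74) (nat_lit 3) (nat_lit 73) (nat_lit 1) (nat_lit 74) (nat_lit 1) (nat_lit 404) (nat_lit 366) (nat_lit 250)) (XT.lf (nat_lit 76) (nat_lit 570731052) (nat_lit 0)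 (nat_lit 39789779) (nat_lit 76) (nat_lit 573716037) (nat_lit 71) (nat_lit 3) (nat_lit 70) (nat_lit 1) (nat_lit 71) (nat_lit 1) (nat_lit 405) (nat_lit 366) (nat_lit 249))))) (XT.nd (nat_lit 234) (nat_lit 456) (nat_lit 0) (XT.nd (nat_lit 78) (nat_lit 228) (nat_lit 0) (XT.lf (nat_lit 0) (nat_lit 50210180) (nat_lit 0) (nat_lit 52842441) (nat_lit 152) (nat_lit 1051353928) (nat_lit 68) (nat_lit 3) (nat_lit 68) (nat_lit 1) (nat_lit 70) (nat_lit 1) (nat_lit 406) (nat_lit 366) (nat_lit 248)) (XT.nd (nat_lit 78) (nat_lit 152) (nat_lit 0) (XT.lf (nat_lit 76) (nat_lit 483565568) (nat_lit 0) (nat_lit 155400347) (nat_lit 76) (nat_lit 486002847) (nat_lit 68) (nat_lit 3) (nat_lit 67) (nat_lit 1) (nat_lit 68) (nat_lit 1) (nat_lit 407) (nat_lit 366) (nat_lit 247)) (XT.lf (nat_lit 0) (nat_lit 104643713) (nat_lit 0) (nat_lit 106792989) (nat_lit 152) (nat_lit 885156881) (nat_lit 65) (nat_lit 3) (nat_lit 65) (nat_lit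 1) (nat_lit 67) (nat_lit 1) (nat_lit 408) (nat_lit 366) (nat_lit 246)))) (XT.nd (nat_lit 156) (nat_lit 228) (nat_lit 0) (XT.nd (nat_lit 78) (nat_lit 152) (nat_lit 0) (XT.lf (nat_lit 76) (nat_lit 403802672) (nat_lit 0) (nat_lit 259085924) (nat_lit 76) (nat_lit 405792743) (nat_lit 65) (nat_lit 3) (nat_lit 64) (nat_lit 1) (nat_lit 65) (nat_lit 1) (nat_lit 409) (nat_lit 366) (nat_lit 245)) (XT.lf (nat_lit 0) (nat_lit 153357011) (nat_lit 0) (nat_lit 155111924) (nat_lit 152) (nat_lit 733221089) (nat_lit 62) (nat_lit 3) (nat_lit 62) (nat_lit 1) (nat_lit 64) (nat_lit 1) (nat_lit 410) (nat_lit 366) (nat_lit 244))) (XT.nd (nat_lit 78) (nat_lit 152) (nat_lit 0) (XT.lf (nat_lit 76) (nat_lit 330918046) (nat_lit 0) (nat_lit 351762821) (nat_lit 76) (nat_lit 332542965) (nat_lit 62) (nat_lit 3) (nat_lit 61) (nat_lit 1) (nat_lit 62) (nat_lit 1) (nat_lit 411) (nat_lit 366) (nat_lit 243)) (XT.lf (nat_lit 0) (nat_lit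 196796609) (nat_lit 0) (nat_lit 198229518) (nat_lit 152) (nat_lit 594522494) (nat_lit 59) (nat_lit 3) (nat_lit 59) (nat_lit 1) (nat_lit 61) (nat_lit 1) (nat_lit 412) (nat_lit 366) (nat_lit 242))))))) (XT.nd (nat_lit 43758) (nat_lit 0) (nat_lit 14060) (XT.nd (nat_lit 43212) (nat_lit 0) (nat_lit 18392) (XT.nd (nat_lit 234) (nat_lit 380) (nat_lit 0) (XT.nd (nat_lit 78) (nat_lit 228) (nat_lit 0) (XT.lf (nat_lit 76) (nat_lit 264420588) (nat_lit 0) (nat_lit 434285219) (nat_lit 76) (nat_lit 265747355) (nat_lit 59) (nat_lit 3) (nat_lit 58) (nat_lit 1) (nat_lit 59) (nat_lit 1) (nat_lit 413) (nat_lit 366) (nat_lit 241)) (XT.nd (nat_lit 78) (nat_lit 76) (nat_lit 0) (XT.lf (nat_lit 0) (nat_lit 235377729) (nat_lit 0) (nat_lit 236547718) (nat_lit 152) (nat_lit 468104192) (nat_lit 56) (nat_lit 3) (nat_lit 56) (nat_lit 1) (nat_lit 58) (nat_lit 1) (nat_lit 414) (nat_lit 366) (nat_lit 240)) (XT.lf (nat_lit 76)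 (nat_lit 203850592) (nat_lit 0) (nat_lit 507449037) (nat_lit 76) (nat_lit 204933916) (nat_lit 56) (nat_lit 3) (nat_lit 55) (nat_lit 1) (nat_lit 56) (nat_lit 1) (nat_lit 415) (nat_lit 366) (nat_lit 239)))) (XT.nd (nat_lit 78) (nat_lit 228) (nat_lit 0) (XT.lf (nat_lit 0) (nat_lit 269486416) (nat_lit 0) (nat_lit 270441728) (nat_lit 152) (nat_lit 353072322) (nat_lit 53) (nat_lit 3) (nat_lit 53) (nat_lit 1) (nat_lit 55) (nat_lit 1) (nat_lit 416) (nat_lit 366) (nat_lit 238)) (XT.nd (nat_lit 78) (nat_lit 152) (nat_lit 0) (XT.lf (nat_lit 76) (nat_lit 148777994) (nat_lit 0) (nat_lit 571995572) (nat_lit 76) (nat_lit 149662542) (nat_lit 53) (nat_lit 3) (nat_lit 52) (nat_lit 1) (nat_lit 53) (nat_lit 1) (nat_lit 417) (nat_lit 366) (nat_lit 237)) (XT.lf (nat_lit 0) (nat_lit 299481520) (nat_lit 0) (nat_lit 300261544) (nat_lit 152) (nat_lit 248592181) (nat_lit 50) (nat_lit 3) (nat_lit 50) (nat_lit 1) (nat_lit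 52) (nat_lit 1) (nat_lit 418) (nat_lit 366) (nat_lit 236))))) (XT.nd (nat_lit 234) (nat_lit 0) (nat_lit 152) (XT.nd (nat_lit 78) (nat_lit 0) (nat_lit 76) (XT.lf (nat_lit 836) (nat_lit 4292309970) (nat_lit 0) (nat_lit 7620986486) (nat_lit 836) (nat_lit 4292309970) (nat_lit 303) (nat_lit 1) (nat_lit 292) (nat_lit 0) (nat_lit 303) (nat_lit 0) (nat_lit 286) (nat_lit 367) (nat_lit 367)) (XT.nd (nat_lit 78) (nat_lit 0) (nat_lit 0) (XT.lf (nat_lit 836) (nat_lit 1601163324) (nat_lit 0) (nat_lit 14962306212) (nat_lit 760) (nat_lit 14633085487) (nat_lit 304) (nat_lit 1) (nat_lit 293) (nat_lit 1) (nat_lit 303) (nat_lit 1) (nat_lit 287) (nat_lit 367) (nat_lit 366)) (XT.lf (nat_lit 836) (nat_lit 14705760933) (nat_lit 76) (nat_lit 10020261513) (nat_lit 0) (nat_lit 5314289621) (nat_lit 304) (nat_lit 1) (nat_lit 294) (nat_lit 1) (nat_lit 293) (nat_lit 1) (nat_lit 288) (nat_lit 367) (nat_lit 365)))) (XT.nd (nat_lit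 156) (nat_lit 0) (nat_lit 152) (XT.nd (nat_lit 78) (nat_lit 0) (nat_lit 76) (XT.lf (nat_lit 836) (nat_lit 12706982159) (nat_lit 76) (nat_lit 4199422146) (nat_lit 0) (nat_lit 12035526136) (nat_lit 305) (nat_lit 1) (nat_lit 295) (nat_lit 1) (nat_lit 294) (nat_lit 1) (nat_lit 289) (nat_lit 367) (nat_lit 364)) (XT.lf (nat_lit 836) (nat_lit 9404247108) (nat_lit 0) (nat_lit 17594901819) (nat_lit 760) (nat_lit 899448867) (nat_lit 306) (nat_lit 1) (nat_lit 295) (nat_lit 1) (nat_lit 305) (nat_lit 1) (nat_lit 290) (nat_lit 367) (nat_lit 363))) (XT.nd (nat_lit 78) (nat_lit 0) (nat_lit 0) (XT.lf (nat_lit 836) (nat_lit 2256456887) (nat_lit 0) (nat_lit 19403267309) (nat_lit 760) (nat_lit 5245367387) (nat_lit 307) (nat_lit 1) (nat_lit 296) (nat_lit 1) (nat_lit 306) (nat_lit 1) (nat_lit 291) (nat_lit 367) (nat_lit 362)) (XT.lf (nat_lit 836) (nat_lit 4335992359) (nat_lit 76) (nat_lit 16863019367) (nat_lit 0)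 (nat_lit 4758952115) (nat_lit 307) (nat_lit 1) (nat_lit 297) (nat_lit 1) (nat_lit 296) (nat_lit 1) (nat_lit 292) (nat_lit 367) (nat_lit 361)))))) (XT.nd (nat_lit 546) (nat_lit 1976) (nat_lit 0) (XT.nd (nat_lit 234) (nat_lit 1064) (nat_lit 0) (XT.nd (nat_lit 78) (nat_lit 912) (nat_lit 0) (XT.lf (nat_lit 836) (nat_lit 890513956) (nat_lit 0) (nat_lit 12606222423) (nat_lit 760) (nat_lit 11559773876) (nat_lit 298) (nat_lit 1) (nat_lit 287) (nat_lit 1) (nat_lit 297) (nat_lit 1) (nat_lit 293) (nat_lit 367) (nat_lit 360)) (XT.nd (nat_lit 78) (nat_lit 380) (nat_lit 0) (XT.lf (nat_lit 76) (nat_lit 6166104137) (nat_lit 0) (nat_lit 2672059869) (nat_lit 532) (nat_lit 15359575619) (nat_lit 281) (nat_lit 1) (nat_lit 280) (nat_lit 1) (nat_lit 287) (nat_lit 1) (nat_lit 294) (nat_lit 367) (nat_lit 359)) (XT.lf (nat_lit 456) (nat_lit 16993006894) (nat_lit 0) (nat_lit 5531590083) (nat_lit 380) (nat_lit 855218006)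 (nat_lit 281) (nat_lit 1) (nat_lit 275) (nat_lit 1) (nat_lit 280) (nat_lit 1) (nat_lit 295) (nat_lit 367) (nat_lit 358)))) (XT.nd (nat_lit 156) (nat_lit 380) (nat_lit 0) (XT.nd (nat_lit 78) (nat_lit 304) (nat_lit 0) (XT.lf (nat_lit 456) (nat_lit 12262315594) (nat_lit 0) (nat_lit 2578297966) (nat_lit 380) (nat_lit 7756446078) (nat_lit 276) (nat_lit 1) (nat_lit 270) (nat_lit 1) (nat_lit 275) (nat_lit 1) (nat_lit 296) (nat_lit 367) (nat_lit 357)) (XT.lf (nat_lit 380) (nat_lit 7461462646) (nat_lit 0) (nat_lit 47470655) (nat_lit 304) (nat_lit 14343325097) (nat_lit 271) (nat_lit 1) (nat_lit 266) (nat_lit 1) (nat_lit 270) (nat_lit 1) (nat_lit 297) (nat_lit 367) (nat_lit 356))) (XT.nd (nat_lit 78) (nat_lit 380) (nat_lit 0) (XT.lf (nat_lit 76) (nat_lit 550471451) (nat_lit 0) (nat_lit 18564564692) (nat_lit 380) (nat_lit 2026683201) (nat_lit 267) (nat_lit 1) (nat_lit 266) (nat_lit 1) (nat_lit 271) (nat_lit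 1) (nat_lit 298) (nat_lit 367) (nat_lit 355)) (XT.lf (nat_lit 76) (nat_lit 14213315648) (nat_lit 0) (nat_lit 2357430481) (nat_lit 380) (nat_lit 3887831006) (nat_lit 262) (nat_lit 1) (nat_lit 261) (nat_lit 1) (nat_lit 266) (nat_lit 1) (nat_lit 299) (nat_lit 367) (nat_lit 354))))) (XT.nd (nat_lit 234) (nat_lit 1140) (nat_lit 0) (XT.nd (nat_lit 78) (nat_lit 532) (nat_lit 0) (XT.lf (nat_lit 76) (nat_lit 7111281993) (nat_lit 0) (nat_lit 7221228047) (nat_lit 380) (nat_lit 5473109591) (nat_lit 258) (nat_lit 1) (nat_lit 257) (nat_lit 1) (nat_lit 262) (nat_lit 1) (nat_lit 300) (nat_lit 367) (nat_lit 353)) (XT.nd (nat_lit 78) (nat_lit 228) (nat_lit 0) (XT.lf (nat_lit 76) (nat_lit 350997110) (nat_lit 0) (nat_lit 12073781166) (nat_lit 380) (nat_lit 6758799231) (nat_lit 254) (nat_lit 1) (nat_lit 253) (nat_lit 1) (nat_lit 258) (nat_lit 1) (nat_lit 301) (nat_lit 367) (nat_lit 352)) (XT.lf (nat_lit 304) (nat_lit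 1585083167) (nat_lit 0) (nat_lit 10719158731) (nat_lit 228) (nat_lit 6281673369) (nat_lit 254) (nat_lit 1) (nat_lit 250) (nat_lit 1) (nat_lit 253) (nat_lit 1) (nat_lit 302) (nat_lit 367) (nat_lit 351)))) (XT.nd (nat_lit 156) (nat_lit 532) (nat_lit 0) (XT.nd (nat_lit 78) (nat_lit 228) (nat_lit 0) (XT.lf (nat_lit 76) (nat_lit 5476888508) (nat_lit 0) (nat_lit 3753893415) (nat_lit 380) (nat_lit 8782161615) (nat_lit 246) (nat_lit 1) (nat_lit 245) (nat_lit 1) (nat_lit 250) (nat_lit 1) (nat_lit 303) (nat_lit 367) (nat_lit 350)) (XT.lf (nat_lit 304) (nat_lit 8479540774) (nat_lit 0) (nat_lit 7965432602) (nat_lit 228) (nat_lit 1019565919) (nat_lit 246) (nat_lit 1) (nat_lit 242) (nat_lit 1) (nat_lit 245) (nat_lit 1) (nat_lit 304) (nat_lit 367) (nat_lit 349))) (XT.nd (nat_lit 78) (nat_lit 304) (nat_lit 0) (XT.lf (nat_lit 304) (nat_lit 2717651852) (nat_lit 0) (nat_lit 6857911289) (nat_lit 228) (nat_lit 7361647238)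 (nat_lit 243) (nat_lit 1) (nat_lit 239) (nat_lit 1) (nat_lit 242) (nat_lit 1) (nat_lit 305) (nat_lit 367) (nat_lit 348)) (XT.lf (nat_lit 76) (nat_lit 3097466440) (nat_lit 0) (nat_lit 2835999701) (nat_lit 304) (nat_lit 10498316286) (nat_lit 236) (nat_lit 1) (nat_lit 235) (nat_lit 1) (nat_lit 239) (nat_lit 1) (nat_lit 306) (nat_lit 367) (nat_lit 347))))))))
noncomputable def ec79 : XT := (XT.nd (nat_lit 2106) (nat_lit 3116) (nat_lit 0) (XT.nd (nat_lit 1014) (nat_lit 1824) (nat_lit 0) (XT.nd (nat_lit 468) (nat_lit 1140) (nat_lit 0) (XT.nd (nat_lit 234) (nat_lit 532) (nat_lit 0) (XT.nd (nat_lit 78) (nat_lit 456) (nat_lit 0) (XT.lf (nat_lit 304) (nat_lit 7707638694) (nat_lit 0) (nat_lit 5128377164) (nat_lit 228) (nat_lit 3108839098) (nat_lit 236) (nat_lit 1) (nat_lit 232) (nat_lit 1) (nat_lit 235) (nat_lit 1) (nat_lit 307) (nat_lit 367) (nat_lit 346)) (XT.nd (nat_lit 78) (nat_lit 304) (nat_lit 0)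 (XT.lf (nat_lit 228) (nat_lit 1910735013) (nat_lit 0) (nat_lit 4474135011) (nat_lit 152) (nat_lit 9092701475) (nat_lit 233) (nat_lit 1) (nat_lit 230) (nat_lit 1) (nat_lit 232) (nat_lit 1) (nat_lit 308) (nat_lit 367) (nat_lit 345)) (XT.lf (nat_lit 76) (nat_lit 323690718) (nat_lit 0) (nat_lit 3622169409) (nat_lit 304) (nat_lit 11082541050) (nat_lit 227) (nat_lit 1) (nat_lit 226) (nat_lit 1) (nat_lit 230) (nat_lit 1) (nat_lit 309) (nat_lit 367) (nat_lit 344)))) (XT.nd (nat_lit 78) (nat_lit 380) (nat_lit 0) (XT.lf (nat_lit 228) (nat_lit 5552245353) (nat_lit 0) (nat_lit 3469677019) (nat_lit 152) (nat_lit 5571567223) (nat_lit 227) (nat_lit 1) (nat_lit 224) (nat_lit 1) (nat_lit 226) (nat_lit 1) (nat_lit 310) (nat_lit 367) (nat_lit 343)) (XT.nd (nat_lit 78) (nat_lit 152) (nat_lit 0) (XT.lf (nat_lit 76) (nat_lit 3012416299) (nat_lit 0) (nat_lit 139145397) (nat_lit 228) (nat_lit 11025994360) (nat_lit 222)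 (nat_lit 1) (nat_lit 221) (nat_lit 1) (nat_lit 224) (nat_lit 1) (nat_lit 311) (nat_lit 367) (nat_lit 342)) (XT.lf (nat_lit 228) (nat_lit 8235364450) (nat_lit 0) (nat_lit 2853738434) (nat_lit 152) (nat_lit 2684618842) (nat_lit 222) (nat_lit 1) (nat_lit 219) (nat_lit 1) (nat_lit 221) (nat_lit 1) (nat_lit 312) (nat_lit 367) (nat_lit 341))))) (XT.nd (nat_lit 234) (nat_lit 608) (nat_lit 0) (XT.nd (nat_lit 78) (nat_lit 380) (nat_lit 0) (XT.lf (nat_lit 228) (nat_lit 2558234212) (nat_lit 0) (nat_lit 2652865445) (nat_lit 152) (nat_lit 8174228093) (nat_lit 220) (nat_lit 1) (nat_lit 217) (nat_lit 1) (nat_lit 219) (nat_lit 1) (nat_lit 313) (nat_lit 367) (nat_lit 340)) (XT.nd (nat_lit 78) (nat_lit 152) (nat_lit 0) (XT.lf (nat_lit 228) (nat_lit 10155249645) (nat_lit 0) (nat_lit 2534597613) (nat_lit 152) (nat_lit 321543112) (nat_lit 217) (nat_lit 1) (nat_lit 214) (nat_lit 1) (nat_lit 216) (nat_lit 1) (nat_lit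 314) (nat_lit 367) (nat_lit 339)) (XT.lf (nat_lit 228) (nat_lit 4545019085) (nat_lit 0) (nat_lit 2419686189) (nat_lit 152) (nat_lit 5683138256) (nat_lit 215) (nat_lit 1) (nat_lit 212) (nat_lit 1) (nat_lit 214) (nat_lit 1) (nat_lit 315) (nat_lit 367) (nat_lit 338)))) (XT.nd (nat_lit 156) (nat_lit 304) (nat_lit 0) (XT.nd (nat_lit 78) (nat_lit 152) (nat_lit 0) (XT.lf (nat_lit 76) (nat_lit 1556844514) (nat_lit 0) (nat_lit 855711898) (nat_lit 152) (nat_lit 9886819260) (nat_lit 211) (nat_lit 1) (nat_lit 210) (nat_lit 1) (nat_lit 212) (nat_lit 1) (nat_lit 316) (nat_lit 367) (nat_lit 337)) (XT.lf (nat_lit 228) (nat_lit 5963326427) (nat_lit 0) (nat_lit 2387010126) (nat_lit 152) (nat_lit 3609364518) (nat_lit 211) (nat_lit 1) (nat_lit 208) (nat_lit 1) (nat_lit 210) (nat_lit 1) (nat_lit 317) (nat_lit 367) (nat_lit 336))) (XT.nd (nat_lit 78) (nat_lit 228) (nat_lit 0) (XT.lf (nat_lit 152) (nat_lit 642165518)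 (nat_lit 0) (nat_lit 2445638180) (nat_lit 76) (nat_lit 8545632687) (nat_lit 209) (nat_lit 1) (nat_lit 207) (nat_lit 1) (nat_lit 208) (nat_lit 1) (nat_lit 318) (nat_lit 367) (nat_lit 335)) (XT.lf (nat_lit 228) (nat_lit 6931939686) (nat_lit 0) (nat_lit 2501235231) (nat_lit 152) (nat_lit 1882992907) (nat_lit 207) (nat_lit 1) (nat_lit 204) (nat_lit 1) (nat_lit 206) (nat_lit 1) (nat_lit 319) (nat_lit 367) (nat_lit 334)))))) (XT.nd (nat_lit 546) (nat_lit 836) (nat_lit 0) (XT.nd (nat_lit 234) (nat_lit 608) (nat_lit 0) (XT.nd (nat_lit 78) (nat_lit 304) (nat_lit 0) (XT.lf (nat_lit 152) (nat_lit 1743433947) (nat_lit 0) (nat_lit 2594758937) (nat_lit 76) (nat_lit 6671398968) (nat_lit 205) (nat_lit 1) (nat_lit 203) (nat_lit 1) (nat_lit 204) (nat_lit 1) (nat_lit 320) (nat_lit 367) (nat_lit 333)) (XT.nd (nat_lit 78) (nat_lit 76) (nat_lit 0) (XT.lf (nat_lit 228) (nat_lit 7546896799) (nat_lit 0) (nat_lit 2719904928)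 (nat_lit 152) (nat_lit 446359682) (nat_lit 203) (nat_lit 1) (nat_lit 200) (nat_lit 1) (nat_lit 202) (nat_lit 1) (nat_lit 321) (nat_lit 367) (nat_lit 332)) (XT.lf (nat_lit 152) (nat_lit 2509040635) (nat_lit 0) (nat_lit 2835533570) (nat_lit 76) (nat_lit 5080103270) (nat_lit 201) (nat_lit 1) (nat_lit 199) (nat_lit 1) (nat_lit 200) (nat_lit 1) (nat_lit 322) (nat_lit 367) (nat_lit 331)))) (XT.nd (nat_lit 156) (nat_lit 304) (nat_lit 0) (XT.nd (nat_lit 78) (nat_lit 76) (nat_lit 0) (XT.lf (nat_lit 76) (nat_lit 724208977) (nat_lit 0) (nat_lit 2273098935) (nat_lit 228) (nat_lit 7149249435) (nat_lit 197) (nat_lit 1) (nat_lit 196) (nat_lit 1) (nat_lit 199) (nat_lit 1) (nat_lit 323) (nat_lit 367) (nat_lit 330)) (XT.lf (nat_lit 152) (nat_lit 3011075134) (nat_lit 0) (nat_lit 3137397568) (nat_lit 76) (nat_lit 3726871458) (nat_lit 197) (nat_lit 1) (nat_lit 195) (nat_lit 1) (nat_lit 196) (nat_lit 1) (nat_lit 324)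 (nat_lit 367) (nat_lit 329))) (XT.nd (nat_lit 78) (nat_lit 76) (nat_lit 0) (XT.lf (nat_lit 76) (nat_lit 1684240423) (nat_lit 0) (nat_lit 1631300737) (nat_lit 228) (nat_lit 6298120910) (nat_lit 193) (nat_lit 1) (nat_lit 192) (nat_lit 1) (nat_lit 195) (nat_lit 1) (nat_lit 325) (nat_lit 367) (nat_lit 328)) (XT.lf (nat_lit 152) (nat_lit 3307672791) (nat_lit 0) (nat_lit 3476491878) (nat_lit 76) (nat_lit 2574501189) (nat_lit 193) (nat_lit 1) (nat_lit 191) (nat_lit 1) (nat_lit 192) (nat_lit 1) (nat_lit 326) (nat_lit 367) (nat_lit 327))))) (XT.nd (nat_lit 234) (nat_lit 456) (nat_lit 0) (XT.nd (nat_lit 78) (nat_lit 228) (nat_lit 0) (XT.lf (nat_lit 76) (nat_lit 2479591366) (nat_lit 0) (nat_lit 1181480919) (nat_lit 152) (nat_lit 5451018710) (nat_lit 190) (nat_lit 1) (nat_lit 189) (nat_lit 1) (nat_lit 191) (nat_lit 1) (nat_lit 327) (nat_lit 367) (nat_lit 326)) (XT.nd (nat_lit 78) (nat_lit 152) (nat_lit 0)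 (XT.lf (nat_lit 152) (nat_lit 3445622185) (nat_lit 0) (nat_lit 3834356043) (nat_lit 76) (nat_lit 1592093424) (nat_lit 190) (nat_lit 1) (nat_lit 188) (nat_lit 1) (nat_lit 189) (nat_lit 1) (nat_lit 328) (nat_lit 367) (nat_lit 325)) (XT.lf (nat_lit 76) (nat_lit 3136452530) (nat_lit 0) (nat_lit 881400171) (nat_lit 152) (nat_lit 4621582351) (nat_lit 187) (nat_lit 1) (nat_lit 186) (nat_lit 1) (nat_lit 188) (nat_lit 1) (nat_lit 329) (nat_lit 367) (nat_lit 324)))) (XT.nd (nat_lit 156) (nat_lit 228) (nat_lit 0) (XT.nd (nat_lit 78) (nat_lit 152) (nat_lit 0) (XT.lf (nat_lit 152) (nat_lit 3462491217) (nat_lit 0) (nat_lit 4196866102) (nat_lit 76) (nat_lit 753932494) (nat_lit 187) (nat_lit 1) (nat_lit 185) (nat_lit 1) (nat_lit 186) (nat_lit 1) (nat_lit 330) (nat_lit 367) (nat_lit 323)) (XT.lf (nat_lit 76) (nat_lit 3676591327) (nat_lit 0) (nat_lit 697094163) (nat_lit 152) (nat_lit 3819873209) (nat_lit 184)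 (nat_lit 1) (nat_lit 183) (nat_lit 1) (nat_lit 185) (nat_lit 1) (nat_lit 331) (nat_lit 367) (nat_lit 322))) (XT.nd (nat_lit 78) (nat_lit 152) (nat_lit 0) (XT.lf (nat_lit 152) (nat_lit 3388360347) (nat_lit 0) (nat_lit 4553372031) (nat_lit 76) (nat_lit 38569268) (nat_lit 184) (nat_lit 1) (nat_lit 182) (nat_lit 1) (nat_lit 183) (nat_lit 1) (nat_lit 332) (nat_lit 367) (nat_lit 321)) (XT.lf (nat_lit 76) (nat_lit 4118134829) (nat_lit 0) (nat_lit 601319767) (nat_lit 152) (nat_lit 3053103677) (nat_lit 181) (nat_lit 1) (nat_lit 180) (nat_lit 1) (nat_lit 182) (nat_lit 1) (nat_lit 333) (nat_lit 367) (nat_lit 320))))))) (XT.nd (nat_lit 1014) (nat_lit 1596) (nat_lit 0) (XT.nd (nat_lit 468) (nat_lit 836) (nat_lit 0) (XT.nd (nat_lit 234) (nat_lit 380) (nat_lit 0) (XT.nd (nat_lit 78) (nat_lit 228) (nat_lit 0) (XT.lf (nat_lit 0) (nat_lit 553624368) (nat_lit 0) (nat_lit 4332997561) (nat_lit 152) (nat_lit 2684234961)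 (nat_lit 179) (nat_lit 3) (nat_lit 179) (nat_lit 1) (nat_lit 181) (nat_lit 1) (nat_lit 334) (nat_lit 367) (nat_lit 319)) (XT.nd (nat_lit 78) (nat_lit 76) (nat_lit 0) (XT.lf (nat_lit 76) (nat_lit 4476211008) (nat_lit 0) (nat_lit 572288639) (nat_lit 152) (nat_lit 2326227912) (nat_lit 178) (nat_lit 1) (nat_lit 177) (nat_lit 1) (nat_lit 179) (nat_lit 1) (nat_lit 335) (nat_lit 367) (nat_lit 318)) (XT.lf (nat_lit 0) (nat_lit 1057627360) (nat_lit 0) (nat_lit 4143535317) (nat_lit 152) (nat_lit 1982658917) (nat_lit 176) (nat_lit 3) (nat_lit 176) (nat_lit 1) (nat_lit 178) (nat_lit 1) (nat_lit 336) (nat_lit 367) (nat_lit 317)))) (XT.nd (nat_lit 78) (nat_lit 228) (nat_lit 0) (XT.lf (nat_lit 76) (nat_lit 4763474130) (nat_lit 0) (nat_lit 592635292) (nat_lit 152) (nat_lit 1642419832) (nat_lit 175) (nat_lit 1) (nat_lit 174) (nat_lit 1) (nat_lit 176) (nat_lit 1) (nat_lit 337) (nat_lit 367) (nat_lit 316)) (XT.nd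 (nat_lit 78) (nat_lit 152) (nat_lit 0) (XT.lf (nat_lit 0) (nat_lit 1486906365) (nat_lit 0) (nat_lit 4006590830) (nat_lit 152) (nat_lit 1324255545) (nat_lit 173) (nat_lit 3) (nat_lit 173) (nat_lit 1) (nat_lit 175) (nat_lit 1) (nat_lit 338) (nat_lit 367) (nat_lit 315)) (XT.lf (nat_lit 76) (nat_lit 4990535446) (nat_lit 0) (nat_lit 648576504) (nat_lit 152) (nat_lit 1003459337) (nat_lit 172) (nat_lit 1) (nat_lit 171) (nat_lit 1) (nat_lit 173) (nat_lit 1) (nat_lit 339) (nat_lit 367) (nat_lit 314))))) (XT.nd (nat_lit 234) (nat_lit 532) (nat_lit 0) (XT.nd (nat_lit 78) (nat_lit 228) (nat_lit 0) (XT.lf (nat_lit 0) (nat_lit 1851774371) (nat_lit 0) (nat_lit 3909129900) (nat_lit 152) (nat_lit 710409923) (nat_lit 170) (nat_lit 3) (nat_lit 170) (nat_lit 1) (nat_lit 172) (nat_lit 1) (nat_lit 340) (nat_lit 367) (nat_lit 313)) (XT.nd (nat_lit 78) (nat_lit 76) (nat_lit 0) (XT.lf (nat_lit 76) (nat_lit 5166316437)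 (nat_lit 0) (nat_lit 729226827) (nat_lit 152) (nat_lit 410043827) (nat_lit 169) (nat_lit 1) (nat_lit 168) (nat_lit 1) (nat_lit 170) (nat_lit 1) (nat_lit 341) (nat_lit 367) (nat_lit 312)) (XT.lf (nat_lit 0) (nat_lit 2160953700) (nat_lit 0) (nat_lit 3840811569) (nat_lit 152) (nat_lit 141523153) (nat_lit 167) (nat_lit 3) (nat_lit 167) (nat_lit 1) (nat_lit 169) (nat_lit 1) (nat_lit 342) (nat_lit 367) (nat_lit 311)))) (XT.nd (nat_lit 156) (nat_lit 228) (nat_lit 0) (XT.nd (nat_lit 78) (nat_lit 76) (nat_lit 0) (XT.lf (nat_lit 152) (nat_lit 5158041285) (nat_lit 0) (nat_lit 142522632) (nat_lit 76) (nat_lit 685743994) (nat_lit 166) (nat_lit 1) (nat_lit 164) (nat_lit 1) (nat_lit 165) (nat_lit 1) (nat_lit 343) (nat_lit 367) (nat_lit 310)) (XT.lf (nat_lit 76) (nat_lit 2032607052) (nat_lit 0) (nat_lit 395412302) (nat_lit 76) (nat_lit 3404233113) (nat_lit 164) (nat_lit 3) (nat_lit 163) (nat_lit 1) (nat_lit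 164) (nat_lit 1) (nat_lit 344) (nat_lit 367) (nat_lit 309))) (XT.nd (nat_lit 78) (nat_lit 76) (nat_lit 0) (XT.lf (nat_lit 152) (nat_lit 4740781340) (nat_lit 0) (nat_lit 662524788) (nat_lit 76) (nat_lit 280182001) (nat_lit 163) (nat_lit 1) (nat_lit 161) (nat_lit 1) (nat_lit 162) (nat_lit 1) (nat_lit 345) (nat_lit 367) (nat_lit 308)) (XT.lf (nat_lit 76) (nat_lit 1762783161) (nat_lit 0) (nat_lit 891895159) (nat_lit 76) (nat_lit 2882733893) (nat_lit 161) (nat_lit 3) (nat_lit 160) (nat_lit 1) (nat_lit 161) (nat_lit 1) (nat_lit 346) (nat_lit 367) (nat_lit 307)))))) (XT.nd (nat_lit 546) (nat_lit 760) (nat_lit 0) (XT.nd (nat_lit 234) (nat_lit 456) (nat_lit 0) (XT.nd (nat_lit 78) (nat_lit 228) (nat_lit 0) (XT.lf (nat_lit 0) (nat_lit 74404147) (nat_lit 0) (nat_lit 1062015022) (nat_lit 152) (nat_lit 4259999793) (nat_lit 158) (nat_lit 3) (nat_lit 158) (nat_lit 1) (nat_lit 160) (nat_lit 1) (nat_lit 347) (nat_lit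 367) (nat_lit 306)) (XT.nd (nat_lit 78) (nat_lit 152) (nat_lit 0) (XT.lf (nat_lit 76) (nat_lit 1499426383) (nat_lit 0) (nat_lit 1344629115) (nat_lit 76) (nat_lit 2413880897) (nat_lit 158) (nat_lit 3) (nat_lit 157) (nat_lit 1) (nat_lit 158) (nat_lit 1) (nat_lit 348) (nat_lit 367) (nat_lit 305)) (XT.lf (nat_lit 0) (nat_lit 378403178) (nat_lit 0) (nat_lit 1184800457) (nat_lit 152) (nat_lit 3560865892) (nat_lit 155) (nat_lit 3) (nat_lit 155) (nat_lit 1) (nat_lit 157) (nat_lit 1) (nat_lit 349) (nat_lit 367) (nat_lit 304)))) (XT.nd (nat_lit 156) (nat_lit 228) (nat_lit 0) (XT.nd (nat_lit 78) (nat_lit 152) (nat_lit 0) (XT.lf (nat_lit 76) (nat_lit 1245488673) (nat_lit 0) (nat_lit 1755308341) (nat_lit 76) (nat_lit 1992152820) (nat_lit 155) (nat_lit 3) (nat_lit 154) (nat_lit 1) (nat_lit 155) (nat_lit 1) (nat_lit 350) (nat_lit 367) (nat_lit 303)) (XT.lf (nat_lit 0) (nat_lit 645415421) (nat_lit 0) (nat_lit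 1303849413) (nat_lit 152) (nat_lit 2916549810) (nat_lit 152) (nat_lit 3) (nat_lit 152) (nat_lit 1) (nat_lit 154) (nat_lit 1) (nat_lit 351) (nat_lit 367) (nat_lit 302))) (XT.nd (nat_lit 78) (nat_lit 152) (nat_lit 0) (XT.lf (nat_lit 76) (nat_lit 1003068822) (nat_lit 0) (nat_lit 2125841168) (nat_lit 76) (nat_lit 1612729926) (nat_lit 152) (nat_lit 3) (nat_lit 151) (nat_lit 1) (nat_lit 152) (nat_lit 1) (nat_lit 352) (nat_lit 367) (nat_lit 301)) (XT.lf (nat_lit 0) (nat_lit 879474326) (nat_lit 0) (nat_lit 1417094347) (nat_lit 152) (nat_lit 2324300863) (nat_lit 149) (nat_lit 3) (nat_lit 149) (nat_lit 1) (nat_lit 151) (nat_lit 1) (nat_lit 353) (nat_lit 367) (nat_lit 300))))) (XT.nd (nat_lit 234) (nat_lit 456) (nat_lit 0) (XT.nd (nat_lit 78) (nat_lit 228) (nat_lit 0) (XT.lf (nat_lit 76) (nat_lit 773590107) (nat_lit 0) (nat_lit 2458273541) (nat_lit 76) (nat_lit 1271386422) (nat_lit 149) (nat_lit 3) (nat_lit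 148) (nat_lit 1) (nat_lit 149) (nat_lit 1) (nat_lit 354) (nat_lit 367) (nat_lit 299)) (XT.nd (nat_lit 78) (nat_lit 76) (nat_lit 0) (XT.lf (nat_lit 0) (nat_lit 1084106162) (nat_lit 0) (nat_lit 1523079985) (nat_lit 152) (nat_lit 1781316405) (nat_lit 146) (nat_lit 3) (nat_lit 146) (nat_lit 1) (nat_lit 148) (nat_lit 1) (nat_lit 355) (nat_lit 367) (nat_lit 298)) (XT.lf (nat_lit 76) (nat_lit 557943994) (nat_lit 0) (nat_lit 2754728979) (nat_lit 76) (nat_lit 964401237) (nat_lit 146) (nat_lit 3) (nat_lit 145) (nat_lit 1) (nat_lit 146) (nat_lit 1) (nat_lit 356) (nat_lit 367) (nat_lit 297)))) (XT.nd (nat_lit 156) (nat_lit 228) (nat_lit 0) (XT.nd (nat_lit 78) (nat_lit 76) (nat_lit 0) (XT.lf (nat_lit 0) (nat_lit 1262406408) (nat_lit 0) (nat_lit 1620834312) (nat_lit 152) (nat_lit 1284789302) (nat_lit 143) (nat_lit 3) (nat_lit 143) (nat_lit 1) (nat_lit 145) (nat_lit 1) (nat_lit 357) (nat_lit 367) (nat_lit 296))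 (XT.lf (nat_lit 76) (nat_lit 356606209) (nat_lit 0) (nat_lit 3017361832) (nat_lit 76) (nat_lit 688483899) (nat_lit 143) (nat_lit 3) (nat_lit 142) (nat_lit 1) (nat_lit 143) (nat_lit 1) (nat_lit 358) (nat_lit 367) (nat_lit 295))) (XT.nd (nat_lit 78) (nat_lit 76) (nat_lit 0) (XT.lf (nat_lit 0) (nat_lit 1417103231) (nat_lit 0) (nat_lit 1709764333) (nat_lit 152) (nat_lit 831944266) (nat_lit 140) (nat_lit 3) (nat_lit 140) (nat_lit 1) (nat_lit 142) (nat_lit 1) (nat_lit 359) (nat_lit 367) (nat_lit 294)) (XT.lf (nat_lit 76) (nat_lit 169730325) (nat_lit 0) (nat_lit 3248321261) (nat_lit 76) (nat_lit 440712827) (nat_lit 140) (nat_lit 3) (nat_lit 139) (nat_lit 1) (nat_lit 140) (nat_lit 1) (nat_lit 360) (nat_lit 367) (nat_lit 293))))))))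
noncomputable def ec80 : XT := (XT.nd (nat_lit 2028) (nat_lit 3192) (nat_lit 0) (XT.nd (nat_lit 1014) (nat_lit 1596) (nat_lit 0) (XT.nd (nat_lit 468) (nat_lit 760) (nat_lit 0) (XT.nd (nat_lit 234) (nat_lit 456) (nat_lit 0) (XT.nd (nat_lit 78) (nat_lit 228) (nat_lit 0) (XT.lf (nat_lit 0) (nat_lit 1550610346) (nat_lit 0) (nat_lit 1789571987) (nat_lit 152) (nat_lit 420065238) (nat_lit 137) (nat_lit 3) (nat_lit 137) (nat_lit 1) (nat_lit 139) (nat_lit 1) (nat_lit 361) (nat_lit 367) (nat_lit 292)) (XT.nd (nat_lit 78) (nat_lit 76) (nat_lit 0) (XT.lf (nat_lit 76) (nat_lit 3446990263) (nat_lit 0) (nat_lit 2688063) (nat_lit 152) (nat_lit 215750248) (nat_lit 136) (nat_lit 1) (nat_lit 135) (nat_lit 1) (nat_lit 137) (nat_lit 1) (nat_lit 362) (nat_lit 367) (nat_lit 291)) (XT.lf (nat_lit 0) (nat_lit 1665071134) (nat_lit 0) (nat_lit 1860186460) (nat_lit 152) (nat_lit 46515599) (nat_lit 134) (nat_lit 3) (nat_lit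 134) (nat_lit 1) (nat_lit 136) (nat_lit 1) (nat_lit 363) (nat_lit 367) (nat_lit 290)))) (XT.nd (nat_lit 78) (nat_lit 228) (nat_lit 0) (XT.lf (nat_lit 152) (nat_lit 3323385368) (nat_lit 0) (nat_lit 143814508) (nat_lit 76) (nat_lit 14466880) (nat_lit 133) (nat_lit 1) (nat_lit 131) (nat_lit 1) (nat_lit 132) (nat_lit 1) (nat_lit 364) (nat_lit 367) (nat_lit 289)) (XT.nd (nat_lit 78) (nat_lit 152) (nat_lit 0) (XT.lf (nat_lit 76) (nat_lit 1466215847) (nat_lit 0) (nat_lit 300877276) (nat_lit 76) (nat_lit 1625530078) (nat_lit 131) (nat_lit 3) (nat_lit 130) (nat_lit 1) (nat_lit 131) (nat_lit 1) (nat_lit 365) (nat_lit 367) (nat_lit 288)) (XT.lf (nat_lit 0) (nat_lit 165747854) (nat_lit 0) (nat_lit 306236595) (nat_lit 152) (nat_lit 2834945165) (nat_lit 128) (nat_lit 3) (nat_lit 128) (nat_lit 1) (nat_lit 130) (nat_lit 1) (nat_lit 366) (nat_lit 367) (nat_lit 287))))) (XT.nd (nat_lit 234) (nat_lit 456) (nat_lit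 0) (XT.nd (nat_lit 78) (nat_lit 228) (nat_lit 0) (XT.lf (nat_lit 76) (nat_lit 1238541150) (nat_lit 0) (nat_lit 615357602) (nat_lit 76) (nat_lit 1368623317) (nat_lit 128) (nat_lit 3) (nat_lit 127) (nat_lit 1) (nat_lit 128) (nat_lit 1) (nat_lit 367) (nat_lit 367) (nat_lit 286)) (XT.nd (nat_lit 78) (nat_lit 76) (nat_lit 0) (XT.lf (nat_lit 0) (nat_lit 326142509) (nat_lit 0) (nat_lit 440853415) (nat_lit 152) (nat_lit 2374046481) (nat_lit 125) (nat_lit 3) (nat_lit 125) (nat_lit 1) (nat_lit 127) (nat_lit 1) (nat_lit 368) (nat_lit 367) (nat_lit 285)) (XT.lf (nat_lit 76) (nat_lit 1028513757) (nat_lit 0) (nat_lit 897792882) (nat_lit 76) (nat_lit 1134727559) (nat_lit 125) (nat_lit 3) (nat_lit 124) (nat_lit 1) (nat_lit 125) (nat_lit 1) (nat_lit 369) (nat_lit 367) (nat_lit 284)))) (XT.nd (nat_lit 156) (nat_lit 228) (nat_lit 0) (XT.nd (nat_lit 78) (nat_lit 76) (nat_lit 0) (XT.lf (nat_lit 0) (nat_lit 468874410)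 (nat_lit 0) (nat_lit 562537374) (nat_lit 152) (nat_lit 1952144049) (nat_lit 122) (nat_lit 3) (nat_lit 122) (nat_lit 1) (nat_lit 124) (nat_lit 1) (nat_lit 370) (nat_lit 367) (nat_lit 283)) (XT.lf (nat_lit 76) (nat_lit 835258512) (nat_lit 0) (nat_lit 1150471082) (nat_lit 76) (nat_lit 921983479) (nat_lit 122) (nat_lit 3) (nat_lit 121) (nat_lit 1) (nat_lit 122) (nat_lit 1) (nat_lit 371) (nat_lit 367) (nat_lit 282))) (XT.nd (nat_lit 78) (nat_lit 76) (nat_lit 0) (XT.lf (nat_lit 0) (nat_lit 595481636) (nat_lit 0) (nat_lit 671958679) (nat_lit 152) (nat_lit 1566594702) (nat_lit 119) (nat_lit 3) (nat_lit 119) (nat_lit 1) (nat_lit 121) (nat_lit 1) (nat_lit 372) (nat_lit 367) (nat_lit 281)) (XT.lf (nat_lit 76) (nat_lit 657881813) (nat_lit 0) (nat_lit 1375561242) (nat_lit 76) (nat_lit 728693890) (nat_lit 119) (nat_lit 3) (nat_lit 118) (nat_lit 1) (nat_lit 119) (nat_lit 1) (nat_lit 373) (nat_lit 367) (nat_lit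 280)))))) (XT.nd (nat_lit 468) (nat_lit 912) (nat_lit 0) (XT.nd (nat_lit 234) (nat_lit 304) (nat_lit 0) (XT.nd (nat_lit 78) (nat_lit 228) (nat_lit 0) (XT.lf (nat_lit 0) (nat_lit 707363723) (nat_lit 0) (nat_lit 769808236) (nat_lit 152) (nat_lit 1214897091) (nat_lit 116) (nat_lit 3) (nat_lit 116) (nat_lit 1) (nat_lit 118) (nat_lit 1) (nat_lit 374) (nat_lit 367) (nat_lit 279)) (XT.nd (nat_lit 78) (nat_lit 152) (nat_lit 0) (XT.lf (nat_lit 76) (nat_lit 495487169) (nat_lit 0) (nat_lit 1575113853) (nat_lit 76) (nat_lit 553306162) (nat_lit 116) (nat_lit 3) (nat_lit 115) (nat_lit 1) (nat_lit 116) (nat_lit 1) (nat_lit 375) (nat_lit 367) (nat_lit 278)) (XT.lf (nat_lit 0) (nat_lit 805796815) (nat_lit 0) (nat_lit 856783581) (nat_lit 152) (nat_lit 894689035) (nat_lit 113) (nat_lit 3) (nat_lit 113) (nat_lit 1) (nat_lit 115) (nat_lit 1) (nat_lit 376) (nat_lit 367) (nat_lit 277)))) (XT.nd (nat_lit 78) (nat_lit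 228) (nat_lit 0) (XT.lf (nat_lit 76) (nat_lit 347187119) (nat_lit 0) (nat_lit 1751062581) (nat_lit 76) (nat_lit 394397087) (nat_lit 113) (nat_lit 3) (nat_lit 112) (nat_lit 1) (nat_lit 113) (nat_lit 1) (nat_lit 377) (nat_lit 367) (nat_lit 276)) (XT.nd (nat_lit 78) (nat_lit 76) (nat_lit 0) (XT.lf (nat_lit 0) (nat_lit 891946708) (nat_lit 0) (nat_lit 933578074) (nat_lit 152) (nat_lit 603743856) (nat_lit 110) (nat_lit 3) (nat_lit 110) (nat_lit 1) (nat_lit 112) (nat_lit 1) (nat_lit 378) (nat_lit 367) (nat_lit 275)) (XT.lf (nat_lit 76) (nat_lit 212112229) (nat_lit 0) (nat_lit 1905226993) (nat_lit 76) (nat_lit 250659790) (nat_lit 110) (nat_lit 3) (nat_lit 109) (nat_lit 1) (nat_lit 110) (nat_lit 1) (nat_lit 379) (nat_lit 367) (nat_lit 274))))) (XT.nd (nat_lit 234) (nat_lit 532) (nat_lit 0) (XT.nd (nat_lit 78) (nat_lit 228) (nat_lit 0) (XT.lf (nat_lit 0) (nat_lit 966880141) (nat_lit 0) (nat_lit 1000872699)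 (nat_lit 152) (nat_lit 339965985) (nat_lit 107) (nat_lit 3) (nat_lit 107) (nat_lit 1) (nat_lit 109) (nat_lit 1) (nat_lit 380) (nat_lit 367) (nat_lit 273)) (XT.nd (nat_lit 78) (nat_lit 152) (nat_lit 0) (XT.lf (nat_lit 76) (nat_lit 89417764) (nat_lit 0) (nat_lit 2039316024) (nat_lit 76) (nat_lit 120892354) (nat_lit 107) (nat_lit 3) (nat_lit 106) (nat_lit 1) (nat_lit 107) (nat_lit 1) (nat_lit 381) (nat_lit 367) (nat_lit 272)) (XT.lf (nat_lit 0) (nat_lit 1031574606) (nat_lit 0) (nat_lit 1059329977) (nat_lit 152) (nat_lit 101386051) (nat_lit 104) (nat_lit 3) (nat_lit 104) (nat_lit 1) (nat_lit 106) (nat_lit 1) (nat_lit 382) (nat_lit 367) (nat_lit 271)))) (XT.nd (nat_lit 156) (nat_lit 228) (nat_lit 0) (XT.nd (nat_lit 78) (nat_lit 76) (nat_lit 0) (XT.lf (nat_lit 152) (nat_lit 2115880357) (nat_lit 0) (nat_lit 17959464) (nat_lit 76) (nat_lit 3337550) (nat_lit 103) (nat_lit 1) (nat_lit 101) (nat_lit 1)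 (nat_lit 102) (nat_lit 1) (nat_lit 383) (nat_lit 367) (nat_lit 270)) (XT.lf (nat_lit 76) (nat_lit 971154545) (nat_lit 0) (nat_lit 117608569) (nat_lit 76) (nat_lit 993817171) (nat_lit 101) (nat_lit 3) (nat_lit 100) (nat_lit 1) (nat_lit 101) (nat_lit 1) (nat_lit 384) (nat_lit 367) (nat_lit 269))) (XT.nd (nat_lit 78) (nat_lit 76) (nat_lit 0) (XT.lf (nat_lit 0) (nat_lit 103402726) (nat_lit 0) (nat_lit 123387405) (nat_lit 152) (nat_lit 1803295391) (nat_lit 98) (nat_lit 3) (nat_lit 98) (nat_lit 1) (nat_lit 100) (nat_lit 1) (nat_lit 385) (nat_lit 367) (nat_lit 268)) (XT.lf (nat_lit 76) (nat_lit 821095614) (nat_lit 0) (nat_lit 317624111) (nat_lit 76) (nat_lit 839599947) (nat_lit 98) (nat_lit 3) (nat_lit 97) (nat_lit 1) (nat_lit 98) (nat_lit 1) (nat_lit 386) (nat_lit 367) (nat_lit 267))))))) (XT.nd (nat_lit 1014) (nat_lit 1672) (nat_lit 0) (XT.nd (nat_lit 468) (nat_lit 836) (nat_lit 0) (XT.nd (nat_lit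 234) (nat_lit 304) (nat_lit 0) (XT.nd (nat_lit 78) (nat_lit 228) (nat_lit 0) (XT.lf (nat_lit 0) (nat_lit 198984697) (nat_lit 0) (nat_lit 215302451) (nat_lit 152) (nat_lit 1514102339) (nat_lit 95) (nat_lit 3) (nat_lit 95) (nat_lit 1) (nat_lit 97) (nat_lit 1) (nat_lit 387) (nat_lit 367) (nat_lit 266)) (XT.nd (nat_lit 78) (nat_lit 152) (nat_lit 0) (XT.lf (nat_lit 76) (nat_lit 683607596) (nat_lit 0) (nat_lit 496984877) (nat_lit 76) (nat_lit 698716626) (nat_lit 95) (nat_lit 3) (nat_lit 94) (nat_lit 1) (nat_lit 95) (nat_lit 1) (nat_lit 388) (nat_lit 367) (nat_lit 265)) (XT.lf (nat_lit 0) (nat_lit 284394457) (nat_lit 0) (nat_lit 297718118) (nat_lit 152) (nat_lit 1249704580) (nat_lit 92) (nat_lit 3) (nat_lit 92) (nat_lit 1) (nat_lit 94) (nat_lit 1) (nat_lit 389) (nat_lit 367) (nat_lit 264)))) (XT.nd (nat_lit 78) (nat_lit 228) (nat_lit 0) (XT.lf (nat_lit 76) (nat_lit 557842742) (nat_lit 0) (nat_lit 657259556)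 (nat_lit 76) (nat_lit 570179465) (nat_lit 92) (nat_lit 3) (nat_lit 91) (nat_lit 1) (nat_lit 92) (nat_lit 1) (nat_lit 390) (nat_lit 367) (nat_lit 263)) (XT.nd (nat_lit 78) (nat_lit 76) (nat_lit 0) (XT.lf (nat_lit 0) (nat_lit 360445344) (nat_lit 0) (nat_lit 371324288) (nat_lit 152) (nat_lit 1008338461) (nat_lit 89) (nat_lit 3) (nat_lit 89) (nat_lit 1) (nat_lit 91) (nat_lit 1) (nat_lit 391) (nat_lit 367) (nat_lit 262)) (XT.lf (nat_lit 76) (nat_lit 442998503) (nat_lit 0) (nat_lit 799914603) (nat_lit 76) (nat_lit 453071599) (nat_lit 89) (nat_lit 3) (nat_lit 88) (nat_lit 1) (nat_lit 89) (nat_lit 1) (nat_lit 392) (nat_lit 367) (nat_lit 261))))) (XT.nd (nat_lit 234) (nat_lit 456) (nat_lit 0) (XT.nd (nat_lit 78) (nat_lit 228) (nat_lit 0) (XT.lf (nat_lit 0) (nat_lit 427890086) (nat_lit 0) (nat_lit 436772887) (nat_lit 152) (nat_lit 788352389) (nat_lit 86) (nat_lit 3) (nat_lit 86) (nat_lit 1) (nat_lit 88)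 (nat_lit 1) (nat_lit 393) (nat_lit 367) (nat_lit 260)) (XT.nd (nat_lit 78) (nat_lit 152) (nat_lit 0) (XT.lf (nat_lit 76) (nat_lit 338316722) (nat_lit 0) (nat_lit 926319781) (nat_lit 76) (nat_lit 346541538) (nat_lit 86) (nat_lit 3) (nat_lit 85) (nat_lit 1) (nat_lit 86) (nat_lit 1) (nat_lit 394) (nat_lit 367) (nat_lit 259)) (XT.lf (nat_lit 0) (nat_lit 487425597) (nat_lit 0) (nat_lit 494678521) (nat_lit 152) (nat_lit 588200665) (nat_lit 83) (nat_lit 3) (nat_lit 83) (nat_lit 1) (nat_lit 85) (nat_lit 1) (nat_lit 395) (nat_lit 367) (nat_lit 258)))) (XT.nd (nat_lit 156) (nat_lit 228) (nat_lit 0) (XT.nd (nat_lit 78) (nat_lit 152) (nat_lit 0) (XT.lf (nat_lit 76) (nat_lit 243082511) (nat_lit 0) (nat_lit 1037753567) (nat_lit 76) (nat_lit 249798181) (nat_lit 83) (nat_lit 3) (nat_lit 82) (nat_lit 1) (nat_lit 83) (nat_lit 1) (nat_lit 396) (nat_lit 367) (nat_lit 257)) (XT.lf (nat_lit 0) (nat_lit 539697303)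 (nat_lit 0) (nat_lit 545619411) (nat_lit 152) (nat_lit 406437529) (nat_lit 80) (nat_lit 3) (nat_lit 80) (nat_lit 1) (nat_lit 82) (nat_lit 1) (nat_lit 397) (nat_lit 367) (nat_lit 256))) (XT.nd (nat_lit 78) (nat_lit 152) (nat_lit 0) (XT.lf (nat_lit 76) (nat_lit 156622872) (nat_lit 0) (nat_lit 1135408369) (nat_lit 76) (nat_lit 162106305) (nat_lit 80) (nat_lit 3) (nat_lit 79) (nat_lit 1) (nat_lit 80) (nat_lit 1) (nat_lit 398) (nat_lit 367) (nat_lit 255)) (XT.lf (nat_lit 0) (nat_lit 585303070) (nat_lit 0) (nat_lit 590138549) (nat_lit 152) (nat_lit 241711425) (nat_lit 77) (nat_lit 3) (nat_lit 77) (nat_lit 1) (nat_lit 79) (nat_lit 1) (nat_lit 399) (nat_lit 367) (nat_lit 254)))))) (XT.nd (nat_lit 546) (nat_lit 760) (nat_lit 0) (XT.nd (nat_lit 234) (nat_lit 608) (nat_lit 0) (XT.nd (nat_lit 78) (nat_lit 228) (nat_lit 0) (XT.lf (nat_lit 76) (nat_lit 78305157) (nat_lit 0) (nat_lit 1220395552) (nat_lit 76)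 (nat_lit 82782453) (nat_lit 77) (nat_lit 3) (nat_lit 76) (nat_lit 1) (nat_lit 77) (nat_lit 1) (nat_lit 400) (nat_lit 367) (nat_lit 253)) (XT.nd (nat_lit 78) (nat_lit 76) (nat_lit 0) (XT.lf (nat_lit 0) (nat_lit 624796776) (nat_lit 0) (nat_lit 628745009) (nat_lit 152) (nat_lit 92759517) (nat_lit 74) (nat_lit 3) (nat_lit 74) (nat_lit 1) (nat_lit 76) (nat_lit 1) (nat_lit 401) (nat_lit 367) (nat_lit 252)) (XT.lf (nat_lit 76) (nat_lit 7535411) (nat_lit 0) (nat_lit 1293750264) (nat_lit 76) (nat_lit 11191182) (nat_lit 74) (nat_lit 3) (nat_lit 73) (nat_lit 1) (nat_lit 74) (nat_lit 1) (nat_lit 402) (nat_lit 367) (nat_lit 251)))) (XT.nd (nat_lit 156) (nat_lit 228) (nat_lit 0) (XT.nd (nat_lit 78) (nat_lit 152) (nat_lit 0) (XT.lf (nat_lit 76) (nat_lit 616389537) (nat_lit 0) (nat_lit 42972962) (nat_lit 76) (nat_lit 619613320) (nat_lit 71) (nat_lit 3) (nat_lit 70) (nat_lit 1) (nat_lit 71) (nat_lit 1) (nat_lit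 403) (nat_lit 367) (nat_lit 250)) (XT.lf (nat_lit 0) (nat_lit 54226994) (nat_lit 0) (nat_lit 57069837) (nat_lit 152) (nat_lit 1135462242) (nat_lit 68) (nat_lit 3) (nat_lit 68) (nat_lit 1) (nat_lit 70) (nat_lit 1) (nat_lit 404) (nat_lit 367) (nat_lit 249))) (XT.nd (nat_lit 78) (nat_lit 152) (nat_lit 0) (XT.lf (nat_lit 76) (nat_lit 522250813) (nat_lit 0) (nat_lit 167832375) (nat_lit 76) (nat_lit 524883075) (nat_lit 68) (nat_lit 3) (nat_lit 67) (nat_lit 1) (nat_lit 68) (nat_lit 1) (nat_lit 405) (nat_lit 367) (nat_lit 248)) (XT.lf (nat_lit 0) (nat_lit 113015210) (nat_lit 0) (nat_lit 115336429) (nat_lit 152) (nat_lit 955969432) (nat_lit 65) (nat_lit 3) (nat_lit 65) (nat_lit 1) (nat_lit 67) (nat_lit 1) (nat_lit 406) (nat_lit 367) (nat_lit 247))))) (XT.nd (nat_lit 234) (nat_lit 456) (nat_lit 0) (XT.nd (nat_lit 78) (nat_lit 228) (nat_lit 0) (XT.lf (nat_lit 76) (nat_lit 436106886) (nat_lit 0) (nat_lit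 279812798) (nat_lit 76) (nat_lit 438256162) (nat_lit 65) (nat_lit 3) (nat_lit 64) (nat_lit 1) (nat_lit 65) (nat_lit 1) (nat_lit 407) (nat_lit 367) (nat_lit 246)) (XT.nd (nat_lit 78) (nat_lit 76) (nat_lit 0) (XT.lf (nat_lit 0) (nat_lit 165625572) (nat_lit 0) (nat_lit 167520878) (nat_lit 152) (nat_lit 791878777) (nat_lit 62) (nat_lit 3) (nat_lit 62) (nat_lit 1) (nat_lit 64) (nat_lit 1) (nat_lit 408) (nat_lit 367) (nat_lit 245)) (XT.lf (nat_lit 76) (nat_lit 357391490) (nat_lit 0) (nat_lit 379903847) (nat_lit 76) (nat_lit 359146402) (nat_lit 62) (nat_lit 3) (nat_lit 61) (nat_lit 1) (nat_lit 62) (nat_lit 1) (nat_lit 409) (nat_lit 367) (nat_lit 244)))) (XT.nd (nat_lit 156) (nat_lit 228) (nat_lit 0) (XT.nd (nat_lit 78) (nat_lit 76) (nat_lit 0) (XT.lf (nat_lit 0) (nat_lit 212540338) (nat_lit 0) (nat_lit 214087880) (nat_lit 152) (nat_lit 642084294) (nat_lit 59) (nat_lit 3) (nat_lit 59) (nat_lit 1) (nat_lit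 61) (nat_lit 1) (nat_lit 410) (nat_lit 367) (nat_lit 243)) (XT.lf (nat_lit 76) (nat_lit 285574235) (nat_lit 0) (nat_lit 469028037) (nat_lit 76) (nat_lit 287007144) (nat_lit 59) (nat_lit 3) (nat_lit 58) (nat_lit 1) (nat_lit 59) (nat_lit 1) (nat_lit 411) (nat_lit 367) (nat_lit 242))) (XT.nd (nat_lit 78) (nat_lit 76) (nat_lit 0) (XT.lf (nat_lit 0) (nat_lit 254207948) (nat_lit 0) (nat_lit 255471536) (nat_lit 152) (nat_lit 505552528) (nat_lit 56) (nat_lit 3) (nat_lit 56) (nat_lit 1) (nat_lit 58) (nat_lit 1) (nat_lit 412) (nat_lit 367) (nat_lit 241)) (XT.lf (nat_lit 76) (nat_lit 220158640) (nat_lit 0) (nat_lit 548044959) (nat_lit 76) (nat_lit 221328629) (nat_lit 56) (nat_lit 3) (nat_lit 55) (nat_lit 1) (nat_lit 56) (nat_lit 1) (nat_lit 413) (nat_lit 367) (nat_lit 240))))))))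
noncomputable def ec81 : XT := (XT.nd (nat_lit 44616) (nat_lit 0) (nat_lit 10108) (XT.nd (nat_lit 43602) (nat_lit 0) (nat_lit 14288) (XT.nd (nat_lit 43056) (nat_lit 0) (nat_lit 18240) (XT.nd (nat_lit 234) (nat_lit 228) (nat_lit 0) (XT.nd (nat_lit 78) (nat_lit 228) (nat_lit 0) (XT.lf (nat_lit 0) (nat_lit 291045330) (nat_lit 0) (nat_lit 292077066) (nat_lit 152) (nat_lit 381318108) (nat_lit 53) (nat_lit 3) (nat_lit 53) (nat_lit 1) (nat_lit 55) (nat_lit 1) (nat_lit 414) (nat_lit 367) (nat_lit 239)) (XT.nd (nat_lit 78) (nat_lit 152) (nat_lit 0) (XT.lf (nat_lit 76) (nat_lit 160680234) (nat_lit 0) (nat_lit 617755218) (nat_lit 76) (nat_lit 161635546) (nat_lit 53) (nat_lit 3) (nat_lit 52) (nat_lit 1) (nat_lit 53) (nat_lit 1) (nat_lit 415) (nat_lit 367) (nat_lit 238)) (XT.lf (nat_lit 0) (nat_lit 323440041) (nat_lit 0) (nat_lit 324282468) (nat_lit 152) (nat_lit 268479555) (nat_lit 50) (nat_lit 3) (nat_lit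 50) (nat_lit 1) (nat_lit 52) (nat_lit 1) (nat_lit 416) (nat_lit 367) (nat_lit 237)))) (XT.nd (nat_lit 78) (nat_lit 152) (nat_lit 0) (XT.lf (nat_lit 76) (nat_lit 106704725) (nat_lit 0) (nat_lit 678904149) (nat_lit 76) (nat_lit 107484749) (nat_lit 50) (nat_lit 3) (nat_lit 49) (nat_lit 1) (nat_lit 50) (nat_lit 1) (nat_lit 417) (nat_lit 367) (nat_lit 236)) (XT.nd (nat_lit 42666) (nat_lit 0) (nat_lit 18620) (XT.lf (nat_lit 0) (nat_lit 351752255) (nat_lit 0) (nat_lit 352440107) (nat_lit 152) (nat_lit 166195326) (nat_lit 47) (nat_lit 3) (nat_lit 47) (nat_lit 1) (nat_lit 49) (nat_lit 1) (nat_lit 418) (nat_lit 367) (nat_lit 235)) (XT.lf (nat_lit 836) (nat_lit 4635694767) (nat_lit 0) (nat_lit 8230665404) (nat_lit 836) (nat_lit 4635694767) (nat_lit 303) (nat_lit 1) (nat_lit 292) (nat_lit 0) (nat_lit 303) (nat_lit 0) (nat_lit 284) (nat_lit 368) (nat_lit 368))))) (XT.nd (nat_lit 234) (nat_lit 456) (nat_lit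 0) (XT.nd (nat_lit 78) (nat_lit 0) (nat_lit 0) (XT.lf (nat_lit 836) (nat_lit 1729256390) (nat_lit 0) (nat_lit 16159290709) (nat_lit 760) (nat_lit 15803732326) (nat_lit 304) (nat_lit 1) (nat_lit 293) (nat_lit 1) (nat_lit 303) (nat_lit 1) (nat_lit 285) (nat_lit 368) (nat_lit 367)) (XT.nd (nat_lit 78) (nat_lit 0) (nat_lit 76) (XT.lf (nat_lit 836) (nat_lit 15882221807) (nat_lit 76) (nat_lit 10821882434) (nat_lit 0) (nat_lit 5739432791) (nat_lit 304) (nat_lit 1) (nat_lit 294) (nat_lit 1) (nat_lit 293) (nat_lit 1) (nat_lit 286) (nat_lit 368) (nat_lit 366)) (XT.lf (nat_lit 836) (nat_lit 13723540732) (nat_lit 76) (nat_lit 4535375918) (nat_lit 0) (nat_lit 12998368227) (nat_lit 305) (nat_lit 1) (nat_lit 295) (nat_lit 1) (nat_lit 294) (nat_lit 1) (nat_lit 287) (nat_lit 368) (nat_lit 365)))) (XT.nd (nat_lit 156) (nat_lit 608) (nat_lit 0) (XT.nd (nat_lit 78) (nat_lit 0) (nat_lit 76) (XT.lf (nat_lit 836) (nat_lit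 10156586876) (nat_lit 0) (nat_lit 19002493965) (nat_lit 760) (nat_lit 971404776) (nat_lit 306) (nat_lit 1) (nat_lit 295) (nat_lit 1) (nat_lit 305) (nat_lit 1) (nat_lit 288) (nat_lit 368) (nat_lit 364)) (XT.lf (nat_lit 836) (nat_lit 2436973438) (nat_lit 0) (nat_lit 20955528694) (nat_lit 760) (nat_lit 5664996778) (nat_lit 307) (nat_lit 1) (nat_lit 296) (nat_lit 1) (nat_lit 306) (nat_lit 1) (nat_lit 289) (nat_lit 368) (nat_lit 363))) (XT.nd (nat_lit 78) (nat_lit 684) (nat_lit 0) (XT.lf (nat_lit 836) (nat_lit 4682871747) (nat_lit 76) (nat_lit 18212060917) (nat_lit 0) (nat_lit 5139668284) (nat_lit 307) (nat_lit 1) (nat_lit 297) (nat_lit 1) (nat_lit 296) (nat_lit 1) (nat_lit 290) (nat_lit 368) (nat_lit 362)) (XT.lf (nat_lit 836) (nat_lit 961755073) (nat_lit 0) (nat_lit 13614720217) (nat_lit 760) (nat_lit 12484555786) (nat_lit 298) (nat_lit 1) (nat_lit 287) (nat_lit 1) (nat_lit 297) (nat_lit 1) (nat_lit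 291) (nat_lit 368) (nat_lit 361)))))) (XT.nd (nat_lit 468) (nat_lit 1976) (nat_lit 0) (XT.nd (nat_lit 234) (nat_lit 684) (nat_lit 0) (XT.nd (nat_lit 78) (nat_lit 760) (nat_lit 0) (XT.lf (nat_lit 76) (nat_lit 6659392468) (nat_lit 0) (nat_lit 2885824659) (nat_lit 532) (nat_lit 16588341668) (nat_lit 281) (nat_lit 1) (nat_lit 280) (nat_lit 1) (nat_lit 287) (nat_lit 1) (nat_lit 292) (nat_lit 368) (nat_lit 360)) (XT.nd (nat_lit 78) (nat_lit 380) (nat_lit 0) (XT.lf (nat_lit 456) (nat_lit 18352447446) (nat_lit 0) (nat_lit 5974117290) (nat_lit 380) (nat_lit 923635446) (nat_lit 281) (nat_lit 1) (nat_lit 275) (nat_lit 1) (nat_lit 280) (nat_lit 1) (nat_lit 293) (nat_lit 368) (nat_lit 359)) (XT.lf (nat_lit 456) (nat_lit 13243300842) (nat_lit 0) (nat_lit 2784561803) (nat_lit 380) (nat_lit 8376961764) (nat_lit 276) (nat_lit 1) (nat_lit 270) (nat_lit 1) (nat_lit 275) (nat_lit 1) (nat_lit 294) (nat_lit 368) (nat_lit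 358)))) (XT.nd (nat_lit 78) (nat_lit 380) (nat_lit 0) (XT.lf (nat_lit 380) (nat_lit 8058379658) (nat_lit 0) (nat_lit 51268307) (nat_lit 304) (nat_lit 15490791104) (nat_lit 271) (nat_lit 1) (nat_lit 266) (nat_lit 1) (nat_lit 270) (nat_lit 1) (nat_lit 295) (nat_lit 368) (nat_lit 357)) (XT.nd (nat_lit 78) (nat_lit 380) (nat_lit 0) (XT.lf (nat_lit 76) (nat_lit 594509167) (nat_lit 0) (nat_lit 20049729868) (nat_lit 380) (nat_lit 2188817857) (nat_lit 267) (nat_lit 1) (nat_lit 266) (nat_lit 1) (nat_lit 271) (nat_lit 1) (nat_lit 296) (nat_lit 368) (nat_lit 356)) (XT.lf (nat_lit 76) (nat_lit 15350380899) (nat_lit 0) (nat_lit 2546024920) (nat_lit 380) (nat_lit 4198857486) (nat_lit 262) (nat_lit 1) (nat_lit 261) (nat_lit 1) (nat_lit 266) (nat_lit 1) (nat_lit 297) (nat_lit 368) (nat_lit 355))))) (XT.nd (nat_lit 234) (nat_lit 1140) (nat_lit 0) (XT.nd (nat_lit 78) (nat_lit 532) (nat_lit 0) (XT.lf (nat_lit 76)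 (nat_lit 7680184552) (nat_lit 0) (nat_lit 7798926291) (nat_lit 380) (nat_lit 5910958358) (nat_lit 258) (nat_lit 1) (nat_lit 257) (nat_lit 1) (nat_lit 262) (nat_lit 1) (nat_lit 298) (nat_lit 368) (nat_lit 354)) (XT.nd (nat_lit 78) (nat_lit 228) (nat_lit 0) (XT.lf (nat_lit 76) (nat_lit 379076879) (nat_lit 0) (nat_lit 13039683659) (nat_lit 380) (nat_lit 7299503170) (nat_lit 254) (nat_lit 1) (nat_lit 253) (nat_lit 1) (nat_lit 258) (nat_lit 1) (nat_lit 299) (nat_lit 368) (nat_lit 353)) (XT.lf (nat_lit 304) (nat_lit 1711889820) (nat_lit 0) (nat_lit 11576691429) (nat_lit 228) (nat_lit 6784207239) (nat_lit 254) (nat_lit 1) (nat_lit 250) (nat_lit 1) (nat_lit 253) (nat_lit 1) (nat_lit 300) (nat_lit 368) (nat_lit 352)))) (XT.nd (nat_lit 156) (nat_lit 532) (nat_lit 0) (XT.nd (nat_lit 78) (nat_lit 228) (nat_lit 0) (XT.lf (nat_lit 76) (nat_lit 5915039589) (nat_lit 0) (nat_lit 4054204889) (nat_lit 380) (nat_lit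 9484734544) (nat_lit 246) (nat_lit 1) (nat_lit 245) (nat_lit 1) (nat_lit 250) (nat_lit 1) (nat_lit 301) (nat_lit 368) (nat_lit 351)) (XT.lf (nat_lit 304) (nat_lit 9157904036) (nat_lit 0) (nat_lit 8602667210) (nat_lit 228) (nat_lit 1101131193) (nat_lit 246) (nat_lit 1) (nat_lit 242) (nat_lit 1) (nat_lit 245) (nat_lit 1) (nat_lit 302) (nat_lit 368) (nat_lit 350))) (XT.nd (nat_lit 78) (nat_lit 304) (nat_lit 0) (XT.lf (nat_lit 304) (nat_lit 2935064001) (nat_lit 0) (nat_lit 7406544192) (nat_lit 228) (nat_lit 7950579017) (nat_lit 243) (nat_lit 1) (nat_lit 239) (nat_lit 1) (nat_lit 242) (nat_lit 1) (nat_lit 303) (nat_lit 368) (nat_lit 349)) (XT.lf (nat_lit 76) (nat_lit 3345263755) (nat_lit 0) (nat_lit 3062879677) (nat_lit 304) (nat_lit 11338181589) (nat_lit 236) (nat_lit 1) (nat_lit 235) (nat_lit 1) (nat_lit 239) (nat_lit 1) (nat_lit 304) (nat_lit 368) (nat_lit 348))))))) (XT.nd (nat_lit 1014) (nat_lit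 1824) (nat_lit 0) (XT.nd (nat_lit 468) (nat_lit 1140) (nat_lit 0) (XT.nd (nat_lit 234) (nat_lit 532) (nat_lit 0) (XT.nd (nat_lit 78) (nat_lit 456) (nat_lit 0) (XT.lf (nat_lit 304) (nat_lit 8324249790) (nat_lit 0) (nat_lit 5538647337) (nat_lit 228) (nat_lit 3357546226) (nat_lit 236) (nat_lit 1) (nat_lit 232) (nat_lit 1) (nat_lit 235) (nat_lit 1) (nat_lit 305) (nat_lit 368) (nat_lit 347)) (XT.nd (nat_lit 78) (nat_lit 304) (nat_lit 0) (XT.lf (nat_lit 228) (nat_lit 2063593814) (nat_lit 0) (nat_lit 4832065812) (nat_lit 152) (nat_lit 9820117593) (nat_lit 233) (nat_lit 1) (nat_lit 230) (nat_lit 1) (nat_lit 232) (nat_lit 1) (nat_lit 306) (nat_lit 368) (nat_lit 346)) (XT.lf (nat_lit 76) (nat_lit 349585976) (nat_lit 0) (nat_lit 3911942962) (nat_lit 304) (nat_lit 11969144334) (nat_lit 227) (nat_lit 1) (nat_lit 226) (nat_lit 1) (nat_lit 230) (nat_lit 1) (nat_lit 307) (nat_lit 368) (nat_lit 345)))) (XT.nd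 (nat_lit 78) (nat_lit 380) (nat_lit 0) (XT.lf (nat_lit 228) (nat_lit 5996424981) (nat_lit 0) (nat_lit 3747251181) (nat_lit 152) (nat_lit 6017292601) (nat_lit 227) (nat_lit 1) (nat_lit 224) (nat_lit 1) (nat_lit 226) (nat_lit 1) (nat_lit 308) (nat_lit 368) (nat_lit 344)) (XT.nd (nat_lit 78) (nat_lit 152) (nat_lit 0) (XT.lf (nat_lit 76) (nat_lit 3253409602) (nat_lit 0) (nat_lit 150277029) (nat_lit 228) (nat_lit 11908073908) (nat_lit 222) (nat_lit 1) (nat_lit 221) (nat_lit 1) (nat_lit 224) (nat_lit 1) (nat_lit 309) (nat_lit 368) (nat_lit 343)) (XT.lf (nat_lit 228) (nat_lit 8894193606) (nat_lit 0) (nat_lit 3082037509) (nat_lit 152) (nat_lit 2899388350) (nat_lit 222) (nat_lit 1) (nat_lit 219) (nat_lit 1) (nat_lit 221) (nat_lit 1) (nat_lit 310) (nat_lit 368) (nat_lit 342))))) (XT.nd (nat_lit 234) (nat_lit 608) (nat_lit 0) (XT.nd (nat_lit 78) (nat_lit 380) (nat_lit 0) (XT.lf (nat_lit 228) (nat_lit 2762892949)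 (nat_lit 0) (nat_lit 2865094681) (nat_lit 152) (nat_lit 8828166341) (nat_lit 220) (nat_lit 1) (nat_lit 217) (nat_lit 1) (nat_lit 219) (nat_lit 1) (nat_lit 311) (nat_lit 368) (nat_lit 341)) (XT.nd (nat_lit 78) (nat_lit 152) (nat_lit 0) (XT.lf (nat_lit 228) (nat_lit 10967669617) (nat_lit 0) (nat_lit 2737365422) (nat_lit 152) (nat_lit 347266561) (nat_lit 217) (nat_lit 1) (nat_lit 214) (nat_lit 1) (nat_lit 216) (nat_lit 1) (nat_lit 312) (nat_lit 368) (nat_lit 340)) (XT.lf (nat_lit 228) (nat_lit 4908620612) (nat_lit 0) (nat_lit 2613261084) (nat_lit 152) (nat_lit 6137789316) (nat_lit 215) (nat_lit 1) (nat_lit 212) (nat_lit 1) (nat_lit 214) (nat_lit 1) (nat_lit 313) (nat_lit 368) (nat_lit 339)))) (XT.nd (nat_lit 156) (nat_lit 304) (nat_lit 0) (XT.nd (nat_lit 78) (nat_lit 152) (nat_lit 0) (XT.lf (nat_lit 76) (nat_lit 1681392076) (nat_lit 0) (nat_lit 924168850) (nat_lit 152) (nat_lit 10677764801) (nat_lit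 211) (nat_lit 1) (nat_lit 210) (nat_lit 1) (nat_lit 212) (nat_lit 1) (nat_lit 314) (nat_lit 368) (nat_lit 338)) (XT.lf (nat_lit 228) (nat_lit 6440392541) (nat_lit 0) (nat_lit 2577970937) (nat_lit 152) (nat_lit 3898113679) (nat_lit 211) (nat_lit 1) (nat_lit 208) (nat_lit 1) (nat_lit 210) (nat_lit 1) (nat_lit 315) (nat_lit 368) (nat_lit 337))) (XT.nd (nat_lit 78) (nat_lit 228) (nat_lit 0) (XT.lf (nat_lit 152) (nat_lit 693538759) (nat_lit 0) (nat_lit 2641289234) (nat_lit 76) (nat_lit 9229283302) (nat_lit 209) (nat_lit 1) (nat_lit 207) (nat_lit 1) (nat_lit 208) (nat_lit 1) (nat_lit 316) (nat_lit 368) (nat_lit 336)) (XT.lf (nat_lit 228) (nat_lit 7486494861) (nat_lit 0) (nat_lit 2701334050) (nat_lit 152) (nat_lit 2033632340) (nat_lit 207) (nat_lit 1) (nat_lit 204) (nat_lit 1) (nat_lit 206) (nat_lit 1) (nat_lit 317) (nat_lit 368) (nat_lit 335)))))) (XT.nd (nat_lit 546) (nat_lit 836) (nat_lit 0) (XT.nd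 (nat_lit 234) (nat_lit 608) (nat_lit 0) (XT.nd (nat_lit 78) (nat_lit 304) (nat_lit 0) (XT.lf (nat_lit 152) (nat_lit 1882908662) (nat_lit 0) (nat_lit 2802339652) (nat_lit 76) (nat_lit 7205110885) (nat_lit 205) (nat_lit 1) (nat_lit 203) (nat_lit 1) (nat_lit 204) (nat_lit 1) (nat_lit 318) (nat_lit 368) (nat_lit 334)) (XT.nd (nat_lit 78) (nat_lit 76) (nat_lit 0) (XT.lf (nat_lit 228) (nat_lit 8150648543) (nat_lit 0) (nat_lit 2937497322) (nat_lit 152) (nat_lit 482068457) (nat_lit 203) (nat_lit 1) (nat_lit 200) (nat_lit 1) (nat_lit 202) (nat_lit 1) (nat_lit 319) (nat_lit 368) (nat_lit 333)) (XT.lf (nat_lit 152) (nat_lit 2709763885) (nat_lit 0) (nat_lit 3062376256) (nat_lit 76) (nat_lit 5486511532) (nat_lit 201) (nat_lit 1) (nat_lit 199) (nat_lit 1) (nat_lit 200) (nat_lit 1) (nat_lit 320) (nat_lit 368) (nat_lit 332)))) (XT.nd (nat_lit 156) (nat_lit 304) (nat_lit 0) (XT.nd (nat_lit 78) (nat_lit 76) (nat_lit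 0) (XT.lf (nat_lit 76) (nat_lit 782145696) (nat_lit 0) (nat_lit 2454946850) (nat_lit 228) (nat_lit 7721189389) (nat_lit 197) (nat_lit 1) (nat_lit 196) (nat_lit 1) (nat_lit 199) (nat_lit 1) (nat_lit 321) (nat_lit 368) (nat_lit 331)) (XT.lf (nat_lit 152) (nat_lit 3251961145) (nat_lit 0) (nat_lit 3388389374) (nat_lit 76) (nat_lit 4025021175) (nat_lit 197) (nat_lit 1) (nat_lit 195) (nat_lit 1) (nat_lit 196) (nat_lit 1) (nat_lit 322) (nat_lit 368) (nat_lit 330))) (XT.nd (nat_lit 78) (nat_lit 76) (nat_lit 0) (XT.lf (nat_lit 76) (nat_lit 1818979656) (nat_lit 0) (nat_lit 1761804796) (nat_lit 228) (nat_lit 6801970583) (nat_lit 193) (nat_lit 1) (nat_lit 192) (nat_lit 1) (nat_lit 195) (nat_lit 1) (nat_lit 323) (nat_lit 368) (nat_lit 329)) (XT.lf (nat_lit 152) (nat_lit 3572286615) (nat_lit 0) (nat_lit 3754611228) (nat_lit 76) (nat_lit 2780461284) (nat_lit 193) (nat_lit 1) (nat_lit 191) (nat_lit 1) (nat_lit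 192) (nat_lit 1) (nat_lit 324) (nat_lit 368) (nat_lit 328))))) (XT.nd (nat_lit 234) (nat_lit 456) (nat_lit 0) (XT.nd (nat_lit 78) (nat_lit 228) (nat_lit 0) (XT.lf (nat_lit 76) (nat_lit 2677958676) (nat_lit 0) (nat_lit 1275999392) (nat_lit 152) (nat_lit 5887100207) (nat_lit 190) (nat_lit 1) (nat_lit 189) (nat_lit 1) (nat_lit 191) (nat_lit 1) (nat_lit 325) (nat_lit 368) (nat_lit 327)) (XT.nd (nat_lit 78) (nat_lit 152) (nat_lit 0) (XT.lf (nat_lit 152) (nat_lit 3721271960) (nat_lit 0) (nat_lit 4141104526) (nat_lit 76) (nat_lit 1719460898) (nat_lit 190) (nat_lit 1) (nat_lit 188) (nat_lit 1) (nat_lit 189) (nat_lit 1) (nat_lit 326) (nat_lit 368) (nat_lit 326)) (XT.lf (nat_lit 76) (nat_lit 3387368733) (nat_lit 0) (nat_lit 951912185) (nat_lit 152) (nat_lit 4991308939) (nat_lit 187) (nat_lit 1) (nat_lit 186) (nat_lit 1) (nat_lit 188) (nat_lit 1) (nat_lit 327) (nat_lit 368) (nat_lit 325)))) (XT.nd (nat_lit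 156) (nat_lit 228) (nat_lit 0) (XT.nd (nat_lit 78) (nat_lit 152) (nat_lit 0) (XT.lf (nat_lit 152) (nat_lit 3739490514) (nat_lit 0) (nat_lit 4532615390) (nat_lit 76) (nat_lit 814247094) (nat_lit 187) (nat_lit 1) (nat_lit 185) (nat_lit 1) (nat_lit 186) (nat_lit 1) (nat_lit 328) (nat_lit 368) (nat_lit 324)) (XT.lf (nat_lit 76) (nat_lit 3970718633) (nat_lit 0) (nat_lit 752861696) (nat_lit 152) (nat_lit 4125463066) (nat_lit 184) (nat_lit 1) (nat_lit 183) (nat_lit 1) (nat_lit 185) (nat_lit 1) (nat_lit 329) (nat_lit 368) (nat_lit 323))) (XT.nd (nat_lit 78) (nat_lit 152) (nat_lit 0) (XT.lf (nat_lit 152) (nat_lit 3659429175) (nat_lit 0) (nat_lit 4917641794) (nat_lit 76) (nat_lit 41654810) (nat_lit 184) (nat_lit 1) (nat_lit 182) (nat_lit 1) (nat_lit 183) (nat_lit 1) (nat_lit 330) (nat_lit 368) (nat_lit 322)) (XT.lf (nat_lit 76) (nat_lit 4447585616) (nat_lit 0) (nat_lit 649425348) (nat_lit 152) (nat_lit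 3297351971) (nat_lit 181) (nat_lit 1) (nat_lit 180) (nat_lit 1) (nat_lit 182) (nat_lit 1) (nat_lit 331) (nat_lit 368) (nat_lit 321))))))))
noncomputable def ec82 : XT := (XT.nd (nat_lit 2028) (nat_lit 3268) (nat_lit 0) (XT.nd (nat_lit 1014) (nat_lit 1520) (nat_lit 0) (XT.nd (nat_lit 468) (nat_lit 836) (nat_lit 0) (XT.nd (nat_lit 234) (nat_lit 380) (nat_lit 0) (XT.nd (nat_lit 78) (nat_lit 228) (nat_lit 0) (XT.lf (nat_lit 0) (nat_lit 597914318) (nat_lit 0) (nat_lit 4679637366) (nat_lit 152) (nat_lit 2898973758) (nat_lit 179) (nat_lit 3) (nat_lit 179) (nat_lit 1) (nat_lit 181) (nat_lit 1) (nat_lit 332) (nat_lit 368) (nat_lit 320)) (XT.nd (nat_lit 78) (nat_lit 76) (nat_lit 0) (XT.lf (nat_lit 76) (nat_lit 4834307889) (nat_lit 0) (nat_lit 618071730) (nat_lit 152) (nat_lit 2512326145) (nat_lit 178) (nat_lit 1) (nat_lit 177) (nat_lit 1) (nat_lit 179) (nat_lit 1) (nat_lit 333) (nat_lit 368) (nat_lit 319))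 (XT.lf (nat_lit 0) (nat_lit 1142237548) (nat_lit 0) (nat_lit 4475018142) (nat_lit 152) (nat_lit 2141271630) (nat_lit 176) (nat_lit 3) (nat_lit 176) (nat_lit 1) (nat_lit 178) (nat_lit 1) (nat_lit 334) (nat_lit 368) (nat_lit 318)))) (XT.nd (nat_lit 78) (nat_lit 228) (nat_lit 0) (XT.lf (nat_lit 76) (nat_lit 5144552061) (nat_lit 0) (nat_lit 640046116) (nat_lit 152) (nat_lit 1773813419) (nat_lit 175) (nat_lit 1) (nat_lit 174) (nat_lit 1) (nat_lit 176) (nat_lit 1) (nat_lit 335) (nat_lit 368) (nat_lit 317)) (XT.nd (nat_lit 78) (nat_lit 152) (nat_lit 0) (XT.lf (nat_lit 0) (nat_lit 1605858875) (nat_lit 0) (nat_lit 4327118096) (nat_lit 152) (nat_lit 1430195988) (nat_lit 173) (nat_lit 3) (nat_lit 173) (nat_lit 1) (nat_lit 175) (nat_lit 1) (nat_lit 336) (nat_lit 368) (nat_lit 316)) (XT.lf (nat_lit 76) (nat_lit 5389778281) (nat_lit 0) (nat_lit 700462624) (nat_lit 152) (nat_lit 1083736084) (nat_lit 172) (nat_lit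 1) (nat_lit 171) (nat_lit 1) (nat_lit 173) (nat_lit 1) (nat_lit 337) (nat_lit 368) (nat_lit 315))))) (XT.nd (nat_lit 234) (nat_lit 532) (nat_lit 0) (XT.nd (nat_lit 78) (nat_lit 228) (nat_lit 0) (XT.lf (nat_lit 0) (nat_lit 1999916320) (nat_lit 0) (nat_lit 4221860292) (nat_lit 152) (nat_lit 767242717) (nat_lit 170) (nat_lit 3) (nat_lit 170) (nat_lit 1) (nat_lit 172) (nat_lit 1) (nat_lit 338) (nat_lit 368) (nat_lit 314)) (XT.nd (nat_lit 78) (nat_lit 76) (nat_lit 0) (XT.lf (nat_lit 76) (nat_lit 5579621752) (nat_lit 0) (nat_lit 787564973) (nat_lit 152) (nat_lit 442847333) (nat_lit 169) (nat_lit 1) (nat_lit 168) (nat_lit 1) (nat_lit 170) (nat_lit 1) (nat_lit 339) (nat_lit 368) (nat_lit 313)) (XT.lf (nat_lit 0) (nat_lit 2333829996) (nat_lit 0) (nat_lit 4148076495) (nat_lit 152) (nat_lit 152845005) (nat_lit 167) (nat_lit 3) (nat_lit 167) (nat_lit 1) (nat_lit 169) (nat_lit 1) (nat_lit 340) (nat_lit 368)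 (nat_lit 312)))) (XT.nd (nat_lit 156) (nat_lit 228) (nat_lit 0) (XT.nd (nat_lit 78) (nat_lit 76) (nat_lit 0) (XT.lf (nat_lit 152) (nat_lit 5570684588) (nat_lit 0) (nat_lit 153924443) (nat_lit 76) (nat_lit 740603513) (nat_lit 166) (nat_lit 1) (nat_lit 164) (nat_lit 1) (nat_lit 165) (nat_lit 1) (nat_lit 341) (nat_lit 368) (nat_lit 311)) (XT.lf (nat_lit 76) (nat_lit 2195215617) (nat_lit 0) (nat_lit 427045286) (nat_lit 76) (nat_lit 3676571762) (nat_lit 164) (nat_lit 3) (nat_lit 163) (nat_lit 1) (nat_lit 164) (nat_lit 1) (nat_lit 342) (nat_lit 368) (nat_lit 310))) (XT.nd (nat_lit 78) (nat_lit 76) (nat_lit 0) (XT.lf (nat_lit 152) (nat_lit 5120043847) (nat_lit 0) (nat_lit 715526771) (nat_lit 76) (nat_lit 302596561) (nat_lit 163) (nat_lit 1) (nat_lit 161) (nat_lit 1) (nat_lit 162) (nat_lit 1) (nat_lit 343) (nat_lit 368) (nat_lit 309)) (XT.lf (nat_lit 76) (nat_lit 1903805813) (nat_lit 0) (nat_lit 963246772)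 (nat_lit 76) (nat_lit 3113352604) (nat_lit 161) (nat_lit 3) (nat_lit 160) (nat_lit 1) (nat_lit 161) (nat_lit 1) (nat_lit 344) (nat_lit 368) (nat_lit 308)))))) (XT.nd (nat_lit 468) (nat_lit 836) (nat_lit 0) (XT.nd (nat_lit 234) (nat_lit 304) (nat_lit 0) (XT.nd (nat_lit 78) (nat_lit 228) (nat_lit 0) (XT.lf (nat_lit 0) (nat_lit 80356479) (nat_lit 0) (nat_lit 1146976224) (nat_lit 152) (nat_lit 4600799777) (nat_lit 158) (nat_lit 3) (nat_lit 158) (nat_lit 1) (nat_lit 160) (nat_lit 1) (nat_lit 345) (nat_lit 368) (nat_lit 307)) (XT.nd (nat_lit 78) (nat_lit 152) (nat_lit 0) (XT.lf (nat_lit 76) (nat_lit 1619380494) (nat_lit 0) (nat_lit 1452199444) (nat_lit 76) (nat_lit 2606991369) (nat_lit 158) (nat_lit 3) (nat_lit 157) (nat_lit 1) (nat_lit 158) (nat_lit 1) (nat_lit 346) (nat_lit 368) (nat_lit 306)) (XT.lf (nat_lit 0) (nat_lit 408675432) (nat_lit 0) (nat_lit 1279584493) (nat_lit 152) (nat_lit 3845735163)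 (nat_lit 155) (nat_lit 3) (nat_lit 155) (nat_lit 1) (nat_lit 157) (nat_lit 1) (nat_lit 347) (nat_lit 368) (nat_lit 305)))) (XT.nd (nat_lit 78) (nat_lit 228) (nat_lit 0) (XT.lf (nat_lit 76) (nat_lit 1345127767) (nat_lit 0) (nat_lit 1895733009) (nat_lit 76) (nat_lit 2151525046) (nat_lit 155) (nat_lit 3) (nat_lit 154) (nat_lit 1) (nat_lit 155) (nat_lit 1) (nat_lit 348) (nat_lit 368) (nat_lit 304)) (XT.nd (nat_lit 78) (nat_lit 76) (nat_lit 0) (XT.lf (nat_lit 0) (nat_lit 697048655) (nat_lit 0) (nat_lit 1408157366) (nat_lit 152) (nat_lit 3149873795) (nat_lit 152) (nat_lit 3) (nat_lit 152) (nat_lit 1) (nat_lit 154) (nat_lit 1) (nat_lit 349) (nat_lit 368) (nat_lit 303)) (XT.lf (nat_lit 76) (nat_lit 1083314328) (nat_lit 0) (nat_lit 2295908461) (nat_lit 76) (nat_lit 1741748320) (nat_lit 152) (nat_lit 3) (nat_lit 151) (nat_lit 1) (nat_lit 152) (nat_lit 1) (nat_lit 350) (nat_lit 368) (nat_lit 302))))) (XT.nd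 (nat_lit 234) (nat_lit 456) (nat_lit 0) (XT.nd (nat_lit 78) (nat_lit 228) (nat_lit 0) (XT.lf (nat_lit 0) (nat_lit 949832272) (nat_lit 0) (nat_lit 1530461895) (nat_lit 152) (nat_lit 2510244932) (nat_lit 149) (nat_lit 3) (nat_lit 149) (nat_lit 1) (nat_lit 151) (nat_lit 1) (nat_lit 351) (nat_lit 368) (nat_lit 301)) (XT.nd (nat_lit 78) (nat_lit 152) (nat_lit 0) (XT.lf (nat_lit 76) (nat_lit 835477315) (nat_lit 0) (nat_lit 2654935424) (nat_lit 76) (nat_lit 1373097336) (nat_lit 149) (nat_lit 3) (nat_lit 148) (nat_lit 1) (nat_lit 149) (nat_lit 1) (nat_lit 352) (nat_lit 368) (nat_lit 300)) (XT.lf (nat_lit 0) (nat_lit 1170834655) (nat_lit 0) (nat_lit 1644926384) (nat_lit 152) (nat_lit 1923821717) (nat_lit 146) (nat_lit 3) (nat_lit 146) (nat_lit 1) (nat_lit 148) (nat_lit 1) (nat_lit 353) (nat_lit 368) (nat_lit 299)))) (XT.nd (nat_lit 156) (nat_lit 228) (nat_lit 0) (XT.nd (nat_lit 78) (nat_lit 152) (nat_lit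 0) (XT.lf (nat_lit 76) (nat_lit 602579513) (nat_lit 0) (nat_lit 2975107298) (nat_lit 76) (nat_lit 1041553337) (nat_lit 146) (nat_lit 3) (nat_lit 145) (nat_lit 1) (nat_lit 146) (nat_lit 1) (nat_lit 354) (nat_lit 368) (nat_lit 298)) (XT.lf (nat_lit 0) (nat_lit 1363398920) (nat_lit 0) (nat_lit 1750501057) (nat_lit 152) (nat_lit 1387572446) (nat_lit 143) (nat_lit 3) (nat_lit 143) (nat_lit 1) (nat_lit 145) (nat_lit 1) (nat_lit 355) (nat_lit 368) (nat_lit 297))) (XT.nd (nat_lit 78) (nat_lit 152) (nat_lit 0) (XT.lf (nat_lit 76) (nat_lit 385134706) (nat_lit 0) (nat_lit 3258750778) (nat_lit 76) (nat_lit 743562611) (nat_lit 143) (nat_lit 3) (nat_lit 142) (nat_lit 1) (nat_lit 143) (nat_lit 1) (nat_lit 356) (nat_lit 368) (nat_lit 296)) (XT.lf (nat_lit 0) (nat_lit 1530471490) (nat_lit 0) (nat_lit 1846545480) (nat_lit 152) (nat_lit 898499808) (nat_lit 140) (nat_lit 3) (nat_lit 140) (nat_lit 1) (nat_lit 142)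 (nat_lit 1) (nat_lit 357) (nat_lit 368) (nat_lit 295))))))) (XT.nd (nat_lit 1014) (nat_lit 1672) (nat_lit 0) (XT.nd (nat_lit 468) (nat_lit 836) (nat_lit 0) (XT.nd (nat_lit 234) (nat_lit 380) (nat_lit 0) (XT.nd (nat_lit 78) (nat_lit 304) (nat_lit 0) (XT.lf (nat_lit 76) (nat_lit 183308751) (nat_lit 0) (nat_lit 3508186962) (nat_lit 76) (nat_lit 475969853) (nat_lit 140) (nat_lit 3) (nat_lit 139) (nat_lit 1) (nat_lit 140) (nat_lit 1) (nat_lit 358) (nat_lit 368) (nat_lit 294)) (XT.nd (nat_lit 78) (nat_lit 152) (nat_lit 0) (XT.lf (nat_lit 0) (nat_lit 1674659173) (nat_lit 0) (nat_lit 1932737746) (nat_lit 152) (nat_lit 453670457) (nat_lit 137) (nat_lit 3) (nat_lit 137) (nat_lit 1) (nat_lit 139) (nat_lit 1) (nat_lit 359) (nat_lit 368) (nat_lit 293)) (XT.lf (nat_lit 76) (nat_lit 3722749484) (nat_lit 0) (nat_lit 2903108) (nat_lit 152) (nat_lit 233010268) (nat_lit 136) (nat_lit 1) (nat_lit 135) (nat_lit 1)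 (nat_lit 137) (nat_lit 1) (nat_lit 360) (nat_lit 368) (nat_lit 292)))) (XT.nd (nat_lit 78) (nat_lit 304) (nat_lit 0) (XT.lf (nat_lit 0) (nat_lit 1798276825) (nat_lit 0) (nat_lit 2009001377) (nat_lit 152) (nat_lit 50236847) (nat_lit 134) (nat_lit 3) (nat_lit 134) (nat_lit 1) (nat_lit 136) (nat_lit 1) (nat_lit 361) (nat_lit 368) (nat_lit 291)) (XT.nd (nat_lit 78) (nat_lit 76) (nat_lit 0) (XT.lf (nat_lit 152) (nat_lit 3589256198) (nat_lit 0) (nat_lit 155319669) (nat_lit 76) (nat_lit 15624230) (nat_lit 133) (nat_lit 1) (nat_lit 131) (nat_lit 1) (nat_lit 132) (nat_lit 1) (nat_lit 362) (nat_lit 368) (nat_lit 290)) (XT.lf (nat_lit 76) (nat_lit 1583513114) (nat_lit 0) (nat_lit 324947458) (nat_lit 76) (nat_lit 1755572485) (nat_lit 131) (nat_lit 3) (nat_lit 130) (nat_lit 1) (nat_lit 131) (nat_lit 1) (nat_lit 363) (nat_lit 368) (nat_lit 289))))) (XT.nd (nat_lit 234) (nat_lit 456) (nat_lit 0) (XT.nd (nat_lit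 78) (nat_lit 228) (nat_lit 0) (XT.lf (nat_lit 0) (nat_lit 179007683) (nat_lit 0) (nat_lit 330735522) (nat_lit 152) (nat_lit 3061740779) (nat_lit 128) (nat_lit 3) (nat_lit 128) (nat_lit 1) (nat_lit 130) (nat_lit 1) (nat_lit 364) (nat_lit 368) (nat_lit 288)) (XT.nd (nat_lit 78) (nat_lit 152) (nat_lit 0) (XT.lf (nat_lit 76) (nat_lit 1337624442) (nat_lit 0) (nat_lit 664586211) (nat_lit 76) (nat_lit 1478113182) (nat_lit 128) (nat_lit 3) (nat_lit 127) (nat_lit 1) (nat_lit 128) (nat_lit 1) (nat_lit 365) (nat_lit 368) (nat_lit 287)) (XT.lf (nat_lit 0) (nat_lit 352233910) (nat_lit 0) (nat_lit 476121688) (nat_lit 152) (nat_lit 2563970199) (nat_lit 125) (nat_lit 3) (nat_lit 125) (nat_lit 1) (nat_lit 127) (nat_lit 1) (nat_lit 366) (nat_lit 368) (nat_lit 286)))) (XT.nd (nat_lit 156) (nat_lit 228) (nat_lit 0) (XT.nd (nat_lit 78) (nat_lit 152) (nat_lit 0) (XT.lf (nat_lit 76) (nat_lit 1110794858) (nat_lit 0)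 (nat_lit 969616312) (nat_lit 76) (nat_lit 1225505764) (nat_lit 125) (nat_lit 3) (nat_lit 124) (nat_lit 1) (nat_lit 125) (nat_lit 1) (nat_lit 367) (nat_lit 368) (nat_lit 285)) (XT.lf (nat_lit 0) (nat_lit 506384362) (nat_lit 0) (nat_lit 607540364) (nat_lit 152) (nat_lit 2108315573) (nat_lit 122) (nat_lit 3) (nat_lit 122) (nat_lit 1) (nat_lit 124) (nat_lit 1) (nat_lit 368) (nat_lit 368) (nat_lit 284))) (XT.nd (nat_lit 78) (nat_lit 152) (nat_lit 0) (XT.lf (nat_lit 76) (nat_lit 902079193) (nat_lit 0) (nat_lit 1242508769) (nat_lit 76) (nat_lit 995742157) (nat_lit 122) (nat_lit 3) (nat_lit 121) (nat_lit 1) (nat_lit 122) (nat_lit 1) (nat_lit 369) (nat_lit 368) (nat_lit 283)) (XT.lf (nat_lit 0) (nat_lit 643120166) (nat_lit 0) (nat_lit 725715373) (nat_lit 152) (nat_lit 1691922278) (nat_lit 119) (nat_lit 3) (nat_lit 119) (nat_lit 1) (nat_lit 121) (nat_lit 1) (nat_lit 370) (nat_lit 368) (nat_lit 282))))))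 (XT.nd (nat_lit 546) (nat_lit 912) (nat_lit 0) (XT.nd (nat_lit 234) (nat_lit 456) (nat_lit 0) (XT.nd (nat_lit 78) (nat_lit 228) (nat_lit 0) (XT.lf (nat_lit 76) (nat_lit 710512358) (nat_lit 0) (nat_lit 1485606141) (nat_lit 76) (nat_lit 786989401) (nat_lit 119) (nat_lit 3) (nat_lit 118) (nat_lit 1) (nat_lit 119) (nat_lit 1) (nat_lit 371) (nat_lit 368) (nat_lit 281)) (XT.nd (nat_lit 78) (nat_lit 76) (nat_lit 0) (XT.lf (nat_lit 0) (nat_lit 763952821) (nat_lit 0) (nat_lit 831392894) (nat_lit 152) (nat_lit 1312088858) (nat_lit 116) (nat_lit 3) (nat_lit 116) (nat_lit 1) (nat_lit 118) (nat_lit 1) (nat_lit 372) (nat_lit 368) (nat_lit 280)) (XT.lf (nat_lit 76) (nat_lit 535126143) (nat_lit 0) (nat_lit 1701122961) (nat_lit 76) (nat_lit 597570655) (nat_lit 116) (nat_lit 3) (nat_lit 115) (nat_lit 1) (nat_lit 116) (nat_lit 1) (nat_lit 373) (nat_lit 368) (nat_lit 279)))) (XT.nd (nat_lit 156) (nat_lit 228) (nat_lit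 0) (XT.nd (nat_lit 78) (nat_lit 76) (nat_lit 0) (XT.lf (nat_lit 0) (nat_lit 870260560) (nat_lit 0) (nat_lit 925326268) (nat_lit 152) (nat_lit 966264158) (nat_lit 113) (nat_lit 3) (nat_lit 113) (nat_lit 1) (nat_lit 115) (nat_lit 1) (nat_lit 374) (nat_lit 368) (nat_lit 278)) (XT.lf (nat_lit 76) (nat_lit 374962088) (nat_lit 0) (nat_lit 1891147588) (nat_lit 76) (nat_lit 425948854) (nat_lit 113) (nat_lit 3) (nat_lit 112) (nat_lit 1) (nat_lit 113) (nat_lit 1) (nat_lit 375) (nat_lit 368) (nat_lit 277))) (XT.nd (nat_lit 78) (nat_lit 76) (nat_lit 0) (XT.lf (nat_lit 0) (nat_lit 963302445) (nat_lit 0) (nat_lit 1008264320) (nat_lit 152) (nat_lit 652043365) (nat_lit 110) (nat_lit 3) (nat_lit 110) (nat_lit 1) (nat_lit 112) (nat_lit 1) (nat_lit 376) (nat_lit 368) (nat_lit 276)) (XT.lf (nat_lit 76) (nat_lit 229081208) (nat_lit 0) (nat_lit 2057645152) (nat_lit 76) (nat_lit 270712573) (nat_lit 110) (nat_lit 3)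 (nat_lit 109) (nat_lit 1) (nat_lit 110) (nat_lit 1) (nat_lit 377) (nat_lit 368) (nat_lit 275))))) (XT.nd (nat_lit 234) (nat_lit 532) (nat_lit 0) (XT.nd (nat_lit 78) (nat_lit 228) (nat_lit 0) (XT.lf (nat_lit 0) (nat_lit 1044230552) (nat_lit 0) (nat_lit 1080942515) (nat_lit 152) (nat_lit 367163264) (nat_lit 107) (nat_lit 3) (nat_lit 107) (nat_lit 1) (nat_lit 109) (nat_lit 1) (nat_lit 378) (nat_lit 368) (nat_lit 274)) (XT.nd (nat_lit 78) (nat_lit 152) (nat_lit 0) (XT.lf (nat_lit 76) (nat_lit 96571185) (nat_lit 0) (nat_lit 2202461306) (nat_lit 76) (nat_lit 130563743) (nat_lit 107) (nat_lit 3) (nat_lit 106) (nat_lit 1) (nat_lit 107) (nat_lit 1) (nat_lit 379) (nat_lit 368) (nat_lit 273)) (XT.lf (nat_lit 0) (nat_lit 1114100574) (nat_lit 0) (nat_lit 1144076375) (nat_lit 152) (nat_lit 109496935) (nat_lit 104) (nat_lit 3) (nat_lit 104) (nat_lit 1) (nat_lit 106) (nat_lit 1) (nat_lit 380) (nat_lit 368) (nat_lit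 272)))) (XT.nd (nat_lit 156) (nat_lit 228) (nat_lit 0) (XT.nd (nat_lit 78) (nat_lit 76) (nat_lit 0) (XT.lf (nat_lit 152) (nat_lit 2285150786) (nat_lit 0) (nat_lit 19396222) (nat_lit 76) (nat_lit 3604555) (nat_lit 103) (nat_lit 1) (nat_lit 101) (nat_lit 1) (nat_lit 102) (nat_lit 1) (nat_lit 381) (nat_lit 368) (nat_lit 271)) (XT.lf (nat_lit 76) (nat_lit 1048846909) (nat_lit 0) (nat_lit 127017255) (nat_lit 76) (nat_lit 1073322545) (nat_lit 101) (nat_lit 3) (nat_lit 100) (nat_lit 1) (nat_lit 101) (nat_lit 1) (nat_lit 382) (nat_lit 368) (nat_lit 270))) (XT.nd (nat_lit 78) (nat_lit 76) (nat_lit 0) (XT.lf (nat_lit 0) (nat_lit 111674944) (nat_lit 0) (nat_lit 133258397) (nat_lit 152) (nat_lit 1947559023) (nat_lit 98) (nat_lit 3) (nat_lit 98) (nat_lit 1) (nat_lit 100) (nat_lit 1) (nat_lit 383) (nat_lit 368) (nat_lit 269)) (XT.lf (nat_lit 76) (nat_lit 886783264) (nat_lit 0) (nat_lit 343034040) (nat_lit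 76) (nat_lit 906767942) (nat_lit 98) (nat_lit 3) (nat_lit 97) (nat_lit 1) (nat_lit 98) (nat_lit 1) (nat_lit 384) (nat_lit 368) (nat_lit 268))))))))
noncomputable def ec83 : XT := (XT.nd (nat_lit 2106) (nat_lit 836) (nat_lit 0) (XT.nd (nat_lit 1014) (nat_lit 1672) (nat_lit 0) (XT.nd (nat_lit 468) (nat_lit 836) (nat_lit 0) (XT.nd (nat_lit 234) (nat_lit 304) (nat_lit 0) (XT.nd (nat_lit 78) (nat_lit 228) (nat_lit 0) (XT.lf (nat_lit 0) (nat_lit 214903473) (nat_lit 0) (nat_lit 232526647) (nat_lit 152) (nat_lit 1635230526) (nat_lit 95) (nat_lit 3) (nat_lit 95) (nat_lit 1) (nat_lit 97) (nat_lit 1) (nat_lit 385) (nat_lit 368) (nat_lit 267)) (XT.nd (nat_lit 78) (nat_lit 152) (nat_lit 0) (XT.lf (nat_lit 76) (nat_lit 738296203) (nat_lit 0) (nat_lit 536743667) (nat_lit 76) (nat_lit 754613957) (nat_lit 95) (nat_lit 3) (nat_lit 94) (nat_lit 1) (nat_lit 95) (nat_lit 1) (nat_lit 386) (nat_lit 368) (nat_lit 266))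 (XT.lf (nat_lit 0) (nat_lit 307146014) (nat_lit 0) (nat_lit 321535567) (nat_lit 152) (nat_lit 1349680947) (nat_lit 92) (nat_lit 3) (nat_lit 92) (nat_lit 1) (nat_lit 94) (nat_lit 1) (nat_lit 387) (nat_lit 368) (nat_lit 265)))) (XT.nd (nat_lit 78) (nat_lit 228) (nat_lit 0) (XT.lf (nat_lit 76) (nat_lit 602470162) (nat_lit 0) (nat_lit 709840321) (nat_lit 76) (nat_lit 615793822) (nat_lit 92) (nat_lit 3) (nat_lit 91) (nat_lit 1) (nat_lit 92) (nat_lit 1) (nat_lit 388) (nat_lit 368) (nat_lit 264)) (XT.nd (nat_lit 78) (nat_lit 76) (nat_lit 0) (XT.lf (nat_lit 0) (nat_lit 389280971) (nat_lit 0) (nat_lit 401030231) (nat_lit 152) (nat_lit 1089005538) (nat_lit 89) (nat_lit 3) (nat_lit 89) (nat_lit 1) (nat_lit 91) (nat_lit 1) (nat_lit 389) (nat_lit 368) (nat_lit 263)) (XT.lf (nat_lit 76) (nat_lit 478438383) (nat_lit 0) (nat_lit 863907771) (nat_lit 76) (nat_lit 489317327) (nat_lit 89) (nat_lit 3) (nat_lit 88)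 (nat_lit 1) (nat_lit 89) (nat_lit 1) (nat_lit 390) (nat_lit 368) (nat_lit 262))))) (XT.nd (nat_lit 234) (nat_lit 456) (nat_lit 0) (XT.nd (nat_lit 78) (nat_lit 228) (nat_lit 0) (XT.lf (nat_lit 0) (nat_lit 462121293) (nat_lit 0) (nat_lit 471714718) (nat_lit 152) (nat_lit 851420580) (nat_lit 86) (nat_lit 3) (nat_lit 86) (nat_lit 1) (nat_lit 88) (nat_lit 1) (nat_lit 391) (nat_lit 368) (nat_lit 261)) (XT.nd (nat_lit 78) (nat_lit 152) (nat_lit 0) (XT.lf (nat_lit 76) (nat_lit 365382060) (nat_lit 0) (nat_lit 1000425364) (nat_lit 76) (nat_lit 374264861) (nat_lit 86) (nat_lit 3) (nat_lit 85) (nat_lit 1) (nat_lit 86) (nat_lit 1) (nat_lit 392) (nat_lit 368) (nat_lit 260)) (XT.lf (nat_lit 0) (nat_lit 526419645) (nat_lit 0) (nat_lit 534252803) (nat_lit 152) (nat_lit 635256719) (nat_lit 83) (nat_lit 3) (nat_lit 83) (nat_lit 1) (nat_lit 85) (nat_lit 1) (nat_lit 393) (nat_lit 368) (nat_lit 259)))) (XT.nd (nat_lit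 156) (nat_lit 228) (nat_lit 0) (XT.nd (nat_lit 78) (nat_lit 152) (nat_lit 0) (XT.lf (nat_lit 76) (nat_lit 262529112) (nat_lit 0) (nat_lit 1120773853) (nat_lit 76) (nat_lit 269782036) (nat_lit 83) (nat_lit 3) (nat_lit 82) (nat_lit 1) (nat_lit 83) (nat_lit 1) (nat_lit 394) (nat_lit 368) (nat_lit 258)) (XT.lf (nat_lit 0) (nat_lit 582873087) (nat_lit 0) (nat_lit 589268964) (nat_lit 152) (nat_lit 438952531) (nat_lit 80) (nat_lit 3) (nat_lit 80) (nat_lit 1) (nat_lit 82) (nat_lit 1) (nat_lit 395) (nat_lit 368) (nat_lit 257))) (XT.nd (nat_lit 78) (nat_lit 152) (nat_lit 0) (XT.lf (nat_lit 76) (nat_lit 169152702) (nat_lit 0) (nat_lit 1226241038) (nat_lit 76) (nat_lit 175074810) (nat_lit 80) (nat_lit 3) (nat_lit 79) (nat_lit 1) (nat_lit 80) (nat_lit 1) (nat_lit 396) (nat_lit 368) (nat_lit 256)) (XT.lf (nat_lit 0) (nat_lit 632127316) (nat_lit 0) (nat_lit 637349633) (nat_lit 152) (nat_lit 261048339) (nat_lit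 77) (nat_lit 3) (nat_lit 77) (nat_lit 1) (nat_lit 79) (nat_lit 1) (nat_lit 397) (nat_lit 368) (nat_lit 255)))))) (XT.nd (nat_lit 546) (nat_lit 760) (nat_lit 0) (XT.nd (nat_lit 234) (nat_lit 608) (nat_lit 0) (XT.nd (nat_lit 78) (nat_lit 228) (nat_lit 0) (XT.lf (nat_lit 76) (nat_lit 84569570) (nat_lit 0) (nat_lit 1318027196) (nat_lit 76) (nat_lit 89405049) (nat_lit 77) (nat_lit 3) (nat_lit 76) (nat_lit 1) (nat_lit 77) (nat_lit 1) (nat_lit 398) (nat_lit 368) (nat_lit 254)) (XT.nd (nat_lit 78) (nat_lit 76) (nat_lit 0) (XT.lf (nat_lit 0) (nat_lit 674780519) (nat_lit 0) (nat_lit 679044609) (nat_lit 152) (nat_lit 100180278) (nat_lit 74) (nat_lit 3) (nat_lit 74) (nat_lit 1) (nat_lit 76) (nat_lit 1) (nat_lit 399) (nat_lit 368) (nat_lit 253)) (XT.lf (nat_lit 76) (nat_lit 8138244) (nat_lit 0) (nat_lit 1397250285) (nat_lit 76) (nat_lit 12086477) (nat_lit 74) (nat_lit 3) (nat_lit 73) (nat_lit 1) (nat_lit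 74) (nat_lit 1) (nat_lit 400) (nat_lit 368) (nat_lit 252)))) (XT.nd (nat_lit 156) (nat_lit 228) (nat_lit 0) (XT.nd (nat_lit 78) (nat_lit 152) (nat_lit 0) (XT.lf (nat_lit 76) (nat_lit 665700700) (nat_lit 0) (nat_lit 46410799) (nat_lit 76) (nat_lit 669182386) (nat_lit 71) (nat_lit 3) (nat_lit 70) (nat_lit 1) (nat_lit 71) (nat_lit 1) (nat_lit 401) (nat_lit 368) (nat_lit 251)) (XT.lf (nat_lit 0) (nat_lit 58565154) (nat_lit 0) (nat_lit 61635424) (nat_lit 152) (nat_lit 1226299221) (nat_lit 68) (nat_lit 3) (nat_lit 68) (nat_lit 1) (nat_lit 70) (nat_lit 1) (nat_lit 402) (nat_lit 368) (nat_lit 250))) (XT.nd (nat_lit 78) (nat_lit 152) (nat_lit 0) (XT.lf (nat_lit 76) (nat_lit 564030878) (nat_lit 0) (nat_lit 181258965) (nat_lit 76) (nat_lit 566873721) (nat_lit 68) (nat_lit 3) (nat_lit 67) (nat_lit 1) (nat_lit 68) (nat_lit 1) (nat_lit 403) (nat_lit 368) (nat_lit 249)) (XT.lf (nat_lit 0) (nat_lit 122056427)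 (nat_lit 0) (nat_lit 124563343) (nat_lit 152) (nat_lit 1032446986) (nat_lit 65) (nat_lit 3) (nat_lit 65) (nat_lit 1) (nat_lit 67) (nat_lit 1) (nat_lit 404) (nat_lit 368) (nat_lit 248))))) (XT.nd (nat_lit 234) (nat_lit 456) (nat_lit 0) (XT.nd (nat_lit 78) (nat_lit 228) (nat_lit 0) (XT.lf (nat_lit 76) (nat_lit 470995437) (nat_lit 0) (nat_lit 302197822) (nat_lit 76) (nat_lit 473316655) (nat_lit 65) (nat_lit 3) (nat_lit 64) (nat_lit 1) (nat_lit 65) (nat_lit 1) (nat_lit 405) (nat_lit 368) (nat_lit 247)) (XT.nd (nat_lit 78) (nat_lit 76) (nat_lit 0) (XT.lf (nat_lit 0) (nat_lit 178875618) (nat_lit 0) (nat_lit 180922548) (nat_lit 152) (nat_lit 855229079) (nat_lit 62) (nat_lit 3) (nat_lit 62) (nat_lit 1) (nat_lit 64) (nat_lit 1) (nat_lit 406) (nat_lit 368) (nat_lit 246)) (XT.lf (nat_lit 76) (nat_lit 385982809) (nat_lit 0) (nat_lit 410296154) (nat_lit 76) (nat_lit 387878114) (nat_lit 62) (nat_lit 3) (nat_lit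 61) (nat_lit 1) (nat_lit 62) (nat_lit 1) (nat_lit 407) (nat_lit 368) (nat_lit 245)))) (XT.nd (nat_lit 156) (nat_lit 228) (nat_lit 0) (XT.nd (nat_lit 78) (nat_lit 76) (nat_lit 0) (XT.lf (nat_lit 0) (nat_lit 229543565) (nat_lit 0) (nat_lit 231214910) (nat_lit 152) (nat_lit 693451037) (nat_lit 59) (nat_lit 3) (nat_lit 59) (nat_lit 1) (nat_lit 61) (nat_lit 1) (nat_lit 408) (nat_lit 368) (nat_lit 244)) (XT.lf (nat_lit 76) (nat_lit 308420173) (nat_lit 0) (nat_lit 506550280) (nat_lit 76) (nat_lit 309967715) (nat_lit 59) (nat_lit 3) (nat_lit 58) (nat_lit 1) (nat_lit 59) (nat_lit 1) (nat_lit 409) (nat_lit 368) (nat_lit 243))) (XT.nd (nat_lit 78) (nat_lit 76) (nat_lit 0) (XT.lf (nat_lit 0) (nat_lit 274544583) (nat_lit 0) (nat_lit 275909259) (nat_lit 152) (nat_lit 545996730) (nat_lit 56) (nat_lit 3) (nat_lit 56) (nat_lit 1) (nat_lit 58) (nat_lit 1) (nat_lit 410) (nat_lit 368) (nat_lit 242)) (XT.lf (nat_lit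 76) (nat_lit 237771331) (nat_lit 0) (nat_lit 591888556) (nat_lit 76) (nat_lit 239034919) (nat_lit 56) (nat_lit 3) (nat_lit 55) (nat_lit 1) (nat_lit 56) (nat_lit 1) (nat_lit 411) (nat_lit 368) (nat_lit 241))))))) (XT.nd (nat_lit 43446) (nat_lit 0) (nat_lit 14820) (XT.nd (nat_lit 468) (nat_lit 152) (nat_lit 0) (XT.nd (nat_lit 234) (nat_lit 304) (nat_lit 0) (XT.nd (nat_lit 78) (nat_lit 228) (nat_lit 0) (XT.lf (nat_lit 0) (nat_lit 314328956) (nat_lit 0) (nat_lit 315443231) (nat_lit 152) (nat_lit 411823556) (nat_lit 53) (nat_lit 3) (nat_lit 53) (nat_lit 1) (nat_lit 55) (nat_lit 1) (nat_lit 412) (nat_lit 368) (nat_lit 240)) (XT.nd (nat_lit 78) (nat_lit 152) (nat_lit 0) (XT.lf (nat_lit 76) (nat_lit 173534653) (nat_lit 0) (nat_lit 667175635) (nat_lit 76) (nat_lit 174566389) (nat_lit 53) (nat_lit 3) (nat_lit 52) (nat_lit 1) (nat_lit 53) (nat_lit 1) (nat_lit 413) (nat_lit 368) (nat_lit 239)) (XT.lf (nat_lit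 0) (nat_lit 349315245) (nat_lit 0) (nat_lit 350225065) (nat_lit 152) (nat_lit 289957920) (nat_lit 50) (nat_lit 3) (nat_lit 50) (nat_lit 1) (nat_lit 52) (nat_lit 1) (nat_lit 414) (nat_lit 368) (nat_lit 238)))) (XT.nd (nat_lit 78) (nat_lit 228) (nat_lit 0) (XT.lf (nat_lit 76) (nat_lit 115241103) (nat_lit 0) (nat_lit 733216481) (nat_lit 76) (nat_lit 116083529) (nat_lit 50) (nat_lit 3) (nat_lit 49) (nat_lit 1) (nat_lit 50) (nat_lit 1) (nat_lit 415) (nat_lit 368) (nat_lit 237)) (XT.nd (nat_lit 78) (nat_lit 76) (nat_lit 0) (XT.lf (nat_lit 0) (nat_lit 379892436) (nat_lit 0) (nat_lit 380635316) (nat_lit 152) (nat_lit 179490952) (nat_lit 47) (nat_lit 3) (nat_lit 47) (nat_lit 1) (nat_lit 49) (nat_lit 1) (nat_lit 416) (nat_lit 368) (nat_lit 236)) (XT.lf (nat_lit 76) (nat_lit 62452346) (nat_lit 0) (nat_lit 790760156) (nat_lit 76) (nat_lit 63140199) (nat_lit 47) (nat_lit 3) (nat_lit 46) (nat_lit 1) (nat_lit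 47) (nat_lit 1) (nat_lit 417) (nat_lit 368) (nat_lit 235))))) (XT.nd (nat_lit 42666) (nat_lit 0) (nat_lit 18924) (XT.nd (nat_lit 42510) (nat_lit 0) (nat_lit 18848) (XT.lf (nat_lit 0) (nat_lit 406421934) (nat_lit 0) (nat_lit 407028506) (nat_lit 152) (nat_lit 79574487) (nat_lit 44) (nat_lit 3) (nat_lit 44) (nat_lit 1) (nat_lit 46) (nat_lit 1) (nat_lit 418) (nat_lit 368) (nat_lit 234)) (XT.nd (nat_lit 78) (nat_lit 0) (nat_lit 76) (XT.lf (nat_lit 836) (nat_lit 5006550349) (nat_lit 0) (nat_lit 8889118637) (nat_lit 836) (nat_lit 5006550349) (nat_lit 303) (nat_lit 1) (nat_lit 292) (nat_lit 0) (nat_lit 303) (nat_lit 0) (nat_lit 282) (nat_lit 369) (nat_lit 369)) (XT.lf (nat_lit 836) (nat_lit 1867596901) (nat_lit 0) (nat_lit 17452033965) (nat_lit 760) (nat_lit 17068030912) (nat_lit 304) (nat_lit 1) (nat_lit 293) (nat_lit 1) (nat_lit 303) (nat_lit 1) (nat_lit 283) (nat_lit 369) (nat_lit 368)))) (XT.nd (nat_lit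 156) (nat_lit 0) (nat_lit 152) (XT.nd (nat_lit 78) (nat_lit 0) (nat_lit 76) (XT.lf (nat_lit 836) (nat_lit 17152799552) (nat_lit 76) (nat_lit 11687633029) (nat_lit 0) (nat_lit 6198587414) (nat_lit 304) (nat_lit 1) (nat_lit 294) (nat_lit 1) (nat_lit 293) (nat_lit 1) (nat_lit 284) (nat_lit 369) (nat_lit 367)) (XT.lf (nat_lit 836) (nat_lit 14821423990) (nat_lit 76) (nat_lit 4898205991) (nat_lit 0) (nat_lit 14038237685) (nat_lit 305) (nat_lit 1) (nat_lit 295) (nat_lit 1) (nat_lit 294) (nat_lit 1) (nat_lit 285) (nat_lit 369) (nat_lit 366))) (XT.nd (nat_lit 78) (nat_lit 0) (nat_lit 76) (XT.lf (nat_lit 836) (nat_lit 10969113826) (nat_lit 0) (nat_lit 20522693482) (nat_lit 760) (nat_lit 1049117158) (nat_lit 306) (nat_lit 1) (nat_lit 295) (nat_lit 1) (nat_lit 305) (nat_lit 1) (nat_lit 286) (nat_lit 369) (nat_lit 365)) (XT.lf (nat_lit 836) (nat_lit 2631931313) (nat_lit 0) (nat_lit 22631970989) (nat_lit 760)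 (nat_lit 6118196520) (nat_lit 307) (nat_lit 1) (nat_lit 296) (nat_lit 1) (nat_lit 306) (nat_lit 1) (nat_lit 287) (nat_lit 369) (nat_lit 364)))))) (XT.nd (nat_lit 546) (nat_lit 2052) (nat_lit 0) (XT.nd (nat_lit 234) (nat_lit 1064) (nat_lit 0) (XT.nd (nat_lit 78) (nat_lit 1216) (nat_lit 0) (XT.lf (nat_lit 836) (nat_lit 5057501487) (nat_lit 76) (nat_lit 19669025790) (nat_lit 0) (nat_lit 5550841747) (nat_lit 307) (nat_lit 1) (nat_lit 297) (nat_lit 1) (nat_lit 296) (nat_lit 1) (nat_lit 288) (nat_lit 369) (nat_lit 363)) (XT.nd (nat_lit 78) (nat_lit 532) (nat_lit 0) (XT.lf (nat_lit 836) (nat_lit 1038695479) (nat_lit 0) (nat_lit 14703897834) (nat_lit 760) (nat_lit 13483320249) (nat_lit 298) (nat_lit 1) (nat_lit 287) (nat_lit 1) (nat_lit 297) (nat_lit 1) (nat_lit 289) (nat_lit 369) (nat_lit 362)) (XT.lf (nat_lit 76) (nat_lit 7192143865) (nat_lit 0) (nat_lit 3116690632) (nat_lit 532) (nat_lit 17915409002)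 (nat_lit 281) (nat_lit 1) (nat_lit 280) (nat_lit 1) (nat_lit 287) (nat_lit 1) (nat_lit 290) (nat_lit 369) (nat_lit 361)))) (XT.nd (nat_lit 156) (nat_lit 304) (nat_lit 0) (XT.nd (nat_lit 78) (nat_lit 380) (nat_lit 0) (XT.lf (nat_lit 456) (nat_lit 19820643241) (nat_lit 0) (nat_lit 6452046673) (nat_lit 380) (nat_lit 997526282) (nat_lit 281) (nat_lit 1) (nat_lit 275) (nat_lit 1) (nat_lit 280) (nat_lit 1) (nat_lit 291) (nat_lit 369) (nat_lit 360)) (XT.lf (nat_lit 456) (nat_lit 14302764909) (nat_lit 0) (nat_lit 3007326747) (nat_lit 380) (nat_lit 9047118706) (nat_lit 276) (nat_lit 1) (nat_lit 270) (nat_lit 1) (nat_lit 275) (nat_lit 1) (nat_lit 292) (nat_lit 369) (nat_lit 359))) (XT.nd (nat_lit 78) (nat_lit 0) (nat_lit 0) (XT.lf (nat_lit 380) (nat_lit 8703050031) (nat_lit 0) (nat_lit 55369772) (nat_lit 304) (nat_lit 16730054393) (nat_lit 271) (nat_lit 1) (nat_lit 266) (nat_lit 1) (nat_lit 270) (nat_lit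 1) (nat_lit 293) (nat_lit 369) (nat_lit 358)) (XT.lf (nat_lit 76) (nat_lit 642069900) (nat_lit 0) (nat_lit 21653708257) (nat_lit 380) (nat_lit 2363923286) (nat_lit 267) (nat_lit 1) (nat_lit 266) (nat_lit 1) (nat_lit 271) (nat_lit 1) (nat_lit 294) (nat_lit 369) (nat_lit 357))))) (XT.nd (nat_lit 234) (nat_lit 1064) (nat_lit 0) (XT.nd (nat_lit 78) (nat_lit 608) (nat_lit 0) (XT.lf (nat_lit 76) (nat_lit 16578411371) (nat_lit 0) (nat_lit 2749706913) (nat_lit 380) (nat_lit 4534766085) (nat_lit 262) (nat_lit 1) (nat_lit 261) (nat_lit 1) (nat_lit 266) (nat_lit 1) (nat_lit 295) (nat_lit 369) (nat_lit 356)) (XT.nd (nat_lit 78) (nat_lit 304) (nat_lit 0) (XT.lf (nat_lit 76) (nat_lit 8294599317) (nat_lit 0) (nat_lit 8422840395) (nat_lit 380) (nat_lit 6383835026) (nat_lit 258) (nat_lit 1) (nat_lit 257) (nat_lit 1) (nat_lit 262) (nat_lit 1) (nat_lit 296) (nat_lit 369) (nat_lit 355)) (XT.lf (nat_lit 76) (nat_lit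 409403029) (nat_lit 0) (nat_lit 14082858352) (nat_lit 380) (nat_lit 7883463423) (nat_lit 254) (nat_lit 1) (nat_lit 253) (nat_lit 1) (nat_lit 258) (nat_lit 1) (nat_lit 297) (nat_lit 369) (nat_lit 354)))) (XT.nd (nat_lit 156) (nat_lit 456) (nat_lit 0) (XT.nd (nat_lit 78) (nat_lit 380) (nat_lit 0) (XT.lf (nat_lit 304) (nat_lit 1848841006) (nat_lit 0) (nat_lit 12502826744) (nat_lit 228) (nat_lit 7326943818) (nat_lit 254) (nat_lit 1) (nat_lit 250) (nat_lit 1) (nat_lit 253) (nat_lit 1) (nat_lit 298) (nat_lit 369) (nat_lit 353)) (XT.lf (nat_lit 76) (nat_lit 6388242756) (nat_lit 0) (nat_lit 4378541280) (nat_lit 380) (nat_lit 10243513307) (nat_lit 246) (nat_lit 1) (nat_lit 245) (nat_lit 1) (nat_lit 250) (nat_lit 1) (nat_lit 299) (nat_lit 369) (nat_lit 352))) (XT.nd (nat_lit 78) (nat_lit 228) (nat_lit 0) (XT.lf (nat_lit 304) (nat_lit 9890536359) (nat_lit 0) (nat_lit 9290880587) (nat_lit 228) (nat_lit 1189221688)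 (nat_lit 246) (nat_lit 1) (nat_lit 242) (nat_lit 1) (nat_lit 245) (nat_lit 1) (nat_lit 300) (nat_lit 369) (nat_lit 351)) (XT.lf (nat_lit 304) (nat_lit 3169869121) (nat_lit 0) (nat_lit 7999067728) (nat_lit 228) (nat_lit 8586625339) (nat_lit 243) (nat_lit 1) (nat_lit 239) (nat_lit 1) (nat_lit 242) (nat_lit 1) (nat_lit 301) (nat_lit 369) (nat_lit 350))))))))
noncomputable def ec84 : XT := (XT.nd (nat_lit 2028) (nat_lit 3116) (nat_lit 0) (XT.nd (nat_lit 1014) (nat_lit 1824) (nat_lit 0) (XT.nd (nat_lit 468) (nat_lit 1064) (nat_lit 0) (XT.nd (nat_lit 234) (nat_lit 684) (nat_lit 0) (XT.nd (nat_lit 78) (nat_lit 380) (nat_lit 0) (XT.lf (nat_lit 76) (nat_lit 3612884855) (nat_lit 0) (nat_lit 3307910052) (nat_lit 304) (nat_lit 12245236117) (nat_lit 236) (nat_lit 1) (nat_lit 235) (nat_lit 1) (nat_lit 239) (nat_lit 1) (nat_lit 302) (nat_lit 369) (nat_lit 349)) (XT.nd (nat_lit 78) (nat_lit 152) (nat_lit 0)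 (XT.lf (nat_lit 304) (nat_lit 8990189773) (nat_lit 0) (nat_lit 5981739124) (nat_lit 228) (nat_lit 3626149924) (nat_lit 236) (nat_lit 1) (nat_lit 232) (nat_lit 1) (nat_lit 235) (nat_lit 1) (nat_lit 303) (nat_lit 369) (nat_lit 348)) (XT.lf (nat_lit 228) (nat_lit 2228681319) (nat_lit 0) (nat_lit 5218631077) (nat_lit 152) (nat_lit 10605727000) (nat_lit 233) (nat_lit 1) (nat_lit 230) (nat_lit 1) (nat_lit 232) (nat_lit 1) (nat_lit 304) (nat_lit 369) (nat_lit 347)))) (XT.nd (nat_lit 78) (nat_lit 380) (nat_lit 0) (XT.lf (nat_lit 76) (nat_lit 377552854) (nat_lit 0) (nat_lit 4224898399) (nat_lit 304) (nat_lit 12926675881) (nat_lit 227) (nat_lit 1) (nat_lit 226) (nat_lit 1) (nat_lit 230) (nat_lit 1) (nat_lit 305) (nat_lit 369) (nat_lit 346)) (XT.nd (nat_lit 78) (nat_lit 228) (nat_lit 0) (XT.lf (nat_lit 228) (nat_lit 6476138980) (nat_lit 0) (nat_lit 4047031275) (nat_lit 152) (nat_lit 6498676009) (nat_lit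 227) (nat_lit 1) (nat_lit 224) (nat_lit 1) (nat_lit 226) (nat_lit 1) (nat_lit 306) (nat_lit 369) (nat_lit 345)) (XT.lf (nat_lit 76) (nat_lit 3513682371) (nat_lit 0) (nat_lit 162299191) (nat_lit 228) (nat_lit 12860719821) (nat_lit 222) (nat_lit 1) (nat_lit 221) (nat_lit 1) (nat_lit 224) (nat_lit 1) (nat_lit 307) (nat_lit 369) (nat_lit 344))))) (XT.nd (nat_lit 234) (nat_lit 532) (nat_lit 0) (XT.nd (nat_lit 78) (nat_lit 380) (nat_lit 0) (XT.lf (nat_lit 228) (nat_lit 9605729094) (nat_lit 0) (nat_lit 3328600509) (nat_lit 152) (nat_lit 3131339418) (nat_lit 222) (nat_lit 1) (nat_lit 219) (nat_lit 1) (nat_lit 221) (nat_lit 1) (nat_lit 308) (nat_lit 369) (nat_lit 343)) (XT.nd (nat_lit 78) (nat_lit 228) (nat_lit 0) (XT.lf (nat_lit 228) (nat_lit 2983924385) (nat_lit 0) (nat_lit 3094302256) (nat_lit 152) (nat_lit 9534419648) (nat_lit 220) (nat_lit 1) (nat_lit 217) (nat_lit 1) (nat_lit 219) (nat_lit 1) (nat_lit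 309) (nat_lit 369) (nat_lit 342)) (XT.lf (nat_lit 228) (nat_lit 11845083186) (nat_lit 0) (nat_lit 2956354656) (nat_lit 152) (nat_lit 375047886) (nat_lit 217) (nat_lit 1) (nat_lit 214) (nat_lit 1) (nat_lit 216) (nat_lit 1) (nat_lit 310) (nat_lit 369) (nat_lit 341)))) (XT.nd (nat_lit 156) (nat_lit 228) (nat_lit 0) (XT.nd (nat_lit 78) (nat_lit 152) (nat_lit 0) (XT.lf (nat_lit 228) (nat_lit 5301310261) (nat_lit 0) (nat_lit 2822321971) (nat_lit 152) (nat_lit 6628812462) (nat_lit 215) (nat_lit 1) (nat_lit 212) (nat_lit 1) (nat_lit 214) (nat_lit 1) (nat_lit 311) (nat_lit 369) (nat_lit 340)) (XT.lf (nat_lit 76) (nat_lit 1815903442) (nat_lit 0) (nat_lit 998102358) (nat_lit 152) (nat_lit 11531985985) (nat_lit 211) (nat_lit 1) (nat_lit 210) (nat_lit 1) (nat_lit 212) (nat_lit 1) (nat_lit 312) (nat_lit 369) (nat_lit 339))) (XT.nd (nat_lit 78) (nat_lit 76) (nat_lit 0) (XT.lf (nat_lit 228) (nat_lit 6955623944)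 (nat_lit 0) (nat_lit 2784208612) (nat_lit 152) (nat_lit 4209962774) (nat_lit 211) (nat_lit 1) (nat_lit 208) (nat_lit 1) (nat_lit 210) (nat_lit 1) (nat_lit 313) (nat_lit 369) (nat_lit 338)) (XT.lf (nat_lit 152) (nat_lit 749021860) (nat_lit 0) (nat_lit 2852592373) (nat_lit 76) (nat_lit 9967625967) (nat_lit 209) (nat_lit 1) (nat_lit 207) (nat_lit 1) (nat_lit 208) (nat_lit 1) (nat_lit 314) (nat_lit 369) (nat_lit 337)))))) (XT.nd (nat_lit 468) (nat_lit 912) (nat_lit 0) (XT.nd (nat_lit 234) (nat_lit 380) (nat_lit 0) (XT.nd (nat_lit 78) (nat_lit 304) (nat_lit 0) (XT.lf (nat_lit 228) (nat_lit 8085414450) (nat_lit 0) (nat_lit 2917440774) (nat_lit 152) (nat_lit 2196322927) (nat_lit 207) (nat_lit 1) (nat_lit 204) (nat_lit 1) (nat_lit 206) (nat_lit 1) (nat_lit 315) (nat_lit 369) (nat_lit 336)) (XT.nd (nat_lit 78) (nat_lit 228) (nat_lit 0) (XT.lf (nat_lit 152) (nat_lit 2033541355) (nat_lit 0) (nat_lit 3026526824)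 (nat_lit 76) (nat_lit 7781519756) (nat_lit 205) (nat_lit 1) (nat_lit 203) (nat_lit 1) (nat_lit 204) (nat_lit 1) (nat_lit 316) (nat_lit 369) (nat_lit 335)) (XT.lf (nat_lit 228) (nat_lit 8802700426) (nat_lit 0) (nat_lit 3172497108) (nat_lit 152) (nat_lit 520633933) (nat_lit 203) (nat_lit 1) (nat_lit 200) (nat_lit 1) (nat_lit 202) (nat_lit 1) (nat_lit 317) (nat_lit 369) (nat_lit 334)))) (XT.nd (nat_lit 78) (nat_lit 304) (nat_lit 0) (XT.lf (nat_lit 152) (nat_lit 2926544996) (nat_lit 0) (nat_lit 3307366357) (nat_lit 76) (nat_lit 5925432455) (nat_lit 201) (nat_lit 1) (nat_lit 199) (nat_lit 1) (nat_lit 200) (nat_lit 1) (nat_lit 318) (nat_lit 369) (nat_lit 333)) (XT.nd (nat_lit 78) (nat_lit 76) (nat_lit 0) (XT.lf (nat_lit 76) (nat_lit 844717351) (nat_lit 0) (nat_lit 2651342598) (nat_lit 228) (nat_lit 8338884541) (nat_lit 197) (nat_lit 1) (nat_lit 196) (nat_lit 1) (nat_lit 199) (nat_lit 1) (nat_lit 319)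 (nat_lit 369) (nat_lit 332)) (XT.lf (nat_lit 152) (nat_lit 3512118037) (nat_lit 0) (nat_lit 3659460524) (nat_lit 76) (nat_lit 4347022869) (nat_lit 197) (nat_lit 1) (nat_lit 195) (nat_lit 1) (nat_lit 196) (nat_lit 1) (nat_lit 320) (nat_lit 369) (nat_lit 331))))) (XT.nd (nat_lit 234) (nat_lit 456) (nat_lit 0) (XT.nd (nat_lit 78) (nat_lit 228) (nat_lit 0) (XT.lf (nat_lit 76) (nat_lit 1964498029) (nat_lit 0) (nat_lit 1902749180) (nat_lit 228) (nat_lit 7346128230) (nat_lit 193) (nat_lit 1) (nat_lit 192) (nat_lit 1) (nat_lit 195) (nat_lit 1) (nat_lit 321) (nat_lit 369) (nat_lit 330)) (XT.nd (nat_lit 78) (nat_lit 152) (nat_lit 0) (XT.lf (nat_lit 152) (nat_lit 3858069544) (nat_lit 0) (nat_lit 4054980126) (nat_lit 76) (nat_lit 3002898187) (nat_lit 193) (nat_lit 1) (nat_lit 191) (nat_lit 1) (nat_lit 192) (nat_lit 1) (nat_lit 322) (nat_lit 369) (nat_lit 329)) (XT.lf (nat_lit 76) (nat_lit 2892195370) (nat_lit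 0) (nat_lit 1378079344) (nat_lit 152) (nat_lit 6358068223) (nat_lit 190) (nat_lit 1) (nat_lit 189) (nat_lit 1) (nat_lit 191) (nat_lit 1) (nat_lit 323) (nat_lit 369) (nat_lit 328)))) (XT.nd (nat_lit 156) (nat_lit 228) (nat_lit 0) (XT.nd (nat_lit 78) (nat_lit 152) (nat_lit 0) (XT.lf (nat_lit 152) (nat_lit 4018973717) (nat_lit 0) (nat_lit 4472392888) (nat_lit 76) (nat_lit 1857017770) (nat_lit 190) (nat_lit 1) (nat_lit 188) (nat_lit 1) (nat_lit 189) (nat_lit 1) (nat_lit 324) (nat_lit 369) (nat_lit 327)) (XT.lf (nat_lit 76) (nat_lit 3658358231) (nat_lit 0) (nat_lit 1028065159) (nat_lit 152) (nat_lit 5390613655) (nat_lit 187) (nat_lit 1) (nat_lit 186) (nat_lit 1) (nat_lit 188) (nat_lit 1) (nat_lit 325) (nat_lit 369) (nat_lit 326))) (XT.nd (nat_lit 78) (nat_lit 152) (nat_lit 0) (XT.lf (nat_lit 152) (nat_lit 4038649756) (nat_lit 0) (nat_lit 4895224621) (nat_lit 76) (nat_lit 879386861) (nat_lit 187) (nat_lit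 1) (nat_lit 185) (nat_lit 1) (nat_lit 186) (nat_lit 1) (nat_lit 326) (nat_lit 369) (nat_lit 325)) (XT.lf (nat_lit 76) (nat_lit 4288376124) (nat_lit 0) (nat_lit 813090632) (nat_lit 152) (nat_lit 4455500111) (nat_lit 184) (nat_lit 1) (nat_lit 183) (nat_lit 1) (nat_lit 185) (nat_lit 1) (nat_lit 327) (nat_lit 369) (nat_lit 324))))))) (XT.nd (nat_lit 1014) (nat_lit 1596) (nat_lit 0) (XT.nd (nat_lit 468) (nat_lit 836) (nat_lit 0) (XT.nd (nat_lit 234) (nat_lit 380) (nat_lit 0) (XT.nd (nat_lit 78) (nat_lit 228) (nat_lit 0) (XT.lf (nat_lit 152) (nat_lit 3952183509) (nat_lit 0) (nat_lit 5311053138) (nat_lit 76) (nat_lit 44987194) (nat_lit 184) (nat_lit 1) (nat_lit 182) (nat_lit 1) (nat_lit 183) (nat_lit 1) (nat_lit 328) (nat_lit 369) (nat_lit 323)) (XT.nd (nat_lit 78) (nat_lit 76) (nat_lit 0) (XT.lf (nat_lit 76) (nat_lit 4803392465) (nat_lit 0) (nat_lit 701379376) (nat_lit 152) (nat_lit 3561140129) (nat_lit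 181) (nat_lit 1) (nat_lit 180) (nat_lit 1) (nat_lit 182) (nat_lit 1) (nat_lit 329) (nat_lit 369) (nat_lit 322)) (XT.lf (nat_lit 0) (nat_lit 645747463) (nat_lit 0) (nat_lit 5054008356) (nat_lit 152) (nat_lit 3130891659) (nat_lit 179) (nat_lit 3) (nat_lit 179) (nat_lit 1) (nat_lit 181) (nat_lit 1) (nat_lit 330) (nat_lit 369) (nat_lit 321)))) (XT.nd (nat_lit 78) (nat_lit 228) (nat_lit 0) (XT.lf (nat_lit 76) (nat_lit 5221052520) (nat_lit 0) (nat_lit 667517469) (nat_lit 152) (nat_lit 2713312236) (nat_lit 178) (nat_lit 1) (nat_lit 177) (nat_lit 1) (nat_lit 179) (nat_lit 1) (nat_lit 331) (nat_lit 369) (nat_lit 320)) (XT.nd (nat_lit 78) (nat_lit 152) (nat_lit 0) (XT.lf (nat_lit 0) (nat_lit 1233616552) (nat_lit 0) (nat_lit 4833019593) (nat_lit 152) (nat_lit 2312573361) (nat_lit 176) (nat_lit 3) (nat_lit 176) (nat_lit 1) (nat_lit 178) (nat_lit 1) (nat_lit 332) (nat_lit 369) (nat_lit 319)) (XT.lf (nat_lit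 76) (nat_lit 5556116226) (nat_lit 0) (nat_lit 691249805) (nat_lit 152) (nat_lit 1915718492) (nat_lit 175) (nat_lit 1) (nat_lit 174) (nat_lit 1) (nat_lit 176) (nat_lit 1) (nat_lit 333) (nat_lit 369) (nat_lit 318))))) (XT.nd (nat_lit 234) (nat_lit 532) (nat_lit 0) (XT.nd (nat_lit 78) (nat_lit 228) (nat_lit 0) (XT.lf (nat_lit 0) (nat_lit 1734327585) (nat_lit 0) (nat_lit 4673287544) (nat_lit 152) (nat_lit 1544611667) (nat_lit 173) (nat_lit 3) (nat_lit 173) (nat_lit 1) (nat_lit 175) (nat_lit 1) (nat_lit 334) (nat_lit 369) (nat_lit 317)) (XT.nd (nat_lit 78) (nat_lit 76) (nat_lit 0) (XT.lf (nat_lit 76) (nat_lit 5820960544) (nat_lit 0) (nat_lit 756499634) (nat_lit 152) (nat_lit 1170434970) (nat_lit 172) (nat_lit 1) (nat_lit 171) (nat_lit 1) (nat_lit 173) (nat_lit 1) (nat_lit 335) (nat_lit 369) (nat_lit 316)) (XT.lf (nat_lit 0) (nat_lit 2159909626) (nat_lit 0) (nat_lit 4559609116) (nat_lit 152) (nat_lit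 828622135) (nat_lit 170) (nat_lit 3) (nat_lit 170) (nat_lit 1) (nat_lit 172) (nat_lit 1) (nat_lit 336) (nat_lit 369) (nat_lit 315)))) (XT.nd (nat_lit 156) (nat_lit 304) (nat_lit 0) (XT.nd (nat_lit 78) (nat_lit 76) (nat_lit 0) (XT.lf (nat_lit 76) (nat_lit 6025991492) (nat_lit 0) (nat_lit 850570171) (nat_lit 152) (nat_lit 478275120) (nat_lit 169) (nat_lit 1) (nat_lit 168) (nat_lit 1) (nat_lit 170) (nat_lit 1) (nat_lit 337) (nat_lit 369) (nat_lit 314)) (XT.lf (nat_lit 0) (nat_lit 2520536396) (nat_lit 0) (nat_lit 4479922614) (nat_lit 152) (nat_lit 165072606) (nat_lit 167) (nat_lit 3) (nat_lit 167) (nat_lit 1) (nat_lit 169) (nat_lit 1) (nat_lit 338) (nat_lit 369) (nat_lit 313))) (XT.nd (nat_lit 78) (nat_lit 76) (nat_lit 0) (XT.lf (nat_lit 152) (nat_lit 6016339355) (nat_lit 0) (nat_lit 166238398) (nat_lit 76) (nat_lit 799851795) (nat_lit 166) (nat_lit 1) (nat_lit 164) (nat_lit 1) (nat_lit 165) (nat_lit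 1) (nat_lit 339) (nat_lit 369) (nat_lit 312)) (XT.lf (nat_lit 76) (nat_lit 2370832866) (nat_lit 0) (nat_lit 461208909) (nat_lit 76) (nat_lit 3970697503) (nat_lit 164) (nat_lit 3) (nat_lit 163) (nat_lit 1) (nat_lit 164) (nat_lit 1) (nat_lit 340) (nat_lit 369) (nat_lit 311)))))) (XT.nd (nat_lit 546) (nat_lit 760) (nat_lit 0) (XT.nd (nat_lit 234) (nat_lit 456) (nat_lit 0) (XT.nd (nat_lit 78) (nat_lit 228) (nat_lit 0) (XT.lf (nat_lit 152) (nat_lit 5529647355) (nat_lit 0) (nat_lit 772768913) (nat_lit 76) (nat_lit 326804286) (nat_lit 163) (nat_lit 1) (nat_lit 161) (nat_lit 1) (nat_lit 162) (nat_lit 1) (nat_lit 341) (nat_lit 369) (nat_lit 310)) (XT.nd (nat_lit 78) (nat_lit 152) (nat_lit 0) (XT.lf (nat_lit 76) (nat_lit 2056110279) (nat_lit 0) (nat_lit 1040306514) (nat_lit 76) (nat_lit 3362420813) (nat_lit 161) (nat_lit 3) (nat_lit 160) (nat_lit 1) (nat_lit 161) (nat_lit 1) (nat_lit 342) (nat_lit 369)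 (nat_lit 309)) (XT.lf (nat_lit 0) (nat_lit 86784998) (nat_lit 0) (nat_lit 1238734322) (nat_lit 152) (nat_lit 4968863759) (nat_lit 158) (nat_lit 3) (nat_lit 158) (nat_lit 1) (nat_lit 160) (nat_lit 1) (nat_lit 343) (nat_lit 369) (nat_lit 308)))) (XT.nd (nat_lit 156) (nat_lit 228) (nat_lit 0) (XT.nd (nat_lit 78) (nat_lit 152) (nat_lit 0) (XT.lf (nat_lit 76) (nat_lit 1748930934) (nat_lit 0) (nat_lit 1568375400) (nat_lit 76) (nat_lit 2815550679) (nat_lit 158) (nat_lit 3) (nat_lit 157) (nat_lit 1) (nat_lit 158) (nat_lit 1) (nat_lit 344) (nat_lit 369) (nat_lit 307)) (XT.lf (nat_lit 0) (nat_lit 441369467) (nat_lit 0) (nat_lit 1381951253) (nat_lit 152) (nat_lit 4153393976) (nat_lit 155) (nat_lit 3) (nat_lit 155) (nat_lit 1) (nat_lit 157) (nat_lit 1) (nat_lit 345) (nat_lit 369) (nat_lit 306))) (XT.nd (nat_lit 78) (nat_lit 152) (nat_lit 0) (XT.lf (nat_lit 76) (nat_lit 1452737989) (nat_lit 0) (nat_lit 2047391650)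 (nat_lit 76) (nat_lit 2323647050) (nat_lit 155) (nat_lit 3) (nat_lit 154) (nat_lit 1) (nat_lit 155) (nat_lit 1) (nat_lit 346) (nat_lit 369) (nat_lit 305)) (XT.lf (nat_lit 0) (nat_lit 752812547) (nat_lit 0) (nat_lit 1520809955) (nat_lit 152) (nat_lit 3401863698) (nat_lit 152) (nat_lit 3) (nat_lit 152) (nat_lit 1) (nat_lit 154) (nat_lit 1) (nat_lit 347) (nat_lit 369) (nat_lit 304))))) (XT.nd (nat_lit 234) (nat_lit 456) (nat_lit 0) (XT.nd (nat_lit 78) (nat_lit 228) (nat_lit 0) (XT.lf (nat_lit 76) (nat_lit 1169979474) (nat_lit 0) (nat_lit 2479581138) (nat_lit 76) (nat_lit 1881088185) (nat_lit 152) (nat_lit 3) (nat_lit 151) (nat_lit 1) (nat_lit 152) (nat_lit 1) (nat_lit 348) (nat_lit 369) (nat_lit 303)) (XT.nd (nat_lit 78) (nat_lit 76) (nat_lit 0) (XT.lf (nat_lit 0) (nat_lit 1025818854) (nat_lit 0) (nat_lit 1652898846) (nat_lit 152) (nat_lit 2711064527) (nat_lit 149) (nat_lit 3) (nat_lit 149) (nat_lit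 1) (nat_lit 151) (nat_lit 1) (nat_lit 349) (nat_lit 369) (nat_lit 302)) (XT.lf (nat_lit 76) (nat_lit 902315500) (nat_lit 0) (nat_lit 2867330258) (nat_lit 76) (nat_lit 1482945123) (nat_lit 149) (nat_lit 3) (nat_lit 148) (nat_lit 1) (nat_lit 149) (nat_lit 1) (nat_lit 350) (nat_lit 369) (nat_lit 301)))) (XT.nd (nat_lit 156) (nat_lit 228) (nat_lit 0) (XT.nd (nat_lit 78) (nat_lit 76) (nat_lit 0) (XT.lf (nat_lit 0) (nat_lit 1264501427) (nat_lit 0) (nat_lit 1776520494) (nat_lit 152) (nat_lit 2077727454) (nat_lit 146) (nat_lit 3) (nat_lit 146) (nat_lit 1) (nat_lit 148) (nat_lit 1) (nat_lit 351) (nat_lit 369) (nat_lit 300)) (XT.lf (nat_lit 76) (nat_lit 650785874) (nat_lit 0) (nat_lit 3213115882) (nat_lit 76) (nat_lit 1124877603) (nat_lit 146) (nat_lit 3) (nat_lit 145) (nat_lit 1) (nat_lit 146) (nat_lit 1) (nat_lit 352) (nat_lit 369) (nat_lit 299))) (XT.nd (nat_lit 78) (nat_lit 76) (nat_lit 0) (XT.lf (nat_lit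 0) (nat_lit 1472470834) (nat_lit 0) (nat_lit 1890541142) (nat_lit 152) (nat_lit 1498578242) (nat_lit 143) (nat_lit 3) (nat_lit 143) (nat_lit 1) (nat_lit 145) (nat_lit 1) (nat_lit 353) (nat_lit 369) (nat_lit 298)) (XT.lf (nat_lit 76) (nat_lit 415945483) (nat_lit 0) (nat_lit 3519450840) (nat_lit 76) (nat_lit 803047620) (nat_lit 143) (nat_lit 3) (nat_lit 142) (nat_lit 1) (nat_lit 143) (nat_lit 1) (nat_lit 354) (nat_lit 369) (nat_lit 297))))))))
noncomputable def ec85 : XT := (XT.nd (nat_lit 2106) (nat_lit 3192) (nat_lit 0) (XT.nd (nat_lit 1014) (nat_lit 1748) (nat_lit 0) (XT.nd (nat_lit 468) (nat_lit 760) (nat_lit 0) (XT.nd (nat_lit 234) (nat_lit 456) (nat_lit 0) (XT.nd (nat_lit 78) (nat_lit 228) (nat_lit 0) (XT.lf (nat_lit 0) (nat_lit 1652909209) (nat_lit 0) (nat_lit 1994269118) (nat_lit 152) (nat_lit 970379792) (nat_lit 140) (nat_lit 3) (nat_lit 140) (nat_lit 1) (nat_lit 142) (nat_lit 1) (nat_lit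 355) (nat_lit 369) (nat_lit 296)) (XT.nd (nat_lit 78) (nat_lit 152) (nat_lit 0) (XT.lf (nat_lit 76) (nat_lit 197973451) (nat_lit 0) (nat_lit 3788841919) (nat_lit 76) (nat_lit 514047441) (nat_lit 140) (nat_lit 3) (nat_lit 139) (nat_lit 1) (nat_lit 140) (nat_lit 1) (nat_lit 356) (nat_lit 369) (nat_lit 295)) (XT.lf (nat_lit 0) (nat_lit 1808631907) (nat_lit 0) (nat_lit 2087356766) (nat_lit 152) (nat_lit 489964094) (nat_lit 137) (nat_lit 3) (nat_lit 137) (nat_lit 1) (nat_lit 139) (nat_lit 1) (nat_lit 357) (nat_lit 369) (nat_lit 294)))) (XT.nd (nat_lit 78) (nat_lit 304) (nat_lit 0) (XT.lf (nat_lit 76) (nat_lit 4020569443) (nat_lit 0) (nat_lit 3135357) (nat_lit 152) (nat_lit 251651089) (nat_lit 136) (nat_lit 1) (nat_lit 135) (nat_lit 1) (nat_lit 137) (nat_lit 1) (nat_lit 358) (nat_lit 369) (nat_lit 293)) (XT.nd (nat_lit 78) (nat_lit 228) (nat_lit 0) (XT.lf (nat_lit 0) (nat_lit 1942138971) (nat_lit 0)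 (nat_lit 2169721487) (nat_lit 152) (nat_lit 54255795) (nat_lit 134) (nat_lit 3) (nat_lit 134) (nat_lit 1) (nat_lit 136) (nat_lit 1) (nat_lit 359) (nat_lit 369) (nat_lit 292)) (XT.lf (nat_lit 152) (nat_lit 3876396694) (nat_lit 0) (nat_lit 167745243) (nat_lit 76) (nat_lit 16874168) (nat_lit 133) (nat_lit 1) (nat_lit 131) (nat_lit 1) (nat_lit 132) (nat_lit 1) (nat_lit 360) (nat_lit 369) (nat_lit 291))))) (XT.nd (nat_lit 234) (nat_lit 456) (nat_lit 0) (XT.nd (nat_lit 78) (nat_lit 228) (nat_lit 0) (XT.lf (nat_lit 76) (nat_lit 1710194164) (nat_lit 0) (nat_lit 350943255) (nat_lit 76) (nat_lit 1896018283) (nat_lit 131) (nat_lit 3) (nat_lit 130) (nat_lit 1) (nat_lit 131) (nat_lit 1) (nat_lit 361) (nat_lit 369) (nat_lit 290)) (XT.nd (nat_lit 78) (nat_lit 76) (nat_lit 0) (XT.lf (nat_lit 0) (nat_lit 193328297) (nat_lit 0) (nat_lit 357194364) (nat_lit 152) (nat_lit 3306680041) (nat_lit 128) (nat_lit 3) (nat_lit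 128) (nat_lit 1) (nat_lit 130) (nat_lit 1) (nat_lit 362) (nat_lit 369) (nat_lit 289)) (XT.lf (nat_lit 76) (nat_lit 1444634397) (nat_lit 0) (nat_lit 717753108) (nat_lit 76) (nat_lit 1596362237) (nat_lit 128) (nat_lit 3) (nat_lit 127) (nat_lit 1) (nat_lit 128) (nat_lit 1) (nat_lit 363) (nat_lit 369) (nat_lit 288)))) (XT.nd (nat_lit 156) (nat_lit 228) (nat_lit 0) (XT.nd (nat_lit 78) (nat_lit 76) (nat_lit 0) (XT.lf (nat_lit 0) (nat_lit 380412623) (nat_lit 0) (nat_lit 514211423) (nat_lit 152) (nat_lit 2769087815) (nat_lit 125) (nat_lit 3) (nat_lit 125) (nat_lit 1) (nat_lit 127) (nat_lit 1) (nat_lit 364) (nat_lit 369) (nat_lit 287)) (XT.lf (nat_lit 76) (nat_lit 1199658447) (nat_lit 0) (nat_lit 1047185618) (nat_lit 76) (nat_lit 1323546225) (nat_lit 125) (nat_lit 3) (nat_lit 124) (nat_lit 1) (nat_lit 125) (nat_lit 1) (nat_lit 365) (nat_lit 369) (nat_lit 286))) (XT.nd (nat_lit 78) (nat_lit 76) (nat_lit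 0) (XT.lf (nat_lit 0) (nat_lit 546895111) (nat_lit 0) (nat_lit 656143593) (nat_lit 152) (nat_lit 2276980819) (nat_lit 122) (nat_lit 3) (nat_lit 122) (nat_lit 1) (nat_lit 124) (nat_lit 1) (nat_lit 366) (nat_lit 369) (nat_lit 285)) (XT.lf (nat_lit 76) (nat_lit 974245528) (nat_lit 0) (nat_lit 1341909470) (nat_lit 76) (nat_lit 1075401530) (nat_lit 122) (nat_lit 3) (nat_lit 121) (nat_lit 1) (nat_lit 122) (nat_lit 1) (nat_lit 367) (nat_lit 369) (nat_lit 284)))))) (XT.nd (nat_lit 546) (nat_lit 912) (nat_lit 0) (XT.nd (nat_lit 234) (nat_lit 456) (nat_lit 0) (XT.nd (nat_lit 78) (nat_lit 228) (nat_lit 0) (XT.lf (nat_lit 0) (nat_lit 694569780) (nat_lit 0) (nat_lit 783772603) (nat_lit 152) (nat_lit 1827276060) (nat_lit 119) (nat_lit 3) (nat_lit 119) (nat_lit 1) (nat_lit 121) (nat_lit 1) (nat_lit 368) (nat_lit 369) (nat_lit 283)) (XT.nd (nat_lit 78) (nat_lit 152) (nat_lit 0) (XT.lf (nat_lit 76) (nat_lit 767353347)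 (nat_lit 0) (nat_lit 1604454633) (nat_lit 76) (nat_lit 849948553) (nat_lit 119) (nat_lit 3) (nat_lit 118) (nat_lit 1) (nat_lit 119) (nat_lit 1) (nat_lit 369) (nat_lit 369) (nat_lit 282)) (XT.lf (nat_lit 0) (nat_lit 825069047) (nat_lit 0) (nat_lit 897904326) (nat_lit 152) (nat_lit 1417055967) (nat_lit 116) (nat_lit 3) (nat_lit 116) (nat_lit 1) (nat_lit 118) (nat_lit 1) (nat_lit 370) (nat_lit 369) (nat_lit 281)))) (XT.nd (nat_lit 156) (nat_lit 228) (nat_lit 0) (XT.nd (nat_lit 78) (nat_lit 152) (nat_lit 0) (XT.lf (nat_lit 76) (nat_lit 577936234) (nat_lit 0) (nat_lit 1837212798) (nat_lit 76) (nat_lit 645376308) (nat_lit 116) (nat_lit 3) (nat_lit 115) (nat_lit 1) (nat_lit 116) (nat_lit 1) (nat_lit 371) (nat_lit 369) (nat_lit 280)) (XT.lf (nat_lit 0) (nat_lit 939881405) (nat_lit 0) (nat_lit 999352369) (nat_lit 152) (nat_lit 1043565291) (nat_lit 113) (nat_lit 3) (nat_lit 113) (nat_lit 1) (nat_lit 115)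 (nat_lit 1) (nat_lit 372) (nat_lit 369) (nat_lit 279))) (XT.nd (nat_lit 78) (nat_lit 152) (nat_lit 0) (XT.lf (nat_lit 76) (nat_lit 404959055) (nat_lit 0) (nat_lit 2042439395) (nat_lit 76) (nat_lit 460024763) (nat_lit 113) (nat_lit 3) (nat_lit 112) (nat_lit 1) (nat_lit 113) (nat_lit 1) (nat_lit 373) (nat_lit 369) (nat_lit 278)) (XT.lf (nat_lit 0) (nat_lit 1040366640) (nat_lit 0) (nat_lit 1088925465) (nat_lit 152) (nat_lit 704206834) (nat_lit 110) (nat_lit 3) (nat_lit 110) (nat_lit 1) (nat_lit 112) (nat_lit 1) (nat_lit 374) (nat_lit 369) (nat_lit 277))))) (XT.nd (nat_lit 234) (nat_lit 608) (nat_lit 0) (XT.nd (nat_lit 78) (nat_lit 228) (nat_lit 0) (XT.lf (nat_lit 76) (nat_lit 247407704) (nat_lit 0) (nat_lit 2222256765) (nat_lit 76) (nat_lit 292369579) (nat_lit 110) (nat_lit 3) (nat_lit 109) (nat_lit 1) (nat_lit 110) (nat_lit 1) (nat_lit 375) (nat_lit 369) (nat_lit 276)) (XT.nd (nat_lit 78) (nat_lit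 76) (nat_lit 0) (XT.lf (nat_lit 0) (nat_lit 1127768996) (nat_lit 0) (nat_lit 1167417916) (nat_lit 152) (nat_lit 396536325) (nat_lit 107) (nat_lit 3) (nat_lit 107) (nat_lit 1) (nat_lit 109) (nat_lit 1) (nat_lit 376) (nat_lit 369) (nat_lit 275)) (XT.lf (nat_lit 76) (nat_lit 104296880) (nat_lit 0) (nat_lit 2378658211) (nat_lit 76) (nat_lit 141008842) (nat_lit 107) (nat_lit 3) (nat_lit 106) (nat_lit 1) (nat_lit 107) (nat_lit 1) (nat_lit 377) (nat_lit 369) (nat_lit 274)))) (XT.nd (nat_lit 156) (nat_lit 228) (nat_lit 0) (XT.nd (nat_lit 78) (nat_lit 228) (nat_lit 0) (XT.lf (nat_lit 0) (nat_lit 1203228620) (nat_lit 0) (nat_lit 1235602485) (nat_lit 152) (nat_lit 118256690) (nat_lit 104) (nat_lit 3) (nat_lit 104) (nat_lit 1) (nat_lit 106) (nat_lit 1) (nat_lit 378) (nat_lit 369) (nat_lit 273)) (XT.lf (nat_lit 152) (nat_lit 2467962849) (nat_lit 0) (nat_lit 20947919) (nat_lit 76) (nat_lit 3892919) (nat_lit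 103) (nat_lit 1) (nat_lit 101) (nat_lit 1) (nat_lit 102) (nat_lit 1) (nat_lit 379) (nat_lit 369) (nat_lit 272))) (XT.nd (nat_lit 78) (nat_lit 152) (nat_lit 0) (XT.lf (nat_lit 76) (nat_lit 1132754662) (nat_lit 0) (nat_lit 137178636) (nat_lit 76) (nat_lit 1159188348) (nat_lit 101) (nat_lit 3) (nat_lit 100) (nat_lit 1) (nat_lit 101) (nat_lit 1) (nat_lit 380) (nat_lit 369) (nat_lit 271)) (XT.lf (nat_lit 0) (nat_lit 120608940) (nat_lit 0) (nat_lit 143919069) (nat_lit 152) (nat_lit 2103363744) (nat_lit 98) (nat_lit 3) (nat_lit 98) (nat_lit 1) (nat_lit 100) (nat_lit 1) (nat_lit 381) (nat_lit 369) (nat_lit 270))))))) (XT.nd (nat_lit 1014) (nat_lit 1748) (nat_lit 0) (XT.nd (nat_lit 468) (nat_lit 760) (nat_lit 0) (XT.nd (nat_lit 234) (nat_lit 380) (nat_lit 0) (XT.nd (nat_lit 78) (nat_lit 228) (nat_lit 0) (XT.lf (nat_lit 76) (nat_lit 957725925) (nat_lit 0) (nat_lit 370476763) (nat_lit 76) (nat_lit 979309378)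 (nat_lit 98) (nat_lit 3) (nat_lit 97) (nat_lit 1) (nat_lit 98) (nat_lit 1) (nat_lit 382) (nat_lit 369) (nat_lit 269)) (XT.nd (nat_lit 78) (nat_lit 76) (nat_lit 0) (XT.lf (nat_lit 0) (nat_lit 232095751) (nat_lit 0) (nat_lit 251128779) (nat_lit 152) (nat_lit 1766048969) (nat_lit 95) (nat_lit 3) (nat_lit 95) (nat_lit 1) (nat_lit 97) (nat_lit 1) (nat_lit 383) (nat_lit 369) (nat_lit 268)) (XT.lf (nat_lit 76) (nat_lit 797359899) (nat_lit 0) (nat_lit 579683160) (nat_lit 76) (nat_lit 814983073) (nat_lit 95) (nat_lit 3) (nat_lit 94) (nat_lit 1) (nat_lit 95) (nat_lit 1) (nat_lit 384) (nat_lit 369) (nat_lit 267)))) (XT.nd (nat_lit 78) (nat_lit 228) (nat_lit 0) (XT.lf (nat_lit 0) (nat_lit 331717695) (nat_lit 0) (nat_lit 347258412) (nat_lit 152) (nat_lit 1457655423) (nat_lit 92) (nat_lit 3) (nat_lit 92) (nat_lit 1) (nat_lit 94) (nat_lit 1) (nat_lit 385) (nat_lit 369) (nat_lit 266)) (XT.nd (nat_lit 78) (nat_lit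 152) (nat_lit 0) (XT.lf (nat_lit 76) (nat_lit 650667775) (nat_lit 0) (nat_lit 766627546) (nat_lit 76) (nat_lit 665057328) (nat_lit 92) (nat_lit 3) (nat_lit 91) (nat_lit 1) (nat_lit 92) (nat_lit 1) (nat_lit 386) (nat_lit 369) (nat_lit 265)) (XT.lf (nat_lit 0) (nat_lit 420423449) (nat_lit 0) (nat_lit 433112649) (nat_lit 152) (nat_lit 1176125981) (nat_lit 89) (nat_lit 3) (nat_lit 89) (nat_lit 1) (nat_lit 91) (nat_lit 1) (nat_lit 387) (nat_lit 369) (nat_lit 264))))) (XT.nd (nat_lit 234) (nat_lit 456) (nat_lit 0) (XT.nd (nat_lit 78) (nat_lit 228) (nat_lit 0) (XT.lf (nat_lit 76) (nat_lit 516713454) (nat_lit 0) (nat_lit 933020392) (nat_lit 76) (nat_lit 528462714) (nat_lit 89) (nat_lit 3) (nat_lit 88) (nat_lit 1) (nat_lit 89) (nat_lit 1) (nat_lit 388) (nat_lit 369) (nat_lit 263)) (XT.nd (nat_lit 78) (nat_lit 76) (nat_lit 0) (XT.lf (nat_lit 0) (nat_lit 499090996) (nat_lit 0) (nat_lit 509451896) (nat_lit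 152) (nat_lit 919534227) (nat_lit 86) (nat_lit 3) (nat_lit 86) (nat_lit 1) (nat_lit 88) (nat_lit 1) (nat_lit 389) (nat_lit 369) (nat_lit 262)) (XT.lf (nat_lit 76) (nat_lit 394612625) (nat_lit 0) (nat_lit 1080459393) (nat_lit 76) (nat_lit 404206050) (nat_lit 86) (nat_lit 3) (nat_lit 85) (nat_lit 1) (nat_lit 86) (nat_lit 1) (nat_lit 390) (nat_lit 369) (nat_lit 261)))) (XT.nd (nat_lit 156) (nat_lit 228) (nat_lit 0) (XT.nd (nat_lit 78) (nat_lit 76) (nat_lit 0) (XT.lf (nat_lit 0) (nat_lit 568533217) (nat_lit 0) (nat_lit 576993027) (nat_lit 152) (nat_lit 686077256) (nat_lit 83) (nat_lit 3) (nat_lit 83) (nat_lit 1) (nat_lit 85) (nat_lit 1) (nat_lit 391) (nat_lit 369) (nat_lit 260)) (XT.lf (nat_lit 76) (nat_lit 283531441) (nat_lit 0) (nat_lit 1210435761) (nat_lit 76) (nat_lit 291364599) (nat_lit 83) (nat_lit 3) (nat_lit 82) (nat_lit 1) (nat_lit 83) (nat_lit 1) (nat_lit 392) (nat_lit 369) (nat_lit 259)))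 (XT.nd (nat_lit 78) (nat_lit 76) (nat_lit 0) (XT.lf (nat_lit 0) (nat_lit 629502934) (nat_lit 0) (nat_lit 636410481) (nat_lit 152) (nat_lit 474068734) (nat_lit 80) (nat_lit 3) (nat_lit 80) (nat_lit 1) (nat_lit 82) (nat_lit 1) (nat_lit 393) (nat_lit 369) (nat_lit 258)) (XT.lf (nat_lit 76) (nat_lit 182684918) (nat_lit 0) (nat_lit 1324340321) (nat_lit 76) (nat_lit 189080794) (nat_lit 80) (nat_lit 3) (nat_lit 79) (nat_lit 1) (nat_lit 80) (nat_lit 1) (nat_lit 394) (nat_lit 369) (nat_lit 257)))))) (XT.nd (nat_lit 546) (nat_lit 836) (nat_lit 0) (XT.nd (nat_lit 234) (nat_lit 532) (nat_lit 0) (XT.nd (nat_lit 78) (nat_lit 228) (nat_lit 0) (XT.lf (nat_lit 0) (nat_lit 682697501) (nat_lit 0) (nat_lit 688337604) (nat_lit 152) (nat_lit 281932206) (nat_lit 77) (nat_lit 3) (nat_lit 77) (nat_lit 1) (nat_lit 79) (nat_lit 1) (nat_lit 395) (nat_lit 369) (nat_lit 256)) (XT.nd (nat_lit 78) (nat_lit 152) (nat_lit 0)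 (XT.lf (nat_lit 76) (nat_lit 91335136) (nat_lit 0) (nat_lit 1423469372) (nat_lit 76) (nat_lit 96557453) (nat_lit 77) (nat_lit 3) (nat_lit 76) (nat_lit 1) (nat_lit 77) (nat_lit 1) (nat_lit 396) (nat_lit 369) (nat_lit 255)) (XT.lf (nat_lit 0) (nat_lit 728762960) (nat_lit 0) (nat_lit 733368178) (nat_lit 152) (nat_lit 108194701) (nat_lit 74) (nat_lit 3) (nat_lit 74) (nat_lit 1) (nat_lit 76) (nat_lit 1) (nat_lit 397) (nat_lit 369) (nat_lit 254)))) (XT.nd (nat_lit 156) (nat_lit 228) (nat_lit 0) (XT.nd (nat_lit 78) (nat_lit 228) (nat_lit 0) (XT.lf (nat_lit 76) (nat_lit 8789304) (nat_lit 0) (nat_lit 1509030307) (nat_lit 76) (nat_lit 13053395) (nat_lit 74) (nat_lit 3) (nat_lit 73) (nat_lit 1) (nat_lit 74) (nat_lit 1) (nat_lit 398) (nat_lit 369) (nat_lit 253)) (XT.lf (nat_lit 76) (nat_lit 718956756) (nat_lit 0) (nat_lit 50123662) (nat_lit 76) (nat_lit 722716977) (nat_lit 71) (nat_lit 3) (nat_lit 70) (nat_lit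 1) (nat_lit 71) (nat_lit 1) (nat_lit 399) (nat_lit 369) (nat_lit 252))) (XT.nd (nat_lit 78) (nat_lit 76) (nat_lit 0) (XT.lf (nat_lit 0) (nat_lit 63250366) (nat_lit 0) (nat_lit 66566258) (nat_lit 152) (nat_lit 1324403159) (nat_lit 68) (nat_lit 3) (nat_lit 68) (nat_lit 1) (nat_lit 70) (nat_lit 1) (nat_lit 400) (nat_lit 369) (nat_lit 251)) (XT.lf (nat_lit 76) (nat_lit 609153348) (nat_lit 0) (nat_lit 195759682) (nat_lit 76) (nat_lit 612223619) (nat_lit 68) (nat_lit 3) (nat_lit 67) (nat_lit 1) (nat_lit 68) (nat_lit 1) (nat_lit 401) (nat_lit 369) (nat_lit 250))))) (XT.nd (nat_lit 234) (nat_lit 456) (nat_lit 0) (XT.nd (nat_lit 78) (nat_lit 228) (nat_lit 0) (XT.lf (nat_lit 0) (nat_lit 131820941) (nat_lit 0) (nat_lit 134528410) (nat_lit 152) (nat_lit 1115042745) (nat_lit 65) (nat_lit 3) (nat_lit 65) (nat_lit 1) (nat_lit 67) (nat_lit 1) (nat_lit 402) (nat_lit 369) (nat_lit 249)) (XT.nd (nat_lit 78) (nat_lit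 152) (nat_lit 0) (XT.lf (nat_lit 76) (nat_lit 508675072) (nat_lit 0) (nat_lit 326373648) (nat_lit 76) (nat_lit 511181988) (nat_lit 65) (nat_lit 3) (nat_lit 64) (nat_lit 1) (nat_lit 65) (nat_lit 1) (nat_lit 403) (nat_lit 369) (nat_lit 248)) (XT.lf (nat_lit 0) (nat_lit 193185668) (nat_lit 0) (nat_lit 195396352) (nat_lit 152) (nat_lit 923647405) (nat_lit 62) (nat_lit 3) (nat_lit 62) (nat_lit 1) (nat_lit 64) (nat_lit 1) (nat_lit 404) (nat_lit 369) (nat_lit 247)))) (XT.nd (nat_lit 156) (nat_lit 228) (nat_lit 0) (XT.nd (nat_lit 78) (nat_lit 152) (nat_lit 0) (XT.lf (nat_lit 76) (nat_lit 416861434) (nat_lit 0) (nat_lit 443119847) (nat_lit 76) (nat_lit 418908364) (nat_lit 62) (nat_lit 3) (nat_lit 61) (nat_lit 1) (nat_lit 62) (nat_lit 1) (nat_lit 405) (nat_lit 369) (nat_lit 246)) (XT.lf (nat_lit 0) (nat_lit 247907051) (nat_lit 0) (nat_lit 249712103) (nat_lit 152) (nat_lit 748927120) (nat_lit 59) (nat_lit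 3) (nat_lit 59) (nat_lit 1) (nat_lit 61) (nat_lit 1) (nat_lit 406) (nat_lit 369) (nat_lit 245))) (XT.nd (nat_lit 78) (nat_lit 152) (nat_lit 0) (XT.lf (nat_lit 76) (nat_lit 333093787) (nat_lit 0) (nat_lit 547074302) (nat_lit 76) (nat_lit 334765132) (nat_lit 59) (nat_lit 3) (nat_lit 58) (nat_lit 1) (nat_lit 59) (nat_lit 1) (nat_lit 407) (nat_lit 369) (nat_lit 244)) (XT.lf (nat_lit 0) (nat_lit 296508150) (nat_lit 0) (nat_lit 297981999) (nat_lit 152) (nat_lit 589676468) (nat_lit 56) (nat_lit 3) (nat_lit 56) (nat_lit 1) (nat_lit 58) (nat_lit 1) (nat_lit 408) (nat_lit 369) (nat_lit 243))))))))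
noncomputable def ec86 : XT := (XT.nd (nat_lit 44304) (nat_lit 0) (nat_lit 11248) (XT.nd (nat_lit 43290) (nat_lit 0) (nat_lit 16188) (XT.nd (nat_lit 468) (nat_lit 532) (nat_lit 0) (XT.nd (nat_lit 234) (nat_lit 380) (nat_lit 0) (XT.nd (nat_lit 78) (nat_lit 228) (nat_lit 0) (XT.lf (nat_lit 76) (nat_lit 256793038) (nat_lit 0) (nat_lit 639239641) (nat_lit 76) (nat_lit 258157713) (nat_lit 56) (nat_lit 3) (nat_lit 55) (nat_lit 1) (nat_lit 56) (nat_lit 1) (nat_lit 409) (nat_lit 369) (nat_lit 242)) (XT.nd (nat_lit 78) (nat_lit 76) (nat_lit 0) (XT.lf (nat_lit 0) (nat_lit 339475273) (nat_lit 0) (nat_lit 340678690) (nat_lit 152) (nat_lit 444769441) (nat_lit 53) (nat_lit 3) (nat_lit 53) (nat_lit 1) (nat_lit 55) (nat_lit 1) (nat_lit 410) (nat_lit 369) (nat_lit 241)) (XT.lf (nat_lit 76) (nat_lit 187417425) (nat_lit 0) (nat_lit 720549686) (nat_lit 76) (nat_lit 188531700) (nat_lit 53) (nat_lit 3) (nat_lit 52)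 (nat_lit 1) (nat_lit 53) (nat_lit 1) (nat_lit 411) (nat_lit 369) (nat_lit 240)))) (XT.nd (nat_lit 78) (nat_lit 228) (nat_lit 0) (XT.lf (nat_lit 0) (nat_lit 377260464) (nat_lit 0) (nat_lit 378243071) (nat_lit 152) (nat_lit 313154553) (nat_lit 50) (nat_lit 3) (nat_lit 50) (nat_lit 1) (nat_lit 52) (nat_lit 1) (nat_lit 412) (nat_lit 369) (nat_lit 239)) (XT.nd (nat_lit 78) (nat_lit 152) (nat_lit 0) (XT.lf (nat_lit 76) (nat_lit 124460391) (nat_lit 0) (nat_lit 791873799) (nat_lit 76) (nat_lit 125370212) (nat_lit 50) (nat_lit 3) (nat_lit 49) (nat_lit 1) (nat_lit 50) (nat_lit 1) (nat_lit 413) (nat_lit 369) (nat_lit 238)) (XT.lf (nat_lit 0) (nat_lit 410283830) (nat_lit 0) (nat_lit 411086141) (nat_lit 152) (nat_lit 193850229) (nat_lit 47) (nat_lit 3) (nat_lit 47) (nat_lit 1) (nat_lit 49) (nat_lit 1) (nat_lit 414) (nat_lit 369) (nat_lit 237))))) (XT.nd (nat_lit 234) (nat_lit 228) (nat_lit 0) (XT.nd (nat_lit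 78) (nat_lit 228) (nat_lit 0) (XT.lf (nat_lit 76) (nat_lit 67448534) (nat_lit 0) (nat_lit 854020968) (nat_lit 76) (nat_lit 68191414) (nat_lit 47) (nat_lit 3) (nat_lit 46) (nat_lit 1) (nat_lit 47) (nat_lit 1) (nat_lit 415) (nat_lit 369) (nat_lit 236)) (XT.nd (nat_lit 78) (nat_lit 76) (nat_lit 0) (XT.lf (nat_lit 0) (nat_lit 438935689) (nat_lit 0) (nat_lit 439590787) (nat_lit 152) (nat_lit 85940446) (nat_lit 44) (nat_lit 3) (nat_lit 44) (nat_lit 1) (nat_lit 46) (nat_lit 1) (nat_lit 416) (nat_lit 369) (nat_lit 235)) (XT.lf (nat_lit 76) (nat_lit 15939654) (nat_lit 0) (nat_lit 907743661) (nat_lit 76) (nat_lit 16546226) (nat_lit 44) (nat_lit 3) (nat_lit 43) (nat_lit 1) (nat_lit 44) (nat_lit 1) (nat_lit 417) (nat_lit 369) (nat_lit 234)))) (XT.nd (nat_lit 42432) (nat_lit 0) (nat_lit 19228) (XT.nd (nat_lit 42354) (nat_lit 0) (nat_lit 19152) (XT.lf (nat_lit 76) (nat_lit 451955659) (nat_lit 0) (nat_lit 11807265)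 (nat_lit 76) (nat_lit 452490555) (nat_lit 41) (nat_lit 3) (nat_lit 40) (nat_lit 1) (nat_lit 41) (nat_lit 1) (nat_lit 418) (nat_lit 369) (nat_lit 233)) (XT.lf (nat_lit 836) (nat_lit 5407074377) (nat_lit 0) (nat_lit 9600248128) (nat_lit 836) (nat_lit 5407074377) (nat_lit 303) (nat_lit 1) (nat_lit 292) (nat_lit 0) (nat_lit 303) (nat_lit 0) (nat_lit 280) (nat_lit 370) (nat_lit 370))) (XT.nd (nat_lit 78) (nat_lit 0) (nat_lit 0) (XT.lf (nat_lit 836) (nat_lit 2017004654) (nat_lit 0) (nat_lit 18848196683) (nat_lit 760) (nat_lit 18433473385) (nat_lit 304) (nat_lit 1) (nat_lit 293) (nat_lit 1) (nat_lit 303) (nat_lit 1) (nat_lit 281) (nat_lit 370) (nat_lit 369)) (XT.lf (nat_lit 836) (nat_lit 18525023516) (nat_lit 76) (nat_lit 12622643672) (nat_lit 0) (nat_lit 6694474407) (nat_lit 304) (nat_lit 1) (nat_lit 294) (nat_lit 1) (nat_lit 293) (nat_lit 1) (nat_lit 282) (nat_lit 370) (nat_lit 368)))))) (XT.nd (nat_lit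 468) (nat_lit 2052) (nat_lit 0) (XT.nd (nat_lit 234) (nat_lit 1064) (nat_lit 0) (XT.nd (nat_lit 78) (nat_lit 0) (nat_lit 76) (XT.lf (nat_lit 836) (nat_lit 16007137909) (nat_lit 76) (nat_lit 5290062471) (nat_lit 0) (nat_lit 15161296700) (nat_lit 305) (nat_lit 1) (nat_lit 295) (nat_lit 1) (nat_lit 294) (nat_lit 1) (nat_lit 283) (nat_lit 370) (nat_lit 367)) (XT.nd (nat_lit 78) (nat_lit 0) (nat_lit 76) (XT.lf (nat_lit 836) (nat_lit 11846642933) (nat_lit 0) (nat_lit 22164508961) (nat_lit 760) (nat_lit 1133046531) (nat_lit 306) (nat_lit 1) (nat_lit 295) (nat_lit 1) (nat_lit 305) (nat_lit 1) (nat_lit 284) (nat_lit 370) (nat_lit 366)) (XT.lf (nat_lit 836) (nat_lit 2842485818) (nat_lit 0) (nat_lit 24442528668) (nat_lit 760) (nat_lit 6607652242) (nat_lit 307) (nat_lit 1) (nat_lit 296) (nat_lit 1) (nat_lit 306) (nat_lit 1) (nat_lit 285) (nat_lit 370) (nat_lit 365)))) (XT.nd (nat_lit 78) (nat_lit 1216) (nat_lit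 0) (XT.lf (nat_lit 836) (nat_lit 5462101606) (nat_lit 76) (nat_lit 21242547853) (nat_lit 0) (nat_lit 5994909087) (nat_lit 307) (nat_lit 1) (nat_lit 297) (nat_lit 1) (nat_lit 296) (nat_lit 1) (nat_lit 286) (nat_lit 370) (nat_lit 364)) (XT.nd (nat_lit 78) (nat_lit 532) (nat_lit 0) (XT.lf (nat_lit 836) (nat_lit 1121791117) (nat_lit 0) (nat_lit 15880209661) (nat_lit 760) (nat_lit 14561985869) (nat_lit 298) (nat_lit 1) (nat_lit 287) (nat_lit 1) (nat_lit 297) (nat_lit 1) (nat_lit 287) (nat_lit 370) (nat_lit 363)) (XT.lf (nat_lit 76) (nat_lit 7767515375) (nat_lit 0) (nat_lit 3366025882) (nat_lit 532) (nat_lit 19348641722) (nat_lit 281) (nat_lit 1) (nat_lit 280) (nat_lit 1) (nat_lit 287) (nat_lit 1) (nat_lit 288) (nat_lit 370) (nat_lit 362))))) (XT.nd (nat_lit 234) (nat_lit 988) (nat_lit 0) (XT.nd (nat_lit 78) (nat_lit 684) (nat_lit 0) (XT.lf (nat_lit 456) (nat_lit 21406294701) (nat_lit 0) (nat_lit 6968210407)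 (nat_lit 380) (nat_lit 1077328384) (nat_lit 281) (nat_lit 1) (nat_lit 275) (nat_lit 1) (nat_lit 280) (nat_lit 1) (nat_lit 289) (nat_lit 370) (nat_lit 361)) (XT.nd (nat_lit 78) (nat_lit 304) (nat_lit 0) (XT.lf (nat_lit 456) (nat_lit 15446986102) (nat_lit 0) (nat_lit 3247912887) (nat_lit 380) (nat_lit 9770888202) (nat_lit 276) (nat_lit 1) (nat_lit 270) (nat_lit 1) (nat_lit 275) (nat_lit 1) (nat_lit 290) (nat_lit 370) (nat_lit 360)) (XT.lf (nat_lit 380) (nat_lit 9399294033) (nat_lit 0) (nat_lit 59799354) (nat_lit 304) (nat_lit 18068458744) (nat_lit 271) (nat_lit 1) (nat_lit 266) (nat_lit 1) (nat_lit 270) (nat_lit 1) (nat_lit 291) (nat_lit 370) (nat_lit 359)))) (XT.nd (nat_lit 156) (nat_lit 608) (nat_lit 0) (XT.nd (nat_lit 78) (nat_lit 380) (nat_lit 0) (XT.lf (nat_lit 76) (nat_lit 693435492) (nat_lit 0) (nat_lit 23386004918) (nat_lit 380) (nat_lit 2553037149) (nat_lit 267) (nat_lit 1) (nat_lit 266)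 (nat_lit 1) (nat_lit 271) (nat_lit 1) (nat_lit 292) (nat_lit 370) (nat_lit 358)) (XT.lf (nat_lit 76) (nat_lit 17904684281) (nat_lit 0) (nat_lit 2969683467) (nat_lit 380) (nat_lit 4897547372) (nat_lit 262) (nat_lit 1) (nat_lit 261) (nat_lit 1) (nat_lit 266) (nat_lit 1) (nat_lit 293) (nat_lit 370) (nat_lit 357))) (XT.nd (nat_lit 78) (nat_lit 304) (nat_lit 0) (XT.lf (nat_lit 76) (nat_lit 8958167262) (nat_lit 0) (nat_lit 9096667626) (nat_lit 380) (nat_lit 6894541829) (nat_lit 258) (nat_lit 1) (nat_lit 257) (nat_lit 1) (nat_lit 262) (nat_lit 1) (nat_lit 294) (nat_lit 370) (nat_lit 356)) (XT.lf (nat_lit 76) (nat_lit 442155271) (nat_lit 0) (nat_lit 15209487020) (nat_lit 380) (nat_lit 8514140497) (nat_lit 254) (nat_lit 1) (nat_lit 253) (nat_lit 1) (nat_lit 258) (nat_lit 1) (nat_lit 295) (nat_lit 370) (nat_lit 355))))))) (XT.nd (nat_lit 1014) (nat_lit 1976) (nat_lit 0) (XT.nd (nat_lit 468) (nat_lit 1368)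 (nat_lit 0) (XT.nd (nat_lit 234) (nat_lit 760) (nat_lit 0) (XT.nd (nat_lit 78) (nat_lit 608) (nat_lit 0) (XT.lf (nat_lit 304) (nat_lit 1996748287) (nat_lit 0) (nat_lit 13503052883) (nat_lit 228) (nat_lit 7913099323) (nat_lit 254) (nat_lit 1) (nat_lit 250) (nat_lit 1) (nat_lit 253) (nat_lit 1) (nat_lit 296) (nat_lit 370) (nat_lit 354)) (XT.nd (nat_lit 78) (nat_lit 228) (nat_lit 0) (XT.lf (nat_lit 76) (nat_lit 6899302177) (nat_lit 0) (nat_lit 4728824582) (nat_lit 380) (nat_lit 11062994372) (nat_lit 246) (nat_lit 1) (nat_lit 245) (nat_lit 1) (nat_lit 250) (nat_lit 1) (nat_lit 297) (nat_lit 370) (nat_lit 353)) (XT.lf (nat_lit 304) (nat_lit 10681779267) (nat_lit 0) (nat_lit 10034151034) (nat_lit 228) (nat_lit 1284359423) (nat_lit 246) (nat_lit 1) (nat_lit 242) (nat_lit 1) (nat_lit 245) (nat_lit 1) (nat_lit 298) (nat_lit 370) (nat_lit 352)))) (XT.nd (nat_lit 78) (nat_lit 532) (nat_lit 0) (XT.lf (nat_lit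 304) (nat_lit 3423458651) (nat_lit 0) (nat_lit 8638993146) (nat_lit 228) (nat_lit 9273555366) (nat_lit 243) (nat_lit 1) (nat_lit 239) (nat_lit 1) (nat_lit 242) (nat_lit 1) (nat_lit 299) (nat_lit 370) (nat_lit 351)) (XT.nd (nat_lit 78) (nat_lit 228) (nat_lit 0) (XT.lf (nat_lit 76) (nat_lit 3901915644) (nat_lit 0) (nat_lit 3572542856) (nat_lit 304) (nat_lit 13224855006) (nat_lit 236) (nat_lit 1) (nat_lit 235) (nat_lit 1) (nat_lit 239) (nat_lit 1) (nat_lit 300) (nat_lit 370) (nat_lit 350)) (XT.lf (nat_lit 304) (nat_lit 9709404955) (nat_lit 0) (nat_lit 6460278254) (nat_lit 228) (nat_lit 3916241918) (nat_lit 236) (nat_lit 1) (nat_lit 232) (nat_lit 1) (nat_lit 235) (nat_lit 1) (nat_lit 301) (nat_lit 370) (nat_lit 349))))) (XT.nd (nat_lit 234) (nat_lit 760) (nat_lit 0) (XT.nd (nat_lit 78) (nat_lit 456) (nat_lit 0) (XT.lf (nat_lit 228) (nat_lit 2406975825) (nat_lit 0) (nat_lit 5636121563) (nat_lit 152)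 (nat_lit 11454185160) (nat_lit 233) (nat_lit 1) (nat_lit 230) (nat_lit 1) (nat_lit 232) (nat_lit 1) (nat_lit 302) (nat_lit 370) (nat_lit 348)) (XT.nd (nat_lit 78) (nat_lit 152) (nat_lit 0) (XT.lf (nat_lit 76) (nat_lit 407757082) (nat_lit 0) (nat_lit 4562890271) (nat_lit 304) (nat_lit 13960809952) (nat_lit 227) (nat_lit 1) (nat_lit 226) (nat_lit 1) (nat_lit 230) (nat_lit 1) (nat_lit 303) (nat_lit 370) (nat_lit 347)) (XT.lf (nat_lit 228) (nat_lit 6994230098) (nat_lit 0) (nat_lit 4370793777) (nat_lit 152) (nat_lit 7018570089) (nat_lit 227) (nat_lit 1) (nat_lit 224) (nat_lit 1) (nat_lit 226) (nat_lit 1) (nat_lit 304) (nat_lit 370) (nat_lit 346)))) (XT.nd (nat_lit 156) (nat_lit 380) (nat_lit 0) (XT.nd (nat_lit 78) (nat_lit 152) (nat_lit 0) (XT.lf (nat_lit 76) (nat_lit 3794776960) (nat_lit 0) (nat_lit 175283126) (nat_lit 228) (nat_lit 13889577407) (nat_lit 222) (nat_lit 1) (nat_lit 221) (nat_lit 1)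 (nat_lit 224) (nat_lit 1) (nat_lit 305) (nat_lit 370) (nat_lit 345)) (XT.lf (nat_lit 228) (nat_lit 10374187422) (nat_lit 0) (nat_lit 3594888550) (nat_lit 152) (nat_lit 3381846571) (nat_lit 222) (nat_lit 1) (nat_lit 219) (nat_lit 1) (nat_lit 221) (nat_lit 1) (nat_lit 306) (nat_lit 370) (nat_lit 344))) (XT.nd (nat_lit 78) (nat_lit 228) (nat_lit 0) (XT.lf (nat_lit 228) (nat_lit 3222638336) (nat_lit 0) (nat_lit 3341846436) (nat_lit 152) (nat_lit 10297173220) (nat_lit 220) (nat_lit 1) (nat_lit 217) (nat_lit 1) (nat_lit 219) (nat_lit 1) (nat_lit 307) (nat_lit 370) (nat_lit 343)) (XT.lf (nat_lit 228) (nat_lit 12792689841) (nat_lit 0) (nat_lit 3192863029) (nat_lit 152) (nat_lit 405051717) (nat_lit 217) (nat_lit 1) (nat_lit 214) (nat_lit 1) (nat_lit 216) (nat_lit 1) (nat_lit 308) (nat_lit 370) (nat_lit 342)))))) (XT.nd (nat_lit 546) (nat_lit 912) (nat_lit 0) (XT.nd (nat_lit 234) (nat_lit 608) (nat_lit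 0) (XT.nd (nat_lit 78) (nat_lit 304) (nat_lit 0) (XT.lf (nat_lit 228) (nat_lit 5725415081) (nat_lit 0) (nat_lit 3048107729) (nat_lit 152) (nat_lit 7159117459) (nat_lit 215) (nat_lit 1) (nat_lit 212) (nat_lit 1) (nat_lit 214) (nat_lit 1) (nat_lit 309) (nat_lit 370) (nat_lit 341)) (XT.nd (nat_lit 78) (nat_lit 152) (nat_lit 0) (XT.lf (nat_lit 76) (nat_lit 1961175717) (nat_lit 0) (nat_lit 1077950547) (nat_lit 152) (nat_lit 12454544864) (nat_lit 211) (nat_lit 1) (nat_lit 210) (nat_lit 1) (nat_lit 212) (nat_lit 1) (nat_lit 310) (nat_lit 370) (nat_lit 340)) (XT.lf (nat_lit 228) (nat_lit 7512073860) (nat_lit 0) (nat_lit 3006945301) (nat_lit 152) (nat_lit 4546759796) (nat_lit 211) (nat_lit 1) (nat_lit 208) (nat_lit 1) (nat_lit 210) (nat_lit 1) (nat_lit 311) (nat_lit 370) (nat_lit 339)))) (XT.nd (nat_lit 156) (nat_lit 304) (nat_lit 0) (XT.nd (nat_lit 78) (nat_lit 228) (nat_lit 0) (XT.lf (nat_lit 152) (nat_lit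 808943609) (nat_lit 0) (nat_lit 3080799763) (nat_lit 76) (nat_lit 10765036044) (nat_lit 209) (nat_lit 1) (nat_lit 207) (nat_lit 1) (nat_lit 208) (nat_lit 1) (nat_lit 312) (nat_lit 370) (nat_lit 338)) (XT.lf (nat_lit 228) (nat_lit 8732247606) (nat_lit 0) (nat_lit 3150836036) (nat_lit 152) (nat_lit 2372028761) (nat_lit 207) (nat_lit 1) (nat_lit 204) (nat_lit 1) (nat_lit 206) (nat_lit 1) (nat_lit 313) (nat_lit 370) (nat_lit 337))) (XT.nd (nat_lit 78) (nat_lit 228) (nat_lit 0) (XT.lf (nat_lit 152) (nat_lit 2196224664) (nat_lit 0) (nat_lit 3268648970) (nat_lit 76) (nat_lit 8404041336) (nat_lit 205) (nat_lit 1) (nat_lit 203) (nat_lit 1) (nat_lit 204) (nat_lit 1) (nat_lit 314) (nat_lit 370) (nat_lit 336)) (XT.lf (nat_lit 228) (nat_lit 9506916460) (nat_lit 0) (nat_lit 3426296877) (nat_lit 152) (nat_lit 562284648) (nat_lit 203) (nat_lit 1) (nat_lit 200) (nat_lit 1) (nat_lit 202) (nat_lit 1) (nat_lit 315)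 (nat_lit 370) (nat_lit 335))))) (XT.nd (nat_lit 234) (nat_lit 532) (nat_lit 0) (XT.nd (nat_lit 78) (nat_lit 304) (nat_lit 0) (XT.lf (nat_lit 152) (nat_lit 3160668596) (nat_lit 0) (nat_lit 3571955665) (nat_lit 76) (nat_lit 6399467051) (nat_lit 201) (nat_lit 1) (nat_lit 199) (nat_lit 1) (nat_lit 200) (nat_lit 1) (nat_lit 316) (nat_lit 370) (nat_lit 334)) (XT.nd (nat_lit 78) (nat_lit 76) (nat_lit 0) (XT.lf (nat_lit 76) (nat_lit 912294739) (nat_lit 0) (nat_lit 2863450006) (nat_lit 228) (nat_lit 9005995304) (nat_lit 197) (nat_lit 1) (nat_lit 196) (nat_lit 1) (nat_lit 199) (nat_lit 1) (nat_lit 317) (nat_lit 370) (nat_lit 333)) (XT.lf (nat_lit 152) (nat_lit 3793087480) (nat_lit 0) (nat_lit 3952217365) (nat_lit 76) (nat_lit 4694784699) (nat_lit 197) (nat_lit 1) (nat_lit 195) (nat_lit 1) (nat_lit 196) (nat_lit 1) (nat_lit 318) (nat_lit 370) (nat_lit 332)))) (XT.nd (nat_lit 156) (nat_lit 228) (nat_lit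 0) (XT.nd (nat_lit 78) (nat_lit 76) (nat_lit 0) (XT.lf (nat_lit 76) (nat_lit 2121657871) (nat_lit 0) (nat_lit 2054969115) (nat_lit 228) (nat_lit 7933818488) (nat_lit 193) (nat_lit 1) (nat_lit 192) (nat_lit 1) (nat_lit 195) (nat_lit 1) (nat_lit 319) (nat_lit 370) (nat_lit 331)) (XT.lf (nat_lit 152) (nat_lit 4166715107) (nat_lit 0) (nat_lit 4379378536) (nat_lit 76) (nat_lit 3243130042) (nat_lit 193) (nat_lit 1) (nat_lit 191) (nat_lit 1) (nat_lit 192) (nat_lit 1) (nat_lit 320) (nat_lit 370) (nat_lit 330))) (XT.nd (nat_lit 78) (nat_lit 76) (nat_lit 0) (XT.lf (nat_lit 76) (nat_lit 3123570999) (nat_lit 0) (nat_lit 1488325691) (nat_lit 152) (nat_lit 6866713681) (nat_lit 190) (nat_lit 1) (nat_lit 189) (nat_lit 1) (nat_lit 191) (nat_lit 1) (nat_lit 321) (nat_lit 370) (nat_lit 329)) (XT.lf (nat_lit 152) (nat_lit 4340491614) (nat_lit 0) (nat_lit 4830184319) (nat_lit 76) (nat_lit 2005579191) (nat_lit 190)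 (nat_lit 1) (nat_lit 188) (nat_lit 1) (nat_lit 189) (nat_lit 1) (nat_lit 322) (nat_lit 370) (nat_lit 328))))))))
noncomputable def ec87 : XT := (XT.nd (nat_lit 2106) (nat_lit 3192) (nat_lit 0) (XT.nd (nat_lit 1014) (nat_lit 1672) (nat_lit 0) (XT.nd (nat_lit 468) (nat_lit 836) (nat_lit 0) (XT.nd (nat_lit 234) (nat_lit 304) (nat_lit 0) (XT.nd (nat_lit 78) (nat_lit 228) (nat_lit 0) (XT.lf (nat_lit 76) (nat_lit 3951026890) (nat_lit 0) (nat_lit 1110310372) (nat_lit 152) (nat_lit 5821862747) (nat_lit 187) (nat_lit 1) (nat_lit 186) (nat_lit 1) (nat_lit 188) (nat_lit 1) (nat_lit 323) (nat_lit 370) (nat_lit 327)) (XT.nd (nat_lit 78) (nat_lit 152) (nat_lit 0) (XT.lf (nat_lit 152) (nat_lit 4361741736) (nat_lit 0) (nat_lit 5286842591) (nat_lit 76) (nat_lit 949737810) (nat_lit 187) (nat_lit 1) (nat_lit 185) (nat_lit 1) (nat_lit 186) (nat_lit 1) (nat_lit 324) (nat_lit 370) (nat_lit 326)) (XT.lf (nat_lit 76)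 (nat_lit 4631446214) (nat_lit 0) (nat_lit 878137882) (nat_lit 152) (nat_lit 4811940120) (nat_lit 184) (nat_lit 1) (nat_lit 183) (nat_lit 1) (nat_lit 185) (nat_lit 1) (nat_lit 325) (nat_lit 370) (nat_lit 325)))) (XT.nd (nat_lit 78) (nat_lit 228) (nat_lit 0) (XT.lf (nat_lit 152) (nat_lit 4268358190) (nat_lit 0) (nat_lit 5735937389) (nat_lit 76) (nat_lit 48586170) (nat_lit 184) (nat_lit 1) (nat_lit 182) (nat_lit 1) (nat_lit 183) (nat_lit 1) (nat_lit 326) (nat_lit 370) (nat_lit 324)) (XT.nd (nat_lit 78) (nat_lit 76) (nat_lit 0) (XT.lf (nat_lit 76) (nat_lit 5187663862) (nat_lit 0) (nat_lit 757489726) (nat_lit 152) (nat_lit 3846031339) (nat_lit 181) (nat_lit 1) (nat_lit 180) (nat_lit 1) (nat_lit 182) (nat_lit 1) (nat_lit 327) (nat_lit 370) (nat_lit 323)) (XT.lf (nat_lit 0) (nat_lit 697407260) (nat_lit 0) (nat_lit 5458329024) (nat_lit 152) (nat_lit 3381362991) (nat_lit 179) (nat_lit 3) (nat_lit 179)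 (nat_lit 1) (nat_lit 181) (nat_lit 1) (nat_lit 328) (nat_lit 370) (nat_lit 322))))) (XT.nd (nat_lit 234) (nat_lit 456) (nat_lit 0) (XT.nd (nat_lit 78) (nat_lit 228) (nat_lit 0) (XT.lf (nat_lit 76) (nat_lit 5638736722) (nat_lit 0) (nat_lit 720918866) (nat_lit 152) (nat_lit 2930377215) (nat_lit 178) (nat_lit 1) (nat_lit 177) (nat_lit 1) (nat_lit 179) (nat_lit 1) (nat_lit 329) (nat_lit 370) (nat_lit 321)) (XT.nd (nat_lit 78) (nat_lit 152) (nat_lit 0) (XT.lf (nat_lit 0) (nat_lit 1332305876) (nat_lit 0) (nat_lit 5219661161) (nat_lit 152) (nat_lit 2497579230) (nat_lit 176) (nat_lit 3) (nat_lit 176) (nat_lit 1) (nat_lit 178) (nat_lit 1) (nat_lit 330) (nat_lit 370) (nat_lit 320)) (XT.lf (nat_lit 76) (nat_lit 6000605524) (nat_lit 0) (nat_lit 746549789) (nat_lit 152) (nat_lit 2068975972) (nat_lit 175) (nat_lit 1) (nat_lit 174) (nat_lit 1) (nat_lit 176) (nat_lit 1) (nat_lit 331) (nat_lit 370) (nat_lit 319))))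 (XT.nd (nat_lit 156) (nat_lit 228) (nat_lit 0) (XT.nd (nat_lit 78) (nat_lit 152) (nat_lit 0) (XT.lf (nat_lit 0) (nat_lit 1873073792) (nat_lit 0) (nat_lit 5047150547) (nat_lit 152) (nat_lit 1668180601) (nat_lit 173) (nat_lit 3) (nat_lit 173) (nat_lit 1) (nat_lit 175) (nat_lit 1) (nat_lit 332) (nat_lit 370) (nat_lit 318)) (XT.lf (nat_lit 76) (nat_lit 6286637387) (nat_lit 0) (nat_lit 817019605) (nat_lit 152) (nat_lit 1264069768) (nat_lit 172) (nat_lit 1) (nat_lit 171) (nat_lit 1) (nat_lit 173) (nat_lit 1) (nat_lit 333) (nat_lit 370) (nat_lit 317))) (XT.nd (nat_lit 78) (nat_lit 152) (nat_lit 0) (XT.lf (nat_lit 0) (nat_lit 2332702396) (nat_lit 0) (nat_lit 4924377845) (nat_lit 152) (nat_lit 894911905) (nat_lit 170) (nat_lit 3) (nat_lit 170) (nat_lit 1) (nat_lit 172) (nat_lit 1) (nat_lit 334) (nat_lit 370) (nat_lit 316)) (XT.lf (nat_lit 76) (nat_lit 6508070811) (nat_lit 0) (nat_lit 918615785) (nat_lit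 152) (nat_lit 516537130) (nat_lit 169) (nat_lit 1) (nat_lit 168) (nat_lit 1) (nat_lit 170) (nat_lit 1) (nat_lit 335) (nat_lit 370) (nat_lit 315)))))) (XT.nd (nat_lit 546) (nat_lit 836) (nat_lit 0) (XT.nd (nat_lit 234) (nat_lit 456) (nat_lit 0) (XT.nd (nat_lit 78) (nat_lit 304) (nat_lit 0) (XT.lf (nat_lit 0) (nat_lit 2722179307) (nat_lit 0) (nat_lit 4838316424) (nat_lit 152) (nat_lit 178278414) (nat_lit 167) (nat_lit 3) (nat_lit 167) (nat_lit 1) (nat_lit 169) (nat_lit 1) (nat_lit 336) (nat_lit 370) (nat_lit 314)) (XT.nd (nat_lit 78) (nat_lit 76) (nat_lit 0) (XT.lf (nat_lit 152) (nat_lit 6497646503) (nat_lit 0) (nat_lit 179537470) (nat_lit 76) (nat_lit 863839938) (nat_lit 166) (nat_lit 1) (nat_lit 164) (nat_lit 1) (nat_lit 165) (nat_lit 1) (nat_lit 337) (nat_lit 370) (nat_lit 313)) (XT.lf (nat_lit 76) (nat_lit 2560499495) (nat_lit 0) (nat_lit 498105622) (nat_lit 76) (nat_lit 4288353304) (nat_lit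 164) (nat_lit 3) (nat_lit 163) (nat_lit 1) (nat_lit 164) (nat_lit 1) (nat_lit 338) (nat_lit 370) (nat_lit 312)))) (XT.nd (nat_lit 156) (nat_lit 228) (nat_lit 0) (XT.nd (nat_lit 78) (nat_lit 76) (nat_lit 0) (XT.lf (nat_lit 152) (nat_lit 5972019144) (nat_lit 0) (nat_lit 834590426) (nat_lit 76) (nat_lit 352948629) (nat_lit 163) (nat_lit 1) (nat_lit 161) (nat_lit 1) (nat_lit 162) (nat_lit 1) (nat_lit 339) (nat_lit 370) (nat_lit 311)) (XT.lf (nat_lit 76) (nat_lit 2220599101) (nat_lit 0) (nat_lit 1123531035) (nat_lit 76) (nat_lit 3631414478) (nat_lit 161) (nat_lit 3) (nat_lit 160) (nat_lit 1) (nat_lit 161) (nat_lit 1) (nat_lit 340) (nat_lit 370) (nat_lit 310))) (XT.nd (nat_lit 78) (nat_lit 76) (nat_lit 0) (XT.lf (nat_lit 0) (nat_lit 93727797) (nat_lit 0) (nat_lit 1337833068) (nat_lit 152) (nat_lit 5366372859) (nat_lit 158) (nat_lit 3) (nat_lit 158) (nat_lit 1) (nat_lit 160) (nat_lit 1) (nat_lit 341)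 (nat_lit 370) (nat_lit 309)) (XT.lf (nat_lit 76) (nat_lit 1888845408) (nat_lit 0) (nat_lit 1693845432) (nat_lit 76) (nat_lit 3040794733) (nat_lit 158) (nat_lit 3) (nat_lit 157) (nat_lit 1) (nat_lit 158) (nat_lit 1) (nat_lit 342) (nat_lit 370) (nat_lit 308))))) (XT.nd (nat_lit 234) (nat_lit 456) (nat_lit 0) (XT.nd (nat_lit 78) (nat_lit 228) (nat_lit 0) (XT.lf (nat_lit 0) (nat_lit 476679025) (nat_lit 0) (nat_lit 1492507353) (nat_lit 152) (nat_lit 4485665495) (nat_lit 155) (nat_lit 3) (nat_lit 155) (nat_lit 1) (nat_lit 157) (nat_lit 1) (nat_lit 343) (nat_lit 370) (nat_lit 307)) (XT.nd (nat_lit 78) (nat_lit 152) (nat_lit 0) (XT.lf (nat_lit 76) (nat_lit 1568957028) (nat_lit 0) (nat_lit 2211182982) (nat_lit 76) (nat_lit 2509538814) (nat_lit 155) (nat_lit 3) (nat_lit 154) (nat_lit 1) (nat_lit 155) (nat_lit 1) (nat_lit 344) (nat_lit 370) (nat_lit 306)) (XT.lf (nat_lit 0) (nat_lit 813037551) (nat_lit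 0) (nat_lit 1642474752) (nat_lit 152) (nat_lit 3674012794) (nat_lit 152) (nat_lit 3) (nat_lit 152) (nat_lit 1) (nat_lit 154) (nat_lit 1) (nat_lit 345) (nat_lit 370) (nat_lit 305)))) (XT.nd (nat_lit 156) (nat_lit 228) (nat_lit 0) (XT.nd (nat_lit 78) (nat_lit 152) (nat_lit 0) (XT.lf (nat_lit 76) (nat_lit 1263577832) (nat_lit 0) (nat_lit 2677947629) (nat_lit 76) (nat_lit 2031575240) (nat_lit 152) (nat_lit 3) (nat_lit 151) (nat_lit 1) (nat_lit 152) (nat_lit 1) (nat_lit 346) (nat_lit 370) (nat_lit 304)) (XT.lf (nat_lit 0) (nat_lit 1107884362) (nat_lit 0) (nat_lit 1785130754) (nat_lit 152) (nat_lit 2927949689) (nat_lit 149) (nat_lit 3) (nat_lit 149) (nat_lit 1) (nat_lit 151) (nat_lit 1) (nat_lit 347) (nat_lit 370) (nat_lit 303))) (XT.nd (nat_lit 78) (nat_lit 152) (nat_lit 0) (XT.lf (nat_lit 76) (nat_lit 974500740) (nat_lit 0) (nat_lit 3096716679) (nat_lit 76) (nat_lit 1601580733) (nat_lit 149) (nat_lit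 3) (nat_lit 148) (nat_lit 1) (nat_lit 149) (nat_lit 1) (nat_lit 348) (nat_lit 370) (nat_lit 302)) (XT.lf (nat_lit 0) (nat_lit 1365661541) (nat_lit 0) (nat_lit 1918642134) (nat_lit 152) (nat_lit 2243945651) (nat_lit 146) (nat_lit 3) (nat_lit 146) (nat_lit 1) (nat_lit 148) (nat_lit 1) (nat_lit 349) (nat_lit 370) (nat_lit 301))))))) (XT.nd (nat_lit 1014) (nat_lit 1596) (nat_lit 0) (XT.nd (nat_lit 468) (nat_lit 912) (nat_lit 0) (XT.nd (nat_lit 234) (nat_lit 380) (nat_lit 0) (XT.nd (nat_lit 78) (nat_lit 228) (nat_lit 0) (XT.lf (nat_lit 76) (nat_lit 702848744) (nat_lit 0) (nat_lit 3470165152) (nat_lit 76) (nat_lit 1214867812) (nat_lit 146) (nat_lit 3) (nat_lit 145) (nat_lit 1) (nat_lit 146) (nat_lit 1) (nat_lit 350) (nat_lit 370) (nat_lit 300)) (XT.nd (nat_lit 78) (nat_lit 76) (nat_lit 0) (XT.lf (nat_lit 0) (nat_lit 1590268501) (nat_lit 0) (nat_lit 2041784433) (nat_lit 152) (nat_lit 1618464501) (nat_lit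 143) (nat_lit 3) (nat_lit 143) (nat_lit 1) (nat_lit 145) (nat_lit 1) (nat_lit 351) (nat_lit 370) (nat_lit 299)) (XT.lf (nat_lit 76) (nat_lit 449221121) (nat_lit 0) (nat_lit 3801006908) (nat_lit 76) (nat_lit 867291429) (nat_lit 143) (nat_lit 3) (nat_lit 142) (nat_lit 1) (nat_lit 143) (nat_lit 1) (nat_lit 352) (nat_lit 370) (nat_lit 298)))) (XT.nd (nat_lit 78) (nat_lit 228) (nat_lit 0) (XT.lf (nat_lit 0) (nat_lit 1785141946) (nat_lit 0) (nat_lit 2153810648) (nat_lit 152) (nat_lit 1048010176) (nat_lit 140) (nat_lit 3) (nat_lit 140) (nat_lit 1) (nat_lit 142) (nat_lit 1) (nat_lit 353) (nat_lit 370) (nat_lit 297)) (XT.nd (nat_lit 78) (nat_lit 152) (nat_lit 0) (XT.lf (nat_lit 76) (nat_lit 213811327) (nat_lit 0) (nat_lit 4091949273) (nat_lit 76) (nat_lit 555171236) (nat_lit 140) (nat_lit 3) (nat_lit 139) (nat_lit 1) (nat_lit 140) (nat_lit 1) (nat_lit 354) (nat_lit 370) (nat_lit 296)) (XT.lf (nat_lit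 0) (nat_lit 1953322460) (nat_lit 0) (nat_lit 2254345307) (nat_lit 152) (nat_lit 529161221) (nat_lit 137) (nat_lit 3) (nat_lit 137) (nat_lit 1) (nat_lit 139) (nat_lit 1) (nat_lit 355) (nat_lit 370) (nat_lit 295))))) (XT.nd (nat_lit 234) (nat_lit 456) (nat_lit 0) (XT.nd (nat_lit 78) (nat_lit 304) (nat_lit 0) (XT.lf (nat_lit 76) (nat_lit 4342214999) (nat_lit 0) (nat_lit 3386186) (nat_lit 152) (nat_lit 271783177) (nat_lit 136) (nat_lit 1) (nat_lit 135) (nat_lit 1) (nat_lit 137) (nat_lit 1) (nat_lit 356) (nat_lit 370) (nat_lit 294)) (XT.nd (nat_lit 78) (nat_lit 228) (nat_lit 0) (XT.lf (nat_lit 0) (nat_lit 2097510089) (nat_lit 0) (nat_lit 2343299206) (nat_lit 152) (nat_lit 58596259) (nat_lit 134) (nat_lit 3) (nat_lit 134) (nat_lit 1) (nat_lit 136) (nat_lit 1) (nat_lit 357) (nat_lit 370) (nat_lit 293)) (XT.lf (nat_lit 152) (nat_lit 4186508429) (nat_lit 0) (nat_lit 181164862) (nat_lit 76) (nat_lit 18224102)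 (nat_lit 133) (nat_lit 1) (nat_lit 131) (nat_lit 1) (nat_lit 132) (nat_lit 1) (nat_lit 358) (nat_lit 370) (nat_lit 292)))) (XT.nd (nat_lit 156) (nat_lit 228) (nat_lit 0) (XT.nd (nat_lit 78) (nat_lit 152) (nat_lit 0) (XT.lf (nat_lit 76) (nat_lit 1847009697) (nat_lit 0) (nat_lit 379018715) (nat_lit 76) (nat_lit 2047699746) (nat_lit 131) (nat_lit 3) (nat_lit 130) (nat_lit 1) (nat_lit 131) (nat_lit 1) (nat_lit 359) (nat_lit 370) (nat_lit 291)) (XT.lf (nat_lit 0) (nat_lit 208794561) (nat_lit 0) (nat_lit 385769913) (nat_lit 152) (nat_lit 3571214444) (nat_lit 128) (nat_lit 3) (nat_lit 128) (nat_lit 1) (nat_lit 130) (nat_lit 1) (nat_lit 360) (nat_lit 370) (nat_lit 290))) (XT.nd (nat_lit 78) (nat_lit 152) (nat_lit 0) (XT.lf (nat_lit 76) (nat_lit 1560205149) (nat_lit 0) (nat_lit 775173356) (nat_lit 76) (nat_lit 1724071216) (nat_lit 128) (nat_lit 3) (nat_lit 127) (nat_lit 1) (nat_lit 128) (nat_lit 1) (nat_lit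 361) (nat_lit 370) (nat_lit 289)) (XT.lf (nat_lit 0) (nat_lit 410845633) (nat_lit 0) (nat_lit 555348337) (nat_lit 152) (nat_lit 2990614841) (nat_lit 125) (nat_lit 3) (nat_lit 125) (nat_lit 1) (nat_lit 127) (nat_lit 1) (nat_lit 362) (nat_lit 370) (nat_lit 288)))))) (XT.nd (nat_lit 546) (nat_lit 836) (nat_lit 0) (XT.nd (nat_lit 234) (nat_lit 456) (nat_lit 0) (XT.nd (nat_lit 78) (nat_lit 228) (nat_lit 0) (XT.lf (nat_lit 76) (nat_lit 1295631123) (nat_lit 0) (nat_lit 1130960467) (nat_lit 76) (nat_lit 1429429923) (nat_lit 125) (nat_lit 3) (nat_lit 124) (nat_lit 1) (nat_lit 125) (nat_lit 1) (nat_lit 363) (nat_lit 370) (nat_lit 287)) (XT.nd (nat_lit 78) (nat_lit 76) (nat_lit 0) (XT.lf (nat_lit 0) (nat_lit 590646720) (nat_lit 0) (nat_lit 708635080) (nat_lit 152) (nat_lit 2459139284) (nat_lit 122) (nat_lit 3) (nat_lit 122) (nat_lit 1) (nat_lit 124) (nat_lit 1) (nat_lit 364) (nat_lit 370) (nat_lit 286))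 (XT.lf (nat_lit 76) (nat_lit 1052185171) (nat_lit 0) (nat_lit 1449262228) (nat_lit 76) (nat_lit 1161433652) (nat_lit 122) (nat_lit 3) (nat_lit 121) (nat_lit 1) (nat_lit 122) (nat_lit 1) (nat_lit 365) (nat_lit 370) (nat_lit 285)))) (XT.nd (nat_lit 156) (nat_lit 228) (nat_lit 0) (XT.nd (nat_lit 78) (nat_lit 76) (nat_lit 0) (XT.lf (nat_lit 0) (nat_lit 750135362) (nat_lit 0) (nat_lit 846474411) (nat_lit 152) (nat_lit 1973458145) (nat_lit 119) (nat_lit 3) (nat_lit 119) (nat_lit 1) (nat_lit 121) (nat_lit 1) (nat_lit 366) (nat_lit 370) (nat_lit 284)) (XT.lf (nat_lit 76) (nat_lit 828741615) (nat_lit 0) (nat_lit 1732811003) (nat_lit 76) (nat_lit 917944438) (nat_lit 119) (nat_lit 3) (nat_lit 118) (nat_lit 1) (nat_lit 119) (nat_lit 1) (nat_lit 367) (nat_lit 370) (nat_lit 283))) (XT.nd (nat_lit 78) (nat_lit 76) (nat_lit 0) (XT.lf (nat_lit 0) (nat_lit 891074571) (nat_lit 0) (nat_lit 969736672) (nat_lit 152)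 (nat_lit 1530420444) (nat_lit 116) (nat_lit 3) (nat_lit 116) (nat_lit 1) (nat_lit 118) (nat_lit 1) (nat_lit 368) (nat_lit 370) (nat_lit 282)) (XT.lf (nat_lit 76) (nat_lit 624171133) (nat_lit 0) (nat_lit 1984189822) (nat_lit 76) (nat_lit 697006412) (nat_lit 116) (nat_lit 3) (nat_lit 115) (nat_lit 1) (nat_lit 116) (nat_lit 1) (nat_lit 369) (nat_lit 370) (nat_lit 281))))) (XT.nd (nat_lit 234) (nat_lit 456) (nat_lit 0) (XT.nd (nat_lit 78) (nat_lit 228) (nat_lit 0) (XT.lf (nat_lit 0) (nat_lit 1015071918) (nat_lit 0) (nat_lit 1079300559) (nat_lit 152) (nat_lit 1127050514) (nat_lit 113) (nat_lit 3) (nat_lit 113) (nat_lit 1) (nat_lit 115) (nat_lit 1) (nat_lit 370) (nat_lit 370) (nat_lit 280)) (XT.nd (nat_lit 78) (nat_lit 152) (nat_lit 0) (XT.lf (nat_lit 76) (nat_lit 437355780) (nat_lit 0) (nat_lit 2205834546) (nat_lit 76) (nat_lit 496826744) (nat_lit 113) (nat_lit 3) (nat_lit 112) (nat_lit 1) (nat_lit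 113) (nat_lit 1) (nat_lit 371) (nat_lit 370) (nat_lit 279)) (XT.lf (nat_lit 0) (nat_lit 1123595971) (nat_lit 0) (nat_lit 1176039502) (nat_lit 152) (nat_lit 760543381) (nat_lit 110) (nat_lit 3) (nat_lit 110) (nat_lit 1) (nat_lit 112) (nat_lit 1) (nat_lit 372) (nat_lit 370) (nat_lit 278)))) (XT.nd (nat_lit 156) (nat_lit 228) (nat_lit 0) (XT.nd (nat_lit 78) (nat_lit 152) (nat_lit 0) (XT.lf (nat_lit 76) (nat_lit 267200321) (nat_lit 0) (nat_lit 2400037306) (nat_lit 76) (nat_lit 315759146) (nat_lit 110) (nat_lit 3) (nat_lit 109) (nat_lit 1) (nat_lit 110) (nat_lit 1) (nat_lit 373) (nat_lit 370) (nat_lit 277)) (XT.lf (nat_lit 0) (nat_lit 1217990516) (nat_lit 0) (nat_lit 1260811349) (nat_lit 152) (nat_lit 428259231) (nat_lit 107) (nat_lit 3) (nat_lit 107) (nat_lit 1) (nat_lit 109) (nat_lit 1) (nat_lit 374) (nat_lit 370) (nat_lit 276))) (XT.nd (nat_lit 78) (nat_lit 152) (nat_lit 0) (XT.lf (nat_lit 76)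 (nat_lit 112640630) (nat_lit 0) (nat_lit 2568950868) (nat_lit 76) (nat_lit 152289550) (nat_lit 107) (nat_lit 3) (nat_lit 106) (nat_lit 1) (nat_lit 107) (nat_lit 1) (nat_lit 375) (nat_lit 370) (nat_lit 275)) (XT.lf (nat_lit 0) (nat_lit 1299486910) (nat_lit 0) (nat_lit 1334450684) (nat_lit 152) (nat_lit 127717225) (nat_lit 104) (nat_lit 3) (nat_lit 104) (nat_lit 1) (nat_lit 106) (nat_lit 1) (nat_lit 376) (nat_lit 370) (nat_lit 274))))))))
noncomputable def ec88 : XT := (XT.nd (nat_lit 2028) (nat_lit 1900) (nat_lit 0) (XT.nd (nat_lit 1014) (nat_lit 1596) (nat_lit 0) (XT.nd (nat_lit 468) (nat_lit 836) (nat_lit 0) (XT.nd (nat_lit 234) (nat_lit 304) (nat_lit 0) (XT.nd (nat_lit 78) (nat_lit 228) (nat_lit 0) (XT.lf (nat_lit 152) (nat_lit 2665399877) (nat_lit 0) (nat_lit 22623753) (nat_lit 76) (nat_lit 4204352) (nat_lit 103) (nat_lit 1) (nat_lit 101) (nat_lit 1) (nat_lit 102) (nat_lit 1) (nat_lit 377)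 (nat_lit 370) (nat_lit 273)) (XT.nd (nat_lit 78) (nat_lit 152) (nat_lit 0) (XT.lf (nat_lit 76) (nat_lit 1223375034) (nat_lit 0) (nat_lit 148152926) (nat_lit 76) (nat_lit 1251923416) (nat_lit 101) (nat_lit 3) (nat_lit 100) (nat_lit 1) (nat_lit 101) (nat_lit 1) (nat_lit 378) (nat_lit 370) (nat_lit 272)) (XT.lf (nat_lit 0) (nat_lit 130257655) (nat_lit 0) (nat_lit 155432595) (nat_lit 152) (nat_lit 2271632844) (nat_lit 98) (nat_lit 3) (nat_lit 98) (nat_lit 1) (nat_lit 100) (nat_lit 1) (nat_lit 379) (nat_lit 370) (nat_lit 271)))) (XT.nd (nat_lit 78) (nat_lit 228) (nat_lit 0) (XT.lf (nat_lit 76) (nat_lit 1034343999) (nat_lit 0) (nat_lit 400114904) (nat_lit 76) (nat_lit 1057654128) (nat_lit 98) (nat_lit 3) (nat_lit 97) (nat_lit 1) (nat_lit 98) (nat_lit 1) (nat_lit 380) (nat_lit 370) (nat_lit 270)) (XT.nd (nat_lit 78) (nat_lit 76) (nat_lit 0) (XT.lf (nat_lit 0) (nat_lit 250663411) (nat_lit 0) (nat_lit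 271219081) (nat_lit 152) (nat_lit 1907332886) (nat_lit 95) (nat_lit 3) (nat_lit 95) (nat_lit 1) (nat_lit 97) (nat_lit 1) (nat_lit 381) (nat_lit 370) (nat_lit 269)) (XT.lf (nat_lit 76) (nat_lit 861148691) (nat_lit 0) (nat_lit 626057813) (nat_lit 76) (nat_lit 880181719) (nat_lit 95) (nat_lit 3) (nat_lit 94) (nat_lit 1) (nat_lit 95) (nat_lit 1) (nat_lit 382) (nat_lit 370) (nat_lit 268))))) (XT.nd (nat_lit 234) (nat_lit 456) (nat_lit 0) (XT.nd (nat_lit 78) (nat_lit 228) (nat_lit 0) (XT.lf (nat_lit 0) (nat_lit 358255111) (nat_lit 0) (nat_lit 375039085) (nat_lit 152) (nat_lit 1574267857) (nat_lit 92) (nat_lit 3) (nat_lit 92) (nat_lit 1) (nat_lit 94) (nat_lit 1) (nat_lit 383) (nat_lit 370) (nat_lit 267)) (XT.nd (nat_lit 78) (nat_lit 152) (nat_lit 0) (XT.lf (nat_lit 76) (nat_lit 702721197) (nat_lit 0) (nat_lit 827957750) (nat_lit 76) (nat_lit 718261914) (nat_lit 92) (nat_lit 3) (nat_lit 91) (nat_lit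 1) (nat_lit 92) (nat_lit 1) (nat_lit 384) (nat_lit 370) (nat_lit 266)) (XT.lf (nat_lit 0) (nat_lit 454057325) (nat_lit 0) (nat_lit 467761661) (nat_lit 152) (nat_lit 1270216060) (nat_lit 89) (nat_lit 3) (nat_lit 89) (nat_lit 1) (nat_lit 91) (nat_lit 1) (nat_lit 385) (nat_lit 370) (nat_lit 265)))) (XT.nd (nat_lit 156) (nat_lit 228) (nat_lit 0) (XT.nd (nat_lit 78) (nat_lit 152) (nat_lit 0) (XT.lf (nat_lit 76) (nat_lit 558050530) (nat_lit 0) (nat_lit 1007662024) (nat_lit 76) (nat_lit 570739731) (nat_lit 89) (nat_lit 3) (nat_lit 88) (nat_lit 1) (nat_lit 89) (nat_lit 1) (nat_lit 386) (nat_lit 370) (nat_lit 264)) (XT.lf (nat_lit 0) (nat_lit 539018276) (nat_lit 0) (nat_lit 550208047) (nat_lit 152) (nat_lit 993096965) (nat_lit 86) (nat_lit 3) (nat_lit 86) (nat_lit 1) (nat_lit 88) (nat_lit 1) (nat_lit 387) (nat_lit 370) (nat_lit 263))) (XT.nd (nat_lit 78) (nat_lit 152) (nat_lit 0) (XT.lf (nat_lit 76) (nat_lit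 426181635) (nat_lit 0) (nat_lit 1166896144) (nat_lit 76) (nat_lit 436542534) (nat_lit 86) (nat_lit 3) (nat_lit 85) (nat_lit 1) (nat_lit 86) (nat_lit 1) (nat_lit 388) (nat_lit 370) (nat_lit 262)) (XT.lf (nat_lit 0) (nat_lit 614015874) (nat_lit 0) (nat_lit 623152469) (nat_lit 152) (nat_lit 740963437) (nat_lit 83) (nat_lit 3) (nat_lit 83) (nat_lit 1) (nat_lit 85) (nat_lit 1) (nat_lit 389) (nat_lit 370) (nat_lit 261)))))) (XT.nd (nat_lit 468) (nat_lit 912) (nat_lit 0) (XT.nd (nat_lit 234) (nat_lit 380) (nat_lit 0) (XT.nd (nat_lit 78) (nat_lit 228) (nat_lit 0) (XT.lf (nat_lit 76) (nat_lit 306213956) (nat_lit 0) (nat_lit 1307270622) (nat_lit 76) (nat_lit 314673767) (nat_lit 83) (nat_lit 3) (nat_lit 82) (nat_lit 1) (nat_lit 83) (nat_lit 1) (nat_lit 390) (nat_lit 370) (nat_lit 260)) (XT.nd (nat_lit 78) (nat_lit 76) (nat_lit 0) (XT.lf (nat_lit 0) (nat_lit 679863169) (nat_lit 0) (nat_lit 687323320) (nat_lit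 152) (nat_lit 511994232) (nat_lit 80) (nat_lit 3) (nat_lit 80) (nat_lit 1) (nat_lit 82) (nat_lit 1) (nat_lit 391) (nat_lit 370) (nat_lit 259)) (XT.lf (nat_lit 76) (nat_lit 197299711) (nat_lit 0) (nat_lit 1430287547) (nat_lit 76) (nat_lit 204207258) (nat_lit 80) (nat_lit 3) (nat_lit 79) (nat_lit 1) (nat_lit 80) (nat_lit 1) (nat_lit 392) (nat_lit 370) (nat_lit 258)))) (XT.nd (nat_lit 78) (nat_lit 228) (nat_lit 0) (XT.lf (nat_lit 0) (nat_lit 737313301) (nat_lit 0) (nat_lit 743404612) (nat_lit 152) (nat_lit 304486783) (nat_lit 77) (nat_lit 3) (nat_lit 77) (nat_lit 1) (nat_lit 79) (nat_lit 1) (nat_lit 393) (nat_lit 370) (nat_lit 257)) (XT.nd (nat_lit 78) (nat_lit 152) (nat_lit 0) (XT.lf (nat_lit 76) (nat_lit 98641947) (nat_lit 0) (nat_lit 1537346922) (nat_lit 76) (nat_lit 104282049) (nat_lit 77) (nat_lit 3) (nat_lit 76) (nat_lit 1) (nat_lit 77) (nat_lit 1) (nat_lit 394) (nat_lit 370) (nat_lit 256))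 (XT.lf (nat_lit 0) (nat_lit 787063997) (nat_lit 0) (nat_lit 792037633) (nat_lit 152) (nat_lit 116850277) (nat_lit 74) (nat_lit 3) (nat_lit 74) (nat_lit 1) (nat_lit 76) (nat_lit 1) (nat_lit 395) (nat_lit 370) (nat_lit 255))))) (XT.nd (nat_lit 234) (nat_lit 456) (nat_lit 0) (XT.nd (nat_lit 78) (nat_lit 380) (nat_lit 0) (XT.lf (nat_lit 76) (nat_lit 9492448) (nat_lit 0) (nat_lit 1629752732) (nat_lit 76) (nat_lit 14097666) (nat_lit 74) (nat_lit 3) (nat_lit 73) (nat_lit 1) (nat_lit 74) (nat_lit 1) (nat_lit 396) (nat_lit 370) (nat_lit 254)) (XT.nd (nat_lit 78) (nat_lit 152) (nat_lit 0) (XT.lf (nat_lit 76) (nat_lit 776473296) (nat_lit 0) (nat_lit 54133556) (nat_lit 76) (nat_lit 780534335) (nat_lit 71) (nat_lit 3) (nat_lit 70) (nat_lit 1) (nat_lit 71) (nat_lit 1) (nat_lit 397) (nat_lit 370) (nat_lit 253)) (XT.lf (nat_lit 0) (nat_lit 68310395) (nat_lit 0) (nat_lit 71891558) (nat_lit 152) (nat_lit 1430355412)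 (nat_lit 68) (nat_lit 3) (nat_lit 68) (nat_lit 1) (nat_lit 70) (nat_lit 1) (nat_lit 398) (nat_lit 370) (nat_lit 252)))) (XT.nd (nat_lit 156) (nat_lit 228) (nat_lit 0) (XT.nd (nat_lit 78) (nat_lit 152) (nat_lit 0) (XT.lf (nat_lit 76) (nat_lit 657885616) (nat_lit 0) (nat_lit 211420457) (nat_lit 76) (nat_lit 661201508) (nat_lit 68) (nat_lit 3) (nat_lit 67) (nat_lit 1) (nat_lit 68) (nat_lit 1) (nat_lit 399) (nat_lit 370) (nat_lit 251)) (XT.lf (nat_lit 0) (nat_lit 142366616) (nat_lit 0) (nat_lit 145290683) (nat_lit 152) (nat_lit 1204246165) (nat_lit 65) (nat_lit 3) (nat_lit 65) (nat_lit 1) (nat_lit 67) (nat_lit 1) (nat_lit 400) (nat_lit 370) (nat_lit 250))) (XT.nd (nat_lit 78) (nat_lit 152) (nat_lit 0) (XT.lf (nat_lit 76) (nat_lit 549369078) (nat_lit 0) (nat_lit 352483540) (nat_lit 76) (nat_lit 552076547) (nat_lit 65) (nat_lit 3) (nat_lit 64) (nat_lit 1) (nat_lit 65) (nat_lit 1) (nat_lit 401) (nat_lit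 370) (nat_lit 249)) (XT.lf (nat_lit 0) (nat_lit 208640521) (nat_lit 0) (nat_lit 211028060) (nat_lit 152) (nat_lit 997539197) (nat_lit 62) (nat_lit 3) (nat_lit 62) (nat_lit 1) (nat_lit 64) (nat_lit 1) (nat_lit 402) (nat_lit 370) (nat_lit 248))))))) (XT.nd (nat_lit 1014) (nat_lit 456) (nat_lit 0) (XT.nd (nat_lit 468) (nat_lit 760) (nat_lit 0) (XT.nd (nat_lit 234) (nat_lit 380) (nat_lit 0) (XT.nd (nat_lit 78) (nat_lit 228) (nat_lit 0) (XT.lf (nat_lit 76) (nat_lit 450210349) (nat_lit 0) (nat_lit 478569435) (nat_lit 76) (nat_lit 452421033) (nat_lit 62) (nat_lit 3) (nat_lit 61) (nat_lit 1) (nat_lit 62) (nat_lit 1) (nat_lit 403) (nat_lit 370) (nat_lit 247)) (XT.nd (nat_lit 78) (nat_lit 76) (nat_lit 0) (XT.lf (nat_lit 0) (nat_lit 267739615) (nat_lit 0) (nat_lit 269689072) (nat_lit 152) (nat_lit 808841290) (nat_lit 59) (nat_lit 3) (nat_lit 59) (nat_lit 1) (nat_lit 61) (nat_lit 1) (nat_lit 404) (nat_lit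 370) (nat_lit 246)) (XT.lf (nat_lit 76) (nat_lit 359741290) (nat_lit 0) (nat_lit 590840247) (nat_lit 76) (nat_lit 361546343) (nat_lit 59) (nat_lit 3) (nat_lit 58) (nat_lit 1) (nat_lit 59) (nat_lit 1) (nat_lit 405) (nat_lit 370) (nat_lit 245)))) (XT.nd (nat_lit 78) (nat_lit 228) (nat_lit 0) (XT.lf (nat_lit 0) (nat_lit 320228802) (nat_lit 0) (nat_lit 321820559) (nat_lit 152) (nat_lit 636850586) (nat_lit 56) (nat_lit 3) (nat_lit 56) (nat_lit 1) (nat_lit 58) (nat_lit 1) (nat_lit 406) (nat_lit 370) (nat_lit 244)) (XT.nd (nat_lit 78) (nat_lit 152) (nat_lit 0) (XT.lf (nat_lit 76) (nat_lit 277336481) (nat_lit 0) (nat_lit 690378812) (nat_lit 76) (nat_lit 278810330) (nat_lit 56) (nat_lit 3) (nat_lit 55) (nat_lit 1) (nat_lit 56) (nat_lit 1) (nat_lit 407) (nat_lit 370) (nat_lit 243)) (XT.lf (nat_lit 0) (nat_lit 366633294) (nat_lit 0) (nat_lit 367932985) (nat_lit 152) (nat_lit 480350996) (nat_lit 53) (nat_lit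 3) (nat_lit 53) (nat_lit 1) (nat_lit 55) (nat_lit 1) (nat_lit 408) (nat_lit 370) (nat_lit 242))))) (XT.nd (nat_lit 234) (nat_lit 456) (nat_lit 0) (XT.nd (nat_lit 78) (nat_lit 228) (nat_lit 0) (XT.lf (nat_lit 76) (nat_lit 202410819) (nat_lit 0) (nat_lit 778193661) (nat_lit 76) (nat_lit 203614236) (nat_lit 53) (nat_lit 3) (nat_lit 52) (nat_lit 1) (nat_lit 53) (nat_lit 1) (nat_lit 409) (nat_lit 370) (nat_lit 241)) (XT.nd (nat_lit 78) (nat_lit 76) (nat_lit 0) (XT.lf (nat_lit 0) (nat_lit 407441302) (nat_lit 0) (nat_lit 408502516) (nat_lit 152) (nat_lit 338206917) (nat_lit 50) (nat_lit 3) (nat_lit 50) (nat_lit 1) (nat_lit 52) (nat_lit 1) (nat_lit 410) (nat_lit 370) (nat_lit 240)) (XT.lf (nat_lit 76) (nat_lit 134417222) (nat_lit 0) (nat_lit 855223703) (nat_lit 76) (nat_lit 135399829) (nat_lit 50) (nat_lit 3) (nat_lit 49) (nat_lit 1) (nat_lit 50) (nat_lit 1) (nat_lit 411) (nat_lit 370) (nat_lit 239))))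 (XT.nd (nat_lit 156) (nat_lit 228) (nat_lit 0) (XT.nd (nat_lit 78) (nat_lit 76) (nat_lit 0) (XT.lf (nat_lit 0) (nat_lit 443106537) (nat_lit 0) (nat_lit 443973033) (nat_lit 152) (nat_lit 209358247) (nat_lit 47) (nat_lit 3) (nat_lit 47) (nat_lit 1) (nat_lit 49) (nat_lit 1) (nat_lit 412) (nat_lit 370) (nat_lit 238)) (XT.lf (nat_lit 76) (nat_lit 72844417) (nat_lit 0) (nat_lit 922342646) (nat_lit 76) (nat_lit 73646728) (nat_lit 47) (nat_lit 3) (nat_lit 46) (nat_lit 1) (nat_lit 47) (nat_lit 1) (nat_lit 413) (nat_lit 370) (nat_lit 237))) (XT.nd (nat_lit 78) (nat_lit 76) (nat_lit 0) (XT.lf (nat_lit 0) (nat_lit 474050544) (nat_lit 0) (nat_lit 474758050) (nat_lit 152) (nat_lit 92815682) (nat_lit 44) (nat_lit 3) (nat_lit 44) (nat_lit 1) (nat_lit 46) (nat_lit 1) (nat_lit 414) (nat_lit 370) (nat_lit 236)) (XT.lf (nat_lit 76) (nat_lit 17214826) (nat_lit 0) (nat_lit 980363154) (nat_lit 76) (nat_lit 17869924)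 (nat_lit 44) (nat_lit 3) (nat_lit 43) (nat_lit 1) (nat_lit 44) (nat_lit 1) (nat_lit 415) (nat_lit 370) (nat_lit 235)))))) (XT.nd (nat_lit 42666) (nat_lit 0) (nat_lit 17708) (XT.nd (nat_lit 42354) (nat_lit 0) (nat_lit 19380) (XT.nd (nat_lit 78) (nat_lit 228) (nat_lit 0) (XT.lf (nat_lit 76) (nat_lit 488112112) (nat_lit 0) (nat_lit 12751846) (nat_lit 76) (nat_lit 488689799) (nat_lit 41) (nat_lit 3) (nat_lit 40) (nat_lit 1) (nat_lit 41) (nat_lit 1) (nat_lit 416) (nat_lit 370) (nat_lit 234)) (XT.nd (nat_lit 78) (nat_lit 76) (nat_lit 0) (XT.lf (nat_lit 0) (nat_lit 32930523) (nat_lit 0) (nat_lit 33439948) (nat_lit 152) (nat_lit 898265817) (nat_lit 38) (nat_lit 3) (nat_lit 38) (nat_lit 1) (nat_lit 40) (nat_lit 1) (nat_lit 417) (nat_lit 370) (nat_lit 233)) (XT.lf (nat_lit 76) (nat_lit 414520641) (nat_lit 0) (nat_lit 110517915) (nat_lit 76) (nat_lit 414992331) (nat_lit 38) (nat_lit 3) (nat_lit 37) (nat_lit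 1) (nat_lit 38) (nat_lit 1) (nat_lit 418) (nat_lit 370) (nat_lit 232)))) (XT.nd (nat_lit 156) (nat_lit 0) (nat_lit 76) (XT.nd (nat_lit 78) (nat_lit 0) (nat_lit 76) (XT.lf (nat_lit 836) (nat_lit 5839640327) (nat_lit 0) (nat_lit 10368267978) (nat_lit 836) (nat_lit 5839640327) (nat_lit 303) (nat_lit 1) (nat_lit 292) (nat_lit 0) (nat_lit 303) (nat_lit 0) (nat_lit 278) (nat_lit 371) (nat_lit 371)) (XT.lf (nat_lit 836) (nat_lit 2178365026) (nat_lit 0) (nat_lit 20356052417) (nat_lit 760) (nat_lit 19908151256) (nat_lit 304) (nat_lit 1) (nat_lit 293) (nat_lit 1) (nat_lit 303) (nat_lit 1) (nat_lit 279) (nat_lit 371) (nat_lit 370))) (XT.nd (nat_lit 78) (nat_lit 0) (nat_lit 76) (XT.lf (nat_lit 836) (nat_lit 20007025397) (nat_lit 76) (nat_lit 13632455165) (nat_lit 0) (nat_lit 7230032360) (nat_lit 304) (nat_lit 1) (nat_lit 294) (nat_lit 1) (nat_lit 293) (nat_lit 1) (nat_lit 280) (nat_lit 371) (nat_lit 369))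 (XT.lf (nat_lit 836) (nat_lit 17287708942) (nat_lit 76) (nat_lit 5713267468) (nat_lit 0) (nat_lit 16374200436) (nat_lit 305) (nat_lit 1) (nat_lit 295) (nat_lit 1) (nat_lit 294) (nat_lit 1) (nat_lit 281) (nat_lit 371) (nat_lit 368))))) (XT.nd (nat_lit 234) (nat_lit 1900) (nat_lit 0) (XT.nd (nat_lit 78) (nat_lit 0) (nat_lit 76) (XT.lf (nat_lit 836) (nat_lit 12794374367) (nat_lit 0) (nat_lit 23937669677) (nat_lit 760) (nat_lit 1223690253) (nat_lit 306) (nat_lit 1) (nat_lit 295) (nat_lit 1) (nat_lit 305) (nat_lit 1) (nat_lit 282) (nat_lit 371) (nat_lit 367)) (XT.nd (nat_lit 78) (nat_lit 0) (nat_lit 0) (XT.lf (nat_lit 836) (nat_lit 3069884684) (nat_lit 0) (nat_lit 26397930962) (nat_lit 760) (nat_lit 7136264421) (nat_lit 307) (nat_lit 1) (nat_lit 296) (nat_lit 1) (nat_lit 306) (nat_lit 1) (nat_lit 283) (nat_lit 371) (nat_lit 366)) (XT.lf (nat_lit 836) (nat_lit 5899069735) (nat_lit 76) (nat_lit 22941951682)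 (nat_lit 0) (nat_lit 6474501814) (nat_lit 307) (nat_lit 1) (nat_lit 297) (nat_lit 1) (nat_lit 296) (nat_lit 1) (nat_lit 284) (nat_lit 371) (nat_lit 365)))) (XT.nd (nat_lit 156) (nat_lit 760) (nat_lit 0) (XT.nd (nat_lit 78) (nat_lit 532) (nat_lit 0) (XT.lf (nat_lit 836) (nat_lit 1211534406) (nat_lit 0) (nat_lit 17150626434) (nat_lit 760) (nat_lit 15726944738) (nat_lit 298) (nat_lit 1) (nat_lit 287) (nat_lit 1) (nat_lit 297) (nat_lit 1) (nat_lit 285) (nat_lit 371) (nat_lit 364)) (XT.lf (nat_lit 76) (nat_lit 8388916605) (nat_lit 0) (nat_lit 3635307953) (nat_lit 532) (nat_lit 20896533060) (nat_lit 281) (nat_lit 1) (nat_lit 280) (nat_lit 1) (nat_lit 287) (nat_lit 1) (nat_lit 286) (nat_lit 371) (nat_lit 363))) (XT.nd (nat_lit 78) (nat_lit 380) (nat_lit 0) (XT.lf (nat_lit 456) (nat_lit 23118798277) (nat_lit 0) (nat_lit 7525667240) (nat_lit 380) (nat_lit 1163514655) (nat_lit 281) (nat_lit 1) (nat_lit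 275) (nat_lit 1) (nat_lit 280) (nat_lit 1) (nat_lit 287) (nat_lit 371) (nat_lit 362)) (XT.lf (nat_lit 456) (nat_lit 16682744990) (nat_lit 0) (nat_lit 3507745918) (nat_lit 380) (nat_lit 10552559258) (nat_lit 276) (nat_lit 1) (nat_lit 270) (nat_lit 1) (nat_lit 275) (nat_lit 1) (nat_lit 288) (nat_lit 371) (nat_lit 361))))))))
noncomputable def ec89 : XT := (XT.nd (nat_lit 2106) (nat_lit 3192) (nat_lit 0) (XT.nd (nat_lit 1014) (nat_lit 2280) (nat_lit 0) (XT.nd (nat_lit 468) (nat_lit 1824) (nat_lit 0) (XT.nd (nat_lit 234) (nat_lit 836) (nat_lit 0) (XT.nd (nat_lit 78) (nat_lit 380) (nat_lit 0) (XT.lf (nat_lit 380) (nat_lit 10151237556) (nat_lit 0) (nat_lit 64583302) (nat_lit 304) (nat_lit 19513935444) (nat_lit 271) (nat_lit 1) (nat_lit 266) (nat_lit 1) (nat_lit 270) (nat_lit 1) (nat_lit 289) (nat_lit 371) (nat_lit 360)) (XT.nd (nat_lit 78) (nat_lit 380) (nat_lit 0) (XT.lf (nat_lit 76) (nat_lit 748910332)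 (nat_lit 0) (nat_lit 25256885311) (nat_lit 380) (nat_lit 2757280121) (nat_lit 267) (nat_lit 1) (nat_lit 266) (nat_lit 1) (nat_lit 271) (nat_lit 1) (nat_lit 290) (nat_lit 371) (nat_lit 359)) (XT.lf (nat_lit 76) (nat_lit 19337059024) (nat_lit 0) (nat_lit 3207258144) (nat_lit 380) (nat_lit 5289351162) (nat_lit 262) (nat_lit 1) (nat_lit 261) (nat_lit 1) (nat_lit 266) (nat_lit 1) (nat_lit 291) (nat_lit 371) (nat_lit 358)))) (XT.nd (nat_lit 78) (nat_lit 532) (nat_lit 0) (XT.lf (nat_lit 76) (nat_lit 9674820643) (nat_lit 0) (nat_lit 9824401036) (nat_lit 380) (nat_lit 7446105175) (nat_lit 258) (nat_lit 1) (nat_lit 257) (nat_lit 1) (nat_lit 262) (nat_lit 1) (nat_lit 292) (nat_lit 371) (nat_lit 357)) (XT.nd (nat_lit 78) (nat_lit 228) (nat_lit 0) (XT.lf (nat_lit 76) (nat_lit 477527693) (nat_lit 0) (nat_lit 16426245982) (nat_lit 380) (nat_lit 9195271737) (nat_lit 254) (nat_lit 1) (nat_lit 253) (nat_lit 1)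 (nat_lit 258) (nat_lit 1) (nat_lit 293) (nat_lit 371) (nat_lit 356)) (XT.lf (nat_lit 304) (nat_lit 2156488150) (nat_lit 0) (nat_lit 14583297114) (nat_lit 228) (nat_lit 8546147269) (nat_lit 254) (nat_lit 1) (nat_lit 250) (nat_lit 1) (nat_lit 253) (nat_lit 1) (nat_lit 294) (nat_lit 371) (nat_lit 355))))) (XT.nd (nat_lit 234) (nat_lit 988) (nat_lit 0) (XT.nd (nat_lit 78) (nat_lit 456) (nat_lit 0) (XT.lf (nat_lit 76) (nat_lit 7451246351) (nat_lit 0) (nat_lit 5107130549) (nat_lit 380) (nat_lit 11948033922) (nat_lit 246) (nat_lit 1) (nat_lit 245) (nat_lit 1) (nat_lit 250) (nat_lit 1) (nat_lit 295) (nat_lit 371) (nat_lit 354)) (XT.nd (nat_lit 78) (nat_lit 228) (nat_lit 0) (XT.lf (nat_lit 304) (nat_lit 11536321609) (nat_lit 0) (nat_lit 10836883117) (nat_lit 228) (nat_lit 1387108177) (nat_lit 246) (nat_lit 1) (nat_lit 242) (nat_lit 1) (nat_lit 245) (nat_lit 1) (nat_lit 296) (nat_lit 371) (nat_lit 353))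 (XT.lf (nat_lit 304) (nat_lit 3697335343) (nat_lit 0) (nat_lit 9330112598) (nat_lit 228) (nat_lit 10015439795) (nat_lit 243) (nat_lit 1) (nat_lit 239) (nat_lit 1) (nat_lit 242) (nat_lit 1) (nat_lit 297) (nat_lit 371) (nat_lit 352)))) (XT.nd (nat_lit 156) (nat_lit 456) (nat_lit 0) (XT.nd (nat_lit 78) (nat_lit 228) (nat_lit 0) (XT.lf (nat_lit 76) (nat_lit 4214068895) (nat_lit 0) (nat_lit 3858346284) (nat_lit 304) (nat_lit 14282843406) (nat_lit 236) (nat_lit 1) (nat_lit 235) (nat_lit 1) (nat_lit 239) (nat_lit 1) (nat_lit 298) (nat_lit 371) (nat_lit 351)) (XT.lf (nat_lit 304) (nat_lit 10486157352) (nat_lit 0) (nat_lit 6977100515) (nat_lit 228) (nat_lit 4229541271) (nat_lit 236) (nat_lit 1) (nat_lit 232) (nat_lit 1) (nat_lit 235) (nat_lit 1) (nat_lit 299) (nat_lit 371) (nat_lit 350))) (XT.nd (nat_lit 78) (nat_lit 304) (nat_lit 0) (XT.lf (nat_lit 228) (nat_lit 2599533891) (nat_lit 0) (nat_lit 6087011288)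 (nat_lit 152) (nat_lit 12370519973) (nat_lit 233) (nat_lit 1) (nat_lit 230) (nat_lit 1) (nat_lit 232) (nat_lit 1) (nat_lit 300) (nat_lit 371) (nat_lit 349)) (XT.lf (nat_lit 76) (nat_lit 440377649) (nat_lit 0) (nat_lit 4927921493) (nat_lit 304) (nat_lit 15077674748) (nat_lit 227) (nat_lit 1) (nat_lit 226) (nat_lit 1) (nat_lit 230) (nat_lit 1) (nat_lit 301) (nat_lit 371) (nat_lit 348)))))) (XT.nd (nat_lit 546) (nat_lit 1064) (nat_lit 0) (XT.nd (nat_lit 234) (nat_lit 684) (nat_lit 0) (XT.nd (nat_lit 78) (nat_lit 380) (nat_lit 0) (XT.lf (nat_lit 228) (nat_lit 7553768506) (nat_lit 0) (nat_lit 4720457280) (nat_lit 152) (nat_lit 7580055697) (nat_lit 227) (nat_lit 1) (nat_lit 224) (nat_lit 1) (nat_lit 226) (nat_lit 1) (nat_lit 302) (nat_lit 371) (nat_lit 347)) (XT.nd (nat_lit 78) (nat_lit 152) (nat_lit 0) (XT.lf (nat_lit 76) (nat_lit 4098359117) (nat_lit 0) (nat_lit 189305777) (nat_lit 228) (nat_lit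 15000743599) (nat_lit 222) (nat_lit 1) (nat_lit 221) (nat_lit 1) (nat_lit 224) (nat_lit 1) (nat_lit 303) (nat_lit 371) (nat_lit 346)) (XT.lf (nat_lit 228) (nat_lit 11204122416) (nat_lit 0) (nat_lit 3882479634) (nat_lit 152) (nat_lit 3652394297) (nat_lit 222) (nat_lit 1) (nat_lit 219) (nat_lit 1) (nat_lit 221) (nat_lit 1) (nat_lit 304) (nat_lit 371) (nat_lit 345)))) (XT.nd (nat_lit 156) (nat_lit 304) (nat_lit 0) (XT.nd (nat_lit 78) (nat_lit 228) (nat_lit 0) (XT.lf (nat_lit 228) (nat_lit 3480449402) (nat_lit 0) (nat_lit 3609194151) (nat_lit 152) (nat_lit 11120947077) (nat_lit 220) (nat_lit 1) (nat_lit 217) (nat_lit 1) (nat_lit 219) (nat_lit 1) (nat_lit 305) (nat_lit 371) (nat_lit 344)) (XT.lf (nat_lit 228) (nat_lit 13816105028) (nat_lit 0) (nat_lit 3448292071) (nat_lit 152) (nat_lit 437455855) (nat_lit 217) (nat_lit 1) (nat_lit 214) (nat_lit 1) (nat_lit 216) (nat_lit 1) (nat_lit 306) (nat_lit 371)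 (nat_lit 343))) (XT.nd (nat_lit 78) (nat_lit 152) (nat_lit 0) (XT.lf (nat_lit 228) (nat_lit 6183448288) (nat_lit 0) (nat_lit 3291956347) (nat_lit 152) (nat_lit 7731846855) (nat_lit 215) (nat_lit 1) (nat_lit 212) (nat_lit 1) (nat_lit 214) (nat_lit 1) (nat_lit 307) (nat_lit 371) (nat_lit 342)) (XT.lf (nat_lit 76) (nat_lit 2118069775) (nat_lit 0) (nat_lit 1164186591) (nat_lit 152) (nat_lit 13450908453) (nat_lit 211) (nat_lit 1) (nat_lit 210) (nat_lit 1) (nat_lit 212) (nat_lit 1) (nat_lit 308) (nat_lit 371) (nat_lit 341))))) (XT.nd (nat_lit 234) (nat_lit 608) (nat_lit 0) (XT.nd (nat_lit 78) (nat_lit 304) (nat_lit 0) (XT.lf (nat_lit 228) (nat_lit 8113039768) (nat_lit 0) (nat_lit 3247500925) (nat_lit 152) (nat_lit 4910500579) (nat_lit 211) (nat_lit 1) (nat_lit 208) (nat_lit 1) (nat_lit 210) (nat_lit 1) (nat_lit 309) (nat_lit 371) (nat_lit 340)) (XT.nd (nat_lit 78) (nat_lit 228) (nat_lit 0) (XT.lf (nat_lit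 152) (nat_lit 873659098) (nat_lit 0) (nat_lit 3327263744) (nat_lit 76) (nat_lit 11626238927) (nat_lit 209) (nat_lit 1) (nat_lit 207) (nat_lit 1) (nat_lit 208) (nat_lit 1) (nat_lit 310) (nat_lit 371) (nat_lit 339)) (XT.lf (nat_lit 228) (nat_lit 9430827414) (nat_lit 0) (nat_lit 3402902918) (nat_lit 152) (nat_lit 2561791062) (nat_lit 207) (nat_lit 1) (nat_lit 204) (nat_lit 1) (nat_lit 206) (nat_lit 1) (nat_lit 311) (nat_lit 371) (nat_lit 338)))) (XT.nd (nat_lit 156) (nat_lit 304) (nat_lit 0) (XT.nd (nat_lit 78) (nat_lit 228) (nat_lit 0) (XT.lf (nat_lit 152) (nat_lit 2371922637) (nat_lit 0) (nat_lit 3530140888) (nat_lit 76) (nat_lit 9076364643) (nat_lit 205) (nat_lit 1) (nat_lit 203) (nat_lit 1) (nat_lit 204) (nat_lit 1) (nat_lit 312) (nat_lit 371) (nat_lit 337)) (XT.lf (nat_lit 228) (nat_lit 10267469777) (nat_lit 0) (nat_lit 3700400627) (nat_lit 152) (nat_lit 607267420) (nat_lit 203) (nat_lit 1)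 (nat_lit 200) (nat_lit 1) (nat_lit 202) (nat_lit 1) (nat_lit 313) (nat_lit 371) (nat_lit 336))) (XT.nd (nat_lit 78) (nat_lit 228) (nat_lit 0) (XT.lf (nat_lit 152) (nat_lit 3413522084) (nat_lit 0) (nat_lit 3857712119) (nat_lit 76) (nat_lit 6911424415) (nat_lit 201) (nat_lit 1) (nat_lit 199) (nat_lit 1) (nat_lit 200) (nat_lit 1) (nat_lit 314) (nat_lit 371) (nat_lit 335)) (XT.lf (nat_lit 76) (nat_lit 985278319) (nat_lit 0) (nat_lit 3092526006) (nat_lit 228) (nat_lit 9726474928) (nat_lit 197) (nat_lit 1) (nat_lit 196) (nat_lit 1) (nat_lit 199) (nat_lit 1) (nat_lit 315) (nat_lit 371) (nat_lit 334))))))) (XT.nd (nat_lit 1014) (nat_lit 1672) (nat_lit 0) (XT.nd (nat_lit 468) (nat_lit 760) (nat_lit 0) (XT.nd (nat_lit 234) (nat_lit 380) (nat_lit 0) (XT.nd (nat_lit 78) (nat_lit 304) (nat_lit 0) (XT.lf (nat_lit 152) (nat_lit 4096534478) (nat_lit 0) (nat_lit 4268394755) (nat_lit 76) (nat_lit 5070367475) (nat_lit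 197) (nat_lit 1) (nat_lit 195) (nat_lit 1) (nat_lit 196) (nat_lit 1) (nat_lit 316) (nat_lit 371) (nat_lit 333)) (XT.nd (nat_lit 78) (nat_lit 76) (nat_lit 0) (XT.lf (nat_lit 76) (nat_lit 2291390501) (nat_lit 0) (nat_lit 2219366644) (nat_lit 228) (nat_lit 8568523967) (nat_lit 193) (nat_lit 1) (nat_lit 192) (nat_lit 1) (nat_lit 195) (nat_lit 1) (nat_lit 317) (nat_lit 371) (nat_lit 332)) (XT.lf (nat_lit 152) (nat_lit 4500052316) (nat_lit 0) (nat_lit 4729728819) (nat_lit 76) (nat_lit 3502580445) (nat_lit 193) (nat_lit 1) (nat_lit 191) (nat_lit 1) (nat_lit 192) (nat_lit 1) (nat_lit 318) (nat_lit 371) (nat_lit 331)))) (XT.nd (nat_lit 78) (nat_lit 228) (nat_lit 0) (XT.lf (nat_lit 76) (nat_lit 3373456679) (nat_lit 0) (nat_lit 1607391747) (nat_lit 152) (nat_lit 7416050776) (nat_lit 190) (nat_lit 1) (nat_lit 189) (nat_lit 1) (nat_lit 191) (nat_lit 1) (nat_lit 319) (nat_lit 371) (nat_lit 330)) (XT.nd (nat_lit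 78) (nat_lit 152) (nat_lit 0) (XT.lf (nat_lit 152) (nat_lit 4687730943) (nat_lit 0) (nat_lit 5216599065) (nat_lit 76) (nat_lit 2166025527) (nat_lit 190) (nat_lit 1) (nat_lit 188) (nat_lit 1) (nat_lit 189) (nat_lit 1) (nat_lit 320) (nat_lit 371) (nat_lit 329)) (XT.lf (nat_lit 76) (nat_lit 4267109041) (nat_lit 0) (nat_lit 1199135202) (nat_lit 152) (nat_lit 6287611767) (nat_lit 187) (nat_lit 1) (nat_lit 186) (nat_lit 1) (nat_lit 188) (nat_lit 1) (nat_lit 321) (nat_lit 371) (nat_lit 328))))) (XT.nd (nat_lit 234) (nat_lit 456) (nat_lit 0) (XT.nd (nat_lit 78) (nat_lit 228) (nat_lit 0) (XT.lf (nat_lit 152) (nat_lit 4710681075) (nat_lit 0) (nat_lit 5709789998) (nat_lit 76) (nat_lit 1025716835) (nat_lit 187) (nat_lit 1) (nat_lit 185) (nat_lit 1) (nat_lit 186) (nat_lit 1) (nat_lit 322) (nat_lit 371) (nat_lit 327)) (XT.nd (nat_lit 78) (nat_lit 76) (nat_lit 0) (XT.lf (nat_lit 76) (nat_lit 5001961911) (nat_lit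 0) (nat_lit 948388913) (nat_lit 152) (nat_lit 5196895330) (nat_lit 184) (nat_lit 1) (nat_lit 183) (nat_lit 1) (nat_lit 185) (nat_lit 1) (nat_lit 323) (nat_lit 371) (nat_lit 326)) (XT.lf (nat_lit 152) (nat_lit 4609826845) (nat_lit 0) (nat_lit 6194812380) (nat_lit 76) (nat_lit 52473064) (nat_lit 184) (nat_lit 1) (nat_lit 182) (nat_lit 1) (nat_lit 183) (nat_lit 1) (nat_lit 324) (nat_lit 371) (nat_lit 325)))) (XT.nd (nat_lit 156) (nat_lit 228) (nat_lit 0) (XT.nd (nat_lit 78) (nat_lit 76) (nat_lit 0) (XT.lf (nat_lit 76) (nat_lit 5602676971) (nat_lit 0) (nat_lit 818088905) (nat_lit 152) (nat_lit 4153713847) (nat_lit 181) (nat_lit 1) (nat_lit 180) (nat_lit 1) (nat_lit 182) (nat_lit 1) (nat_lit 325) (nat_lit 371) (nat_lit 324)) (XT.lf (nat_lit 0) (nat_lit 753199841) (nat_lit 0) (nat_lit 5894995346) (nat_lit 152) (nat_lit 3651872031) (nat_lit 179) (nat_lit 3) (nat_lit 179) (nat_lit 1) (nat_lit 181) (nat_lit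 1) (nat_lit 326) (nat_lit 371) (nat_lit 323))) (XT.nd (nat_lit 78) (nat_lit 76) (nat_lit 0) (XT.lf (nat_lit 76) (nat_lit 6089835659) (nat_lit 0) (nat_lit 778592376) (nat_lit 152) (nat_lit 3164807393) (nat_lit 178) (nat_lit 1) (nat_lit 177) (nat_lit 1) (nat_lit 179) (nat_lit 1) (nat_lit 327) (nat_lit 371) (nat_lit 322)) (XT.lf (nat_lit 0) (nat_lit 1438890347) (nat_lit 0) (nat_lit 5637234054) (nat_lit 152) (nat_lit 2697385568) (nat_lit 176) (nat_lit 3) (nat_lit 176) (nat_lit 1) (nat_lit 178) (nat_lit 1) (nat_lit 328) (nat_lit 371) (nat_lit 321)))))) (XT.nd (nat_lit 546) (nat_lit 760) (nat_lit 0) (XT.nd (nat_lit 234) (nat_lit 532) (nat_lit 0) (XT.nd (nat_lit 78) (nat_lit 228) (nat_lit 0) (XT.lf (nat_lit 76) (nat_lit 6480653966) (nat_lit 0) (nat_lit 806273772) (nat_lit 152) (nat_lit 2234494049) (nat_lit 175) (nat_lit 1) (nat_lit 174) (nat_lit 1) (nat_lit 176) (nat_lit 1) (nat_lit 329) (nat_lit 371)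 (nat_lit 320)) (XT.nd (nat_lit 78) (nat_lit 152) (nat_lit 0) (XT.lf (nat_lit 0) (nat_lit 2022919695) (nat_lit 0) (nat_lit 5450922591) (nat_lit 152) (nat_lit 1801635049) (nat_lit 173) (nat_lit 3) (nat_lit 173) (nat_lit 1) (nat_lit 175) (nat_lit 1) (nat_lit 330) (nat_lit 371) (nat_lit 319)) (XT.lf (nat_lit 76) (nat_lit 6789568378) (nat_lit 0) (nat_lit 882381173) (nat_lit 152) (nat_lit 1365195350) (nat_lit 172) (nat_lit 1) (nat_lit 171) (nat_lit 1) (nat_lit 173) (nat_lit 1) (nat_lit 331) (nat_lit 371) (nat_lit 318)))) (XT.nd (nat_lit 156) (nat_lit 304) (nat_lit 0) (XT.nd (nat_lit 78) (nat_lit 152) (nat_lit 0) (XT.lf (nat_lit 0) (nat_lit 2519318588) (nat_lit 0) (nat_lit 5318328073) (nat_lit 152) (nat_lit 966504858) (nat_lit 170) (nat_lit 3) (nat_lit 170) (nat_lit 1) (nat_lit 172) (nat_lit 1) (nat_lit 332) (nat_lit 371) (nat_lit 317)) (XT.lf (nat_lit 76) (nat_lit 7028716476) (nat_lit 0) (nat_lit 992105047)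 (nat_lit 152) (nat_lit 557860100) (nat_lit 169) (nat_lit 1) (nat_lit 168) (nat_lit 1) (nat_lit 170) (nat_lit 1) (nat_lit 333) (nat_lit 371) (nat_lit 316))) (XT.nd (nat_lit 78) (nat_lit 228) (nat_lit 0) (XT.lf (nat_lit 0) (nat_lit 2939953652) (nat_lit 0) (nat_lit 5225381738) (nat_lit 152) (nat_lit 192540687) (nat_lit 167) (nat_lit 3) (nat_lit 167) (nat_lit 1) (nat_lit 169) (nat_lit 1) (nat_lit 334) (nat_lit 371) (nat_lit 315)) (XT.lf (nat_lit 152) (nat_lit 7017458224) (nat_lit 0) (nat_lit 193900468) (nat_lit 76) (nat_lit 932947133) (nat_lit 166) (nat_lit 1) (nat_lit 164) (nat_lit 1) (nat_lit 165) (nat_lit 1) (nat_lit 335) (nat_lit 371) (nat_lit 314))))) (XT.nd (nat_lit 234) (nat_lit 456) (nat_lit 0) (XT.nd (nat_lit 78) (nat_lit 228) (nat_lit 0) (XT.lf (nat_lit 76) (nat_lit 2765339455) (nat_lit 0) (nat_lit 537954072) (nat_lit 76) (nat_lit 4631421568) (nat_lit 164) (nat_lit 3) (nat_lit 163) (nat_lit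 1) (nat_lit 164) (nat_lit 1) (nat_lit 336) (nat_lit 371) (nat_lit 313)) (XT.nd (nat_lit 78) (nat_lit 76) (nat_lit 0) (XT.lf (nat_lit 152) (nat_lit 6449780675) (nat_lit 0) (nat_lit 901357660) (nat_lit 76) (nat_lit 381184519) (nat_lit 163) (nat_lit 1) (nat_lit 161) (nat_lit 1) (nat_lit 162) (nat_lit 1) (nat_lit 337) (nat_lit 371) (nat_lit 312)) (XT.lf (nat_lit 76) (nat_lit 2398247029) (nat_lit 0) (nat_lit 1213413518) (nat_lit 76) (nat_lit 3921927636) (nat_lit 161) (nat_lit 3) (nat_lit 160) (nat_lit 1) (nat_lit 161) (nat_lit 1) (nat_lit 338) (nat_lit 371) (nat_lit 311)))) (XT.nd (nat_lit 156) (nat_lit 228) (nat_lit 0) (XT.nd (nat_lit 78) (nat_lit 76) (nat_lit 0) (XT.lf (nat_lit 0) (nat_lit 101226021) (nat_lit 0) (nat_lit 1444859713) (nat_lit 152) (nat_lit 5795682688) (nat_lit 158) (nat_lit 3) (nat_lit 158) (nat_lit 1) (nat_lit 160) (nat_lit 1) (nat_lit 339) (nat_lit 371) (nat_lit 310)) (XT.lf (nat_lit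 76) (nat_lit 2039953041) (nat_lit 0) (nat_lit 1829353066) (nat_lit 76) (nat_lit 3284058312) (nat_lit 158) (nat_lit 3) (nat_lit 157) (nat_lit 1) (nat_lit 158) (nat_lit 1) (nat_lit 340) (nat_lit 371) (nat_lit 309))) (XT.nd (nat_lit 78) (nat_lit 76) (nat_lit 0) (XT.lf (nat_lit 0) (nat_lit 514813347) (nat_lit 0) (nat_lit 1611907941) (nat_lit 152) (nat_lit 4844518734) (nat_lit 155) (nat_lit 3) (nat_lit 155) (nat_lit 1) (nat_lit 157) (nat_lit 1) (nat_lit 341) (nat_lit 371) (nat_lit 308)) (XT.lf (nat_lit 76) (nat_lit 1694473590) (nat_lit 0) (nat_lit 2388077620) (nat_lit 76) (nat_lit 2710301919) (nat_lit 155) (nat_lit 3) (nat_lit 154) (nat_lit 1) (nat_lit 155) (nat_lit 1) (nat_lit 342) (nat_lit 371) (nat_lit 307))))))))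
noncomputable def ec90 : XT := (XT.nd (nat_lit 2028) (nat_lit 3268) (nat_lit 0) (XT.nd (nat_lit 1014) (nat_lit 1596) (nat_lit 0) (XT.nd (nat_lit 468) (nat_lit 836) (nat_lit 0) (XT.nd (nat_lit 234) (nat_lit 304) (nat_lit 0) (XT.nd (nat_lit 78) (nat_lit 228) (nat_lit 0) (XT.lf (nat_lit 0) (nat_lit 878080555) (nat_lit 0) (nat_lit 1773872732) (nat_lit 152) (nat_lit 3967933818) (nat_lit 152) (nat_lit 3) (nat_lit 152) (nat_lit 1) (nat_lit 154) (nat_lit 1) (nat_lit 343) (nat_lit 371) (nat_lit 306)) (XT.nd (nat_lit 78) (nat_lit 152) (nat_lit 0) (XT.lf (nat_lit 76) (nat_lit 1364664059) (nat_lit 0) (nat_lit 2892183440) (nat_lit 76) (nat_lit 2194101259) (nat_lit 152) (nat_lit 3) (nat_lit 151) (nat_lit 1) (nat_lit 152) (nat_lit 1) (nat_lit 344) (nat_lit 371) (nat_lit 305)) (XT.lf (nat_lit 0) (nat_lit 1196515111) (nat_lit 0) (nat_lit 1927941214) (nat_lit 152) (nat_lit 3162185664) (nat_lit 149) (nat_lit 3)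 (nat_lit 149) (nat_lit 1) (nat_lit 151) (nat_lit 1) (nat_lit 345) (nat_lit 371) (nat_lit 304)))) (XT.nd (nat_lit 78) (nat_lit 228) (nat_lit 0) (XT.lf (nat_lit 76) (nat_lit 1052460800) (nat_lit 0) (nat_lit 3344454013) (nat_lit 76) (nat_lit 1729707191) (nat_lit 149) (nat_lit 3) (nat_lit 148) (nat_lit 1) (nat_lit 149) (nat_lit 1) (nat_lit 346) (nat_lit 371) (nat_lit 303)) (XT.nd (nat_lit 78) (nat_lit 76) (nat_lit 0) (XT.lf (nat_lit 0) (nat_lit 1474914464) (nat_lit 0) (nat_lit 2072133505) (nat_lit 152) (nat_lit 2423461303) (nat_lit 146) (nat_lit 3) (nat_lit 146) (nat_lit 1) (nat_lit 148) (nat_lit 1) (nat_lit 347) (nat_lit 371) (nat_lit 302)) (XT.lf (nat_lit 76) (nat_lit 759076644) (nat_lit 0) (nat_lit 3747778364) (nat_lit 76) (nat_lit 1312057237) (nat_lit 146) (nat_lit 3) (nat_lit 145) (nat_lit 1) (nat_lit 146) (nat_lit 1) (nat_lit 348) (nat_lit 371) (nat_lit 301))))) (XT.nd (nat_lit 234) (nat_lit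 456) (nat_lit 0) (XT.nd (nat_lit 78) (nat_lit 228) (nat_lit 0) (XT.lf (nat_lit 0) (nat_lit 1717489981) (nat_lit 0) (nat_lit 2205127188) (nat_lit 152) (nat_lit 1747941661) (nat_lit 143) (nat_lit 3) (nat_lit 143) (nat_lit 1) (nat_lit 145) (nat_lit 1) (nat_lit 349) (nat_lit 371) (nat_lit 300)) (XT.nd (nat_lit 78) (nat_lit 152) (nat_lit 0) (XT.lf (nat_lit 76) (nat_lit 485158811) (nat_lit 0) (nat_lit 4105087460) (nat_lit 76) (nat_lit 936674744) (nat_lit 143) (nat_lit 3) (nat_lit 142) (nat_lit 1) (nat_lit 143) (nat_lit 1) (nat_lit 350) (nat_lit 371) (nat_lit 299)) (XT.lf (nat_lit 0) (nat_lit 1927953302) (nat_lit 0) (nat_lit 2326115500) (nat_lit 152) (nat_lit 1131850990) (nat_lit 140) (nat_lit 3) (nat_lit 140) (nat_lit 1) (nat_lit 142) (nat_lit 1) (nat_lit 351) (nat_lit 371) (nat_lit 298)))) (XT.nd (nat_lit 156) (nat_lit 228) (nat_lit 0) (XT.nd (nat_lit 78) (nat_lit 152) (nat_lit 0) (XT.lf (nat_lit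 76) (nat_lit 230916234) (nat_lit 0) (nat_lit 4419305215) (nat_lit 76) (nat_lit 599584935) (nat_lit 140) (nat_lit 3) (nat_lit 139) (nat_lit 1) (nat_lit 140) (nat_lit 1) (nat_lit 352) (nat_lit 371) (nat_lit 297)) (XT.lf (nat_lit 0) (nat_lit 2109588257) (nat_lit 0) (nat_lit 2434692932) (nat_lit 152) (nat_lit 571494119) (nat_lit 137) (nat_lit 3) (nat_lit 137) (nat_lit 1) (nat_lit 139) (nat_lit 1) (nat_lit 353) (nat_lit 371) (nat_lit 296))) (XT.nd (nat_lit 78) (nat_lit 76) (nat_lit 0) (XT.lf (nat_lit 76) (nat_lit 4689592199) (nat_lit 0) (nat_lit 3657081) (nat_lit 152) (nat_lit 293525831) (nat_lit 136) (nat_lit 1) (nat_lit 135) (nat_lit 1) (nat_lit 137) (nat_lit 1) (nat_lit 354) (nat_lit 371) (nat_lit 295)) (XT.lf (nat_lit 0) (nat_lit 2265310896) (nat_lit 0) (nat_lit 2530763143) (nat_lit 152) (nat_lit 63283959) (nat_lit 134) (nat_lit 3) (nat_lit 134) (nat_lit 1) (nat_lit 136) (nat_lit 1) (nat_lit 355)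 (nat_lit 371) (nat_lit 294)))))) (XT.nd (nat_lit 468) (nat_lit 836) (nat_lit 0) (XT.nd (nat_lit 234) (nat_lit 304) (nat_lit 0) (XT.nd (nat_lit 78) (nat_lit 228) (nat_lit 0) (XT.lf (nat_lit 152) (nat_lit 4521429104) (nat_lit 0) (nat_lit 195658051) (nat_lit 76) (nat_lit 19682030) (nat_lit 133) (nat_lit 1) (nat_lit 131) (nat_lit 1) (nat_lit 132) (nat_lit 1) (nat_lit 356) (nat_lit 371) (nat_lit 293)) (XT.nd (nat_lit 78) (nat_lit 152) (nat_lit 0) (XT.lf (nat_lit 76) (nat_lit 1994770473) (nat_lit 0) (nat_lit 409340213) (nat_lit 76) (nat_lit 2211515726) (nat_lit 131) (nat_lit 3) (nat_lit 130) (nat_lit 1) (nat_lit 131) (nat_lit 1) (nat_lit 357) (nat_lit 371) (nat_lit 292)) (XT.lf (nat_lit 0) (nat_lit 225498126) (nat_lit 0) (nat_lit 416631506) (nat_lit 152) (nat_lit 3856911600) (nat_lit 128) (nat_lit 3) (nat_lit 128) (nat_lit 1) (nat_lit 130) (nat_lit 1) (nat_lit 358) (nat_lit 371) (nat_lit 291)))) (XT.nd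 (nat_lit 78) (nat_lit 228) (nat_lit 0) (XT.lf (nat_lit 76) (nat_lit 1685021561) (nat_lit 0) (nat_lit 837187225) (nat_lit 76) (nat_lit 1861996913) (nat_lit 128) (nat_lit 3) (nat_lit 127) (nat_lit 1) (nat_lit 128) (nat_lit 1) (nat_lit 359) (nat_lit 371) (nat_lit 290)) (XT.nd (nat_lit 78) (nat_lit 76) (nat_lit 0) (XT.lf (nat_lit 0) (nat_lit 443713283) (nat_lit 0) (nat_lit 599776204) (nat_lit 152) (nat_lit 3229864028) (nat_lit 125) (nat_lit 3) (nat_lit 125) (nat_lit 1) (nat_lit 127) (nat_lit 1) (nat_lit 360) (nat_lit 371) (nat_lit 289)) (XT.lf (nat_lit 76) (nat_lit 1399281612) (nat_lit 0) (nat_lit 1221437304) (nat_lit 76) (nat_lit 1543784317) (nat_lit 125) (nat_lit 3) (nat_lit 124) (nat_lit 1) (nat_lit 125) (nat_lit 1) (nat_lit 361) (nat_lit 371) (nat_lit 288))))) (XT.nd (nat_lit 234) (nat_lit 456) (nat_lit 0) (XT.nd (nat_lit 78) (nat_lit 228) (nat_lit 0) (XT.lf (nat_lit 0) (nat_lit 637898458) (nat_lit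 0) (nat_lit 765325887) (nat_lit 152) (nat_lit 2655870427) (nat_lit 122) (nat_lit 3) (nat_lit 122) (nat_lit 1) (nat_lit 124) (nat_lit 1) (nat_lit 362) (nat_lit 371) (nat_lit 287)) (XT.nd (nat_lit 78) (nat_lit 152) (nat_lit 0) (XT.lf (nat_lit 76) (nat_lit 1136359984) (nat_lit 0) (nat_lit 1565203206) (nat_lit 76) (nat_lit 1254348345) (nat_lit 122) (nat_lit 3) (nat_lit 121) (nat_lit 1) (nat_lit 122) (nat_lit 1) (nat_lit 363) (nat_lit 371) (nat_lit 286)) (XT.lf (nat_lit 0) (nat_lit 810146191) (nat_lit 0) (nat_lit 914192364) (nat_lit 152) (nat_lit 2131334797) (nat_lit 119) (nat_lit 3) (nat_lit 119) (nat_lit 1) (nat_lit 121) (nat_lit 1) (nat_lit 364) (nat_lit 371) (nat_lit 285)))) (XT.nd (nat_lit 156) (nat_lit 228) (nat_lit 0) (XT.nd (nat_lit 78) (nat_lit 152) (nat_lit 0) (XT.lf (nat_lit 76) (nat_lit 895040944) (nat_lit 0) (nat_lit 1871435884) (nat_lit 76) (nat_lit 991379993) (nat_lit 119) (nat_lit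 3) (nat_lit 118) (nat_lit 1) (nat_lit 119) (nat_lit 1) (nat_lit 365) (nat_lit 371) (nat_lit 284)) (XT.lf (nat_lit 0) (nat_lit 962360536) (nat_lit 0) (nat_lit 1047315606) (nat_lit 152) (nat_lit 1652854080) (nat_lit 116) (nat_lit 3) (nat_lit 116) (nat_lit 1) (nat_lit 118) (nat_lit 1) (nat_lit 366) (nat_lit 371) (nat_lit 283))) (XT.nd (nat_lit 78) (nat_lit 152) (nat_lit 0) (XT.lf (nat_lit 76) (nat_lit 674104824) (nat_lit 0) (nat_lit 2142925008) (nat_lit 76) (nat_lit 752766925) (nat_lit 116) (nat_lit 3) (nat_lit 115) (nat_lit 1) (nat_lit 116) (nat_lit 1) (nat_lit 367) (nat_lit 371) (nat_lit 282)) (XT.lf (nat_lit 0) (nat_lit 1096277671) (nat_lit 0) (nat_lit 1165644604) (nat_lit 152) (nat_lit 1217214555) (nat_lit 113) (nat_lit 3) (nat_lit 113) (nat_lit 1) (nat_lit 115) (nat_lit 1) (nat_lit 368) (nat_lit 371) (nat_lit 281))))))) (XT.nd (nat_lit 1014) (nat_lit 1672) (nat_lit 0) (XT.nd (nat_lit 468) (nat_lit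 912) (nat_lit 0) (XT.nd (nat_lit 234) (nat_lit 380) (nat_lit 0) (XT.nd (nat_lit 78) (nat_lit 228) (nat_lit 0) (XT.lf (nat_lit 76) (nat_lit 472344242) (nat_lit 0) (nat_lit 2382301310) (nat_lit 76) (nat_lit 536572883) (nat_lit 113) (nat_lit 3) (nat_lit 112) (nat_lit 1) (nat_lit 113) (nat_lit 1) (nat_lit 369) (nat_lit 371) (nat_lit 280)) (XT.nd (nat_lit 78) (nat_lit 76) (nat_lit 0) (XT.lf (nat_lit 0) (nat_lit 1213483649) (nat_lit 0) (nat_lit 1270122663) (nat_lit 152) (nat_lit 821386852) (nat_lit 110) (nat_lit 3) (nat_lit 110) (nat_lit 1) (nat_lit 112) (nat_lit 1) (nat_lit 370) (nat_lit 371) (nat_lit 279)) (XT.lf (nat_lit 76) (nat_lit 288576346) (nat_lit 0) (nat_lit 2592040290) (nat_lit 76) (nat_lit 341019877) (nat_lit 110) (nat_lit 3) (nat_lit 109) (nat_lit 1) (nat_lit 110) (nat_lit 1) (nat_lit 371) (nat_lit 371) (nat_lit 278)))) (XT.nd (nat_lit 78) (nat_lit 228) (nat_lit 0) (XT.lf (nat_lit 0) (nat_lit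 1315429757) (nat_lit 0) (nat_lit 1361676257) (nat_lit 152) (nat_lit 462519970) (nat_lit 107) (nat_lit 3) (nat_lit 107) (nat_lit 1) (nat_lit 109) (nat_lit 1) (nat_lit 372) (nat_lit 371) (nat_lit 277)) (XT.nd (nat_lit 78) (nat_lit 152) (nat_lit 0) (XT.lf (nat_lit 76) (nat_lit 121651880) (nat_lit 0) (nat_lit 2774466937) (nat_lit 76) (nat_lit 164472714) (nat_lit 107) (nat_lit 3) (nat_lit 106) (nat_lit 1) (nat_lit 107) (nat_lit 1) (nat_lit 373) (nat_lit 371) (nat_lit 276)) (XT.lf (nat_lit 0) (nat_lit 1403445862) (nat_lit 0) (nat_lit 1441206738) (nat_lit 152) (nat_lit 137934603) (nat_lit 104) (nat_lit 3) (nat_lit 104) (nat_lit 1) (nat_lit 106) (nat_lit 1) (nat_lit 374) (nat_lit 371) (nat_lit 275))))) (XT.nd (nat_lit 234) (nat_lit 456) (nat_lit 0) (XT.nd (nat_lit 78) (nat_lit 228) (nat_lit 0) (XT.lf (nat_lit 152) (nat_lit 2878631867) (nat_lit 0) (nat_lit 24433653) (nat_lit 76) (nat_lit 4540701) (nat_lit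 103) (nat_lit 1) (nat_lit 101) (nat_lit 1) (nat_lit 102) (nat_lit 1) (nat_lit 375) (nat_lit 371) (nat_lit 274)) (XT.nd (nat_lit 78) (nat_lit 152) (nat_lit 0) (XT.lf (nat_lit 76) (nat_lit 1321245037) (nat_lit 0) (nat_lit 160005161) (nat_lit 76) (nat_lit 1352077289) (nat_lit 101) (nat_lit 3) (nat_lit 100) (nat_lit 1) (nat_lit 101) (nat_lit 1) (nat_lit 376) (nat_lit 371) (nat_lit 273)) (XT.lf (nat_lit 0) (nat_lit 140678267) (nat_lit 0) (nat_lit 167867202) (nat_lit 152) (nat_lit 2453363472) (nat_lit 98) (nat_lit 3) (nat_lit 98) (nat_lit 1) (nat_lit 100) (nat_lit 1) (nat_lit 377) (nat_lit 371) (nat_lit 272)))) (XT.nd (nat_lit 156) (nat_lit 228) (nat_lit 0) (XT.nd (nat_lit 78) (nat_lit 152) (nat_lit 0) (XT.lf (nat_lit 76) (nat_lit 1117091519) (nat_lit 0) (nat_lit 432124097) (nat_lit 76) (nat_lit 1142266458) (nat_lit 98) (nat_lit 3) (nat_lit 97) (nat_lit 1) (nat_lit 98) (nat_lit 1) (nat_lit 378) (nat_lit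 371) (nat_lit 271)) (XT.lf (nat_lit 0) (nat_lit 270716484) (nat_lit 0) (nat_lit 292916607) (nat_lit 152) (nat_lit 2059919517) (nat_lit 95) (nat_lit 3) (nat_lit 95) (nat_lit 1) (nat_lit 97) (nat_lit 1) (nat_lit 379) (nat_lit 371) (nat_lit 270))) (XT.nd (nat_lit 78) (nat_lit 152) (nat_lit 0) (XT.lf (nat_lit 76) (nat_lit 930040587) (nat_lit 0) (nat_lit 676142438) (nat_lit 76) (nat_lit 950596257) (nat_lit 95) (nat_lit 3) (nat_lit 94) (nat_lit 1) (nat_lit 95) (nat_lit 1) (nat_lit 380) (nat_lit 371) (nat_lit 269)) (XT.lf (nat_lit 0) (nat_lit 386915520) (nat_lit 0) (nat_lit 405042212) (nat_lit 152) (nat_lit 1700209285) (nat_lit 92) (nat_lit 3) (nat_lit 92) (nat_lit 1) (nat_lit 94) (nat_lit 1) (nat_lit 381) (nat_lit 371) (nat_lit 268)))))) (XT.nd (nat_lit 546) (nat_lit 912) (nat_lit 0) (XT.nd (nat_lit 234) (nat_lit 456) (nat_lit 0) (XT.nd (nat_lit 78) (nat_lit 228) (nat_lit 0) (XT.lf (nat_lit 76) (nat_lit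 758938893) (nat_lit 0) (nat_lit 894194370) (nat_lit 76) (nat_lit 775722867) (nat_lit 92) (nat_lit 3) (nat_lit 91) (nat_lit 1) (nat_lit 92) (nat_lit 1) (nat_lit 382) (nat_lit 371) (nat_lit 267)) (XT.nd (nat_lit 78) (nat_lit 76) (nat_lit 0) (XT.lf (nat_lit 0) (nat_lit 490381911) (nat_lit 0) (nat_lit 505182594) (nat_lit 152) (nat_lit 1371833345) (nat_lit 89) (nat_lit 3) (nat_lit 89) (nat_lit 1) (nat_lit 91) (nat_lit 1) (nat_lit 383) (nat_lit 371) (nat_lit 266)) (XT.lf (nat_lit 76) (nat_lit 602694573) (nat_lit 0) (nat_lit 1088274986) (nat_lit 76) (nat_lit 616398909) (nat_lit 89) (nat_lit 3) (nat_lit 88) (nat_lit 1) (nat_lit 89) (nat_lit 1) (nat_lit 384) (nat_lit 371) (nat_lit 265)))) (XT.nd (nat_lit 156) (nat_lit 228) (nat_lit 0) (XT.nd (nat_lit 78) (nat_lit 76) (nat_lit 0) (XT.lf (nat_lit 0) (nat_lit 582139738) (nat_lit 0) (nat_lit 594224691) (nat_lit 152) (nat_lit 1072544722) (nat_lit 86) (nat_lit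 3) (nat_lit 86) (nat_lit 1) (nat_lit 88) (nat_lit 1) (nat_lit 385) (nat_lit 371) (nat_lit 264)) (XT.lf (nat_lit 76) (nat_lit 460276166) (nat_lit 0) (nat_lit 1260247836) (nat_lit 76) (nat_lit 471465937) (nat_lit 86) (nat_lit 3) (nat_lit 85) (nat_lit 1) (nat_lit 86) (nat_lit 1) (nat_lit 386) (nat_lit 371) (nat_lit 263))) (XT.nd (nat_lit 78) (nat_lit 76) (nat_lit 0) (XT.lf (nat_lit 0) (nat_lit 663137144) (nat_lit 0) (nat_lit 673004667) (nat_lit 152) (nat_lit 800240512) (nat_lit 83) (nat_lit 3) (nat_lit 83) (nat_lit 1) (nat_lit 85) (nat_lit 1) (nat_lit 387) (nat_lit 371) (nat_lit 262)) (XT.lf (nat_lit 76) (nat_lit 330711073) (nat_lit 0) (nat_lit 1411852272) (nat_lit 76) (nat_lit 339847668) (nat_lit 83) (nat_lit 3) (nat_lit 82) (nat_lit 1) (nat_lit 83) (nat_lit 1) (nat_lit 388) (nat_lit 371) (nat_lit 261))))) (XT.nd (nat_lit 234) (nat_lit 532) (nat_lit 0) (XT.nd (nat_lit 78) (nat_lit 228) (nat_lit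 0) (XT.lf (nat_lit 0) (nat_lit 734252223) (nat_lit 0) (nat_lit 742309185) (nat_lit 152) (nat_lit 552953771) (nat_lit 80) (nat_lit 3) (nat_lit 80) (nat_lit 1) (nat_lit 82) (nat_lit 1) (nat_lit 389) (nat_lit 371) (nat_lit 260)) (XT.nd (nat_lit 78) (nat_lit 152) (nat_lit 0) (XT.lf (nat_lit 76) (nat_lit 213083688) (nat_lit 0) (nat_lit 1544710551) (nat_lit 76) (nat_lit 220543839) (nat_lit 80) (nat_lit 3) (nat_lit 79) (nat_lit 1) (nat_lit 80) (nat_lit 1) (nat_lit 390) (nat_lit 371) (nat_lit 259)) (XT.lf (nat_lit 0) (nat_lit 796298366) (nat_lit 0) (nat_lit 802876981) (nat_lit 152) (nat_lit 328845725) (nat_lit 77) (nat_lit 3) (nat_lit 77) (nat_lit 1) (nat_lit 79) (nat_lit 1) (nat_lit 391) (nat_lit 371) (nat_lit 258)))) (XT.nd (nat_lit 156) (nat_lit 304) (nat_lit 0) (XT.nd (nat_lit 78) (nat_lit 152) (nat_lit 0) (XT.lf (nat_lit 76) (nat_lit 106533302) (nat_lit 0) (nat_lit 1660334676) (nat_lit 76) (nat_lit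 112624613) (nat_lit 77) (nat_lit 3) (nat_lit 76) (nat_lit 1) (nat_lit 77) (nat_lit 1) (nat_lit 392) (nat_lit 371) (nat_lit 257)) (XT.lf (nat_lit 0) (nat_lit 850029117) (nat_lit 0) (nat_lit 855400643) (nat_lit 152) (nat_lit 126198299) (nat_lit 74) (nat_lit 3) (nat_lit 74) (nat_lit 1) (nat_lit 76) (nat_lit 1) (nat_lit 393) (nat_lit 371) (nat_lit 256))) (XT.nd (nat_lit 78) (nat_lit 228) (nat_lit 0) (XT.lf (nat_lit 76) (nat_lit 10251844) (nat_lit 0) (nat_lit 1760132951) (nat_lit 76) (nat_lit 15225480) (nat_lit 74) (nat_lit 3) (nat_lit 73) (nat_lit 1) (nat_lit 74) (nat_lit 1) (nat_lit 394) (nat_lit 371) (nat_lit 255)) (XT.lf (nat_lit 76) (nat_lit 838591160) (nat_lit 0) (nat_lit 58464240) (nat_lit 76) (nat_lit 842977082) (nat_lit 71) (nat_lit 3) (nat_lit 70) (nat_lit 1) (nat_lit 71) (nat_lit 1) (nat_lit 395) (nat_lit 371) (nat_lit 254))))))))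
noncomputable def ec91 : XT := (XT.nd (nat_lit 44070) (nat_lit 0) (nat_lit 13376) (XT.nd (nat_lit 1014) (nat_lit 1216) (nat_lit 0) (XT.nd (nat_lit 468) (nat_lit 836) (nat_lit 0) (XT.nd (nat_lit 234) (nat_lit 304) (nat_lit 0) (XT.nd (nat_lit 78) (nat_lit 228) (nat_lit 0) (XT.lf (nat_lit 0) (nat_lit 73775227) (nat_lit 0) (nat_lit 77642883) (nat_lit 152) (nat_lit 1544783845) (nat_lit 68) (nat_lit 3) (nat_lit 68) (nat_lit 1) (nat_lit 70) (nat_lit 1) (nat_lit 396) (nat_lit 371) (nat_lit 253)) (XT.nd (nat_lit 78) (nat_lit 152) (nat_lit 0) (XT.lf (nat_lit 76) (nat_lit 710516466) (nat_lit 0) (nat_lit 228334094) (nat_lit 76) (nat_lit 714097629) (nat_lit 68) (nat_lit 3) (nat_lit 67) (nat_lit 1) (nat_lit 68) (nat_lit 1) (nat_lit 397) (nat_lit 371) (nat_lit 252)) (XT.lf (nat_lit 0) (nat_lit 153755946) (nat_lit 0) (nat_lit 156913938) (nat_lit 152) (nat_lit 1300585858) (nat_lit 65) (nat_lit 3) (nat_lit 65)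 (nat_lit 1) (nat_lit 67) (nat_lit 1) (nat_lit 398) (nat_lit 371) (nat_lit 251)))) (XT.nd (nat_lit 78) (nat_lit 228) (nat_lit 0) (XT.lf (nat_lit 76) (nat_lit 593318604) (nat_lit 0) (nat_lit 380682223) (nat_lit 76) (nat_lit 596242671) (nat_lit 65) (nat_lit 3) (nat_lit 64) (nat_lit 1) (nat_lit 65) (nat_lit 1) (nat_lit 399) (nat_lit 371) (nat_lit 250)) (XT.nd (nat_lit 78) (nat_lit 76) (nat_lit 0) (XT.lf (nat_lit 0) (nat_lit 225331763) (nat_lit 0) (nat_lit 227910305) (nat_lit 152) (nat_lit 1077342333) (nat_lit 62) (nat_lit 3) (nat_lit 62) (nat_lit 1) (nat_lit 64) (nat_lit 1) (nat_lit 400) (nat_lit 371) (nat_lit 249)) (XT.lf (nat_lit 76) (nat_lit 486227176) (nat_lit 0) (nat_lit 516854989) (nat_lit 76) (nat_lit 488614715) (nat_lit 62) (nat_lit 3) (nat_lit 61) (nat_lit 1) (nat_lit 62) (nat_lit 1) (nat_lit 401) (nat_lit 371) (nat_lit 248))))) (XT.nd (nat_lit 234) (nat_lit 456) (nat_lit 0) (XT.nd (nat_lit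 78) (nat_lit 228) (nat_lit 0) (XT.lf (nat_lit 0) (nat_lit 289158784) (nat_lit 0) (nat_lit 291264197) (nat_lit 152) (nat_lit 873548593) (nat_lit 59) (nat_lit 3) (nat_lit 59) (nat_lit 1) (nat_lit 61) (nat_lit 1) (nat_lit 402) (nat_lit 371) (nat_lit 247)) (XT.nd (nat_lit 78) (nat_lit 152) (nat_lit 0) (XT.lf (nat_lit 76) (nat_lit 388520594) (nat_lit 0) (nat_lit 638107466) (nat_lit 76) (nat_lit 390470051) (nat_lit 59) (nat_lit 3) (nat_lit 58) (nat_lit 1) (nat_lit 59) (nat_lit 1) (nat_lit 403) (nat_lit 371) (nat_lit 246)) (XT.lf (nat_lit 0) (nat_lit 345847106) (nat_lit 0) (nat_lit 347566204) (nat_lit 152) (nat_lit 687798633) (nat_lit 56) (nat_lit 3) (nat_lit 56) (nat_lit 1) (nat_lit 58) (nat_lit 1) (nat_lit 404) (nat_lit 371) (nat_lit 245)))) (XT.nd (nat_lit 156) (nat_lit 228) (nat_lit 0) (XT.nd (nat_lit 78) (nat_lit 152) (nat_lit 0) (XT.lf (nat_lit 76) (nat_lit 299523399) (nat_lit 0) (nat_lit 745609117)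 (nat_lit 76) (nat_lit 301115157) (nat_lit 56) (nat_lit 3) (nat_lit 55) (nat_lit 1) (nat_lit 56) (nat_lit 1) (nat_lit 405) (nat_lit 371) (nat_lit 244)) (XT.lf (nat_lit 0) (nat_lit 395963958) (nat_lit 0) (nat_lit 397367624) (nat_lit 152) (nat_lit 518779076) (nat_lit 53) (nat_lit 3) (nat_lit 53) (nat_lit 1) (nat_lit 55) (nat_lit 1) (nat_lit 406) (nat_lit 371) (nat_lit 243))) (XT.nd (nat_lit 78) (nat_lit 152) (nat_lit 0) (XT.lf (nat_lit 76) (nat_lit 218603685) (nat_lit 0) (nat_lit 840449154) (nat_lit 76) (nat_lit 219903375) (nat_lit 53) (nat_lit 3) (nat_lit 52) (nat_lit 1) (nat_lit 53) (nat_lit 1) (nat_lit 407) (nat_lit 371) (nat_lit 242)) (XT.lf (nat_lit 0) (nat_lit 440036606) (nat_lit 0) (nat_lit 441182718) (nat_lit 152) (nat_lit 365263471) (nat_lit 50) (nat_lit 3) (nat_lit 50) (nat_lit 1) (nat_lit 52) (nat_lit 1) (nat_lit 408) (nat_lit 371) (nat_lit 241)))))) (XT.nd (nat_lit 546) (nat_lit 304)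 (nat_lit 0) (XT.nd (nat_lit 234) (nat_lit 608) (nat_lit 0) (XT.nd (nat_lit 78) (nat_lit 228) (nat_lit 0) (XT.lf (nat_lit 76) (nat_lit 145170600) (nat_lit 0) (nat_lit 923641599) (nat_lit 76) (nat_lit 146231815) (nat_lit 50) (nat_lit 3) (nat_lit 49) (nat_lit 1) (nat_lit 50) (nat_lit 1) (nat_lit 409) (nat_lit 371) (nat_lit 240)) (XT.nd (nat_lit 78) (nat_lit 76) (nat_lit 0) (XT.lf (nat_lit 0) (nat_lit 478555060) (nat_lit 0) (nat_lit 479490875) (nat_lit 152) (nat_lit 226106907) (nat_lit 47) (nat_lit 3) (nat_lit 47) (nat_lit 1) (nat_lit 49) (nat_lit 1) (nat_lit 410) (nat_lit 371) (nat_lit 239)) (XT.lf (nat_lit 76) (nat_lit 78671970) (nat_lit 0) (nat_lit 996130057) (nat_lit 76) (nat_lit 79538466) (nat_lit 47) (nat_lit 3) (nat_lit 46) (nat_lit 1) (nat_lit 47) (nat_lit 1) (nat_lit 411) (nat_lit 371) (nat_lit 238)))) (XT.nd (nat_lit 156) (nat_lit 380) (nat_lit 0) (XT.nd (nat_lit 78) (nat_lit 76) (nat_lit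 0) (XT.lf (nat_lit 0) (nat_lit 511974588) (nat_lit 0) (nat_lit 512738694) (nat_lit 152) (nat_lit 100240936) (nat_lit 44) (nat_lit 3) (nat_lit 44) (nat_lit 1) (nat_lit 46) (nat_lit 1) (nat_lit 412) (nat_lit 371) (nat_lit 237)) (XT.lf (nat_lit 76) (nat_lit 18592012) (nat_lit 0) (nat_lit 1058792206) (nat_lit 76) (nat_lit 19299518) (nat_lit 44) (nat_lit 3) (nat_lit 43) (nat_lit 1) (nat_lit 44) (nat_lit 1) (nat_lit 413) (nat_lit 371) (nat_lit 236))) (XT.nd (nat_lit 78) (nat_lit 152) (nat_lit 0) (XT.lf (nat_lit 76) (nat_lit 527161081) (nat_lit 0) (nat_lit 13771994) (nat_lit 76) (nat_lit 527784983) (nat_lit 41) (nat_lit 3) (nat_lit 40) (nat_lit 1) (nat_lit 41) (nat_lit 1) (nat_lit 414) (nat_lit 371) (nat_lit 235)) (XT.lf (nat_lit 0) (nat_lit 35564965) (nat_lit 0) (nat_lit 36115144) (nat_lit 152) (nat_lit 970127083) (nat_lit 38) (nat_lit 3) (nat_lit 38) (nat_lit 1) (nat_lit 40) (nat_lit 1) (nat_lit 415)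 (nat_lit 371) (nat_lit 234))))) (XT.nd (nat_lit 42198) (nat_lit 0) (nat_lit 19608) (XT.nd (nat_lit 78) (nat_lit 228) (nat_lit 0) (XT.lf (nat_lit 76) (nat_lit 447682293) (nat_lit 0) (nat_lit 119359348) (nat_lit 76) (nat_lit 448191717) (nat_lit 38) (nat_lit 3) (nat_lit 37) (nat_lit 1) (nat_lit 38) (nat_lit 1) (nat_lit 416) (nat_lit 371) (nat_lit 233)) (XT.nd (nat_lit 78) (nat_lit 76) (nat_lit 0) (XT.lf (nat_lit 0) (nat_lit 85122073) (nat_lit 0) (nat_lit 85571301) (nat_lit 152) (nat_lit 818941417) (nat_lit 35) (nat_lit 3) (nat_lit 35) (nat_lit 1) (nat_lit 37) (nat_lit 1) (nat_lit 417) (nat_lit 371) (nat_lit 232)) (XT.lf (nat_lit 76) (nat_lit 374959920) (nat_lit 0) (nat_lit 214102008) (nat_lit 76) (nat_lit 375375871) (nat_lit 35) (nat_lit 3) (nat_lit 34) (nat_lit 1) (nat_lit 35) (nat_lit 1) (nat_lit 418) (nat_lit 371) (nat_lit 231)))) (XT.nd (nat_lit 156) (nat_lit 0) (nat_lit 76) (XT.nd (nat_lit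 78) (nat_lit 0) (nat_lit 76) (XT.lf (nat_lit 836) (nat_lit 6306811553) (nat_lit 0) (nat_lit 11197729416) (nat_lit 836) (nat_lit 6306811553) (nat_lit 303) (nat_lit 1) (nat_lit 292) (nat_lit 0) (nat_lit 303) (nat_lit 0) (nat_lit 276) (nat_lit 372) (nat_lit 372)) (XT.lf (nat_lit 836) (nat_lit 2352634228) (nat_lit 0) (nat_lit 21984536611) (nat_lit 760) (nat_lit 21500803357) (nat_lit 304) (nat_lit 1) (nat_lit 293) (nat_lit 1) (nat_lit 303) (nat_lit 1) (nat_lit 277) (nat_lit 372) (nat_lit 371))) (XT.nd (nat_lit 78) (nat_lit 0) (nat_lit 76) (XT.lf (nat_lit 836) (nat_lit 21607587429) (nat_lit 76) (nat_lit 14723051579) (nat_lit 0) (nat_lit 7808434949) (nat_lit 304) (nat_lit 1) (nat_lit 294) (nat_lit 1) (nat_lit 293) (nat_lit 1) (nat_lit 278) (nat_lit 372) (nat_lit 370)) (XT.lf (nat_lit 836) (nat_lit 18670725658) (nat_lit 76) (nat_lit 6170328866) (nat_lit 0) (nat_lit 17684136471) (nat_lit 305) (nat_lit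 1) (nat_lit 295) (nat_lit 1) (nat_lit 294) (nat_lit 1) (nat_lit 279) (nat_lit 372) (nat_lit 369))))))) (XT.nd (nat_lit 1014) (nat_lit 3040) (nat_lit 0) (XT.nd (nat_lit 468) (nat_lit 1900) (nat_lit 0) (XT.nd (nat_lit 234) (nat_lit 1520) (nat_lit 0) (XT.nd (nat_lit 78) (nat_lit 0) (nat_lit 76) (XT.lf (nat_lit 836) (nat_lit 13817924317) (nat_lit 0) (nat_lit 25852683252) (nat_lit 760) (nat_lit 1321585474) (nat_lit 306) (nat_lit 1) (nat_lit 295) (nat_lit 1) (nat_lit 305) (nat_lit 1) (nat_lit 280) (nat_lit 372) (nat_lit 368)) (XT.nd (nat_lit 78) (nat_lit 0) (nat_lit 0) (XT.lf (nat_lit 836) (nat_lit 3315475458) (nat_lit 0) (nat_lit 28509765439) (nat_lit 760) (nat_lit 7707165575) (nat_lit 307) (nat_lit 1) (nat_lit 296) (nat_lit 1) (nat_lit 306) (nat_lit 1) (nat_lit 281) (nat_lit 372) (nat_lit 367)) (XT.lf (nat_lit 836) (nat_lit 6370995313) (nat_lit 76) (nat_lit 24777307816) (nat_lit 0) (nat_lit 6992461959)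 (nat_lit 307) (nat_lit 1) (nat_lit 297) (nat_lit 1) (nat_lit 296) (nat_lit 1) (nat_lit 282) (nat_lit 372) (nat_lit 366)))) (XT.nd (nat_lit 78) (nat_lit 912) (nat_lit 0) (XT.lf (nat_lit 836) (nat_lit 1308457159) (nat_lit 0) (nat_lit 18522676548) (nat_lit 760) (nat_lit 16985100317) (nat_lit 298) (nat_lit 1) (nat_lit 287) (nat_lit 1) (nat_lit 297) (nat_lit 1) (nat_lit 283) (nat_lit 372) (nat_lit 365)) (XT.nd (nat_lit 78) (nat_lit 380) (nat_lit 0) (XT.lf (nat_lit 76) (nat_lit 9060029933) (nat_lit 0) (nat_lit 3926132589) (nat_lit 532) (nat_lit 22568255705) (nat_lit 281) (nat_lit 1) (nat_lit 280) (nat_lit 1) (nat_lit 287) (nat_lit 1) (nat_lit 284) (nat_lit 372) (nat_lit 364)) (XT.lf (nat_lit 456) (nat_lit 24968302139) (nat_lit 0) (nat_lit 8127720619) (nat_lit 380) (nat_lit 1256595828) (nat_lit 281) (nat_lit 1) (nat_lit 275) (nat_lit 1) (nat_lit 280) (nat_lit 1) (nat_lit 285) (nat_lit 372) (nat_lit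 363))))) (XT.nd (nat_lit 234) (nat_lit 1216) (nat_lit 0) (XT.nd (nat_lit 78) (nat_lit 304) (nat_lit 0) (XT.lf (nat_lit 456) (nat_lit 18017364590) (nat_lit 0) (nat_lit 3788365592) (nat_lit 380) (nat_lit 11396763999) (nat_lit 276) (nat_lit 1) (nat_lit 270) (nat_lit 1) (nat_lit 275) (nat_lit 1) (nat_lit 286) (nat_lit 372) (nat_lit 362)) (XT.nd (nat_lit 78) (nat_lit 0) (nat_lit 0) (XT.lf (nat_lit 380) (nat_lit 10963336560) (nat_lit 0) (nat_lit 69749966) (nat_lit 304) (nat_lit 21075050279) (nat_lit 271) (nat_lit 1) (nat_lit 266) (nat_lit 1) (nat_lit 270) (nat_lit 1) (nat_lit 287) (nat_lit 372) (nat_lit 361)) (XT.lf (nat_lit 76) (nat_lit 808823158) (nat_lit 0) (nat_lit 27277436136) (nat_lit 380) (nat_lit 2977862531) (nat_lit 267) (nat_lit 1) (nat_lit 266) (nat_lit 1) (nat_lit 271) (nat_lit 1) (nat_lit 288) (nat_lit 372) (nat_lit 360)))) (XT.nd (nat_lit 156) (nat_lit 532) (nat_lit 0) (XT.nd (nat_lit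 78) (nat_lit 304) (nat_lit 0) (XT.lf (nat_lit 76) (nat_lit 20884023746) (nat_lit 0) (nat_lit 3463838795) (nat_lit 380) (nat_lit 5712499255) (nat_lit 262) (nat_lit 1) (nat_lit 261) (nat_lit 1) (nat_lit 266) (nat_lit 1) (nat_lit 289) (nat_lit 372) (nat_lit 359)) (XT.lf (nat_lit 76) (nat_lit 10448806294) (nat_lit 0) (nat_lit 10610353119) (nat_lit 380) (nat_lit 8041793589) (nat_lit 258) (nat_lit 1) (nat_lit 257) (nat_lit 1) (nat_lit 262) (nat_lit 1) (nat_lit 290) (nat_lit 372) (nat_lit 358))) (XT.nd (nat_lit 78) (nat_lit 228) (nat_lit 0) (XT.lf (nat_lit 76) (nat_lit 515729908) (nat_lit 0) (nat_lit 17740345660) (nat_lit 380) (nat_lit 9930893476) (nat_lit 254) (nat_lit 1) (nat_lit 253) (nat_lit 1) (nat_lit 258) (nat_lit 1) (nat_lit 291) (nat_lit 372) (nat_lit 357)) (XT.lf (nat_lit 304) (nat_lit 2329007202) (nat_lit 0) (nat_lit 15749960883) (nat_lit 228) (nat_lit 9229839051) (nat_lit 254) (nat_lit 1)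 (nat_lit 250) (nat_lit 1) (nat_lit 253) (nat_lit 1) (nat_lit 292) (nat_lit 372) (nat_lit 356)))))) (XT.nd (nat_lit 546) (nat_lit 1216) (nat_lit 0) (XT.nd (nat_lit 234) (nat_lit 988) (nat_lit 0) (XT.nd (nat_lit 78) (nat_lit 456) (nat_lit 0) (XT.lf (nat_lit 76) (nat_lit 8047346059) (nat_lit 0) (nat_lit 5515700993) (nat_lit 380) (nat_lit 12903876636) (nat_lit 246) (nat_lit 1) (nat_lit 245) (nat_lit 1) (nat_lit 250) (nat_lit 1) (nat_lit 293) (nat_lit 372) (nat_lit 355)) (XT.nd (nat_lit 78) (nat_lit 228) (nat_lit 0) (XT.lf (nat_lit 304) (nat_lit 12459227338) (nat_lit 0) (nat_lit 11703833766) (nat_lit 228) (nat_lit 1498076831) (nat_lit 246) (nat_lit 1) (nat_lit 242) (nat_lit 1) (nat_lit 245) (nat_lit 1) (nat_lit 294) (nat_lit 372) (nat_lit 354)) (XT.lf (nat_lit 304) (nat_lit 3993122170) (nat_lit 0) (nat_lit 10076521606) (nat_lit 228) (nat_lit 10816674979) (nat_lit 243) (nat_lit 1) (nat_lit 239) (nat_lit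 1) (nat_lit 242) (nat_lit 1) (nat_lit 295) (nat_lit 372) (nat_lit 353)))) (XT.nd (nat_lit 156) (nat_lit 456) (nat_lit 0) (XT.nd (nat_lit 78) (nat_lit 228) (nat_lit 0) (XT.lf (nat_lit 76) (nat_lit 4551194407) (nat_lit 0) (nat_lit 4167013987) (nat_lit 304) (nat_lit 15425470879) (nat_lit 236) (nat_lit 1) (nat_lit 235) (nat_lit 1) (nat_lit 239) (nat_lit 1) (nat_lit 296) (nat_lit 372) (nat_lit 352)) (XT.lf (nat_lit 304) (nat_lit 11325049940) (nat_lit 0) (nat_lit 7535268556) (nat_lit 228) (nat_lit 4567904573) (nat_lit 236) (nat_lit 1) (nat_lit 232) (nat_lit 1) (nat_lit 235) (nat_lit 1) (nat_lit 297) (nat_lit 372) (nat_lit 351))) (XT.nd (nat_lit 78) (nat_lit 304) (nat_lit 0) (XT.lf (nat_lit 228) (nat_lit 2807496602) (nat_lit 0) (nat_lit 6573972191) (nat_lit 152) (nat_lit 13360161571) (nat_lit 233) (nat_lit 1) (nat_lit 230) (nat_lit 1) (nat_lit 232) (nat_lit 1) (nat_lit 298) (nat_lit 372) (nat_lit 350))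 (XT.lf (nat_lit 76) (nat_lit 475607860) (nat_lit 0) (nat_lit 5322155212) (nat_lit 304) (nat_lit 16283888728) (nat_lit 227) (nat_lit 1) (nat_lit 226) (nat_lit 1) (nat_lit 230) (nat_lit 1) (nat_lit 299) (nat_lit 372) (nat_lit 349))))) (XT.nd (nat_lit 234) (nat_lit 684) (nat_lit 0) (XT.nd (nat_lit 78) (nat_lit 380) (nat_lit 0) (XT.lf (nat_lit 228) (nat_lit 8158069987) (nat_lit 0) (nat_lit 5098093862) (nat_lit 152) (nat_lit 8186460152) (nat_lit 227) (nat_lit 1) (nat_lit 224) (nat_lit 1) (nat_lit 226) (nat_lit 1) (nat_lit 300) (nat_lit 372) (nat_lit 348)) (XT.nd (nat_lit 78) (nat_lit 152) (nat_lit 0) (XT.lf (nat_lit 76) (nat_lit 4426227847) (nat_lit 0) (nat_lit 204450239) (nat_lit 228) (nat_lit 16200803087) (nat_lit 222) (nat_lit 1) (nat_lit 221) (nat_lit 1) (nat_lit 224) (nat_lit 1) (nat_lit 301) (nat_lit 372) (nat_lit 347)) (XT.lf (nat_lit 228) (nat_lit 12100452209) (nat_lit 0) (nat_lit 4193078005)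 (nat_lit 152) (nat_lit 3944585841) (nat_lit 222) (nat_lit 1) (nat_lit 219) (nat_lit 1) (nat_lit 221) (nat_lit 1) (nat_lit 302) (nat_lit 372) (nat_lit 346)))) (XT.nd (nat_lit 156) (nat_lit 304) (nat_lit 0) (XT.nd (nat_lit 78) (nat_lit 228) (nat_lit 0) (XT.lf (nat_lit 228) (nat_lit 3758885355) (nat_lit 0) (nat_lit 3897929683) (nat_lit 152) (nat_lit 12010622844) (nat_lit 220) (nat_lit 1) (nat_lit 217) (nat_lit 1) (nat_lit 219) (nat_lit 1) (nat_lit 303) (nat_lit 372) (nat_lit 345)) (XT.lf (nat_lit 228) (nat_lit 14921393430) (nat_lit 0) (nat_lit 3724155437) (nat_lit 152) (nat_lit 472452323) (nat_lit 217) (nat_lit 1) (nat_lit 214) (nat_lit 1) (nat_lit 216) (nat_lit 1) (nat_lit 304) (nat_lit 372) (nat_lit 344))) (XT.nd (nat_lit 78) (nat_lit 152) (nat_lit 0) (XT.lf (nat_lit 228) (nat_lit 6678124151) (nat_lit 0) (nat_lit 3555312855) (nat_lit 152) (nat_lit 8350394604) (nat_lit 215) (nat_lit 1) (nat_lit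 212) (nat_lit 1) (nat_lit 214) (nat_lit 1) (nat_lit 305) (nat_lit 372) (nat_lit 343)) (XT.lf (nat_lit 76) (nat_lit 2287515357) (nat_lit 0) (nat_lit 1257321518) (nat_lit 152) (nat_lit 14526981129) (nat_lit 211) (nat_lit 1) (nat_lit 210) (nat_lit 1) (nat_lit 212) (nat_lit 1) (nat_lit 306) (nat_lit 372) (nat_lit 342))))))))
noncomputable def ec92 : XT := (XT.nd (nat_lit 2028) (nat_lit 3268) (nat_lit 0) (XT.nd (nat_lit 1014) (nat_lit 1444) (nat_lit 0) (XT.nd (nat_lit 468) (nat_lit 988) (nat_lit 0) (XT.nd (nat_lit 234) (nat_lit 380) (nat_lit 0) (XT.nd (nat_lit 78) (nat_lit 304) (nat_lit 0) (XT.lf (nat_lit 228) (nat_lit 8762082950) (nat_lit 0) (nat_lit 3507300999) (nat_lit 152) (nat_lit 5303340626) (nat_lit 211) (nat_lit 1) (nat_lit 208) (nat_lit 1) (nat_lit 210) (nat_lit 1) (nat_lit 307) (nat_lit 372) (nat_lit 341)) (XT.nd (nat_lit 78) (nat_lit 228) (nat_lit 0) (XT.lf (nat_lit 152) (nat_lit 943551826)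 (nat_lit 0) (nat_lit 3593444844) (nat_lit 76) (nat_lit 12556338042) (nat_lit 209) (nat_lit 1) (nat_lit 207) (nat_lit 1) (nat_lit 208) (nat_lit 1) (nat_lit 308) (nat_lit 372) (nat_lit 340)) (XT.lf (nat_lit 228) (nat_lit 10185293608) (nat_lit 0) (nat_lit 3675135152) (nat_lit 152) (nat_lit 2766734347) (nat_lit 207) (nat_lit 1) (nat_lit 204) (nat_lit 1) (nat_lit 206) (nat_lit 1) (nat_lit 309) (nat_lit 372) (nat_lit 339)))) (XT.nd (nat_lit 78) (nat_lit 304) (nat_lit 0) (XT.lf (nat_lit 152) (nat_lit 2561676448) (nat_lit 0) (nat_lit 3812552159) (nat_lit 76) (nat_lit 9802473815) (nat_lit 205) (nat_lit 1) (nat_lit 203) (nat_lit 1) (nat_lit 204) (nat_lit 1) (nat_lit 310) (nat_lit 372) (nat_lit 338)) (XT.nd (nat_lit 78) (nat_lit 76) (nat_lit 0) (XT.lf (nat_lit 228) (nat_lit 11088867359) (nat_lit 0) (nat_lit 3996432677) (nat_lit 152) (nat_lit 655848813) (nat_lit 203) (nat_lit 1) (nat_lit 200) (nat_lit 1)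 (nat_lit 202) (nat_lit 1) (nat_lit 311) (nat_lit 372) (nat_lit 337)) (XT.lf (nat_lit 152) (nat_lit 3686603851) (nat_lit 0) (nat_lit 4166329088) (nat_lit 76) (nat_lit 7464338368) (nat_lit 201) (nat_lit 1) (nat_lit 199) (nat_lit 1) (nat_lit 200) (nat_lit 1) (nat_lit 312) (nat_lit 372) (nat_lit 336))))) (XT.nd (nat_lit 234) (nat_lit 456) (nat_lit 0) (XT.nd (nat_lit 78) (nat_lit 304) (nat_lit 0) (XT.lf (nat_lit 76) (nat_lit 1064100584) (nat_lit 0) (nat_lit 3339928087) (nat_lit 228) (nat_lit 10504592923) (nat_lit 197) (nat_lit 1) (nat_lit 196) (nat_lit 1) (nat_lit 199) (nat_lit 1) (nat_lit 313) (nat_lit 372) (nat_lit 335)) (XT.nd (nat_lit 78) (nat_lit 228) (nat_lit 0) (XT.lf (nat_lit 152) (nat_lit 4424257236) (nat_lit 0) (nat_lit 4609866335) (nat_lit 76) (nat_lit 5475996873) (nat_lit 197) (nat_lit 1) (nat_lit 195) (nat_lit 1) (nat_lit 196) (nat_lit 1) (nat_lit 314) (nat_lit 372) (nat_lit 334)) (XT.lf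 (nat_lit 76) (nat_lit 2474701741) (nat_lit 0) (nat_lit 2396915975) (nat_lit 228) (nat_lit 9254005885) (nat_lit 193) (nat_lit 1) (nat_lit 192) (nat_lit 1) (nat_lit 195) (nat_lit 1) (nat_lit 315) (nat_lit 372) (nat_lit 333)))) (XT.nd (nat_lit 156) (nat_lit 228) (nat_lit 0) (XT.nd (nat_lit 78) (nat_lit 152) (nat_lit 0) (XT.lf (nat_lit 152) (nat_lit 4860056501) (nat_lit 0) (nat_lit 5108107125) (nat_lit 76) (nat_lit 3782786881) (nat_lit 193) (nat_lit 1) (nat_lit 191) (nat_lit 1) (nat_lit 192) (nat_lit 1) (nat_lit 316) (nat_lit 372) (nat_lit 332)) (XT.lf (nat_lit 76) (nat_lit 3643333214) (nat_lit 0) (nat_lit 1735983086) (nat_lit 152) (nat_lit 8009334838) (nat_lit 190) (nat_lit 1) (nat_lit 189) (nat_lit 1) (nat_lit 191) (nat_lit 1) (nat_lit 317) (nat_lit 372) (nat_lit 331))) (XT.nd (nat_lit 78) (nat_lit 152) (nat_lit 0) (XT.lf (nat_lit 152) (nat_lit 5062749419) (nat_lit 0) (nat_lit 5633926990) (nat_lit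 76) (nat_lit 2339307569) (nat_lit 190) (nat_lit 1) (nat_lit 188) (nat_lit 1) (nat_lit 189) (nat_lit 1) (nat_lit 318) (nat_lit 372) (nat_lit 330)) (XT.lf (nat_lit 76) (nat_lit 4608477764) (nat_lit 0) (nat_lit 1295066018) (nat_lit 152) (nat_lit 6790620708) (nat_lit 187) (nat_lit 1) (nat_lit 186) (nat_lit 1) (nat_lit 188) (nat_lit 1) (nat_lit 319) (nat_lit 372) (nat_lit 329)))))) (XT.nd (nat_lit 468) (nat_lit 760) (nat_lit 0) (XT.nd (nat_lit 234) (nat_lit 380) (nat_lit 0) (XT.nd (nat_lit 78) (nat_lit 228) (nat_lit 0) (XT.lf (nat_lit 152) (nat_lit 5087535561) (nat_lit 0) (nat_lit 6166573198) (nat_lit 76) (nat_lit 1107774182) (nat_lit 187) (nat_lit 1) (nat_lit 185) (nat_lit 1) (nat_lit 186) (nat_lit 1) (nat_lit 320) (nat_lit 372) (nat_lit 328)) (XT.nd (nat_lit 78) (nat_lit 76) (nat_lit 0) (XT.lf (nat_lit 76) (nat_lit 5402118864) (nat_lit 0) (nat_lit 1024260026) (nat_lit 152) (nat_lit 5612646956) (nat_lit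 184) (nat_lit 1) (nat_lit 183) (nat_lit 1) (nat_lit 185) (nat_lit 1) (nat_lit 321) (nat_lit 372) (nat_lit 327)) (XT.lf (nat_lit 152) (nat_lit 4978612993) (nat_lit 0) (nat_lit 6690397370) (nat_lit 76) (nat_lit 56670909) (nat_lit 184) (nat_lit 1) (nat_lit 182) (nat_lit 1) (nat_lit 183) (nat_lit 1) (nat_lit 322) (nat_lit 372) (nat_lit 326)))) (XT.nd (nat_lit 78) (nat_lit 228) (nat_lit 0) (XT.lf (nat_lit 76) (nat_lit 6050891129) (nat_lit 0) (nat_lit 883536017) (nat_lit 152) (nat_lit 4486010954) (nat_lit 181) (nat_lit 1) (nat_lit 180) (nat_lit 1) (nat_lit 182) (nat_lit 1) (nat_lit 323) (nat_lit 372) (nat_lit 325)) (XT.nd (nat_lit 78) (nat_lit 152) (nat_lit 0) (XT.lf (nat_lit 0) (nat_lit 813455829) (nat_lit 0) (nat_lit 6366594974) (nat_lit 152) (nat_lit 3944021793) (nat_lit 179) (nat_lit 3) (nat_lit 179) (nat_lit 1) (nat_lit 181) (nat_lit 1) (nat_lit 324) (nat_lit 372) (nat_lit 324)) (XT.lf (nat_lit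 76) (nat_lit 6577022512) (nat_lit 0) (nat_lit 840879766) (nat_lit 152) (nat_lit 3417991984) (nat_lit 178) (nat_lit 1) (nat_lit 177) (nat_lit 1) (nat_lit 179) (nat_lit 1) (nat_lit 325) (nat_lit 372) (nat_lit 323))))) (XT.nd (nat_lit 234) (nat_lit 456) (nat_lit 0) (XT.nd (nat_lit 78) (nat_lit 228) (nat_lit 0) (XT.lf (nat_lit 0) (nat_lit 1554001574) (nat_lit 0) (nat_lit 6088212778) (nat_lit 152) (nat_lit 2913176414) (nat_lit 176) (nat_lit 3) (nat_lit 176) (nat_lit 1) (nat_lit 178) (nat_lit 1) (nat_lit 326) (nat_lit 372) (nat_lit 322)) (XT.nd (nat_lit 78) (nat_lit 76) (nat_lit 0) (XT.lf (nat_lit 76) (nat_lit 6999106283) (nat_lit 0) (nat_lit 870775674) (nat_lit 152) (nat_lit 2413253573) (nat_lit 175) (nat_lit 1) (nat_lit 174) (nat_lit 1) (nat_lit 176) (nat_lit 1) (nat_lit 327) (nat_lit 372) (nat_lit 321)) (XT.lf (nat_lit 0) (nat_lit 2184753271) (nat_lit 0) (nat_lit 5886996399) (nat_lit 152) (nat_lit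 1945765853) (nat_lit 173) (nat_lit 3) (nat_lit 173) (nat_lit 1) (nat_lit 175) (nat_lit 1) (nat_lit 328) (nat_lit 372) (nat_lit 320)))) (XT.nd (nat_lit 156) (nat_lit 228) (nat_lit 0) (XT.nd (nat_lit 78) (nat_lit 76) (nat_lit 0) (XT.lf (nat_lit 76) (nat_lit 7332733849) (nat_lit 0) (nat_lit 952971667) (nat_lit 152) (nat_lit 1474410978) (nat_lit 172) (nat_lit 1) (nat_lit 171) (nat_lit 1) (nat_lit 173) (nat_lit 1) (nat_lit 329) (nat_lit 372) (nat_lit 319)) (XT.lf (nat_lit 0) (nat_lit 2720864075) (nat_lit 0) (nat_lit 5743794318) (nat_lit 152) (nat_lit 1043825246) (nat_lit 170) (nat_lit 3) (nat_lit 170) (nat_lit 1) (nat_lit 172) (nat_lit 1) (nat_lit 330) (nat_lit 372) (nat_lit 318))) (XT.nd (nat_lit 78) (nat_lit 76) (nat_lit 0) (XT.lf (nat_lit 76) (nat_lit 7591013794) (nat_lit 0) (nat_lit 1071473451) (nat_lit 152) (nat_lit 602488908) (nat_lit 169) (nat_lit 1) (nat_lit 168) (nat_lit 1) (nat_lit 170)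 (nat_lit 1) (nat_lit 331) (nat_lit 372) (nat_lit 317)) (XT.lf (nat_lit 0) (nat_lit 3175149944) (nat_lit 0) (nat_lit 5643412277) (nat_lit 152) (nat_lit 207943942) (nat_lit 167) (nat_lit 3) (nat_lit 167) (nat_lit 1) (nat_lit 169) (nat_lit 1) (nat_lit 332) (nat_lit 372) (nat_lit 316))))))) (XT.nd (nat_lit 1014) (nat_lit 1672) (nat_lit 0) (XT.nd (nat_lit 468) (nat_lit 836) (nat_lit 0) (XT.nd (nat_lit 234) (nat_lit 304) (nat_lit 0) (XT.nd (nat_lit 78) (nat_lit 228) (nat_lit 0) (XT.lf (nat_lit 152) (nat_lit 7578854881) (nat_lit 0) (nat_lit 209412505) (nat_lit 76) (nat_lit 1007582904) (nat_lit 166) (nat_lit 1) (nat_lit 164) (nat_lit 1) (nat_lit 165) (nat_lit 1) (nat_lit 333) (nat_lit 372) (nat_lit 315)) (XT.nd (nat_lit 78) (nat_lit 152) (nat_lit 0) (XT.lf (nat_lit 76) (nat_lit 2986566611) (nat_lit 0) (nat_lit 580990397) (nat_lit 76) (nat_lit 5001935293) (nat_lit 164) (nat_lit 3) (nat_lit 163) (nat_lit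 1) (nat_lit 164) (nat_lit 1) (nat_lit 334) (nat_lit 372) (nat_lit 314)) (XT.lf (nat_lit 152) (nat_lit 6965763129) (nat_lit 0) (nat_lit 973466273) (nat_lit 76) (nat_lit 411679281) (nat_lit 163) (nat_lit 1) (nat_lit 161) (nat_lit 1) (nat_lit 162) (nat_lit 1) (nat_lit 335) (nat_lit 372) (nat_lit 313)))) (XT.nd (nat_lit 78) (nat_lit 228) (nat_lit 0) (XT.lf (nat_lit 76) (nat_lit 2590106791) (nat_lit 0) (nat_lit 1310486599) (nat_lit 76) (nat_lit 4235681847) (nat_lit 161) (nat_lit 3) (nat_lit 160) (nat_lit 1) (nat_lit 161) (nat_lit 1) (nat_lit 336) (nat_lit 372) (nat_lit 312)) (XT.nd (nat_lit 78) (nat_lit 76) (nat_lit 0) (XT.lf (nat_lit 0) (nat_lit 109324103) (nat_lit 0) (nat_lit 1560448491) (nat_lit 152) (nat_lit 6259337303) (nat_lit 158) (nat_lit 3) (nat_lit 158) (nat_lit 1) (nat_lit 160) (nat_lit 1) (nat_lit 337) (nat_lit 372) (nat_lit 311)) (XT.lf (nat_lit 76) (nat_lit 2203149284) (nat_lit 0) (nat_lit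 1975701311) (nat_lit 76) (nat_lit 3546782977) (nat_lit 158) (nat_lit 3) (nat_lit 157) (nat_lit 1) (nat_lit 158) (nat_lit 1) (nat_lit 338) (nat_lit 372) (nat_lit 310))))) (XT.nd (nat_lit 234) (nat_lit 456) (nat_lit 0) (XT.nd (nat_lit 78) (nat_lit 228) (nat_lit 0) (XT.lf (nat_lit 0) (nat_lit 555998414) (nat_lit 0) (nat_lit 1740860577) (nat_lit 152) (nat_lit 5232080233) (nat_lit 155) (nat_lit 3) (nat_lit 155) (nat_lit 1) (nat_lit 157) (nat_lit 1) (nat_lit 339) (nat_lit 372) (nat_lit 309)) (XT.nd (nat_lit 78) (nat_lit 152) (nat_lit 0) (XT.lf (nat_lit 76) (nat_lit 1830031477) (nat_lit 0) (nat_lit 2579123830) (nat_lit 76) (nat_lit 2927126072) (nat_lit 155) (nat_lit 3) (nat_lit 154) (nat_lit 1) (nat_lit 155) (nat_lit 1) (nat_lit 340) (nat_lit 372) (nat_lit 308)) (XT.lf (nat_lit 0) (nat_lit 948327000) (nat_lit 0) (nat_lit 1915782551) (nat_lit 152) (nat_lit 4285368523) (nat_lit 152) (nat_lit 3) (nat_lit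 152) (nat_lit 1) (nat_lit 154) (nat_lit 1) (nat_lit 341) (nat_lit 372) (nat_lit 307)))) (XT.nd (nat_lit 156) (nat_lit 228) (nat_lit 0) (XT.nd (nat_lit 78) (nat_lit 152) (nat_lit 0) (XT.lf (nat_lit 76) (nat_lit 1473837183) (nat_lit 0) (nat_lit 3123558115) (nat_lit 76) (nat_lit 2369629360) (nat_lit 152) (nat_lit 3) (nat_lit 151) (nat_lit 1) (nat_lit 152) (nat_lit 1) (nat_lit 342) (nat_lit 372) (nat_lit 306)) (XT.lf (nat_lit 0) (nat_lit 1292236320) (nat_lit 0) (nat_lit 2082176512) (nat_lit 152) (nat_lit 3415160517) (nat_lit 149) (nat_lit 3) (nat_lit 149) (nat_lit 1) (nat_lit 151) (nat_lit 1) (nat_lit 343) (nat_lit 372) (nat_lit 305))) (XT.nd (nat_lit 78) (nat_lit 152) (nat_lit 0) (XT.lf (nat_lit 76) (nat_lit 1136657664) (nat_lit 0) (nat_lit 3612010335) (nat_lit 76) (nat_lit 1868083767) (nat_lit 149) (nat_lit 3) (nat_lit 148) (nat_lit 1) (nat_lit 149) (nat_lit 1) (nat_lit 344) (nat_lit 372) (nat_lit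 304)) (XT.lf (nat_lit 0) (nat_lit 1592907622) (nat_lit 0) (nat_lit 2237904185) (nat_lit 152) (nat_lit 2617338207) (nat_lit 146) (nat_lit 3) (nat_lit 146) (nat_lit 1) (nat_lit 148) (nat_lit 1) (nat_lit 345) (nat_lit 372) (nat_lit 303)))))) (XT.nd (nat_lit 546) (nat_lit 836) (nat_lit 0) (XT.nd (nat_lit 234) (nat_lit 532) (nat_lit 0) (XT.nd (nat_lit 78) (nat_lit 228) (nat_lit 0) (XT.lf (nat_lit 76) (nat_lit 819802775) (nat_lit 0) (nat_lit 4047600634) (nat_lit 76) (nat_lit 1417021816) (nat_lit 146) (nat_lit 3) (nat_lit 145) (nat_lit 1) (nat_lit 146) (nat_lit 1) (nat_lit 346) (nat_lit 372) (nat_lit 302)) (XT.nd (nat_lit 78) (nat_lit 76) (nat_lit 0) (XT.lf (nat_lit 0) (nat_lit 1854889179) (nat_lit 0) (nat_lit 2381537363) (nat_lit 152) (nat_lit 1887776994) (nat_lit 143) (nat_lit 3) (nat_lit 143) (nat_lit 1) (nat_lit 145) (nat_lit 1) (nat_lit 347) (nat_lit 372) (nat_lit 301)) (XT.lf (nat_lit 76) (nat_lit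 523971516) (nat_lit 0) (nat_lit 4433494457) (nat_lit 76) (nat_lit 1011608723) (nat_lit 143) (nat_lit 3) (nat_lit 142) (nat_lit 1) (nat_lit 143) (nat_lit 1) (nat_lit 348) (nat_lit 372) (nat_lit 300)))) (XT.nd (nat_lit 156) (nat_lit 304) (nat_lit 0) (XT.nd (nat_lit 78) (nat_lit 76) (nat_lit 0) (XT.lf (nat_lit 0) (nat_lit 2082189566) (nat_lit 0) (nat_lit 2512204740) (nat_lit 152) (nat_lit 1222399069) (nat_lit 140) (nat_lit 3) (nat_lit 140) (nat_lit 1) (nat_lit 142) (nat_lit 1) (nat_lit 349) (nat_lit 372) (nat_lit 299)) (XT.lf (nat_lit 76) (nat_lit 249389532) (nat_lit 0) (nat_lit 4772849632) (nat_lit 76) (nat_lit 647551730) (nat_lit 140) (nat_lit 3) (nat_lit 139) (nat_lit 1) (nat_lit 140) (nat_lit 1) (nat_lit 350) (nat_lit 372) (nat_lit 298))) (XT.nd (nat_lit 78) (nat_lit 152) (nat_lit 0) (XT.lf (nat_lit 0) (nat_lit 2278355317) (nat_lit 0) (nat_lit 2629468366) (nat_lit 152) (nat_lit 617213648) (nat_lit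 137) (nat_lit 3) (nat_lit 137) (nat_lit 1) (nat_lit 139) (nat_lit 1) (nat_lit 351) (nat_lit 372) (nat_lit 297)) (XT.lf (nat_lit 76) (nat_lit 5064759575) (nat_lit 0) (nat_lit 3949647) (nat_lit 152) (nat_lit 317007897) (nat_lit 136) (nat_lit 1) (nat_lit 135) (nat_lit 1) (nat_lit 137) (nat_lit 1) (nat_lit 352) (nat_lit 372) (nat_lit 296))))) (XT.nd (nat_lit 234) (nat_lit 456) (nat_lit 0) (XT.nd (nat_lit 78) (nat_lit 304) (nat_lit 0) (XT.lf (nat_lit 0) (nat_lit 2446535768) (nat_lit 0) (nat_lit 2733224194) (nat_lit 152) (nat_lit 68346676) (nat_lit 134) (nat_lit 3) (nat_lit 134) (nat_lit 1) (nat_lit 136) (nat_lit 1) (nat_lit 353) (nat_lit 372) (nat_lit 295)) (XT.nd (nat_lit 78) (nat_lit 76) (nat_lit 0) (XT.lf (nat_lit 152) (nat_lit 4883143432) (nat_lit 0) (nat_lit 211310695) (nat_lit 76) (nat_lit 21256593) (nat_lit 133) (nat_lit 1) (nat_lit 131) (nat_lit 1) (nat_lit 132) (nat_lit 1) (nat_lit 354) (nat_lit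 372) (nat_lit 294)) (XT.lf (nat_lit 76) (nat_lit 2154352110) (nat_lit 0) (nat_lit 442087430) (nat_lit 76) (nat_lit 2388436984) (nat_lit 131) (nat_lit 3) (nat_lit 130) (nat_lit 1) (nat_lit 131) (nat_lit 1) (nat_lit 355) (nat_lit 372) (nat_lit 293)))) (XT.nd (nat_lit 156) (nat_lit 228) (nat_lit 0) (XT.nd (nat_lit 78) (nat_lit 76) (nat_lit 0) (XT.lf (nat_lit 0) (nat_lit 243537976) (nat_lit 0) (nat_lit 449962027) (nat_lit 152) (nat_lit 4165464528) (nat_lit 128) (nat_lit 3) (nat_lit 128) (nat_lit 1) (nat_lit 130) (nat_lit 1) (nat_lit 356) (nat_lit 372) (nat_lit 292)) (XT.lf (nat_lit 76) (nat_lit 1819823286) (nat_lit 0) (nat_lit 904162203) (nat_lit 76) (nat_lit 2010956666) (nat_lit 128) (nat_lit 3) (nat_lit 127) (nat_lit 1) (nat_lit 128) (nat_lit 1) (nat_lit 357) (nat_lit 372) (nat_lit 291))) (XT.nd (nat_lit 78) (nat_lit 76) (nat_lit 0) (XT.lf (nat_lit 0) (nat_lit 479210346) (nat_lit 0) (nat_lit 647758300)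 (nat_lit 152) (nat_lit 3488253150) (nat_lit 125) (nat_lit 3) (nat_lit 125) (nat_lit 1) (nat_lit 127) (nat_lit 1) (nat_lit 358) (nat_lit 372) (nat_lit 290)) (XT.lf (nat_lit 76) (nat_lit 1511224141) (nat_lit 0) (nat_lit 1319152289) (nat_lit 76) (nat_lit 1667287062) (nat_lit 125) (nat_lit 3) (nat_lit 124) (nat_lit 1) (nat_lit 125) (nat_lit 1) (nat_lit 359) (nat_lit 372) (nat_lit 289))))))))
noncomputable def ec93 : XT := (XT.nd (nat_lit 2106) (nat_lit 3344) (nat_lit 0) (XT.nd (nat_lit 1014) (nat_lit 1672) (nat_lit 0) (XT.nd (nat_lit 468) (nat_lit 836) (nat_lit 0) (XT.nd (nat_lit 234) (nat_lit 304) (nat_lit 0) (XT.nd (nat_lit 78) (nat_lit 228) (nat_lit 0) (XT.lf (nat_lit 0) (nat_lit 688930335) (nat_lit 0) (nat_lit 826551958) (nat_lit 152) (nat_lit 2868340061) (nat_lit 122) (nat_lit 3) (nat_lit 122) (nat_lit 1) (nat_lit 124) (nat_lit 1) (nat_lit 360) (nat_lit 372) (nat_lit 288)) (XT.nd (nat_lit 78)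 (nat_lit 152) (nat_lit 0) (XT.lf (nat_lit 76) (nat_lit 1227268783) (nat_lit 0) (nat_lit 1690419463) (nat_lit 76) (nat_lit 1354696212) (nat_lit 122) (nat_lit 3) (nat_lit 121) (nat_lit 1) (nat_lit 122) (nat_lit 1) (nat_lit 361) (nat_lit 372) (nat_lit 287)) (XT.lf (nat_lit 0) (nat_lit 874957887) (nat_lit 0) (nat_lit 987327753) (nat_lit 152) (nat_lit 2301841580) (nat_lit 119) (nat_lit 3) (nat_lit 119) (nat_lit 1) (nat_lit 121) (nat_lit 1) (nat_lit 362) (nat_lit 372) (nat_lit 286)))) (XT.nd (nat_lit 78) (nat_lit 228) (nat_lit 0) (XT.lf (nat_lit 76) (nat_lit 966644219) (nat_lit 0) (nat_lit 2021150754) (nat_lit 76) (nat_lit 1070690392) (nat_lit 119) (nat_lit 3) (nat_lit 118) (nat_lit 1) (nat_lit 119) (nat_lit 1) (nat_lit 363) (nat_lit 372) (nat_lit 285)) (XT.nd (nat_lit 78) (nat_lit 76) (nat_lit 0) (XT.lf (nat_lit 0) (nat_lit 1039349379) (nat_lit 0) (nat_lit 1131100854) (nat_lit 152) (nat_lit 1785082406)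 (nat_lit 116) (nat_lit 3) (nat_lit 116) (nat_lit 1) (nat_lit 118) (nat_lit 1) (nat_lit 364) (nat_lit 372) (nat_lit 284)) (XT.lf (nat_lit 76) (nat_lit 728033210) (nat_lit 0) (nat_lit 2314359009) (nat_lit 76) (nat_lit 812988279) (nat_lit 116) (nat_lit 3) (nat_lit 115) (nat_lit 1) (nat_lit 116) (nat_lit 1) (nat_lit 365) (nat_lit 372) (nat_lit 283))))) (XT.nd (nat_lit 234) (nat_lit 456) (nat_lit 0) (XT.nd (nat_lit 78) (nat_lit 228) (nat_lit 0) (XT.lf (nat_lit 0) (nat_lit 1183979885) (nat_lit 0) (nat_lit 1258896172) (nat_lit 152) (nat_lit 1314591719) (nat_lit 113) (nat_lit 3) (nat_lit 113) (nat_lit 1) (nat_lit 115) (nat_lit 1) (nat_lit 366) (nat_lit 372) (nat_lit 282)) (XT.nd (nat_lit 78) (nat_lit 152) (nat_lit 0) (XT.lf (nat_lit 76) (nat_lit 510131782) (nat_lit 0) (nat_lit 2572885415) (nat_lit 76) (nat_lit 579498714) (nat_lit 113) (nat_lit 3) (nat_lit 112) (nat_lit 1) (nat_lit 113) (nat_lit 1) (nat_lit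 367) (nat_lit 372) (nat_lit 281)) (XT.lf (nat_lit 0) (nat_lit 1310562341) (nat_lit 0) (nat_lit 1371732476) (nat_lit 152) (nat_lit 887097800) (nat_lit 110) (nat_lit 3) (nat_lit 110) (nat_lit 1) (nat_lit 112) (nat_lit 1) (nat_lit 368) (nat_lit 372) (nat_lit 280)))) (XT.nd (nat_lit 156) (nat_lit 228) (nat_lit 0) (XT.nd (nat_lit 78) (nat_lit 152) (nat_lit 0) (XT.lf (nat_lit 76) (nat_lit 311662454) (nat_lit 0) (nat_lit 2799403514) (nat_lit 76) (nat_lit 368301468) (nat_lit 110) (nat_lit 3) (nat_lit 109) (nat_lit 1) (nat_lit 110) (nat_lit 1) (nat_lit 369) (nat_lit 372) (nat_lit 279)) (XT.lf (nat_lit 0) (nat_lit 1420664138) (nat_lit 0) (nat_lit 1470610358) (nat_lit 152) (nat_lit 499521567) (nat_lit 107) (nat_lit 3) (nat_lit 107) (nat_lit 1) (nat_lit 109) (nat_lit 1) (nat_lit 370) (nat_lit 372) (nat_lit 278))) (XT.nd (nat_lit 78) (nat_lit 152) (nat_lit 0) (XT.lf (nat_lit 76) (nat_lit 131384031) (nat_lit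 0) (nat_lit 2996424292) (nat_lit 76) (nat_lit 177630531) (nat_lit 107) (nat_lit 3) (nat_lit 106) (nat_lit 1) (nat_lit 107) (nat_lit 1) (nat_lit 371) (nat_lit 372) (nat_lit 277)) (XT.lf (nat_lit 0) (nat_lit 1515721531) (nat_lit 0) (nat_lit 1556503277) (nat_lit 152) (nat_lit 148969372) (nat_lit 104) (nat_lit 3) (nat_lit 104) (nat_lit 1) (nat_lit 106) (nat_lit 1) (nat_lit 372) (nat_lit 372) (nat_lit 276)))))) (XT.nd (nat_lit 546) (nat_lit 760) (nat_lit 0) (XT.nd (nat_lit 234) (nat_lit 456) (nat_lit 0) (XT.nd (nat_lit 78) (nat_lit 228) (nat_lit 0) (XT.lf (nat_lit 152) (nat_lit 3108922417) (nat_lit 0) (nat_lit 26388346) (nat_lit 76) (nat_lit 4903957) (nat_lit 103) (nat_lit 1) (nat_lit 101) (nat_lit 1) (nat_lit 102) (nat_lit 1) (nat_lit 373) (nat_lit 372) (nat_lit 275)) (XT.nd (nat_lit 78) (nat_lit 152) (nat_lit 0) (XT.lf (nat_lit 76) (nat_lit 1426944640) (nat_lit 0) (nat_lit 172805573) (nat_lit 76)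 (nat_lit 1460243473) (nat_lit 101) (nat_lit 3) (nat_lit 100) (nat_lit 1) (nat_lit 101) (nat_lit 1) (nat_lit 374) (nat_lit 372) (nat_lit 274)) (XT.lf (nat_lit 0) (nat_lit 151932529) (nat_lit 0) (nat_lit 181296578) (nat_lit 152) (nat_lit 2649632549) (nat_lit 98) (nat_lit 3) (nat_lit 98) (nat_lit 1) (nat_lit 100) (nat_lit 1) (nat_lit 375) (nat_lit 372) (nat_lit 273)))) (XT.nd (nat_lit 156) (nat_lit 228) (nat_lit 0) (XT.nd (nat_lit 78) (nat_lit 152) (nat_lit 0) (XT.lf (nat_lit 76) (nat_lit 1206458840) (nat_lit 0) (nat_lit 466694024) (nat_lit 76) (nat_lit 1233647775) (nat_lit 98) (nat_lit 3) (nat_lit 97) (nat_lit 1) (nat_lit 98) (nat_lit 1) (nat_lit 376) (nat_lit 372) (nat_lit 272)) (XT.lf (nat_lit 0) (nat_lit 292373803) (nat_lit 0) (nat_lit 316349936) (nat_lit 152) (nat_lit 2224713078) (nat_lit 95) (nat_lit 3) (nat_lit 95) (nat_lit 1) (nat_lit 97) (nat_lit 1) (nat_lit 377) (nat_lit 372) (nat_lit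 271))) (XT.nd (nat_lit 78) (nat_lit 152) (nat_lit 0) (XT.lf (nat_lit 76) (nat_lit 1004443834) (nat_lit 0) (nat_lit 730233833) (nat_lit 76) (nat_lit 1026643957) (nat_lit 95) (nat_lit 3) (nat_lit 94) (nat_lit 1) (nat_lit 95) (nat_lit 1) (nat_lit 378) (nat_lit 372) (nat_lit 270)) (XT.lf (nat_lit 0) (nat_lit 417868761) (nat_lit 0) (nat_lit 437445589) (nat_lit 152) (nat_lit 1836226028) (nat_lit 92) (nat_lit 3) (nat_lit 92) (nat_lit 1) (nat_lit 94) (nat_lit 1) (nat_lit 379) (nat_lit 372) (nat_lit 269))))) (XT.nd (nat_lit 234) (nat_lit 456) (nat_lit 0) (XT.nd (nat_lit 78) (nat_lit 228) (nat_lit 0) (XT.lf (nat_lit 76) (nat_lit 819654004) (nat_lit 0) (nat_lit 965729920) (nat_lit 76) (nat_lit 837780697) (nat_lit 92) (nat_lit 3) (nat_lit 91) (nat_lit 1) (nat_lit 92) (nat_lit 1) (nat_lit 380) (nat_lit 372) (nat_lit 268)) (XT.nd (nat_lit 78) (nat_lit 76) (nat_lit 0) (XT.lf (nat_lit 0) (nat_lit 529612464)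 (nat_lit 0) (nat_lit 545597202) (nat_lit 152) (nat_lit 1481580012) (nat_lit 89) (nat_lit 3) (nat_lit 89) (nat_lit 1) (nat_lit 91) (nat_lit 1) (nat_lit 381) (nat_lit 372) (nat_lit 267)) (XT.lf (nat_lit 76) (nat_lit 650910139) (nat_lit 0) (nat_lit 1175336985) (nat_lit 76) (nat_lit 665710822) (nat_lit 89) (nat_lit 3) (nat_lit 88) (nat_lit 1) (nat_lit 89) (nat_lit 1) (nat_lit 382) (nat_lit 372) (nat_lit 266)))) (XT.nd (nat_lit 156) (nat_lit 228) (nat_lit 0) (XT.nd (nat_lit 78) (nat_lit 76) (nat_lit 0) (XT.lf (nat_lit 0) (nat_lit 628710918) (nat_lit 0) (nat_lit 641762666) (nat_lit 152) (nat_lit 1158348300) (nat_lit 86) (nat_lit 3) (nat_lit 86) (nat_lit 1) (nat_lit 88) (nat_lit 1) (nat_lit 383) (nat_lit 372) (nat_lit 265)) (XT.lf (nat_lit 76) (nat_lit 497098259) (nat_lit 0) (nat_lit 1361067663) (nat_lit 76) (nat_lit 509183212) (nat_lit 86) (nat_lit 3) (nat_lit 85) (nat_lit 1) (nat_lit 86) (nat_lit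 1) (nat_lit 384) (nat_lit 372) (nat_lit 264))) (XT.nd (nat_lit 78) (nat_lit 76) (nat_lit 0) (XT.lf (nat_lit 0) (nat_lit 716188115) (nat_lit 0) (nat_lit 726845040) (nat_lit 152) (nat_lit 864259753) (nat_lit 83) (nat_lit 3) (nat_lit 83) (nat_lit 1) (nat_lit 85) (nat_lit 1) (nat_lit 385) (nat_lit 372) (nat_lit 263)) (XT.lf (nat_lit 76) (nat_lit 357167958) (nat_lit 0) (nat_lit 1524800454) (nat_lit 76) (nat_lit 367035481) (nat_lit 83) (nat_lit 3) (nat_lit 82) (nat_lit 1) (nat_lit 83) (nat_lit 1) (nat_lit 386) (nat_lit 372) (nat_lit 262))))))) (XT.nd (nat_lit 1014) (nat_lit 1748) (nat_lit 0) (XT.nd (nat_lit 468) (nat_lit 912) (nat_lit 0) (XT.nd (nat_lit 234) (nat_lit 304) (nat_lit 0) (XT.nd (nat_lit 78) (nat_lit 228) (nat_lit 0) (XT.lf (nat_lit 0) (nat_lit 792992401) (nat_lit 0) (nat_lit 801693920) (nat_lit 152) (nat_lit 597190073) (nat_lit 80) (nat_lit 3) (nat_lit 80) (nat_lit 1) (nat_lit 82) (nat_lit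 1) (nat_lit 387) (nat_lit 372) (nat_lit 261)) (XT.nd (nat_lit 78) (nat_lit 152) (nat_lit 0) (XT.lf (nat_lit 76) (nat_lit 230130383) (nat_lit 0) (nat_lit 1668287395) (nat_lit 76) (nat_lit 238187346) (nat_lit 80) (nat_lit 3) (nat_lit 79) (nat_lit 1) (nat_lit 80) (nat_lit 1) (nat_lit 388) (nat_lit 372) (nat_lit 260)) (XT.lf (nat_lit 0) (nat_lit 860002235) (nat_lit 0) (nat_lit 867107140) (nat_lit 152) (nat_lit 355153383) (nat_lit 77) (nat_lit 3) (nat_lit 77) (nat_lit 1) (nat_lit 79) (nat_lit 1) (nat_lit 389) (nat_lit 372) (nat_lit 259)))) (XT.nd (nat_lit 78) (nat_lit 228) (nat_lit 0) (XT.lf (nat_lit 76) (nat_lit 115055967) (nat_lit 0) (nat_lit 1793161450) (nat_lit 76) (nat_lit 121634582) (nat_lit 77) (nat_lit 3) (nat_lit 76) (nat_lit 1) (nat_lit 77) (nat_lit 1) (nat_lit 390) (nat_lit 372) (nat_lit 258)) (XT.nd (nat_lit 78) (nat_lit 76) (nat_lit 0) (XT.lf (nat_lit 0) (nat_lit 918031446) (nat_lit 0)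 (nat_lit 923832695) (nat_lit 152) (nat_lit 136294163) (nat_lit 74) (nat_lit 3) (nat_lit 74) (nat_lit 1) (nat_lit 76) (nat_lit 1) (nat_lit 391) (nat_lit 372) (nat_lit 257)) (XT.lf (nat_lit 76) (nat_lit 11071992) (nat_lit 0) (nat_lit 1900943587) (nat_lit 76) (nat_lit 16443518) (nat_lit 74) (nat_lit 3) (nat_lit 73) (nat_lit 1) (nat_lit 74) (nat_lit 1) (nat_lit 392) (nat_lit 372) (nat_lit 256))))) (XT.nd (nat_lit 234) (nat_lit 456) (nat_lit 0) (XT.nd (nat_lit 78) (nat_lit 228) (nat_lit 0) (XT.lf (nat_lit 76) (nat_lit 905678453) (nat_lit 0) (nat_lit 63141379) (nat_lit 76) (nat_lit 910415249) (nat_lit 71) (nat_lit 3) (nat_lit 70) (nat_lit 1) (nat_lit 71) (nat_lit 1) (nat_lit 393) (nat_lit 372) (nat_lit 255)) (XT.nd (nat_lit 78) (nat_lit 76) (nat_lit 0) (XT.lf (nat_lit 0) (nat_lit 79677245) (nat_lit 0) (nat_lit 83854314) (nat_lit 152) (nat_lit 1668366552) (nat_lit 68) (nat_lit 3) (nat_lit 68) (nat_lit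 1) (nat_lit 70) (nat_lit 1) (nat_lit 394) (nat_lit 372) (nat_lit 254)) (XT.lf (nat_lit 76) (nat_lit 767357783) (nat_lit 0) (nat_lit 246600821) (nat_lit 76) (nat_lit 771225439) (nat_lit 68) (nat_lit 3) (nat_lit 67) (nat_lit 1) (nat_lit 68) (nat_lit 1) (nat_lit 395) (nat_lit 372) (nat_lit 253)))) (XT.nd (nat_lit 156) (nat_lit 228) (nat_lit 0) (XT.nd (nat_lit 78) (nat_lit 76) (nat_lit 0) (XT.lf (nat_lit 0) (nat_lit 166056422) (nat_lit 0) (nat_lit 169467053) (nat_lit 152) (nat_lit 1404632727) (nat_lit 65) (nat_lit 3) (nat_lit 65) (nat_lit 1) (nat_lit 67) (nat_lit 1) (nat_lit 396) (nat_lit 372) (nat_lit 252)) (XT.lf (nat_lit 76) (nat_lit 640784092) (nat_lit 0) (nat_lit 411136801) (nat_lit 76) (nat_lit 643942084) (nat_lit 65) (nat_lit 3) (nat_lit 64) (nat_lit 1) (nat_lit 65) (nat_lit 1) (nat_lit 397) (nat_lit 372) (nat_lit 251))) (XT.nd (nat_lit 78) (nat_lit 76) (nat_lit 0) (XT.lf (nat_lit 0) (nat_lit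 243358304) (nat_lit 0) (nat_lit 246143130) (nat_lit 152) (nat_lit 1163529720) (nat_lit 62) (nat_lit 3) (nat_lit 62) (nat_lit 1) (nat_lit 64) (nat_lit 1) (nat_lit 398) (nat_lit 372) (nat_lit 250)) (XT.lf (nat_lit 76) (nat_lit 525125351) (nat_lit 0) (nat_lit 558203388) (nat_lit 76) (nat_lit 527703893) (nat_lit 62) (nat_lit 3) (nat_lit 61) (nat_lit 1) (nat_lit 62) (nat_lit 1) (nat_lit 399) (nat_lit 372) (nat_lit 249)))))) (XT.nd (nat_lit 546) (nat_lit 912) (nat_lit 0) (XT.nd (nat_lit 234) (nat_lit 456) (nat_lit 0) (XT.nd (nat_lit 78) (nat_lit 228) (nat_lit 0) (XT.lf (nat_lit 0) (nat_lit 312291487) (nat_lit 0) (nat_lit 314565333) (nat_lit 152) (nat_lit 943432481) (nat_lit 59) (nat_lit 3) (nat_lit 59) (nat_lit 1) (nat_lit 61) (nat_lit 1) (nat_lit 400) (nat_lit 372) (nat_lit 248)) (XT.nd (nat_lit 78) (nat_lit 152) (nat_lit 0) (XT.lf (nat_lit 76) (nat_lit 419602241) (nat_lit 0) (nat_lit 689156064) (nat_lit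 76) (nat_lit 421707655) (nat_lit 59) (nat_lit 3) (nat_lit 58) (nat_lit 1) (nat_lit 59) (nat_lit 1) (nat_lit 401) (nat_lit 372) (nat_lit 247)) (XT.lf (nat_lit 0) (nat_lit 373514875) (nat_lit 0) (nat_lit 375371501) (nat_lit 152) (nat_lit 742822523) (nat_lit 56) (nat_lit 3) (nat_lit 56) (nat_lit 1) (nat_lit 58) (nat_lit 1) (nat_lit 402) (nat_lit 372) (nat_lit 246)))) (XT.nd (nat_lit 156) (nat_lit 228) (nat_lit 0) (XT.nd (nat_lit 78) (nat_lit 152) (nat_lit 0) (XT.lf (nat_lit 76) (nat_lit 323485271) (nat_lit 0) (nat_lit 805257847) (nat_lit 76) (nat_lit 325204369) (nat_lit 56) (nat_lit 3) (nat_lit 55) (nat_lit 1) (nat_lit 56) (nat_lit 1) (nat_lit 403) (nat_lit 372) (nat_lit 245)) (XT.lf (nat_lit 0) (nat_lit 427641075) (nat_lit 0) (nat_lit 429157034) (nat_lit 152) (nat_lit 560281402) (nat_lit 53) (nat_lit 3) (nat_lit 53) (nat_lit 1) (nat_lit 55) (nat_lit 1) (nat_lit 404) (nat_lit 372) (nat_lit 244)))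 (XT.nd (nat_lit 78) (nat_lit 152) (nat_lit 0) (XT.lf (nat_lit 76) (nat_lit 236091979) (nat_lit 0) (nat_lit 907685086) (nat_lit 76) (nat_lit 237495645) (nat_lit 53) (nat_lit 3) (nat_lit 52) (nat_lit 1) (nat_lit 53) (nat_lit 1) (nat_lit 405) (nat_lit 372) (nat_lit 243)) (XT.lf (nat_lit 0) (nat_lit 475239534) (nat_lit 0) (nat_lit 476477335) (nat_lit 152) (nat_lit 394484549) (nat_lit 50) (nat_lit 3) (nat_lit 50) (nat_lit 1) (nat_lit 52) (nat_lit 1) (nat_lit 406) (nat_lit 372) (nat_lit 242))))) (XT.nd (nat_lit 234) (nat_lit 608) (nat_lit 0) (XT.nd (nat_lit 78) (nat_lit 228) (nat_lit 0) (XT.lf (nat_lit 76) (nat_lit 156784248) (nat_lit 0) (nat_lit 997532927) (nat_lit 76) (nat_lit 157930360) (nat_lit 50) (nat_lit 3) (nat_lit 49) (nat_lit 1) (nat_lit 50) (nat_lit 1) (nat_lit 407) (nat_lit 372) (nat_lit 241)) (XT.nd (nat_lit 78) (nat_lit 76) (nat_lit 0) (XT.lf (nat_lit 0) (nat_lit 516839465) (nat_lit 0)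 (nat_lit 517850145) (nat_lit 152) (nat_lit 244195459) (nat_lit 47) (nat_lit 3) (nat_lit 47) (nat_lit 1) (nat_lit 49) (nat_lit 1) (nat_lit 408) (nat_lit 372) (nat_lit 240)) (XT.lf (nat_lit 76) (nat_lit 84965728) (nat_lit 0) (nat_lit 1075820462) (nat_lit 76) (nat_lit 85901543) (nat_lit 47) (nat_lit 3) (nat_lit 46) (nat_lit 1) (nat_lit 47) (nat_lit 1) (nat_lit 409) (nat_lit 372) (nat_lit 239)))) (XT.nd (nat_lit 156) (nat_lit 380) (nat_lit 0) (XT.nd (nat_lit 78) (nat_lit 76) (nat_lit 0) (XT.lf (nat_lit 0) (nat_lit 552932555) (nat_lit 0) (nat_lit 553757789) (nat_lit 152) (nat_lit 108260211) (nat_lit 44) (nat_lit 3) (nat_lit 44) (nat_lit 1) (nat_lit 46) (nat_lit 1) (nat_lit 410) (nat_lit 372) (nat_lit 238)) (XT.lf (nat_lit 76) (nat_lit 20079374) (nat_lit 0) (nat_lit 1143495583) (nat_lit 76) (nat_lit 20843479) (nat_lit 44) (nat_lit 3) (nat_lit 43) (nat_lit 1) (nat_lit 44) (nat_lit 1) (nat_lit 411) (nat_lit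 372) (nat_lit 237))) (XT.nd (nat_lit 78) (nat_lit 152) (nat_lit 0) (XT.lf (nat_lit 76) (nat_lit 569333967) (nat_lit 0) (nat_lit 14873754) (nat_lit 76) (nat_lit 570007782) (nat_lit 41) (nat_lit 3) (nat_lit 40) (nat_lit 1) (nat_lit 41) (nat_lit 1) (nat_lit 412) (nat_lit 372) (nat_lit 236)) (XT.lf (nat_lit 0) (nat_lit 38410162) (nat_lit 0) (nat_lit 39004355) (nat_lit 152) (nat_lit 1047737249) (nat_lit 38) (nat_lit 3) (nat_lit 38) (nat_lit 1) (nat_lit 40) (nat_lit 1) (nat_lit 413) (nat_lit 372) (nat_lit 235))))))))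
noncomputable def ec94 : XT := (XT.nd (nat_lit 43836) (nat_lit 0) (nat_lit 11324) (XT.nd (nat_lit 42822) (nat_lit 0) (nat_lit 15504) (XT.nd (nat_lit 42276) (nat_lit 0) (nat_lit 19456) (XT.nd (nat_lit 234) (nat_lit 228) (nat_lit 0) (XT.nd (nat_lit 78) (nat_lit 228) (nat_lit 0) (XT.lf (nat_lit 76) (nat_lit 483496876) (nat_lit 0) (nat_lit 128908096) (nat_lit 76) (nat_lit 484047054) (nat_lit 38) (nat_lit 3) (nat_lit 37) (nat_lit 1) (nat_lit 38) (nat_lit 1) (nat_lit 414) (nat_lit 372) (nat_lit 234)) (XT.nd (nat_lit 78) (nat_lit 76) (nat_lit 0) (XT.lf (nat_lit 0) (nat_lit 91931839) (nat_lit 0) (nat_lit 92417005) (nat_lit 152) (nat_lit 884456730) (nat_lit 35) (nat_lit 3) (nat_lit 35) (nat_lit 1) (nat_lit 37) (nat_lit 1) (nat_lit 415) (nat_lit 372) (nat_lit 233)) (XT.lf (nat_lit 76) (nat_lit 404956713) (nat_lit 0) (nat_lit 231230168) (nat_lit 76) (nat_lit 405405941) (nat_lit 35) (nat_lit 3) (nat_lit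 34) (nat_lit 1) (nat_lit 35) (nat_lit 1) (nat_lit 416) (nat_lit 372) (nat_lit 232)))) (XT.nd (nat_lit 78) (nat_lit 76) (nat_lit 0) (XT.lf (nat_lit 0) (nat_lit 139869126) (nat_lit 0) (nat_lit 140265271) (nat_lit 152) (nat_lit 735159924) (nat_lit 32) (nat_lit 3) (nat_lit 32) (nat_lit 1) (nat_lit 34) (nat_lit 1) (nat_lit 417) (nat_lit 372) (nat_lit 231)) (XT.nd (nat_lit 41886) (nat_lit 0) (nat_lit 19836) (XT.lf (nat_lit 76) (nat_lit 333191609) (nat_lit 0) (nat_lit 322741122) (nat_lit 76) (nat_lit 333558410) (nat_lit 32) (nat_lit 3) (nat_lit 31) (nat_lit 1) (nat_lit 32) (nat_lit 1) (nat_lit 418) (nat_lit 372) (nat_lit 230)) (XT.lf (nat_lit 836) (nat_lit 6811356478) (nat_lit 0) (nat_lit 12093547770) (nat_lit 836) (nat_lit 6811356478) (nat_lit 303) (nat_lit 1) (nat_lit 292) (nat_lit 0) (nat_lit 303) (nat_lit 0) (nat_lit 274) (nat_lit 373) (nat_lit 373))))) (XT.nd (nat_lit 234) (nat_lit 456) (nat_lit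 0) (XT.nd (nat_lit 78) (nat_lit 0) (nat_lit 0) (XT.lf (nat_lit 836) (nat_lit 2540844966) (nat_lit 0) (nat_lit 23743299540) (nat_lit 760) (nat_lit 23220867625) (nat_lit 304) (nat_lit 1) (nat_lit 293) (nat_lit 1) (nat_lit 303) (nat_lit 1) (nat_lit 275) (nat_lit 373) (nat_lit 372)) (XT.nd (nat_lit 78) (nat_lit 0) (nat_lit 76) (XT.lf (nat_lit 836) (nat_lit 23336194423) (nat_lit 76) (nat_lit 15900895705) (nat_lit 0) (nat_lit 8433109745) (nat_lit 304) (nat_lit 1) (nat_lit 294) (nat_lit 1) (nat_lit 293) (nat_lit 1) (nat_lit 276) (nat_lit 373) (nat_lit 371)) (XT.lf (nat_lit 836) (nat_lit 20164383710) (nat_lit 76) (nat_lit 6663955175) (nat_lit 0) (nat_lit 19098867389) (nat_lit 305) (nat_lit 1) (nat_lit 295) (nat_lit 1) (nat_lit 294) (nat_lit 1) (nat_lit 277) (nat_lit 373) (nat_lit 370)))) (XT.nd (nat_lit 156) (nat_lit 608) (nat_lit 0) (XT.nd (nat_lit 78) (nat_lit 0) (nat_lit 76) (XT.lf (nat_lit 836) (nat_lit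 14923358262) (nat_lit 0) (nat_lit 27920897912) (nat_lit 760) (nat_lit 1427312312) (nat_lit 306) (nat_lit 1) (nat_lit 295) (nat_lit 1) (nat_lit 305) (nat_lit 1) (nat_lit 278) (nat_lit 373) (nat_lit 369)) (XT.lf (nat_lit 836) (nat_lit 3580713495) (nat_lit 0) (nat_lit 30790546674) (nat_lit 760) (nat_lit 8323738821) (nat_lit 307) (nat_lit 1) (nat_lit 296) (nat_lit 1) (nat_lit 306) (nat_lit 1) (nat_lit 279) (nat_lit 373) (nat_lit 368))) (XT.nd (nat_lit 78) (nat_lit 684) (nat_lit 0) (XT.lf (nat_lit 836) (nat_lit 6880674939) (nat_lit 76) (nat_lit 26759492442) (nat_lit 0) (nat_lit 7551858916) (nat_lit 307) (nat_lit 1) (nat_lit 297) (nat_lit 1) (nat_lit 296) (nat_lit 1) (nat_lit 280) (nat_lit 373) (nat_lit 367)) (XT.lf (nat_lit 836) (nat_lit 1413133732) (nat_lit 0) (nat_lit 20004490672) (nat_lit 760) (nat_lit 18343908343) (nat_lit 298) (nat_lit 1) (nat_lit 287) (nat_lit 1) (nat_lit 297) (nat_lit 1) (nat_lit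 281) (nat_lit 373) (nat_lit 366)))))) (XT.nd (nat_lit 468) (nat_lit 1976) (nat_lit 0) (XT.nd (nat_lit 234) (nat_lit 684) (nat_lit 0) (XT.nd (nat_lit 78) (nat_lit 760) (nat_lit 0) (XT.lf (nat_lit 76) (nat_lit 9784832328) (nat_lit 0) (nat_lit 4240223196) (nat_lit 532) (nat_lit 24373716161) (nat_lit 281) (nat_lit 1) (nat_lit 280) (nat_lit 1) (nat_lit 287) (nat_lit 1) (nat_lit 282) (nat_lit 373) (nat_lit 365)) (XT.nd (nat_lit 78) (nat_lit 380) (nat_lit 0) (XT.lf (nat_lit 456) (nat_lit 26965766310) (nat_lit 0) (nat_lit 8777938269) (nat_lit 380) (nat_lit 1357123494) (nat_lit 281) (nat_lit 1) (nat_lit 275) (nat_lit 1) (nat_lit 280) (nat_lit 1) (nat_lit 283) (nat_lit 373) (nat_lit 364)) (XT.lf (nat_lit 456) (nat_lit 19458753757) (nat_lit 0) (nat_lit 4091434839) (nat_lit 380) (nat_lit 12308505119) (nat_lit 276) (nat_lit 1) (nat_lit 270) (nat_lit 1) (nat_lit 275) (nat_lit 1) (nat_lit 284) (nat_lit 373)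 (nat_lit 363)))) (XT.nd (nat_lit 78) (nat_lit 380) (nat_lit 0) (XT.lf (nat_lit 380) (nat_lit 11840403485) (nat_lit 0) (nat_lit 75329964) (nat_lit 304) (nat_lit 22761054302) (nat_lit 271) (nat_lit 1) (nat_lit 266) (nat_lit 1) (nat_lit 270) (nat_lit 1) (nat_lit 285) (nat_lit 373) (nat_lit 362)) (XT.nd (nat_lit 78) (nat_lit 380) (nat_lit 0) (XT.lf (nat_lit 76) (nat_lit 873529011) (nat_lit 0) (nat_lit 29459631027) (nat_lit 380) (nat_lit 3216091533) (nat_lit 267) (nat_lit 1) (nat_lit 266) (nat_lit 1) (nat_lit 271) (nat_lit 1) (nat_lit 286) (nat_lit 373) (nat_lit 361)) (XT.lf (nat_lit 76) (nat_lit 22554745645) (nat_lit 0) (nat_lit 3740945899) (nat_lit 380) (nat_lit 6169499195) (nat_lit 262) (nat_lit 1) (nat_lit 261) (nat_lit 1) (nat_lit 266) (nat_lit 1) (nat_lit 287) (nat_lit 373) (nat_lit 360))))) (XT.nd (nat_lit 234) (nat_lit 1140) (nat_lit 0) (XT.nd (nat_lit 78) (nat_lit 532) (nat_lit 0) (XT.lf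 (nat_lit 76) (nat_lit 11284710798) (nat_lit 0) (nat_lit 11459181369) (nat_lit 380) (nat_lit 8685137076) (nat_lit 258) (nat_lit 1) (nat_lit 257) (nat_lit 1) (nat_lit 262) (nat_lit 1) (nat_lit 288) (nat_lit 373) (nat_lit 359)) (XT.nd (nat_lit 78) (nat_lit 228) (nat_lit 0) (XT.lf (nat_lit 76) (nat_lit 556988301) (nat_lit 0) (nat_lit 19159573313) (nat_lit 380) (nat_lit 10725364954) (nat_lit 254) (nat_lit 1) (nat_lit 253) (nat_lit 1) (nat_lit 258) (nat_lit 1) (nat_lit 289) (nat_lit 373) (nat_lit 358)) (XT.lf (nat_lit 304) (nat_lit 2515327778) (nat_lit 0) (nat_lit 17009957754) (nat_lit 228) (nat_lit 9968226175) (nat_lit 254) (nat_lit 1) (nat_lit 250) (nat_lit 1) (nat_lit 253) (nat_lit 1) (nat_lit 290) (nat_lit 373) (nat_lit 357)))) (XT.nd (nat_lit 156) (nat_lit 532) (nat_lit 0) (XT.nd (nat_lit 78) (nat_lit 228) (nat_lit 0) (XT.lf (nat_lit 76) (nat_lit 8691133744) (nat_lit 0) (nat_lit 5956957072) (nat_lit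 380) (nat_lit 13936186766) (nat_lit 246) (nat_lit 1) (nat_lit 245) (nat_lit 1) (nat_lit 250) (nat_lit 1) (nat_lit 291) (nat_lit 373) (nat_lit 356)) (XT.lf (nat_lit 304) (nat_lit 13455965525) (nat_lit 0) (nat_lit 12640140468) (nat_lit 228) (nat_lit 1617922978) (nat_lit 246) (nat_lit 1) (nat_lit 242) (nat_lit 1) (nat_lit 245) (nat_lit 1) (nat_lit 292) (nat_lit 373) (nat_lit 355))) (XT.nd (nat_lit 78) (nat_lit 304) (nat_lit 0) (XT.lf (nat_lit 304) (nat_lit 4312571944) (nat_lit 0) (nat_lit 10882643334) (nat_lit 228) (nat_lit 11682008977) (nat_lit 243) (nat_lit 1) (nat_lit 239) (nat_lit 1) (nat_lit 242) (nat_lit 1) (nat_lit 293) (nat_lit 373) (nat_lit 354)) (XT.lf (nat_lit 76) (nat_lit 4915289960) (nat_lit 0) (nat_lit 4500375106) (nat_lit 304) (nat_lit 16659508549) (nat_lit 236) (nat_lit 1) (nat_lit 235) (nat_lit 1) (nat_lit 239) (nat_lit 1) (nat_lit 294) (nat_lit 373) (nat_lit 353))))))) (XT.nd (nat_lit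 1014) (nat_lit 1824) (nat_lit 0) (XT.nd (nat_lit 468) (nat_lit 1140) (nat_lit 0) (XT.nd (nat_lit 234) (nat_lit 532) (nat_lit 0) (XT.nd (nat_lit 78) (nat_lit 456) (nat_lit 0) (XT.lf (nat_lit 304) (nat_lit 12231053935) (nat_lit 0) (nat_lit 8138090040) (nat_lit 228) (nat_lit 4933336939) (nat_lit 236) (nat_lit 1) (nat_lit 232) (nat_lit 1) (nat_lit 235) (nat_lit 1) (nat_lit 295) (nat_lit 373) (nat_lit 352)) (XT.nd (nat_lit 78) (nat_lit 304) (nat_lit 0) (XT.lf (nat_lit 228) (nat_lit 3032096330) (nat_lit 0) (nat_lit 7099889966) (nat_lit 152) (nat_lit 14428974497) (nat_lit 233) (nat_lit 1) (nat_lit 230) (nat_lit 1) (nat_lit 232) (nat_lit 1) (nat_lit 296) (nat_lit 373) (nat_lit 351)) (XT.lf (nat_lit 76) (nat_lit 513656489) (nat_lit 0) (nat_lit 5747927629) (nat_lit 304) (nat_lit 17586599826) (nat_lit 227) (nat_lit 1) (nat_lit 226) (nat_lit 1) (nat_lit 230) (nat_lit 1) (nat_lit 297) (nat_lit 373) (nat_lit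 350)))) (XT.nd (nat_lit 78) (nat_lit 380) (nat_lit 0) (XT.lf (nat_lit 228) (nat_lit 8810715586) (nat_lit 0) (nat_lit 5505941371) (nat_lit 152) (nat_lit 8841376965) (nat_lit 227) (nat_lit 1) (nat_lit 224) (nat_lit 1) (nat_lit 226) (nat_lit 1) (nat_lit 298) (nat_lit 373) (nat_lit 349)) (XT.nd (nat_lit 78) (nat_lit 152) (nat_lit 0) (XT.lf (nat_lit 76) (nat_lit 4780326075) (nat_lit 0) (nat_lit 220806258) (nat_lit 228) (nat_lit 17496867334) (nat_lit 222) (nat_lit 1) (nat_lit 221) (nat_lit 1) (nat_lit 224) (nat_lit 1) (nat_lit 299) (nat_lit 373) (nat_lit 348)) (XT.lf (nat_lit 228) (nat_lit 13068488386) (nat_lit 0) (nat_lit 4528524245) (nat_lit 152) (nat_lit 4260152708) (nat_lit 222) (nat_lit 1) (nat_lit 219) (nat_lit 1) (nat_lit 221) (nat_lit 1) (nat_lit 300) (nat_lit 373) (nat_lit 347))))) (XT.nd (nat_lit 234) (nat_lit 608) (nat_lit 0) (XT.nd (nat_lit 78) (nat_lit 380) (nat_lit 0) (XT.lf (nat_lit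 228) (nat_lit 4059596183) (nat_lit 0) (nat_lit 4209764058) (nat_lit 152) (nat_lit 12971472671) (nat_lit 220) (nat_lit 1) (nat_lit 217) (nat_lit 1) (nat_lit 219) (nat_lit 1) (nat_lit 301) (nat_lit 373) (nat_lit 346)) (XT.nd (nat_lit 78) (nat_lit 152) (nat_lit 0) (XT.lf (nat_lit 228) (nat_lit 16115104905) (nat_lit 0) (nat_lit 4022087872) (nat_lit 152) (nat_lit 510248509) (nat_lit 217) (nat_lit 1) (nat_lit 214) (nat_lit 1) (nat_lit 216) (nat_lit 1) (nat_lit 302) (nat_lit 373) (nat_lit 345)) (XT.lf (nat_lit 228) (nat_lit 7212374083) (nat_lit 0) (nat_lit 3839737884) (nat_lit 152) (nat_lit 9018426172) (nat_lit 215) (nat_lit 1) (nat_lit 212) (nat_lit 1) (nat_lit 214) (nat_lit 1) (nat_lit 303) (nat_lit 373) (nat_lit 344)))) (XT.nd (nat_lit 156) (nat_lit 304) (nat_lit 0) (XT.nd (nat_lit 78) (nat_lit 152) (nat_lit 0) (XT.lf (nat_lit 76) (nat_lit 2470516585) (nat_lit 0) (nat_lit 1357907240) (nat_lit 152)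 (nat_lit 15689139619) (nat_lit 211) (nat_lit 1) (nat_lit 210) (nat_lit 1) (nat_lit 212) (nat_lit 1) (nat_lit 304) (nat_lit 373) (nat_lit 343)) (XT.lf (nat_lit 228) (nat_lit 9463049586) (nat_lit 0) (nat_lit 3787885079) (nat_lit 152) (nat_lit 5727607876) (nat_lit 211) (nat_lit 1) (nat_lit 208) (nat_lit 1) (nat_lit 210) (nat_lit 1) (nat_lit 305) (nat_lit 373) (nat_lit 342))) (XT.nd (nat_lit 78) (nat_lit 228) (nat_lit 0) (XT.lf (nat_lit 152) (nat_lit 1019035972) (nat_lit 0) (nat_lit 3880920431) (nat_lit 76) (nat_lit 13560845085) (nat_lit 209) (nat_lit 1) (nat_lit 207) (nat_lit 1) (nat_lit 208) (nat_lit 1) (nat_lit 306) (nat_lit 373) (nat_lit 341)) (XT.lf (nat_lit 228) (nat_lit 11000117096) (nat_lit 0) (nat_lit 3969145964) (nat_lit 152) (nat_lit 2988073095) (nat_lit 207) (nat_lit 1) (nat_lit 204) (nat_lit 1) (nat_lit 206) (nat_lit 1) (nat_lit 307) (nat_lit 373) (nat_lit 340)))))) (XT.nd (nat_lit 546)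 (nat_lit 836) (nat_lit 0) (XT.nd (nat_lit 234) (nat_lit 608) (nat_lit 0) (XT.nd (nat_lit 78) (nat_lit 304) (nat_lit 0) (XT.lf (nat_lit 152) (nat_lit 2766610564) (nat_lit 0) (nat_lit 4117556331) (nat_lit 76) (nat_lit 10586671720) (nat_lit 205) (nat_lit 1) (nat_lit 203) (nat_lit 1) (nat_lit 204) (nat_lit 1) (nat_lit 308) (nat_lit 373) (nat_lit 339)) (XT.nd (nat_lit 78) (nat_lit 76) (nat_lit 0) (XT.lf (nat_lit 228) (nat_lit 11975976748) (nat_lit 0) (nat_lit 4316147291) (nat_lit 152) (nat_lit 708316718) (nat_lit 203) (nat_lit 1) (nat_lit 200) (nat_lit 1) (nat_lit 202) (nat_lit 1) (nat_lit 309) (nat_lit 373) (nat_lit 338)) (XT.lf (nat_lit 152) (nat_lit 3981532159) (nat_lit 0) (nat_lit 4499635415) (nat_lit 76) (nat_lit 8061485438) (nat_lit 201) (nat_lit 1) (nat_lit 199) (nat_lit 1) (nat_lit 200) (nat_lit 1) (nat_lit 310) (nat_lit 373) (nat_lit 337)))) (XT.nd (nat_lit 156) (nat_lit 304) (nat_lit 0)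 (XT.nd (nat_lit 78) (nat_lit 76) (nat_lit 0) (XT.lf (nat_lit 76) (nat_lit 1149228631) (nat_lit 0) (nat_lit 3607122334) (nat_lit 228) (nat_lit 11344960356) (nat_lit 197) (nat_lit 1) (nat_lit 196) (nat_lit 1) (nat_lit 199) (nat_lit 1) (nat_lit 311) (nat_lit 373) (nat_lit 336)) (XT.lf (nat_lit 152) (nat_lit 4778197815) (nat_lit 0) (nat_lit 4978655642) (nat_lit 76) (nat_lit 5914076623) (nat_lit 197) (nat_lit 1) (nat_lit 195) (nat_lit 1) (nat_lit 196) (nat_lit 1) (nat_lit 312) (nat_lit 373) (nat_lit 335))) (XT.nd (nat_lit 78) (nat_lit 76) (nat_lit 0) (XT.lf (nat_lit 76) (nat_lit 2672677881) (nat_lit 0) (nat_lit 2588669253) (nat_lit 228) (nat_lit 9994326356) (nat_lit 193) (nat_lit 1) (nat_lit 192) (nat_lit 1) (nat_lit 195) (nat_lit 1) (nat_lit 313) (nat_lit 373) (nat_lit 334)) (XT.lf (nat_lit 152) (nat_lit 5248861021) (nat_lit 0) (nat_lit 5516755695) (nat_lit 76) (nat_lit 4085409831) (nat_lit 193)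 (nat_lit 1) (nat_lit 191) (nat_lit 1) (nat_lit 192) (nat_lit 1) (nat_lit 314) (nat_lit 373) (nat_lit 333))))) (XT.nd (nat_lit 234) (nat_lit 456) (nat_lit 0) (XT.nd (nat_lit 78) (nat_lit 228) (nat_lit 0) (XT.lf (nat_lit 76) (nat_lit 3934799871) (nat_lit 0) (nat_lit 1874861733) (nat_lit 152) (nat_lit 8650081625) (nat_lit 190) (nat_lit 1) (nat_lit 189) (nat_lit 1) (nat_lit 191) (nat_lit 1) (nat_lit 315) (nat_lit 373) (nat_lit 332)) (XT.nd (nat_lit 78) (nat_lit 152) (nat_lit 0) (XT.lf (nat_lit 152) (nat_lit 5467769372) (nat_lit 0) (nat_lit 6084641149) (nat_lit 76) (nat_lit 2526452175) (nat_lit 190) (nat_lit 1) (nat_lit 188) (nat_lit 1) (nat_lit 189) (nat_lit 1) (nat_lit 316) (nat_lit 373) (nat_lit 331)) (XT.lf (nat_lit 76) (nat_lit 4977155986) (nat_lit 0) (nat_lit 1398671300) (nat_lit 152) (nat_lit 7333870365) (nat_lit 187) (nat_lit 1) (nat_lit 186) (nat_lit 1) (nat_lit 188) (nat_lit 1) (nat_lit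 317) (nat_lit 373) (nat_lit 330)))) (XT.nd (nat_lit 156) (nat_lit 228) (nat_lit 0) (XT.nd (nat_lit 78) (nat_lit 152) (nat_lit 0) (XT.lf (nat_lit 152) (nat_lit 5494538406) (nat_lit 0) (nat_lit 6659899054) (nat_lit 76) (nat_lit 1196396117) (nat_lit 187) (nat_lit 1) (nat_lit 185) (nat_lit 1) (nat_lit 186) (nat_lit 1) (nat_lit 318) (nat_lit 373) (nat_lit 329)) (XT.lf (nat_lit 76) (nat_lit 5834288373) (nat_lit 0) (nat_lit 1106200828) (nat_lit 152) (nat_lit 6061658713) (nat_lit 184) (nat_lit 1) (nat_lit 183) (nat_lit 1) (nat_lit 185) (nat_lit 1) (nat_lit 319) (nat_lit 373) (nat_lit 328))) (XT.nd (nat_lit 78) (nat_lit 152) (nat_lit 0) (XT.lf (nat_lit 152) (nat_lit 5376902032) (nat_lit 0) (nat_lit 7225629160) (nat_lit 76) (nat_lit 61204581) (nat_lit 184) (nat_lit 1) (nat_lit 182) (nat_lit 1) (nat_lit 183) (nat_lit 1) (nat_lit 320) (nat_lit 373) (nat_lit 327)) (XT.lf (nat_lit 76) (nat_lit 6534962419)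 (nat_lit 0) (nat_lit 954218898) (nat_lit 152) (nat_lit 4844891831) (nat_lit 181) (nat_lit 1) (nat_lit 180) (nat_lit 1) (nat_lit 182) (nat_lit 1) (nat_lit 321) (nat_lit 373) (nat_lit 326))))))))
noncomputable def ec95 : XT := (XT.nd (nat_lit 2106) (nat_lit 3344) (nat_lit 0) (XT.nd (nat_lit 1014) (nat_lit 1596) (nat_lit 0) (XT.nd (nat_lit 468) (nat_lit 836) (nat_lit 0) (XT.nd (nat_lit 234) (nat_lit 380) (nat_lit 0) (XT.nd (nat_lit 78) (nat_lit 228) (nat_lit 0) (XT.lf (nat_lit 0) (nat_lit 878532295) (nat_lit 0) (nat_lit 6875922572) (nat_lit 152) (nat_lit 4259543537) (nat_lit 179) (nat_lit 3) (nat_lit 179) (nat_lit 1) (nat_lit 181) (nat_lit 1) (nat_lit 322) (nat_lit 373) (nat_lit 325)) (XT.nd (nat_lit 78) (nat_lit 76) (nat_lit 0) (XT.lf (nat_lit 76) (nat_lit 7103184313) (nat_lit 0) (nat_lit 908150147) (nat_lit 152) (nat_lit 3691431343) (nat_lit 178) (nat_lit 1) (nat_lit 177) (nat_lit 1) (nat_lit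 179) (nat_lit 1) (nat_lit 323) (nat_lit 373) (nat_lit 324)) (XT.lf (nat_lit 0) (nat_lit 1678321700) (nat_lit 0) (nat_lit 6575269800) (nat_lit 152) (nat_lit 3146230527) (nat_lit 176) (nat_lit 3) (nat_lit 176) (nat_lit 1) (nat_lit 178) (nat_lit 1) (nat_lit 324) (nat_lit 373) (nat_lit 323)))) (XT.nd (nat_lit 78) (nat_lit 228) (nat_lit 0) (XT.lf (nat_lit 76) (nat_lit 7559034786) (nat_lit 0) (nat_lit 940437728) (nat_lit 152) (nat_lit 2606313859) (nat_lit 175) (nat_lit 1) (nat_lit 174) (nat_lit 1) (nat_lit 176) (nat_lit 1) (nat_lit 325) (nat_lit 373) (nat_lit 322)) (XT.nd (nat_lit 78) (nat_lit 152) (nat_lit 0) (XT.lf (nat_lit 0) (nat_lit 2359533532) (nat_lit 0) (nat_lit 6357956111) (nat_lit 152) (nat_lit 2101427121) (nat_lit 173) (nat_lit 3) (nat_lit 173) (nat_lit 1) (nat_lit 175) (nat_lit 1) (nat_lit 326) (nat_lit 373) (nat_lit 321)) (XT.lf (nat_lit 76) (nat_lit 7919352557) (nat_lit 0) (nat_lit 1029209400)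 (nat_lit 152) (nat_lit 1592363856) (nat_lit 172) (nat_lit 1) (nat_lit 171) (nat_lit 1) (nat_lit 173) (nat_lit 1) (nat_lit 327) (nat_lit 373) (nat_lit 320))))) (XT.nd (nat_lit 234) (nat_lit 532) (nat_lit 0) (XT.nd (nat_lit 78) (nat_lit 228) (nat_lit 0) (XT.lf (nat_lit 0) (nat_lit 2938533201) (nat_lit 0) (nat_lit 6203297864) (nat_lit 152) (nat_lit 1127331266) (nat_lit 170) (nat_lit 3) (nat_lit 170) (nat_lit 1) (nat_lit 172) (nat_lit 1) (nat_lit 328) (nat_lit 373) (nat_lit 319)) (XT.nd (nat_lit 78) (nat_lit 76) (nat_lit 0) (XT.lf (nat_lit 76) (nat_lit 8198294898) (nat_lit 0) (nat_lit 1157191327) (nat_lit 152) (nat_lit 650688021) (nat_lit 169) (nat_lit 1) (nat_lit 168) (nat_lit 1) (nat_lit 170) (nat_lit 1) (nat_lit 329) (nat_lit 373) (nat_lit 318)) (XT.lf (nat_lit 0) (nat_lit 3429161940) (nat_lit 0) (nat_lit 6094885259) (nat_lit 152) (nat_lit 224579458) (nat_lit 167) (nat_lit 3) (nat_lit 167) (nat_lit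 1) (nat_lit 169) (nat_lit 1) (nat_lit 330) (nat_lit 373) (nat_lit 317)))) (XT.nd (nat_lit 156) (nat_lit 228) (nat_lit 0) (XT.nd (nat_lit 78) (nat_lit 76) (nat_lit 0) (XT.lf (nat_lit 152) (nat_lit 8185163272) (nat_lit 0) (nat_lit 226165506) (nat_lit 76) (nat_lit 1088189536) (nat_lit 166) (nat_lit 1) (nat_lit 164) (nat_lit 1) (nat_lit 165) (nat_lit 1) (nat_lit 331) (nat_lit 373) (nat_lit 316)) (XT.lf (nat_lit 76) (nat_lit 3225491940) (nat_lit 0) (nat_lit 627469629) (nat_lit 76) (nat_lit 5402090117) (nat_lit 164) (nat_lit 3) (nat_lit 163) (nat_lit 1) (nat_lit 164) (nat_lit 1) (nat_lit 332) (nat_lit 373) (nat_lit 315))) (XT.nd (nat_lit 78) (nat_lit 76) (nat_lit 0) (XT.lf (nat_lit 152) (nat_lit 7523024180) (nat_lit 0) (nat_lit 1051343575) (nat_lit 76) (nat_lit 444613623) (nat_lit 163) (nat_lit 1) (nat_lit 161) (nat_lit 1) (nat_lit 162) (nat_lit 1) (nat_lit 333) (nat_lit 373) (nat_lit 314)) (XT.lf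 (nat_lit 76) (nat_lit 2797315335) (nat_lit 0) (nat_lit 1415325527) (nat_lit 76) (nat_lit 4574536395) (nat_lit 161) (nat_lit 3) (nat_lit 160) (nat_lit 1) (nat_lit 161) (nat_lit 1) (nat_lit 334) (nat_lit 373) (nat_lit 313)))))) (XT.nd (nat_lit 546) (nat_lit 760) (nat_lit 0) (XT.nd (nat_lit 234) (nat_lit 456) (nat_lit 0) (XT.nd (nat_lit 78) (nat_lit 228) (nat_lit 0) (XT.lf (nat_lit 0) (nat_lit 118070031) (nat_lit 0) (nat_lit 1685284370) (nat_lit 152) (nat_lit 6760084288) (nat_lit 158) (nat_lit 3) (nat_lit 158) (nat_lit 1) (nat_lit 160) (nat_lit 1) (nat_lit 335) (nat_lit 373) (nat_lit 312)) (XT.nd (nat_lit 78) (nat_lit 152) (nat_lit 0) (XT.lf (nat_lit 76) (nat_lit 2379401227) (nat_lit 0) (nat_lit 2133757416) (nat_lit 76) (nat_lit 3830525615) (nat_lit 158) (nat_lit 3) (nat_lit 157) (nat_lit 1) (nat_lit 158) (nat_lit 1) (nat_lit 336) (nat_lit 373) (nat_lit 311)) (XT.lf (nat_lit 0) (nat_lit 600478287)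 (nat_lit 0) (nat_lit 1880129423) (nat_lit 152) (nat_lit 5650646652) (nat_lit 155) (nat_lit 3) (nat_lit 155) (nat_lit 1) (nat_lit 157) (nat_lit 1) (nat_lit 337) (nat_lit 373) (nat_lit 310)))) (XT.nd (nat_lit 156) (nat_lit 228) (nat_lit 0) (XT.nd (nat_lit 78) (nat_lit 152) (nat_lit 0) (XT.lf (nat_lit 76) (nat_lit 1976433996) (nat_lit 0) (nat_lit 2785453736) (nat_lit 76) (nat_lit 3161296158) (nat_lit 155) (nat_lit 3) (nat_lit 154) (nat_lit 1) (nat_lit 155) (nat_lit 1) (nat_lit 338) (nat_lit 373) (nat_lit 309)) (XT.lf (nat_lit 0) (nat_lit 1024193160) (nat_lit 0) (nat_lit 2069045155) (nat_lit 152) (nat_lit 4628198005) (nat_lit 152) (nat_lit 3) (nat_lit 152) (nat_lit 1) (nat_lit 154) (nat_lit 1) (nat_lit 339) (nat_lit 373) (nat_lit 308))) (XT.nd (nat_lit 78) (nat_lit 152) (nat_lit 0) (XT.lf (nat_lit 76) (nat_lit 1591744158) (nat_lit 0) (nat_lit 3373442764) (nat_lit 76) (nat_lit 2559199709) (nat_lit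 152) (nat_lit 3) (nat_lit 151) (nat_lit 1) (nat_lit 152) (nat_lit 1) (nat_lit 340) (nat_lit 373) (nat_lit 307)) (XT.lf (nat_lit 0) (nat_lit 1395615226) (nat_lit 0) (nat_lit 2248750633) (nat_lit 152) (nat_lit 3688373359) (nat_lit 149) (nat_lit 3) (nat_lit 149) (nat_lit 1) (nat_lit 151) (nat_lit 1) (nat_lit 341) (nat_lit 373) (nat_lit 306))))) (XT.nd (nat_lit 234) (nat_lit 456) (nat_lit 0) (XT.nd (nat_lit 78) (nat_lit 228) (nat_lit 0) (XT.lf (nat_lit 76) (nat_lit 1227590277) (nat_lit 0) (nat_lit 3900971161) (nat_lit 76) (nat_lit 2017530468) (nat_lit 149) (nat_lit 3) (nat_lit 148) (nat_lit 1) (nat_lit 149) (nat_lit 1) (nat_lit 342) (nat_lit 373) (nat_lit 305)) (XT.nd (nat_lit 78) (nat_lit 76) (nat_lit 0) (XT.lf (nat_lit 0) (nat_lit 1720340231) (nat_lit 0) (nat_lit 2416936520) (nat_lit 152) (nat_lit 2826725264) (nat_lit 146) (nat_lit 3) (nat_lit 146) (nat_lit 1) (nat_lit 148) (nat_lit 1) (nat_lit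 343) (nat_lit 373) (nat_lit 304)) (XT.lf (nat_lit 76) (nat_lit 885386998) (nat_lit 0) (nat_lit 4371408684) (nat_lit 76) (nat_lit 1530383561) (nat_lit 146) (nat_lit 3) (nat_lit 145) (nat_lit 1) (nat_lit 146) (nat_lit 1) (nat_lit 344) (nat_lit 373) (nat_lit 303)))) (XT.nd (nat_lit 156) (nat_lit 228) (nat_lit 0) (XT.nd (nat_lit 78) (nat_lit 76) (nat_lit 0) (XT.lf (nat_lit 0) (nat_lit 2003280314) (nat_lit 0) (nat_lit 2572060352) (nat_lit 152) (nat_lit 2038799154) (nat_lit 143) (nat_lit 3) (nat_lit 143) (nat_lit 1) (nat_lit 145) (nat_lit 1) (nat_lit 345) (nat_lit 373) (nat_lit 302)) (XT.lf (nat_lit 76) (nat_lit 565889238) (nat_lit 0) (nat_lit 4788174014) (nat_lit 76) (nat_lit 1092537421) (nat_lit 143) (nat_lit 3) (nat_lit 142) (nat_lit 1) (nat_lit 143) (nat_lit 1) (nat_lit 346) (nat_lit 373) (nat_lit 301))) (XT.nd (nat_lit 78) (nat_lit 76) (nat_lit 0) (XT.lf (nat_lit 0) (nat_lit 2248764731) (nat_lit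 0) (nat_lit 2713181119) (nat_lit 152) (nat_lit 1320190995) (nat_lit 140) (nat_lit 3) (nat_lit 140) (nat_lit 1) (nat_lit 142) (nat_lit 1) (nat_lit 347) (nat_lit 373) (nat_lit 300)) (XT.lf (nat_lit 76) (nat_lit 269340695) (nat_lit 0) (nat_lit 5154677603) (nat_lit 76) (nat_lit 699355869) (nat_lit 140) (nat_lit 3) (nat_lit 139) (nat_lit 1) (nat_lit 140) (nat_lit 1) (nat_lit 348) (nat_lit 373) (nat_lit 299))))))) (XT.nd (nat_lit 1014) (nat_lit 1748) (nat_lit 0) (XT.nd (nat_lit 468) (nat_lit 760) (nat_lit 0) (XT.nd (nat_lit 234) (nat_lit 456) (nat_lit 0) (XT.nd (nat_lit 78) (nat_lit 228) (nat_lit 0) (XT.lf (nat_lit 0) (nat_lit 2460623742) (nat_lit 0) (nat_lit 2839825836) (nat_lit 152) (nat_lit 666590740) (nat_lit 137) (nat_lit 3) (nat_lit 137) (nat_lit 1) (nat_lit 139) (nat_lit 1) (nat_lit 349) (nat_lit 373) (nat_lit 298)) (XT.nd (nat_lit 78) (nat_lit 76) (nat_lit 0) (XT.lf (nat_lit 76) (nat_lit 5469940341)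 (nat_lit 0) (nat_lit 4265619) (nat_lit 152) (nat_lit 342368529) (nat_lit 136) (nat_lit 1) (nat_lit 135) (nat_lit 1) (nat_lit 137) (nat_lit 1) (nat_lit 350) (nat_lit 373) (nat_lit 297)) (XT.lf (nat_lit 0) (nat_lit 2642258629) (nat_lit 0) (nat_lit 2951882130) (nat_lit 152) (nat_lit 73814410) (nat_lit 134) (nat_lit 3) (nat_lit 134) (nat_lit 1) (nat_lit 136) (nat_lit 1) (nat_lit 351) (nat_lit 373) (nat_lit 296)))) (XT.nd (nat_lit 78) (nat_lit 228) (nat_lit 0) (XT.lf (nat_lit 152) (nat_lit 5273794907) (nat_lit 0) (nat_lit 228215551) (nat_lit 76) (nat_lit 22957120) (nat_lit 133) (nat_lit 1) (nat_lit 131) (nat_lit 1) (nat_lit 132) (nat_lit 1) (nat_lit 352) (nat_lit 373) (nat_lit 295)) (XT.nd (nat_lit 78) (nat_lit 152) (nat_lit 0) (XT.lf (nat_lit 76) (nat_lit 2326700279) (nat_lit 0) (nat_lit 477454424) (nat_lit 76) (nat_lit 2579511943) (nat_lit 131) (nat_lit 3) (nat_lit 130) (nat_lit 1) (nat_lit 131)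 (nat_lit 1) (nat_lit 353) (nat_lit 373) (nat_lit 294)) (XT.lf (nat_lit 0) (nat_lit 263021014) (nat_lit 0) (nat_lit 485958989) (nat_lit 152) (nat_lit 4498701690) (nat_lit 128) (nat_lit 3) (nat_lit 128) (nat_lit 1) (nat_lit 130) (nat_lit 1) (nat_lit 354) (nat_lit 373) (nat_lit 293))))) (XT.nd (nat_lit 234) (nat_lit 456) (nat_lit 0) (XT.nd (nat_lit 78) (nat_lit 228) (nat_lit 0) (XT.lf (nat_lit 76) (nat_lit 1965409149) (nat_lit 0) (nat_lit 976495179) (nat_lit 76) (nat_lit 2171833200) (nat_lit 128) (nat_lit 3) (nat_lit 127) (nat_lit 1) (nat_lit 128) (nat_lit 1) (nat_lit 355) (nat_lit 373) (nat_lit 292)) (XT.nd (nat_lit 78) (nat_lit 76) (nat_lit 0) (XT.lf (nat_lit 0) (nat_lit 517547174) (nat_lit 0) (nat_lit 699578964) (nat_lit 152) (nat_lit 3767313402) (nat_lit 125) (nat_lit 3) (nat_lit 125) (nat_lit 1) (nat_lit 127) (nat_lit 1) (nat_lit 356) (nat_lit 373) (nat_lit 291)) (XT.lf (nat_lit 76) (nat_lit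 1632122073) (nat_lit 0) (nat_lit 1424684472) (nat_lit 76) (nat_lit 1800670027) (nat_lit 125) (nat_lit 3) (nat_lit 124) (nat_lit 1) (nat_lit 125) (nat_lit 1) (nat_lit 357) (nat_lit 373) (nat_lit 290)))) (XT.nd (nat_lit 156) (nat_lit 228) (nat_lit 0) (XT.nd (nat_lit 78) (nat_lit 76) (nat_lit 0) (XT.lf (nat_lit 0) (nat_lit 744044762) (nat_lit 0) (nat_lit 892676115) (nat_lit 152) (nat_lit 3097807266) (nat_lit 122) (nat_lit 3) (nat_lit 122) (nat_lit 1) (nat_lit 124) (nat_lit 1) (nat_lit 358) (nat_lit 373) (nat_lit 289)) (XT.lf (nat_lit 76) (nat_lit 1325450286) (nat_lit 0) (nat_lit 1825653020) (nat_lit 76) (nat_lit 1463071909) (nat_lit 122) (nat_lit 3) (nat_lit 121) (nat_lit 1) (nat_lit 122) (nat_lit 1) (nat_lit 359) (nat_lit 373) (nat_lit 288))) (XT.nd (nat_lit 78) (nat_lit 76) (nat_lit 0) (XT.lf (nat_lit 0) (nat_lit 944954518) (nat_lit 0) (nat_lit 1066313974) (nat_lit 152) (nat_lit 2485988907) (nat_lit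 119) (nat_lit 3) (nat_lit 119) (nat_lit 1) (nat_lit 121) (nat_lit 1) (nat_lit 360) (nat_lit 373) (nat_lit 287)) (XT.lf (nat_lit 76) (nat_lit 1043975757) (nat_lit 0) (nat_lit 2182842815) (nat_lit 76) (nat_lit 1156345624) (nat_lit 119) (nat_lit 3) (nat_lit 118) (nat_lit 1) (nat_lit 119) (nat_lit 1) (nat_lit 361) (nat_lit 373) (nat_lit 286)))))) (XT.nd (nat_lit 546) (nat_lit 912) (nat_lit 0) (XT.nd (nat_lit 234) (nat_lit 456) (nat_lit 0) (XT.nd (nat_lit 78) (nat_lit 228) (nat_lit 0) (XT.lf (nat_lit 0) (nat_lit 1122497330) (nat_lit 0) (nat_lit 1221588923) (nat_lit 152) (nat_lit 1927888999) (nat_lit 116) (nat_lit 3) (nat_lit 116) (nat_lit 1) (nat_lit 118) (nat_lit 1) (nat_lit 362) (nat_lit 373) (nat_lit 285)) (XT.nd (nat_lit 78) (nat_lit 152) (nat_lit 0) (XT.lf (nat_lit 76) (nat_lit 786275867) (nat_lit 0) (nat_lit 2499507730) (nat_lit 76) (nat_lit 878027342) (nat_lit 116) (nat_lit 3) (nat_lit 115)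 (nat_lit 1) (nat_lit 116) (nat_lit 1) (nat_lit 363) (nat_lit 373) (nat_lit 284)) (XT.lf (nat_lit 0) (nat_lit 1278698276) (nat_lit 0) (nat_lit 1359607866) (nat_lit 152) (nat_lit 1419759057) (nat_lit 113) (nat_lit 3) (nat_lit 113) (nat_lit 1) (nat_lit 115) (nat_lit 1) (nat_lit 364) (nat_lit 373) (nat_lit 283)))) (XT.nd (nat_lit 156) (nat_lit 228) (nat_lit 0) (XT.nd (nat_lit 78) (nat_lit 152) (nat_lit 0) (XT.lf (nat_lit 76) (nat_lit 550942324) (nat_lit 0) (nat_lit 2778716248) (nat_lit 76) (nat_lit 625858611) (nat_lit 113) (nat_lit 3) (nat_lit 112) (nat_lit 1) (nat_lit 113) (nat_lit 1) (nat_lit 365) (nat_lit 373) (nat_lit 282)) (XT.lf (nat_lit 0) (nat_lit 1415407329) (nat_lit 0) (nat_lit 1481471074) (nat_lit 152) (nat_lit 958065624) (nat_lit 110) (nat_lit 3) (nat_lit 110) (nat_lit 1) (nat_lit 112) (nat_lit 1) (nat_lit 366) (nat_lit 373) (nat_lit 281))) (XT.nd (nat_lit 78) (nat_lit 152) (nat_lit 0)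 (XT.lf (nat_lit 76) (nat_lit 336595450) (nat_lit 0) (nat_lit 3023355795) (nat_lit 76) (nat_lit 397765585) (nat_lit 110) (nat_lit 3) (nat_lit 109) (nat_lit 1) (nat_lit 110) (nat_lit 1) (nat_lit 367) (nat_lit 373) (nat_lit 280)) (XT.lf (nat_lit 0) (nat_lit 1534317269) (nat_lit 0) (nat_lit 1588259187) (nat_lit 152) (nat_lit 539483293) (nat_lit 107) (nat_lit 3) (nat_lit 107) (nat_lit 1) (nat_lit 109) (nat_lit 1) (nat_lit 368) (nat_lit 373) (nat_lit 279))))) (XT.nd (nat_lit 234) (nat_lit 456) (nat_lit 0) (XT.nd (nat_lit 78) (nat_lit 380) (nat_lit 0) (XT.lf (nat_lit 76) (nat_lit 141894753) (nat_lit 0) (nat_lit 3236138235) (nat_lit 76) (nat_lit 191840973) (nat_lit 107) (nat_lit 3) (nat_lit 106) (nat_lit 1) (nat_lit 107) (nat_lit 1) (nat_lit 369) (nat_lit 373) (nat_lit 278)) (XT.nd (nat_lit 78) (nat_lit 228) (nat_lit 0) (XT.lf (nat_lit 0) (nat_lit 1636979254) (nat_lit 0) (nat_lit 1681023540) (nat_lit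 152) (nat_lit 160886921) (nat_lit 104) (nat_lit 3) (nat_lit 104) (nat_lit 1) (nat_lit 106) (nat_lit 1) (nat_lit 370) (nat_lit 373) (nat_lit 277)) (XT.lf (nat_lit 152) (nat_lit 3357636210) (nat_lit 0) (nat_lit 28499413) (nat_lit 76) (nat_lit 5296273) (nat_lit 103) (nat_lit 1) (nat_lit 101) (nat_lit 1) (nat_lit 102) (nat_lit 1) (nat_lit 371) (nat_lit 373) (nat_lit 276)))) (XT.nd (nat_lit 156) (nat_lit 228) (nat_lit 0) (XT.nd (nat_lit 78) (nat_lit 152) (nat_lit 0) (XT.lf (nat_lit 76) (nat_lit 1541100212) (nat_lit 0) (nat_lit 186630019) (nat_lit 76) (nat_lit 1577062951) (nat_lit 101) (nat_lit 3) (nat_lit 100) (nat_lit 1) (nat_lit 101) (nat_lit 1) (nat_lit 372) (nat_lit 373) (nat_lit 275)) (XT.lf (nat_lit 0) (nat_lit 164087131) (nat_lit 0) (nat_lit 195800305) (nat_lit 152) (nat_lit 2861603153) (nat_lit 98) (nat_lit 3) (nat_lit 98) (nat_lit 1) (nat_lit 100) (nat_lit 1) (nat_lit 373) (nat_lit 373) (nat_lit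 274))) (XT.nd (nat_lit 78) (nat_lit 152) (nat_lit 0) (XT.lf (nat_lit 76) (nat_lit 1302975547) (nat_lit 0) (nat_lit 504029546) (nat_lit 76) (nat_lit 1332339597) (nat_lit 98) (nat_lit 3) (nat_lit 97) (nat_lit 1) (nat_lit 98) (nat_lit 1) (nat_lit 374) (nat_lit 373) (nat_lit 273)) (XT.lf (nat_lit 0) (nat_lit 315763707) (nat_lit 0) (nat_lit 341657931) (nat_lit 152) (nat_lit 2402690125) (nat_lit 95) (nat_lit 3) (nat_lit 95) (nat_lit 1) (nat_lit 97) (nat_lit 1) (nat_lit 375) (nat_lit 373) (nat_lit 272))))))))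
noncomputable def ec96 : XT := (XT.nd (nat_lit 2028) (nat_lit 2052) (nat_lit 0) (XT.nd (nat_lit 1014) (nat_lit 1596) (nat_lit 0) (XT.nd (nat_lit 468) (nat_lit 760) (nat_lit 0) (XT.nd (nat_lit 234) (nat_lit 380) (nat_lit 0) (XT.nd (nat_lit 78) (nat_lit 228) (nat_lit 0) (XT.lf (nat_lit 76) (nat_lit 1084799341) (nat_lit 0) (nat_lit 788652540) (nat_lit 76) (nat_lit 1108775474) (nat_lit 95) (nat_lit 3) (nat_lit 94) (nat_lit 1) (nat_lit 95) (nat_lit 1) (nat_lit 376) (nat_lit 373) (nat_lit 271)) (XT.nd (nat_lit 78) (nat_lit 76) (nat_lit 0) (XT.lf (nat_lit 0) (nat_lit 451298262) (nat_lit 0) (nat_lit 472441237) (nat_lit 152) (nat_lit 1983124110) (nat_lit 92) (nat_lit 3) (nat_lit 92) (nat_lit 1) (nat_lit 94) (nat_lit 1) (nat_lit 377) (nat_lit 373) (nat_lit 270)) (XT.lf (nat_lit 76) (nat_lit 885226324) (nat_lit 0) (nat_lit 1042988313) (nat_lit 76) (nat_lit 904803153) (nat_lit 92) (nat_lit 3) (nat_lit 91)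 (nat_lit 1) (nat_lit 92) (nat_lit 1) (nat_lit 378) (nat_lit 373) (nat_lit 269)))) (XT.nd (nat_lit 78) (nat_lit 228) (nat_lit 0) (XT.lf (nat_lit 0) (nat_lit 571981461) (nat_lit 0) (nat_lit 589244978) (nat_lit 152) (nat_lit 1600106413) (nat_lit 89) (nat_lit 3) (nat_lit 89) (nat_lit 1) (nat_lit 91) (nat_lit 1) (nat_lit 379) (nat_lit 373) (nat_lit 268)) (XT.nd (nat_lit 78) (nat_lit 152) (nat_lit 0) (XT.lf (nat_lit 76) (nat_lit 702982950) (nat_lit 0) (nat_lit 1269363944) (nat_lit 76) (nat_lit 718967688) (nat_lit 89) (nat_lit 3) (nat_lit 88) (nat_lit 1) (nat_lit 89) (nat_lit 1) (nat_lit 380) (nat_lit 373) (nat_lit 267)) (XT.lf (nat_lit 0) (nat_lit 679007791) (nat_lit 0) (nat_lit 693103680) (nat_lit 152) (nat_lit 1251016164) (nat_lit 86) (nat_lit 3) (nat_lit 86) (nat_lit 1) (nat_lit 88) (nat_lit 1) (nat_lit 381) (nat_lit 373) (nat_lit 266))))) (XT.nd (nat_lit 234) (nat_lit 456) (nat_lit 0) (XT.nd (nat_lit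 78) (nat_lit 228) (nat_lit 0) (XT.lf (nat_lit 76) (nat_lit 536866120) (nat_lit 0) (nat_lit 1469953076) (nat_lit 76) (nat_lit 549917869) (nat_lit 86) (nat_lit 3) (nat_lit 85) (nat_lit 1) (nat_lit 86) (nat_lit 1) (nat_lit 382) (nat_lit 373) (nat_lit 265)) (XT.nd (nat_lit 78) (nat_lit 76) (nat_lit 0) (XT.lf (nat_lit 0) (nat_lit 773483165) (nat_lit 0) (nat_lit 784992643) (nat_lit 152) (nat_lit 933400533) (nat_lit 83) (nat_lit 3) (nat_lit 83) (nat_lit 1) (nat_lit 85) (nat_lit 1) (nat_lit 383) (nat_lit 373) (nat_lit 264)) (XT.lf (nat_lit 76) (nat_lit 385741395) (nat_lit 0) (nat_lit 1646784490) (nat_lit 76) (nat_lit 396398320) (nat_lit 83) (nat_lit 3) (nat_lit 82) (nat_lit 1) (nat_lit 83) (nat_lit 1) (nat_lit 384) (nat_lit 373) (nat_lit 263)))) (XT.nd (nat_lit 156) (nat_lit 228) (nat_lit 0) (XT.nd (nat_lit 78) (nat_lit 76) (nat_lit 0) (XT.lf (nat_lit 0) (nat_lit 856431793) (nat_lit 0) (nat_lit 865829434)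 (nat_lit 152) (nat_lit 644965278) (nat_lit 80) (nat_lit 3) (nat_lit 80) (nat_lit 1) (nat_lit 82) (nat_lit 1) (nat_lit 385) (nat_lit 373) (nat_lit 262)) (XT.lf (nat_lit 76) (nat_lit 248540814) (nat_lit 0) (nat_lit 1801750387) (nat_lit 76) (nat_lit 257242333) (nat_lit 80) (nat_lit 3) (nat_lit 79) (nat_lit 1) (nat_lit 80) (nat_lit 1) (nat_lit 386) (nat_lit 373) (nat_lit 261))) (XT.nd (nat_lit 78) (nat_lit 76) (nat_lit 0) (XT.lf (nat_lit 0) (nat_lit 928802414) (nat_lit 0) (nat_lit 936475711) (nat_lit 152) (nat_lit 383565654) (nat_lit 77) (nat_lit 3) (nat_lit 77) (nat_lit 1) (nat_lit 79) (nat_lit 1) (nat_lit 387) (nat_lit 373) (nat_lit 260)) (XT.lf (nat_lit 76) (nat_lit 124260444) (nat_lit 0) (nat_lit 1936614366) (nat_lit 76) (nat_lit 131365349) (nat_lit 77) (nat_lit 3) (nat_lit 76) (nat_lit 1) (nat_lit 77) (nat_lit 1) (nat_lit 388) (nat_lit 373) (nat_lit 259)))))) (XT.nd (nat_lit 468) (nat_lit 760)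 (nat_lit 0) (XT.nd (nat_lit 234) (nat_lit 380) (nat_lit 0) (XT.nd (nat_lit 78) (nat_lit 304) (nat_lit 0) (XT.lf (nat_lit 0) (nat_lit 991473962) (nat_lit 0) (nat_lit 997739310) (nat_lit 152) (nat_lit 147197696) (nat_lit 74) (nat_lit 3) (nat_lit 74) (nat_lit 1) (nat_lit 76) (nat_lit 1) (nat_lit 389) (nat_lit 373) (nat_lit 258)) (XT.nd (nat_lit 78) (nat_lit 228) (nat_lit 0) (XT.lf (nat_lit 76) (nat_lit 11957751) (nat_lit 0) (nat_lit 2053019074) (nat_lit 76) (nat_lit 17759000) (nat_lit 74) (nat_lit 3) (nat_lit 73) (nat_lit 1) (nat_lit 74) (nat_lit 1) (nat_lit 390) (nat_lit 373) (nat_lit 257)) (XT.lf (nat_lit 76) (nat_lit 978132729) (nat_lit 0) (nat_lit 68192690) (nat_lit 76) (nat_lit 983248468) (nat_lit 71) (nat_lit 3) (nat_lit 70) (nat_lit 1) (nat_lit 71) (nat_lit 1) (nat_lit 391) (nat_lit 373) (nat_lit 256)))) (XT.nd (nat_lit 78) (nat_lit 228) (nat_lit 0) (XT.lf (nat_lit 0) (nat_lit 86051425) (nat_lit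 0) (nat_lit 90562659) (nat_lit 152) (nat_lit 1801835876) (nat_lit 68) (nat_lit 3) (nat_lit 68) (nat_lit 1) (nat_lit 70) (nat_lit 1) (nat_lit 392) (nat_lit 373) (nat_lit 255)) (XT.nd (nat_lit 78) (nat_lit 152) (nat_lit 0) (XT.lf (nat_lit 76) (nat_lit 828746406) (nat_lit 0) (nat_lit 266328887) (nat_lit 76) (nat_lit 832923474) (nat_lit 68) (nat_lit 3) (nat_lit 67) (nat_lit 1) (nat_lit 68) (nat_lit 1) (nat_lit 393) (nat_lit 373) (nat_lit 254)) (XT.lf (nat_lit 0) (nat_lit 179340935) (nat_lit 0) (nat_lit 183024417) (nat_lit 152) (nat_lit 1517003345) (nat_lit 65) (nat_lit 3) (nat_lit 65) (nat_lit 1) (nat_lit 67) (nat_lit 1) (nat_lit 394) (nat_lit 373) (nat_lit 253))))) (XT.nd (nat_lit 234) (nat_lit 456) (nat_lit 0) (XT.nd (nat_lit 78) (nat_lit 228) (nat_lit 0) (XT.lf (nat_lit 76) (nat_lit 692046820) (nat_lit 0) (nat_lit 444027745) (nat_lit 76) (nat_lit 695457451) (nat_lit 65) (nat_lit 3) (nat_lit 64)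 (nat_lit 1) (nat_lit 65) (nat_lit 1) (nat_lit 395) (nat_lit 373) (nat_lit 252)) (XT.nd (nat_lit 78) (nat_lit 76) (nat_lit 0) (XT.lf (nat_lit 0) (nat_lit 262826968) (nat_lit 0) (nat_lit 265834580) (nat_lit 152) (nat_lit 1256612098) (nat_lit 62) (nat_lit 3) (nat_lit 62) (nat_lit 1) (nat_lit 64) (nat_lit 1) (nat_lit 396) (nat_lit 373) (nat_lit 251)) (XT.lf (nat_lit 76) (nat_lit 567135379) (nat_lit 0) (nat_lit 602859660) (nat_lit 76) (nat_lit 569920204) (nat_lit 62) (nat_lit 3) (nat_lit 61) (nat_lit 1) (nat_lit 62) (nat_lit 1) (nat_lit 397) (nat_lit 373) (nat_lit 250)))) (XT.nd (nat_lit 156) (nat_lit 228) (nat_lit 0) (XT.nd (nat_lit 78) (nat_lit 76) (nat_lit 0) (XT.lf (nat_lit 0) (nat_lit 337274806) (nat_lit 0) (nat_lit 339730560) (nat_lit 152) (nat_lit 1018907079) (nat_lit 59) (nat_lit 3) (nat_lit 59) (nat_lit 1) (nat_lit 61) (nat_lit 1) (nat_lit 398) (nat_lit 373) (nat_lit 249)) (XT.lf (nat_lit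 76) (nat_lit 453170420) (nat_lit 0) (nat_lit 744288549) (nat_lit 76) (nat_lit 455444267) (nat_lit 59) (nat_lit 3) (nat_lit 58) (nat_lit 1) (nat_lit 59) (nat_lit 1) (nat_lit 399) (nat_lit 373) (nat_lit 248))) (XT.nd (nat_lit 78) (nat_lit 76) (nat_lit 0) (XT.lf (nat_lit 0) (nat_lit 403396065) (nat_lit 0) (nat_lit 405401221) (nat_lit 152) (nat_lit 802248325) (nat_lit 56) (nat_lit 3) (nat_lit 56) (nat_lit 1) (nat_lit 58) (nat_lit 1) (nat_lit 400) (nat_lit 373) (nat_lit 247)) (XT.lf (nat_lit 76) (nat_lit 349364093) (nat_lit 0) (nat_lit 869678474) (nat_lit 76) (nat_lit 351220719) (nat_lit 56) (nat_lit 3) (nat_lit 55) (nat_lit 1) (nat_lit 56) (nat_lit 1) (nat_lit 401) (nat_lit 373) (nat_lit 246))))))) (XT.nd (nat_lit 1014) (nat_lit 456) (nat_lit 0) (XT.nd (nat_lit 468) (nat_lit 912) (nat_lit 0) (XT.nd (nat_lit 234) (nat_lit 304) (nat_lit 0) (XT.nd (nat_lit 78) (nat_lit 228) (nat_lit 0) (XT.lf (nat_lit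 0) (nat_lit 461852361) (nat_lit 0) (nat_lit 463489597) (nat_lit 152) (nat_lit 605103914) (nat_lit 53) (nat_lit 3) (nat_lit 53) (nat_lit 1) (nat_lit 55) (nat_lit 1) (nat_lit 402) (nat_lit 373) (nat_lit 245)) (XT.nd (nat_lit 78) (nat_lit 152) (nat_lit 0) (XT.lf (nat_lit 76) (nat_lit 254979338) (nat_lit 0) (nat_lit 980299893) (nat_lit 76) (nat_lit 256495297) (nat_lit 53) (nat_lit 3) (nat_lit 52) (nat_lit 1) (nat_lit 53) (nat_lit 1) (nat_lit 403) (nat_lit 373) (nat_lit 244)) (XT.lf (nat_lit 0) (nat_lit 513258697) (nat_lit 0) (nat_lit 514595522) (nat_lit 152) (nat_lit 426043312) (nat_lit 50) (nat_lit 3) (nat_lit 50) (nat_lit 1) (nat_lit 52) (nat_lit 1) (nat_lit 404) (nat_lit 373) (nat_lit 243)))) (XT.nd (nat_lit 78) (nat_lit 228) (nat_lit 0) (XT.lf (nat_lit 76) (nat_lit 169326988) (nat_lit 0) (nat_lit 1077335562) (nat_lit 76) (nat_lit 170564789) (nat_lit 50) (nat_lit 3) (nat_lit 49) (nat_lit 1) (nat_lit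 50) (nat_lit 1) (nat_lit 405) (nat_lit 373) (nat_lit 242)) (XT.nd (nat_lit 78) (nat_lit 76) (nat_lit 0) (XT.lf (nat_lit 0) (nat_lit 558186622) (nat_lit 0) (nat_lit 559278157) (nat_lit 152) (nat_lit 263731096) (nat_lit 47) (nat_lit 3) (nat_lit 47) (nat_lit 1) (nat_lit 49) (nat_lit 1) (nat_lit 406) (nat_lit 373) (nat_lit 241)) (XT.lf (nat_lit 76) (nat_lit 91762986) (nat_lit 0) (nat_lit 1161886099) (nat_lit 76) (nat_lit 92773667) (nat_lit 47) (nat_lit 3) (nat_lit 46) (nat_lit 1) (nat_lit 47) (nat_lit 1) (nat_lit 407) (nat_lit 373) (nat_lit 240))))) (XT.nd (nat_lit 234) (nat_lit 456) (nat_lit 0) (XT.nd (nat_lit 78) (nat_lit 304) (nat_lit 0) (XT.lf (nat_lit 0) (nat_lit 597167160) (nat_lit 0) (nat_lit 598058412) (nat_lit 152) (nat_lit 116921028) (nat_lit 44) (nat_lit 3) (nat_lit 44) (nat_lit 1) (nat_lit 46) (nat_lit 1) (nat_lit 408) (nat_lit 373) (nat_lit 239)) (XT.nd (nat_lit 78) (nat_lit 228) (nat_lit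 0) (XT.lf (nat_lit 76) (nat_lit 21685723) (nat_lit 0) (nat_lit 1234975229) (nat_lit 76) (nat_lit 22510957) (nat_lit 44) (nat_lit 3) (nat_lit 43) (nat_lit 1) (nat_lit 44) (nat_lit 1) (nat_lit 409) (nat_lit 373) (nat_lit 238)) (XT.lf (nat_lit 76) (nat_lit 614880685) (nat_lit 0) (nat_lit 16063654) (nat_lit 76) (nat_lit 615608404) (nat_lit 41) (nat_lit 3) (nat_lit 40) (nat_lit 1) (nat_lit 41) (nat_lit 1) (nat_lit 410) (nat_lit 373) (nat_lit 237)))) (XT.nd (nat_lit 156) (nat_lit 228) (nat_lit 0) (XT.nd (nat_lit 78) (nat_lit 76) (nat_lit 0) (XT.lf (nat_lit 0) (nat_lit 41482975) (nat_lit 0) (nat_lit 42124703) (nat_lit 152) (nat_lit 1131556229) (nat_lit 38) (nat_lit 3) (nat_lit 38) (nat_lit 1) (nat_lit 40) (nat_lit 1) (nat_lit 411) (nat_lit 373) (nat_lit 236)) (XT.lf (nat_lit 76) (nat_lit 522176626) (nat_lit 0) (nat_lit 139220743) (nat_lit 76) (nat_lit 522770819) (nat_lit 38) (nat_lit 3) (nat_lit 37)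 (nat_lit 1) (nat_lit 38) (nat_lit 1) (nat_lit 412) (nat_lit 373) (nat_lit 235))) (XT.nd (nat_lit 78) (nat_lit 76) (nat_lit 0) (XT.lf (nat_lit 0) (nat_lit 99286386) (nat_lit 0) (nat_lit 99810366) (nat_lit 152) (nat_lit 955213269) (nat_lit 35) (nat_lit 3) (nat_lit 35) (nat_lit 1) (nat_lit 37) (nat_lit 1) (nat_lit 413) (nat_lit 373) (nat_lit 234)) (XT.lf (nat_lit 76) (nat_lit 437353250) (nat_lit 0) (nat_lit 249728582) (nat_lit 76) (nat_lit 437838416) (nat_lit 35) (nat_lit 3) (nat_lit 34) (nat_lit 1) (nat_lit 35) (nat_lit 1) (nat_lit 414) (nat_lit 373) (nat_lit 233)))))) (XT.nd (nat_lit 42198) (nat_lit 0) (nat_lit 18772) (XT.nd (nat_lit 234) (nat_lit 76) (nat_lit 0) (XT.nd (nat_lit 78) (nat_lit 228) (nat_lit 0) (XT.lf (nat_lit 0) (nat_lit 151058656) (nat_lit 0) (nat_lit 151486492) (nat_lit 152) (nat_lit 793972718) (nat_lit 32) (nat_lit 3) (nat_lit 32) (nat_lit 1) (nat_lit 34) (nat_lit 1) (nat_lit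 415) (nat_lit 373) (nat_lit 232)) (XT.nd (nat_lit 78) (nat_lit 152) (nat_lit 0) (XT.lf (nat_lit 76) (nat_lit 359846938) (nat_lit 0) (nat_lit 348560412) (nat_lit 76) (nat_lit 360243083) (nat_lit 32) (nat_lit 3) (nat_lit 31) (nat_lit 1) (nat_lit 32) (nat_lit 1) (nat_lit 416) (nat_lit 373) (nat_lit 231)) (XT.lf (nat_lit 0) (nat_lit 197267272) (nat_lit 0) (nat_lit 197616606) (nat_lit 152) (nat_lit 646748758) (nat_lit 29) (nat_lit 3) (nat_lit 29) (nat_lit 1) (nat_lit 31) (nat_lit 1) (nat_lit 417) (nat_lit 373) (nat_lit 230)))) (XT.nd (nat_lit 41808) (nat_lit 0) (nat_lit 20140) (XT.nd (nat_lit 41730) (nat_lit 0) (nat_lit 20064) (XT.lf (nat_lit 76) (nat_lit 289130945) (nat_lit 0) (nat_lit 436622958) (nat_lit 76) (nat_lit 289454402) (nat_lit 29) (nat_lit 3) (nat_lit 28) (nat_lit 1) (nat_lit 29) (nat_lit 1) (nat_lit 418) (nat_lit 373) (nat_lit 229)) (XT.lf (nat_lit 836) (nat_lit 7356264996) (nat_lit 0)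 (nat_lit 13061031591) (nat_lit 836) (nat_lit 7356264996) (nat_lit 303) (nat_lit 1) (nat_lit 292) (nat_lit 0) (nat_lit 303) (nat_lit 0) (nat_lit 272) (nat_lit 374) (nat_lit 374))) (XT.nd (nat_lit 78) (nat_lit 0) (nat_lit 0) (XT.lf (nat_lit 836) (nat_lit 2744112564) (nat_lit 0) (nat_lit 25642763503) (nat_lit 760) (nat_lit 25078537035) (nat_lit 304) (nat_lit 1) (nat_lit 293) (nat_lit 1) (nat_lit 303) (nat_lit 1) (nat_lit 273) (nat_lit 374) (nat_lit 373)) (XT.lf (nat_lit 836) (nat_lit 25203089977) (nat_lit 76) (nat_lit 17172967361) (nat_lit 0) (nat_lit 9107758524) (nat_lit 304) (nat_lit 1) (nat_lit 294) (nat_lit 1) (nat_lit 293) (nat_lit 1) (nat_lit 274) (nat_lit 374) (nat_lit 372))))) (XT.nd (nat_lit 234) (nat_lit 1444) (nat_lit 0) (XT.nd (nat_lit 78) (nat_lit 0) (nat_lit 76) (XT.lf (nat_lit 836) (nat_lit 21777534407) (nat_lit 76) (nat_lit 7197071589) (nat_lit 0) (nat_lit 20626776780) (nat_lit 305)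 (nat_lit 1) (nat_lit 295) (nat_lit 1) (nat_lit 294) (nat_lit 1) (nat_lit 275) (nat_lit 374) (nat_lit 371)) (XT.nd (nat_lit 78) (nat_lit 0) (nat_lit 76) (XT.lf (nat_lit 836) (nat_lit 16117226923) (nat_lit 0) (nat_lit 30154569745) (nat_lit 760) (nat_lit 1541497297) (nat_lit 306) (nat_lit 1) (nat_lit 295) (nat_lit 1) (nat_lit 305) (nat_lit 1) (nat_lit 276) (nat_lit 374) (nat_lit 370)) (XT.lf (nat_lit 836) (nat_lit 3867170575) (nat_lit 0) (nat_lit 33253790408) (nat_lit 760) (nat_lit 8989637927) (nat_lit 307) (nat_lit 1) (nat_lit 296) (nat_lit 1) (nat_lit 306) (nat_lit 1) (nat_lit 277) (nat_lit 374) (nat_lit 369)))) (XT.nd (nat_lit 156) (nat_lit 912) (nat_lit 0) (XT.nd (nat_lit 78) (nat_lit 684) (nat_lit 0) (XT.lf (nat_lit 836) (nat_lit 7431128934) (nat_lit 76) (nat_lit 28900251837) (nat_lit 0) (nat_lit 8156007629) (nat_lit 307) (nat_lit 1) (nat_lit 297) (nat_lit 1) (nat_lit 296) (nat_lit 1) (nat_lit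 278) (nat_lit 374) (nat_lit 368)) (XT.lf (nat_lit 836) (nat_lit 1526184430) (nat_lit 0) (nat_lit 21604849926) (nat_lit 760) (nat_lit 19811421010) (nat_lit 298) (nat_lit 1) (nat_lit 287) (nat_lit 1) (nat_lit 297) (nat_lit 1) (nat_lit 279) (nat_lit 374) (nat_lit 367))) (XT.nd (nat_lit 78) (nat_lit 380) (nat_lit 0) (XT.lf (nat_lit 76) (nat_lit 10567618914) (nat_lit 0) (nat_lit 4579441052) (nat_lit 532) (nat_lit 26323613454) (nat_lit 281) (nat_lit 1) (nat_lit 280) (nat_lit 1) (nat_lit 287) (nat_lit 1) (nat_lit 280) (nat_lit 374) (nat_lit 366)) (XT.lf (nat_lit 456) (nat_lit 29123027615) (nat_lit 0) (nat_lit 9480173330) (nat_lit 380) (nat_lit 1465693374) (nat_lit 281) (nat_lit 1) (nat_lit 275) (nat_lit 1) (nat_lit 280) (nat_lit 1) (nat_lit 281) (nat_lit 374) (nat_lit 365))))))))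
noncomputable def ec97 : XT := (XT.nd (nat_lit 2028) (nat_lit 3268) (nat_lit 0) (XT.nd (nat_lit 1014) (nat_lit 2280) (nat_lit 0) (XT.nd (nat_lit 468) (nat_lit 1748) (nat_lit 0) (XT.nd (nat_lit 234) (nat_lit 988) (nat_lit 0) (XT.nd (nat_lit 78) (nat_lit 304) (nat_lit 0) (XT.lf (nat_lit 456) (nat_lit 21015454057) (nat_lit 0) (nat_lit 4418749626) (nat_lit 380) (nat_lit 13293185528) (nat_lit 276) (nat_lit 1) (nat_lit 270) (nat_lit 1) (nat_lit 275) (nat_lit 1) (nat_lit 282) (nat_lit 374) (nat_lit 364)) (XT.nd (nat_lit 78) (nat_lit 0) (nat_lit 0) (XT.lf (nat_lit 380) (nat_lit 12787635764) (nat_lit 0) (nat_lit 81356361) (nat_lit 304) (nat_lit 24581938646) (nat_lit 271) (nat_lit 1) (nat_lit 266) (nat_lit 1) (nat_lit 270) (nat_lit 1) (nat_lit 283) (nat_lit 374) (nat_lit 363)) (XT.lf (nat_lit 76) (nat_lit 943411332) (nat_lit 0) (nat_lit 31816401509) (nat_lit 380) (nat_lit 3473378856) (nat_lit 267) (nat_lit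 1) (nat_lit 266) (nat_lit 1) (nat_lit 271) (nat_lit 1) (nat_lit 284) (nat_lit 374) (nat_lit 362)))) (XT.nd (nat_lit 78) (nat_lit 608) (nat_lit 0) (XT.lf (nat_lit 76) (nat_lit 24359125297) (nat_lit 0) (nat_lit 4040221571) (nat_lit 380) (nat_lit 6663059131) (nat_lit 262) (nat_lit 1) (nat_lit 261) (nat_lit 1) (nat_lit 266) (nat_lit 1) (nat_lit 285) (nat_lit 374) (nat_lit 361)) (XT.nd (nat_lit 78) (nat_lit 304) (nat_lit 0) (XT.lf (nat_lit 76) (nat_lit 12187487662) (nat_lit 0) (nat_lit 12375915878) (nat_lit 380) (nat_lit 9379948042) (nat_lit 258) (nat_lit 1) (nat_lit 257) (nat_lit 1) (nat_lit 262) (nat_lit 1) (nat_lit 286) (nat_lit 374) (nat_lit 360)) (XT.lf (nat_lit 76) (nat_lit 601547365) (nat_lit 0) (nat_lit 20692339178) (nat_lit 380) (nat_lit 11583394151) (nat_lit 254) (nat_lit 1) (nat_lit 253) (nat_lit 1) (nat_lit 258) (nat_lit 1) (nat_lit 287) (nat_lit 374) (nat_lit 359))))) (XT.nd (nat_lit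 234) (nat_lit 912) (nat_lit 0) (XT.nd (nat_lit 78) (nat_lit 608) (nat_lit 0) (XT.lf (nat_lit 304) (nat_lit 2716554000) (nat_lit 0) (nat_lit 18370754374) (nat_lit 228) (nat_lit 10765684269) (nat_lit 254) (nat_lit 1) (nat_lit 250) (nat_lit 1) (nat_lit 253) (nat_lit 1) (nat_lit 288) (nat_lit 374) (nat_lit 358)) (XT.nd (nat_lit 78) (nat_lit 228) (nat_lit 0) (XT.lf (nat_lit 76) (nat_lit 9386424444) (nat_lit 0) (nat_lit 6433513638) (nat_lit 380) (nat_lit 15051081708) (nat_lit 246) (nat_lit 1) (nat_lit 245) (nat_lit 1) (nat_lit 250) (nat_lit 1) (nat_lit 289) (nat_lit 374) (nat_lit 357)) (XT.lf (nat_lit 304) (nat_lit 14532442767) (nat_lit 0) (nat_lit 13651351705) (nat_lit 228) (nat_lit 1747356816) (nat_lit 246) (nat_lit 1) (nat_lit 242) (nat_lit 1) (nat_lit 245) (nat_lit 1) (nat_lit 290) (nat_lit 374) (nat_lit 356)))) (XT.nd (nat_lit 156) (nat_lit 380) (nat_lit 0) (XT.nd (nat_lit 78) (nat_lit 304) (nat_lit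 0) (XT.lf (nat_lit 304) (nat_lit 4657577699) (nat_lit 0) (nat_lit 11753254801) (nat_lit 228) (nat_lit 12616569695) (nat_lit 243) (nat_lit 1) (nat_lit 239) (nat_lit 1) (nat_lit 242) (nat_lit 1) (nat_lit 291) (nat_lit 374) (nat_lit 355)) (XT.lf (nat_lit 76) (nat_lit 5308513156) (nat_lit 0) (nat_lit 4860405115) (nat_lit 304) (nat_lit 17992269233) (nat_lit 236) (nat_lit 1) (nat_lit 235) (nat_lit 1) (nat_lit 239) (nat_lit 1) (nat_lit 292) (nat_lit 374) (nat_lit 354))) (XT.nd (nat_lit 78) (nat_lit 152) (nat_lit 0) (XT.lf (nat_lit 304) (nat_lit 13209538250) (nat_lit 0) (nat_lit 8789137244) (nat_lit 228) (nat_lit 5328003894) (nat_lit 236) (nat_lit 1) (nat_lit 232) (nat_lit 1) (nat_lit 235) (nat_lit 1) (nat_lit 293) (nat_lit 374) (nat_lit 353)) (XT.lf (nat_lit 228) (nat_lit 3274664037) (nat_lit 0) (nat_lit 7667881164) (nat_lit 152) (nat_lit 15583292456) (nat_lit 233) (nat_lit 1) (nat_lit 230) (nat_lit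 1) (nat_lit 232) (nat_lit 1) (nat_lit 294) (nat_lit 374) (nat_lit 352)))))) (XT.nd (nat_lit 468) (nat_lit 1064) (nat_lit 0) (XT.nd (nat_lit 234) (nat_lit 532) (nat_lit 0) (XT.nd (nat_lit 78) (nat_lit 380) (nat_lit 0) (XT.lf (nat_lit 76) (nat_lit 554749008) (nat_lit 0) (nat_lit 6207761840) (nat_lit 304) (nat_lit 18993527812) (nat_lit 227) (nat_lit 1) (nat_lit 226) (nat_lit 1) (nat_lit 230) (nat_lit 1) (nat_lit 295) (nat_lit 374) (nat_lit 351)) (XT.nd (nat_lit 78) (nat_lit 228) (nat_lit 0) (XT.lf (nat_lit 228) (nat_lit 9515572833) (nat_lit 0) (nat_lit 5946416681) (nat_lit 152) (nat_lit 9548687122) (nat_lit 227) (nat_lit 1) (nat_lit 224) (nat_lit 1) (nat_lit 226) (nat_lit 1) (nat_lit 296) (nat_lit 374) (nat_lit 350)) (XT.lf (nat_lit 76) (nat_lit 5162752161) (nat_lit 0) (nat_lit 238470759) (nat_lit 228) (nat_lit 18896616721) (nat_lit 222) (nat_lit 1) (nat_lit 221) (nat_lit 1) (nat_lit 224) (nat_lit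 1) (nat_lit 297) (nat_lit 374) (nat_lit 349)))) (XT.nd (nat_lit 78) (nat_lit 380) (nat_lit 0) (XT.lf (nat_lit 228) (nat_lit 14113967456) (nat_lit 0) (nat_lit 4890806185) (nat_lit 152) (nat_lit 4600964925) (nat_lit 222) (nat_lit 1) (nat_lit 219) (nat_lit 1) (nat_lit 221) (nat_lit 1) (nat_lit 298) (nat_lit 374) (nat_lit 348)) (XT.nd (nat_lit 78) (nat_lit 228) (nat_lit 0) (XT.lf (nat_lit 228) (nat_lit 4384363878) (nat_lit 0) (nat_lit 4546545183) (nat_lit 152) (nat_lit 14009190485) (nat_lit 220) (nat_lit 1) (nat_lit 217) (nat_lit 1) (nat_lit 219) (nat_lit 1) (nat_lit 299) (nat_lit 374) (nat_lit 347)) (XT.lf (nat_lit 228) (nat_lit 17404313297) (nat_lit 0) (nat_lit 4343854901) (nat_lit 152) (nat_lit 551068390) (nat_lit 217) (nat_lit 1) (nat_lit 214) (nat_lit 1) (nat_lit 216) (nat_lit 1) (nat_lit 300) (nat_lit 374) (nat_lit 346))))) (XT.nd (nat_lit 234) (nat_lit 608) (nat_lit 0) (XT.nd (nat_lit 78)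 (nat_lit 304) (nat_lit 0) (XT.lf (nat_lit 228) (nat_lit 7789364010) (nat_lit 0) (nat_lit 4146916914) (nat_lit 152) (nat_lit 9739900266) (nat_lit 215) (nat_lit 1) (nat_lit 212) (nat_lit 1) (nat_lit 214) (nat_lit 1) (nat_lit 301) (nat_lit 374) (nat_lit 345)) (XT.nd (nat_lit 78) (nat_lit 152) (nat_lit 0) (XT.lf (nat_lit 76) (nat_lit 2668157912) (nat_lit 0) (nat_lit 1466539819) (nat_lit 152) (nat_lit 16944270789) (nat_lit 211) (nat_lit 1) (nat_lit 210) (nat_lit 1) (nat_lit 212) (nat_lit 1) (nat_lit 302) (nat_lit 374) (nat_lit 344)) (XT.lf (nat_lit 228) (nat_lit 10220093553) (nat_lit 0) (nat_lit 4090915885) (nat_lit 152) (nat_lit 6185816506) (nat_lit 211) (nat_lit 1) (nat_lit 208) (nat_lit 1) (nat_lit 210) (nat_lit 1) (nat_lit 303) (nat_lit 374) (nat_lit 343)))) (XT.nd (nat_lit 156) (nat_lit 304) (nat_lit 0) (XT.nd (nat_lit 78) (nat_lit 228) (nat_lit 0) (XT.lf (nat_lit 152) (nat_lit 1100558850) (nat_lit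 0) (nat_lit 4191394066) (nat_lit 76) (nat_lit 14645712692) (nat_lit 209) (nat_lit 1) (nat_lit 207) (nat_lit 1) (nat_lit 208) (nat_lit 1) (nat_lit 304) (nat_lit 374) (nat_lit 342)) (XT.lf (nat_lit 228) (nat_lit 11880126464) (nat_lit 0) (nat_lit 4286677641) (nat_lit 152) (nat_lit 3227118942) (nat_lit 207) (nat_lit 1) (nat_lit 204) (nat_lit 1) (nat_lit 206) (nat_lit 1) (nat_lit 305) (nat_lit 374) (nat_lit 341))) (XT.nd (nat_lit 78) (nat_lit 228) (nat_lit 0) (XT.lf (nat_lit 152) (nat_lit 2987939409) (nat_lit 0) (nat_lit 4446960838) (nat_lit 76) (nat_lit 11433605458) (nat_lit 205) (nat_lit 1) (nat_lit 203) (nat_lit 1) (nat_lit 204) (nat_lit 1) (nat_lit 306) (nat_lit 374) (nat_lit 340)) (XT.lf (nat_lit 228) (nat_lit 12934054888) (nat_lit 0) (nat_lit 4661439075) (nat_lit 152) (nat_lit 764982056) (nat_lit 203) (nat_lit 1) (nat_lit 200) (nat_lit 1) (nat_lit 202) (nat_lit 1) (nat_lit 307) (nat_lit 374)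 (nat_lit 339))))))) (XT.nd (nat_lit 1014) (nat_lit 1672) (nat_lit 0) (XT.nd (nat_lit 468) (nat_lit 760) (nat_lit 0) (XT.nd (nat_lit 234) (nat_lit 456) (nat_lit 0) (XT.nd (nat_lit 78) (nat_lit 304) (nat_lit 0) (XT.lf (nat_lit 152) (nat_lit 4300054731) (nat_lit 0) (nat_lit 4859606248) (nat_lit 76) (nat_lit 8706404273) (nat_lit 201) (nat_lit 1) (nat_lit 199) (nat_lit 1) (nat_lit 200) (nat_lit 1) (nat_lit 308) (nat_lit 374) (nat_lit 338)) (XT.nd (nat_lit 78) (nat_lit 76) (nat_lit 0) (XT.lf (nat_lit 76) (nat_lit 1241166921) (nat_lit 0) (nat_lit 3895692121) (nat_lit 228) (nat_lit 12252557185) (nat_lit 197) (nat_lit 1) (nat_lit 196) (nat_lit 1) (nat_lit 199) (nat_lit 1) (nat_lit 309) (nat_lit 374) (nat_lit 337)) (XT.lf (nat_lit 152) (nat_lit 5160453640) (nat_lit 0) (nat_lit 5376948093) (nat_lit 76) (nat_lit 6387202753) (nat_lit 197) (nat_lit 1) (nat_lit 195) (nat_lit 1) (nat_lit 196) (nat_lit 1) (nat_lit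 310) (nat_lit 374) (nat_lit 336)))) (XT.nd (nat_lit 78) (nat_lit 228) (nat_lit 0) (XT.lf (nat_lit 76) (nat_lit 2886492111) (nat_lit 0) (nat_lit 2795762794) (nat_lit 228) (nat_lit 10793872464) (nat_lit 193) (nat_lit 1) (nat_lit 192) (nat_lit 1) (nat_lit 195) (nat_lit 1) (nat_lit 311) (nat_lit 374) (nat_lit 335)) (XT.nd (nat_lit 78) (nat_lit 152) (nat_lit 0) (XT.lf (nat_lit 152) (nat_lit 5668769903) (nat_lit 0) (nat_lit 5958096150) (nat_lit 76) (nat_lit 4412242618) (nat_lit 193) (nat_lit 1) (nat_lit 191) (nat_lit 1) (nat_lit 192) (nat_lit 1) (nat_lit 312) (nat_lit 374) (nat_lit 334)) (XT.lf (nat_lit 76) (nat_lit 4249583860) (nat_lit 0) (nat_lit 2024850672) (nat_lit 152) (nat_lit 9342088155) (nat_lit 190) (nat_lit 1) (nat_lit 189) (nat_lit 1) (nat_lit 191) (nat_lit 1) (nat_lit 313) (nat_lit 374) (nat_lit 333))))) (XT.nd (nat_lit 234) (nat_lit 456) (nat_lit 0) (XT.nd (nat_lit 78) (nat_lit 228) (nat_lit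 0) (XT.lf (nat_lit 152) (nat_lit 5905190922) (nat_lit 0) (nat_lit 6571412441) (nat_lit 76) (nat_lit 2728568349) (nat_lit 190) (nat_lit 1) (nat_lit 188) (nat_lit 1) (nat_lit 189) (nat_lit 1) (nat_lit 314) (nat_lit 374) (nat_lit 332)) (XT.nd (nat_lit 78) (nat_lit 76) (nat_lit 0) (XT.lf (nat_lit 76) (nat_lit 5375328465) (nat_lit 0) (nat_lit 1510565004) (nat_lit 152) (nat_lit 7920579994) (nat_lit 187) (nat_lit 1) (nat_lit 186) (nat_lit 1) (nat_lit 188) (nat_lit 1) (nat_lit 315) (nat_lit 374) (nat_lit 331)) (XT.lf (nat_lit 152) (nat_lit 5934101479) (nat_lit 0) (nat_lit 7192690978) (nat_lit 76) (nat_lit 1292107806) (nat_lit 187) (nat_lit 1) (nat_lit 185) (nat_lit 1) (nat_lit 186) (nat_lit 1) (nat_lit 316) (nat_lit 374) (nat_lit 330)))) (XT.nd (nat_lit 156) (nat_lit 228) (nat_lit 0) (XT.nd (nat_lit 78) (nat_lit 76) (nat_lit 0) (XT.lf (nat_lit 76) (nat_lit 6301031443) (nat_lit 0) (nat_lit 1194696895)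 (nat_lit 152) (nat_lit 6546591410) (nat_lit 184) (nat_lit 1) (nat_lit 183) (nat_lit 1) (nat_lit 185) (nat_lit 1) (nat_lit 317) (nat_lit 374) (nat_lit 329)) (XT.lf (nat_lit 152) (nat_lit 5807054195) (nat_lit 0) (nat_lit 7803679493) (nat_lit 76) (nat_lit 66100948) (nat_lit 184) (nat_lit 1) (nat_lit 182) (nat_lit 1) (nat_lit 183) (nat_lit 1) (nat_lit 318) (nat_lit 374) (nat_lit 328))) (XT.nd (nat_lit 78) (nat_lit 76) (nat_lit 0) (XT.lf (nat_lit 76) (nat_lit 7057759413) (nat_lit 0) (nat_lit 1030556410) (nat_lit 152) (nat_lit 5232483177) (nat_lit 181) (nat_lit 1) (nat_lit 180) (nat_lit 1) (nat_lit 182) (nat_lit 1) (nat_lit 319) (nat_lit 374) (nat_lit 327)) (XT.lf (nat_lit 0) (nat_lit 948814879) (nat_lit 0) (nat_lit 7425996378) (nat_lit 152) (nat_lit 4600307020) (nat_lit 179) (nat_lit 3) (nat_lit 179) (nat_lit 1) (nat_lit 181) (nat_lit 1) (nat_lit 320) (nat_lit 374) (nat_lit 326)))))) (XT.nd (nat_lit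 546) (nat_lit 836) (nat_lit 0) (XT.nd (nat_lit 234) (nat_lit 456) (nat_lit 0) (XT.nd (nat_lit 78) (nat_lit 228) (nat_lit 0) (XT.lf (nat_lit 76) (nat_lit 7671439058) (nat_lit 0) (nat_lit 980802159) (nat_lit 152) (nat_lit 3986745850) (nat_lit 178) (nat_lit 1) (nat_lit 177) (nat_lit 1) (nat_lit 179) (nat_lit 1) (nat_lit 321) (nat_lit 374) (nat_lit 325)) (XT.nd (nat_lit 78) (nat_lit 152) (nat_lit 0) (XT.lf (nat_lit 0) (nat_lit 1812587436) (nat_lit 0) (nat_lit 7101291385) (nat_lit 152) (nat_lit 3397928969) (nat_lit 176) (nat_lit 3) (nat_lit 176) (nat_lit 1) (nat_lit 178) (nat_lit 1) (nat_lit 322) (nat_lit 374) (nat_lit 324)) (XT.lf (nat_lit 76) (nat_lit 8163757569) (nat_lit 0) (nat_lit 1015672747) (nat_lit 152) (nat_lit 2814818968) (nat_lit 175) (nat_lit 1) (nat_lit 174) (nat_lit 1) (nat_lit 176) (nat_lit 1) (nat_lit 323) (nat_lit 374) (nat_lit 323)))) (XT.nd (nat_lit 156) (nat_lit 228) (nat_lit 0)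 (XT.nd (nat_lit 78) (nat_lit 152) (nat_lit 0) (XT.lf (nat_lit 0) (nat_lit 2548296215) (nat_lit 0) (nat_lit 6866592599) (nat_lit 152) (nat_lit 2269541291) (nat_lit 173) (nat_lit 3) (nat_lit 173) (nat_lit 1) (nat_lit 175) (nat_lit 1) (nat_lit 324) (nat_lit 374) (nat_lit 322)) (XT.lf (nat_lit 76) (nat_lit 8552900761) (nat_lit 0) (nat_lit 1111546152) (nat_lit 152) (nat_lit 1719752964) (nat_lit 172) (nat_lit 1) (nat_lit 171) (nat_lit 1) (nat_lit 173) (nat_lit 1) (nat_lit 325) (nat_lit 374) (nat_lit 321))) (XT.nd (nat_lit 78) (nat_lit 152) (nat_lit 0) (XT.lf (nat_lit 0) (nat_lit 3173615857) (nat_lit 0) (nat_lit 6699561693) (nat_lit 152) (nat_lit 1217517768) (nat_lit 170) (nat_lit 3) (nat_lit 170) (nat_lit 1) (nat_lit 172) (nat_lit 1) (nat_lit 326) (nat_lit 374) (nat_lit 320)) (XT.lf (nat_lit 76) (nat_lit 8854158490) (nat_lit 0) (nat_lit 1249766634) (nat_lit 152) (nat_lit 702743063) (nat_lit 169) (nat_lit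 1) (nat_lit 168) (nat_lit 1) (nat_lit 170) (nat_lit 1) (nat_lit 327) (nat_lit 374) (nat_lit 319))))) (XT.nd (nat_lit 234) (nat_lit 456) (nat_lit 0) (XT.nd (nat_lit 78) (nat_lit 304) (nat_lit 0) (XT.lf (nat_lit 0) (nat_lit 3703494895) (nat_lit 0) (nat_lit 6582476080) (nat_lit 152) (nat_lit 242545814) (nat_lit 167) (nat_lit 3) (nat_lit 167) (nat_lit 1) (nat_lit 169) (nat_lit 1) (nat_lit 328) (nat_lit 374) (nat_lit 318)) (XT.nd (nat_lit 78) (nat_lit 76) (nat_lit 0) (XT.lf (nat_lit 152) (nat_lit 8839976334) (nat_lit 0) (nat_lit 244258746) (nat_lit 76) (nat_lit 1175244699) (nat_lit 166) (nat_lit 1) (nat_lit 164) (nat_lit 1) (nat_lit 165) (nat_lit 1) (nat_lit 329) (nat_lit 374) (nat_lit 317)) (XT.lf (nat_lit 76) (nat_lit 3483531296) (nat_lit 0) (nat_lit 677667199) (nat_lit 76) (nat_lit 5834257326) (nat_lit 164) (nat_lit 3) (nat_lit 163) (nat_lit 1) (nat_lit 164) (nat_lit 1) (nat_lit 330) (nat_lit 374)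 (nat_lit 316)))) (XT.nd (nat_lit 156) (nat_lit 228) (nat_lit 0) (XT.nd (nat_lit 78) (nat_lit 76) (nat_lit 0) (XT.lf (nat_lit 152) (nat_lit 8124866114) (nat_lit 0) (nat_lit 1135451061) (nat_lit 76) (nat_lit 480182713) (nat_lit 163) (nat_lit 1) (nat_lit 161) (nat_lit 1) (nat_lit 162) (nat_lit 1) (nat_lit 331) (nat_lit 374) (nat_lit 315)) (XT.lf (nat_lit 76) (nat_lit 3021100561) (nat_lit 0) (nat_lit 1528551570) (nat_lit 76) (nat_lit 4940499306) (nat_lit 161) (nat_lit 3) (nat_lit 160) (nat_lit 1) (nat_lit 161) (nat_lit 1) (nat_lit 332) (nat_lit 374) (nat_lit 314))) (XT.nd (nat_lit 78) (nat_lit 76) (nat_lit 0) (XT.lf (nat_lit 0) (nat_lit 127515634) (nat_lit 0) (nat_lit 1820107120) (nat_lit 152) (nat_lit 7300891031) (nat_lit 158) (nat_lit 3) (nat_lit 158) (nat_lit 1) (nat_lit 160) (nat_lit 1) (nat_lit 333) (nat_lit 374) (nat_lit 313)) (XT.lf (nat_lit 76) (nat_lit 2569753325) (nat_lit 0) (nat_lit 2304458010)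 (nat_lit 76) (nat_lit 4136967664) (nat_lit 158) (nat_lit 3) (nat_lit 157) (nat_lit 1) (nat_lit 158) (nat_lit 1) (nat_lit 334) (nat_lit 374) (nat_lit 312))))))))
noncomputable def ec98 : XT := (XT.nd (nat_lit 2028) (nat_lit 3192) (nat_lit 0) (XT.nd (nat_lit 1014) (nat_lit 1596) (nat_lit 0) (XT.nd (nat_lit 468) (nat_lit 836) (nat_lit 0) (XT.nd (nat_lit 234) (nat_lit 304) (nat_lit 0) (XT.nd (nat_lit 78) (nat_lit 228) (nat_lit 0) (XT.lf (nat_lit 0) (nat_lit 648516551) (nat_lit 0) (nat_lit 2030539777) (nat_lit 152) (nat_lit 6102698384) (nat_lit 155) (nat_lit 3) (nat_lit 155) (nat_lit 1) (nat_lit 157) (nat_lit 1) (nat_lit 335) (nat_lit 374) (nat_lit 311)) (XT.nd (nat_lit 78) (nat_lit 152) (nat_lit 0) (XT.lf (nat_lit 76) (nat_lit 2134548715) (nat_lit 0) (nat_lit 3008290035) (nat_lit 76) (nat_lit 3414199851) (nat_lit 155) (nat_lit 3) (nat_lit 154) (nat_lit 1) (nat_lit 155) (nat_lit 1) (nat_lit 336) (nat_lit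 374) (nat_lit 310)) (XT.lf (nat_lit 0) (nat_lit 1106128612) (nat_lit 0) (nat_lit 2234568767) (nat_lit 152) (nat_lit 4998453846) (nat_lit 152) (nat_lit 3) (nat_lit 152) (nat_lit 1) (nat_lit 154) (nat_lit 1) (nat_lit 337) (nat_lit 374) (nat_lit 309)))) (XT.nd (nat_lit 78) (nat_lit 228) (nat_lit 0) (XT.lf (nat_lit 76) (nat_lit 1719083691) (nat_lit 0) (nat_lit 3643318185) (nat_lit 76) (nat_lit 2763935686) (nat_lit 152) (nat_lit 3) (nat_lit 151) (nat_lit 1) (nat_lit 152) (nat_lit 1) (nat_lit 338) (nat_lit 374) (nat_lit 308)) (XT.nd (nat_lit 78) (nat_lit 76) (nat_lit 0) (XT.lf (nat_lit 0) (nat_lit 1507264444) (nat_lit 0) (nat_lit 2428650683) (nat_lit 152) (nat_lit 3983443227) (nat_lit 149) (nat_lit 3) (nat_lit 149) (nat_lit 1) (nat_lit 151) (nat_lit 1) (nat_lit 339) (nat_lit 374) (nat_lit 307)) (XT.lf (nat_lit 76) (nat_lit 1325797499) (nat_lit 0) (nat_lit 4213048854) (nat_lit 76) (nat_lit 2178932906)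 (nat_lit 149) (nat_lit 3) (nat_lit 148) (nat_lit 1) (nat_lit 149) (nat_lit 1) (nat_lit 340) (nat_lit 374) (nat_lit 306))))) (XT.nd (nat_lit 234) (nat_lit 456) (nat_lit 0) (XT.nd (nat_lit 78) (nat_lit 228) (nat_lit 0) (XT.lf (nat_lit 0) (nat_lit 1857967450) (nat_lit 0) (nat_lit 2610291442) (nat_lit 152) (nat_lit 3052863285) (nat_lit 146) (nat_lit 3) (nat_lit 146) (nat_lit 1) (nat_lit 148) (nat_lit 1) (nat_lit 341) (nat_lit 374) (nat_lit 305)) (XT.nd (nat_lit 78) (nat_lit 152) (nat_lit 0) (XT.lf (nat_lit 76) (nat_lit 956217957) (nat_lit 0) (nat_lit 4721121379) (nat_lit 76) (nat_lit 1652814246) (nat_lit 146) (nat_lit 3) (nat_lit 145) (nat_lit 1) (nat_lit 146) (nat_lit 1) (nat_lit 342) (nat_lit 374) (nat_lit 304)) (XT.lf (nat_lit 0) (nat_lit 2163542739) (nat_lit 0) (nat_lit 2777825180) (nat_lit 152) (nat_lit 2201903086) (nat_lit 143) (nat_lit 3) (nat_lit 143) (nat_lit 1) (nat_lit 145) (nat_lit 1)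 (nat_lit 343) (nat_lit 374) (nat_lit 303)))) (XT.nd (nat_lit 156) (nat_lit 228) (nat_lit 0) (XT.nd (nat_lit 78) (nat_lit 152) (nat_lit 0) (XT.lf (nat_lit 76) (nat_lit 611160377) (nat_lit 0) (nat_lit 5171227935) (nat_lit 76) (nat_lit 1179940415) (nat_lit 143) (nat_lit 3) (nat_lit 142) (nat_lit 1) (nat_lit 143) (nat_lit 1) (nat_lit 344) (nat_lit 374) (nat_lit 302)) (XT.lf (nat_lit 0) (nat_lit 2428665910) (nat_lit 0) (nat_lit 2930235608) (nat_lit 152) (nat_lit 1425806274) (nat_lit 140) (nat_lit 3) (nat_lit 140) (nat_lit 1) (nat_lit 142) (nat_lit 1) (nat_lit 345) (nat_lit 374) (nat_lit 301))) (XT.nd (nat_lit 78) (nat_lit 152) (nat_lit 0) (XT.lf (nat_lit 76) (nat_lit 290887950) (nat_lit 0) (nat_lit 5567051811) (nat_lit 76) (nat_lit 755304338) (nat_lit 140) (nat_lit 3) (nat_lit 139) (nat_lit 1) (nat_lit 140) (nat_lit 1) (nat_lit 346) (nat_lit 374) (nat_lit 300)) (XT.lf (nat_lit 0) (nat_lit 2657473642)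 (nat_lit 0) (nat_lit 3067011903) (nat_lit 152) (nat_lit 719918000) (nat_lit 137) (nat_lit 3) (nat_lit 137) (nat_lit 1) (nat_lit 139) (nat_lit 1) (nat_lit 347) (nat_lit 374) (nat_lit 299)))))) (XT.nd (nat_lit 468) (nat_lit 836) (nat_lit 0) (XT.nd (nat_lit 234) (nat_lit 304) (nat_lit 0) (XT.nd (nat_lit 78) (nat_lit 304) (nat_lit 0) (XT.lf (nat_lit 76) (nat_lit 5907535568) (nat_lit 0) (nat_lit 4606868) (nat_lit 152) (nat_lit 369758011) (nat_lit 136) (nat_lit 1) (nat_lit 135) (nat_lit 1) (nat_lit 137) (nat_lit 1) (nat_lit 348) (nat_lit 374) (nat_lit 298)) (XT.nd (nat_lit 78) (nat_lit 228) (nat_lit 0) (XT.lf (nat_lit 0) (nat_lit 2853639320) (nat_lit 0) (nat_lit 3188032700) (nat_lit 152) (nat_lit 79719563) (nat_lit 134) (nat_lit 3) (nat_lit 134) (nat_lit 1) (nat_lit 136) (nat_lit 1) (nat_lit 349) (nat_lit 374) (nat_lit 297)) (XT.lf (nat_lit 152) (nat_lit 5695698499) (nat_lit 0) (nat_lit 246472795)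 (nat_lit 76) (nat_lit 24793690) (nat_lit 133) (nat_lit 1) (nat_lit 131) (nat_lit 1) (nat_lit 132) (nat_lit 1) (nat_lit 350) (nat_lit 374) (nat_lit 296)))) (XT.nd (nat_lit 78) (nat_lit 228) (nat_lit 0) (XT.lf (nat_lit 76) (nat_lit 2512836302) (nat_lit 0) (nat_lit 515650778) (nat_lit 76) (nat_lit 2785872898) (nat_lit 131) (nat_lit 3) (nat_lit 130) (nat_lit 1) (nat_lit 131) (nat_lit 1) (nat_lit 351) (nat_lit 374) (nat_lit 295)) (XT.nd (nat_lit 78) (nat_lit 76) (nat_lit 0) (XT.lf (nat_lit 0) (nat_lit 284062695) (nat_lit 0) (nat_lit 524835708) (nat_lit 152) (nat_lit 4858597825) (nat_lit 128) (nat_lit 3) (nat_lit 128) (nat_lit 1) (nat_lit 130) (nat_lit 1) (nat_lit 352) (nat_lit 374) (nat_lit 294)) (XT.lf (nat_lit 76) (nat_lit 2122641881) (nat_lit 0) (nat_lit 1054614793) (nat_lit 76) (nat_lit 2345579856) (nat_lit 128) (nat_lit 3) (nat_lit 127) (nat_lit 1) (nat_lit 128) (nat_lit 1) (nat_lit 353) (nat_lit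 374) (nat_lit 293))))) (XT.nd (nat_lit 234) (nat_lit 456) (nat_lit 0) (XT.nd (nat_lit 78) (nat_lit 228) (nat_lit 0) (XT.lf (nat_lit 0) (nat_lit 558950948) (nat_lit 0) (nat_lit 755545282) (nat_lit 152) (nat_lit 4068698475) (nat_lit 125) (nat_lit 3) (nat_lit 125) (nat_lit 1) (nat_lit 127) (nat_lit 1) (nat_lit 354) (nat_lit 374) (nat_lit 292)) (XT.nd (nat_lit 78) (nat_lit 152) (nat_lit 0) (XT.lf (nat_lit 76) (nat_lit 1762691839) (nat_lit 0) (nat_lit 1538659230) (nat_lit 76) (nat_lit 1944723629) (nat_lit 125) (nat_lit 3) (nat_lit 124) (nat_lit 1) (nat_lit 125) (nat_lit 1) (nat_lit 355) (nat_lit 374) (nat_lit 291)) (XT.lf (nat_lit 0) (nat_lit 803568342) (nat_lit 0) (nat_lit 964090204) (nat_lit 152) (nat_lit 3345631847) (nat_lit 122) (nat_lit 3) (nat_lit 122) (nat_lit 1) (nat_lit 124) (nat_lit 1) (nat_lit 356) (nat_lit 374) (nat_lit 290)))) (XT.nd (nat_lit 156) (nat_lit 228) (nat_lit 0) (XT.nd (nat_lit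 78) (nat_lit 152) (nat_lit 0) (XT.lf (nat_lit 76) (nat_lit 1431486309) (nat_lit 0) (nat_lit 1971705261) (nat_lit 76) (nat_lit 1580117662) (nat_lit 122) (nat_lit 3) (nat_lit 121) (nat_lit 1) (nat_lit 122) (nat_lit 1) (nat_lit 357) (nat_lit 374) (nat_lit 289)) (XT.lf (nat_lit 0) (nat_lit 1020550879) (nat_lit 0) (nat_lit 1151619092) (nat_lit 152) (nat_lit 2684868019) (nat_lit 119) (nat_lit 3) (nat_lit 119) (nat_lit 1) (nat_lit 121) (nat_lit 1) (nat_lit 358) (nat_lit 374) (nat_lit 288))) (XT.nd (nat_lit 78) (nat_lit 152) (nat_lit 0) (XT.lf (nat_lit 76) (nat_lit 1127493817) (nat_lit 0) (nat_lit 2357470240) (nat_lit 76) (nat_lit 1248853274) (nat_lit 119) (nat_lit 3) (nat_lit 118) (nat_lit 1) (nat_lit 119) (nat_lit 1) (nat_lit 359) (nat_lit 374) (nat_lit 287)) (XT.lf (nat_lit 0) (nat_lit 1212297116) (nat_lit 0) (nat_lit 1319316037) (nat_lit 152) (nat_lit 2082120119) (nat_lit 116) (nat_lit 3) (nat_lit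 116) (nat_lit 1) (nat_lit 118) (nat_lit 1) (nat_lit 360) (nat_lit 374) (nat_lit 286))))))) (XT.nd (nat_lit 1014) (nat_lit 1596) (nat_lit 0) (XT.nd (nat_lit 468) (nat_lit 912) (nat_lit 0) (XT.nd (nat_lit 234) (nat_lit 380) (nat_lit 0) (XT.nd (nat_lit 78) (nat_lit 228) (nat_lit 0) (XT.lf (nat_lit 76) (nat_lit 849177936) (nat_lit 0) (nat_lit 2699468348) (nat_lit 76) (nat_lit 948269529) (nat_lit 116) (nat_lit 3) (nat_lit 115) (nat_lit 1) (nat_lit 116) (nat_lit 1) (nat_lit 361) (nat_lit 374) (nat_lit 285)) (XT.nd (nat_lit 78) (nat_lit 76) (nat_lit 0) (XT.lf (nat_lit 0) (nat_lit 1380994138) (nat_lit 0) (nat_lit 1468376495) (nat_lit 152) (nat_lit 1533339782) (nat_lit 113) (nat_lit 3) (nat_lit 113) (nat_lit 1) (nat_lit 115) (nat_lit 1) (nat_lit 362) (nat_lit 374) (nat_lit 284)) (XT.lf (nat_lit 76) (nat_lit 595017710) (nat_lit 0) (nat_lit 3001013548) (nat_lit 76) (nat_lit 675927300) (nat_lit 113) (nat_lit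 3) (nat_lit 112) (nat_lit 1) (nat_lit 113) (nat_lit 1) (nat_lit 363) (nat_lit 374) (nat_lit 283)))) (XT.nd (nat_lit 78) (nat_lit 228) (nat_lit 0) (XT.lf (nat_lit 0) (nat_lit 1528639915) (nat_lit 0) (nat_lit 1599988760) (nat_lit 152) (nat_lit 1034710874) (nat_lit 110) (nat_lit 3) (nat_lit 110) (nat_lit 1) (nat_lit 112) (nat_lit 1) (nat_lit 364) (nat_lit 374) (nat_lit 282)) (XT.nd (nat_lit 78) (nat_lit 152) (nat_lit 0) (XT.lf (nat_lit 76) (nat_lit 363523087) (nat_lit 0) (nat_lit 3265224258) (nat_lit 76) (nat_lit 429586832) (nat_lit 110) (nat_lit 3) (nat_lit 109) (nat_lit 1) (nat_lit 110) (nat_lit 1) (nat_lit 365) (nat_lit 374) (nat_lit 281)) (XT.lf (nat_lit 0) (nat_lit 1657062650) (nat_lit 0) (nat_lit 1715319921) (nat_lit 152) (nat_lit 582641956) (nat_lit 107) (nat_lit 3) (nat_lit 107) (nat_lit 1) (nat_lit 109) (nat_lit 1) (nat_lit 366) (nat_lit 374) (nat_lit 280))))) (XT.nd (nat_lit 234) (nat_lit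 456) (nat_lit 0) (XT.nd (nat_lit 78) (nat_lit 380) (nat_lit 0) (XT.lf (nat_lit 76) (nat_lit 153246334) (nat_lit 0) (nat_lit 3495029294) (nat_lit 76) (nat_lit 207188251) (nat_lit 107) (nat_lit 3) (nat_lit 106) (nat_lit 1) (nat_lit 107) (nat_lit 1) (nat_lit 367) (nat_lit 374) (nat_lit 279)) (XT.nd (nat_lit 78) (nat_lit 228) (nat_lit 0) (XT.lf (nat_lit 0) (nat_lit 1767937594) (nat_lit 0) (nat_lit 1815505423) (nat_lit 152) (nat_lit 173757875) (nat_lit 104) (nat_lit 3) (nat_lit 104) (nat_lit 1) (nat_lit 106) (nat_lit 1) (nat_lit 368) (nat_lit 374) (nat_lit 278)) (XT.lf (nat_lit 152) (nat_lit 3626247107) (nat_lit 0) (nat_lit 30779366) (nat_lit 76) (nat_lit 5719975) (nat_lit 103) (nat_lit 1) (nat_lit 101) (nat_lit 1) (nat_lit 102) (nat_lit 1) (nat_lit 369) (nat_lit 374) (nat_lit 277)))) (XT.nd (nat_lit 156) (nat_lit 228) (nat_lit 0) (XT.nd (nat_lit 78) (nat_lit 152) (nat_lit 0) (XT.lf (nat_lit 76) (nat_lit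 1664388229) (nat_lit 0) (nat_lit 201560421) (nat_lit 76) (nat_lit 1703227987) (nat_lit 101) (nat_lit 3) (nat_lit 100) (nat_lit 1) (nat_lit 101) (nat_lit 1) (nat_lit 370) (nat_lit 374) (nat_lit 276)) (XT.lf (nat_lit 0) (nat_lit 177214102) (nat_lit 0) (nat_lit 211464329) (nat_lit 152) (nat_lit 3090531406) (nat_lit 98) (nat_lit 3) (nat_lit 98) (nat_lit 1) (nat_lit 100) (nat_lit 1) (nat_lit 371) (nat_lit 374) (nat_lit 275))) (XT.nd (nat_lit 78) (nat_lit 152) (nat_lit 0) (XT.lf (nat_lit 76) (nat_lit 1407213591) (nat_lit 0) (nat_lit 544351910) (nat_lit 76) (nat_lit 1438926765) (nat_lit 98) (nat_lit 3) (nat_lit 97) (nat_lit 1) (nat_lit 98) (nat_lit 1) (nat_lit 372) (nat_lit 374) (nat_lit 274)) (XT.lf (nat_lit 0) (nat_lit 341024804) (nat_lit 0) (nat_lit 368990565) (nat_lit 152) (nat_lit 2594905335) (nat_lit 95) (nat_lit 3) (nat_lit 95) (nat_lit 1) (nat_lit 97) (nat_lit 1) (nat_lit 373) (nat_lit 374)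 (nat_lit 273)))))) (XT.nd (nat_lit 546) (nat_lit 836) (nat_lit 0) (XT.nd (nat_lit 234) (nat_lit 456) (nat_lit 0) (XT.nd (nat_lit 78) (nat_lit 228) (nat_lit 0) (XT.lf (nat_lit 76) (nat_lit 1171583288) (nat_lit 0) (nat_lit 851744743) (nat_lit 76) (nat_lit 1197477512) (nat_lit 95) (nat_lit 3) (nat_lit 94) (nat_lit 1) (nat_lit 95) (nat_lit 1) (nat_lit 374) (nat_lit 374) (nat_lit 272)) (XT.nd (nat_lit 78) (nat_lit 76) (nat_lit 0) (XT.lf (nat_lit 0) (nat_lit 487402123) (nat_lit 0) (nat_lit 510236536) (nat_lit 152) (nat_lit 2141774039) (nat_lit 92) (nat_lit 3) (nat_lit 92) (nat_lit 1) (nat_lit 94) (nat_lit 1) (nat_lit 375) (nat_lit 374) (nat_lit 271)) (XT.lf (nat_lit 76) (nat_lit 956044430) (nat_lit 0) (nat_lit 1126427378) (nat_lit 76) (nat_lit 977187405) (nat_lit 92) (nat_lit 3) (nat_lit 91) (nat_lit 1) (nat_lit 92) (nat_lit 1) (nat_lit 376) (nat_lit 374) (nat_lit 270)))) (XT.nd (nat_lit 156) (nat_lit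 228) (nat_lit 0) (XT.nd (nat_lit 78) (nat_lit 76) (nat_lit 0) (XT.lf (nat_lit 0) (nat_lit 617739978) (nat_lit 0) (nat_lit 636384576) (nat_lit 152) (nat_lit 1728114927) (nat_lit 89) (nat_lit 3) (nat_lit 89) (nat_lit 1) (nat_lit 91) (nat_lit 1) (nat_lit 377) (nat_lit 374) (nat_lit 269)) (XT.lf (nat_lit 76) (nat_lit 759221586) (nat_lit 0) (nat_lit 1370913059) (nat_lit 76) (nat_lit 776485103) (nat_lit 89) (nat_lit 3) (nat_lit 88) (nat_lit 1) (nat_lit 89) (nat_lit 1) (nat_lit 378) (nat_lit 374) (nat_lit 268))) (XT.nd (nat_lit 78) (nat_lit 76) (nat_lit 0) (XT.lf (nat_lit 0) (nat_lit 733328414) (nat_lit 0) (nat_lit 748551974) (nat_lit 152) (nat_lit 1351097457) (nat_lit 86) (nat_lit 3) (nat_lit 86) (nat_lit 1) (nat_lit 88) (nat_lit 1) (nat_lit 379) (nat_lit 374) (nat_lit 267)) (XT.lf (nat_lit 76) (nat_lit 579815409) (nat_lit 0) (nat_lit 1587549322) (nat_lit 76) (nat_lit 593911298) (nat_lit 86) (nat_lit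 3) (nat_lit 85) (nat_lit 1) (nat_lit 86) (nat_lit 1) (nat_lit 380) (nat_lit 374) (nat_lit 266))))) (XT.nd (nat_lit 234) (nat_lit 456) (nat_lit 0) (XT.nd (nat_lit 78) (nat_lit 228) (nat_lit 0) (XT.lf (nat_lit 0) (nat_lit 835361818) (nat_lit 0) (nat_lit 847792055) (nat_lit 152) (nat_lit 1008072576) (nat_lit 83) (nat_lit 3) (nat_lit 83) (nat_lit 1) (nat_lit 85) (nat_lit 1) (nat_lit 381) (nat_lit 374) (nat_lit 265)) (XT.nd (nat_lit 78) (nat_lit 152) (nat_lit 0) (XT.lf (nat_lit 76) (nat_lit 416600707) (nat_lit 0) (nat_lit 1778527249) (nat_lit 76) (nat_lit 428110186) (nat_lit 83) (nat_lit 3) (nat_lit 82) (nat_lit 1) (nat_lit 83) (nat_lit 1) (nat_lit 382) (nat_lit 374) (nat_lit 264)) (XT.lf (nat_lit 0) (nat_lit 924946336) (nat_lit 0) (nat_lit 935095788) (nat_lit 152) (nat_lit 696562501) (nat_lit 80) (nat_lit 3) (nat_lit 80) (nat_lit 1) (nat_lit 82) (nat_lit 1) (nat_lit 383) (nat_lit 374) (nat_lit 263))))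 (XT.nd (nat_lit 156) (nat_lit 228) (nat_lit 0) (XT.nd (nat_lit 78) (nat_lit 152) (nat_lit 0) (XT.lf (nat_lit 76) (nat_lit 268424079) (nat_lit 0) (nat_lit 1945890418) (nat_lit 76) (nat_lit 277821720) (nat_lit 80) (nat_lit 3) (nat_lit 79) (nat_lit 1) (nat_lit 80) (nat_lit 1) (nat_lit 384) (nat_lit 374) (nat_lit 262)) (XT.lf (nat_lit 0) (nat_lit 1003106607) (nat_lit 0) (nat_lit 1011393768) (nat_lit 152) (nat_lit 414250906) (nat_lit 77) (nat_lit 3) (nat_lit 77) (nat_lit 1) (nat_lit 79) (nat_lit 1) (nat_lit 385) (nat_lit 374) (nat_lit 261))) (XT.nd (nat_lit 78) (nat_lit 152) (nat_lit 0) (XT.lf (nat_lit 76) (nat_lit 134201279) (nat_lit 0) (nat_lit 2091543515) (nat_lit 76) (nat_lit 141874577) (nat_lit 77) (nat_lit 3) (nat_lit 76) (nat_lit 1) (nat_lit 77) (nat_lit 1) (nat_lit 386) (nat_lit 374) (nat_lit 260)) (XT.lf (nat_lit 0) (nat_lit 1070791879) (nat_lit 0) (nat_lit 1077558455) (nat_lit 152) (nat_lit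 158973511) (nat_lit 74) (nat_lit 3) (nat_lit 74) (nat_lit 1) (nat_lit 76) (nat_lit 1) (nat_lit 387) (nat_lit 374) (nat_lit 259))))))))
noncomputable def ec99 : XT := (XT.nd (nat_lit 2106) (nat_lit 456) (nat_lit 0) (XT.nd (nat_lit 1014) (nat_lit 1672) (nat_lit 0) (XT.nd (nat_lit 468) (nat_lit 836) (nat_lit 0) (XT.nd (nat_lit 234) (nat_lit 304) (nat_lit 0) (XT.nd (nat_lit 78) (nat_lit 380) (nat_lit 0) (XT.lf (nat_lit 76) (nat_lit 12914371) (nat_lit 0) (nat_lit 2217260600) (nat_lit 76) (nat_lit 19179720) (nat_lit 74) (nat_lit 3) (nat_lit 73) (nat_lit 1) (nat_lit 74) (nat_lit 1) (nat_lit 388) (nat_lit 374) (nat_lit 258)) (XT.nd (nat_lit 78) (nat_lit 152) (nat_lit 0) (XT.lf (nat_lit 76) (nat_lit 1056383347) (nat_lit 0) (nat_lit 73648105) (nat_lit 76) (nat_lit 1061908346) (nat_lit 71) (nat_lit 3) (nat_lit 70) (nat_lit 1) (nat_lit 71) (nat_lit 1) (nat_lit 389) (nat_lit 374) (nat_lit 257)) (XT.lf (nat_lit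 0) (nat_lit 92935539) (nat_lit 0) (nat_lit 97807672) (nat_lit 152) (nat_lit 1945982747) (nat_lit 68) (nat_lit 3) (nat_lit 68) (nat_lit 1) (nat_lit 70) (nat_lit 1) (nat_lit 390) (nat_lit 374) (nat_lit 256)))) (XT.nd (nat_lit 78) (nat_lit 228) (nat_lit 0) (XT.lf (nat_lit 76) (nat_lit 895046118) (nat_lit 0) (nat_lit 287635198) (nat_lit 76) (nat_lit 899557352) (nat_lit 68) (nat_lit 3) (nat_lit 67) (nat_lit 1) (nat_lit 68) (nat_lit 1) (nat_lit 391) (nat_lit 374) (nat_lit 255)) (XT.nd (nat_lit 78) (nat_lit 76) (nat_lit 0) (XT.lf (nat_lit 0) (nat_lit 193688210) (nat_lit 0) (nat_lit 197666371) (nat_lit 152) (nat_lit 1638363612) (nat_lit 65) (nat_lit 3) (nat_lit 65) (nat_lit 1) (nat_lit 67) (nat_lit 1) (nat_lit 392) (nat_lit 374) (nat_lit 254)) (XT.lf (nat_lit 76) (nat_lit 747410565) (nat_lit 0) (nat_lit 479549965) (nat_lit 76) (nat_lit 751094047) (nat_lit 65) (nat_lit 3) (nat_lit 64) (nat_lit 1) (nat_lit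 65) (nat_lit 1) (nat_lit 393) (nat_lit 374) (nat_lit 253))))) (XT.nd (nat_lit 234) (nat_lit 456) (nat_lit 0) (XT.nd (nat_lit 78) (nat_lit 228) (nat_lit 0) (XT.lf (nat_lit 0) (nat_lit 283853126) (nat_lit 0) (nat_lit 287101346) (nat_lit 152) (nat_lit 1357141065) (nat_lit 62) (nat_lit 3) (nat_lit 62) (nat_lit 1) (nat_lit 64) (nat_lit 1) (nat_lit 394) (nat_lit 374) (nat_lit 252)) (XT.nd (nat_lit 78) (nat_lit 152) (nat_lit 0) (XT.lf (nat_lit 76) (nat_lit 612506209) (nat_lit 0) (nat_lit 651088432) (nat_lit 76) (nat_lit 615513821) (nat_lit 62) (nat_lit 3) (nat_lit 61) (nat_lit 1) (nat_lit 62) (nat_lit 1) (nat_lit 395) (nat_lit 374) (nat_lit 251)) (XT.lf (nat_lit 0) (nat_lit 364256790) (nat_lit 0) (nat_lit 366909005) (nat_lit 152) (nat_lit 1100419646) (nat_lit 59) (nat_lit 3) (nat_lit 59) (nat_lit 1) (nat_lit 61) (nat_lit 1) (nat_lit 396) (nat_lit 374) (nat_lit 250)))) (XT.nd (nat_lit 156) (nat_lit 228)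 (nat_lit 0) (XT.nd (nat_lit 78) (nat_lit 152) (nat_lit 0) (XT.lf (nat_lit 76) (nat_lit 489424054) (nat_lit 0) (nat_lit 803831633) (nat_lit 76) (nat_lit 491879809) (nat_lit 59) (nat_lit 3) (nat_lit 58) (nat_lit 1) (nat_lit 59) (nat_lit 1) (nat_lit 397) (nat_lit 374) (nat_lit 249)) (XT.lf (nat_lit 0) (nat_lit 435667750) (nat_lit 0) (nat_lit 437833318) (nat_lit 152) (nat_lit 866428191) (nat_lit 56) (nat_lit 3) (nat_lit 56) (nat_lit 1) (nat_lit 58) (nat_lit 1) (nat_lit 398) (nat_lit 374) (nat_lit 248))) (XT.nd (nat_lit 78) (nat_lit 152) (nat_lit 0) (XT.lf (nat_lit 76) (nat_lit 377313220) (nat_lit 0) (nat_lit 939252752) (nat_lit 76) (nat_lit 379318376) (nat_lit 56) (nat_lit 3) (nat_lit 55) (nat_lit 1) (nat_lit 56) (nat_lit 1) (nat_lit 399) (nat_lit 374) (nat_lit 247)) (XT.lf (nat_lit 0) (nat_lit 498800550) (nat_lit 0) (nat_lit 500568765) (nat_lit 152) (nat_lit 653512227) (nat_lit 53) (nat_lit 3) (nat_lit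 53) (nat_lit 1) (nat_lit 55) (nat_lit 1) (nat_lit 400) (nat_lit 374) (nat_lit 246)))))) (XT.nd (nat_lit 546) (nat_lit 912) (nat_lit 0) (XT.nd (nat_lit 234) (nat_lit 456) (nat_lit 0) (XT.nd (nat_lit 78) (nat_lit 228) (nat_lit 0) (XT.lf (nat_lit 76) (nat_lit 275377685) (nat_lit 0) (nat_lit 1058723885) (nat_lit 76) (nat_lit 277014921) (nat_lit 53) (nat_lit 3) (nat_lit 52) (nat_lit 1) (nat_lit 53) (nat_lit 1) (nat_lit 401) (nat_lit 374) (nat_lit 245)) (XT.nd (nat_lit 78) (nat_lit 76) (nat_lit 0) (XT.lf (nat_lit 0) (nat_lit 554319393) (nat_lit 0) (nat_lit 555763164) (nat_lit 152) (nat_lit 460126778) (nat_lit 50) (nat_lit 3) (nat_lit 50) (nat_lit 1) (nat_lit 52) (nat_lit 1) (nat_lit 402) (nat_lit 374) (nat_lit 244)) (XT.lf (nat_lit 76) (nat_lit 182873147) (nat_lit 0) (nat_lit 1163522407) (nat_lit 76) (nat_lit 184209972) (nat_lit 50) (nat_lit 3) (nat_lit 49) (nat_lit 1) (nat_lit 50) (nat_lit 1) (nat_lit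 403) (nat_lit 374) (nat_lit 243)))) (XT.nd (nat_lit 156) (nat_lit 228) (nat_lit 0) (XT.nd (nat_lit 78) (nat_lit 76) (nat_lit 0) (XT.lf (nat_lit 0) (nat_lit 602841552) (nat_lit 0) (nat_lit 604020410) (nat_lit 152) (nat_lit 284829584) (nat_lit 47) (nat_lit 3) (nat_lit 47) (nat_lit 1) (nat_lit 49) (nat_lit 1) (nat_lit 404) (nat_lit 374) (nat_lit 242)) (XT.lf (nat_lit 76) (nat_lit 99104025) (nat_lit 0) (nat_lit 1254836987) (nat_lit 76) (nat_lit 100195560) (nat_lit 47) (nat_lit 3) (nat_lit 46) (nat_lit 1) (nat_lit 47) (nat_lit 1) (nat_lit 405) (nat_lit 374) (nat_lit 241))) (XT.nd (nat_lit 78) (nat_lit 76) (nat_lit 0) (XT.lf (nat_lit 0) (nat_lit 644940532) (nat_lit 0) (nat_lit 645903085) (nat_lit 152) (nat_lit 126274710) (nat_lit 44) (nat_lit 3) (nat_lit 44) (nat_lit 1) (nat_lit 46) (nat_lit 1) (nat_lit 406) (nat_lit 374) (nat_lit 240)) (XT.lf (nat_lit 76) (nat_lit 23420581) (nat_lit 0) (nat_lit 1333773248)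 (nat_lit 76) (nat_lit 24311834) (nat_lit 44) (nat_lit 3) (nat_lit 43) (nat_lit 1) (nat_lit 44) (nat_lit 1) (nat_lit 407) (nat_lit 374) (nat_lit 239))))) (XT.nd (nat_lit 234) (nat_lit 456) (nat_lit 0) (XT.nd (nat_lit 78) (nat_lit 228) (nat_lit 0) (XT.lf (nat_lit 76) (nat_lit 664071139) (nat_lit 0) (nat_lit 17348746) (nat_lit 76) (nat_lit 664857077) (nat_lit 41) (nat_lit 3) (nat_lit 40) (nat_lit 1) (nat_lit 41) (nat_lit 1) (nat_lit 408) (nat_lit 374) (nat_lit 238)) (XT.nd (nat_lit 78) (nat_lit 76) (nat_lit 0) (XT.lf (nat_lit 0) (nat_lit 44801614) (nat_lit 0) (nat_lit 45494680) (nat_lit 152) (nat_lit 1222080728) (nat_lit 38) (nat_lit 3) (nat_lit 38) (nat_lit 1) (nat_lit 40) (nat_lit 1) (nat_lit 409) (nat_lit 374) (nat_lit 237)) (XT.lf (nat_lit 76) (nat_lit 563950756) (nat_lit 0) (nat_lit 150358403) (nat_lit 76) (nat_lit 564592484) (nat_lit 38) (nat_lit 3) (nat_lit 37) (nat_lit 1) (nat_lit 38) (nat_lit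 1) (nat_lit 410) (nat_lit 374) (nat_lit 236)))) (XT.nd (nat_lit 156) (nat_lit 228) (nat_lit 0) (XT.nd (nat_lit 78) (nat_lit 76) (nat_lit 0) (XT.lf (nat_lit 0) (nat_lit 107229297) (nat_lit 0) (nat_lit 107795195) (nat_lit 152) (nat_lit 1031630330) (nat_lit 35) (nat_lit 3) (nat_lit 35) (nat_lit 1) (nat_lit 37) (nat_lit 1) (nat_lit 411) (nat_lit 374) (nat_lit 235)) (XT.lf (nat_lit 76) (nat_lit 472341510) (nat_lit 0) (nat_lit 269706868) (nat_lit 76) (nat_lit 472865490) (nat_lit 35) (nat_lit 3) (nat_lit 34) (nat_lit 1) (nat_lit 35) (nat_lit 1) (nat_lit 412) (nat_lit 374) (nat_lit 234))) (XT.nd (nat_lit 78) (nat_lit 76) (nat_lit 0) (XT.lf (nat_lit 0) (nat_lit 163143349) (nat_lit 0) (nat_lit 163605412) (nat_lit 152) (nat_lit 857490536) (nat_lit 32) (nat_lit 3) (nat_lit 32) (nat_lit 1) (nat_lit 34) (nat_lit 1) (nat_lit 413) (nat_lit 374) (nat_lit 233)) (XT.lf (nat_lit 76) (nat_lit 388634693) (nat_lit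 0) (nat_lit 376445245) (nat_lit 76) (nat_lit 389062529) (nat_lit 32) (nat_lit 3) (nat_lit 31) (nat_lit 1) (nat_lit 32) (nat_lit 1) (nat_lit 414) (nat_lit 374) (nat_lit 232))))))) (XT.nd (nat_lit 42510) (nat_lit 0) (nat_lit 15580) (XT.nd (nat_lit 41964) (nat_lit 0) (nat_lit 19380) (XT.nd (nat_lit 234) (nat_lit 76) (nat_lit 0) (XT.nd (nat_lit 78) (nat_lit 228) (nat_lit 0) (XT.lf (nat_lit 0) (nat_lit 213048654) (nat_lit 0) (nat_lit 213425934) (nat_lit 152) (nat_lit 698488659) (nat_lit 29) (nat_lit 3) (nat_lit 29) (nat_lit 1) (nat_lit 31) (nat_lit 1) (nat_lit 415) (nat_lit 374) (nat_lit 231)) (XT.nd (nat_lit 78) (nat_lit 152) (nat_lit 0) (XT.lf (nat_lit 76) (nat_lit 312261420) (nat_lit 0) (nat_lit 471552795) (nat_lit 76) (nat_lit 312610754) (nat_lit 29) (nat_lit 3) (nat_lit 28) (nat_lit 1) (nat_lit 29) (nat_lit 1) (nat_lit 416) (nat_lit 374) (nat_lit 230)) (XT.lf (nat_lit 0) (nat_lit 257415255) (nat_lit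 0) (nat_lit 257723310) (nat_lit 152) (nat_lit 553529415) (nat_lit 26) (nat_lit 3) (nat_lit 26) (nat_lit 1) (nat_lit 28) (nat_lit 1) (nat_lit 417) (nat_lit 374) (nat_lit 229)))) (XT.nd (nat_lit 41574) (nat_lit 0) (nat_lit 20292) (XT.lf (nat_lit 76) (nat_lit 242690198) (nat_lit 0) (nat_lit 555941525) (nat_lit 76) (nat_lit 242975433) (nat_lit 26) (nat_lit 3) (nat_lit 25) (nat_lit 1) (nat_lit 26) (nat_lit 1) (nat_lit 418) (nat_lit 374) (nat_lit 228)) (XT.nd (nat_lit 78) (nat_lit 0) (nat_lit 76) (XT.lf (nat_lit 836) (nat_lit 7944766195) (nat_lit 0) (nat_lit 14105914119) (nat_lit 836) (nat_lit 7944766195) (nat_lit 303) (nat_lit 1) (nat_lit 292) (nat_lit 0) (nat_lit 303) (nat_lit 0) (nat_lit 270) (nat_lit 375) (nat_lit 375)) (XT.lf (nat_lit 836) (nat_lit 2963641569) (nat_lit 0) (nat_lit 27694184583) (nat_lit 760) (nat_lit 27084819998) (nat_lit 304) (nat_lit 1) (nat_lit 293) (nat_lit 1) (nat_lit 303)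 (nat_lit 1) (nat_lit 271) (nat_lit 375) (nat_lit 374))))) (XT.nd (nat_lit 234) (nat_lit 988) (nat_lit 0) (XT.nd (nat_lit 78) (nat_lit 0) (nat_lit 76) (XT.lf (nat_lit 836) (nat_lit 27219337176) (nat_lit 76) (nat_lit 18546804750) (nat_lit 0) (nat_lit 9836379206) (nat_lit 304) (nat_lit 1) (nat_lit 294) (nat_lit 1) (nat_lit 293) (nat_lit 1) (nat_lit 272) (nat_lit 375) (nat_lit 373)) (XT.nd (nat_lit 78) (nat_lit 0) (nat_lit 76) (XT.lf (nat_lit 836) (nat_lit 23519737160) (nat_lit 76) (nat_lit 7772837316) (nat_lit 0) (nat_lit 22276918922) (nat_lit 305) (nat_lit 1) (nat_lit 295) (nat_lit 1) (nat_lit 294) (nat_lit 1) (nat_lit 273) (nat_lit 375) (nat_lit 372)) (XT.lf (nat_lit 836) (nat_lit 17406605077) (nat_lit 0) (nat_lit 32566935324) (nat_lit 760) (nat_lit 1664817080) (nat_lit 306) (nat_lit 1) (nat_lit 295) (nat_lit 1) (nat_lit 305) (nat_lit 1) (nat_lit 274) (nat_lit 375) (nat_lit 371)))) (XT.nd (nat_lit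 156) (nat_lit 1216) (nat_lit 0) (XT.nd (nat_lit 78) (nat_lit 0) (nat_lit 0) (XT.lf (nat_lit 836) (nat_lit 4176544221) (nat_lit 0) (nat_lit 35914093641) (nat_lit 760) (nat_lit 9708808961) (nat_lit 307) (nat_lit 1) (nat_lit 296) (nat_lit 1) (nat_lit 306) (nat_lit 1) (nat_lit 275) (nat_lit 375) (nat_lit 370)) (XT.lf (nat_lit 836) (nat_lit 8025619248) (nat_lit 76) (nat_lit 31212271984) (nat_lit 0) (nat_lit 8808488240) (nat_lit 307) (nat_lit 1) (nat_lit 297) (nat_lit 1) (nat_lit 296) (nat_lit 1) (nat_lit 276) (nat_lit 375) (nat_lit 369))) (XT.nd (nat_lit 78) (nat_lit 532) (nat_lit 0) (XT.lf (nat_lit 836) (nat_lit 1648279185) (nat_lit 0) (nat_lit 23333237920) (nat_lit 760) (nat_lit 21396334691) (nat_lit 298) (nat_lit 1) (nat_lit 287) (nat_lit 1) (nat_lit 297) (nat_lit 1) (nat_lit 277) (nat_lit 375) (nat_lit 368)) (XT.lf (nat_lit 76) (nat_lit 11413028427) (nat_lit 0) (nat_lit 4945796336) (nat_lit 532)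 (nat_lit 28429502531) (nat_lit 281) (nat_lit 1) (nat_lit 280) (nat_lit 1) (nat_lit 287) (nat_lit 1) (nat_lit 278) (nat_lit 375) (nat_lit 367)))))) (XT.nd (nat_lit 546) (nat_lit 1748) (nat_lit 0) (XT.nd (nat_lit 234) (nat_lit 988) (nat_lit 0) (XT.nd (nat_lit 78) (nat_lit 684) (nat_lit 0) (XT.lf (nat_lit 456) (nat_lit 31452869824) (nat_lit 0) (nat_lit 10238587197) (nat_lit 380) (nat_lit 1582948843) (nat_lit 281) (nat_lit 1) (nat_lit 275) (nat_lit 1) (nat_lit 280) (nat_lit 1) (nat_lit 279) (nat_lit 375) (nat_lit 366)) (XT.nd (nat_lit 78) (nat_lit 304) (nat_lit 0) (XT.lf (nat_lit 456) (nat_lit 22696690382) (nat_lit 0) (nat_lit 4772249596) (nat_lit 380) (nat_lit 14356640371) (nat_lit 276) (nat_lit 1) (nat_lit 270) (nat_lit 1) (nat_lit 275) (nat_lit 1) (nat_lit 280) (nat_lit 375) (nat_lit 365)) (XT.lf (nat_lit 380) (nat_lit 13810646625) (nat_lit 0) (nat_lit 87864870) (nat_lit 304) (nat_lit 26548493738)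 (nat_lit 271) (nat_lit 1) (nat_lit 266) (nat_lit 1) (nat_lit 270) (nat_lit 1) (nat_lit 281) (nat_lit 375) (nat_lit 364)))) (XT.nd (nat_lit 156) (nat_lit 608) (nat_lit 0) (XT.nd (nat_lit 78) (nat_lit 380) (nat_lit 0) (XT.lf (nat_lit 76) (nat_lit 1018884239) (nat_lit 0) (nat_lit 34361713630) (nat_lit 380) (nat_lit 3751249164) (nat_lit 267) (nat_lit 1) (nat_lit 266) (nat_lit 1) (nat_lit 271) (nat_lit 1) (nat_lit 282) (nat_lit 375) (nat_lit 363)) (XT.lf (nat_lit 76) (nat_lit 26307855321) (nat_lit 0) (nat_lit 4363439297) (nat_lit 380) (nat_lit 7196103861) (nat_lit 262) (nat_lit 1) (nat_lit 261) (nat_lit 1) (nat_lit 266) (nat_lit 1) (nat_lit 283) (nat_lit 375) (nat_lit 362))) (XT.nd (nat_lit 78) (nat_lit 304) (nat_lit 0) (XT.lf (nat_lit 76) (nat_lit 13162486675) (nat_lit 0) (nat_lit 13365989149) (nat_lit 380) (nat_lit 10130343886) (nat_lit 258) (nat_lit 1) (nat_lit 257) (nat_lit 1) (nat_lit 262) (nat_lit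 1) (nat_lit 284) (nat_lit 375) (nat_lit 361)) (XT.lf (nat_lit 76) (nat_lit 649671154) (nat_lit 0) (nat_lit 22347726312) (nat_lit 380) (nat_lit 12510065683) (nat_lit 254) (nat_lit 1) (nat_lit 253) (nat_lit 1) (nat_lit 258) (nat_lit 1) (nat_lit 285) (nat_lit 375) (nat_lit 360))))) (XT.nd (nat_lit 234) (nat_lit 912) (nat_lit 0) (XT.nd (nat_lit 78) (nat_lit 608) (nat_lit 0) (XT.lf (nat_lit 304) (nat_lit 2933878320) (nat_lit 0) (nat_lit 19840414724) (nat_lit 228) (nat_lit 11626939011) (nat_lit 254) (nat_lit 1) (nat_lit 250) (nat_lit 1) (nat_lit 253) (nat_lit 1) (nat_lit 286) (nat_lit 375) (nat_lit 359)) (XT.nd (nat_lit 78) (nat_lit 228) (nat_lit 0) (XT.lf (nat_lit 76) (nat_lit 10137338399) (nat_lit 0) (nat_lit 6948194729) (nat_lit 380) (nat_lit 16255168245) (nat_lit 246) (nat_lit 1) (nat_lit 245) (nat_lit 1) (nat_lit 250) (nat_lit 1) (nat_lit 287) (nat_lit 375) (nat_lit 358)) (XT.lf (nat_lit 304)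 (nat_lit 15695038188) (nat_lit 0) (nat_lit 14743459842) (nat_lit 228) (nat_lit 1887145361) (nat_lit 246) (nat_lit 1) (nat_lit 242) (nat_lit 1) (nat_lit 245) (nat_lit 1) (nat_lit 288) (nat_lit 375) (nat_lit 357)))) (XT.nd (nat_lit 156) (nat_lit 380) (nat_lit 0) (XT.nd (nat_lit 78) (nat_lit 304) (nat_lit 0) (XT.lf (nat_lit 304) (nat_lit 5030183915) (nat_lit 0) (nat_lit 12693515185) (nat_lit 228) (nat_lit 13625895271) (nat_lit 243) (nat_lit 1) (nat_lit 239) (nat_lit 1) (nat_lit 242) (nat_lit 1) (nat_lit 289) (nat_lit 375) (nat_lit 356)) (XT.lf (nat_lit 76) (nat_lit 5733194209) (nat_lit 0) (nat_lit 5249237524) (nat_lit 304) (nat_lit 19431650772) (nat_lit 236) (nat_lit 1) (nat_lit 235) (nat_lit 1) (nat_lit 239) (nat_lit 1) (nat_lit 290) (nat_lit 375) (nat_lit 355))) (XT.nd (nat_lit 78) (nat_lit 152) (nat_lit 0) (XT.lf (nat_lit 304) (nat_lit 14266301310) (nat_lit 0) (nat_lit 9492268223) (nat_lit 228)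 (nat_lit 5754244206) (nat_lit 236) (nat_lit 1) (nat_lit 232) (nat_lit 1) (nat_lit 235) (nat_lit 1) (nat_lit 291) (nat_lit 375) (nat_lit 354)) (XT.lf (nat_lit 228) (nat_lit 3536637159) (nat_lit 0) (nat_lit 8281311657) (nat_lit 152) (nat_lit 16829955853) (nat_lit 233) (nat_lit 1) (nat_lit 230) (nat_lit 1) (nat_lit 232) (nat_lit 1) (nat_lit 292) (nat_lit 375) (nat_lit 353))))))))
noncomputable def ec100 : XT := (XT.nd (nat_lit 2028) (nat_lit 3192) (nat_lit 0) (XT.nd (nat_lit 1014) (nat_lit 1596) (nat_lit 0) (XT.nd (nat_lit 468) (nat_lit 1064) (nat_lit 0) (XT.nd (nat_lit 234) (nat_lit 532) (nat_lit 0) (XT.nd (nat_lit 78) (nat_lit 380) (nat_lit 0) (XT.lf (nat_lit 76) (nat_lit 599128929) (nat_lit 0) (nat_lit 6704382787) (nat_lit 304) (nat_lit 20513010037) (nat_lit 227) (nat_lit 1) (nat_lit 226) (nat_lit 1) (nat_lit 230) (nat_lit 1) (nat_lit 293) (nat_lit 375) (nat_lit 352)) (XT.nd (nat_lit 78) (nat_lit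 228) (nat_lit 0) (XT.lf (nat_lit 228) (nat_lit 10276818659) (nat_lit 0) (nat_lit 6422130015) (nat_lit 152) (nat_lit 10312582092) (nat_lit 227) (nat_lit 1) (nat_lit 224) (nat_lit 1) (nat_lit 226) (nat_lit 1) (nat_lit 294) (nat_lit 375) (nat_lit 351)) (XT.lf (nat_lit 76) (nat_lit 5575772333) (nat_lit 0) (nat_lit 257548419) (nat_lit 228) (nat_lit 20408346059) (nat_lit 222) (nat_lit 1) (nat_lit 221) (nat_lit 1) (nat_lit 224) (nat_lit 1) (nat_lit 295) (nat_lit 375) (nat_lit 350)))) (XT.nd (nat_lit 78) (nat_lit 380) (nat_lit 0) (XT.lf (nat_lit 228) (nat_lit 15243084853) (nat_lit 0) (nat_lit 5282070680) (nat_lit 152) (nat_lit 4969042119) (nat_lit 222) (nat_lit 1) (nat_lit 219) (nat_lit 1) (nat_lit 221) (nat_lit 1) (nat_lit 296) (nat_lit 375) (nat_lit 349)) (XT.nd (nat_lit 78) (nat_lit 228) (nat_lit 0) (XT.lf (nat_lit 228) (nat_lit 4735112988) (nat_lit 0) (nat_lit 4910268797) (nat_lit 152) (nat_lit 15129925724)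 (nat_lit 220) (nat_lit 1) (nat_lit 217) (nat_lit 1) (nat_lit 219) (nat_lit 1) (nat_lit 297) (nat_lit 375) (nat_lit 348)) (XT.lf (nat_lit 228) (nat_lit 18796658361) (nat_lit 0) (nat_lit 4691363293) (nat_lit 152) (nat_lit 595153861) (nat_lit 217) (nat_lit 1) (nat_lit 214) (nat_lit 1) (nat_lit 216) (nat_lit 1) (nat_lit 298) (nat_lit 375) (nat_lit 347))))) (XT.nd (nat_lit 234) (nat_lit 608) (nat_lit 0) (XT.nd (nat_lit 78) (nat_lit 304) (nat_lit 0) (XT.lf (nat_lit 228) (nat_lit 8412513131) (nat_lit 0) (nat_lit 4478670267) (nat_lit 152) (nat_lit 10519092287) (nat_lit 215) (nat_lit 1) (nat_lit 212) (nat_lit 1) (nat_lit 214) (nat_lit 1) (nat_lit 299) (nat_lit 375) (nat_lit 346)) (XT.nd (nat_lit 78) (nat_lit 152) (nat_lit 0) (XT.lf (nat_lit 76) (nat_lit 2881610545) (nat_lit 0) (nat_lit 1583863005) (nat_lit 152) (nat_lit 18299812452) (nat_lit 211) (nat_lit 1) (nat_lit 210) (nat_lit 1) (nat_lit 212) (nat_lit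 1) (nat_lit 300) (nat_lit 375) (nat_lit 345)) (XT.lf (nat_lit 228) (nat_lit 11037701037) (nat_lit 0) (nat_lit 4418189156) (nat_lit 152) (nat_lit 6680681826) (nat_lit 211) (nat_lit 1) (nat_lit 208) (nat_lit 1) (nat_lit 210) (nat_lit 1) (nat_lit 301) (nat_lit 375) (nat_lit 344)))) (XT.nd (nat_lit 156) (nat_lit 304) (nat_lit 0) (XT.nd (nat_lit 78) (nat_lit 228) (nat_lit 0) (XT.lf (nat_lit 152) (nat_lit 1188603558) (nat_lit 0) (nat_lit 4526705591) (nat_lit 76) (nat_lit 15817369707) (nat_lit 209) (nat_lit 1) (nat_lit 207) (nat_lit 1) (nat_lit 208) (nat_lit 1) (nat_lit 302) (nat_lit 375) (nat_lit 343)) (XT.lf (nat_lit 228) (nat_lit 12830536581) (nat_lit 0) (nat_lit 4629611853) (nat_lit 152) (nat_lit 3485288458) (nat_lit 207) (nat_lit 1) (nat_lit 204) (nat_lit 1) (nat_lit 206) (nat_lit 1) (nat_lit 303) (nat_lit 375) (nat_lit 342))) (XT.nd (nat_lit 78) (nat_lit 228) (nat_lit 0) (XT.lf (nat_lit 152) (nat_lit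 3226974562) (nat_lit 0) (nat_lit 4802717705) (nat_lit 76) (nat_lit 12348293894) (nat_lit 205) (nat_lit 1) (nat_lit 203) (nat_lit 1) (nat_lit 204) (nat_lit 1) (nat_lit 304) (nat_lit 375) (nat_lit 341)) (XT.lf (nat_lit 228) (nat_lit 13968779279) (nat_lit 0) (nat_lit 5034354201) (nat_lit 152) (nat_lit 826180620) (nat_lit 203) (nat_lit 1) (nat_lit 200) (nat_lit 1) (nat_lit 202) (nat_lit 1) (nat_lit 305) (nat_lit 375) (nat_lit 340)))))) (XT.nd (nat_lit 468) (nat_lit 760) (nat_lit 0) (XT.nd (nat_lit 234) (nat_lit 456) (nat_lit 0) (XT.nd (nat_lit 78) (nat_lit 304) (nat_lit 0) (XT.lf (nat_lit 152) (nat_lit 4644059110) (nat_lit 0) (nat_lit 5248374748) (nat_lit 76) (nat_lit 9402916615) (nat_lit 201) (nat_lit 1) (nat_lit 199) (nat_lit 1) (nat_lit 200) (nat_lit 1) (nat_lit 306) (nat_lit 375) (nat_lit 339)) (XT.nd (nat_lit 78) (nat_lit 76) (nat_lit 0) (XT.lf (nat_lit 76) (nat_lit 1340460275) (nat_lit 0) (nat_lit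 4207347490) (nat_lit 228) (nat_lit 13232761760) (nat_lit 197) (nat_lit 1) (nat_lit 196) (nat_lit 1) (nat_lit 199) (nat_lit 1) (nat_lit 307) (nat_lit 375) (nat_lit 338)) (XT.lf (nat_lit 152) (nat_lit 5573289932) (nat_lit 0) (nat_lit 5807103941) (nat_lit 76) (nat_lit 6898178973) (nat_lit 197) (nat_lit 1) (nat_lit 195) (nat_lit 1) (nat_lit 196) (nat_lit 1) (nat_lit 308) (nat_lit 375) (nat_lit 337)))) (XT.nd (nat_lit 78) (nat_lit 228) (nat_lit 0) (XT.lf (nat_lit 76) (nat_lit 3117411480) (nat_lit 0) (nat_lit 3019423817) (nat_lit 228) (nat_lit 11657382261) (nat_lit 193) (nat_lit 1) (nat_lit 192) (nat_lit 1) (nat_lit 195) (nat_lit 1) (nat_lit 309) (nat_lit 375) (nat_lit 336)) (XT.nd (nat_lit 78) (nat_lit 152) (nat_lit 0) (XT.lf (nat_lit 152) (nat_lit 6122271495) (nat_lit 0) (nat_lit 6434743842) (nat_lit 76) (nat_lit 4765222028) (nat_lit 193) (nat_lit 1) (nat_lit 191) (nat_lit 1) (nat_lit 192) (nat_lit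 1) (nat_lit 310) (nat_lit 375) (nat_lit 335)) (XT.lf (nat_lit 76) (nat_lit 4589550569) (nat_lit 0) (nat_lit 2186838726) (nat_lit 152) (nat_lit 10089455207) (nat_lit 190) (nat_lit 1) (nat_lit 189) (nat_lit 1) (nat_lit 191) (nat_lit 1) (nat_lit 311) (nat_lit 375) (nat_lit 334))))) (XT.nd (nat_lit 234) (nat_lit 456) (nat_lit 0) (XT.nd (nat_lit 78) (nat_lit 228) (nat_lit 0) (XT.lf (nat_lit 152) (nat_lit 6377606196) (nat_lit 0) (nat_lit 7097125437) (nat_lit 76) (nat_lit 2946853817) (nat_lit 190) (nat_lit 1) (nat_lit 188) (nat_lit 1) (nat_lit 189) (nat_lit 1) (nat_lit 312) (nat_lit 375) (nat_lit 333)) (XT.nd (nat_lit 78) (nat_lit 76) (nat_lit 0) (XT.lf (nat_lit 76) (nat_lit 5805354742) (nat_lit 0) (nat_lit 1631410204) (nat_lit 152) (nat_lit 8554226394) (nat_lit 187) (nat_lit 1) (nat_lit 186) (nat_lit 1) (nat_lit 188) (nat_lit 1) (nat_lit 313) (nat_lit 375) (nat_lit 332)) (XT.lf (nat_lit 152) (nat_lit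 6408829597) (nat_lit 0) (nat_lit 7768106257) (nat_lit 76) (nat_lit 1395476430) (nat_lit 187) (nat_lit 1) (nat_lit 185) (nat_lit 1) (nat_lit 186) (nat_lit 1) (nat_lit 314) (nat_lit 375) (nat_lit 331)))) (XT.nd (nat_lit 156) (nat_lit 228) (nat_lit 0) (XT.nd (nat_lit 78) (nat_lit 76) (nat_lit 0) (XT.lf (nat_lit 76) (nat_lit 6805113959) (nat_lit 0) (nat_lit 1290272646) (nat_lit 152) (nat_lit 7070318722) (nat_lit 184) (nat_lit 1) (nat_lit 183) (nat_lit 1) (nat_lit 185) (nat_lit 1) (nat_lit 315) (nat_lit 375) (nat_lit 330)) (XT.lf (nat_lit 152) (nat_lit 6271618530) (nat_lit 0) (nat_lit 8427973852) (nat_lit 76) (nat_lit 71389024) (nat_lit 184) (nat_lit 1) (nat_lit 182) (nat_lit 1) (nat_lit 183) (nat_lit 1) (nat_lit 316) (nat_lit 375) (nat_lit 329))) (XT.nd (nat_lit 78) (nat_lit 76) (nat_lit 0) (XT.lf (nat_lit 76) (nat_lit 7622380166) (nat_lit 0) (nat_lit 1113000923) (nat_lit 152) (nat_lit 5651081832)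 (nat_lit 181) (nat_lit 1) (nat_lit 180) (nat_lit 1) (nat_lit 182) (nat_lit 1) (nat_lit 317) (nat_lit 375) (nat_lit 328)) (XT.lf (nat_lit 0) (nat_lit 1024720069) (nat_lit 0) (nat_lit 8020076088) (nat_lit 152) (nat_lit 4968331581) (nat_lit 179) (nat_lit 3) (nat_lit 179) (nat_lit 1) (nat_lit 181) (nat_lit 1) (nat_lit 318) (nat_lit 375) (nat_lit 327))))))) (XT.nd (nat_lit 1014) (nat_lit 1596) (nat_lit 0) (XT.nd (nat_lit 468) (nat_lit 912) (nat_lit 0) (XT.nd (nat_lit 234) (nat_lit 304) (nat_lit 0) (XT.nd (nat_lit 78) (nat_lit 228) (nat_lit 0) (XT.lf (nat_lit 76) (nat_lit 8285154183) (nat_lit 0) (nat_lit 1059266331) (nat_lit 152) (nat_lit 4305685518) (nat_lit 178) (nat_lit 1) (nat_lit 177) (nat_lit 1) (nat_lit 179) (nat_lit 1) (nat_lit 319) (nat_lit 375) (nat_lit 326)) (XT.nd (nat_lit 78) (nat_lit 152) (nat_lit 0) (XT.lf (nat_lit 0) (nat_lit 1957594431) (nat_lit 0) (nat_lit 7669394695) (nat_lit 152)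 (nat_lit 3669763287) (nat_lit 176) (nat_lit 3) (nat_lit 176) (nat_lit 1) (nat_lit 178) (nat_lit 1) (nat_lit 320) (nat_lit 375) (nat_lit 325)) (XT.lf (nat_lit 76) (nat_lit 8816858174) (nat_lit 0) (nat_lit 1096926566) (nat_lit 152) (nat_lit 3040004486) (nat_lit 175) (nat_lit 1) (nat_lit 174) (nat_lit 1) (nat_lit 176) (nat_lit 1) (nat_lit 321) (nat_lit 375) (nat_lit 324)))) (XT.nd (nat_lit 78) (nat_lit 228) (nat_lit 0) (XT.lf (nat_lit 0) (nat_lit 2752159912) (nat_lit 0) (nat_lit 7415920007) (nat_lit 152) (nat_lit 2451104594) (nat_lit 173) (nat_lit 3) (nat_lit 173) (nat_lit 1) (nat_lit 175) (nat_lit 1) (nat_lit 322) (nat_lit 375) (nat_lit 323)) (XT.nd (nat_lit 78) (nat_lit 76) (nat_lit 0) (XT.lf (nat_lit 76) (nat_lit 9237132822) (nat_lit 0) (nat_lit 1200469845) (nat_lit 152) (nat_lit 1857333201) (nat_lit 172) (nat_lit 1) (nat_lit 171) (nat_lit 1) (nat_lit 173) (nat_lit 1) (nat_lit 323) (nat_lit 375)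 (nat_lit 322)) (XT.lf (nat_lit 0) (nat_lit 3427505125) (nat_lit 0) (nat_lit 7235526629) (nat_lit 152) (nat_lit 1314919189) (nat_lit 170) (nat_lit 3) (nat_lit 170) (nat_lit 1) (nat_lit 172) (nat_lit 1) (nat_lit 324) (nat_lit 375) (nat_lit 321))))) (XT.nd (nat_lit 234) (nat_lit 456) (nat_lit 0) (XT.nd (nat_lit 78) (nat_lit 304) (nat_lit 0) (XT.lf (nat_lit 76) (nat_lit 9562491169) (nat_lit 0) (nat_lit 1349747964) (nat_lit 152) (nat_lit 758962508) (nat_lit 169) (nat_lit 1) (nat_lit 168) (nat_lit 1) (nat_lit 170) (nat_lit 1) (nat_lit 325) (nat_lit 375) (nat_lit 320)) (XT.nd (nat_lit 78) (nat_lit 228) (nat_lit 0) (XT.lf (nat_lit 0) (nat_lit 3999774487) (nat_lit 0) (nat_lit 7109074166) (nat_lit 152) (nat_lit 261949479) (nat_lit 167) (nat_lit 3) (nat_lit 167) (nat_lit 1) (nat_lit 169) (nat_lit 1) (nat_lit 326) (nat_lit 375) (nat_lit 319)) (XT.lf (nat_lit 152) (nat_lit 9547174441) (nat_lit 0) (nat_lit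 263799446) (nat_lit 76) (nat_lit 1269264275) (nat_lit 166) (nat_lit 1) (nat_lit 164) (nat_lit 1) (nat_lit 165) (nat_lit 1) (nat_lit 327) (nat_lit 375) (nat_lit 318)))) (XT.nd (nat_lit 156) (nat_lit 228) (nat_lit 0) (XT.nd (nat_lit 78) (nat_lit 152) (nat_lit 0) (XT.lf (nat_lit 76) (nat_lit 3762213799) (nat_lit 0) (nat_lit 731880575) (nat_lit 76) (nat_lit 6300997913) (nat_lit 164) (nat_lit 3) (nat_lit 163) (nat_lit 1) (nat_lit 164) (nat_lit 1) (nat_lit 328) (nat_lit 375) (nat_lit 317)) (XT.lf (nat_lit 152) (nat_lit 8774855403) (nat_lit 0) (nat_lit 1226287145) (nat_lit 76) (nat_lit 518597330) (nat_lit 163) (nat_lit 1) (nat_lit 161) (nat_lit 1) (nat_lit 162) (nat_lit 1) (nat_lit 329) (nat_lit 375) (nat_lit 316))) (XT.nd (nat_lit 78) (nat_lit 152) (nat_lit 0) (XT.lf (nat_lit 76) (nat_lit 3262788606) (nat_lit 0) (nat_lit 1650835695) (nat_lit 76) (nat_lit 5335739251) (nat_lit 161) (nat_lit 3) (nat_lit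 160) (nat_lit 1) (nat_lit 161) (nat_lit 1) (nat_lit 330) (nat_lit 375) (nat_lit 315)) (XT.lf (nat_lit 0) (nat_lit 137716884) (nat_lit 0) (nat_lit 1965715689) (nat_lit 152) (nat_lit 7884962313) (nat_lit 158) (nat_lit 3) (nat_lit 158) (nat_lit 1) (nat_lit 160) (nat_lit 1) (nat_lit 331) (nat_lit 375) (nat_lit 314)))))) (XT.nd (nat_lit 546) (nat_lit 836) (nat_lit 0) (XT.nd (nat_lit 234) (nat_lit 456) (nat_lit 0) (XT.nd (nat_lit 78) (nat_lit 228) (nat_lit 0) (XT.lf (nat_lit 76) (nat_lit 2775333591) (nat_lit 0) (nat_lit 2488814651) (nat_lit 76) (nat_lit 4467925077) (nat_lit 158) (nat_lit 3) (nat_lit 157) (nat_lit 1) (nat_lit 158) (nat_lit 1) (nat_lit 332) (nat_lit 375) (nat_lit 313)) (XT.nd (nat_lit 78) (nat_lit 76) (nat_lit 0) (XT.lf (nat_lit 0) (nat_lit 700397875) (nat_lit 0) (nat_lit 2192982959) (nat_lit 152) (nat_lit 6590914254) (nat_lit 155) (nat_lit 3) (nat_lit 155) (nat_lit 1) (nat_lit 157)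 (nat_lit 1) (nat_lit 333) (nat_lit 375) (nat_lit 312)) (XT.lf (nat_lit 76) (nat_lit 2305312612) (nat_lit 0) (nat_lit 3248953238) (nat_lit 76) (nat_lit 3687335839) (nat_lit 155) (nat_lit 3) (nat_lit 154) (nat_lit 1) (nat_lit 155) (nat_lit 1) (nat_lit 334) (nat_lit 375) (nat_lit 311)))) (XT.nd (nat_lit 156) (nat_lit 228) (nat_lit 0) (XT.nd (nat_lit 78) (nat_lit 76) (nat_lit 0) (XT.lf (nat_lit 0) (nat_lit 1194618901) (nat_lit 0) (nat_lit 2413334268) (nat_lit 152) (nat_lit 5398330153) (nat_lit 152) (nat_lit 3) (nat_lit 152) (nat_lit 1) (nat_lit 154) (nat_lit 1) (nat_lit 335) (nat_lit 375) (nat_lit 310)) (XT.lf (nat_lit 76) (nat_lit 1856610386) (nat_lit 0) (nat_lit 3934783640) (nat_lit 76) (nat_lit 2985050541) (nat_lit 152) (nat_lit 3) (nat_lit 151) (nat_lit 1) (nat_lit 152) (nat_lit 1) (nat_lit 336) (nat_lit 375) (nat_lit 309))) (XT.nd (nat_lit 78) (nat_lit 76) (nat_lit 0) (XT.lf (nat_lit 0) (nat_lit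 1627845600) (nat_lit 0) (nat_lit 2622942738) (nat_lit 152) (nat_lit 4302118686) (nat_lit 149) (nat_lit 3) (nat_lit 149) (nat_lit 1) (nat_lit 151) (nat_lit 1) (nat_lit 337) (nat_lit 375) (nat_lit 308)) (XT.lf (nat_lit 76) (nat_lit 1431861299) (nat_lit 0) (nat_lit 4550092763) (nat_lit 76) (nat_lit 2353247538) (nat_lit 149) (nat_lit 3) (nat_lit 148) (nat_lit 1) (nat_lit 149) (nat_lit 1) (nat_lit 338) (nat_lit 375) (nat_lit 307))))) (XT.nd (nat_lit 234) (nat_lit 456) (nat_lit 0) (XT.nd (nat_lit 78) (nat_lit 228) (nat_lit 0) (XT.lf (nat_lit 0) (nat_lit 2006604846) (nat_lit 0) (nat_lit 2819114757) (nat_lit 152) (nat_lit 3297092348) (nat_lit 146) (nat_lit 3) (nat_lit 146) (nat_lit 1) (nat_lit 148) (nat_lit 1) (nat_lit 339) (nat_lit 375) (nat_lit 306)) (XT.nd (nat_lit 78) (nat_lit 152) (nat_lit 0) (XT.lf (nat_lit 76) (nat_lit 1032715394) (nat_lit 0) (nat_lit 5098811089) (nat_lit 76) (nat_lit 1785039386)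 (nat_lit 146) (nat_lit 3) (nat_lit 145) (nat_lit 1) (nat_lit 146) (nat_lit 1) (nat_lit 340) (nat_lit 375) (nat_lit 305)) (XT.lf (nat_lit 0) (nat_lit 2336626158) (nat_lit 0) (nat_lit 3000051195) (nat_lit 152) (nat_lit 2378055333) (nat_lit 143) (nat_lit 3) (nat_lit 143) (nat_lit 1) (nat_lit 145) (nat_lit 1) (nat_lit 341) (nat_lit 375) (nat_lit 304)))) (XT.nd (nat_lit 156) (nat_lit 228) (nat_lit 0) (XT.nd (nat_lit 78) (nat_lit 152) (nat_lit 0) (XT.lf (nat_lit 76) (nat_lit 660053207) (nat_lit 0) (nat_lit 5584926170) (nat_lit 76) (nat_lit 1274335648) (nat_lit 143) (nat_lit 3) (nat_lit 142) (nat_lit 1) (nat_lit 143) (nat_lit 1) (nat_lit 342) (nat_lit 375) (nat_lit 303)) (XT.lf (nat_lit 0) (nat_lit 2622959182) (nat_lit 0) (nat_lit 3164654457) (nat_lit 152) (nat_lit 1539870776) (nat_lit 140) (nat_lit 3) (nat_lit 140) (nat_lit 1) (nat_lit 142) (nat_lit 1) (nat_lit 343) (nat_lit 375) (nat_lit 302))) (XT.nd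 (nat_lit 78) (nat_lit 152) (nat_lit 0) (XT.lf (nat_lit 76) (nat_lit 314158987) (nat_lit 0) (nat_lit 6012415956) (nat_lit 76) (nat_lit 815728685) (nat_lit 140) (nat_lit 3) (nat_lit 139) (nat_lit 1) (nat_lit 140) (nat_lit 1) (nat_lit 344) (nat_lit 375) (nat_lit 301)) (XT.lf (nat_lit 0) (nat_lit 2870071533) (nat_lit 0) (nat_lit 3312372855) (nat_lit 152) (nat_lit 777511440) (nat_lit 137) (nat_lit 3) (nat_lit 137) (nat_lit 1) (nat_lit 139) (nat_lit 1) (nat_lit 345) (nat_lit 375) (nat_lit 300))))))))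
noncomputable def ec101 : XT := (XT.nd (nat_lit 2106) (nat_lit 3192) (nat_lit 0) (XT.nd (nat_lit 1014) (nat_lit 1672) (nat_lit 0) (XT.nd (nat_lit 468) (nat_lit 836) (nat_lit 0) (XT.nd (nat_lit 234) (nat_lit 304) (nat_lit 0) (XT.nd (nat_lit 78) (nat_lit 304) (nat_lit 0) (XT.lf (nat_lit 76) (nat_lit 6380138413) (nat_lit 0) (nat_lit 4975418) (nat_lit 152) (nat_lit 399338652) (nat_lit 136) (nat_lit 1) (nat_lit 135) (nat_lit 1) (nat_lit 137) (nat_lit 1) (nat_lit 346) (nat_lit 375) (nat_lit 299)) (XT.nd (nat_lit 78) (nat_lit 228) (nat_lit 0) (XT.lf (nat_lit 0) (nat_lit 3081930465) (nat_lit 0) (nat_lit 3443075316) (nat_lit 152) (nat_lit 86097128) (nat_lit 134) (nat_lit 3) (nat_lit 134) (nat_lit 1) (nat_lit 136) (nat_lit 1) (nat_lit 347) (nat_lit 375) (nat_lit 298)) (XT.lf (nat_lit 152) (nat_lit 6151354379) (nat_lit 0) (nat_lit 266190619) (nat_lit 76) (nat_lit 26777185) (nat_lit 133) (nat_lit 1) (nat_lit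 131) (nat_lit 1) (nat_lit 132) (nat_lit 1) (nat_lit 348) (nat_lit 375) (nat_lit 297)))) (XT.nd (nat_lit 78) (nat_lit 228) (nat_lit 0) (XT.lf (nat_lit 76) (nat_lit 2713863206) (nat_lit 0) (nat_lit 556902840) (nat_lit 76) (nat_lit 3008742730) (nat_lit 131) (nat_lit 3) (nat_lit 130) (nat_lit 1) (nat_lit 131) (nat_lit 1) (nat_lit 349) (nat_lit 375) (nat_lit 296)) (XT.nd (nat_lit 78) (nat_lit 76) (nat_lit 0) (XT.lf (nat_lit 0) (nat_lit 306787711) (nat_lit 0) (nat_lit 566822565) (nat_lit 152) (nat_lit 5247285651) (nat_lit 128) (nat_lit 3) (nat_lit 128) (nat_lit 1) (nat_lit 130) (nat_lit 1) (nat_lit 350) (nat_lit 375) (nat_lit 295)) (XT.lf (nat_lit 76) (nat_lit 2292453231) (nat_lit 0) (nat_lit 1138983977) (nat_lit 76) (nat_lit 2533226244) (nat_lit 128) (nat_lit 3) (nat_lit 127) (nat_lit 1) (nat_lit 128) (nat_lit 1) (nat_lit 351) (nat_lit 375) (nat_lit 294))))) (XT.nd (nat_lit 234) (nat_lit 456) (nat_lit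 0) (XT.nd (nat_lit 78) (nat_lit 228) (nat_lit 0) (XT.lf (nat_lit 0) (nat_lit 603667023) (nat_lit 0) (nat_lit 815988904) (nat_lit 152) (nat_lit 4394194353) (nat_lit 125) (nat_lit 3) (nat_lit 125) (nat_lit 1) (nat_lit 127) (nat_lit 1) (nat_lit 352) (nat_lit 375) (nat_lit 293)) (XT.nd (nat_lit 78) (nat_lit 152) (nat_lit 0) (XT.lf (nat_lit 76) (nat_lit 1903707186) (nat_lit 0) (nat_lit 1661751968) (nat_lit 76) (nat_lit 2100301520) (nat_lit 125) (nat_lit 3) (nat_lit 124) (nat_lit 1) (nat_lit 125) (nat_lit 1) (nat_lit 353) (nat_lit 375) (nat_lit 292)) (XT.lf (nat_lit 0) (nat_lit 867853810) (nat_lit 0) (nat_lit 1041217420) (nat_lit 152) (nat_lit 3613282395) (nat_lit 122) (nat_lit 3) (nat_lit 122) (nat_lit 1) (nat_lit 124) (nat_lit 1) (nat_lit 354) (nat_lit 375) (nat_lit 291)))) (XT.nd (nat_lit 156) (nat_lit 228) (nat_lit 0) (XT.nd (nat_lit 78) (nat_lit 152) (nat_lit 0) (XT.lf (nat_lit 76) (nat_lit 1546005214)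 (nat_lit 0) (nat_lit 2129441682) (nat_lit 76) (nat_lit 1706527075) (nat_lit 122) (nat_lit 3) (nat_lit 121) (nat_lit 1) (nat_lit 122) (nat_lit 1) (nat_lit 355) (nat_lit 375) (nat_lit 290)) (XT.lf (nat_lit 0) (nat_lit 1102194949) (nat_lit 0) (nat_lit 1243748619) (nat_lit 152) (nat_lit 2899657461) (nat_lit 119) (nat_lit 3) (nat_lit 119) (nat_lit 1) (nat_lit 121) (nat_lit 1) (nat_lit 356) (nat_lit 375) (nat_lit 289))) (XT.nd (nat_lit 78) (nat_lit 152) (nat_lit 0) (XT.lf (nat_lit 76) (nat_lit 1217693323) (nat_lit 0) (nat_lit 2546067859) (nat_lit 76) (nat_lit 1348761535) (nat_lit 119) (nat_lit 3) (nat_lit 118) (nat_lit 1) (nat_lit 119) (nat_lit 1) (nat_lit 357) (nat_lit 375) (nat_lit 288)) (XT.lf (nat_lit 0) (nat_lit 1309280885) (nat_lit 0) (nat_lit 1424861320) (nat_lit 152) (nat_lit 2248689728) (nat_lit 116) (nat_lit 3) (nat_lit 116) (nat_lit 1) (nat_lit 118) (nat_lit 1) (nat_lit 358) (nat_lit 375)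 (nat_lit 287)))))) (XT.nd (nat_lit 546) (nat_lit 912) (nat_lit 0) (XT.nd (nat_lit 234) (nat_lit 456) (nat_lit 0) (XT.nd (nat_lit 78) (nat_lit 228) (nat_lit 0) (XT.lf (nat_lit 76) (nat_lit 917112171) (nat_lit 0) (nat_lit 2915425816) (nat_lit 76) (nat_lit 1024131092) (nat_lit 116) (nat_lit 3) (nat_lit 115) (nat_lit 1) (nat_lit 116) (nat_lit 1) (nat_lit 359) (nat_lit 375) (nat_lit 286)) (XT.nd (nat_lit 78) (nat_lit 76) (nat_lit 0) (XT.lf (nat_lit 0) (nat_lit 1491473669) (nat_lit 0) (nat_lit 1585846615) (nat_lit 152) (nat_lit 1656006964) (nat_lit 113) (nat_lit 3) (nat_lit 113) (nat_lit 1) (nat_lit 115) (nat_lit 1) (nat_lit 360) (nat_lit 375) (nat_lit 285)) (XT.lf (nat_lit 76) (nat_lit 642619127) (nat_lit 0) (nat_lit 3241094632) (nat_lit 76) (nat_lit 730001484) (nat_lit 113) (nat_lit 3) (nat_lit 112) (nat_lit 1) (nat_lit 113) (nat_lit 1) (nat_lit 361) (nat_lit 375) (nat_lit 284)))) (XT.nd (nat_lit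 156) (nat_lit 228) (nat_lit 0) (XT.nd (nat_lit 78) (nat_lit 76) (nat_lit 0) (XT.lf (nat_lit 0) (nat_lit 1650931108) (nat_lit 0) (nat_lit 1727987861) (nat_lit 152) (nat_lit 1117487744) (nat_lit 110) (nat_lit 3) (nat_lit 110) (nat_lit 1) (nat_lit 112) (nat_lit 1) (nat_lit 362) (nat_lit 375) (nat_lit 283)) (XT.lf (nat_lit 76) (nat_lit 392604934) (nat_lit 0) (nat_lit 3526442199) (nat_lit 76) (nat_lit 463953778) (nat_lit 110) (nat_lit 3) (nat_lit 109) (nat_lit 1) (nat_lit 110) (nat_lit 1) (nat_lit 363) (nat_lit 375) (nat_lit 282))) (XT.nd (nat_lit 78) (nat_lit 76) (nat_lit 0) (XT.lf (nat_lit 0) (nat_lit 1789627663) (nat_lit 0) (nat_lit 1852545515) (nat_lit 152) (nat_lit 629253313) (nat_lit 107) (nat_lit 3) (nat_lit 107) (nat_lit 1) (nat_lit 109) (nat_lit 1) (nat_lit 364) (nat_lit 375) (nat_lit 281)) (XT.lf (nat_lit 76) (nat_lit 165506041) (nat_lit 0) (nat_lit 3774631638) (nat_lit 76) (nat_lit 223763312)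 (nat_lit 107) (nat_lit 3) (nat_lit 106) (nat_lit 1) (nat_lit 107) (nat_lit 1) (nat_lit 365) (nat_lit 375) (nat_lit 280))))) (XT.nd (nat_lit 234) (nat_lit 456) (nat_lit 0) (XT.nd (nat_lit 78) (nat_lit 304) (nat_lit 0) (XT.lf (nat_lit 0) (nat_lit 1909372602) (nat_lit 0) (nat_lit 1960745857) (nat_lit 152) (nat_lit 187658505) (nat_lit 104) (nat_lit 3) (nat_lit 104) (nat_lit 1) (nat_lit 106) (nat_lit 1) (nat_lit 366) (nat_lit 375) (nat_lit 279)) (XT.nd (nat_lit 78) (nat_lit 76) (nat_lit 0) (XT.lf (nat_lit 152) (nat_lit 3916346875) (nat_lit 0) (nat_lit 33241716) (nat_lit 76) (nat_lit 6177573) (nat_lit 103) (nat_lit 1) (nat_lit 101) (nat_lit 1) (nat_lit 102) (nat_lit 1) (nat_lit 367) (nat_lit 375) (nat_lit 278)) (XT.lf (nat_lit 76) (nat_lit 1797539287) (nat_lit 0) (nat_lit 217685255) (nat_lit 76) (nat_lit 1839486226) (nat_lit 101) (nat_lit 3) (nat_lit 100) (nat_lit 1) (nat_lit 101) (nat_lit 1) (nat_lit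 368) (nat_lit 375) (nat_lit 277)))) (XT.nd (nat_lit 156) (nat_lit 228) (nat_lit 0) (XT.nd (nat_lit 78) (nat_lit 76) (nat_lit 0) (XT.lf (nat_lit 0) (nat_lit 191391230) (nat_lit 0) (nat_lit 228381476) (nat_lit 152) (nat_lit 3337773918) (nat_lit 98) (nat_lit 3) (nat_lit 98) (nat_lit 1) (nat_lit 100) (nat_lit 1) (nat_lit 369) (nat_lit 375) (nat_lit 276)) (XT.lf (nat_lit 76) (nat_lit 1519790679) (nat_lit 0) (nat_lit 587900063) (nat_lit 76) (nat_lit 1554040906) (nat_lit 98) (nat_lit 3) (nat_lit 97) (nat_lit 1) (nat_lit 98) (nat_lit 1) (nat_lit 370) (nat_lit 375) (nat_lit 275))) (XT.nd (nat_lit 78) (nat_lit 76) (nat_lit 0) (XT.lf (nat_lit 0) (nat_lit 368306788) (nat_lit 0) (nat_lit 398509811) (nat_lit 152) (nat_lit 2802497761) (nat_lit 95) (nat_lit 3) (nat_lit 95) (nat_lit 1) (nat_lit 97) (nat_lit 1) (nat_lit 371) (nat_lit 375) (nat_lit 274)) (XT.lf (nat_lit 76) (nat_lit 1265309951) (nat_lit 0) (nat_lit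 919884323) (nat_lit 76) (nat_lit 1293275713) (nat_lit 95) (nat_lit 3) (nat_lit 94) (nat_lit 1) (nat_lit 95) (nat_lit 1) (nat_lit 372) (nat_lit 375) (nat_lit 273))))))) (XT.nd (nat_lit 1014) (nat_lit 1672) (nat_lit 0) (XT.nd (nat_lit 468) (nat_lit 836) (nat_lit 0) (XT.nd (nat_lit 234) (nat_lit 304) (nat_lit 0) (XT.nd (nat_lit 78) (nat_lit 228) (nat_lit 0) (XT.lf (nat_lit 0) (nat_lit 526394293) (nat_lit 0) (nat_lit 551055458) (nat_lit 152) (nat_lit 2313115962) (nat_lit 92) (nat_lit 3) (nat_lit 92) (nat_lit 1) (nat_lit 94) (nat_lit 1) (nat_lit 373) (nat_lit 375) (nat_lit 272)) (XT.nd (nat_lit 78) (nat_lit 152) (nat_lit 0) (XT.lf (nat_lit 76) (nat_lit 1032527985) (nat_lit 0) (nat_lit 1216541569) (nat_lit 76) (nat_lit 1055362397) (nat_lit 92) (nat_lit 3) (nat_lit 91) (nat_lit 1) (nat_lit 92) (nat_lit 1) (nat_lit 374) (nat_lit 375) (nat_lit 271)) (XT.lf (nat_lit 0) (nat_lit 667159176) (nat_lit 0) (nat_lit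 687295343) (nat_lit 152) (nat_lit 1866364121) (nat_lit 89) (nat_lit 3) (nat_lit 89) (nat_lit 1) (nat_lit 91) (nat_lit 1) (nat_lit 375) (nat_lit 375) (nat_lit 270)))) (XT.nd (nat_lit 78) (nat_lit 228) (nat_lit 0) (XT.lf (nat_lit 76) (nat_lit 819959313) (nat_lit 0) (nat_lit 1480586104) (nat_lit 76) (nat_lit 838603911) (nat_lit 89) (nat_lit 3) (nat_lit 88) (nat_lit 1) (nat_lit 89) (nat_lit 1) (nat_lit 376) (nat_lit 375) (nat_lit 269)) (XT.nd (nat_lit 78) (nat_lit 76) (nat_lit 0) (XT.lf (nat_lit 0) (nat_lit 791994687) (nat_lit 0) (nat_lit 808436132) (nat_lit 152) (nat_lit 1459185254) (nat_lit 86) (nat_lit 3) (nat_lit 86) (nat_lit 1) (nat_lit 88) (nat_lit 1) (nat_lit 377) (nat_lit 375) (nat_lit 268)) (XT.lf (nat_lit 76) (nat_lit 626200642) (nat_lit 0) (nat_lit 1714553268) (nat_lit 76) (nat_lit 641424202) (nat_lit 86) (nat_lit 3) (nat_lit 85) (nat_lit 1) (nat_lit 86) (nat_lit 1) (nat_lit 378) (nat_lit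 375) (nat_lit 267))))) (XT.nd (nat_lit 234) (nat_lit 456) (nat_lit 0) (XT.nd (nat_lit 78) (nat_lit 228) (nat_lit 0) (XT.lf (nat_lit 0) (nat_lit 902190763) (nat_lit 0) (nat_lit 915615419) (nat_lit 152) (nat_lit 1088718382) (nat_lit 83) (nat_lit 3) (nat_lit 83) (nat_lit 1) (nat_lit 85) (nat_lit 1) (nat_lit 379) (nat_lit 375) (nat_lit 266)) (XT.nd (nat_lit 78) (nat_lit 152) (nat_lit 0) (XT.lf (nat_lit 76) (nat_lit 449928763) (nat_lit 0) (nat_lit 1920809429) (nat_lit 76) (nat_lit 462359000) (nat_lit 83) (nat_lit 3) (nat_lit 82) (nat_lit 1) (nat_lit 83) (nat_lit 1) (nat_lit 380) (nat_lit 375) (nat_lit 265)) (XT.lf (nat_lit 0) (nat_lit 998942043) (nat_lit 0) (nat_lit 1009903451) (nat_lit 152) (nat_lit 752287501) (nat_lit 80) (nat_lit 3) (nat_lit 80) (nat_lit 1) (nat_lit 82) (nat_lit 1) (nat_lit 381) (nat_lit 375) (nat_lit 264)))) (XT.nd (nat_lit 156) (nat_lit 228) (nat_lit 0) (XT.nd (nat_lit 78) (nat_lit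 152) (nat_lit 0) (XT.lf (nat_lit 76) (nat_lit 289898006) (nat_lit 0) (nat_lit 2101561651) (nat_lit 76) (nat_lit 300047458) (nat_lit 80) (nat_lit 3) (nat_lit 79) (nat_lit 1) (nat_lit 80) (nat_lit 1) (nat_lit 382) (nat_lit 375) (nat_lit 263)) (XT.lf (nat_lit 0) (nat_lit 1083355135) (nat_lit 0) (nat_lit 1092305270) (nat_lit 152) (nat_lit 447390979) (nat_lit 77) (nat_lit 3) (nat_lit 77) (nat_lit 1) (nat_lit 79) (nat_lit 1) (nat_lit 383) (nat_lit 375) (nat_lit 262))) (XT.nd (nat_lit 78) (nat_lit 152) (nat_lit 0) (XT.lf (nat_lit 76) (nat_lit 144937382) (nat_lit 0) (nat_lit 2258866997) (nat_lit 76) (nat_lit 153224543) (nat_lit 77) (nat_lit 3) (nat_lit 76) (nat_lit 1) (nat_lit 77) (nat_lit 1) (nat_lit 384) (nat_lit 375) (nat_lit 261)) (XT.lf (nat_lit 0) (nat_lit 1156455229) (nat_lit 0) (nat_lit 1163763132) (nat_lit 152) (nat_lit 171691392) (nat_lit 74) (nat_lit 3) (nat_lit 74) (nat_lit 1) (nat_lit 76)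 (nat_lit 1) (nat_lit 385) (nat_lit 375) (nat_lit 260)))))) (XT.nd (nat_lit 546) (nat_lit 760) (nat_lit 0) (XT.nd (nat_lit 234) (nat_lit 456) (nat_lit 0) (XT.nd (nat_lit 78) (nat_lit 380) (nat_lit 0) (XT.lf (nat_lit 76) (nat_lit 13947521) (nat_lit 0) (nat_lit 2394641448) (nat_lit 76) (nat_lit 20714097) (nat_lit 74) (nat_lit 3) (nat_lit 73) (nat_lit 1) (nat_lit 74) (nat_lit 1) (nat_lit 386) (nat_lit 375) (nat_lit 259)) (XT.nd (nat_lit 78) (nat_lit 152) (nat_lit 0) (XT.lf (nat_lit 76) (nat_lit 1140894015) (nat_lit 0) (nat_lit 79539953) (nat_lit 76) (nat_lit 1146861014) (nat_lit 71) (nat_lit 3) (nat_lit 70) (nat_lit 1) (nat_lit 71) (nat_lit 1) (nat_lit 387) (nat_lit 375) (nat_lit 258)) (XT.lf (nat_lit 0) (nat_lit 100370382) (nat_lit 0) (nat_lit 105632285) (nat_lit 152) (nat_lit 2101661366) (nat_lit 68) (nat_lit 3) (nat_lit 68) (nat_lit 1) (nat_lit 70) (nat_lit 1) (nat_lit 388) (nat_lit 375) (nat_lit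 257)))) (XT.nd (nat_lit 156) (nat_lit 228) (nat_lit 0) (XT.nd (nat_lit 78) (nat_lit 152) (nat_lit 0) (XT.lf (nat_lit 76) (nat_lit 966649808) (nat_lit 0) (nat_lit 310646014) (nat_lit 76) (nat_lit 971521940) (nat_lit 68) (nat_lit 3) (nat_lit 67) (nat_lit 1) (nat_lit 68) (nat_lit 1) (nat_lit 389) (nat_lit 375) (nat_lit 256)) (XT.lf (nat_lit 0) (nat_lit 209183267) (nat_lit 0) (nat_lit 213479680) (nat_lit 152) (nat_lit 1769432701) (nat_lit 65) (nat_lit 3) (nat_lit 65) (nat_lit 1) (nat_lit 67) (nat_lit 1) (nat_lit 390) (nat_lit 375) (nat_lit 255))) (XT.nd (nat_lit 78) (nat_lit 152) (nat_lit 0) (XT.lf (nat_lit 76) (nat_lit 807203411) (nat_lit 0) (nat_lit 517913962) (nat_lit 76) (nat_lit 811181571) (nat_lit 65) (nat_lit 3) (nat_lit 64) (nat_lit 1) (nat_lit 65) (nat_lit 1) (nat_lit 391) (nat_lit 375) (nat_lit 254)) (XT.lf (nat_lit 0) (nat_lit 306561376) (nat_lit 0) (nat_lit 310069454) (nat_lit 152) (nat_lit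 1465712351) (nat_lit 62) (nat_lit 3) (nat_lit 62) (nat_lit 1) (nat_lit 64) (nat_lit 1) (nat_lit 392) (nat_lit 375) (nat_lit 253))))) (XT.nd (nat_lit 234) (nat_lit 456) (nat_lit 0) (XT.nd (nat_lit 78) (nat_lit 228) (nat_lit 0) (XT.lf (nat_lit 76) (nat_lit 661506706) (nat_lit 0) (nat_lit 703175507) (nat_lit 76) (nat_lit 664754926) (nat_lit 62) (nat_lit 3) (nat_lit 61) (nat_lit 1) (nat_lit 62) (nat_lit 1) (nat_lit 393) (nat_lit 375) (nat_lit 252)) (XT.nd (nat_lit 78) (nat_lit 76) (nat_lit 0) (XT.lf (nat_lit 0) (nat_lit 393397333) (nat_lit 0) (nat_lit 396261725) (nat_lit 152) (nat_lit 1188453217) (nat_lit 59) (nat_lit 3) (nat_lit 59) (nat_lit 1) (nat_lit 61) (nat_lit 1) (nat_lit 394) (nat_lit 375) (nat_lit 251)) (XT.lf (nat_lit 76) (nat_lit 528577978) (nat_lit 0) (nat_lit 868138164) (nat_lit 76) (nat_lit 531230193) (nat_lit 59) (nat_lit 3) (nat_lit 58) (nat_lit 1) (nat_lit 59) (nat_lit 1) (nat_lit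 395) (nat_lit 375) (nat_lit 250)))) (XT.nd (nat_lit 156) (nat_lit 228) (nat_lit 0) (XT.nd (nat_lit 78) (nat_lit 76) (nat_lit 0) (XT.lf (nat_lit 0) (nat_lit 470521170) (nat_lit 0) (nat_lit 472859984) (nat_lit 152) (nat_lit 935742447) (nat_lit 56) (nat_lit 3) (nat_lit 56) (nat_lit 1) (nat_lit 58) (nat_lit 1) (nat_lit 396) (nat_lit 375) (nat_lit 249)) (XT.lf (nat_lit 76) (nat_lit 407498278) (nat_lit 0) (nat_lit 1014392973) (nat_lit 76) (nat_lit 409663846) (nat_lit 56) (nat_lit 3) (nat_lit 55) (nat_lit 1) (nat_lit 56) (nat_lit 1) (nat_lit 397) (nat_lit 375) (nat_lit 248))) (XT.nd (nat_lit 78) (nat_lit 76) (nat_lit 0) (XT.lf (nat_lit 0) (nat_lit 538704594) (nat_lit 0) (nat_lit 540614266) (nat_lit 152) (nat_lit 705793205) (nat_lit 53) (nat_lit 3) (nat_lit 53) (nat_lit 1) (nat_lit 55) (nat_lit 1) (nat_lit 398) (nat_lit 375) (nat_lit 247)) (XT.lf (nat_lit 76) (nat_lit 297407900) (nat_lit 0) (nat_lit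 1143421796) (nat_lit 76) (nat_lit 299176115) (nat_lit 53) (nat_lit 3) (nat_lit 52) (nat_lit 1) (nat_lit 53) (nat_lit 1) (nat_lit 399) (nat_lit 375) (nat_lit 246))))))))
noncomputable def ec102 : XT := (XT.nd (nat_lit 43368) (nat_lit 0) (nat_lit 13832) (XT.nd (nat_lit 1014) (nat_lit 684) (nat_lit 0) (XT.nd (nat_lit 468) (nat_lit 912) (nat_lit 0) (XT.nd (nat_lit 234) (nat_lit 304) (nat_lit 0) (XT.nd (nat_lit 78) (nat_lit 228) (nat_lit 0) (XT.lf (nat_lit 0) (nat_lit 598664944) (nat_lit 0) (nat_lit 600224217) (nat_lit 152) (nat_lit 496936920) (nat_lit 50) (nat_lit 3) (nat_lit 50) (nat_lit 1) (nat_lit 52) (nat_lit 1) (nat_lit 400) (nat_lit 375) (nat_lit 245)) (XT.nd (nat_lit 78) (nat_lit 152) (nat_lit 0) (XT.lf (nat_lit 76) (nat_lit 197502999) (nat_lit 0) (nat_lit 1256604199) (nat_lit 76) (nat_lit 198946770) (nat_lit 50) (nat_lit 3) (nat_lit 49) (nat_lit 1) (nat_lit 50) (nat_lit 1) (nat_lit 401) (nat_lit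 375) (nat_lit 244)) (XT.lf (nat_lit 0) (nat_lit 651068876) (nat_lit 0) (nat_lit 652342042) (nat_lit 152) (nat_lit 307615950) (nat_lit 47) (nat_lit 3) (nat_lit 47) (nat_lit 1) (nat_lit 49) (nat_lit 1) (nat_lit 402) (nat_lit 375) (nat_lit 243)))) (XT.nd (nat_lit 78) (nat_lit 228) (nat_lit 0) (XT.lf (nat_lit 76) (nat_lit 107032347) (nat_lit 0) (nat_lit 1355223946) (nat_lit 76) (nat_lit 108211205) (nat_lit 47) (nat_lit 3) (nat_lit 46) (nat_lit 1) (nat_lit 47) (nat_lit 1) (nat_lit 403) (nat_lit 375) (nat_lit 242)) (XT.nd (nat_lit 78) (nat_lit 76) (nat_lit 0) (XT.lf (nat_lit 0) (nat_lit 696535775) (nat_lit 0) (nat_lit 697575332) (nat_lit 152) (nat_lit 136376687) (nat_lit 44) (nat_lit 3) (nat_lit 44) (nat_lit 1) (nat_lit 46) (nat_lit 1) (nat_lit 404) (nat_lit 375) (nat_lit 241)) (XT.lf (nat_lit 76) (nat_lit 25294228) (nat_lit 0) (nat_lit 1440475108) (nat_lit 76) (nat_lit 26256781) (nat_lit 44) (nat_lit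 3) (nat_lit 43) (nat_lit 1) (nat_lit 44) (nat_lit 1) (nat_lit 405) (nat_lit 375) (nat_lit 240))))) (XT.nd (nat_lit 234) (nat_lit 456) (nat_lit 0) (XT.nd (nat_lit 78) (nat_lit 228) (nat_lit 0) (XT.lf (nat_lit 76) (nat_lit 717196831) (nat_lit 0) (nat_lit 18736646) (nat_lit 76) (nat_lit 718045643) (nat_lit 41) (nat_lit 3) (nat_lit 40) (nat_lit 1) (nat_lit 41) (nat_lit 1) (nat_lit 406) (nat_lit 375) (nat_lit 239)) (XT.nd (nat_lit 78) (nat_lit 76) (nat_lit 0) (XT.lf (nat_lit 0) (nat_lit 48385743) (nat_lit 0) (nat_lit 49134254) (nat_lit 152) (nat_lit 1319847186) (nat_lit 38) (nat_lit 3) (nat_lit 38) (nat_lit 1) (nat_lit 40) (nat_lit 1) (nat_lit 407) (nat_lit 375) (nat_lit 238)) (XT.lf (nat_lit 76) (nat_lit 609066817) (nat_lit 0) (nat_lit 162387075) (nat_lit 76) (nat_lit 609759883) (nat_lit 38) (nat_lit 3) (nat_lit 37) (nat_lit 1) (nat_lit 38) (nat_lit 1) (nat_lit 408) (nat_lit 375) (nat_lit 237))))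 (XT.nd (nat_lit 156) (nat_lit 228) (nat_lit 0) (XT.nd (nat_lit 78) (nat_lit 76) (nat_lit 0) (XT.lf (nat_lit 0) (nat_lit 115807641) (nat_lit 0) (nat_lit 116418811) (nat_lit 152) (nat_lit 1114160756) (nat_lit 35) (nat_lit 3) (nat_lit 35) (nat_lit 1) (nat_lit 37) (nat_lit 1) (nat_lit 409) (nat_lit 375) (nat_lit 236)) (XT.lf (nat_lit 76) (nat_lit 510128831) (nat_lit 0) (nat_lit 291283418) (nat_lit 76) (nat_lit 510694729) (nat_lit 35) (nat_lit 3) (nat_lit 34) (nat_lit 1) (nat_lit 35) (nat_lit 1) (nat_lit 410) (nat_lit 375) (nat_lit 235))) (XT.nd (nat_lit 78) (nat_lit 76) (nat_lit 0) (XT.lf (nat_lit 0) (nat_lit 176194817) (nat_lit 0) (nat_lit 176693845) (nat_lit 152) (nat_lit 926089779) (nat_lit 32) (nat_lit 3) (nat_lit 32) (nat_lit 1) (nat_lit 34) (nat_lit 1) (nat_lit 411) (nat_lit 375) (nat_lit 234)) (XT.lf (nat_lit 76) (nat_lit 419725469) (nat_lit 0) (nat_lit 406560864) (nat_lit 76) (nat_lit 420187532)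 (nat_lit 32) (nat_lit 3) (nat_lit 31) (nat_lit 1) (nat_lit 32) (nat_lit 1) (nat_lit 412) (nat_lit 375) (nat_lit 233)))))) (XT.nd (nat_lit 41808) (nat_lit 0) (nat_lit 20520) (XT.nd (nat_lit 234) (nat_lit 304) (nat_lit 0) (XT.nd (nat_lit 78) (nat_lit 228) (nat_lit 0) (XT.lf (nat_lit 0) (nat_lit 230092546) (nat_lit 0) (nat_lit 230500009) (nat_lit 152) (nat_lit 754367752) (nat_lit 29) (nat_lit 3) (nat_lit 29) (nat_lit 1) (nat_lit 31) (nat_lit 1) (nat_lit 413) (nat_lit 375) (nat_lit 232)) (XT.nd (nat_lit 78) (nat_lit 152) (nat_lit 0) (XT.lf (nat_lit 76) (nat_lit 337242334) (nat_lit 0) (nat_lit 509277018) (nat_lit 76) (nat_lit 337619614) (nat_lit 29) (nat_lit 3) (nat_lit 28) (nat_lit 1) (nat_lit 29) (nat_lit 1) (nat_lit 414) (nat_lit 375) (nat_lit 231)) (XT.lf (nat_lit 0) (nat_lit 278008476) (nat_lit 0) (nat_lit 278341175) (nat_lit 152) (nat_lit 597811768) (nat_lit 26) (nat_lit 3) (nat_lit 26) (nat_lit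 1) (nat_lit 28) (nat_lit 1) (nat_lit 415) (nat_lit 375) (nat_lit 230)))) (XT.nd (nat_lit 78) (nat_lit 228) (nat_lit 0) (XT.lf (nat_lit 76) (nat_lit 262105414) (nat_lit 0) (nat_lit 600416847) (nat_lit 76) (nat_lit 262413468) (nat_lit 26) (nat_lit 3) (nat_lit 25) (nat_lit 1) (nat_lit 26) (nat_lit 1) (nat_lit 416) (nat_lit 375) (nat_lit 229)) (XT.nd (nat_lit 78) (nat_lit 76) (nat_lit 0) (XT.lf (nat_lit 0) (nat_lit 320415078) (nat_lit 0) (nat_lit 320686731) (nat_lit 152) (nat_lit 455317287) (nat_lit 23) (nat_lit 3) (nat_lit 23) (nat_lit 1) (nat_lit 25) (nat_lit 1) (nat_lit 417) (nat_lit 375) (nat_lit 228)) (XT.lf (nat_lit 76) (nat_lit 193778592) (nat_lit 0) (nat_lit 680897338) (nat_lit 76) (nat_lit 194030123) (nat_lit 23) (nat_lit 3) (nat_lit 22) (nat_lit 1) (nat_lit 23) (nat_lit 1) (nat_lit 418) (nat_lit 375) (nat_lit 227))))) (XT.nd (nat_lit 234) (nat_lit 0) (nat_lit 152) (XT.nd (nat_lit 78) (nat_lit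 0) (nat_lit 76) (XT.lf (nat_lit 836) (nat_lit 8580347491) (nat_lit 0) (nat_lit 15234387248) (nat_lit 836) (nat_lit 8580347491) (nat_lit 303) (nat_lit 1) (nat_lit 292) (nat_lit 0) (nat_lit 303) (nat_lit 0) (nat_lit 268) (nat_lit 376) (nat_lit 376)) (XT.nd (nat_lit 78) (nat_lit 0) (nat_lit 0) (XT.lf (nat_lit 836) (nat_lit 3200732894) (nat_lit 0) (nat_lit 29909719350) (nat_lit 760) (nat_lit 29251605598) (nat_lit 304) (nat_lit 1) (nat_lit 293) (nat_lit 1) (nat_lit 303) (nat_lit 1) (nat_lit 269) (nat_lit 376) (nat_lit 375)) (XT.lf (nat_lit 836) (nat_lit 29396884150) (nat_lit 76) (nat_lit 20030549130) (nat_lit 0) (nat_lit 10623289543) (nat_lit 304) (nat_lit 1) (nat_lit 294) (nat_lit 1) (nat_lit 293) (nat_lit 1) (nat_lit 270) (nat_lit 376) (nat_lit 374)))) (XT.nd (nat_lit 156) (nat_lit 0) (nat_lit 152) (XT.nd (nat_lit 78) (nat_lit 0) (nat_lit 76) (XT.lf (nat_lit 836) (nat_lit 25401316133) (nat_lit 76)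 (nat_lit 8394664302) (nat_lit 0) (nat_lit 24059072436) (nat_lit 305) (nat_lit 1) (nat_lit 295) (nat_lit 1) (nat_lit 294) (nat_lit 1) (nat_lit 271) (nat_lit 376) (nat_lit 373)) (XT.lf (nat_lit 836) (nat_lit 18799133483) (nat_lit 0) (nat_lit 35172290150) (nat_lit 760) (nat_lit 1798002447) (nat_lit 306) (nat_lit 1) (nat_lit 295) (nat_lit 1) (nat_lit 305) (nat_lit 1) (nat_lit 272) (nat_lit 376) (nat_lit 372))) (XT.nd (nat_lit 78) (nat_lit 0) (nat_lit 0) (XT.lf (nat_lit 836) (nat_lit 4510667758) (nat_lit 0) (nat_lit 38787221132) (nat_lit 760) (nat_lit 10485513678) (nat_lit 307) (nat_lit 1) (nat_lit 296) (nat_lit 1) (nat_lit 306) (nat_lit 1) (nat_lit 273) (nat_lit 376) (nat_lit 371)) (XT.lf (nat_lit 836) (nat_lit 8667668788) (nat_lit 76) (nat_lit 33709253743) (nat_lit 0) (nat_lit 9513167299) (nat_lit 307) (nat_lit 1) (nat_lit 297) (nat_lit 1) (nat_lit 296) (nat_lit 1) (nat_lit 274) (nat_lit 376) (nat_lit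 370))))))) (XT.nd (nat_lit 1014) (nat_lit 2660) (nat_lit 0) (XT.nd (nat_lit 468) (nat_lit 2052) (nat_lit 0) (XT.nd (nat_lit 234) (nat_lit 684) (nat_lit 0) (XT.nd (nat_lit 78) (nat_lit 912) (nat_lit 0) (XT.lf (nat_lit 836) (nat_lit 1780141519) (nat_lit 0) (nat_lit 25199896954) (nat_lit 760) (nat_lit 23108041466) (nat_lit 298) (nat_lit 1) (nat_lit 287) (nat_lit 1) (nat_lit 297) (nat_lit 1) (nat_lit 275) (nat_lit 376) (nat_lit 369)) (XT.nd (nat_lit 78) (nat_lit 380) (nat_lit 0) (XT.lf (nat_lit 76) (nat_lit 12326070701) (nat_lit 0) (nat_lit 5341460043) (nat_lit 532) (nat_lit 30703862733) (nat_lit 281) (nat_lit 1) (nat_lit 280) (nat_lit 1) (nat_lit 287) (nat_lit 1) (nat_lit 276) (nat_lit 376) (nat_lit 368)) (XT.lf (nat_lit 456) (nat_lit 33969099410) (nat_lit 0) (nat_lit 11057674172) (nat_lit 380) (nat_lit 1709584751) (nat_lit 281) (nat_lit 1) (nat_lit 275) (nat_lit 1) (nat_lit 280) (nat_lit 1) (nat_lit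 277) (nat_lit 376) (nat_lit 367)))) (XT.nd (nat_lit 78) (nat_lit 304) (nat_lit 0) (XT.lf (nat_lit 456) (nat_lit 24512425613) (nat_lit 0) (nat_lit 5154029564) (nat_lit 380) (nat_lit 15505171600) (nat_lit 276) (nat_lit 1) (nat_lit 270) (nat_lit 1) (nat_lit 275) (nat_lit 1) (nat_lit 278) (nat_lit 376) (nat_lit 366)) (XT.nd (nat_lit 78) (nat_lit 0) (nat_lit 0) (XT.lf (nat_lit 380) (nat_lit 14915498355) (nat_lit 0) (nat_lit 94894060) (nat_lit 304) (nat_lit 28672373237) (nat_lit 271) (nat_lit 1) (nat_lit 266) (nat_lit 1) (nat_lit 270) (nat_lit 1) (nat_lit 279) (nat_lit 376) (nat_lit 365)) (XT.lf (nat_lit 76) (nat_lit 1100394978) (nat_lit 0) (nat_lit 37110650721) (nat_lit 380) (nat_lit 4051349098) (nat_lit 267) (nat_lit 1) (nat_lit 266) (nat_lit 1) (nat_lit 271) (nat_lit 1) (nat_lit 280) (nat_lit 376) (nat_lit 364))))) (XT.nd (nat_lit 234) (nat_lit 1064) (nat_lit 0) (XT.nd (nat_lit 78) (nat_lit 608)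 (nat_lit 0) (XT.lf (nat_lit 76) (nat_lit 28412483746) (nat_lit 0) (nat_lit 4712514441) (nat_lit 380) (nat_lit 7771792170) (nat_lit 262) (nat_lit 1) (nat_lit 261) (nat_lit 1) (nat_lit 266) (nat_lit 1) (nat_lit 281) (nat_lit 376) (nat_lit 363)) (XT.nd (nat_lit 78) (nat_lit 304) (nat_lit 0) (XT.lf (nat_lit 76) (nat_lit 14215485609) (nat_lit 0) (nat_lit 14435268281) (nat_lit 380) (nat_lit 10940771397) (nat_lit 258) (nat_lit 1) (nat_lit 257) (nat_lit 1) (nat_lit 262) (nat_lit 1) (nat_lit 282) (nat_lit 376) (nat_lit 362)) (XT.lf (nat_lit 76) (nat_lit 701644847) (nat_lit 0) (nat_lit 24135544417) (nat_lit 380) (nat_lit 13510870937) (nat_lit 254) (nat_lit 1) (nat_lit 253) (nat_lit 1) (nat_lit 258) (nat_lit 1) (nat_lit 283) (nat_lit 376) (nat_lit 361)))) (XT.nd (nat_lit 156) (nat_lit 456) (nat_lit 0) (XT.nd (nat_lit 78) (nat_lit 380) (nat_lit 0) (XT.lf (nat_lit 304) (nat_lit 3168588586) (nat_lit 0) (nat_lit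 21427647902) (nat_lit 228) (nat_lit 12557094132) (nat_lit 254) (nat_lit 1) (nat_lit 250) (nat_lit 1) (nat_lit 253) (nat_lit 1) (nat_lit 284) (nat_lit 376) (nat_lit 360)) (XT.lf (nat_lit 76) (nat_lit 10948325471) (nat_lit 0) (nat_lit 7504050308) (nat_lit 380) (nat_lit 17555581704) (nat_lit 246) (nat_lit 1) (nat_lit 245) (nat_lit 1) (nat_lit 250) (nat_lit 1) (nat_lit 285) (nat_lit 376) (nat_lit 359))) (XT.nd (nat_lit 78) (nat_lit 228) (nat_lit 0) (XT.lf (nat_lit 304) (nat_lit 16950641243) (nat_lit 0) (nat_lit 15922936629) (nat_lit 228) (nat_lit 2038116990) (nat_lit 246) (nat_lit 1) (nat_lit 242) (nat_lit 1) (nat_lit 245) (nat_lit 1) (nat_lit 286) (nat_lit 376) (nat_lit 358)) (XT.lf (nat_lit 304) (nat_lit 5432598628) (nat_lit 0) (nat_lit 13708996400) (nat_lit 228) (nat_lit 14715966893) (nat_lit 243) (nat_lit 1) (nat_lit 239) (nat_lit 1) (nat_lit 242) (nat_lit 1) (nat_lit 287) (nat_lit 376) (nat_lit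 357)))))) (XT.nd (nat_lit 546) (nat_lit 1140) (nat_lit 0) (XT.nd (nat_lit 234) (nat_lit 836) (nat_lit 0) (XT.nd (nat_lit 78) (nat_lit 380) (nat_lit 0) (XT.lf (nat_lit 76) (nat_lit 6191849746) (nat_lit 0) (nat_lit 5669176526) (nat_lit 304) (nat_lit 20986182834) (nat_lit 236) (nat_lit 1) (nat_lit 235) (nat_lit 1) (nat_lit 239) (nat_lit 1) (nat_lit 288) (nat_lit 376) (nat_lit 356)) (XT.nd (nat_lit 78) (nat_lit 152) (nat_lit 0) (XT.lf (nat_lit 304) (nat_lit 15407605415) (nat_lit 0) (nat_lit 10251649681) (nat_lit 228) (nat_lit 6214583742) (nat_lit 236) (nat_lit 1) (nat_lit 232) (nat_lit 1) (nat_lit 235) (nat_lit 1) (nat_lit 289) (nat_lit 376) (nat_lit 355)) (XT.lf (nat_lit 228) (nat_lit 3819568132) (nat_lit 0) (nat_lit 8943816589) (nat_lit 152) (nat_lit 18176352321) (nat_lit 233) (nat_lit 1) (nat_lit 230) (nat_lit 1) (nat_lit 232) (nat_lit 1) (nat_lit 290) (nat_lit 376) (nat_lit 354)))) (XT.nd (nat_lit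 156) (nat_lit 380) (nat_lit 0) (XT.nd (nat_lit 78) (nat_lit 152) (nat_lit 0) (XT.lf (nat_lit 76) (nat_lit 647059244) (nat_lit 0) (nat_lit 7240733410) (nat_lit 304) (nat_lit 22154050840) (nat_lit 227) (nat_lit 1) (nat_lit 226) (nat_lit 1) (nat_lit 230) (nat_lit 1) (nat_lit 291) (nat_lit 376) (nat_lit 353)) (XT.lf (nat_lit 228) (nat_lit 11098964152) (nat_lit 0) (nat_lit 6935900416) (nat_lit 152) (nat_lit 11137588659) (nat_lit 227) (nat_lit 1) (nat_lit 224) (nat_lit 1) (nat_lit 226) (nat_lit 1) (nat_lit 292) (nat_lit 376) (nat_lit 352))) (XT.nd (nat_lit 78) (nat_lit 152) (nat_lit 0) (XT.lf (nat_lit 76) (nat_lit 6021834120) (nat_lit 0) (nat_lit 278152293) (nat_lit 228) (nat_lit 22041013744) (nat_lit 222) (nat_lit 1) (nat_lit 221) (nat_lit 1) (nat_lit 224) (nat_lit 1) (nat_lit 293) (nat_lit 376) (nat_lit 351)) (XT.lf (nat_lit 228) (nat_lit 16462531641) (nat_lit 0) (nat_lit 5704636334) (nat_lit 152)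 (nat_lit 5366565488) (nat_lit 222) (nat_lit 1) (nat_lit 219) (nat_lit 1) (nat_lit 221) (nat_lit 1) (nat_lit 294) (nat_lit 376) (nat_lit 350))))) (XT.nd (nat_lit 234) (nat_lit 608) (nat_lit 0) (XT.nd (nat_lit 78) (nat_lit 380) (nat_lit 0) (XT.lf (nat_lit 228) (nat_lit 5113922027) (nat_lit 0) (nat_lit 5303090301) (nat_lit 152) (nat_lit 16340319782) (nat_lit 220) (nat_lit 1) (nat_lit 217) (nat_lit 1) (nat_lit 219) (nat_lit 1) (nat_lit 295) (nat_lit 376) (nat_lit 349)) (XT.nd (nat_lit 78) (nat_lit 152) (nat_lit 0) (XT.lf (nat_lit 228) (nat_lit 20300391030) (nat_lit 0) (nat_lit 5066672357) (nat_lit 152) (nat_lit 642766170) (nat_lit 217) (nat_lit 1) (nat_lit 214) (nat_lit 1) (nat_lit 216) (nat_lit 1) (nat_lit 296) (nat_lit 376) (nat_lit 348)) (XT.lf (nat_lit 228) (nat_lit 9085514181) (nat_lit 0) (nat_lit 4836963889) (nat_lit 152) (nat_lit 11360619670) (nat_lit 215) (nat_lit 1) (nat_lit 212) (nat_lit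 1) (nat_lit 214) (nat_lit 1) (nat_lit 297) (nat_lit 376) (nat_lit 347)))) (XT.nd (nat_lit 156) (nat_lit 304) (nat_lit 0) (XT.nd (nat_lit 78) (nat_lit 152) (nat_lit 0) (XT.lf (nat_lit 76) (nat_lit 3112139389) (nat_lit 0) (nat_lit 1710572045) (nat_lit 152) (nat_lit 19763797448) (nat_lit 211) (nat_lit 1) (nat_lit 210) (nat_lit 1) (nat_lit 212) (nat_lit 1) (nat_lit 298) (nat_lit 376) (nat_lit 346)) (XT.lf (nat_lit 228) (nat_lit 11920717120) (nat_lit 0) (nat_lit 4771644288) (nat_lit 152) (nat_lit 7215136372) (nat_lit 211) (nat_lit 1) (nat_lit 208) (nat_lit 1) (nat_lit 210) (nat_lit 1) (nat_lit 299) (nat_lit 376) (nat_lit 345))) (XT.nd (nat_lit 78) (nat_lit 228) (nat_lit 0) (XT.lf (nat_lit 152) (nat_lit 1283691842) (nat_lit 0) (nat_lit 4888842038) (nat_lit 76) (nat_lit 17082759284) (nat_lit 209) (nat_lit 1) (nat_lit 207) (nat_lit 1) (nat_lit 208) (nat_lit 1) (nat_lit 300) (nat_lit 376) (nat_lit 344))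 (XT.lf (nat_lit 228) (nat_lit 13856979508) (nat_lit 0) (nat_lit 4999980801) (nat_lit 152) (nat_lit 3764111534) (nat_lit 207) (nat_lit 1) (nat_lit 204) (nat_lit 1) (nat_lit 206) (nat_lit 1) (nat_lit 301) (nat_lit 376) (nat_lit 343))))))))
noncomputable def ec103 : XT := (XT.nd (nat_lit 2106) (nat_lit 3192) (nat_lit 0) (XT.nd (nat_lit 1014) (nat_lit 1672) (nat_lit 0) (XT.nd (nat_lit 468) (nat_lit 760) (nat_lit 0) (XT.nd (nat_lit 234) (nat_lit 532) (nat_lit 0) (XT.nd (nat_lit 78) (nat_lit 304) (nat_lit 0) (XT.lf (nat_lit 152) (nat_lit 3485132527) (nat_lit 0) (nat_lit 5186935121) (nat_lit 76) (nat_lit 13336157406) (nat_lit 205) (nat_lit 1) (nat_lit 203) (nat_lit 1) (nat_lit 204) (nat_lit 1) (nat_lit 302) (nat_lit 376) (nat_lit 342)) (XT.nd (nat_lit 78) (nat_lit 76) (nat_lit 0) (XT.lf (nat_lit 228) (nat_lit 15086281622) (nat_lit 0) (nat_lit 5437102537) (nat_lit 152) (nat_lit 892275070) (nat_lit 203)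 (nat_lit 1) (nat_lit 200) (nat_lit 1) (nat_lit 202) (nat_lit 1) (nat_lit 303) (nat_lit 376) (nat_lit 341)) (XT.lf (nat_lit 152) (nat_lit 5015583839) (nat_lit 0) (nat_lit 5668244728) (nat_lit 76) (nat_lit 10155149944) (nat_lit 201) (nat_lit 1) (nat_lit 199) (nat_lit 1) (nat_lit 200) (nat_lit 1) (nat_lit 304) (nat_lit 376) (nat_lit 340)))) (XT.nd (nat_lit 78) (nat_lit 304) (nat_lit 0) (XT.lf (nat_lit 76) (nat_lit 1447697097) (nat_lit 0) (nat_lit 4543935290) (nat_lit 228) (nat_lit 14291382701) (nat_lit 197) (nat_lit 1) (nat_lit 196) (nat_lit 1) (nat_lit 199) (nat_lit 1) (nat_lit 305) (nat_lit 376) (nat_lit 339)) (XT.nd (nat_lit 78) (nat_lit 228) (nat_lit 0) (XT.lf (nat_lit 152) (nat_lit 6019153126) (nat_lit 0) (nat_lit 6271672256) (nat_lit 76) (nat_lit 7450033291) (nat_lit 197) (nat_lit 1) (nat_lit 195) (nat_lit 1) (nat_lit 196) (nat_lit 1) (nat_lit 306) (nat_lit 376) (nat_lit 338)) (XT.lf (nat_lit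 76) (nat_lit 3366804398) (nat_lit 0) (nat_lit 3260977723) (nat_lit 228) (nat_lit 12589972842) (nat_lit 193) (nat_lit 1) (nat_lit 192) (nat_lit 1) (nat_lit 195) (nat_lit 1) (nat_lit 307) (nat_lit 376) (nat_lit 337))))) (XT.nd (nat_lit 234) (nat_lit 456) (nat_lit 0) (XT.nd (nat_lit 78) (nat_lit 228) (nat_lit 0) (XT.lf (nat_lit 152) (nat_lit 6612053215) (nat_lit 0) (nat_lit 6949523350) (nat_lit 76) (nat_lit 5146439790) (nat_lit 193) (nat_lit 1) (nat_lit 191) (nat_lit 1) (nat_lit 192) (nat_lit 1) (nat_lit 308) (nat_lit 376) (nat_lit 336)) (XT.nd (nat_lit 78) (nat_lit 76) (nat_lit 0) (XT.lf (nat_lit 76) (nat_lit 4956714615) (nat_lit 0) (nat_lit 2361785824) (nat_lit 152) (nat_lit 10896611624) (nat_lit 190) (nat_lit 1) (nat_lit 189) (nat_lit 1) (nat_lit 191) (nat_lit 1) (nat_lit 309) (nat_lit 376) (nat_lit 335)) (XT.lf (nat_lit 152) (nat_lit 6887814692) (nat_lit 0) (nat_lit 7664895472) (nat_lit 76)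 (nat_lit 3182602122) (nat_lit 190) (nat_lit 1) (nat_lit 188) (nat_lit 1) (nat_lit 189) (nat_lit 1) (nat_lit 310) (nat_lit 376) (nat_lit 334)))) (XT.nd (nat_lit 156) (nat_lit 228) (nat_lit 0) (XT.nd (nat_lit 78) (nat_lit 76) (nat_lit 0) (XT.lf (nat_lit 76) (nat_lit 6269783121) (nat_lit 0) (nat_lit 1761923020) (nat_lit 152) (nat_lit 9238564505) (nat_lit 187) (nat_lit 1) (nat_lit 186) (nat_lit 1) (nat_lit 188) (nat_lit 1) (nat_lit 311) (nat_lit 376) (nat_lit 333)) (XT.lf (nat_lit 152) (nat_lit 6921535965) (nat_lit 0) (nat_lit 8389554757) (nat_lit 76) (nat_lit 1507114545) (nat_lit 187) (nat_lit 1) (nat_lit 185) (nat_lit 1) (nat_lit 186) (nat_lit 1) (nat_lit 312) (nat_lit 376) (nat_lit 332))) (XT.nd (nat_lit 78) (nat_lit 76) (nat_lit 0) (XT.lf (nat_lit 76) (nat_lit 7349523076) (nat_lit 0) (nat_lit 1393494458) (nat_lit 152) (nat_lit 7635944220) (nat_lit 184) (nat_lit 1) (nat_lit 183) (nat_lit 1) (nat_lit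 185) (nat_lit 1) (nat_lit 313) (nat_lit 376) (nat_lit 331)) (XT.lf (nat_lit 152) (nat_lit 6773348013) (nat_lit 0) (nat_lit 9102211760) (nat_lit 76) (nat_lit 77100146) (nat_lit 184) (nat_lit 1) (nat_lit 182) (nat_lit 1) (nat_lit 183) (nat_lit 1) (nat_lit 314) (nat_lit 376) (nat_lit 330)))))) (XT.nd (nat_lit 546) (nat_lit 836) (nat_lit 0) (XT.nd (nat_lit 234) (nat_lit 456) (nat_lit 0) (XT.nd (nat_lit 78) (nat_lit 228) (nat_lit 0) (XT.lf (nat_lit 76) (nat_lit 8232170579) (nat_lit 0) (nat_lit 1202040997) (nat_lit 152) (nat_lit 6103168378) (nat_lit 181) (nat_lit 1) (nat_lit 180) (nat_lit 1) (nat_lit 182) (nat_lit 1) (nat_lit 315) (nat_lit 376) (nat_lit 329)) (XT.nd (nat_lit 78) (nat_lit 152) (nat_lit 0) (XT.lf (nat_lit 0) (nat_lit 1106697674) (nat_lit 0) (nat_lit 8661682175) (nat_lit 152) (nat_lit 5365798108) (nat_lit 179) (nat_lit 3) (nat_lit 179) (nat_lit 1) (nat_lit 181) (nat_lit 1) (nat_lit 316)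 (nat_lit 376) (nat_lit 328)) (XT.lf (nat_lit 76) (nat_lit 8947966518) (nat_lit 0) (nat_lit 1144007638) (nat_lit 152) (nat_lit 4650140360) (nat_lit 178) (nat_lit 1) (nat_lit 177) (nat_lit 1) (nat_lit 179) (nat_lit 1) (nat_lit 317) (nat_lit 376) (nat_lit 327)))) (XT.nd (nat_lit 156) (nat_lit 228) (nat_lit 0) (XT.nd (nat_lit 78) (nat_lit 152) (nat_lit 0) (XT.lf (nat_lit 0) (nat_lit 2114201986) (nat_lit 0) (nat_lit 8282946271) (nat_lit 152) (nat_lit 3963344350) (nat_lit 176) (nat_lit 3) (nat_lit 176) (nat_lit 1) (nat_lit 178) (nat_lit 1) (nat_lit 318) (nat_lit 376) (nat_lit 326)) (XT.lf (nat_lit 76) (nat_lit 9522206828) (nat_lit 0) (nat_lit 1184680692) (nat_lit 152) (nat_lit 3283204844) (nat_lit 175) (nat_lit 1) (nat_lit 174) (nat_lit 1) (nat_lit 176) (nat_lit 1) (nat_lit 319) (nat_lit 376) (nat_lit 325))) (XT.nd (nat_lit 78) (nat_lit 152) (nat_lit 0) (XT.lf (nat_lit 0) (nat_lit 2972332705) (nat_lit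 0) (nat_lit 8009193608) (nat_lit 152) (nat_lit 2647192962) (nat_lit 173) (nat_lit 3) (nat_lit 173) (nat_lit 1) (nat_lit 175) (nat_lit 1) (nat_lit 320) (nat_lit 376) (nat_lit 324)) (XT.lf (nat_lit 76) (nat_lit 9976103448) (nat_lit 0) (nat_lit 1296507432) (nat_lit 152) (nat_lit 2005919858) (nat_lit 172) (nat_lit 1) (nat_lit 171) (nat_lit 1) (nat_lit 173) (nat_lit 1) (nat_lit 321) (nat_lit 376) (nat_lit 323))))) (XT.nd (nat_lit 234) (nat_lit 532) (nat_lit 0) (XT.nd (nat_lit 78) (nat_lit 228) (nat_lit 0) (XT.lf (nat_lit 0) (nat_lit 3701705536) (nat_lit 0) (nat_lit 7814368759) (nat_lit 152) (nat_lit 1420112724) (nat_lit 170) (nat_lit 3) (nat_lit 170) (nat_lit 1) (nat_lit 172) (nat_lit 1) (nat_lit 322) (nat_lit 376) (nat_lit 322)) (XT.nd (nat_lit 78) (nat_lit 76) (nat_lit 0) (XT.lf (nat_lit 76) (nat_lit 10327490462) (nat_lit 0) (nat_lit 1457727801) (nat_lit 152) (nat_lit 819679508) (nat_lit 169) (nat_lit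 1) (nat_lit 168) (nat_lit 1) (nat_lit 170) (nat_lit 1) (nat_lit 323) (nat_lit 376) (nat_lit 321)) (XT.lf (nat_lit 0) (nat_lit 4319756446) (nat_lit 0) (nat_lit 7677800099) (nat_lit 152) (nat_lit 282905438) (nat_lit 167) (nat_lit 3) (nat_lit 167) (nat_lit 1) (nat_lit 169) (nat_lit 1) (nat_lit 324) (nat_lit 376) (nat_lit 320)))) (XT.nd (nat_lit 156) (nat_lit 228) (nat_lit 0) (XT.nd (nat_lit 78) (nat_lit 76) (nat_lit 0) (XT.lf (nat_lit 152) (nat_lit 10310948396) (nat_lit 0) (nat_lit 284903402) (nat_lit 76) (nat_lit 1370805417) (nat_lit 166) (nat_lit 1) (nat_lit 164) (nat_lit 1) (nat_lit 165) (nat_lit 1) (nat_lit 325) (nat_lit 376) (nat_lit 319)) (XT.lf (nat_lit 76) (nat_lit 4063190903) (nat_lit 0) (nat_lit 790431022) (nat_lit 76) (nat_lit 6805077746) (nat_lit 164) (nat_lit 3) (nat_lit 163) (nat_lit 1) (nat_lit 164) (nat_lit 1) (nat_lit 326) (nat_lit 376) (nat_lit 318))) (XT.nd (nat_lit 78) (nat_lit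 76) (nat_lit 0) (XT.lf (nat_lit 152) (nat_lit 9476843835) (nat_lit 0) (nat_lit 1324390117) (nat_lit 76) (nat_lit 560085116) (nat_lit 163) (nat_lit 1) (nat_lit 161) (nat_lit 1) (nat_lit 162) (nat_lit 1) (nat_lit 327) (nat_lit 376) (nat_lit 317)) (XT.lf (nat_lit 76) (nat_lit 3523811695) (nat_lit 0) (nat_lit 1782902551) (nat_lit 76) (nat_lit 5762598391) (nat_lit 161) (nat_lit 3) (nat_lit 160) (nat_lit 1) (nat_lit 161) (nat_lit 1) (nat_lit 328) (nat_lit 376) (nat_lit 316))))))) (XT.nd (nat_lit 1014) (nat_lit 1672) (nat_lit 0) (XT.nd (nat_lit 468) (nat_lit 836) (nat_lit 0) (XT.nd (nat_lit 234) (nat_lit 304) (nat_lit 0) (XT.nd (nat_lit 78) (nat_lit 228) (nat_lit 0) (XT.lf (nat_lit 0) (nat_lit 148734235) (nat_lit 0) (nat_lit 2122972944) (nat_lit 152) (nat_lit 8515759298) (nat_lit 158) (nat_lit 3) (nat_lit 158) (nat_lit 1) (nat_lit 160) (nat_lit 1) (nat_lit 329) (nat_lit 376) (nat_lit 315)) (XT.nd (nat_lit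 78) (nat_lit 152) (nat_lit 0) (XT.lf (nat_lit 76) (nat_lit 2997360279) (nat_lit 0) (nat_lit 2687919823) (nat_lit 76) (nat_lit 4825359083) (nat_lit 158) (nat_lit 3) (nat_lit 157) (nat_lit 1) (nat_lit 158) (nat_lit 1) (nat_lit 330) (nat_lit 376) (nat_lit 314)) (XT.lf (nat_lit 0) (nat_lit 756429705) (nat_lit 0) (nat_lit 2368421596) (nat_lit 152) (nat_lit 7118187395) (nat_lit 155) (nat_lit 3) (nat_lit 155) (nat_lit 1) (nat_lit 157) (nat_lit 1) (nat_lit 331) (nat_lit 376) (nat_lit 313)))) (XT.nd (nat_lit 78) (nat_lit 228) (nat_lit 0) (XT.lf (nat_lit 76) (nat_lit 2489737622) (nat_lit 0) (nat_lit 3508869497) (nat_lit 76) (nat_lit 3982322706) (nat_lit 155) (nat_lit 3) (nat_lit 154) (nat_lit 1) (nat_lit 155) (nat_lit 1) (nat_lit 332) (nat_lit 376) (nat_lit 312)) (XT.nd (nat_lit 78) (nat_lit 76) (nat_lit 0) (XT.lf (nat_lit 0) (nat_lit 1290188413) (nat_lit 0) (nat_lit 2606401010) (nat_lit 152) (nat_lit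 5830196566) (nat_lit 152) (nat_lit 3) (nat_lit 152) (nat_lit 1) (nat_lit 154) (nat_lit 1) (nat_lit 333) (nat_lit 376) (nat_lit 311)) (XT.lf (nat_lit 76) (nat_lit 2005139217) (nat_lit 0) (nat_lit 4249566331) (nat_lit 76) (nat_lit 3223854584) (nat_lit 152) (nat_lit 3) (nat_lit 151) (nat_lit 1) (nat_lit 152) (nat_lit 1) (nat_lit 334) (nat_lit 376) (nat_lit 310))))) (XT.nd (nat_lit 234) (nat_lit 456) (nat_lit 0) (XT.nd (nat_lit 78) (nat_lit 228) (nat_lit 0) (XT.lf (nat_lit 0) (nat_lit 1758073248) (nat_lit 0) (nat_lit 2832778157) (nat_lit 152) (nat_lit 4646288181) (nat_lit 149) (nat_lit 3) (nat_lit 149) (nat_lit 1) (nat_lit 151) (nat_lit 1) (nat_lit 335) (nat_lit 376) (nat_lit 309)) (XT.nd (nat_lit 78) (nat_lit 152) (nat_lit 0) (XT.lf (nat_lit 76) (nat_lit 1546410203) (nat_lit 0) (nat_lit 4914100184) (nat_lit 76) (nat_lit 2541507341) (nat_lit 149) (nat_lit 3) (nat_lit 148) (nat_lit 1) (nat_lit 149)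 (nat_lit 1) (nat_lit 336) (nat_lit 376) (nat_lit 308)) (XT.lf (nat_lit 0) (nat_lit 2167133234) (nat_lit 0) (nat_lit 3044643938) (nat_lit 152) (nat_lit 3560859736) (nat_lit 146) (nat_lit 3) (nat_lit 146) (nat_lit 1) (nat_lit 148) (nat_lit 1) (nat_lit 337) (nat_lit 376) (nat_lit 307)))) (XT.nd (nat_lit 156) (nat_lit 228) (nat_lit 0) (XT.nd (nat_lit 78) (nat_lit 152) (nat_lit 0) (XT.lf (nat_lit 76) (nat_lit 1115332626) (nat_lit 0) (nat_lit 5506715977) (nat_lit 76) (nat_lit 1927842537) (nat_lit 146) (nat_lit 3) (nat_lit 145) (nat_lit 1) (nat_lit 146) (nat_lit 1) (nat_lit 338) (nat_lit 376) (nat_lit 306)) (XT.lf (nat_lit 0) (nat_lit 2523556251) (nat_lit 0) (nat_lit 3240055290) (nat_lit 152) (nat_lit 2568299760) (nat_lit 143) (nat_lit 3) (nat_lit 143) (nat_lit 1) (nat_lit 145) (nat_lit 1) (nat_lit 339) (nat_lit 376) (nat_lit 305))) (XT.nd (nat_lit 78) (nat_lit 152) (nat_lit 0) (XT.lf (nat_lit 76) (nat_lit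 712857463) (nat_lit 0) (nat_lit 6031720263) (nat_lit 76) (nat_lit 1376282500) (nat_lit 143) (nat_lit 3) (nat_lit 142) (nat_lit 1) (nat_lit 143) (nat_lit 1) (nat_lit 340) (nat_lit 376) (nat_lit 304)) (XT.lf (nat_lit 0) (nat_lit 2832795917) (nat_lit 0) (nat_lit 3417826814) (nat_lit 152) (nat_lit 1663060439) (nat_lit 140) (nat_lit 3) (nat_lit 140) (nat_lit 1) (nat_lit 142) (nat_lit 1) (nat_lit 341) (nat_lit 376) (nat_lit 303)))))) (XT.nd (nat_lit 546) (nat_lit 760) (nat_lit 0) (XT.nd (nat_lit 234) (nat_lit 532) (nat_lit 0) (XT.nd (nat_lit 78) (nat_lit 304) (nat_lit 0) (XT.lf (nat_lit 76) (nat_lit 339291706) (nat_lit 0) (nat_lit 6493409232) (nat_lit 76) (nat_lit 880986980) (nat_lit 140) (nat_lit 3) (nat_lit 139) (nat_lit 1) (nat_lit 140) (nat_lit 1) (nat_lit 342) (nat_lit 376) (nat_lit 302)) (XT.nd (nat_lit 78) (nat_lit 152) (nat_lit 0) (XT.lf (nat_lit 0) (nat_lit 3099677256) (nat_lit 0) (nat_lit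 3577362683) (nat_lit 152) (nat_lit 839712355) (nat_lit 137) (nat_lit 3) (nat_lit 137) (nat_lit 1) (nat_lit 139) (nat_lit 1) (nat_lit 343) (nat_lit 376) (nat_lit 301)) (XT.lf (nat_lit 76) (nat_lit 6890549487) (nat_lit 0) (nat_lit 5373451) (nat_lit 152) (nat_lit 431285745) (nat_lit 136) (nat_lit 1) (nat_lit 135) (nat_lit 1) (nat_lit 137) (nat_lit 1) (nat_lit 344) (nat_lit 376) (nat_lit 300)))) (XT.nd (nat_lit 156) (nat_lit 228) (nat_lit 0) (XT.nd (nat_lit 78) (nat_lit 228) (nat_lit 0) (XT.lf (nat_lit 0) (nat_lit 3328484902) (nat_lit 0) (nat_lit 3718521341) (nat_lit 152) (nat_lit 92984899) (nat_lit 134) (nat_lit 3) (nat_lit 134) (nat_lit 1) (nat_lit 136) (nat_lit 1) (nat_lit 345) (nat_lit 376) (nat_lit 299)) (XT.lf (nat_lit 152) (nat_lit 6643462730) (nat_lit 0) (nat_lit 287485868) (nat_lit 76) (nat_lit 28919360) (nat_lit 133) (nat_lit 1) (nat_lit 131) (nat_lit 1) (nat_lit 132) (nat_lit 1) (nat_lit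 346) (nat_lit 376) (nat_lit 298))) (XT.nd (nat_lit 78) (nat_lit 152) (nat_lit 0) (XT.lf (nat_lit 76) (nat_lit 2930972262) (nat_lit 0) (nat_lit 601455068) (nat_lit 76) (nat_lit 3249442148) (nat_lit 131) (nat_lit 3) (nat_lit 130) (nat_lit 1) (nat_lit 131) (nat_lit 1) (nat_lit 347) (nat_lit 376) (nat_lit 297)) (XT.lf (nat_lit 0) (nat_lit 331330728) (nat_lit 0) (nat_lit 612168370) (nat_lit 152) (nat_lit 5667068504) (nat_lit 128) (nat_lit 3) (nat_lit 128) (nat_lit 1) (nat_lit 130) (nat_lit 1) (nat_lit 348) (nat_lit 376) (nat_lit 296))))) (XT.nd (nat_lit 234) (nat_lit 456) (nat_lit 0) (XT.nd (nat_lit 78) (nat_lit 228) (nat_lit 0) (XT.lf (nat_lit 76) (nat_lit 2475849490) (nat_lit 0) (nat_lit 1230102695) (nat_lit 76) (nat_lit 2735884344) (nat_lit 128) (nat_lit 3) (nat_lit 127) (nat_lit 1) (nat_lit 128) (nat_lit 1) (nat_lit 349) (nat_lit 376) (nat_lit 295)) (XT.nd (nat_lit 78) (nat_lit 76) (nat_lit 0)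 (XT.lf (nat_lit 0) (nat_lit 651960385) (nat_lit 0) (nat_lit 881268017) (nat_lit 152) (nat_lit 4745729901) (nat_lit 125) (nat_lit 3) (nat_lit 125) (nat_lit 1) (nat_lit 127) (nat_lit 1) (nat_lit 350) (nat_lit 376) (nat_lit 294)) (XT.lf (nat_lit 76) (nat_lit 2056003761) (nat_lit 0) (nat_lit 1794692126) (nat_lit 76) (nat_lit 2268325641) (nat_lit 125) (nat_lit 3) (nat_lit 124) (nat_lit 1) (nat_lit 125) (nat_lit 1) (nat_lit 351) (nat_lit 376) (nat_lit 293)))) (XT.nd (nat_lit 156) (nat_lit 228) (nat_lit 0) (XT.nd (nat_lit 78) (nat_lit 76) (nat_lit 0) (XT.lf (nat_lit 0) (nat_lit 937282115) (nat_lit 0) (nat_lit 1124514814) (nat_lit 152) (nat_lit 3902344987) (nat_lit 122) (nat_lit 3) (nat_lit 122) (nat_lit 1) (nat_lit 124) (nat_lit 1) (nat_lit 352) (nat_lit 376) (nat_lit 292)) (XT.lf (nat_lit 76) (nat_lit 1669685631) (nat_lit 0) (nat_lit 2299797017) (nat_lit 76) (nat_lit 1843049241) (nat_lit 122) (nat_lit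 3) (nat_lit 121) (nat_lit 1) (nat_lit 122) (nat_lit 1) (nat_lit 353) (nat_lit 376) (nat_lit 291))) (XT.nd (nat_lit 78) (nat_lit 76) (nat_lit 0) (XT.lf (nat_lit 0) (nat_lit 1190370545) (nat_lit 0) (nat_lit 1343248508) (nat_lit 152) (nat_lit 3131630058) (nat_lit 119) (nat_lit 3) (nat_lit 119) (nat_lit 1) (nat_lit 121) (nat_lit 1) (nat_lit 354) (nat_lit 376) (nat_lit 290)) (XT.lf (nat_lit 76) (nat_lit 1315108789) (nat_lit 0) (nat_lit 2749753288) (nat_lit 76) (nat_lit 1456662458) (nat_lit 119) (nat_lit 3) (nat_lit 118) (nat_lit 1) (nat_lit 119) (nat_lit 1) (nat_lit 355) (nat_lit 376) (nat_lit 289))))))))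
noncomputable def ec104 : XT := (XT.nd (nat_lit 2028) (nat_lit 3268) (nat_lit 0) (XT.nd (nat_lit 1014) (nat_lit 1520) (nat_lit 0) (XT.nd (nat_lit 468) (nat_lit 912) (nat_lit 0) (XT.nd (nat_lit 234) (nat_lit 304) (nat_lit 0) (XT.nd (nat_lit 78) (nat_lit 228) (nat_lit 0) (XT.lf (nat_lit 0) (nat_lit 1414023356) (nat_lit 0) (nat_lit 1538850225) (nat_lit 152) (nat_lit 2428584907) (nat_lit 116) (nat_lit 3) (nat_lit 116) (nat_lit 1) (nat_lit 118) (nat_lit 1) (nat_lit 356) (nat_lit 376) (nat_lit 288)) (XT.nd (nat_lit 78) (nat_lit 152) (nat_lit 0) (XT.lf (nat_lit 76) (nat_lit 990481145) (nat_lit 0) (nat_lit 3148659881) (nat_lit 76) (nat_lit 1106061579) (nat_lit 116) (nat_lit 3) (nat_lit 115) (nat_lit 1) (nat_lit 116) (nat_lit 1) (nat_lit 357) (nat_lit 376) (nat_lit 287)) (XT.lf (nat_lit 0) (nat_lit 1610791562) (nat_lit 0) (nat_lit 1712714344) (nat_lit 152) (nat_lit 1788487521) (nat_lit 113) (nat_lit 3)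 (nat_lit 113) (nat_lit 1) (nat_lit 115) (nat_lit 1) (nat_lit 358) (nat_lit 376) (nat_lit 286)))) (XT.nd (nat_lit 78) (nat_lit 228) (nat_lit 0) (XT.lf (nat_lit 76) (nat_lit 694028657) (nat_lit 0) (nat_lit 3500382202) (nat_lit 76) (nat_lit 788401603) (nat_lit 113) (nat_lit 3) (nat_lit 112) (nat_lit 1) (nat_lit 113) (nat_lit 1) (nat_lit 359) (nat_lit 376) (nat_lit 285)) (XT.nd (nat_lit 78) (nat_lit 76) (nat_lit 0) (XT.lf (nat_lit 0) (nat_lit 1783005597) (nat_lit 0) (nat_lit 1866226889) (nat_lit 152) (nat_lit 1206886763) (nat_lit 110) (nat_lit 3) (nat_lit 110) (nat_lit 1) (nat_lit 112) (nat_lit 1) (nat_lit 360) (nat_lit 376) (nat_lit 284)) (XT.lf (nat_lit 76) (nat_lit 424013328) (nat_lit 0) (nat_lit 3808557575) (nat_lit 76) (nat_lit 501070081) (nat_lit 110) (nat_lit 3) (nat_lit 109) (nat_lit 1) (nat_lit 110) (nat_lit 1) (nat_lit 361) (nat_lit 376) (nat_lit 283))))) (XT.nd (nat_lit 234) (nat_lit 532)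 (nat_lit 0) (XT.nd (nat_lit 78) (nat_lit 228) (nat_lit 0) (XT.lf (nat_lit 0) (nat_lit 1932797876) (nat_lit 0) (nat_lit 2000749156) (nat_lit 152) (nat_lit 679593578) (nat_lit 107) (nat_lit 3) (nat_lit 107) (nat_lit 1) (nat_lit 109) (nat_lit 1) (nat_lit 362) (nat_lit 376) (nat_lit 282)) (XT.nd (nat_lit 78) (nat_lit 152) (nat_lit 0) (XT.lf (nat_lit 76) (nat_lit 178746524) (nat_lit 0) (nat_lit 4076602169) (nat_lit 76) (nat_lit 241664376) (nat_lit 107) (nat_lit 3) (nat_lit 106) (nat_lit 1) (nat_lit 107) (nat_lit 1) (nat_lit 363) (nat_lit 376) (nat_lit 281)) (XT.lf (nat_lit 0) (nat_lit 2062122410) (nat_lit 0) (nat_lit 2117605525) (nat_lit 152) (nat_lit 202671186) (nat_lit 104) (nat_lit 3) (nat_lit 104) (nat_lit 1) (nat_lit 106) (nat_lit 1) (nat_lit 364) (nat_lit 376) (nat_lit 280)))) (XT.nd (nat_lit 156) (nat_lit 228) (nat_lit 0) (XT.nd (nat_lit 78) (nat_lit 76) (nat_lit 0) (XT.lf (nat_lit 152) (nat_lit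 4229654625) (nat_lit 0) (nat_lit 35901053) (nat_lit 76) (nat_lit 6671779) (nat_lit 103) (nat_lit 1) (nat_lit 101) (nat_lit 1) (nat_lit 102) (nat_lit 1) (nat_lit 365) (nat_lit 376) (nat_lit 279)) (XT.lf (nat_lit 76) (nat_lit 1941342430) (nat_lit 0) (nat_lit 235100075) (nat_lit 76) (nat_lit 1986645124) (nat_lit 101) (nat_lit 3) (nat_lit 100) (nat_lit 1) (nat_lit 101) (nat_lit 1) (nat_lit 366) (nat_lit 376) (nat_lit 278))) (XT.nd (nat_lit 78) (nat_lit 76) (nat_lit 0) (XT.lf (nat_lit 0) (nat_lit 206702528) (nat_lit 0) (nat_lit 246651994) (nat_lit 152) (nat_lit 3604795832) (nat_lit 98) (nat_lit 3) (nat_lit 98) (nat_lit 1) (nat_lit 100) (nat_lit 1) (nat_lit 367) (nat_lit 376) (nat_lit 277)) (XT.lf (nat_lit 76) (nat_lit 1641373933) (nat_lit 0) (nat_lit 634932068) (nat_lit 76) (nat_lit 1678364179) (nat_lit 98) (nat_lit 3) (nat_lit 97) (nat_lit 1) (nat_lit 98) (nat_lit 1) (nat_lit 368) (nat_lit 376) (nat_lit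 276)))))) (XT.nd (nat_lit 468) (nat_lit 836) (nat_lit 0) (XT.nd (nat_lit 234) (nat_lit 304) (nat_lit 0) (XT.nd (nat_lit 78) (nat_lit 228) (nat_lit 0) (XT.lf (nat_lit 0) (nat_lit 397771331) (nat_lit 0) (nat_lit 430390596) (nat_lit 152) (nat_lit 3026697582) (nat_lit 95) (nat_lit 3) (nat_lit 95) (nat_lit 1) (nat_lit 97) (nat_lit 1) (nat_lit 369) (nat_lit 376) (nat_lit 275)) (XT.nd (nat_lit 78) (nat_lit 152) (nat_lit 0) (XT.lf (nat_lit 76) (nat_lit 1366534747) (nat_lit 0) (nat_lit 993475068) (nat_lit 76) (nat_lit 1396737770) (nat_lit 95) (nat_lit 3) (nat_lit 94) (nat_lit 1) (nat_lit 95) (nat_lit 1) (nat_lit 370) (nat_lit 376) (nat_lit 274)) (XT.lf (nat_lit 0) (nat_lit 568505836) (nat_lit 0) (nat_lit 595139895) (nat_lit 152) (nat_lit 2498165239) (nat_lit 92) (nat_lit 3) (nat_lit 92) (nat_lit 1) (nat_lit 94) (nat_lit 1) (nat_lit 371) (nat_lit 376) (nat_lit 273)))) (XT.nd (nat_lit 78) (nat_lit 228)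 (nat_lit 0) (XT.lf (nat_lit 76) (nat_lit 1115130224) (nat_lit 0) (nat_lit 1313864894) (nat_lit 76) (nat_lit 1139791389) (nat_lit 92) (nat_lit 3) (nat_lit 91) (nat_lit 1) (nat_lit 92) (nat_lit 1) (nat_lit 372) (nat_lit 376) (nat_lit 272)) (XT.nd (nat_lit 78) (nat_lit 76) (nat_lit 0) (XT.lf (nat_lit 0) (nat_lit 720531910) (nat_lit 0) (nat_lit 742278970) (nat_lit 152) (nat_lit 2015673250) (nat_lit 89) (nat_lit 3) (nat_lit 89) (nat_lit 1) (nat_lit 91) (nat_lit 1) (nat_lit 373) (nat_lit 376) (nat_lit 271)) (XT.lf (nat_lit 76) (nat_lit 885556058) (nat_lit 0) (nat_lit 1599032992) (nat_lit 76) (nat_lit 905692224) (nat_lit 89) (nat_lit 3) (nat_lit 88) (nat_lit 1) (nat_lit 89) (nat_lit 1) (nat_lit 374) (nat_lit 376) (nat_lit 270))))) (XT.nd (nat_lit 234) (nat_lit 456) (nat_lit 0) (XT.nd (nat_lit 78) (nat_lit 228) (nat_lit 0) (XT.lf (nat_lit 0) (nat_lit 855354262) (nat_lit 0) (nat_lit 873111023) (nat_lit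 152) (nat_lit 1575920074) (nat_lit 86) (nat_lit 3) (nat_lit 86) (nat_lit 1) (nat_lit 88) (nat_lit 1) (nat_lit 375) (nat_lit 376) (nat_lit 269)) (XT.nd (nat_lit 78) (nat_lit 152) (nat_lit 0) (XT.lf (nat_lit 76) (nat_lit 676296694) (nat_lit 0) (nat_lit 1851717529) (nat_lit 76) (nat_lit 692738138) (nat_lit 86) (nat_lit 3) (nat_lit 85) (nat_lit 1) (nat_lit 86) (nat_lit 1) (nat_lit 376) (nat_lit 376) (nat_lit 268)) (XT.lf (nat_lit 0) (nat_lit 974366024) (nat_lit 0) (nat_lit 988864653) (nat_lit 152) (nat_lit 1175815852) (nat_lit 83) (nat_lit 3) (nat_lit 83) (nat_lit 1) (nat_lit 85) (nat_lit 1) (nat_lit 377) (nat_lit 376) (nat_lit 267)))) (XT.nd (nat_lit 156) (nat_lit 228) (nat_lit 0) (XT.nd (nat_lit 78) (nat_lit 152) (nat_lit 0) (XT.lf (nat_lit 76) (nat_lit 485923064) (nat_lit 0) (nat_lit 2074474184) (nat_lit 76) (nat_lit 499347721) (nat_lit 83) (nat_lit 3) (nat_lit 82) (nat_lit 1) (nat_lit 83) (nat_lit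 1) (nat_lit 378) (nat_lit 376) (nat_lit 266)) (XT.lf (nat_lit 0) (nat_lit 1078857407) (nat_lit 0) (nat_lit 1090695728) (nat_lit 152) (nat_lit 812470501) (nat_lit 80) (nat_lit 3) (nat_lit 80) (nat_lit 1) (nat_lit 82) (nat_lit 1) (nat_lit 379) (nat_lit 376) (nat_lit 265))) (XT.nd (nat_lit 78) (nat_lit 152) (nat_lit 0) (XT.lf (nat_lit 76) (nat_lit 313089846) (nat_lit 0) (nat_lit 2269686583) (nat_lit 76) (nat_lit 324051255) (nat_lit 80) (nat_lit 3) (nat_lit 79) (nat_lit 1) (nat_lit 80) (nat_lit 1) (nat_lit 380) (nat_lit 376) (nat_lit 264)) (XT.lf (nat_lit 0) (nat_lit 1170023546) (nat_lit 0) (nat_lit 1179689691) (nat_lit 152) (nat_lit 483182257) (nat_lit 77) (nat_lit 3) (nat_lit 77) (nat_lit 1) (nat_lit 79) (nat_lit 1) (nat_lit 381) (nat_lit 376) (nat_lit 263))))))) (XT.nd (nat_lit 1014) (nat_lit 1672) (nat_lit 0) (XT.nd (nat_lit 468) (nat_lit 836) (nat_lit 0) (XT.nd (nat_lit 234) (nat_lit 456) (nat_lit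 0) (XT.nd (nat_lit 78) (nat_lit 228) (nat_lit 0) (XT.lf (nat_lit 76) (nat_lit 156532372) (nat_lit 0) (nat_lit 2439576356) (nat_lit 76) (nat_lit 165482507) (nat_lit 77) (nat_lit 3) (nat_lit 76) (nat_lit 1) (nat_lit 77) (nat_lit 1) (nat_lit 382) (nat_lit 376) (nat_lit 262)) (XT.nd (nat_lit 78) (nat_lit 76) (nat_lit 0) (XT.lf (nat_lit 0) (nat_lit 1248971648) (nat_lit 0) (nat_lit 1256864182) (nat_lit 152) (nat_lit 185426704) (nat_lit 74) (nat_lit 3) (nat_lit 74) (nat_lit 1) (nat_lit 76) (nat_lit 1) (nat_lit 383) (nat_lit 376) (nat_lit 261)) (XT.lf (nat_lit 76) (nat_lit 15063323) (nat_lit 0) (nat_lit 2586212764) (nat_lit 76) (nat_lit 22371225) (nat_lit 74) (nat_lit 3) (nat_lit 73) (nat_lit 1) (nat_lit 74) (nat_lit 1) (nat_lit 384) (nat_lit 376) (nat_lit 260)))) (XT.nd (nat_lit 78) (nat_lit 228) (nat_lit 0) (XT.lf (nat_lit 76) (nat_lit 1232165537) (nat_lit 0) (nat_lit 85903150) (nat_lit 76) (nat_lit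 1238609895) (nat_lit 71) (nat_lit 3) (nat_lit 70) (nat_lit 1) (nat_lit 71) (nat_lit 1) (nat_lit 385) (nat_lit 376) (nat_lit 259)) (XT.nd (nat_lit 78) (nat_lit 76) (nat_lit 0) (XT.lf (nat_lit 0) (nat_lit 108400013) (nat_lit 0) (nat_lit 114082868) (nat_lit 152) (nat_lit 2269794276) (nat_lit 68) (nat_lit 3) (nat_lit 68) (nat_lit 1) (nat_lit 70) (nat_lit 1) (nat_lit 386) (nat_lit 376) (nat_lit 258)) (XT.lf (nat_lit 76) (nat_lit 1043981792) (nat_lit 0) (nat_lit 335497695) (nat_lit 76) (nat_lit 1049243696) (nat_lit 68) (nat_lit 3) (nat_lit 67) (nat_lit 1) (nat_lit 68) (nat_lit 1) (nat_lit 387) (nat_lit 376) (nat_lit 257))))) (XT.nd (nat_lit 234) (nat_lit 456) (nat_lit 0) (XT.nd (nat_lit 78) (nat_lit 228) (nat_lit 0) (XT.lf (nat_lit 0) (nat_lit 225917928) (nat_lit 0) (nat_lit 230558055) (nat_lit 152) (nat_lit 1910987318) (nat_lit 65) (nat_lit 3) (nat_lit 65) (nat_lit 1) (nat_lit 67) (nat_lit 1) (nat_lit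 388) (nat_lit 376) (nat_lit 256)) (XT.nd (nat_lit 78) (nat_lit 152) (nat_lit 0) (XT.lf (nat_lit 76) (nat_lit 871779683) (nat_lit 0) (nat_lit 559347079) (nat_lit 76) (nat_lit 876076097) (nat_lit 65) (nat_lit 3) (nat_lit 64) (nat_lit 1) (nat_lit 65) (nat_lit 1) (nat_lit 389) (nat_lit 376) (nat_lit 255)) (XT.lf (nat_lit 0) (nat_lit 331086286) (nat_lit 0) (nat_lit 334875011) (nat_lit 152) (nat_lit 1582969339) (nat_lit 62) (nat_lit 3) (nat_lit 62) (nat_lit 1) (nat_lit 64) (nat_lit 1) (nat_lit 390) (nat_lit 376) (nat_lit 254)))) (XT.nd (nat_lit 156) (nat_lit 228) (nat_lit 0) (XT.nd (nat_lit 78) (nat_lit 152) (nat_lit 0) (XT.lf (nat_lit 76) (nat_lit 714427242) (nat_lit 0) (nat_lit 759429548) (nat_lit 76) (nat_lit 717935320) (nat_lit 62) (nat_lit 3) (nat_lit 61) (nat_lit 1) (nat_lit 62) (nat_lit 1) (nat_lit 391) (nat_lit 376) (nat_lit 253)) (XT.lf (nat_lit 0) (nat_lit 424869120) (nat_lit 0) (nat_lit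 427962663) (nat_lit 152) (nat_lit 1283529475) (nat_lit 59) (nat_lit 3) (nat_lit 59) (nat_lit 1) (nat_lit 61) (nat_lit 1) (nat_lit 392) (nat_lit 376) (nat_lit 252))) (XT.nd (nat_lit 78) (nat_lit 152) (nat_lit 0) (XT.lf (nat_lit 76) (nat_lit 570864217) (nat_lit 0) (nat_lit 937589217) (nat_lit 76) (nat_lit 573728609) (nat_lit 59) (nat_lit 3) (nat_lit 58) (nat_lit 1) (nat_lit 59) (nat_lit 1) (nat_lit 393) (nat_lit 376) (nat_lit 251)) (XT.lf (nat_lit 0) (nat_lit 508162864) (nat_lit 0) (nat_lit 510688783) (nat_lit 152) (nat_lit 1010601842) (nat_lit 56) (nat_lit 3) (nat_lit 56) (nat_lit 1) (nat_lit 58) (nat_lit 1) (nat_lit 394) (nat_lit 376) (nat_lit 250)))))) (XT.nd (nat_lit 546) (nat_lit 912) (nat_lit 0) (XT.nd (nat_lit 234) (nat_lit 456) (nat_lit 0) (XT.nd (nat_lit 78) (nat_lit 228) (nat_lit 0) (XT.lf (nat_lit 76) (nat_lit 440098140) (nat_lit 0) (nat_lit 1095544410) (nat_lit 76) (nat_lit 442436954)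 (nat_lit 56) (nat_lit 3) (nat_lit 55) (nat_lit 1) (nat_lit 56) (nat_lit 1) (nat_lit 395) (nat_lit 376) (nat_lit 249)) (XT.nd (nat_lit 78) (nat_lit 76) (nat_lit 0) (XT.lf (nat_lit 0) (nat_lit 581800961) (nat_lit 0) (nat_lit 583863407) (nat_lit 152) (nat_lit 762256662) (nat_lit 53) (nat_lit 3) (nat_lit 53) (nat_lit 1) (nat_lit 55) (nat_lit 1) (nat_lit 396) (nat_lit 376) (nat_lit 248)) (XT.lf (nat_lit 76) (nat_lit 321200532) (nat_lit 0) (nat_lit 1234895539) (nat_lit 76) (nat_lit 323110204) (nat_lit 53) (nat_lit 3) (nat_lit 52) (nat_lit 1) (nat_lit 53) (nat_lit 1) (nat_lit 397) (nat_lit 376) (nat_lit 247)))) (XT.nd (nat_lit 156) (nat_lit 228) (nat_lit 0) (XT.nd (nat_lit 78) (nat_lit 76) (nat_lit 0) (XT.lf (nat_lit 0) (nat_lit 646558140) (nat_lit 0) (nat_lit 648242154) (nat_lit 152) (nat_lit 536691873) (nat_lit 50) (nat_lit 3) (nat_lit 50) (nat_lit 1) (nat_lit 52) (nat_lit 1) (nat_lit 398) (nat_lit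 376) (nat_lit 246)) (XT.lf (nat_lit 76) (nat_lit 213303239) (nat_lit 0) (nat_lit 1357132535) (nat_lit 76) (nat_lit 214862512) (nat_lit 50) (nat_lit 3) (nat_lit 49) (nat_lit 1) (nat_lit 50) (nat_lit 1) (nat_lit 399) (nat_lit 376) (nat_lit 245))) (XT.nd (nat_lit 78) (nat_lit 76) (nat_lit 0) (XT.lf (nat_lit 0) (nat_lit 703154386) (nat_lit 0) (nat_lit 704529406) (nat_lit 152) (nat_lit 332225227) (nat_lit 47) (nat_lit 3) (nat_lit 47) (nat_lit 1) (nat_lit 49) (nat_lit 1) (nat_lit 400) (nat_lit 376) (nat_lit 244)) (XT.lf (nat_lit 76) (nat_lit 115594935) (nat_lit 0) (nat_lit 1463641861) (nat_lit 76) (nat_lit 116868101) (nat_lit 47) (nat_lit 3) (nat_lit 46) (nat_lit 1) (nat_lit 47) (nat_lit 1) (nat_lit 401) (nat_lit 376) (nat_lit 243))))) (XT.nd (nat_lit 234) (nat_lit 456) (nat_lit 0) (XT.nd (nat_lit 78) (nat_lit 304) (nat_lit 0) (XT.lf (nat_lit 0) (nat_lit 752258637) (nat_lit 0) (nat_lit 753381359) (nat_lit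 152) (nat_lit 147286822) (nat_lit 44) (nat_lit 3) (nat_lit 44) (nat_lit 1) (nat_lit 46) (nat_lit 1) (nat_lit 402) (nat_lit 376) (nat_lit 242)) (XT.nd (nat_lit 78) (nat_lit 228) (nat_lit 0) (XT.lf (nat_lit 76) (nat_lit 27317766) (nat_lit 0) (nat_lit 1555713116) (nat_lit 76) (nat_lit 28357323) (nat_lit 44) (nat_lit 3) (nat_lit 43) (nat_lit 1) (nat_lit 44) (nat_lit 1) (nat_lit 403) (nat_lit 376) (nat_lit 241)) (XT.lf (nat_lit 76) (nat_lit 774572577) (nat_lit 0) (nat_lit 20235578) (nat_lit 76) (nat_lit 775489294) (nat_lit 41) (nat_lit 3) (nat_lit 40) (nat_lit 1) (nat_lit 41) (nat_lit 1) (nat_lit 404) (nat_lit 376) (nat_lit 240)))) (XT.nd (nat_lit 156) (nat_lit 228) (nat_lit 0) (XT.nd (nat_lit 78) (nat_lit 76) (nat_lit 0) (XT.lf (nat_lit 0) (nat_lit 52256602) (nat_lit 0) (nat_lit 53064995) (nat_lit 152) (nat_lit 1425434961) (nat_lit 38) (nat_lit 3) (nat_lit 38) (nat_lit 1) (nat_lit 40) (nat_lit 1)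 (nat_lit 405) (nat_lit 376) (nat_lit 239)) (XT.lf (nat_lit 76) (nat_lit 657792162) (nat_lit 0) (nat_lit 175378041) (nat_lit 76) (nat_lit 658540674) (nat_lit 38) (nat_lit 3) (nat_lit 37) (nat_lit 1) (nat_lit 38) (nat_lit 1) (nat_lit 406) (nat_lit 376) (nat_lit 238))) (XT.nd (nat_lit 78) (nat_lit 76) (nat_lit 0) (XT.lf (nat_lit 0) (nat_lit 125072252) (nat_lit 0) (nat_lit 125732316) (nat_lit 152) (nat_lit 1203293617) (nat_lit 35) (nat_lit 3) (nat_lit 35) (nat_lit 1) (nat_lit 37) (nat_lit 1) (nat_lit 407) (nat_lit 376) (nat_lit 237)) (XT.lf (nat_lit 76) (nat_lit 550939138) (nat_lit 0) (nat_lit 314586091) (nat_lit 76) (nat_lit 551550307) (nat_lit 35) (nat_lit 3) (nat_lit 34) (nat_lit 1) (nat_lit 35) (nat_lit 1) (nat_lit 408) (nat_lit 376) (nat_lit 236))))))))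
noncomputable def ec105 : XT := (XT.nd (nat_lit 43290) (nat_lit 0) (nat_lit 12692) (XT.nd (nat_lit 42198) (nat_lit 0) (nat_lit 17556) (XT.nd (nat_lit 468) (nat_lit 456) (nat_lit 0) (XT.nd (nat_lit 234) (nat_lit 304) (nat_lit 0) (XT.nd (nat_lit 78) (nat_lit 228) (nat_lit 0) (XT.lf (nat_lit 0) (nat_lit 190290402) (nat_lit 0) (nat_lit 190829352) (nat_lit 152) (nat_lit 1000176961) (nat_lit 32) (nat_lit 3) (nat_lit 32) (nat_lit 1) (nat_lit 34) (nat_lit 1) (nat_lit 409) (nat_lit 376) (nat_lit 235)) (XT.nd (nat_lit 78) (nat_lit 152) (nat_lit 0) (XT.lf (nat_lit 76) (nat_lit 453303506) (nat_lit 0) (nat_lit 439085734) (nat_lit 76) (nat_lit 453802534) (nat_lit 32) (nat_lit 3) (nat_lit 31) (nat_lit 1) (nat_lit 32) (nat_lit 1) (nat_lit 410) (nat_lit 376) (nat_lit 234)) (XT.lf (nat_lit 0) (nat_lit 248499950) (nat_lit 0) (nat_lit 248940010) (nat_lit 152) (nat_lit 814717172) (nat_lit 29) (nat_lit 3) (nat_lit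 29) (nat_lit 1) (nat_lit 31) (nat_lit 1) (nat_lit 411) (nat_lit 376) (nat_lit 233)))) (XT.nd (nat_lit 78) (nat_lit 228) (nat_lit 0) (XT.lf (nat_lit 76) (nat_lit 364221721) (nat_lit 0) (nat_lit 550019180) (nat_lit 76) (nat_lit 364629184) (nat_lit 29) (nat_lit 3) (nat_lit 28) (nat_lit 1) (nat_lit 29) (nat_lit 1) (nat_lit 412) (nat_lit 376) (nat_lit 232)) (XT.nd (nat_lit 78) (nat_lit 76) (nat_lit 0) (XT.lf (nat_lit 0) (nat_lit 300249154) (nat_lit 0) (nat_lit 300608469) (nat_lit 152) (nat_lit 645636710) (nat_lit 26) (nat_lit 3) (nat_lit 26) (nat_lit 1) (nat_lit 28) (nat_lit 1) (nat_lit 413) (nat_lit 376) (nat_lit 231)) (XT.lf (nat_lit 76) (nat_lit 283073847) (nat_lit 0) (nat_lit 648450195) (nat_lit 76) (nat_lit 283406546) (nat_lit 26) (nat_lit 3) (nat_lit 25) (nat_lit 1) (nat_lit 26) (nat_lit 1) (nat_lit 414) (nat_lit 376) (nat_lit 230))))) (XT.nd (nat_lit 234) (nat_lit 76) (nat_lit 0) (XT.nd (nat_lit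 78) (nat_lit 228) (nat_lit 0) (XT.lf (nat_lit 0) (nat_lit 346048284) (nat_lit 0) (nat_lit 346341670) (nat_lit 152) (nat_lit 491742669) (nat_lit 23) (nat_lit 3) (nat_lit 23) (nat_lit 1) (nat_lit 25) (nat_lit 1) (nat_lit 415) (nat_lit 376) (nat_lit 229)) (XT.nd (nat_lit 78) (nat_lit 152) (nat_lit 0) (XT.lf (nat_lit 76) (nat_lit 209280880) (nat_lit 0) (nat_lit 735369125) (nat_lit 76) (nat_lit 209552533) (nat_lit 23) (nat_lit 3) (nat_lit 22) (nat_lit 1) (nat_lit 23) (nat_lit 1) (nat_lit 416) (nat_lit 376) (nat_lit 228)) (XT.lf (nat_lit 0) (nat_lit 386372109) (nat_lit 0) (nat_lit 386611662) (nat_lit 152) (nat_lit 351921470) (nat_lit 20) (nat_lit 3) (nat_lit 20) (nat_lit 1) (nat_lit 22) (nat_lit 1) (nat_lit 417) (nat_lit 376) (nat_lit 227)))) (XT.nd (nat_lit 41340) (nat_lit 0) (nat_lit 20824) (XT.nd (nat_lit 41262) (nat_lit 0) (nat_lit 20748) (XT.lf (nat_lit 76) (nat_lit 142302215) (nat_lit 0) (nat_lit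 811697615) (nat_lit 76) (nat_lit 142524023) (nat_lit 20) (nat_lit 3) (nat_lit 19) (nat_lit 1) (nat_lit 20) (nat_lit 1) (nat_lit 418) (nat_lit 376) (nat_lit 226)) (XT.lf (nat_lit 836) (nat_lit 9266775290) (nat_lit 0) (nat_lit 16453138228) (nat_lit 836) (nat_lit 9266775290) (nat_lit 303) (nat_lit 1) (nat_lit 292) (nat_lit 0) (nat_lit 303) (nat_lit 0) (nat_lit 266) (nat_lit 377) (nat_lit 377))) (XT.nd (nat_lit 78) (nat_lit 0) (nat_lit 0) (XT.lf (nat_lit 836) (nat_lit 3456791526) (nat_lit 0) (nat_lit 32302496898) (nat_lit 760) (nat_lit 31591734046) (nat_lit 304) (nat_lit 1) (nat_lit 293) (nat_lit 1) (nat_lit 303) (nat_lit 1) (nat_lit 267) (nat_lit 377) (nat_lit 376)) (XT.lf (nat_lit 836) (nat_lit 31748634882) (nat_lit 76) (nat_lit 21632993061) (nat_lit 0) (nat_lit 11473152706) (nat_lit 304) (nat_lit 1) (nat_lit 294) (nat_lit 1) (nat_lit 293) (nat_lit 1) (nat_lit 268) (nat_lit 377) (nat_lit 375))))))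 (XT.nd (nat_lit 546) (nat_lit 1900) (nat_lit 0) (XT.nd (nat_lit 234) (nat_lit 1444) (nat_lit 0) (XT.nd (nat_lit 78) (nat_lit 0) (nat_lit 76) (XT.lf (nat_lit 836) (nat_lit 27433421423) (nat_lit 76) (nat_lit 9066237446) (nat_lit 0) (nat_lit 25983798231) (nat_lit 305) (nat_lit 1) (nat_lit 295) (nat_lit 1) (nat_lit 294) (nat_lit 1) (nat_lit 269) (nat_lit 377) (nat_lit 374)) (XT.nd (nat_lit 78) (nat_lit 0) (nat_lit 76) (XT.lf (nat_lit 836) (nat_lit 20303064162) (nat_lit 0) (nat_lit 37986073363) (nat_lit 760) (nat_lit 1941842643) (nat_lit 306) (nat_lit 1) (nat_lit 295) (nat_lit 1) (nat_lit 305) (nat_lit 1) (nat_lit 270) (nat_lit 377) (nat_lit 373)) (XT.lf (nat_lit 836) (nat_lit 4871521179) (nat_lit 0) (nat_lit 41890198823) (nat_lit 760) (nat_lit 11324354772) (nat_lit 307) (nat_lit 1) (nat_lit 296) (nat_lit 1) (nat_lit 306) (nat_lit 1) (nat_lit 271) (nat_lit 377) (nat_lit 372)))) (XT.nd (nat_lit 156)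 (nat_lit 912) (nat_lit 0) (XT.nd (nat_lit 78) (nat_lit 684) (nat_lit 0) (XT.lf (nat_lit 836) (nat_lit 9361082291) (nat_lit 76) (nat_lit 36405994042) (nat_lit 0) (nat_lit 10274220683) (nat_lit 307) (nat_lit 1) (nat_lit 297) (nat_lit 1) (nat_lit 296) (nat_lit 1) (nat_lit 272) (nat_lit 377) (nat_lit 371)) (XT.lf (nat_lit 836) (nat_lit 1922552841) (nat_lit 0) (nat_lit 27215888710) (nat_lit 760) (nat_lit 24956684784) (nat_lit 298) (nat_lit 1) (nat_lit 287) (nat_lit 1) (nat_lit 297) (nat_lit 1) (nat_lit 273) (nat_lit 377) (nat_lit 370))) (XT.nd (nat_lit 78) (nat_lit 380) (nat_lit 0) (XT.lf (nat_lit 76) (nat_lit 13312156357) (nat_lit 0) (nat_lit 5768776847) (nat_lit 532) (nat_lit 33160171752) (nat_lit 281) (nat_lit 1) (nat_lit 280) (nat_lit 1) (nat_lit 287) (nat_lit 1) (nat_lit 274) (nat_lit 377) (nat_lit 369)) (XT.lf (nat_lit 456) (nat_lit 36686627363) (nat_lit 0) (nat_lit 11942288106) (nat_lit 380)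 (nat_lit 1846351531) (nat_lit 281) (nat_lit 1) (nat_lit 275) (nat_lit 1) (nat_lit 280) (nat_lit 1) (nat_lit 275) (nat_lit 377) (nat_lit 368))))) (XT.nd (nat_lit 234) (nat_lit 1216) (nat_lit 0) (XT.nd (nat_lit 78) (nat_lit 304) (nat_lit 0) (XT.lf (nat_lit 456) (nat_lit 26473419662) (nat_lit 0) (nat_lit 5566351929) (nat_lit 380) (nat_lit 16745585328) (nat_lit 276) (nat_lit 1) (nat_lit 270) (nat_lit 1) (nat_lit 275) (nat_lit 1) (nat_lit 276) (nat_lit 377) (nat_lit 367)) (XT.nd (nat_lit 78) (nat_lit 0) (nat_lit 0) (XT.lf (nat_lit 380) (nat_lit 16108738224) (nat_lit 0) (nat_lit 102485584) (nat_lit 304) (nat_lit 30966163096) (nat_lit 271) (nat_lit 1) (nat_lit 266) (nat_lit 1) (nat_lit 270) (nat_lit 1) (nat_lit 277) (nat_lit 377) (nat_lit 366)) (XT.lf (nat_lit 76) (nat_lit 1188426576) (nat_lit 0) (nat_lit 40079502778) (nat_lit 380) (nat_lit 4375457025) (nat_lit 267) (nat_lit 1) (nat_lit 266) (nat_lit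 1) (nat_lit 271) (nat_lit 1) (nat_lit 278) (nat_lit 377) (nat_lit 365)))) (XT.nd (nat_lit 156) (nat_lit 532) (nat_lit 0) (XT.nd (nat_lit 78) (nat_lit 304) (nat_lit 0) (XT.lf (nat_lit 76) (nat_lit 30685482446) (nat_lit 0) (nat_lit 5089515596) (nat_lit 380) (nat_lit 8393535544) (nat_lit 262) (nat_lit 1) (nat_lit 261) (nat_lit 1) (nat_lit 266) (nat_lit 1) (nat_lit 279) (nat_lit 377) (nat_lit 364)) (XT.lf (nat_lit 76) (nat_lit 15352724458) (nat_lit 0) (nat_lit 15590089743) (nat_lit 380) (nat_lit 11816033108) (nat_lit 258) (nat_lit 1) (nat_lit 257) (nat_lit 1) (nat_lit 262) (nat_lit 1) (nat_lit 280) (nat_lit 377) (nat_lit 363))) (XT.nd (nat_lit 78) (nat_lit 228) (nat_lit 0) (XT.lf (nat_lit 76) (nat_lit 757776435) (nat_lit 0) (nat_lit 26066387971) (nat_lit 380) (nat_lit 14591740612) (nat_lit 254) (nat_lit 1) (nat_lit 253) (nat_lit 1) (nat_lit 258) (nat_lit 1) (nat_lit 281) (nat_lit 377) (nat_lit 362))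 (XT.lf (nat_lit 304) (nat_lit 3422075673) (nat_lit 0) (nat_lit 23141859735) (nat_lit 228) (nat_lit 13561661662) (nat_lit 254) (nat_lit 1) (nat_lit 250) (nat_lit 1) (nat_lit 253) (nat_lit 1) (nat_lit 282) (nat_lit 377) (nat_lit 361))))))) (XT.nd (nat_lit 1014) (nat_lit 1976) (nat_lit 0) (XT.nd (nat_lit 468) (nat_lit 1368) (nat_lit 0) (XT.nd (nat_lit 234) (nat_lit 684) (nat_lit 0) (XT.nd (nat_lit 78) (nat_lit 456) (nat_lit 0) (XT.lf (nat_lit 76) (nat_lit 11824191509) (nat_lit 0) (nat_lit 8104374332) (nat_lit 380) (nat_lit 18960028240) (nat_lit 246) (nat_lit 1) (nat_lit 245) (nat_lit 1) (nat_lit 250) (nat_lit 1) (nat_lit 283) (nat_lit 377) (nat_lit 360)) (XT.nd (nat_lit 78) (nat_lit 228) (nat_lit 0) (XT.lf (nat_lit 304) (nat_lit 18306692543) (nat_lit 0) (nat_lit 17196771559) (nat_lit 228) (nat_lit 2201166350) (nat_lit 246) (nat_lit 1) (nat_lit 242) (nat_lit 1) (nat_lit 245) (nat_lit 1) (nat_lit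 284) (nat_lit 377) (nat_lit 359)) (XT.lf (nat_lit 304) (nat_lit 5867206519) (nat_lit 0) (nat_lit 14805716112) (nat_lit 228) (nat_lit 15893244244) (nat_lit 243) (nat_lit 1) (nat_lit 239) (nat_lit 1) (nat_lit 242) (nat_lit 1) (nat_lit 285) (nat_lit 377) (nat_lit 358)))) (XT.nd (nat_lit 78) (nat_lit 380) (nat_lit 0) (XT.lf (nat_lit 76) (nat_lit 6687197725) (nat_lit 0) (nat_lit 6122710648) (nat_lit 304) (nat_lit 22665077461) (nat_lit 236) (nat_lit 1) (nat_lit 235) (nat_lit 1) (nat_lit 239) (nat_lit 1) (nat_lit 286) (nat_lit 377) (nat_lit 357)) (XT.nd (nat_lit 78) (nat_lit 152) (nat_lit 0) (XT.lf (nat_lit 304) (nat_lit 16640213848) (nat_lit 0) (nat_lit 11071781656) (nat_lit 228) (nat_lit 6711750442) (nat_lit 236) (nat_lit 1) (nat_lit 232) (nat_lit 1) (nat_lit 235) (nat_lit 1) (nat_lit 287) (nat_lit 377) (nat_lit 356)) (XT.lf (nat_lit 228) (nat_lit 4125133583) (nat_lit 0) (nat_lit 9659321916) (nat_lit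 152) (nat_lit 19630460507) (nat_lit 233) (nat_lit 1) (nat_lit 230) (nat_lit 1) (nat_lit 232) (nat_lit 1) (nat_lit 288) (nat_lit 377) (nat_lit 355))))) (XT.nd (nat_lit 234) (nat_lit 684) (nat_lit 0) (XT.nd (nat_lit 78) (nat_lit 380) (nat_lit 0) (XT.lf (nat_lit 76) (nat_lit 698823983) (nat_lit 0) (nat_lit 7819992083) (nat_lit 304) (nat_lit 23926374907) (nat_lit 227) (nat_lit 1) (nat_lit 226) (nat_lit 1) (nat_lit 230) (nat_lit 1) (nat_lit 289) (nat_lit 377) (nat_lit 354)) (XT.nd (nat_lit 78) (nat_lit 228) (nat_lit 0) (XT.lf (nat_lit 228) (nat_lit 11986881284) (nat_lit 0) (nat_lit 7490772450) (nat_lit 152) (nat_lit 12028595752) (nat_lit 227) (nat_lit 1) (nat_lit 224) (nat_lit 1) (nat_lit 226) (nat_lit 1) (nat_lit 290) (nat_lit 377) (nat_lit 353)) (XT.lf (nat_lit 76) (nat_lit 6503580850) (nat_lit 0) (nat_lit 300404476) (nat_lit 228) (nat_lit 23804294843) (nat_lit 222) (nat_lit 1) (nat_lit 221) (nat_lit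 1) (nat_lit 224) (nat_lit 1) (nat_lit 291) (nat_lit 377) (nat_lit 352)))) (XT.nd (nat_lit 156) (nat_lit 380) (nat_lit 0) (XT.nd (nat_lit 78) (nat_lit 152) (nat_lit 0) (XT.lf (nat_lit 228) (nat_lit 17779534173) (nat_lit 0) (nat_lit 6161007241) (nat_lit 152) (nat_lit 5795890727) (nat_lit 222) (nat_lit 1) (nat_lit 219) (nat_lit 1) (nat_lit 221) (nat_lit 1) (nat_lit 292) (nat_lit 377) (nat_lit 351)) (XT.lf (nat_lit 228) (nat_lit 5523035789) (nat_lit 0) (nat_lit 5727337525) (nat_lit 152) (nat_lit 17647545364) (nat_lit 220) (nat_lit 1) (nat_lit 217) (nat_lit 1) (nat_lit 219) (nat_lit 1) (nat_lit 293) (nat_lit 377) (nat_lit 350))) (XT.nd (nat_lit 78) (nat_lit 152) (nat_lit 0) (XT.lf (nat_lit 228) (nat_lit 21924422313) (nat_lit 0) (nat_lit 5472006146) (nat_lit 152) (nat_lit 694187464) (nat_lit 217) (nat_lit 1) (nat_lit 214) (nat_lit 1) (nat_lit 216) (nat_lit 1) (nat_lit 294) (nat_lit 377) (nat_lit 349))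 (XT.lf (nat_lit 228) (nat_lit 9812355316) (nat_lit 0) (nat_lit 5223921000) (nat_lit 152) (nat_lit 12269469244) (nat_lit 215) (nat_lit 1) (nat_lit 212) (nat_lit 1) (nat_lit 214) (nat_lit 1) (nat_lit 295) (nat_lit 377) (nat_lit 348)))))) (XT.nd (nat_lit 546) (nat_lit 988) (nat_lit 0) (XT.nd (nat_lit 234) (nat_lit 608) (nat_lit 0) (XT.nd (nat_lit 78) (nat_lit 228) (nat_lit 0) (XT.lf (nat_lit 76) (nat_lit 3361110540) (nat_lit 0) (nat_lit 1847417809) (nat_lit 152) (nat_lit 21344901244) (nat_lit 211) (nat_lit 1) (nat_lit 210) (nat_lit 1) (nat_lit 212) (nat_lit 1) (nat_lit 296) (nat_lit 377) (nat_lit 347)) (XT.nd (nat_lit 78) (nat_lit 76) (nat_lit 0) (XT.lf (nat_lit 228) (nat_lit 12874374490) (nat_lit 0) (nat_lit 5153375831) (nat_lit 152) (nat_lit 7792347282) (nat_lit 211) (nat_lit 1) (nat_lit 208) (nat_lit 1) (nat_lit 210) (nat_lit 1) (nat_lit 297) (nat_lit 377) (nat_lit 346)) (XT.lf (nat_lit 152)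 (nat_lit 1386387190) (nat_lit 0) (nat_lit 5279949401) (nat_lit 76) (nat_lit 18449380027) (nat_lit 209) (nat_lit 1) (nat_lit 207) (nat_lit 1) (nat_lit 208) (nat_lit 1) (nat_lit 298) (nat_lit 377) (nat_lit 345)))) (XT.nd (nat_lit 156) (nat_lit 304) (nat_lit 0) (XT.nd (nat_lit 78) (nat_lit 76) (nat_lit 0) (XT.lf (nat_lit 228) (nat_lit 14965537868) (nat_lit 0) (nat_lit 5399979265) (nat_lit 152) (nat_lit 4065240457) (nat_lit 207) (nat_lit 1) (nat_lit 204) (nat_lit 1) (nat_lit 206) (nat_lit 1) (nat_lit 299) (nat_lit 377) (nat_lit 344)) (XT.lf (nat_lit 152) (nat_lit 3763943129) (nat_lit 0) (nat_lit 5601889931) (nat_lit 76) (nat_lit 14403049998) (nat_lit 205) (nat_lit 1) (nat_lit 203) (nat_lit 1) (nat_lit 204) (nat_lit 1) (nat_lit 300) (nat_lit 377) (nat_lit 343))) (XT.nd (nat_lit 78) (nat_lit 76) (nat_lit 0) (XT.lf (nat_lit 228) (nat_lit 16293184151) (nat_lit 0) (nat_lit 5872070740) (nat_lit 152) (nat_lit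 963657076) (nat_lit 203) (nat_lit 1) (nat_lit 200) (nat_lit 1) (nat_lit 202) (nat_lit 1) (nat_lit 301) (nat_lit 377) (nat_lit 342)) (XT.lf (nat_lit 152) (nat_lit 5416830546) (nat_lit 0) (nat_lit 6121704306) (nat_lit 76) (nat_lit 10967561940) (nat_lit 201) (nat_lit 1) (nat_lit 199) (nat_lit 1) (nat_lit 200) (nat_lit 1) (nat_lit 302) (nat_lit 377) (nat_lit 341))))) (XT.nd (nat_lit 234) (nat_lit 456) (nat_lit 0) (XT.nd (nat_lit 78) (nat_lit 304) (nat_lit 0) (XT.lf (nat_lit 76) (nat_lit 1563512865) (nat_lit 0) (nat_lit 4907450113) (nat_lit 228) (nat_lit 15434693317) (nat_lit 197) (nat_lit 1) (nat_lit 196) (nat_lit 1) (nat_lit 199) (nat_lit 1) (nat_lit 303) (nat_lit 377) (nat_lit 340)) (XT.nd (nat_lit 78) (nat_lit 228) (nat_lit 0) (XT.lf (nat_lit 152) (nat_lit 6500685376) (nat_lit 0) (nat_lit 6773406037) (nat_lit 76) (nat_lit 8046035954) (nat_lit 197) (nat_lit 1) (nat_lit 195) (nat_lit 1) (nat_lit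 196) (nat_lit 1) (nat_lit 304) (nat_lit 377) (nat_lit 339)) (XT.lf (nat_lit 76) (nat_lit 3636148750) (nat_lit 0) (nat_lit 3521855940) (nat_lit 228) (nat_lit 13597170670) (nat_lit 193) (nat_lit 1) (nat_lit 192) (nat_lit 1) (nat_lit 195) (nat_lit 1) (nat_lit 305) (nat_lit 377) (nat_lit 338)))) (XT.nd (nat_lit 156) (nat_lit 228) (nat_lit 0) (XT.nd (nat_lit 78) (nat_lit 152) (nat_lit 0) (XT.lf (nat_lit 152) (nat_lit 7141017472) (nat_lit 0) (nat_lit 7505485218) (nat_lit 76) (nat_lit 5558154973) (nat_lit 193) (nat_lit 1) (nat_lit 191) (nat_lit 1) (nat_lit 192) (nat_lit 1) (nat_lit 306) (nat_lit 377) (nat_lit 337)) (XT.lf (nat_lit 76) (nat_lit 5353251784) (nat_lit 0) (nat_lit 2550728690) (nat_lit 152) (nat_lit 11768340554) (nat_lit 190) (nat_lit 1) (nat_lit 189) (nat_lit 1) (nat_lit 191) (nat_lit 1) (nat_lit 307) (nat_lit 377) (nat_lit 336))) (XT.nd (nat_lit 78) (nat_lit 152) (nat_lit 0) (XT.lf (nat_lit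 152) (nat_lit 7438839867) (nat_lit 0) (nat_lit 8278087109) (nat_lit 76) (nat_lit 3437210292) (nat_lit 190) (nat_lit 1) (nat_lit 188) (nat_lit 1) (nat_lit 189) (nat_lit 1) (nat_lit 308) (nat_lit 377) (nat_lit 335)) (XT.lf (nat_lit 76) (nat_lit 6771365771) (nat_lit 0) (nat_lit 1902876862) (nat_lit 152) (nat_lit 9977649666) (nat_lit 187) (nat_lit 1) (nat_lit 186) (nat_lit 1) (nat_lit 188) (nat_lit 1) (nat_lit 309) (nat_lit 377) (nat_lit 334))))))))
noncomputable def ec106 : XT := (XT.nd (nat_lit 2028) (nat_lit 3192) (nat_lit 0) (XT.nd (nat_lit 1014) (nat_lit 1596) (nat_lit 0) (XT.nd (nat_lit 468) (nat_lit 760) (nat_lit 0) (XT.nd (nat_lit 234) (nat_lit 380) (nat_lit 0) (XT.nd (nat_lit 78) (nat_lit 228) (nat_lit 0) (XT.lf (nat_lit 152) (nat_lit 7475258842) (nat_lit 0) (nat_lit 9060719138) (nat_lit 76) (nat_lit 1627683709) (nat_lit 187) (nat_lit 1) (nat_lit 185) (nat_lit 1) (nat_lit 186) (nat_lit 1)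 (nat_lit 310) (nat_lit 377) (nat_lit 333)) (XT.nd (nat_lit 78) (nat_lit 76) (nat_lit 0) (XT.lf (nat_lit 76) (nat_lit 7937484922) (nat_lit 0) (nat_lit 1504974015) (nat_lit 152) (nat_lit 8246819758) (nat_lit 184) (nat_lit 1) (nat_lit 183) (nat_lit 1) (nat_lit 185) (nat_lit 1) (nat_lit 311) (nat_lit 377) (nat_lit 332)) (XT.lf (nat_lit 152) (nat_lit 7315215854) (nat_lit 0) (nat_lit 9830388701) (nat_lit 76) (nat_lit 83268157) (nat_lit 184) (nat_lit 1) (nat_lit 182) (nat_lit 1) (nat_lit 183) (nat_lit 1) (nat_lit 312) (nat_lit 377) (nat_lit 331)))) (XT.nd (nat_lit 78) (nat_lit 228) (nat_lit 0) (XT.lf (nat_lit 76) (nat_lit 8890744225) (nat_lit 0) (nat_lit 1298204277) (nat_lit 152) (nat_lit 6591421848) (nat_lit 181) (nat_lit 1) (nat_lit 180) (nat_lit 1) (nat_lit 182) (nat_lit 1) (nat_lit 313) (nat_lit 377) (nat_lit 330)) (XT.nd (nat_lit 78) (nat_lit 152) (nat_lit 0) (XT.lf (nat_lit 0) (nat_lit 1195233488)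 (nat_lit 0) (nat_lit 9354616749) (nat_lit 152) (nat_lit 5795061957) (nat_lit 179) (nat_lit 3) (nat_lit 179) (nat_lit 1) (nat_lit 181) (nat_lit 1) (nat_lit 314) (nat_lit 377) (nat_lit 329)) (XT.lf (nat_lit 76) (nat_lit 9663803839) (nat_lit 0) (nat_lit 1235528249) (nat_lit 152) (nat_lit 5022151589) (nat_lit 178) (nat_lit 1) (nat_lit 177) (nat_lit 1) (nat_lit 179) (nat_lit 1) (nat_lit 315) (nat_lit 377) (nat_lit 328))))) (XT.nd (nat_lit 234) (nat_lit 456) (nat_lit 0) (XT.nd (nat_lit 78) (nat_lit 228) (nat_lit 0) (XT.lf (nat_lit 0) (nat_lit 2283338145) (nat_lit 0) (nat_lit 8945581973) (nat_lit 152) (nat_lit 4280411898) (nat_lit 176) (nat_lit 3) (nat_lit 176) (nat_lit 1) (nat_lit 178) (nat_lit 1) (nat_lit 316) (nat_lit 377) (nat_lit 327)) (XT.nd (nat_lit 78) (nat_lit 76) (nat_lit 0) (XT.lf (nat_lit 76) (nat_lit 10283983375) (nat_lit 0) (nat_lit 1279455147) (nat_lit 152) (nat_lit 3545861232) (nat_lit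 175) (nat_lit 1) (nat_lit 174) (nat_lit 1) (nat_lit 176) (nat_lit 1) (nat_lit 317) (nat_lit 377) (nat_lit 326)) (XT.lf (nat_lit 0) (nat_lit 3210119322) (nat_lit 0) (nat_lit 8649929097) (nat_lit 152) (nat_lit 2858968399) (nat_lit 173) (nat_lit 3) (nat_lit 173) (nat_lit 1) (nat_lit 175) (nat_lit 1) (nat_lit 318) (nat_lit 377) (nat_lit 325)))) (XT.nd (nat_lit 156) (nat_lit 228) (nat_lit 0) (XT.nd (nat_lit 78) (nat_lit 76) (nat_lit 0) (XT.lf (nat_lit 76) (nat_lit 10774191724) (nat_lit 0) (nat_lit 1400228027) (nat_lit 152) (nat_lit 2166393446) (nat_lit 172) (nat_lit 1) (nat_lit 171) (nat_lit 1) (nat_lit 173) (nat_lit 1) (nat_lit 319) (nat_lit 377) (nat_lit 324)) (XT.lf (nat_lit 0) (nat_lit 3997841978) (nat_lit 0) (nat_lit 8439518260) (nat_lit 152) (nat_lit 1533721742) (nat_lit 170) (nat_lit 3) (nat_lit 170) (nat_lit 1) (nat_lit 172) (nat_lit 1) (nat_lit 320) (nat_lit 377) (nat_lit 323))) (XT.nd (nat_lit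 78) (nat_lit 76) (nat_lit 0) (XT.lf (nat_lit 76) (nat_lit 11153689699) (nat_lit 0) (nat_lit 1574346026) (nat_lit 152) (nat_lit 885253869) (nat_lit 169) (nat_lit 1) (nat_lit 168) (nat_lit 1) (nat_lit 170) (nat_lit 1) (nat_lit 321) (nat_lit 377) (nat_lit 322)) (XT.lf (nat_lit 0) (nat_lit 4665336961) (nat_lit 0) (nat_lit 8292024107) (nat_lit 152) (nat_lit 305537873) (nat_lit 167) (nat_lit 3) (nat_lit 167) (nat_lit 1) (nat_lit 169) (nat_lit 1) (nat_lit 322) (nat_lit 377) (nat_lit 321)))))) (XT.nd (nat_lit 468) (nat_lit 836) (nat_lit 0) (XT.nd (nat_lit 234) (nat_lit 304) (nat_lit 0) (XT.nd (nat_lit 78) (nat_lit 228) (nat_lit 0) (XT.lf (nat_lit 152) (nat_lit 11135824268) (nat_lit 0) (nat_lit 307695674) (nat_lit 76) (nat_lit 1480469851) (nat_lit 166) (nat_lit 1) (nat_lit 164) (nat_lit 1) (nat_lit 165) (nat_lit 1) (nat_lit 323) (nat_lit 377) (nat_lit 320)) (XT.nd (nat_lit 78) (nat_lit 152) (nat_lit 0)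 (XT.lf (nat_lit 76) (nat_lit 4388246176) (nat_lit 0) (nat_lit 853665503) (nat_lit 76) (nat_lit 7349483965) (nat_lit 164) (nat_lit 3) (nat_lit 163) (nat_lit 1) (nat_lit 164) (nat_lit 1) (nat_lit 324) (nat_lit 377) (nat_lit 319)) (XT.lf (nat_lit 152) (nat_lit 10234991342) (nat_lit 0) (nat_lit 1430341326) (nat_lit 76) (nat_lit 604891926) (nat_lit 163) (nat_lit 1) (nat_lit 161) (nat_lit 1) (nat_lit 162) (nat_lit 1) (nat_lit 325) (nat_lit 377) (nat_lit 318)))) (XT.nd (nat_lit 78) (nat_lit 228) (nat_lit 0) (XT.lf (nat_lit 76) (nat_lit 3805716631) (nat_lit 0) (nat_lit 1925534755) (nat_lit 76) (nat_lit 6223606262) (nat_lit 161) (nat_lit 3) (nat_lit 160) (nat_lit 1) (nat_lit 161) (nat_lit 1) (nat_lit 326) (nat_lit 377) (nat_lit 317)) (XT.nd (nat_lit 78) (nat_lit 76) (nat_lit 0) (XT.lf (nat_lit 0) (nat_lit 160632974) (nat_lit 0) (nat_lit 2292810780) (nat_lit 152) (nat_lit 9197020042) (nat_lit 158) (nat_lit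 3) (nat_lit 158) (nat_lit 1) (nat_lit 160) (nat_lit 1) (nat_lit 327) (nat_lit 377) (nat_lit 316)) (XT.lf (nat_lit 76) (nat_lit 3237149101) (nat_lit 0) (nat_lit 2902953409) (nat_lit 76) (nat_lit 5211387810) (nat_lit 158) (nat_lit 3) (nat_lit 157) (nat_lit 1) (nat_lit 158) (nat_lit 1) (nat_lit 328) (nat_lit 377) (nat_lit 315))))) (XT.nd (nat_lit 234) (nat_lit 456) (nat_lit 0) (XT.nd (nat_lit 78) (nat_lit 228) (nat_lit 0) (XT.lf (nat_lit 0) (nat_lit 816944081) (nat_lit 0) (nat_lit 2557895323) (nat_lit 152) (nat_lit 7687642387) (nat_lit 155) (nat_lit 3) (nat_lit 155) (nat_lit 1) (nat_lit 157) (nat_lit 1) (nat_lit 329) (nat_lit 377) (nat_lit 314)) (XT.nd (nat_lit 78) (nat_lit 152) (nat_lit 0) (XT.lf (nat_lit 76) (nat_lit 2688916631) (nat_lit 0) (nat_lit 3789579057) (nat_lit 76) (nat_lit 4300908522) (nat_lit 155) (nat_lit 3) (nat_lit 154) (nat_lit 1) (nat_lit 155) (nat_lit 1) (nat_lit 330) (nat_lit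 377) (nat_lit 313)) (XT.lf (nat_lit 0) (nat_lit 1393403487) (nat_lit 0) (nat_lit 2814913091) (nat_lit 152) (nat_lit 6296612291) (nat_lit 152) (nat_lit 3) (nat_lit 152) (nat_lit 1) (nat_lit 154) (nat_lit 1) (nat_lit 331) (nat_lit 377) (nat_lit 312)))) (XT.nd (nat_lit 156) (nat_lit 228) (nat_lit 0) (XT.nd (nat_lit 78) (nat_lit 152) (nat_lit 0) (XT.lf (nat_lit 76) (nat_lit 2165550354) (nat_lit 0) (nat_lit 4589531638) (nat_lit 76) (nat_lit 3481762951) (nat_lit 152) (nat_lit 3) (nat_lit 151) (nat_lit 1) (nat_lit 152) (nat_lit 1) (nat_lit 332) (nat_lit 377) (nat_lit 311)) (XT.lf (nat_lit 0) (nat_lit 1898719107) (nat_lit 0) (nat_lit 3059400410) (nat_lit 152) (nat_lit 5017991235) (nat_lit 149) (nat_lit 3) (nat_lit 149) (nat_lit 1) (nat_lit 151) (nat_lit 1) (nat_lit 333) (nat_lit 377) (nat_lit 310))) (XT.nd (nat_lit 78) (nat_lit 152) (nat_lit 0) (XT.lf (nat_lit 76) (nat_lit 1670123019) (nat_lit 0) (nat_lit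 5307228199) (nat_lit 76) (nat_lit 2744827929) (nat_lit 149) (nat_lit 3) (nat_lit 148) (nat_lit 1) (nat_lit 149) (nat_lit 1) (nat_lit 334) (nat_lit 377) (nat_lit 309)) (XT.lf (nat_lit 0) (nat_lit 2340503893) (nat_lit 0) (nat_lit 3288215453) (nat_lit 152) (nat_lit 3845728515) (nat_lit 146) (nat_lit 3) (nat_lit 146) (nat_lit 1) (nat_lit 148) (nat_lit 1) (nat_lit 335) (nat_lit 377) (nat_lit 308))))))) (XT.nd (nat_lit 1014) (nat_lit 1596) (nat_lit 0) (XT.nd (nat_lit 468) (nat_lit 912) (nat_lit 0) (XT.nd (nat_lit 234) (nat_lit 380) (nat_lit 0) (XT.nd (nat_lit 78) (nat_lit 228) (nat_lit 0) (XT.lf (nat_lit 76) (nat_lit 1204559236) (nat_lit 0) (nat_lit 5947253255) (nat_lit 76) (nat_lit 2082069940) (nat_lit 146) (nat_lit 3) (nat_lit 145) (nat_lit 1) (nat_lit 146) (nat_lit 1) (nat_lit 336) (nat_lit 377) (nat_lit 307)) (XT.nd (nat_lit 78) (nat_lit 76) (nat_lit 0) (XT.lf (nat_lit 0) (nat_lit 2725440751) (nat_lit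 0) (nat_lit 3499259714) (nat_lit 152) (nat_lit 2773763740) (nat_lit 143) (nat_lit 3) (nat_lit 143) (nat_lit 1) (nat_lit 145) (nat_lit 1) (nat_lit 337) (nat_lit 377) (nat_lit 306)) (XT.lf (nat_lit 76) (nat_lit 769886060) (nat_lit 0) (nat_lit 6514257885) (nat_lit 76) (nat_lit 1486385100) (nat_lit 143) (nat_lit 3) (nat_lit 142) (nat_lit 1) (nat_lit 143) (nat_lit 1) (nat_lit 338) (nat_lit 377) (nat_lit 305)))) (XT.nd (nat_lit 78) (nat_lit 228) (nat_lit 0) (XT.lf (nat_lit 0) (nat_lit 3059419590) (nat_lit 0) (nat_lit 3691252959) (nat_lit 152) (nat_lit 1796105274) (nat_lit 140) (nat_lit 3) (nat_lit 140) (nat_lit 1) (nat_lit 142) (nat_lit 1) (nat_lit 339) (nat_lit 377) (nat_lit 304)) (XT.nd (nat_lit 78) (nat_lit 152) (nat_lit 0) (XT.lf (nat_lit 76) (nat_lit 366435042) (nat_lit 0) (nat_lit 7012881971) (nat_lit 76) (nat_lit 951465939) (nat_lit 140) (nat_lit 3) (nat_lit 139) (nat_lit 1) (nat_lit 140) (nat_lit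 1) (nat_lit 340) (nat_lit 377) (nat_lit 303)) (XT.lf (nat_lit 0) (nat_lit 3347651437) (nat_lit 0) (nat_lit 3863551698) (nat_lit 152) (nat_lit 906889343) (nat_lit 137) (nat_lit 3) (nat_lit 137) (nat_lit 1) (nat_lit 139) (nat_lit 1) (nat_lit 341) (nat_lit 377) (nat_lit 302))))) (XT.nd (nat_lit 234) (nat_lit 456) (nat_lit 0) (XT.nd (nat_lit 78) (nat_lit 304) (nat_lit 0) (XT.lf (nat_lit 76) (nat_lit 7441793446) (nat_lit 0) (nat_lit 5803328) (nat_lit 152) (nat_lit 465788604) (nat_lit 136) (nat_lit 1) (nat_lit 135) (nat_lit 1) (nat_lit 137) (nat_lit 1) (nat_lit 342) (nat_lit 377) (nat_lit 301)) (XT.nd (nat_lit 78) (nat_lit 228) (nat_lit 0) (XT.lf (nat_lit 0) (nat_lit 3594763695) (nat_lit 0) (nat_lit 4016003049) (nat_lit 152) (nat_lit 100423691) (nat_lit 134) (nat_lit 3) (nat_lit 134) (nat_lit 1) (nat_lit 136) (nat_lit 1) (nat_lit 343) (nat_lit 377) (nat_lit 300)) (XT.lf (nat_lit 152) (nat_lit 7174939748)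 (nat_lit 0) (nat_lit 310484738) (nat_lit 76) (nat_lit 31232909) (nat_lit 133) (nat_lit 1) (nat_lit 131) (nat_lit 1) (nat_lit 132) (nat_lit 1) (nat_lit 344) (nat_lit 377) (nat_lit 299)))) (XT.nd (nat_lit 156) (nat_lit 228) (nat_lit 0) (XT.nd (nat_lit 78) (nat_lit 152) (nat_lit 0) (XT.lf (nat_lit 76) (nat_lit 3165450043) (nat_lit 0) (nat_lit 649571473) (nat_lit 76) (nat_lit 3509397520) (nat_lit 131) (nat_lit 3) (nat_lit 130) (nat_lit 1) (nat_lit 131) (nat_lit 1) (nat_lit 345) (nat_lit 377) (nat_lit 298)) (XT.lf (nat_lit 0) (nat_lit 357837186) (nat_lit 0) (nat_lit 661141840) (nat_lit 152) (nat_lit 6120433984) (nat_lit 128) (nat_lit 3) (nat_lit 128) (nat_lit 1) (nat_lit 130) (nat_lit 1) (nat_lit 346) (nat_lit 377) (nat_lit 297))) (XT.nd (nat_lit 78) (nat_lit 152) (nat_lit 0) (XT.lf (nat_lit 76) (nat_lit 2673917449) (nat_lit 0) (nat_lit 1328510911) (nat_lit 76) (nat_lit 2954755091) (nat_lit 128) (nat_lit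 3) (nat_lit 127) (nat_lit 1) (nat_lit 128) (nat_lit 1) (nat_lit 347) (nat_lit 377) (nat_lit 296)) (XT.lf (nat_lit 0) (nat_lit 704117216) (nat_lit 0) (nat_lit 951769458) (nat_lit 152) (nat_lit 5125388293) (nat_lit 125) (nat_lit 3) (nat_lit 125) (nat_lit 1) (nat_lit 127) (nat_lit 1) (nat_lit 348) (nat_lit 377) (nat_lit 295)))))) (XT.nd (nat_lit 546) (nat_lit 836) (nat_lit 0) (XT.nd (nat_lit 234) (nat_lit 456) (nat_lit 0) (XT.nd (nat_lit 78) (nat_lit 228) (nat_lit 0) (XT.lf (nat_lit 76) (nat_lit 2220484062) (nat_lit 0) (nat_lit 1938267496) (nat_lit 76) (nat_lit 2449791693) (nat_lit 125) (nat_lit 3) (nat_lit 124) (nat_lit 1) (nat_lit 125) (nat_lit 1) (nat_lit 349) (nat_lit 377) (nat_lit 294)) (XT.nd (nat_lit 78) (nat_lit 76) (nat_lit 0) (XT.lf (nat_lit 0) (nat_lit 1012264684) (nat_lit 0) (nat_lit 1214475999) (nat_lit 152) (nat_lit 4214532586) (nat_lit 122) (nat_lit 3) (nat_lit 122) (nat_lit 1) (nat_lit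 124) (nat_lit 1) (nat_lit 350) (nat_lit 377) (nat_lit 293)) (XT.lf (nat_lit 76) (nat_lit 1803260481) (nat_lit 0) (nat_lit 2483780778) (nat_lit 76) (nat_lit 1990493180) (nat_lit 122) (nat_lit 3) (nat_lit 121) (nat_lit 1) (nat_lit 122) (nat_lit 1) (nat_lit 351) (nat_lit 377) (nat_lit 292)))) (XT.nd (nat_lit 156) (nat_lit 228) (nat_lit 0) (XT.nd (nat_lit 78) (nat_lit 76) (nat_lit 0) (XT.lf (nat_lit 0) (nat_lit 1285600189) (nat_lit 0) (nat_lit 1450708389) (nat_lit 152) (nat_lit 3382160463) (nat_lit 119) (nat_lit 3) (nat_lit 119) (nat_lit 1) (nat_lit 121) (nat_lit 1) (nat_lit 352) (nat_lit 377) (nat_lit 291)) (XT.lf (nat_lit 76) (nat_lit 1420317492) (nat_lit 0) (nat_lit 2969733551) (nat_lit 76) (nat_lit 1573195455) (nat_lit 119) (nat_lit 3) (nat_lit 118) (nat_lit 1) (nat_lit 119) (nat_lit 1) (nat_lit 353) (nat_lit 377) (nat_lit 290))) (XT.nd (nat_lit 78) (nat_lit 76) (nat_lit 0) (XT.lf (nat_lit 0)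 (nat_lit 1527145225) (nat_lit 0) (nat_lit 1661958243) (nat_lit 152) (nat_lit 2622871699) (nat_lit 116) (nat_lit 3) (nat_lit 116) (nat_lit 1) (nat_lit 118) (nat_lit 1) (nat_lit 354) (nat_lit 377) (nat_lit 289)) (XT.lf (nat_lit 76) (nat_lit 1069719636) (nat_lit 0) (nat_lit 3400552672) (nat_lit 76) (nat_lit 1194546505) (nat_lit 116) (nat_lit 3) (nat_lit 115) (nat_lit 1) (nat_lit 116) (nat_lit 1) (nat_lit 355) (nat_lit 377) (nat_lit 288))))) (XT.nd (nat_lit 234) (nat_lit 456) (nat_lit 0) (XT.nd (nat_lit 78) (nat_lit 228) (nat_lit 0) (XT.lf (nat_lit 0) (nat_lit 1739654887) (nat_lit 0) (nat_lit 1849731491) (nat_lit 152) (nat_lit 1931566523) (nat_lit 113) (nat_lit 3) (nat_lit 113) (nat_lit 1) (nat_lit 115) (nat_lit 1) (nat_lit 356) (nat_lit 377) (nat_lit 287)) (XT.nd (nat_lit 78) (nat_lit 152) (nat_lit 0) (XT.lf (nat_lit 76) (nat_lit 749550950) (nat_lit 0) (nat_lit 3780412779) (nat_lit 76) (nat_lit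 851473731) (nat_lit 113) (nat_lit 3) (nat_lit 112) (nat_lit 1) (nat_lit 113) (nat_lit 1) (nat_lit 357) (nat_lit 377) (nat_lit 286)) (XT.lf (nat_lit 0) (nat_lit 1925646045) (nat_lit 0) (nat_lit 2015525041) (nat_lit 152) (nat_lit 1303437704) (nat_lit 110) (nat_lit 3) (nat_lit 110) (nat_lit 1) (nat_lit 112) (nat_lit 1) (nat_lit 358) (nat_lit 377) (nat_lit 285)))) (XT.nd (nat_lit 156) (nat_lit 228) (nat_lit 0) (XT.nd (nat_lit 78) (nat_lit 152) (nat_lit 0) (XT.lf (nat_lit 76) (nat_lit 457934395) (nat_lit 0) (nat_lit 4113242181) (nat_lit 76) (nat_lit 541155687) (nat_lit 110) (nat_lit 3) (nat_lit 109) (nat_lit 1) (nat_lit 110) (nat_lit 1) (nat_lit 359) (nat_lit 377) (nat_lit 284)) (XT.lf (nat_lit 0) (nat_lit 2087421706) (nat_lit 0) (nat_lit 2160809089) (nat_lit 152) (nat_lit 733961064) (nat_lit 107) (nat_lit 3) (nat_lit 107) (nat_lit 1) (nat_lit 109) (nat_lit 1) (nat_lit 360) (nat_lit 377) (nat_lit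 283))) (XT.nd (nat_lit 78) (nat_lit 152) (nat_lit 0) (XT.lf (nat_lit 76) (nat_lit 193046246) (nat_lit 0) (nat_lit 4402730342) (nat_lit 76) (nat_lit 260997527) (nat_lit 107) (nat_lit 3) (nat_lit 106) (nat_lit 1) (nat_lit 107) (nat_lit 1) (nat_lit 361) (nat_lit 377) (nat_lit 282)) (XT.lf (nat_lit 0) (nat_lit 2227092203) (nat_lit 0) (nat_lit 2287013967) (nat_lit 152) (nat_lit 218884880) (nat_lit 104) (nat_lit 3) (nat_lit 104) (nat_lit 1) (nat_lit 106) (nat_lit 1) (nat_lit 362) (nat_lit 377) (nat_lit 281))))))))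
noncomputable def ec107 : XT := (XT.nd (nat_lit 2106) (nat_lit 3192) (nat_lit 0) (XT.nd (nat_lit 1014) (nat_lit 1672) (nat_lit 0) (XT.nd (nat_lit 468) (nat_lit 836) (nat_lit 0) (XT.nd (nat_lit 234) (nat_lit 304) (nat_lit 0) (XT.nd (nat_lit 78) (nat_lit 228) (nat_lit 0) (XT.lf (nat_lit 152) (nat_lit 4568026995) (nat_lit 0) (nat_lit 38773137) (nat_lit 76) (nat_lit 7205522) (nat_lit 103) (nat_lit 1) (nat_lit 101) (nat_lit 1) (nat_lit 102) (nat_lit 1) (nat_lit 363) (nat_lit 377) (nat_lit 280)) (XT.nd (nat_lit 78) (nat_lit 152) (nat_lit 0) (XT.lf (nat_lit 76) (nat_lit 2096649824) (nat_lit 0) (nat_lit 253908081) (nat_lit 76) (nat_lit 2145576734) (nat_lit 101) (nat_lit 3) (nat_lit 100) (nat_lit 1) (nat_lit 101) (nat_lit 1) (nat_lit 364) (nat_lit 377) (nat_lit 279)) (XT.lf (nat_lit 0) (nat_lit 223238730) (nat_lit 0) (nat_lit 266384153) (nat_lit 152) (nat_lit 3893179498) (nat_lit 98) (nat_lit 3) (nat_lit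 98) (nat_lit 1) (nat_lit 100) (nat_lit 1) (nat_lit 365) (nat_lit 377) (nat_lit 278)))) (XT.nd (nat_lit 78) (nat_lit 228) (nat_lit 0) (XT.lf (nat_lit 76) (nat_lit 1772683848) (nat_lit 0) (nat_lit 685726633) (nat_lit 76) (nat_lit 1812633313) (nat_lit 98) (nat_lit 3) (nat_lit 97) (nat_lit 1) (nat_lit 98) (nat_lit 1) (nat_lit 366) (nat_lit 377) (nat_lit 277)) (XT.nd (nat_lit 78) (nat_lit 76) (nat_lit 0) (XT.lf (nat_lit 0) (nat_lit 429593038) (nat_lit 0) (nat_lit 464821843) (nat_lit 152) (nat_lit 3268833389) (nat_lit 95) (nat_lit 3) (nat_lit 95) (nat_lit 1) (nat_lit 97) (nat_lit 1) (nat_lit 367) (nat_lit 377) (nat_lit 276)) (XT.lf (nat_lit 76) (nat_lit 1475857527) (nat_lit 0) (nat_lit 1072953074) (nat_lit 76) (nat_lit 1508476791) (nat_lit 95) (nat_lit 3) (nat_lit 94) (nat_lit 1) (nat_lit 95) (nat_lit 1) (nat_lit 368) (nat_lit 377) (nat_lit 275))))) (XT.nd (nat_lit 234) (nat_lit 456) (nat_lit 0) (XT.nd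 (nat_lit 78) (nat_lit 228) (nat_lit 0) (XT.lf (nat_lit 0) (nat_lit 613986303) (nat_lit 0) (nat_lit 642751087) (nat_lit 152) (nat_lit 2698018459) (nat_lit 92) (nat_lit 3) (nat_lit 92) (nat_lit 1) (nat_lit 94) (nat_lit 1) (nat_lit 369) (nat_lit 377) (nat_lit 274)) (XT.nd (nat_lit 78) (nat_lit 152) (nat_lit 0) (XT.lf (nat_lit 76) (nat_lit 1204340642) (nat_lit 0) (nat_lit 1418974086) (nat_lit 76) (nat_lit 1230974700) (nat_lit 92) (nat_lit 3) (nat_lit 91) (nat_lit 1) (nat_lit 92) (nat_lit 1) (nat_lit 370) (nat_lit 377) (nat_lit 273)) (XT.lf (nat_lit 0) (nat_lit 778174463) (nat_lit 0) (nat_lit 801661288) (nat_lit 152) (nat_lit 2176927111) (nat_lit 89) (nat_lit 3) (nat_lit 89) (nat_lit 1) (nat_lit 91) (nat_lit 1) (nat_lit 371) (nat_lit 377) (nat_lit 272)))) (XT.nd (nat_lit 156) (nat_lit 228) (nat_lit 0) (XT.nd (nat_lit 78) (nat_lit 152) (nat_lit 0) (XT.lf (nat_lit 76) (nat_lit 956400542) (nat_lit 0)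 (nat_lit 1726955632) (nat_lit 76) (nat_lit 978147602) (nat_lit 89) (nat_lit 3) (nat_lit 88) (nat_lit 1) (nat_lit 89) (nat_lit 1) (nat_lit 372) (nat_lit 377) (nat_lit 271)) (XT.lf (nat_lit 0) (nat_lit 923782604) (nat_lit 0) (nat_lit 942959905) (nat_lit 152) (nat_lit 1701993680) (nat_lit 86) (nat_lit 3) (nat_lit 86) (nat_lit 1) (nat_lit 88) (nat_lit 1) (nat_lit 373) (nat_lit 377) (nat_lit 270))) (XT.nd (nat_lit 78) (nat_lit 152) (nat_lit 0) (XT.lf (nat_lit 76) (nat_lit 730400429) (nat_lit 0) (nat_lit 1999854932) (nat_lit 76) (nat_lit 748157190) (nat_lit 86) (nat_lit 3) (nat_lit 85) (nat_lit 1) (nat_lit 86) (nat_lit 1) (nat_lit 374) (nat_lit 377) (nat_lit 269)) (XT.lf (nat_lit 0) (nat_lit 1052315306) (nat_lit 0) (nat_lit 1067973825) (nat_lit 152) (nat_lit 1269881121) (nat_lit 83) (nat_lit 3) (nat_lit 83) (nat_lit 1) (nat_lit 85) (nat_lit 1) (nat_lit 375) (nat_lit 377) (nat_lit 268)))))) (XT.nd (nat_lit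 546) (nat_lit 912) (nat_lit 0) (XT.nd (nat_lit 234) (nat_lit 456) (nat_lit 0) (XT.nd (nat_lit 78) (nat_lit 228) (nat_lit 0) (XT.lf (nat_lit 76) (nat_lit 524796910) (nat_lit 0) (nat_lit 2240432118) (nat_lit 76) (nat_lit 539295538) (nat_lit 83) (nat_lit 3) (nat_lit 82) (nat_lit 1) (nat_lit 83) (nat_lit 1) (nat_lit 376) (nat_lit 377) (nat_lit 267)) (XT.nd (nat_lit 78) (nat_lit 76) (nat_lit 0) (XT.lf (nat_lit 0) (nat_lit 1165165999) (nat_lit 0) (nat_lit 1177951386) (nat_lit 152) (nat_lit 877468141) (nat_lit 80) (nat_lit 3) (nat_lit 80) (nat_lit 1) (nat_lit 82) (nat_lit 1) (nat_lit 377) (nat_lit 377) (nat_lit 266)) (XT.lf (nat_lit 76) (nat_lit 338137034) (nat_lit 0) (nat_lit 2451261510) (nat_lit 76) (nat_lit 349975355) (nat_lit 80) (nat_lit 3) (nat_lit 79) (nat_lit 1) (nat_lit 80) (nat_lit 1) (nat_lit 378) (nat_lit 377) (nat_lit 265)))) (XT.nd (nat_lit 156) (nat_lit 228) (nat_lit 0) (XT.nd (nat_lit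 78) (nat_lit 76) (nat_lit 0) (XT.lf (nat_lit 0) (nat_lit 1263625430) (nat_lit 0) (nat_lit 1274064867) (nat_lit 152) (nat_lit 521836838) (nat_lit 77) (nat_lit 3) (nat_lit 77) (nat_lit 1) (nat_lit 79) (nat_lit 1) (nat_lit 379) (nat_lit 377) (nat_lit 264)) (XT.lf (nat_lit 76) (nat_lit 169054962) (nat_lit 0) (nat_lit 2634742465) (nat_lit 76) (nat_lit 178721107) (nat_lit 77) (nat_lit 3) (nat_lit 76) (nat_lit 1) (nat_lit 77) (nat_lit 1) (nat_lit 380) (nat_lit 377) (nat_lit 263))) (XT.nd (nat_lit 78) (nat_lit 76) (nat_lit 0) (XT.lf (nat_lit 0) (nat_lit 1348889379) (nat_lit 0) (nat_lit 1357413317) (nat_lit 152) (nat_lit 200260840) (nat_lit 74) (nat_lit 3) (nat_lit 74) (nat_lit 1) (nat_lit 76) (nat_lit 1) (nat_lit 381) (nat_lit 377) (nat_lit 262)) (XT.lf (nat_lit 76) (nat_lit 16268389) (nat_lit 0) (nat_lit 2793109785) (nat_lit 76) (nat_lit 24160923) (nat_lit 74) (nat_lit 3) (nat_lit 73) (nat_lit 1) (nat_lit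 74) (nat_lit 1) (nat_lit 382) (nat_lit 377) (nat_lit 261))))) (XT.nd (nat_lit 234) (nat_lit 456) (nat_lit 0) (XT.nd (nat_lit 78) (nat_lit 228) (nat_lit 0) (XT.lf (nat_lit 76) (nat_lit 1330738779) (nat_lit 0) (nat_lit 92775402) (nat_lit 76) (nat_lit 1337698686) (nat_lit 71) (nat_lit 3) (nat_lit 70) (nat_lit 1) (nat_lit 71) (nat_lit 1) (nat_lit 383) (nat_lit 377) (nat_lit 260)) (XT.nd (nat_lit 78) (nat_lit 76) (nat_lit 0) (XT.lf (nat_lit 0) (nat_lit 117072014) (nat_lit 0) (nat_lit 123209498) (nat_lit 152) (nat_lit 2451377818) (nat_lit 68) (nat_lit 3) (nat_lit 68) (nat_lit 1) (nat_lit 70) (nat_lit 1) (nat_lit 384) (nat_lit 377) (nat_lit 259)) (XT.lf (nat_lit 76) (nat_lit 1127500336) (nat_lit 0) (nat_lit 362337511) (nat_lit 76) (nat_lit 1133183191) (nat_lit 68) (nat_lit 3) (nat_lit 67) (nat_lit 1) (nat_lit 68) (nat_lit 1) (nat_lit 385) (nat_lit 377) (nat_lit 258)))) (XT.nd (nat_lit 156) (nat_lit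 228) (nat_lit 0) (XT.nd (nat_lit 78) (nat_lit 76) (nat_lit 0) (XT.lf (nat_lit 0) (nat_lit 243991363) (nat_lit 0) (nat_lit 249002699) (nat_lit 152) (nat_lit 2063866303) (nat_lit 65) (nat_lit 3) (nat_lit 65) (nat_lit 1) (nat_lit 67) (nat_lit 1) (nat_lit 386) (nat_lit 377) (nat_lit 257)) (XT.lf (nat_lit 76) (nat_lit 941522058) (nat_lit 0) (nat_lit 604094845) (nat_lit 76) (nat_lit 946162185) (nat_lit 65) (nat_lit 3) (nat_lit 64) (nat_lit 1) (nat_lit 65) (nat_lit 1) (nat_lit 387) (nat_lit 377) (nat_lit 256))) (XT.nd (nat_lit 78) (nat_lit 76) (nat_lit 0) (XT.lf (nat_lit 0) (nat_lit 357573189) (nat_lit 0) (nat_lit 361665011) (nat_lit 152) (nat_lit 1709606886) (nat_lit 62) (nat_lit 3) (nat_lit 62) (nat_lit 1) (nat_lit 64) (nat_lit 1) (nat_lit 388) (nat_lit 377) (nat_lit 255)) (XT.lf (nat_lit 76) (nat_lit 771581422) (nat_lit 0) (nat_lit 820183912) (nat_lit 76) (nat_lit 775370146) (nat_lit 62) (nat_lit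 3) (nat_lit 61) (nat_lit 1) (nat_lit 62) (nat_lit 1) (nat_lit 389) (nat_lit 377) (nat_lit 254))))))) (XT.nd (nat_lit 1014) (nat_lit 1596) (nat_lit 0) (XT.nd (nat_lit 468) (nat_lit 912) (nat_lit 0) (XT.nd (nat_lit 234) (nat_lit 304) (nat_lit 0) (XT.nd (nat_lit 78) (nat_lit 228) (nat_lit 0) (XT.lf (nat_lit 0) (nat_lit 458858650) (nat_lit 0) (nat_lit 462199676) (nat_lit 152) (nat_lit 1386211833) (nat_lit 59) (nat_lit 3) (nat_lit 59) (nat_lit 1) (nat_lit 61) (nat_lit 1) (nat_lit 390) (nat_lit 377) (nat_lit 253)) (XT.nd (nat_lit 78) (nat_lit 152) (nat_lit 0) (XT.lf (nat_lit 76) (nat_lit 616533354) (nat_lit 0) (nat_lit 1012596354) (nat_lit 76) (nat_lit 619626897) (nat_lit 59) (nat_lit 3) (nat_lit 58) (nat_lit 1) (nat_lit 59) (nat_lit 1) (nat_lit 391) (nat_lit 377) (nat_lit 252)) (XT.lf (nat_lit 0) (nat_lit 548815893) (nat_lit 0) (nat_lit 551543885) (nat_lit 152) (nat_lit 1091449990) (nat_lit 56) (nat_lit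 3) (nat_lit 56) (nat_lit 1) (nat_lit 58) (nat_lit 1) (nat_lit 392) (nat_lit 377) (nat_lit 251)))) (XT.nd (nat_lit 78) (nat_lit 228) (nat_lit 0) (XT.lf (nat_lit 76) (nat_lit 475305992) (nat_lit 0) (nat_lit 1183187963) (nat_lit 76) (nat_lit 477831910) (nat_lit 56) (nat_lit 3) (nat_lit 55) (nat_lit 1) (nat_lit 56) (nat_lit 1) (nat_lit 393) (nat_lit 377) (nat_lit 250)) (XT.nd (nat_lit 78) (nat_lit 76) (nat_lit 0) (XT.lf (nat_lit 0) (nat_lit 628345038) (nat_lit 0) (nat_lit 630572480) (nat_lit 152) (nat_lit 823237195) (nat_lit 53) (nat_lit 3) (nat_lit 53) (nat_lit 1) (nat_lit 55) (nat_lit 1) (nat_lit 394) (nat_lit 377) (nat_lit 249)) (XT.lf (nat_lit 76) (nat_lit 346896574) (nat_lit 0) (nat_lit 1333687182) (nat_lit 76) (nat_lit 348959020) (nat_lit 53) (nat_lit 3) (nat_lit 52) (nat_lit 1) (nat_lit 53) (nat_lit 1) (nat_lit 395) (nat_lit 377) (nat_lit 248))))) (XT.nd (nat_lit 234) (nat_lit 532) (nat_lit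 0) (XT.nd (nat_lit 78) (nat_lit 228) (nat_lit 0) (XT.lf (nat_lit 0) (nat_lit 698282791) (nat_lit 0) (nat_lit 700101527) (nat_lit 152) (nat_lit 579627223) (nat_lit 50) (nat_lit 3) (nat_lit 50) (nat_lit 1) (nat_lit 52) (nat_lit 1) (nat_lit 396) (nat_lit 377) (nat_lit 247)) (XT.nd (nat_lit 78) (nat_lit 152) (nat_lit 0) (XT.lf (nat_lit 76) (nat_lit 230367498) (nat_lit 0) (nat_lit 1465703138) (nat_lit 76) (nat_lit 232051513) (nat_lit 50) (nat_lit 3) (nat_lit 49) (nat_lit 1) (nat_lit 50) (nat_lit 1) (nat_lit 397) (nat_lit 377) (nat_lit 246)) (XT.lf (nat_lit 0) (nat_lit 759406737) (nat_lit 0) (nat_lit 760891758) (nat_lit 152) (nat_lit 358803245) (nat_lit 47) (nat_lit 3) (nat_lit 47) (nat_lit 1) (nat_lit 49) (nat_lit 1) (nat_lit 398) (nat_lit 377) (nat_lit 245)))) (XT.nd (nat_lit 156) (nat_lit 304) (nat_lit 0) (XT.nd (nat_lit 78) (nat_lit 152) (nat_lit 0) (XT.lf (nat_lit 76) (nat_lit 124842530) (nat_lit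 0) (nat_lit 1580733210) (nat_lit 76) (nat_lit 126217550) (nat_lit 47) (nat_lit 3) (nat_lit 46) (nat_lit 1) (nat_lit 47) (nat_lit 1) (nat_lit 399) (nat_lit 377) (nat_lit 244)) (XT.lf (nat_lit 0) (nat_lit 812439328) (nat_lit 0) (nat_lit 813651868) (nat_lit 152) (nat_lit 159069768) (nat_lit 44) (nat_lit 3) (nat_lit 44) (nat_lit 1) (nat_lit 46) (nat_lit 1) (nat_lit 400) (nat_lit 377) (nat_lit 243))) (XT.nd (nat_lit 78) (nat_lit 228) (nat_lit 0) (XT.lf (nat_lit 76) (nat_lit 29503188) (nat_lit 0) (nat_lit 1680170166) (nat_lit 76) (nat_lit 30625909) (nat_lit 44) (nat_lit 3) (nat_lit 43) (nat_lit 1) (nat_lit 44) (nat_lit 1) (nat_lit 401) (nat_lit 377) (nat_lit 242)) (XT.lf (nat_lit 76) (nat_lit 836538383) (nat_lit 0) (nat_lit 21854424) (nat_lit 76) (nat_lit 837528438) (nat_lit 41) (nat_lit 3) (nat_lit 40) (nat_lit 1) (nat_lit 41) (nat_lit 1) (nat_lit 402) (nat_lit 377) (nat_lit 241)))))) (XT.nd (nat_lit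 546) (nat_lit 760) (nat_lit 0) (XT.nd (nat_lit 234) (nat_lit 456) (nat_lit 0) (XT.nd (nat_lit 78) (nat_lit 228) (nat_lit 0) (XT.lf (nat_lit 0) (nat_lit 56437130) (nat_lit 0) (nat_lit 57310194) (nat_lit 152) (nat_lit 1539469758) (nat_lit 38) (nat_lit 3) (nat_lit 38) (nat_lit 1) (nat_lit 40) (nat_lit 1) (nat_lit 403) (nat_lit 377) (nat_lit 240)) (XT.nd (nat_lit 78) (nat_lit 152) (nat_lit 0) (XT.lf (nat_lit 76) (nat_lit 710415535) (nat_lit 0) (nat_lit 189408285) (nat_lit 76) (nat_lit 711223928) (nat_lit 38) (nat_lit 3) (nat_lit 37) (nat_lit 1) (nat_lit 38) (nat_lit 1) (nat_lit 404) (nat_lit 377) (nat_lit 239)) (XT.lf (nat_lit 0) (nat_lit 135078033) (nat_lit 0) (nat_lit 135790901) (nat_lit 152) (nat_lit 1299557106) (nat_lit 35) (nat_lit 3) (nat_lit 35) (nat_lit 1) (nat_lit 37) (nat_lit 1) (nat_lit 405) (nat_lit 377) (nat_lit 238)))) (XT.nd (nat_lit 156) (nat_lit 228) (nat_lit 0) (XT.nd (nat_lit 78)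 (nat_lit 152) (nat_lit 0) (XT.lf (nat_lit 76) (nat_lit 595014269) (nat_lit 0) (nat_lit 339752979) (nat_lit 76) (nat_lit 595674332) (nat_lit 35) (nat_lit 3) (nat_lit 34) (nat_lit 1) (nat_lit 35) (nat_lit 1) (nat_lit 406) (nat_lit 377) (nat_lit 237)) (XT.lf (nat_lit 0) (nat_lit 205513634) (nat_lit 0) (nat_lit 206095701) (nat_lit 152) (nat_lit 1080191118) (nat_lit 32) (nat_lit 3) (nat_lit 32) (nat_lit 1) (nat_lit 34) (nat_lit 1) (nat_lit 407) (nat_lit 377) (nat_lit 236))) (XT.nd (nat_lit 78) (nat_lit 152) (nat_lit 0) (XT.lf (nat_lit 76) (nat_lit 489567787) (nat_lit 0) (nat_lit 474212592) (nat_lit 76) (nat_lit 490106737) (nat_lit 32) (nat_lit 3) (nat_lit 31) (nat_lit 1) (nat_lit 32) (nat_lit 1) (nat_lit 408) (nat_lit 377) (nat_lit 235)) (XT.lf (nat_lit 0) (nat_lit 268379946) (nat_lit 0) (nat_lit 268855211) (nat_lit 152) (nat_lit 879894545) (nat_lit 29) (nat_lit 3) (nat_lit 29) (nat_lit 1) (nat_lit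 31) (nat_lit 1) (nat_lit 409) (nat_lit 377) (nat_lit 234))))) (XT.nd (nat_lit 234) (nat_lit 456) (nat_lit 0) (XT.nd (nat_lit 78) (nat_lit 228) (nat_lit 0) (XT.lf (nat_lit 76) (nat_lit 393359458) (nat_lit 0) (nat_lit 594020714) (nat_lit 76) (nat_lit 393799518) (nat_lit 29) (nat_lit 3) (nat_lit 28) (nat_lit 1) (nat_lit 29) (nat_lit 1) (nat_lit 410) (nat_lit 377) (nat_lit 233)) (XT.nd (nat_lit 78) (nat_lit 76) (nat_lit 0) (XT.lf (nat_lit 0) (nat_lit 324269086) (nat_lit 0) (nat_lit 324657146) (nat_lit 152) (nat_lit 697287646) (nat_lit 26) (nat_lit 3) (nat_lit 26) (nat_lit 1) (nat_lit 28) (nat_lit 1) (nat_lit 411) (nat_lit 377) (nat_lit 232)) (XT.lf (nat_lit 76) (nat_lit 305719755) (nat_lit 0) (nat_lit 700326211) (nat_lit 76) (nat_lit 306079069) (nat_lit 26) (nat_lit 3) (nat_lit 25) (nat_lit 1) (nat_lit 26) (nat_lit 1) (nat_lit 412) (nat_lit 377) (nat_lit 231)))) (XT.nd (nat_lit 156) (nat_lit 228)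 (nat_lit 0) (XT.nd (nat_lit 78) (nat_lit 76) (nat_lit 0) (XT.lf (nat_lit 0) (nat_lit 373732147) (nat_lit 0) (nat_lit 374049003) (nat_lit 152) (nat_lit 531082083) (nat_lit 23) (nat_lit 3) (nat_lit 23) (nat_lit 1) (nat_lit 25) (nat_lit 1) (nat_lit 413) (nat_lit 377) (nat_lit 230)) (XT.lf (nat_lit 76) (nat_lit 226023350) (nat_lit 0) (nat_lit 794198655) (nat_lit 76) (nat_lit 226316736) (nat_lit 23) (nat_lit 3) (nat_lit 22) (nat_lit 1) (nat_lit 23) (nat_lit 1) (nat_lit 414) (nat_lit 377) (nat_lit 229))) (XT.nd (nat_lit 78) (nat_lit 76) (nat_lit 0) (XT.lf (nat_lit 0) (nat_lit 417281877) (nat_lit 0) (nat_lit 417540595) (nat_lit 152) (nat_lit 380075187) (nat_lit 20) (nat_lit 3) (nat_lit 20) (nat_lit 1) (nat_lit 22) (nat_lit 1) (nat_lit 415) (nat_lit 377) (nat_lit 228)) (XT.lf (nat_lit 76) (nat_lit 153686392) (nat_lit 0) (nat_lit 876633425) (nat_lit 76) (nat_lit 153925945) (nat_lit 20) (nat_lit 3) (nat_lit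 19) (nat_lit 1) (nat_lit 20) (nat_lit 1) (nat_lit 416) (nat_lit 377) (nat_lit 227))))))))
noncomputable def ec108 : XT := (XT.nd (nat_lit 43056) (nat_lit 0) (nat_lit 12160) (XT.nd (nat_lit 42042) (nat_lit 0) (nat_lit 15960) (XT.nd (nat_lit 41496) (nat_lit 0) (nat_lit 19304) (XT.nd (nat_lit 41262) (nat_lit 0) (nat_lit 21052) (XT.nd (nat_lit 78) (nat_lit 76) (nat_lit 0) (XT.lf (nat_lit 0) (nat_lit 455395191) (nat_lit 0) (nat_lit 455606437) (nat_lit 152) (nat_lit 243144568) (nat_lit 17) (nat_lit 3) (nat_lit 17) (nat_lit 1) (nat_lit 19) (nat_lit 1) (nat_lit 417) (nat_lit 377) (nat_lit 226)) (XT.nd (nat_lit 41106) (nat_lit 0) (nat_lit 20976) (XT.lf (nat_lit 76) (nat_lit 88163923) (nat_lit 0) (nat_lit 948556491) (nat_lit 76) (nat_lit 88359521) (nat_lit 17) (nat_lit 3) (nat_lit 16) (nat_lit 1) (nat_lit 17) (nat_lit 1) (nat_lit 418) (nat_lit 377) (nat_lit 225)) (XT.lf (nat_lit 836) (nat_lit 10008117314)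 (nat_lit 0) (nat_lit 17769389286) (nat_lit 836) (nat_lit 10008117314) (nat_lit 303) (nat_lit 1) (nat_lit 292) (nat_lit 0) (nat_lit 303) (nat_lit 0) (nat_lit 264) (nat_lit 378) (nat_lit 378)))) (XT.nd (nat_lit 78) (nat_lit 0) (nat_lit 0) (XT.lf (nat_lit 836) (nat_lit 3733334848) (nat_lit 0) (nat_lit 34886696650) (nat_lit 760) (nat_lit 34119072770) (nat_lit 304) (nat_lit 1) (nat_lit 293) (nat_lit 1) (nat_lit 303) (nat_lit 1) (nat_lit 265) (nat_lit 378) (nat_lit 377)) (XT.nd (nat_lit 78) (nat_lit 0) (nat_lit 76) (XT.lf (nat_lit 836) (nat_lit 34288525672) (nat_lit 76) (nat_lit 23363632506) (nat_lit 0) (nat_lit 12391004923) (nat_lit 304) (nat_lit 1) (nat_lit 294) (nat_lit 1) (nat_lit 293) (nat_lit 1) (nat_lit 266) (nat_lit 378) (nat_lit 376)) (XT.lf (nat_lit 836) (nat_lit 29628095137) (nat_lit 76) (nat_lit 9791536441) (nat_lit 0) (nat_lit 28062502090) (nat_lit 305) (nat_lit 1) (nat_lit 295) (nat_lit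 1) (nat_lit 294) (nat_lit 1) (nat_lit 267) (nat_lit 378) (nat_lit 375))))) (XT.nd (nat_lit 234) (nat_lit 1900) (nat_lit 0) (XT.nd (nat_lit 78) (nat_lit 0) (nat_lit 76) (XT.lf (nat_lit 836) (nat_lit 21927309295) (nat_lit 0) (nat_lit 41024959232) (nat_lit 760) (nat_lit 2097190054) (nat_lit 306) (nat_lit 1) (nat_lit 295) (nat_lit 1) (nat_lit 305) (nat_lit 1) (nat_lit 268) (nat_lit 378) (nat_lit 374)) (XT.nd (nat_lit 78) (nat_lit 0) (nat_lit 0) (XT.lf (nat_lit 836) (nat_lit 5261242874) (nat_lit 0) (nat_lit 45241414729) (nat_lit 760) (nat_lit 12230303154) (nat_lit 307) (nat_lit 1) (nat_lit 296) (nat_lit 1) (nat_lit 306) (nat_lit 1) (nat_lit 269) (nat_lit 378) (nat_lit 373)) (XT.lf (nat_lit 836) (nat_lit 10109968875) (nat_lit 76) (nat_lit 39318473566) (nat_lit 0) (nat_lit 11096158338) (nat_lit 307) (nat_lit 1) (nat_lit 297) (nat_lit 1) (nat_lit 296) (nat_lit 1) (nat_lit 270) (nat_lit 378) (nat_lit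 372)))) (XT.nd (nat_lit 156) (nat_lit 760) (nat_lit 0) (XT.nd (nat_lit 78) (nat_lit 532) (nat_lit 0) (XT.lf (nat_lit 836) (nat_lit 2076357068) (nat_lit 0) (nat_lit 29393159807) (nat_lit 760) (nat_lit 26953219566) (nat_lit 298) (nat_lit 1) (nat_lit 287) (nat_lit 1) (nat_lit 297) (nat_lit 1) (nat_lit 271) (nat_lit 378) (nat_lit 371)) (XT.lf (nat_lit 76) (nat_lit 14377128866) (nat_lit 0) (nat_lit 6230278995) (nat_lit 532) (nat_lit 35812985492) (nat_lit 281) (nat_lit 1) (nat_lit 280) (nat_lit 1) (nat_lit 287) (nat_lit 1) (nat_lit 272) (nat_lit 378) (nat_lit 370))) (XT.nd (nat_lit 78) (nat_lit 380) (nat_lit 0) (XT.lf (nat_lit 456) (nat_lit 39621557552) (nat_lit 0) (nat_lit 12897671155) (nat_lit 380) (nat_lit 1994059654) (nat_lit 281) (nat_lit 1) (nat_lit 275) (nat_lit 1) (nat_lit 280) (nat_lit 1) (nat_lit 273) (nat_lit 378) (nat_lit 369)) (XT.lf (nat_lit 456) (nat_lit 28591293235) (nat_lit 0) (nat_lit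 6011660084) (nat_lit 380) (nat_lit 18085232155) (nat_lit 276) (nat_lit 1) (nat_lit 270) (nat_lit 1) (nat_lit 275) (nat_lit 1) (nat_lit 274) (nat_lit 378) (nat_lit 368)))))) (XT.nd (nat_lit 468) (nat_lit 1824) (nat_lit 0) (XT.nd (nat_lit 234) (nat_lit 836) (nat_lit 0) (XT.nd (nat_lit 78) (nat_lit 380) (nat_lit 0) (XT.lf (nat_lit 380) (nat_lit 17397437281) (nat_lit 0) (nat_lit 110684431) (nat_lit 304) (nat_lit 33443456143) (nat_lit 271) (nat_lit 1) (nat_lit 266) (nat_lit 1) (nat_lit 270) (nat_lit 1) (nat_lit 275) (nat_lit 378) (nat_lit 367)) (XT.nd (nat_lit 78) (nat_lit 380) (nat_lit 0) (XT.lf (nat_lit 76) (nat_lit 1283500702) (nat_lit 0) (nat_lit 43285863001) (nat_lit 380) (nat_lit 4725493587) (nat_lit 267) (nat_lit 1) (nat_lit 266) (nat_lit 1) (nat_lit 271) (nat_lit 1) (nat_lit 276) (nat_lit 378) (nat_lit 366)) (XT.lf (nat_lit 76) (nat_lit 33140321042) (nat_lit 0) (nat_lit 5496676844) (nat_lit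 380) (nat_lit 9065018388) (nat_lit 262) (nat_lit 1) (nat_lit 261) (nat_lit 1) (nat_lit 266) (nat_lit 1) (nat_lit 277) (nat_lit 378) (nat_lit 365)))) (XT.nd (nat_lit 78) (nat_lit 532) (nat_lit 0) (XT.lf (nat_lit 76) (nat_lit 16580942414) (nat_lit 0) (nat_lit 16837296922) (nat_lit 380) (nat_lit 12761315757) (nat_lit 258) (nat_lit 1) (nat_lit 257) (nat_lit 1) (nat_lit 262) (nat_lit 1) (nat_lit 278) (nat_lit 378) (nat_lit 364)) (XT.nd (nat_lit 78) (nat_lit 228) (nat_lit 0) (XT.lf (nat_lit 76) (nat_lit 818398549) (nat_lit 0) (nat_lit 28151699009) (nat_lit 380) (nat_lit 15759079861) (nat_lit 254) (nat_lit 1) (nat_lit 253) (nat_lit 1) (nat_lit 258) (nat_lit 1) (nat_lit 279) (nat_lit 378) (nat_lit 363)) (XT.lf (nat_lit 304) (nat_lit 3695841727) (nat_lit 0) (nat_lit 24993208513) (nat_lit 228) (nat_lit 14646594595) (nat_lit 254) (nat_lit 1) (nat_lit 250) (nat_lit 1) (nat_lit 253) (nat_lit 1) (nat_lit 280)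 (nat_lit 378) (nat_lit 362))))) (XT.nd (nat_lit 234) (nat_lit 988) (nat_lit 0) (XT.nd (nat_lit 78) (nat_lit 456) (nat_lit 0) (XT.lf (nat_lit 76) (nat_lit 12770126829) (nat_lit 0) (nat_lit 8752724279) (nat_lit 380) (nat_lit 20476830500) (nat_lit 246) (nat_lit 1) (nat_lit 245) (nat_lit 1) (nat_lit 250) (nat_lit 1) (nat_lit 281) (nat_lit 378) (nat_lit 361)) (XT.nd (nat_lit 78) (nat_lit 228) (nat_lit 0) (XT.lf (nat_lit 304) (nat_lit 19771227946) (nat_lit 0) (nat_lit 18572513284) (nat_lit 228) (nat_lit 2377259658) (nat_lit 246) (nat_lit 1) (nat_lit 242) (nat_lit 1) (nat_lit 245) (nat_lit 1) (nat_lit 282) (nat_lit 378) (nat_lit 360)) (XT.lf (nat_lit 304) (nat_lit 6336583040) (nat_lit 0) (nat_lit 15990173401) (nat_lit 228) (nat_lit 17164703784) (nat_lit 243) (nat_lit 1) (nat_lit 239) (nat_lit 1) (nat_lit 242) (nat_lit 1) (nat_lit 283) (nat_lit 378) (nat_lit 359)))) (XT.nd (nat_lit 156) (nat_lit 456)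 (nat_lit 0) (XT.nd (nat_lit 78) (nat_lit 228) (nat_lit 0) (XT.lf (nat_lit 76) (nat_lit 7222173543) (nat_lit 0) (nat_lit 6612527500) (nat_lit 304) (nat_lit 24478283658) (nat_lit 236) (nat_lit 1) (nat_lit 235) (nat_lit 1) (nat_lit 239) (nat_lit 1) (nat_lit 284) (nat_lit 378) (nat_lit 358)) (XT.lf (nat_lit 304) (nat_lit 17971430956) (nat_lit 0) (nat_lit 11957524188) (nat_lit 228) (nat_lit 7248690477) (nat_lit 236) (nat_lit 1) (nat_lit 232) (nat_lit 1) (nat_lit 235) (nat_lit 1) (nat_lit 285) (nat_lit 378) (nat_lit 357))) (XT.nd (nat_lit 78) (nat_lit 304) (nat_lit 0) (XT.lf (nat_lit 228) (nat_lit 4455144270) (nat_lit 0) (nat_lit 10432067670) (nat_lit 152) (nat_lit 21200897347) (nat_lit 233) (nat_lit 1) (nat_lit 230) (nat_lit 1) (nat_lit 232) (nat_lit 1) (nat_lit 286) (nat_lit 378) (nat_lit 356)) (XT.lf (nat_lit 76) (nat_lit 754729902) (nat_lit 0) (nat_lit 8445591450) (nat_lit 304) (nat_lit 25840484900)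 (nat_lit 227) (nat_lit 1) (nat_lit 226) (nat_lit 1) (nat_lit 230) (nat_lit 1) (nat_lit 287) (nat_lit 378) (nat_lit 355))))))) (XT.nd (nat_lit 1014) (nat_lit 1748) (nat_lit 0) (XT.nd (nat_lit 468) (nat_lit 988) (nat_lit 0) (XT.nd (nat_lit 234) (nat_lit 532) (nat_lit 0) (XT.nd (nat_lit 78) (nat_lit 380) (nat_lit 0) (XT.lf (nat_lit 228) (nat_lit 12945831787) (nat_lit 0) (nat_lit 8090034246) (nat_lit 152) (nat_lit 12990883412) (nat_lit 227) (nat_lit 1) (nat_lit 224) (nat_lit 1) (nat_lit 226) (nat_lit 1) (nat_lit 288) (nat_lit 378) (nat_lit 354)) (XT.nd (nat_lit 78) (nat_lit 152) (nat_lit 0) (XT.lf (nat_lit 76) (nat_lit 7023867318) (nat_lit 0) (nat_lit 324436835) (nat_lit 228) (nat_lit 25708638431) (nat_lit 222) (nat_lit 1) (nat_lit 221) (nat_lit 1) (nat_lit 224) (nat_lit 1) (nat_lit 289) (nat_lit 378) (nat_lit 353)) (XT.lf (nat_lit 228) (nat_lit 19201896907) (nat_lit 0) (nat_lit 6653887820) (nat_lit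 152) (nat_lit 6259561986) (nat_lit 222) (nat_lit 1) (nat_lit 219) (nat_lit 1) (nat_lit 221) (nat_lit 1) (nat_lit 290) (nat_lit 378) (nat_lit 352)))) (XT.nd (nat_lit 78) (nat_lit 380) (nat_lit 0) (XT.lf (nat_lit 228) (nat_lit 5964878653) (nat_lit 0) (nat_lit 6185524527) (nat_lit 152) (nat_lit 19059348993) (nat_lit 220) (nat_lit 1) (nat_lit 217) (nat_lit 1) (nat_lit 219) (nat_lit 1) (nat_lit 291) (nat_lit 378) (nat_lit 351)) (XT.nd (nat_lit 78) (nat_lit 152) (nat_lit 0) (XT.lf (nat_lit 228) (nat_lit 23678376098) (nat_lit 0) (nat_lit 5909766637) (nat_lit 152) (nat_lit 749722461) (nat_lit 217) (nat_lit 1) (nat_lit 214) (nat_lit 1) (nat_lit 216) (nat_lit 1) (nat_lit 292) (nat_lit 378) (nat_lit 350)) (XT.lf (nat_lit 228) (nat_lit 10597343741) (nat_lit 0) (nat_lit 5641834680) (nat_lit 152) (nat_lit 13251026784) (nat_lit 215) (nat_lit 1) (nat_lit 212) (nat_lit 1) (nat_lit 214) (nat_lit 1) (nat_lit 293)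 (nat_lit 378) (nat_lit 349))))) (XT.nd (nat_lit 234) (nat_lit 608) (nat_lit 0) (XT.nd (nat_lit 78) (nat_lit 228) (nat_lit 0) (XT.lf (nat_lit 76) (nat_lit 3629999383) (nat_lit 0) (nat_lit 1995211233) (nat_lit 152) (nat_lit 23052493344) (nat_lit 211) (nat_lit 1) (nat_lit 210) (nat_lit 1) (nat_lit 212) (nat_lit 1) (nat_lit 294) (nat_lit 378) (nat_lit 348)) (XT.nd (nat_lit 78) (nat_lit 76) (nat_lit 0) (XT.lf (nat_lit 228) (nat_lit 13904324449) (nat_lit 0) (nat_lit 5565645898) (nat_lit 152) (nat_lit 8415735065) (nat_lit 211) (nat_lit 1) (nat_lit 208) (nat_lit 1) (nat_lit 210) (nat_lit 1) (nat_lit 295) (nat_lit 378) (nat_lit 347)) (XT.lf (nat_lit 152) (nat_lit 1497298165) (nat_lit 0) (nat_lit 5702345353) (nat_lit 76) (nat_lit 19925330429) (nat_lit 209) (nat_lit 1) (nat_lit 207) (nat_lit 1) (nat_lit 208) (nat_lit 1) (nat_lit 296) (nat_lit 378) (nat_lit 346)))) (XT.nd (nat_lit 156) (nat_lit 304) (nat_lit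 0) (XT.nd (nat_lit 78) (nat_lit 76) (nat_lit 0) (XT.lf (nat_lit 228) (nat_lit 16162780898) (nat_lit 0) (nat_lit 5831977606) (nat_lit 152) (nat_lit 4390459694) (nat_lit 207) (nat_lit 1) (nat_lit 204) (nat_lit 1) (nat_lit 206) (nat_lit 1) (nat_lit 297) (nat_lit 378) (nat_lit 345)) (XT.lf (nat_lit 152) (nat_lit 4065058579) (nat_lit 0) (nat_lit 6050041126) (nat_lit 76) (nat_lit 15555293998) (nat_lit 205) (nat_lit 1) (nat_lit 203) (nat_lit 1) (nat_lit 204) (nat_lit 1) (nat_lit 298) (nat_lit 378) (nat_lit 344))) (XT.nd (nat_lit 78) (nat_lit 76) (nat_lit 0) (XT.lf (nat_lit 228) (nat_lit 17596638884) (nat_lit 0) (nat_lit 6341836399) (nat_lit 152) (nat_lit 1040749642) (nat_lit 203) (nat_lit 1) (nat_lit 200) (nat_lit 1) (nat_lit 202) (nat_lit 1) (nat_lit 299) (nat_lit 378) (nat_lit 343)) (XT.lf (nat_lit 152) (nat_lit 5850176990) (nat_lit 0) (nat_lit 6611440651) (nat_lit 76) (nat_lit 11844966895) (nat_lit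 201) (nat_lit 1) (nat_lit 199) (nat_lit 1) (nat_lit 200) (nat_lit 1) (nat_lit 300) (nat_lit 378) (nat_lit 342)))))) (XT.nd (nat_lit 546) (nat_lit 760) (nat_lit 0) (XT.nd (nat_lit 234) (nat_lit 456) (nat_lit 0) (XT.nd (nat_lit 78) (nat_lit 304) (nat_lit 0) (XT.lf (nat_lit 76) (nat_lit 1688593894) (nat_lit 0) (nat_lit 5300046122) (nat_lit 228) (nat_lit 16669468782) (nat_lit 197) (nat_lit 1) (nat_lit 196) (nat_lit 1) (nat_lit 199) (nat_lit 1) (nat_lit 301) (nat_lit 378) (nat_lit 341)) (XT.nd (nat_lit 78) (nat_lit 228) (nat_lit 0) (XT.lf (nat_lit 152) (nat_lit 7020740207) (nat_lit 0) (nat_lit 7315278520) (nat_lit 76) (nat_lit 8689718830) (nat_lit 197) (nat_lit 1) (nat_lit 195) (nat_lit 1) (nat_lit 196) (nat_lit 1) (nat_lit 302) (nat_lit 378) (nat_lit 340)) (XT.lf (nat_lit 76) (nat_lit 3927040650) (nat_lit 0) (nat_lit 3803604416) (nat_lit 228) (nat_lit 14684944323) (nat_lit 193) (nat_lit 1) (nat_lit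 192) (nat_lit 1) (nat_lit 195) (nat_lit 1) (nat_lit 303) (nat_lit 378) (nat_lit 339)))) (XT.nd (nat_lit 156) (nat_lit 228) (nat_lit 0) (XT.nd (nat_lit 78) (nat_lit 152) (nat_lit 0) (XT.lf (nat_lit 152) (nat_lit 7712298870) (nat_lit 0) (nat_lit 8105924035) (nat_lit 76) (nat_lit 6002807371) (nat_lit 193) (nat_lit 1) (nat_lit 191) (nat_lit 1) (nat_lit 192) (nat_lit 1) (nat_lit 304) (nat_lit 378) (nat_lit 338)) (XT.lf (nat_lit 76) (nat_lit 5781511927) (nat_lit 0) (nat_lit 2754786985) (nat_lit 152) (nat_lit 12709807798) (nat_lit 190) (nat_lit 1) (nat_lit 189) (nat_lit 1) (nat_lit 191) (nat_lit 1) (nat_lit 305) (nat_lit 378) (nat_lit 337))) (XT.nd (nat_lit 78) (nat_lit 152) (nat_lit 0) (XT.lf (nat_lit 152) (nat_lit 8033947056) (nat_lit 0) (nat_lit 8940334078) (nat_lit 76) (nat_lit 3712187115) (nat_lit 190) (nat_lit 1) (nat_lit 188) (nat_lit 1) (nat_lit 189) (nat_lit 1) (nat_lit 306) (nat_lit 378) (nat_lit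 336)) (XT.lf (nat_lit 76) (nat_lit 7313075033) (nat_lit 0) (nat_lit 2055107011) (nat_lit 152) (nat_lit 10775861639) (nat_lit 187) (nat_lit 1) (nat_lit 186) (nat_lit 1) (nat_lit 188) (nat_lit 1) (nat_lit 307) (nat_lit 378) (nat_lit 335))))) (XT.nd (nat_lit 234) (nat_lit 456) (nat_lit 0) (XT.nd (nat_lit 78) (nat_lit 228) (nat_lit 0) (XT.lf (nat_lit 152) (nat_lit 8073279549) (nat_lit 0) (nat_lit 9785576669) (nat_lit 76) (nat_lit 1757898405) (nat_lit 187) (nat_lit 1) (nat_lit 185) (nat_lit 1) (nat_lit 186) (nat_lit 1) (nat_lit 308) (nat_lit 378) (nat_lit 334)) (XT.nd (nat_lit 78) (nat_lit 76) (nat_lit 0) (XT.lf (nat_lit 76) (nat_lit 8572483716) (nat_lit 0) (nat_lit 1625371936) (nat_lit 152) (nat_lit 8906565339) (nat_lit 184) (nat_lit 1) (nat_lit 183) (nat_lit 1) (nat_lit 185) (nat_lit 1) (nat_lit 309) (nat_lit 378) (nat_lit 333)) (XT.lf (nat_lit 152) (nat_lit 7900433122) (nat_lit 0) (nat_lit 10616819797)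 (nat_lit 76) (nat_lit 89929610) (nat_lit 184) (nat_lit 1) (nat_lit 182) (nat_lit 1) (nat_lit 183) (nat_lit 1) (nat_lit 310) (nat_lit 378) (nat_lit 332)))) (XT.nd (nat_lit 156) (nat_lit 228) (nat_lit 0) (XT.nd (nat_lit 78) (nat_lit 76) (nat_lit 0) (XT.lf (nat_lit 76) (nat_lit 9602003764) (nat_lit 0) (nat_lit 1402060619) (nat_lit 152) (nat_lit 7118735596) (nat_lit 181) (nat_lit 1) (nat_lit 180) (nat_lit 1) (nat_lit 182) (nat_lit 1) (nat_lit 311) (nat_lit 378) (nat_lit 331)) (XT.lf (nat_lit 0) (nat_lit 1290852168) (nat_lit 0) (nat_lit 10102986089) (nat_lit 152) (nat_lit 6258666913) (nat_lit 179) (nat_lit 3) (nat_lit 179) (nat_lit 1) (nat_lit 181) (nat_lit 1) (nat_lit 312) (nat_lit 378) (nat_lit 330))) (XT.nd (nat_lit 78) (nat_lit 76) (nat_lit 0) (XT.lf (nat_lit 76) (nat_lit 10436908146) (nat_lit 0) (nat_lit 1334370509) (nat_lit 152) (nat_lit 5423923716) (nat_lit 178) (nat_lit 1) (nat_lit 177) (nat_lit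 1) (nat_lit 179) (nat_lit 1) (nat_lit 313) (nat_lit 378) (nat_lit 329)) (XT.lf (nat_lit 0) (nat_lit 2466005197) (nat_lit 0) (nat_lit 9661228531) (nat_lit 152) (nat_lit 4622844849) (nat_lit 176) (nat_lit 3) (nat_lit 176) (nat_lit 1) (nat_lit 178) (nat_lit 1) (nat_lit 314) (nat_lit 378) (nat_lit 328))))))))
noncomputable def ec109 : XT := (XT.nd (nat_lit 2106) (nat_lit 3268) (nat_lit 0) (XT.nd (nat_lit 1014) (nat_lit 1596) (nat_lit 0) (XT.nd (nat_lit 468) (nat_lit 912) (nat_lit 0) (XT.nd (nat_lit 234) (nat_lit 304) (nat_lit 0) (XT.nd (nat_lit 78) (nat_lit 228) (nat_lit 0) (XT.lf (nat_lit 76) (nat_lit 11106702045) (nat_lit 0) (nat_lit 1381811559) (nat_lit 152) (nat_lit 3829530131) (nat_lit 175) (nat_lit 1) (nat_lit 174) (nat_lit 1) (nat_lit 176) (nat_lit 1) (nat_lit 315) (nat_lit 378) (nat_lit 327)) (XT.nd (nat_lit 78) (nat_lit 152) (nat_lit 0) (XT.lf (nat_lit 0) (nat_lit 3466928867) (nat_lit 0)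 (nat_lit 9341923425) (nat_lit 152) (nat_lit 3087685871) (nat_lit 173) (nat_lit 3) (nat_lit 173) (nat_lit 1) (nat_lit 175) (nat_lit 1) (nat_lit 316) (nat_lit 378) (nat_lit 326)) (XT.lf (nat_lit 76) (nat_lit 11636127062) (nat_lit 0) (nat_lit 1512246269) (nat_lit 152) (nat_lit 2339704922) (nat_lit 172) (nat_lit 1) (nat_lit 171) (nat_lit 1) (nat_lit 173) (nat_lit 1) (nat_lit 317) (nat_lit 378) (nat_lit 325)))) (XT.nd (nat_lit 78) (nat_lit 228) (nat_lit 0) (XT.lf (nat_lit 0) (nat_lit 4317669337) (nat_lit 0) (nat_lit 9114679720) (nat_lit 152) (nat_lit 1656419482) (nat_lit 170) (nat_lit 3) (nat_lit 170) (nat_lit 1) (nat_lit 172) (nat_lit 1) (nat_lit 318) (nat_lit 378) (nat_lit 324)) (XT.nd (nat_lit 78) (nat_lit 76) (nat_lit 0) (XT.lf (nat_lit 76) (nat_lit 12045984875) (nat_lit 0) (nat_lit 1700293708) (nat_lit 152) (nat_lit 956074179) (nat_lit 169) (nat_lit 1) (nat_lit 168) (nat_lit 1) (nat_lit 170)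 (nat_lit 1) (nat_lit 319) (nat_lit 378) (nat_lit 323)) (XT.lf (nat_lit 0) (nat_lit 5038563918) (nat_lit 0) (nat_lit 8955386036) (nat_lit 152) (nat_lit 329980903) (nat_lit 167) (nat_lit 3) (nat_lit 167) (nat_lit 1) (nat_lit 169) (nat_lit 1) (nat_lit 320) (nat_lit 378) (nat_lit 322))))) (XT.nd (nat_lit 234) (nat_lit 456) (nat_lit 0) (XT.nd (nat_lit 78) (nat_lit 228) (nat_lit 0) (XT.lf (nat_lit 152) (nat_lit 12026690209) (nat_lit 0) (nat_lit 332311328) (nat_lit 76) (nat_lit 1598907439) (nat_lit 166) (nat_lit 1) (nat_lit 164) (nat_lit 1) (nat_lit 165) (nat_lit 1) (nat_lit 321) (nat_lit 378) (nat_lit 321)) (XT.nd (nat_lit 78) (nat_lit 152) (nat_lit 0) (XT.lf (nat_lit 76) (nat_lit 4739305870) (nat_lit 0) (nat_lit 921958744) (nat_lit 76) (nat_lit 7937442683) (nat_lit 164) (nat_lit 3) (nat_lit 163) (nat_lit 1) (nat_lit 164) (nat_lit 1) (nat_lit 322) (nat_lit 378) (nat_lit 320)) (XT.lf (nat_lit 152) (nat_lit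 11053790650) (nat_lit 0) (nat_lit 1544768633) (nat_lit 76) (nat_lit 653283280) (nat_lit 163) (nat_lit 1) (nat_lit 161) (nat_lit 1) (nat_lit 162) (nat_lit 1) (nat_lit 323) (nat_lit 378) (nat_lit 319)))) (XT.nd (nat_lit 156) (nat_lit 228) (nat_lit 0) (XT.nd (nat_lit 78) (nat_lit 152) (nat_lit 0) (XT.lf (nat_lit 76) (nat_lit 4110173961) (nat_lit 0) (nat_lit 2079577536) (nat_lit 76) (nat_lit 6721494763) (nat_lit 161) (nat_lit 3) (nat_lit 160) (nat_lit 1) (nat_lit 161) (nat_lit 1) (nat_lit 324) (nat_lit 378) (nat_lit 318)) (XT.lf (nat_lit 0) (nat_lit 173483612) (nat_lit 0) (nat_lit 2476235642) (nat_lit 152) (nat_lit 9932781646) (nat_lit 158) (nat_lit 3) (nat_lit 158) (nat_lit 1) (nat_lit 160) (nat_lit 1) (nat_lit 325) (nat_lit 378) (nat_lit 317))) (XT.nd (nat_lit 78) (nat_lit 152) (nat_lit 0) (XT.lf (nat_lit 76) (nat_lit 3496121029) (nat_lit 0) (nat_lit 3135189681) (nat_lit 76) (nat_lit 5628298835)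 (nat_lit 158) (nat_lit 3) (nat_lit 157) (nat_lit 1) (nat_lit 158) (nat_lit 1) (nat_lit 326) (nat_lit 378) (nat_lit 316)) (XT.lf (nat_lit 0) (nat_lit 882299608) (nat_lit 0) (nat_lit 2762526949) (nat_lit 152) (nat_lit 8302653777) (nat_lit 155) (nat_lit 3) (nat_lit 155) (nat_lit 1) (nat_lit 157) (nat_lit 1) (nat_lit 327) (nat_lit 378) (nat_lit 315)))))) (XT.nd (nat_lit 546) (nat_lit 836) (nat_lit 0) (XT.nd (nat_lit 234) (nat_lit 456) (nat_lit 0) (XT.nd (nat_lit 78) (nat_lit 228) (nat_lit 0) (XT.lf (nat_lit 76) (nat_lit 2904029962) (nat_lit 0) (nat_lit 4092745381) (nat_lit 76) (nat_lit 4644981204) (nat_lit 155) (nat_lit 3) (nat_lit 154) (nat_lit 1) (nat_lit 155) (nat_lit 1) (nat_lit 328) (nat_lit 378) (nat_lit 314)) (XT.nd (nat_lit 78) (nat_lit 76) (nat_lit 0) (XT.lf (nat_lit 0) (nat_lit 1504875766) (nat_lit 0) (nat_lit 3040106138) (nat_lit 152) (nat_lit 6800341274) (nat_lit 152) (nat_lit 3) (nat_lit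 152) (nat_lit 1) (nat_lit 154) (nat_lit 1) (nat_lit 329) (nat_lit 378) (nat_lit 313)) (XT.lf (nat_lit 76) (nat_lit 2338794383) (nat_lit 0) (nat_lit 4956694169) (nat_lit 76) (nat_lit 3760303987) (nat_lit 152) (nat_lit 3) (nat_lit 151) (nat_lit 1) (nat_lit 152) (nat_lit 1) (nat_lit 330) (nat_lit 378) (nat_lit 312)))) (XT.nd (nat_lit 156) (nat_lit 228) (nat_lit 0) (XT.nd (nat_lit 78) (nat_lit 76) (nat_lit 0) (XT.lf (nat_lit 0) (nat_lit 2050616636) (nat_lit 0) (nat_lit 3304152442) (nat_lit 152) (nat_lit 5419430534) (nat_lit 149) (nat_lit 3) (nat_lit 149) (nat_lit 1) (nat_lit 151) (nat_lit 1) (nat_lit 331) (nat_lit 378) (nat_lit 311)) (XT.lf (nat_lit 76) (nat_lit 1803732861) (nat_lit 0) (nat_lit 5731806454) (nat_lit 76) (nat_lit 2964414163) (nat_lit 149) (nat_lit 3) (nat_lit 148) (nat_lit 1) (nat_lit 149) (nat_lit 1) (nat_lit 332) (nat_lit 378) (nat_lit 310))) (XT.nd (nat_lit 78) (nat_lit 76) (nat_lit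 0) (XT.lf (nat_lit 0) (nat_lit 2527744204) (nat_lit 0) (nat_lit 3551272689) (nat_lit 152) (nat_lit 4153386796) (nat_lit 146) (nat_lit 3) (nat_lit 146) (nat_lit 1) (nat_lit 148) (nat_lit 1) (nat_lit 333) (nat_lit 378) (nat_lit 309)) (XT.lf (nat_lit 76) (nat_lit 1300923975) (nat_lit 0) (nat_lit 6423033515) (nat_lit 76) (nat_lit 2248635535) (nat_lit 146) (nat_lit 3) (nat_lit 145) (nat_lit 1) (nat_lit 146) (nat_lit 1) (nat_lit 334) (nat_lit 378) (nat_lit 308))))) (XT.nd (nat_lit 234) (nat_lit 456) (nat_lit 0) (XT.nd (nat_lit 78) (nat_lit 228) (nat_lit 0) (XT.lf (nat_lit 0) (nat_lit 2943476011) (nat_lit 0) (nat_lit 3779200491) (nat_lit 152) (nat_lit 2995664840) (nat_lit 143) (nat_lit 3) (nat_lit 143) (nat_lit 1) (nat_lit 145) (nat_lit 1) (nat_lit 335) (nat_lit 378) (nat_lit 307)) (XT.nd (nat_lit 78) (nat_lit 152) (nat_lit 0) (XT.lf (nat_lit 76) (nat_lit 831476945) (nat_lit 0) (nat_lit 7035398515)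 (nat_lit 76) (nat_lit 1605295908) (nat_lit 143) (nat_lit 3) (nat_lit 142) (nat_lit 1) (nat_lit 143) (nat_lit 1) (nat_lit 336) (nat_lit 378) (nat_lit 306)) (XT.lf (nat_lit 0) (nat_lit 3304173158) (nat_lit 0) (nat_lit 3986553195) (nat_lit 152) (nat_lit 1939793696) (nat_lit 140) (nat_lit 3) (nat_lit 140) (nat_lit 1) (nat_lit 142) (nat_lit 1) (nat_lit 337) (nat_lit 378) (nat_lit 305)))) (XT.nd (nat_lit 156) (nat_lit 228) (nat_lit 0) (XT.nd (nat_lit 78) (nat_lit 152) (nat_lit 0) (XT.lf (nat_lit 76) (nat_lit 395749845) (nat_lit 0) (nat_lit 7573912529) (nat_lit 76) (nat_lit 1027583214) (nat_lit 140) (nat_lit 3) (nat_lit 139) (nat_lit 1) (nat_lit 140) (nat_lit 1) (nat_lit 338) (nat_lit 378) (nat_lit 304)) (XT.lf (nat_lit 0) (nat_lit 3615463551) (nat_lit 0) (nat_lit 4172635834) (nat_lit 152) (nat_lit 979440491) (nat_lit 137) (nat_lit 3) (nat_lit 137) (nat_lit 1) (nat_lit 139) (nat_lit 1) (nat_lit 339)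 (nat_lit 378) (nat_lit 303))) (XT.nd (nat_lit 78) (nat_lit 76) (nat_lit 0) (XT.lf (nat_lit 76) (nat_lit 8037136921) (nat_lit 0) (nat_lit 6267594) (nat_lit 152) (nat_lit 503051693) (nat_lit 136) (nat_lit 1) (nat_lit 135) (nat_lit 1) (nat_lit 137) (nat_lit 1) (nat_lit 340) (nat_lit 378) (nat_lit 302)) (XT.lf (nat_lit 0) (nat_lit 3882344790) (nat_lit 0) (nat_lit 4337283293) (nat_lit 152) (nat_lit 108457586) (nat_lit 134) (nat_lit 3) (nat_lit 134) (nat_lit 1) (nat_lit 136) (nat_lit 1) (nat_lit 341) (nat_lit 378) (nat_lit 301))))))) (XT.nd (nat_lit 1014) (nat_lit 1672) (nat_lit 0) (XT.nd (nat_lit 468) (nat_lit 836) (nat_lit 0) (XT.nd (nat_lit 234) (nat_lit 304) (nat_lit 0) (XT.nd (nat_lit 78) (nat_lit 228) (nat_lit 0) (XT.lf (nat_lit 152) (nat_lit 7748934928) (nat_lit 0) (nat_lit 335323517) (nat_lit 76) (nat_lit 33731541) (nat_lit 133) (nat_lit 1) (nat_lit 131) (nat_lit 1) (nat_lit 132) (nat_lit 1)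 (nat_lit 342) (nat_lit 378) (nat_lit 300)) (XT.nd (nat_lit 78) (nat_lit 152) (nat_lit 0) (XT.lf (nat_lit 76) (nat_lit 3418686047) (nat_lit 0) (nat_lit 701537191) (nat_lit 76) (nat_lit 3790149322) (nat_lit 131) (nat_lit 3) (nat_lit 130) (nat_lit 1) (nat_lit 131) (nat_lit 1) (nat_lit 343) (nat_lit 378) (nat_lit 299)) (XT.lf (nat_lit 0) (nat_lit 386464161) (nat_lit 0) (nat_lit 714033187) (nat_lit 152) (nat_lit 6610068703) (nat_lit 128) (nat_lit 3) (nat_lit 128) (nat_lit 1) (nat_lit 130) (nat_lit 1) (nat_lit 344) (nat_lit 378) (nat_lit 298)))) (XT.nd (nat_lit 78) (nat_lit 228) (nat_lit 0) (XT.lf (nat_lit 76) (nat_lit 2887830845) (nat_lit 0) (nat_lit 1434791784) (nat_lit 76) (nat_lit 3191135499) (nat_lit 128) (nat_lit 3) (nat_lit 127) (nat_lit 1) (nat_lit 128) (nat_lit 1) (nat_lit 345) (nat_lit 378) (nat_lit 297)) (XT.nd (nat_lit 78) (nat_lit 76) (nat_lit 0) (XT.lf (nat_lit 0) (nat_lit 760446594)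 (nat_lit 0) (nat_lit 1027911015) (nat_lit 152) (nat_lit 5535419356) (nat_lit 125) (nat_lit 3) (nat_lit 125) (nat_lit 1) (nat_lit 127) (nat_lit 1) (nat_lit 346) (nat_lit 378) (nat_lit 296)) (XT.lf (nat_lit 76) (nat_lit 2398122787) (nat_lit 0) (nat_lit 2093328895) (nat_lit 76) (nat_lit 2645775028) (nat_lit 125) (nat_lit 3) (nat_lit 124) (nat_lit 1) (nat_lit 125) (nat_lit 1) (nat_lit 347) (nat_lit 378) (nat_lit 295))))) (XT.nd (nat_lit 234) (nat_lit 456) (nat_lit 0) (XT.nd (nat_lit 78) (nat_lit 228) (nat_lit 0) (XT.lf (nat_lit 0) (nat_lit 1093245859) (nat_lit 0) (nat_lit 1311634079) (nat_lit 152) (nat_lit 4551695193) (nat_lit 122) (nat_lit 3) (nat_lit 122) (nat_lit 1) (nat_lit 124) (nat_lit 1) (nat_lit 348) (nat_lit 378) (nat_lit 294)) (XT.nd (nat_lit 78) (nat_lit 152) (nat_lit 0) (XT.lf (nat_lit 76) (nat_lit 1947521320) (nat_lit 0) (nat_lit 2682483240) (nat_lit 76) (nat_lit 2149732635) (nat_lit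 122) (nat_lit 3) (nat_lit 121) (nat_lit 1) (nat_lit 122) (nat_lit 1) (nat_lit 349) (nat_lit 378) (nat_lit 293)) (XT.lf (nat_lit 0) (nat_lit 1388448204) (nat_lit 0) (nat_lit 1566765060) (nat_lit 152) (nat_lit 3652733300) (nat_lit 119) (nat_lit 3) (nat_lit 119) (nat_lit 1) (nat_lit 121) (nat_lit 1) (nat_lit 350) (nat_lit 378) (nat_lit 292)))) (XT.nd (nat_lit 156) (nat_lit 228) (nat_lit 0) (XT.nd (nat_lit 78) (nat_lit 152) (nat_lit 0) (XT.lf (nat_lit 76) (nat_lit 1533942891) (nat_lit 0) (nat_lit 3207312235) (nat_lit 76) (nat_lit 1699051091) (nat_lit 119) (nat_lit 3) (nat_lit 118) (nat_lit 1) (nat_lit 119) (nat_lit 1) (nat_lit 351) (nat_lit 378) (nat_lit 291)) (XT.lf (nat_lit 0) (nat_lit 1649316843) (nat_lit 0) (nat_lit 1794914903) (nat_lit 152) (nat_lit 2832701435) (nat_lit 116) (nat_lit 3) (nat_lit 116) (nat_lit 1) (nat_lit 118) (nat_lit 1) (nat_lit 352) (nat_lit 378) (nat_lit 290))) (XT.nd (nat_lit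 78) (nat_lit 152) (nat_lit 0) (XT.lf (nat_lit 76) (nat_lit 1155297207) (nat_lit 0) (nat_lit 3672596885) (nat_lit 76) (nat_lit 1290110226) (nat_lit 116) (nat_lit 3) (nat_lit 115) (nat_lit 1) (nat_lit 116) (nat_lit 1) (nat_lit 353) (nat_lit 378) (nat_lit 289)) (XT.lf (nat_lit 0) (nat_lit 1878827278) (nat_lit 0) (nat_lit 1997710011) (nat_lit 152) (nat_lit 2086091845) (nat_lit 113) (nat_lit 3) (nat_lit 113) (nat_lit 1) (nat_lit 115) (nat_lit 1) (nat_lit 354) (nat_lit 378) (nat_lit 288)))))) (XT.nd (nat_lit 546) (nat_lit 760) (nat_lit 0) (XT.nd (nat_lit 234) (nat_lit 608) (nat_lit 0) (XT.nd (nat_lit 78) (nat_lit 228) (nat_lit 0) (XT.lf (nat_lit 76) (nat_lit 809515026) (nat_lit 0) (nat_lit 4082845801) (nat_lit 76) (nat_lit 919591630) (nat_lit 113) (nat_lit 3) (nat_lit 112) (nat_lit 1) (nat_lit 113) (nat_lit 1) (nat_lit 355) (nat_lit 378) (nat_lit 287)) (XT.nd (nat_lit 78) (nat_lit 76) (nat_lit 0) (XT.lf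 (nat_lit 0) (nat_lit 2079697728) (nat_lit 0) (nat_lit 2176767044) (nat_lit 152) (nat_lit 1407712721) (nat_lit 110) (nat_lit 3) (nat_lit 110) (nat_lit 1) (nat_lit 112) (nat_lit 1) (nat_lit 356) (nat_lit 378) (nat_lit 286)) (XT.lf (nat_lit 76) (nat_lit 494569146) (nat_lit 0) (nat_lit 4442301555) (nat_lit 76) (nat_lit 584448142) (nat_lit 110) (nat_lit 3) (nat_lit 109) (nat_lit 1) (nat_lit 110) (nat_lit 1) (nat_lit 357) (nat_lit 378) (nat_lit 285)))) (XT.nd (nat_lit 156) (nat_lit 380) (nat_lit 0) (XT.nd (nat_lit 78) (nat_lit 76) (nat_lit 0) (XT.lf (nat_lit 0) (nat_lit 2254415442) (nat_lit 0) (nat_lit 2333673816) (nat_lit 152) (nat_lit 792677949) (nat_lit 107) (nat_lit 3) (nat_lit 107) (nat_lit 1) (nat_lit 109) (nat_lit 1) (nat_lit 358) (nat_lit 378) (nat_lit 284)) (XT.lf (nat_lit 76) (nat_lit 208489945) (nat_lit 0) (nat_lit 4754948770) (nat_lit 76) (nat_lit 281877329) (nat_lit 107) (nat_lit 3) (nat_lit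 106) (nat_lit 1) (nat_lit 107) (nat_lit 1) (nat_lit 359) (nat_lit 378) (nat_lit 283))) (XT.nd (nat_lit 78) (nat_lit 228) (nat_lit 0) (XT.lf (nat_lit 0) (nat_lit 2405259579) (nat_lit 0) (nat_lit 2469975085) (nat_lit 152) (nat_lit 236395671) (nat_lit 104) (nat_lit 3) (nat_lit 104) (nat_lit 1) (nat_lit 106) (nat_lit 1) (nat_lit 360) (nat_lit 378) (nat_lit 282)) (XT.lf (nat_lit 152) (nat_lit 4933469155) (nat_lit 0) (nat_lit 41874988) (nat_lit 76) (nat_lit 7781963) (nat_lit 103) (nat_lit 1) (nat_lit 101) (nat_lit 1) (nat_lit 102) (nat_lit 1) (nat_lit 361) (nat_lit 378) (nat_lit 281))))) (XT.nd (nat_lit 234) (nat_lit 456) (nat_lit 0) (XT.nd (nat_lit 78) (nat_lit 228) (nat_lit 0) (XT.lf (nat_lit 76) (nat_lit 2264381810) (nat_lit 0) (nat_lit 274220728) (nat_lit 76) (nat_lit 2317222872) (nat_lit 101) (nat_lit 3) (nat_lit 100) (nat_lit 1) (nat_lit 101) (nat_lit 1) (nat_lit 362) (nat_lit 378) (nat_lit 280))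 (XT.nd (nat_lit 78) (nat_lit 76) (nat_lit 0) (XT.lf (nat_lit 0) (nat_lit 241097829) (nat_lit 0) (nat_lit 287694886) (nat_lit 152) (nat_lit 4204633858) (nat_lit 98) (nat_lit 3) (nat_lit 98) (nat_lit 1) (nat_lit 100) (nat_lit 1) (nat_lit 363) (nat_lit 378) (nat_lit 279)) (XT.lf (nat_lit 76) (nat_lit 1914498556) (nat_lit 0) (nat_lit 740584764) (nat_lit 76) (nat_lit 1957643978) (nat_lit 98) (nat_lit 3) (nat_lit 97) (nat_lit 1) (nat_lit 98) (nat_lit 1) (nat_lit 364) (nat_lit 378) (nat_lit 278)))) (XT.nd (nat_lit 156) (nat_lit 228) (nat_lit 0) (XT.nd (nat_lit 78) (nat_lit 76) (nat_lit 0) (XT.lf (nat_lit 0) (nat_lit 463960481) (nat_lit 0) (nat_lit 502007591) (nat_lit 152) (nat_lit 3530340060) (nat_lit 95) (nat_lit 3) (nat_lit 95) (nat_lit 1) (nat_lit 97) (nat_lit 1) (nat_lit 365) (nat_lit 378) (nat_lit 277)) (XT.lf (nat_lit 76) (nat_lit 1593926129) (nat_lit 0) (nat_lit 1158789320) (nat_lit 76) (nat_lit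 1629154935) (nat_lit 95) (nat_lit 3) (nat_lit 94) (nat_lit 1) (nat_lit 95) (nat_lit 1) (nat_lit 366) (nat_lit 378) (nat_lit 276))) (XT.nd (nat_lit 78) (nat_lit 76) (nat_lit 0) (XT.lf (nat_lit 0) (nat_lit 663105208) (nat_lit 0) (nat_lit 694171174) (nat_lit 152) (nat_lit 2913859935) (nat_lit 92) (nat_lit 3) (nat_lit 92) (nat_lit 1) (nat_lit 94) (nat_lit 1) (nat_lit 367) (nat_lit 378) (nat_lit 275)) (XT.lf (nat_lit 76) (nat_lit 1300687893) (nat_lit 0) (nat_lit 1532492013) (nat_lit 76) (nat_lit 1329452676) (nat_lit 92) (nat_lit 3) (nat_lit 91) (nat_lit 1) (nat_lit 92) (nat_lit 1) (nat_lit 368) (nat_lit 378) (nat_lit 274))))))))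
noncomputable def ec110 : XT := (XT.nd (nat_lit 2028) (nat_lit 2736) (nat_lit 0) (XT.nd (nat_lit 1014) (nat_lit 1520) (nat_lit 0) (XT.nd (nat_lit 468) (nat_lit 912) (nat_lit 0) (XT.nd (nat_lit 234) (nat_lit 304) (nat_lit 0) (XT.nd (nat_lit 78) (nat_lit 228) (nat_lit 0) (XT.lf (nat_lit 0) (nat_lit 840428420) (nat_lit 0) (nat_lit 865794191) (nat_lit 152) (nat_lit 2351081279) (nat_lit 89) (nat_lit 3) (nat_lit 89) (nat_lit 1) (nat_lit 91) (nat_lit 1) (nat_lit 369) (nat_lit 378) (nat_lit 273)) (XT.nd (nat_lit 78) (nat_lit 152) (nat_lit 0) (XT.lf (nat_lit 76) (nat_lit 1032912586) (nat_lit 0) (nat_lit 1865112082) (nat_lit 76) (nat_lit 1056399410) (nat_lit 89) (nat_lit 3) (nat_lit 88) (nat_lit 1) (nat_lit 89) (nat_lit 1) (nat_lit 370) (nat_lit 378) (nat_lit 272)) (XT.lf (nat_lit 0) (nat_lit 997685212) (nat_lit 0) (nat_lit 1018396697) (nat_lit 152) (nat_lit 1838153175) (nat_lit 86) (nat_lit 3) (nat_lit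 86) (nat_lit 1) (nat_lit 88) (nat_lit 1) (nat_lit 371) (nat_lit 378) (nat_lit 271)))) (XT.nd (nat_lit 78) (nat_lit 228) (nat_lit 0) (XT.lf (nat_lit 76) (nat_lit 788832464) (nat_lit 0) (nat_lit 2159843326) (nat_lit 76) (nat_lit 808009765) (nat_lit 86) (nat_lit 3) (nat_lit 85) (nat_lit 1) (nat_lit 86) (nat_lit 1) (nat_lit 372) (nat_lit 378) (nat_lit 270)) (XT.nd (nat_lit 78) (nat_lit 76) (nat_lit 0) (XT.lf (nat_lit 0) (nat_lit 1136500531) (nat_lit 0) (nat_lit 1153411731) (nat_lit 152) (nat_lit 1371471610) (nat_lit 83) (nat_lit 3) (nat_lit 83) (nat_lit 1) (nat_lit 85) (nat_lit 1) (nat_lit 373) (nat_lit 378) (nat_lit 269)) (XT.lf (nat_lit 76) (nat_lit 566780662) (nat_lit 0) (nat_lit 2419666688) (nat_lit 76) (nat_lit 582439181) (nat_lit 83) (nat_lit 3) (nat_lit 82) (nat_lit 1) (nat_lit 83) (nat_lit 1) (nat_lit 374) (nat_lit 378) (nat_lit 268))))) (XT.nd (nat_lit 234) (nat_lit 532) (nat_lit 0) (XT.nd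 (nat_lit 78) (nat_lit 228) (nat_lit 0) (XT.lf (nat_lit 0) (nat_lit 1258379279) (nat_lit 0) (nat_lit 1272187497) (nat_lit 152) (nat_lit 947665592) (nat_lit 80) (nat_lit 3) (nat_lit 80) (nat_lit 1) (nat_lit 82) (nat_lit 1) (nat_lit 375) (nat_lit 378) (nat_lit 267)) (XT.nd (nat_lit 78) (nat_lit 152) (nat_lit 0) (XT.lf (nat_lit 76) (nat_lit 365187997) (nat_lit 0) (nat_lit 2647362431) (nat_lit 76) (nat_lit 377973383) (nat_lit 80) (nat_lit 3) (nat_lit 79) (nat_lit 1) (nat_lit 80) (nat_lit 1) (nat_lit 376) (nat_lit 378) (nat_lit 266)) (XT.lf (nat_lit 0) (nat_lit 1364715464) (nat_lit 0) (nat_lit 1375990056) (nat_lit 152) (nat_lit 563583785) (nat_lit 77) (nat_lit 3) (nat_lit 77) (nat_lit 1) (nat_lit 79) (nat_lit 1) (nat_lit 377) (nat_lit 378) (nat_lit 265)))) (XT.nd (nat_lit 156) (nat_lit 304) (nat_lit 0) (XT.nd (nat_lit 78) (nat_lit 152) (nat_lit 0) (XT.lf (nat_lit 76) (nat_lit 182579359) (nat_lit 0)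 (nat_lit 2845521862) (nat_lit 76) (nat_lit 193018796) (nat_lit 77) (nat_lit 3) (nat_lit 76) (nat_lit 1) (nat_lit 77) (nat_lit 1) (nat_lit 378) (nat_lit 378) (nat_lit 264)) (XT.lf (nat_lit 0) (nat_lit 1456800530) (nat_lit 0) (nat_lit 1466006382) (nat_lit 152) (nat_lit 216281707) (nat_lit 74) (nat_lit 3) (nat_lit 74) (nat_lit 1) (nat_lit 76) (nat_lit 1) (nat_lit 379) (nat_lit 378) (nat_lit 263))) (XT.nd (nat_lit 78) (nat_lit 228) (nat_lit 0) (XT.lf (nat_lit 76) (nat_lit 17569860) (nat_lit 0) (nat_lit 3016558568) (nat_lit 76) (nat_lit 26093797) (nat_lit 74) (nat_lit 3) (nat_lit 73) (nat_lit 1) (nat_lit 74) (nat_lit 1) (nat_lit 380) (nat_lit 378) (nat_lit 262)) (XT.lf (nat_lit 76) (nat_lit 1437197882) (nat_lit 0) (nat_lit 100197434) (nat_lit 76) (nat_lit 1444714581) (nat_lit 71) (nat_lit 3) (nat_lit 70) (nat_lit 1) (nat_lit 71) (nat_lit 1) (nat_lit 381) (nat_lit 378) (nat_lit 261)))))) (XT.nd (nat_lit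 468) (nat_lit 836) (nat_lit 0) (XT.nd (nat_lit 234) (nat_lit 304) (nat_lit 0) (XT.nd (nat_lit 78) (nat_lit 228) (nat_lit 0) (XT.lf (nat_lit 0) (nat_lit 126437775) (nat_lit 0) (nat_lit 133066258) (nat_lit 152) (nat_lit 2647488043) (nat_lit 68) (nat_lit 3) (nat_lit 68) (nat_lit 1) (nat_lit 70) (nat_lit 1) (nat_lit 382) (nat_lit 378) (nat_lit 260)) (XT.nd (nat_lit 78) (nat_lit 152) (nat_lit 0) (XT.lf (nat_lit 76) (nat_lit 1217700363) (nat_lit 0) (nat_lit 391324511) (nat_lit 76) (nat_lit 1223837847) (nat_lit 68) (nat_lit 3) (nat_lit 67) (nat_lit 1) (nat_lit 68) (nat_lit 1) (nat_lit 383) (nat_lit 378) (nat_lit 259)) (XT.lf (nat_lit 0) (nat_lit 263510672) (nat_lit 0) (nat_lit 268922915) (nat_lit 152) (nat_lit 2228975607) (nat_lit 65) (nat_lit 3) (nat_lit 65) (nat_lit 1) (nat_lit 67) (nat_lit 1) (nat_lit 384) (nat_lit 378) (nat_lit 258)))) (XT.nd (nat_lit 78) (nat_lit 228) (nat_lit 0) (XT.lf (nat_lit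 76) (nat_lit 1016843823) (nat_lit 0) (nat_lit 652422433) (nat_lit 76) (nat_lit 1021855159) (nat_lit 65) (nat_lit 3) (nat_lit 64) (nat_lit 1) (nat_lit 65) (nat_lit 1) (nat_lit 385) (nat_lit 378) (nat_lit 257)) (XT.nd (nat_lit 78) (nat_lit 76) (nat_lit 0) (XT.lf (nat_lit 0) (nat_lit 386179044) (nat_lit 0) (nat_lit 390598212) (nat_lit 152) (nat_lit 1846375437) (nat_lit 62) (nat_lit 3) (nat_lit 62) (nat_lit 1) (nat_lit 64) (nat_lit 1) (nat_lit 386) (nat_lit 378) (nat_lit 256)) (XT.lf (nat_lit 76) (nat_lit 833307935) (nat_lit 0) (nat_lit 885798624) (nat_lit 76) (nat_lit 837399758) (nat_lit 62) (nat_lit 3) (nat_lit 61) (nat_lit 1) (nat_lit 62) (nat_lit 1) (nat_lit 387) (nat_lit 378) (nat_lit 255))))) (XT.nd (nat_lit 234) (nat_lit 456) (nat_lit 0) (XT.nd (nat_lit 78) (nat_lit 228) (nat_lit 0) (XT.lf (nat_lit 0) (nat_lit 495567342) (nat_lit 0) (nat_lit 499175650) (nat_lit 152) (nat_lit 1497108780) (nat_lit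 59) (nat_lit 3) (nat_lit 59) (nat_lit 1) (nat_lit 61) (nat_lit 1) (nat_lit 388) (nat_lit 378) (nat_lit 254)) (XT.nd (nat_lit 78) (nat_lit 152) (nat_lit 0) (XT.lf (nat_lit 76) (nat_lit 665856023) (nat_lit 0) (nat_lit 1093604063) (nat_lit 76) (nat_lit 669197049) (nat_lit 59) (nat_lit 3) (nat_lit 58) (nat_lit 1) (nat_lit 59) (nat_lit 1) (nat_lit 389) (nat_lit 378) (nat_lit 253)) (XT.lf (nat_lit 0) (nat_lit 592721165) (nat_lit 0) (nat_lit 595667396) (nat_lit 152) (nat_lit 1178765989) (nat_lit 56) (nat_lit 3) (nat_lit 56) (nat_lit 1) (nat_lit 58) (nat_lit 1) (nat_lit 390) (nat_lit 378) (nat_lit 252)))) (XT.nd (nat_lit 156) (nat_lit 228) (nat_lit 0) (XT.nd (nat_lit 78) (nat_lit 152) (nat_lit 0) (XT.lf (nat_lit 76) (nat_lit 513330471) (nat_lit 0) (nat_lit 1277843000) (nat_lit 76) (nat_lit 516058463) (nat_lit 56) (nat_lit 3) (nat_lit 55) (nat_lit 1) (nat_lit 56) (nat_lit 1) (nat_lit 391) (nat_lit 378)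 (nat_lit 251)) (XT.lf (nat_lit 0) (nat_lit 678612641) (nat_lit 0) (nat_lit 681018278) (nat_lit 152) (nat_lit 889096171) (nat_lit 53) (nat_lit 3) (nat_lit 53) (nat_lit 1) (nat_lit 55) (nat_lit 1) (nat_lit 392) (nat_lit 378) (nat_lit 250))) (XT.nd (nat_lit 78) (nat_lit 152) (nat_lit 0) (XT.lf (nat_lit 76) (nat_lit 374648300) (nat_lit 0) (nat_lit 1440382157) (nat_lit 76) (nat_lit 376875742) (nat_lit 53) (nat_lit 3) (nat_lit 52) (nat_lit 1) (nat_lit 53) (nat_lit 1) (nat_lit 393) (nat_lit 378) (nat_lit 249)) (XT.lf (nat_lit 0) (nat_lit 754145415) (nat_lit 0) (nat_lit 756109649) (nat_lit 152) (nat_lit 625997401) (nat_lit 50) (nat_lit 3) (nat_lit 50) (nat_lit 1) (nat_lit 52) (nat_lit 1) (nat_lit 394) (nat_lit 378) (nat_lit 248))))))) (XT.nd (nat_lit 1014) (nat_lit 1140) (nat_lit 0) (XT.nd (nat_lit 468) (nat_lit 836) (nat_lit 0) (XT.nd (nat_lit 234) (nat_lit 456) (nat_lit 0) (XT.nd (nat_lit 78) (nat_lit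 228) (nat_lit 0) (XT.lf (nat_lit 76) (nat_lit 248796898) (nat_lit 0) (nat_lit 1582959389) (nat_lit 76) (nat_lit 250615634) (nat_lit 50) (nat_lit 3) (nat_lit 49) (nat_lit 1) (nat_lit 50) (nat_lit 1) (nat_lit 395) (nat_lit 378) (nat_lit 247)) (XT.nd (nat_lit 78) (nat_lit 76) (nat_lit 0) (XT.lf (nat_lit 0) (nat_lit 820159276) (nat_lit 0) (nat_lit 821763099) (nat_lit 152) (nat_lit 387507504) (nat_lit 47) (nat_lit 3) (nat_lit 47) (nat_lit 1) (nat_lit 49) (nat_lit 1) (nat_lit 396) (nat_lit 378) (nat_lit 246)) (XT.lf (nat_lit 76) (nat_lit 134829932) (nat_lit 0) (nat_lit 1707191867) (nat_lit 76) (nat_lit 136314954) (nat_lit 47) (nat_lit 3) (nat_lit 46) (nat_lit 1) (nat_lit 47) (nat_lit 1) (nat_lit 397) (nat_lit 378) (nat_lit 245)))) (XT.nd (nat_lit 78) (nat_lit 304) (nat_lit 0) (XT.lf (nat_lit 0) (nat_lit 877434474) (nat_lit 0) (nat_lit 878744017) (nat_lit 152) (nat_lit 171795350) (nat_lit 44) (nat_lit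 3) (nat_lit 44) (nat_lit 1) (nat_lit 46) (nat_lit 1) (nat_lit 398) (nat_lit 378) (nat_lit 244)) (XT.nd (nat_lit 78) (nat_lit 228) (nat_lit 0) (XT.lf (nat_lit 76) (nat_lit 31863443) (nat_lit 0) (nat_lit 1814583779) (nat_lit 76) (nat_lit 33075982) (nat_lit 44) (nat_lit 3) (nat_lit 43) (nat_lit 1) (nat_lit 44) (nat_lit 1) (nat_lit 399) (nat_lit 378) (nat_lit 243)) (XT.lf (nat_lit 76) (nat_lit 903461454) (nat_lit 0) (nat_lit 23602778) (nat_lit 76) (nat_lit 904530713) (nat_lit 41) (nat_lit 3) (nat_lit 40) (nat_lit 1) (nat_lit 41) (nat_lit 1) (nat_lit 400) (nat_lit 378) (nat_lit 242))))) (XT.nd (nat_lit 234) (nat_lit 456) (nat_lit 0) (XT.nd (nat_lit 78) (nat_lit 228) (nat_lit 0) (XT.lf (nat_lit 0) (nat_lit 60952101) (nat_lit 0) (nat_lit 61895010) (nat_lit 152) (nat_lit 1662627338) (nat_lit 38) (nat_lit 3) (nat_lit 38) (nat_lit 1) (nat_lit 40) (nat_lit 1) (nat_lit 401) (nat_lit 378) (nat_lit 241)) (XT.nd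 (nat_lit 78) (nat_lit 152) (nat_lit 0) (XT.lf (nat_lit 76) (nat_lit 767248778) (nat_lit 0) (nat_lit 204560947) (nat_lit 76) (nat_lit 768121842) (nat_lit 38) (nat_lit 3) (nat_lit 37) (nat_lit 1) (nat_lit 38) (nat_lit 1) (nat_lit 402) (nat_lit 378) (nat_lit 240)) (XT.lf (nat_lit 0) (nat_lit 145884275) (nat_lit 0) (nat_lit 146654173) (nat_lit 152) (nat_lit 1403521675) (nat_lit 35) (nat_lit 3) (nat_lit 35) (nat_lit 1) (nat_lit 37) (nat_lit 1) (nat_lit 403) (nat_lit 378) (nat_lit 239)))) (XT.nd (nat_lit 156) (nat_lit 228) (nat_lit 0) (XT.nd (nat_lit 78) (nat_lit 152) (nat_lit 0) (XT.lf (nat_lit 76) (nat_lit 642615410) (nat_lit 0) (nat_lit 366933217) (nat_lit 76) (nat_lit 643328278) (nat_lit 35) (nat_lit 3) (nat_lit 34) (nat_lit 1) (nat_lit 35) (nat_lit 1) (nat_lit 404) (nat_lit 378) (nat_lit 238)) (XT.lf (nat_lit 0) (nat_lit 221954725) (nat_lit 0) (nat_lit 222583357) (nat_lit 152) (nat_lit 1166606408)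 (nat_lit 32) (nat_lit 3) (nat_lit 32) (nat_lit 1) (nat_lit 34) (nat_lit 1) (nat_lit 405) (nat_lit 378) (nat_lit 237))) (XT.nd (nat_lit 78) (nat_lit 152) (nat_lit 0) (XT.lf (nat_lit 76) (nat_lit 528733210) (nat_lit 0) (nat_lit 512149600) (nat_lit 76) (nat_lit 529315276) (nat_lit 32) (nat_lit 3) (nat_lit 31) (nat_lit 1) (nat_lit 32) (nat_lit 1) (nat_lit 406) (nat_lit 378) (nat_lit 236)) (XT.lf (nat_lit 0) (nat_lit 289850342) (nat_lit 0) (nat_lit 290363628) (nat_lit 152) (nat_lit 950286109) (nat_lit 29) (nat_lit 3) (nat_lit 29) (nat_lit 1) (nat_lit 31) (nat_lit 1) (nat_lit 407) (nat_lit 378) (nat_lit 235)))))) (XT.nd (nat_lit 546) (nat_lit 380) (nat_lit 0) (XT.nd (nat_lit 234) (nat_lit 456) (nat_lit 0) (XT.nd (nat_lit 78) (nat_lit 228) (nat_lit 0) (XT.lf (nat_lit 76) (nat_lit 424828215) (nat_lit 0) (nat_lit 641542371) (nat_lit 76) (nat_lit 425303480) (nat_lit 29) (nat_lit 3) (nat_lit 28) (nat_lit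 1) (nat_lit 29) (nat_lit 1) (nat_lit 408) (nat_lit 378) (nat_lit 234)) (XT.nd (nat_lit 78) (nat_lit 76) (nat_lit 0) (XT.lf (nat_lit 0) (nat_lit 350210613) (nat_lit 0) (nat_lit 350629718) (nat_lit 152) (nat_lit 753070658) (nat_lit 26) (nat_lit 3) (nat_lit 26) (nat_lit 1) (nat_lit 28) (nat_lit 1) (nat_lit 409) (nat_lit 378) (nat_lit 233)) (XT.lf (nat_lit 76) (nat_lit 330177335) (nat_lit 0) (nat_lit 756352308) (nat_lit 76) (nat_lit 330565395) (nat_lit 26) (nat_lit 3) (nat_lit 25) (nat_lit 1) (nat_lit 26) (nat_lit 1) (nat_lit 410) (nat_lit 378) (nat_lit 232)))) (XT.nd (nat_lit 156) (nat_lit 228) (nat_lit 0) (XT.nd (nat_lit 78) (nat_lit 76) (nat_lit 0) (XT.lf (nat_lit 0) (nat_lit 403630719) (nat_lit 0) (nat_lit 403972924) (nat_lit 152) (nat_lit 573568650) (nat_lit 23) (nat_lit 3) (nat_lit 23) (nat_lit 1) (nat_lit 25) (nat_lit 1) (nat_lit 411) (nat_lit 378) (nat_lit 231)) (XT.lf (nat_lit 76) (nat_lit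 244105218) (nat_lit 0) (nat_lit 857734547) (nat_lit 76) (nat_lit 244422074) (nat_lit 23) (nat_lit 3) (nat_lit 22) (nat_lit 1) (nat_lit 23) (nat_lit 1) (nat_lit 412) (nat_lit 378) (nat_lit 230))) (XT.nd (nat_lit 78) (nat_lit 76) (nat_lit 0) (XT.lf (nat_lit 0) (nat_lit 450664428) (nat_lit 0) (nat_lit 450943842) (nat_lit 152) (nat_lit 410481202) (nat_lit 20) (nat_lit 3) (nat_lit 20) (nat_lit 1) (nat_lit 22) (nat_lit 1) (nat_lit 413) (nat_lit 378) (nat_lit 229)) (XT.lf (nat_lit 76) (nat_lit 165981304) (nat_lit 0) (nat_lit 946764099) (nat_lit 76) (nat_lit 166240021) (nat_lit 20) (nat_lit 3) (nat_lit 19) (nat_lit 1) (nat_lit 20) (nat_lit 1) (nat_lit 414) (nat_lit 378) (nat_lit 228))))) (XT.nd (nat_lit 41184) (nat_lit 0) (nat_lit 21128) (XT.nd (nat_lit 78) (nat_lit 228) (nat_lit 0) (XT.lf (nat_lit 0) (nat_lit 491826806) (nat_lit 0) (nat_lit 492054952) (nat_lit 152) (nat_lit 262596133) (nat_lit 17) (nat_lit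 3) (nat_lit 17) (nat_lit 1) (nat_lit 19) (nat_lit 1) (nat_lit 415) (nat_lit 378) (nat_lit 227)) (XT.nd (nat_lit 78) (nat_lit 152) (nat_lit 0) (XT.lf (nat_lit 76) (nat_lit 95217036) (nat_lit 0) (nat_lit 1024441011) (nat_lit 76) (nat_lit 95428282) (nat_lit 17) (nat_lit 3) (nat_lit 16) (nat_lit 1) (nat_lit 17) (nat_lit 1) (nat_lit 416) (nat_lit 378) (nat_lit 226)) (XT.lf (nat_lit 0) (nat_lit 527596757) (nat_lit 0) (nat_lit 527783041) (nat_lit 152) (nat_lit 128782491) (nat_lit 14) (nat_lit 3) (nat_lit 14) (nat_lit 1) (nat_lit 16) (nat_lit 1) (nat_lit 417) (nat_lit 378) (nat_lit 225)))) (XT.nd (nat_lit 156) (nat_lit 0) (nat_lit 76) (XT.nd (nat_lit 78) (nat_lit 0) (nat_lit 76) (XT.lf (nat_lit 836) (nat_lit 10808766699) (nat_lit 0) (nat_lit 19190940429) (nat_lit 836) (nat_lit 10808766699) (nat_lit 303) (nat_lit 1) (nat_lit 292) (nat_lit 0) (nat_lit 303) (nat_lit 0) (nat_lit 262) (nat_lit 379) (nat_lit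 379)) (XT.lf (nat_lit 836) (nat_lit 4032001636) (nat_lit 0) (nat_lit 37677632382) (nat_lit 760) (nat_lit 36848598591) (nat_lit 304) (nat_lit 1) (nat_lit 293) (nat_lit 1) (nat_lit 303) (nat_lit 1) (nat_lit 263) (nat_lit 379) (nat_lit 378))) (XT.nd (nat_lit 78) (nat_lit 0) (nat_lit 76) (XT.lf (nat_lit 836) (nat_lit 37031607726) (nat_lit 76) (nat_lit 25232723106) (nat_lit 0) (nat_lit 13382285317) (nat_lit 304) (nat_lit 1) (nat_lit 294) (nat_lit 1) (nat_lit 293) (nat_lit 1) (nat_lit 264) (nat_lit 379) (nat_lit 377)) (XT.lf (nat_lit 836) (nat_lit 31998342748) (nat_lit 76) (nat_lit 10574859357) (nat_lit 0) (nat_lit 30307502257) (nat_lit 305) (nat_lit 1) (nat_lit 295) (nat_lit 1) (nat_lit 294) (nat_lit 1) (nat_lit 265) (nat_lit 379) (nat_lit 376))))))))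
noncomputable def ec111 : XT := (XT.nd (nat_lit 2106) (nat_lit 3496) (nat_lit 0) (XT.nd (nat_lit 1014) (nat_lit 3040) (nat_lit 0) (XT.nd (nat_lit 468) (nat_lit 1900) (nat_lit 0) (XT.nd (nat_lit 234) (nat_lit 1520) (nat_lit 0) (XT.nd (nat_lit 78) (nat_lit 0) (nat_lit 76) (XT.lf (nat_lit 836) (nat_lit 23681494038) (nat_lit 0) (nat_lit 44306955970) (nat_lit 760) (nat_lit 2264965259) (nat_lit 306) (nat_lit 1) (nat_lit 295) (nat_lit 1) (nat_lit 305) (nat_lit 1) (nat_lit 266) (nat_lit 379) (nat_lit 375)) (XT.nd (nat_lit 78) (nat_lit 0) (nat_lit 0) (XT.lf (nat_lit 836) (nat_lit 5682142303) (nat_lit 0) (nat_lit 48860727907) (nat_lit 760) (nat_lit 13208727407) (nat_lit 307) (nat_lit 1) (nat_lit 296) (nat_lit 1) (nat_lit 306) (nat_lit 1) (nat_lit 267) (nat_lit 379) (nat_lit 374)) (XT.lf (nat_lit 836) (nat_lit 10918766385) (nat_lit 76) (nat_lit 42463951451) (nat_lit 0) (nat_lit 11983851005) (nat_lit 307)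 (nat_lit 1) (nat_lit 297) (nat_lit 1) (nat_lit 296) (nat_lit 1) (nat_lit 268) (nat_lit 379) (nat_lit 373)))) (XT.nd (nat_lit 78) (nat_lit 912) (nat_lit 0) (XT.lf (nat_lit 836) (nat_lit 2242465634) (nat_lit 0) (nat_lit 31744612592) (nat_lit 760) (nat_lit 29109477132) (nat_lit 298) (nat_lit 1) (nat_lit 287) (nat_lit 1) (nat_lit 297) (nat_lit 1) (nat_lit 269) (nat_lit 379) (nat_lit 372)) (XT.nd (nat_lit 78) (nat_lit 380) (nat_lit 0) (XT.lf (nat_lit 76) (nat_lit 15527299175) (nat_lit 0) (nat_lit 6728701314) (nat_lit 532) (nat_lit 38678024331) (nat_lit 281) (nat_lit 1) (nat_lit 280) (nat_lit 1) (nat_lit 287) (nat_lit 1) (nat_lit 270) (nat_lit 379) (nat_lit 371)) (XT.lf (nat_lit 456) (nat_lit 42791282156) (nat_lit 0) (nat_lit 13929484847) (nat_lit 380) (nat_lit 2153584426) (nat_lit 281) (nat_lit 1) (nat_lit 275) (nat_lit 1) (nat_lit 280) (nat_lit 1) (nat_lit 271) (nat_lit 379) (nat_lit 370))))) (XT.nd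 (nat_lit 234) (nat_lit 1216) (nat_lit 0) (XT.nd (nat_lit 78) (nat_lit 304) (nat_lit 0) (XT.lf (nat_lit 456) (nat_lit 30878596693) (nat_lit 0) (nat_lit 6492592890) (nat_lit 380) (nat_lit 19532050727) (nat_lit 276) (nat_lit 1) (nat_lit 270) (nat_lit 1) (nat_lit 275) (nat_lit 1) (nat_lit 272) (nat_lit 379) (nat_lit 369)) (XT.nd (nat_lit 78) (nat_lit 0) (nat_lit 0) (XT.lf (nat_lit 380) (nat_lit 18789232264) (nat_lit 0) (nat_lit 119539186) (nat_lit 304) (nat_lit 36118932635) (nat_lit 271) (nat_lit 1) (nat_lit 266) (nat_lit 1) (nat_lit 270) (nat_lit 1) (nat_lit 273) (nat_lit 379) (nat_lit 368)) (XT.lf (nat_lit 76) (nat_lit 1386180758) (nat_lit 0) (nat_lit 46748732041) (nat_lit 380) (nat_lit 5103533074) (nat_lit 267) (nat_lit 1) (nat_lit 266) (nat_lit 1) (nat_lit 271) (nat_lit 1) (nat_lit 274) (nat_lit 379) (nat_lit 367)))) (XT.nd (nat_lit 156) (nat_lit 532) (nat_lit 0) (XT.nd (nat_lit 78) (nat_lit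 304) (nat_lit 0) (XT.lf (nat_lit 76) (nat_lit 35791546725) (nat_lit 0) (nat_lit 5936410991) (nat_lit 380) (nat_lit 9790219859) (nat_lit 262) (nat_lit 1) (nat_lit 261) (nat_lit 1) (nat_lit 266) (nat_lit 1) (nat_lit 275) (nat_lit 379) (nat_lit 366)) (XT.lf (nat_lit 76) (nat_lit 17907417807) (nat_lit 0) (nat_lit 18184280676) (nat_lit 380) (nat_lit 13782221018) (nat_lit 258) (nat_lit 1) (nat_lit 257) (nat_lit 1) (nat_lit 262) (nat_lit 1) (nat_lit 276) (nat_lit 379) (nat_lit 365))) (XT.nd (nat_lit 78) (nat_lit 228) (nat_lit 0) (XT.lf (nat_lit 76) (nat_lit 883870433) (nat_lit 0) (nat_lit 30403834929) (nat_lit 380) (nat_lit 17019806250) (nat_lit 254) (nat_lit 1) (nat_lit 253) (nat_lit 1) (nat_lit 258) (nat_lit 1) (nat_lit 277) (nat_lit 379) (nat_lit 364)) (XT.lf (nat_lit 304) (nat_lit 3991509065) (nat_lit 0) (nat_lit 26992665194) (nat_lit 228) (nat_lit 15818322163) (nat_lit 254) (nat_lit 1) (nat_lit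 250) (nat_lit 1) (nat_lit 253) (nat_lit 1) (nat_lit 278) (nat_lit 379) (nat_lit 363)))))) (XT.nd (nat_lit 546) (nat_lit 1216) (nat_lit 0) (XT.nd (nat_lit 234) (nat_lit 988) (nat_lit 0) (XT.nd (nat_lit 78) (nat_lit 456) (nat_lit 0) (XT.lf (nat_lit 76) (nat_lit 13791736976) (nat_lit 0) (nat_lit 9452942221) (nat_lit 380) (nat_lit 22114976940) (nat_lit 246) (nat_lit 1) (nat_lit 245) (nat_lit 1) (nat_lit 250) (nat_lit 1) (nat_lit 279) (nat_lit 379) (nat_lit 362)) (XT.nd (nat_lit 78) (nat_lit 228) (nat_lit 0) (XT.lf (nat_lit 304) (nat_lit 21352926182) (nat_lit 0) (nat_lit 20058314347) (nat_lit 228) (nat_lit 2567440430) (nat_lit 246) (nat_lit 1) (nat_lit 242) (nat_lit 1) (nat_lit 245) (nat_lit 1) (nat_lit 280) (nat_lit 379) (nat_lit 361)) (XT.lf (nat_lit 304) (nat_lit 6843509684) (nat_lit 0) (nat_lit 17269387273) (nat_lit 228) (nat_lit 18537880087) (nat_lit 243) (nat_lit 1) (nat_lit 239) (nat_lit 1)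 (nat_lit 242) (nat_lit 1) (nat_lit 281) (nat_lit 379) (nat_lit 360)))) (XT.nd (nat_lit 156) (nat_lit 456) (nat_lit 0) (XT.nd (nat_lit 78) (nat_lit 228) (nat_lit 0) (XT.lf (nat_lit 76) (nat_lit 7799947427) (nat_lit 0) (nat_lit 7141529700) (nat_lit 304) (nat_lit 26436546350) (nat_lit 236) (nat_lit 1) (nat_lit 235) (nat_lit 1) (nat_lit 239) (nat_lit 1) (nat_lit 282) (nat_lit 379) (nat_lit 359)) (XT.lf (nat_lit 304) (nat_lit 19409145432) (nat_lit 0) (nat_lit 12914126123) (nat_lit 228) (nat_lit 7828585715) (nat_lit 236) (nat_lit 1) (nat_lit 232) (nat_lit 1) (nat_lit 235) (nat_lit 1) (nat_lit 283) (nat_lit 379) (nat_lit 358))) (XT.nd (nat_lit 78) (nat_lit 304) (nat_lit 0) (XT.lf (nat_lit 228) (nat_lit 4811555811) (nat_lit 0) (nat_lit 11266633083) (nat_lit 152) (nat_lit 22896969135) (nat_lit 233) (nat_lit 1) (nat_lit 230) (nat_lit 1) (nat_lit 232) (nat_lit 1) (nat_lit 284) (nat_lit 379) (nat_lit 357))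 (XT.lf (nat_lit 76) (nat_lit 815108294) (nat_lit 0) (nat_lit 9121238766) (nat_lit 304) (nat_lit 27907723692) (nat_lit 227) (nat_lit 1) (nat_lit 226) (nat_lit 1) (nat_lit 230) (nat_lit 1) (nat_lit 285) (nat_lit 379) (nat_lit 356))))) (XT.nd (nat_lit 234) (nat_lit 684) (nat_lit 0) (XT.nd (nat_lit 78) (nat_lit 380) (nat_lit 0) (XT.lf (nat_lit 228) (nat_lit 13981498330) (nat_lit 0) (nat_lit 8737236986) (nat_lit 152) (nat_lit 14030154085) (nat_lit 227) (nat_lit 1) (nat_lit 224) (nat_lit 1) (nat_lit 226) (nat_lit 1) (nat_lit 286) (nat_lit 379) (nat_lit 355)) (XT.nd (nat_lit 78) (nat_lit 152) (nat_lit 0) (XT.lf (nat_lit 76) (nat_lit 7585776703) (nat_lit 0) (nat_lit 350391781) (nat_lit 228) (nat_lit 27765329505) (nat_lit 222) (nat_lit 1) (nat_lit 221) (nat_lit 1) (nat_lit 224) (nat_lit 1) (nat_lit 287) (nat_lit 379) (nat_lit 354)) (XT.lf (nat_lit 228) (nat_lit 20738048659) (nat_lit 0) (nat_lit 7186198846)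 (nat_lit 152) (nat_lit 6760326944) (nat_lit 222) (nat_lit 1) (nat_lit 219) (nat_lit 1) (nat_lit 221) (nat_lit 1) (nat_lit 288) (nat_lit 379) (nat_lit 353)))) (XT.nd (nat_lit 156) (nat_lit 304) (nat_lit 0) (XT.nd (nat_lit 78) (nat_lit 228) (nat_lit 0) (XT.lf (nat_lit 228) (nat_lit 6442068945) (nat_lit 0) (nat_lit 6680366489) (nat_lit 152) (nat_lit 20584096913) (nat_lit 220) (nat_lit 1) (nat_lit 217) (nat_lit 1) (nat_lit 219) (nat_lit 1) (nat_lit 289) (nat_lit 379) (nat_lit 352)) (XT.lf (nat_lit 228) (nat_lit 25572646185) (nat_lit 0) (nat_lit 6382547968) (nat_lit 152) (nat_lit 809700258) (nat_lit 217) (nat_lit 1) (nat_lit 214) (nat_lit 1) (nat_lit 216) (nat_lit 1) (nat_lit 290) (nat_lit 379) (nat_lit 351))) (XT.nd (nat_lit 78) (nat_lit 152) (nat_lit 0) (XT.lf (nat_lit 228) (nat_lit 11445131240) (nat_lit 0) (nat_lit 6093181454) (nat_lit 152) (nat_lit 14311108926) (nat_lit 215) (nat_lit 1) (nat_lit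 212) (nat_lit 1) (nat_lit 214) (nat_lit 1) (nat_lit 291) (nat_lit 379) (nat_lit 350)) (XT.lf (nat_lit 76) (nat_lit 3920399334) (nat_lit 0) (nat_lit 2154828132) (nat_lit 152) (nat_lit 24896692811) (nat_lit 211) (nat_lit 1) (nat_lit 210) (nat_lit 1) (nat_lit 212) (nat_lit 1) (nat_lit 292) (nat_lit 379) (nat_lit 349))))))) (XT.nd (nat_lit 1014) (nat_lit 1672) (nat_lit 0) (XT.nd (nat_lit 468) (nat_lit 988) (nat_lit 0) (XT.nd (nat_lit 234) (nat_lit 380) (nat_lit 0) (XT.nd (nat_lit 78) (nat_lit 304) (nat_lit 0) (XT.lf (nat_lit 228) (nat_lit 15016670405) (nat_lit 0) (nat_lit 6010897570) (nat_lit 152) (nat_lit 9088993870) (nat_lit 211) (nat_lit 1) (nat_lit 208) (nat_lit 1) (nat_lit 210) (nat_lit 1) (nat_lit 293) (nat_lit 379) (nat_lit 348)) (XT.nd (nat_lit 78) (nat_lit 228) (nat_lit 0) (XT.lf (nat_lit 152) (nat_lit 1617082018) (nat_lit 0) (nat_lit 6158532982) (nat_lit 76) (nat_lit 21519356863) (nat_lit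 209) (nat_lit 1) (nat_lit 207) (nat_lit 1) (nat_lit 208) (nat_lit 1) (nat_lit 294) (nat_lit 379) (nat_lit 347)) (XT.lf (nat_lit 228) (nat_lit 17455803370) (nat_lit 0) (nat_lit 6298535815) (nat_lit 152) (nat_lit 4741696469) (nat_lit 207) (nat_lit 1) (nat_lit 204) (nat_lit 1) (nat_lit 206) (nat_lit 1) (nat_lit 295) (nat_lit 379) (nat_lit 346)))) (XT.nd (nat_lit 78) (nat_lit 304) (nat_lit 0) (XT.lf (nat_lit 152) (nat_lit 4390263266) (nat_lit 0) (nat_lit 6534044416) (nat_lit 76) (nat_lit 16799717518) (nat_lit 205) (nat_lit 1) (nat_lit 203) (nat_lit 1) (nat_lit 204) (nat_lit 1) (nat_lit 296) (nat_lit 379) (nat_lit 345)) (XT.nd (nat_lit 78) (nat_lit 76) (nat_lit 0) (XT.lf (nat_lit 228) (nat_lit 19004369994) (nat_lit 0) (nat_lit 6849183311) (nat_lit 152) (nat_lit 1124009613) (nat_lit 203) (nat_lit 1) (nat_lit 200) (nat_lit 1) (nat_lit 202) (nat_lit 1) (nat_lit 297) (nat_lit 379) (nat_lit 344)) (XT.lf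 (nat_lit 152) (nat_lit 6318191149) (nat_lit 0) (nat_lit 7140355903) (nat_lit 76) (nat_lit 12792564247) (nat_lit 201) (nat_lit 1) (nat_lit 199) (nat_lit 1) (nat_lit 200) (nat_lit 1) (nat_lit 298) (nat_lit 379) (nat_lit 343))))) (XT.nd (nat_lit 234) (nat_lit 456) (nat_lit 0) (XT.nd (nat_lit 78) (nat_lit 304) (nat_lit 0) (XT.lf (nat_lit 76) (nat_lit 1823681406) (nat_lit 0) (nat_lit 5724049812) (nat_lit 228) (nat_lit 18003026285) (nat_lit 197) (nat_lit 1) (nat_lit 196) (nat_lit 1) (nat_lit 199) (nat_lit 1) (nat_lit 299) (nat_lit 379) (nat_lit 342)) (XT.nd (nat_lit 78) (nat_lit 228) (nat_lit 0) (XT.lf (nat_lit 152) (nat_lit 7582399423) (nat_lit 0) (nat_lit 7900500801) (nat_lit 76) (nat_lit 9384896337) (nat_lit 197) (nat_lit 1) (nat_lit 195) (nat_lit 1) (nat_lit 196) (nat_lit 1) (nat_lit 300) (nat_lit 379) (nat_lit 341)) (XT.lf (nat_lit 76) (nat_lit 4241203902) (nat_lit 0) (nat_lit 4107892769) (nat_lit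 228) (nat_lit 15859739869) (nat_lit 193) (nat_lit 1) (nat_lit 192) (nat_lit 1) (nat_lit 195) (nat_lit 1) (nat_lit 301) (nat_lit 379) (nat_lit 340)))) (XT.nd (nat_lit 156) (nat_lit 228) (nat_lit 0) (XT.nd (nat_lit 78) (nat_lit 152) (nat_lit 0) (XT.lf (nat_lit 152) (nat_lit 8329282780) (nat_lit 0) (nat_lit 8754397958) (nat_lit 76) (nat_lit 6483031961) (nat_lit 193) (nat_lit 1) (nat_lit 191) (nat_lit 1) (nat_lit 192) (nat_lit 1) (nat_lit 302) (nat_lit 379) (nat_lit 339)) (XT.lf (nat_lit 76) (nat_lit 6244032881) (nat_lit 0) (nat_lit 2975169944) (nat_lit 152) (nat_lit 13726592422) (nat_lit 190) (nat_lit 1) (nat_lit 189) (nat_lit 1) (nat_lit 191) (nat_lit 1) (nat_lit 303) (nat_lit 379) (nat_lit 338))) (XT.nd (nat_lit 78) (nat_lit 152) (nat_lit 0) (XT.lf (nat_lit 152) (nat_lit 8676662821) (nat_lit 0) (nat_lit 9655560804) (nat_lit 76) (nat_lit 4009162084) (nat_lit 190) (nat_lit 1) (nat_lit 188) (nat_lit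 1) (nat_lit 189) (nat_lit 1) (nat_lit 304) (nat_lit 379) (nat_lit 337)) (XT.lf (nat_lit 76) (nat_lit 7898121035) (nat_lit 0) (nat_lit 2219515572) (nat_lit 152) (nat_lit 11637930570) (nat_lit 187) (nat_lit 1) (nat_lit 186) (nat_lit 1) (nat_lit 188) (nat_lit 1) (nat_lit 305) (nat_lit 379) (nat_lit 336)))))) (XT.nd (nat_lit 546) (nat_lit 912) (nat_lit 0) (XT.nd (nat_lit 234) (nat_lit 456) (nat_lit 0) (XT.nd (nat_lit 78) (nat_lit 228) (nat_lit 0) (XT.lf (nat_lit 152) (nat_lit 8719141913) (nat_lit 0) (nat_lit 10568422802) (nat_lit 76) (nat_lit 1898530278) (nat_lit 187) (nat_lit 1) (nat_lit 185) (nat_lit 1) (nat_lit 186) (nat_lit 1) (nat_lit 306) (nat_lit 379) (nat_lit 335)) (XT.nd (nat_lit 78) (nat_lit 76) (nat_lit 0) (XT.lf (nat_lit 76) (nat_lit 9258282413) (nat_lit 0) (nat_lit 1755401691) (nat_lit 152) (nat_lit 9619090566) (nat_lit 184) (nat_lit 1) (nat_lit 183) (nat_lit 1) (nat_lit 185) (nat_lit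 1) (nat_lit 307) (nat_lit 379) (nat_lit 334)) (XT.lf (nat_lit 152) (nat_lit 8532467772) (nat_lit 0) (nat_lit 11466165381) (nat_lit 76) (nat_lit 97123979) (nat_lit 184) (nat_lit 1) (nat_lit 182) (nat_lit 1) (nat_lit 183) (nat_lit 1) (nat_lit 308) (nat_lit 379) (nat_lit 333)))) (XT.nd (nat_lit 156) (nat_lit 228) (nat_lit 0) (XT.nd (nat_lit 78) (nat_lit 76) (nat_lit 0) (XT.lf (nat_lit 76) (nat_lit 10370164065) (nat_lit 0) (nat_lit 1514225469) (nat_lit 152) (nat_lit 7688234444) (nat_lit 181) (nat_lit 1) (nat_lit 180) (nat_lit 1) (nat_lit 182) (nat_lit 1) (nat_lit 309) (nat_lit 379) (nat_lit 332)) (XT.lf (nat_lit 0) (nat_lit 1394120341) (nat_lit 0) (nat_lit 10911224976) (nat_lit 152) (nat_lit 6759360266) (nat_lit 179) (nat_lit 3) (nat_lit 179) (nat_lit 1) (nat_lit 181) (nat_lit 1) (nat_lit 310) (nat_lit 379) (nat_lit 331))) (XT.nd (nat_lit 78) (nat_lit 76) (nat_lit 0) (XT.lf (nat_lit 76) (nat_lit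 11271860798) (nat_lit 0) (nat_lit 1441120150) (nat_lit 152) (nat_lit 5857837613) (nat_lit 178) (nat_lit 1) (nat_lit 177) (nat_lit 1) (nat_lit 179) (nat_lit 1) (nat_lit 311) (nat_lit 379) (nat_lit 330)) (XT.lf (nat_lit 0) (nat_lit 2663285612) (nat_lit 0) (nat_lit 10434126813) (nat_lit 152) (nat_lit 4992672437) (nat_lit 176) (nat_lit 3) (nat_lit 176) (nat_lit 1) (nat_lit 178) (nat_lit 1) (nat_lit 312) (nat_lit 379) (nat_lit 329))))) (XT.nd (nat_lit 234) (nat_lit 532) (nat_lit 0) (XT.nd (nat_lit 78) (nat_lit 228) (nat_lit 0) (XT.lf (nat_lit 76) (nat_lit 11995238208) (nat_lit 0) (nat_lit 1492356484) (nat_lit 152) (nat_lit 4135892541) (nat_lit 175) (nat_lit 1) (nat_lit 174) (nat_lit 1) (nat_lit 176) (nat_lit 1) (nat_lit 313) (nat_lit 379) (nat_lit 328)) (XT.nd (nat_lit 78) (nat_lit 152) (nat_lit 0) (XT.lf (nat_lit 0) (nat_lit 3744283177) (nat_lit 0) (nat_lit 10089277299) (nat_lit 152) (nat_lit 3334700740)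 (nat_lit 173) (nat_lit 3) (nat_lit 173) (nat_lit 1) (nat_lit 175) (nat_lit 1) (nat_lit 314) (nat_lit 379) (nat_lit 327)) (XT.lf (nat_lit 76) (nat_lit 12567017227) (nat_lit 0) (nat_lit 1633225971) (nat_lit 152) (nat_lit 2526881316) (nat_lit 172) (nat_lit 1) (nat_lit 171) (nat_lit 1) (nat_lit 173) (nat_lit 1) (nat_lit 315) (nat_lit 379) (nat_lit 326)))) (XT.nd (nat_lit 156) (nat_lit 304) (nat_lit 0) (XT.nd (nat_lit 78) (nat_lit 152) (nat_lit 0) (XT.lf (nat_lit 0) (nat_lit 4663082884) (nat_lit 0) (nat_lit 9843854098) (nat_lit 152) (nat_lit 1788933040) (nat_lit 170) (nat_lit 3) (nat_lit 170) (nat_lit 1) (nat_lit 172) (nat_lit 1) (nat_lit 316) (nat_lit 379) (nat_lit 325)) (XT.lf (nat_lit 76) (nat_lit 13009663665) (nat_lit 0) (nat_lit 1836317204) (nat_lit 152) (nat_lit 1032560113) (nat_lit 169) (nat_lit 1) (nat_lit 168) (nat_lit 1) (nat_lit 170) (nat_lit 1) (nat_lit 317) (nat_lit 379) (nat_lit 324)))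 (XT.nd (nat_lit 78) (nat_lit 228) (nat_lit 0) (XT.lf (nat_lit 0) (nat_lit 5441649032) (nat_lit 0) (nat_lit 9671816919) (nat_lit 152) (nat_lit 356379375) (nat_lit 167) (nat_lit 3) (nat_lit 167) (nat_lit 1) (nat_lit 169) (nat_lit 1) (nat_lit 318) (nat_lit 379) (nat_lit 323)) (XT.lf (nat_lit 152) (nat_lit 12988825426) (nat_lit 0) (nat_lit 358896234) (nat_lit 76) (nat_lit 1726820034) (nat_lit 166) (nat_lit 1) (nat_lit 164) (nat_lit 1) (nat_lit 165) (nat_lit 1) (nat_lit 319) (nat_lit 379) (nat_lit 322))))))))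
noncomputable def ec112 : XT := (XT.nd (nat_lit 2028) (nat_lit 3192) (nat_lit 0) (XT.nd (nat_lit 1014) (nat_lit 1596) (nat_lit 0) (XT.nd (nat_lit 468) (nat_lit 760) (nat_lit 0) (XT.nd (nat_lit 234) (nat_lit 380) (nat_lit 0) (XT.nd (nat_lit 78) (nat_lit 228) (nat_lit 0) (XT.lf (nat_lit 76) (nat_lit 5118450339) (nat_lit 0) (nat_lit 995715443) (nat_lit 76) (nat_lit 8572438097) (nat_lit 164) (nat_lit 3) (nat_lit 163) (nat_lit 1) (nat_lit 164) (nat_lit 1) (nat_lit 320) (nat_lit 379) (nat_lit 321)) (XT.nd (nat_lit 78) (nat_lit 76) (nat_lit 0) (XT.lf (nat_lit 152) (nat_lit 11938093902) (nat_lit 0) (nat_lit 1668350123) (nat_lit 76) (nat_lit 705545942) (nat_lit 163) (nat_lit 1) (nat_lit 161) (nat_lit 1) (nat_lit 162) (nat_lit 1) (nat_lit 321) (nat_lit 379) (nat_lit 320)) (XT.lf (nat_lit 76) (nat_lit 4438987878) (nat_lit 0) (nat_lit 2245943738) (nat_lit 76) (nat_lit 7259214344) (nat_lit 161) (nat_lit 3)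 (nat_lit 160) (nat_lit 1) (nat_lit 161) (nat_lit 1) (nat_lit 322) (nat_lit 379) (nat_lit 319)))) (XT.nd (nat_lit 78) (nat_lit 228) (nat_lit 0) (XT.lf (nat_lit 0) (nat_lit 187362301) (nat_lit 0) (nat_lit 2674334494) (nat_lit 152) (nat_lit 10727404177) (nat_lit 158) (nat_lit 3) (nat_lit 158) (nat_lit 1) (nat_lit 160) (nat_lit 1) (nat_lit 323) (nat_lit 379) (nat_lit 318)) (XT.nd (nat_lit 78) (nat_lit 152) (nat_lit 0) (XT.lf (nat_lit 76) (nat_lit 3775810711) (nat_lit 0) (nat_lit 3386004856) (nat_lit 76) (nat_lit 6078562742) (nat_lit 158) (nat_lit 3) (nat_lit 157) (nat_lit 1) (nat_lit 158) (nat_lit 1) (nat_lit 324) (nat_lit 379) (nat_lit 317)) (XT.lf (nat_lit 0) (nat_lit 952883576) (nat_lit 0) (nat_lit 2983529105) (nat_lit 152) (nat_lit 8966866080) (nat_lit 155) (nat_lit 3) (nat_lit 155) (nat_lit 1) (nat_lit 157) (nat_lit 1) (nat_lit 325) (nat_lit 379) (nat_lit 316))))) (XT.nd (nat_lit 234) (nat_lit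 456) (nat_lit 0) (XT.nd (nat_lit 78) (nat_lit 228) (nat_lit 0) (XT.lf (nat_lit 76) (nat_lit 3136352359) (nat_lit 0) (nat_lit 4420165012) (nat_lit 76) (nat_lit 5016579701) (nat_lit 155) (nat_lit 3) (nat_lit 154) (nat_lit 1) (nat_lit 155) (nat_lit 1) (nat_lit 326) (nat_lit 379) (nat_lit 315)) (XT.nd (nat_lit 78) (nat_lit 76) (nat_lit 0) (XT.lf (nat_lit 0) (nat_lit 1625265827) (nat_lit 0) (nat_lit 3283314629) (nat_lit 152) (nat_lit 7344368576) (nat_lit 152) (nat_lit 3) (nat_lit 152) (nat_lit 1) (nat_lit 154) (nat_lit 1) (nat_lit 327) (nat_lit 379) (nat_lit 314)) (XT.lf (nat_lit 76) (nat_lit 2525897933) (nat_lit 0) (nat_lit 5353229702) (nat_lit 76) (nat_lit 4061128306) (nat_lit 152) (nat_lit 3) (nat_lit 151) (nat_lit 1) (nat_lit 152) (nat_lit 1) (nat_lit 328) (nat_lit 379) (nat_lit 313)))) (XT.nd (nat_lit 156) (nat_lit 228) (nat_lit 0) (XT.nd (nat_lit 78) (nat_lit 76) (nat_lit 0) (XT.lf (nat_lit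 0) (nat_lit 2214665967) (nat_lit 0) (nat_lit 3568484638) (nat_lit 152) (nat_lit 5852984977) (nat_lit 149) (nat_lit 3) (nat_lit 149) (nat_lit 1) (nat_lit 151) (nat_lit 1) (nat_lit 329) (nat_lit 379) (nat_lit 312)) (XT.lf (nat_lit 76) (nat_lit 1948031490) (nat_lit 0) (nat_lit 6190350971) (nat_lit 76) (nat_lit 3201567296) (nat_lit 149) (nat_lit 3) (nat_lit 148) (nat_lit 1) (nat_lit 149) (nat_lit 1) (nat_lit 330) (nat_lit 379) (nat_lit 311))) (XT.nd (nat_lit 78) (nat_lit 76) (nat_lit 0) (XT.lf (nat_lit 0) (nat_lit 2729963740) (nat_lit 0) (nat_lit 3835374504) (nat_lit 152) (nat_lit 4485657740) (nat_lit 146) (nat_lit 3) (nat_lit 146) (nat_lit 1) (nat_lit 148) (nat_lit 1) (nat_lit 331) (nat_lit 379) (nat_lit 310)) (XT.lf (nat_lit 76) (nat_lit 1404997893) (nat_lit 0) (nat_lit 6936876196) (nat_lit 76) (nat_lit 2428526378) (nat_lit 146) (nat_lit 3) (nat_lit 145) (nat_lit 1) (nat_lit 146) (nat_lit 1) (nat_lit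 332) (nat_lit 379) (nat_lit 309)))))) (XT.nd (nat_lit 468) (nat_lit 836) (nat_lit 0) (XT.nd (nat_lit 234) (nat_lit 380) (nat_lit 0) (XT.nd (nat_lit 78) (nat_lit 228) (nat_lit 0) (XT.lf (nat_lit 0) (nat_lit 3178954092) (nat_lit 0) (nat_lit 4081536530) (nat_lit 152) (nat_lit 3235318027) (nat_lit 143) (nat_lit 3) (nat_lit 143) (nat_lit 1) (nat_lit 145) (nat_lit 1) (nat_lit 333) (nat_lit 379) (nat_lit 308)) (XT.nd (nat_lit 78) (nat_lit 152) (nat_lit 0) (XT.lf (nat_lit 76) (nat_lit 897995101) (nat_lit 0) (nat_lit 7598230397) (nat_lit 76) (nat_lit 1733719581) (nat_lit 143) (nat_lit 3) (nat_lit 142) (nat_lit 1) (nat_lit 143) (nat_lit 1) (nat_lit 334) (nat_lit 379) (nat_lit 307)) (XT.lf (nat_lit 0) (nat_lit 3568507010) (nat_lit 0) (nat_lit 4305477451) (nat_lit 152) (nat_lit 2094977191) (nat_lit 140) (nat_lit 3) (nat_lit 140) (nat_lit 1) (nat_lit 142) (nat_lit 1) (nat_lit 335) (nat_lit 379) (nat_lit 306))))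 (XT.nd (nat_lit 78) (nat_lit 304) (nat_lit 0) (XT.lf (nat_lit 76) (nat_lit 427409833) (nat_lit 0) (nat_lit 8179825531) (nat_lit 76) (nat_lit 1109789871) (nat_lit 140) (nat_lit 3) (nat_lit 139) (nat_lit 1) (nat_lit 140) (nat_lit 1) (nat_lit 336) (nat_lit 379) (nat_lit 305)) (XT.nd (nat_lit 78) (nat_lit 152) (nat_lit 0) (XT.lf (nat_lit 0) (nat_lit 3904700636) (nat_lit 0) (nat_lit 4506446701) (nat_lit 152) (nat_lit 1057795730) (nat_lit 137) (nat_lit 3) (nat_lit 137) (nat_lit 1) (nat_lit 139) (nat_lit 1) (nat_lit 337) (nat_lit 379) (nat_lit 304)) (XT.lf (nat_lit 76) (nat_lit 8680107875) (nat_lit 0) (nat_lit 6769001) (nat_lit 152) (nat_lit 543295828) (nat_lit 136) (nat_lit 1) (nat_lit 135) (nat_lit 1) (nat_lit 137) (nat_lit 1) (nat_lit 338) (nat_lit 379) (nat_lit 303))))) (XT.nd (nat_lit 234) (nat_lit 456) (nat_lit 0) (XT.nd (nat_lit 78) (nat_lit 304) (nat_lit 0) (XT.lf (nat_lit 0) (nat_lit 4192932374)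 (nat_lit 0) (nat_lit 4684265956) (nat_lit 152) (nat_lit 117134193) (nat_lit 134) (nat_lit 3) (nat_lit 134) (nat_lit 1) (nat_lit 136) (nat_lit 1) (nat_lit 339) (nat_lit 379) (nat_lit 302)) (XT.nd (nat_lit 78) (nat_lit 76) (nat_lit 0) (XT.lf (nat_lit 152) (nat_lit 8368849722) (nat_lit 0) (nat_lit 362149398) (nat_lit 76) (nat_lit 36430065) (nat_lit 133) (nat_lit 1) (nat_lit 131) (nat_lit 1) (nat_lit 132) (nat_lit 1) (nat_lit 340) (nat_lit 379) (nat_lit 301)) (XT.lf (nat_lit 76) (nat_lit 3692180931) (nat_lit 0) (nat_lit 757660166) (nat_lit 76) (nat_lit 4093361268) (nat_lit 131) (nat_lit 3) (nat_lit 130) (nat_lit 1) (nat_lit 131) (nat_lit 1) (nat_lit 341) (nat_lit 379) (nat_lit 300)))) (XT.nd (nat_lit 156) (nat_lit 228) (nat_lit 0) (XT.nd (nat_lit 78) (nat_lit 76) (nat_lit 0) (XT.lf (nat_lit 0) (nat_lit 417381294) (nat_lit 0) (nat_lit 771155842) (nat_lit 152) (nat_lit 7138874199) (nat_lit 128) (nat_lit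 3) (nat_lit 128) (nat_lit 1) (nat_lit 130) (nat_lit 1) (nat_lit 342) (nat_lit 379) (nat_lit 299)) (XT.lf (nat_lit 76) (nat_lit 3118857313) (nat_lit 0) (nat_lit 1549575126) (nat_lit 76) (nat_lit 3446426339) (nat_lit 128) (nat_lit 3) (nat_lit 127) (nat_lit 1) (nat_lit 128) (nat_lit 1) (nat_lit 343) (nat_lit 379) (nat_lit 298))) (XT.nd (nat_lit 78) (nat_lit 76) (nat_lit 0) (XT.lf (nat_lit 0) (nat_lit 821282321) (nat_lit 0) (nat_lit 1110143896) (nat_lit 152) (nat_lit 5978252905) (nat_lit 125) (nat_lit 3) (nat_lit 125) (nat_lit 1) (nat_lit 127) (nat_lit 1) (nat_lit 344) (nat_lit 379) (nat_lit 297)) (XT.lf (nat_lit 76) (nat_lit 2589972610) (nat_lit 0) (nat_lit 2260795207) (nat_lit 76) (nat_lit 2857437031) (nat_lit 125) (nat_lit 3) (nat_lit 124) (nat_lit 1) (nat_lit 125) (nat_lit 1) (nat_lit 345) (nat_lit 379) (nat_lit 296))))))) (XT.nd (nat_lit 1014) (nat_lit 1672) (nat_lit 0) (XT.nd (nat_lit 468)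 (nat_lit 836) (nat_lit 0) (XT.nd (nat_lit 234) (nat_lit 304) (nat_lit 0) (XT.nd (nat_lit 78) (nat_lit 228) (nat_lit 0) (XT.lf (nat_lit 0) (nat_lit 1180705527) (nat_lit 0) (nat_lit 1416564805) (nat_lit 152) (nat_lit 4915830808) (nat_lit 122) (nat_lit 3) (nat_lit 122) (nat_lit 1) (nat_lit 124) (nat_lit 1) (nat_lit 346) (nat_lit 379) (nat_lit 295)) (XT.nd (nat_lit 78) (nat_lit 152) (nat_lit 0) (XT.lf (nat_lit 76) (nat_lit 2103323025) (nat_lit 0) (nat_lit 2897081900) (nat_lit 76) (nat_lit 2321711246) (nat_lit 122) (nat_lit 3) (nat_lit 121) (nat_lit 1) (nat_lit 122) (nat_lit 1) (nat_lit 347) (nat_lit 379) (nat_lit 294)) (XT.lf (nat_lit 0) (nat_lit 1499524060) (nat_lit 0) (nat_lit 1692106265) (nat_lit 152) (nat_lit 3944951964) (nat_lit 119) (nat_lit 3) (nat_lit 119) (nat_lit 1) (nat_lit 121) (nat_lit 1) (nat_lit 348) (nat_lit 379) (nat_lit 293)))) (XT.nd (nat_lit 78) (nat_lit 228) (nat_lit 0) (XT.lf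 (nat_lit 76) (nat_lit 1656658323) (nat_lit 0) (nat_lit 3463897214) (nat_lit 76) (nat_lit 1834975179) (nat_lit 119) (nat_lit 3) (nat_lit 118) (nat_lit 1) (nat_lit 119) (nat_lit 1) (nat_lit 349) (nat_lit 379) (nat_lit 292)) (XT.nd (nat_lit 78) (nat_lit 76) (nat_lit 0) (XT.lf (nat_lit 0) (nat_lit 1781262190) (nat_lit 0) (nat_lit 1938508095) (nat_lit 152) (nat_lit 3059317550) (nat_lit 116) (nat_lit 3) (nat_lit 116) (nat_lit 1) (nat_lit 118) (nat_lit 1) (nat_lit 350) (nat_lit 379) (nat_lit 291)) (XT.lf (nat_lit 76) (nat_lit 1247720984) (nat_lit 0) (nat_lit 3966404636) (nat_lit 76) (nat_lit 1393319044) (nat_lit 116) (nat_lit 3) (nat_lit 115) (nat_lit 1) (nat_lit 116) (nat_lit 1) (nat_lit 351) (nat_lit 379) (nat_lit 290))))) (XT.nd (nat_lit 234) (nat_lit 456) (nat_lit 0) (XT.nd (nat_lit 78) (nat_lit 228) (nat_lit 0) (XT.lf (nat_lit 0) (nat_lit 2029133461) (nat_lit 0) (nat_lit 2157526812) (nat_lit 152)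 (nat_lit 2252979193) (nat_lit 113) (nat_lit 3) (nat_lit 113) (nat_lit 1) (nat_lit 115) (nat_lit 1) (nat_lit 352) (nat_lit 379) (nat_lit 289)) (XT.nd (nat_lit 78) (nat_lit 152) (nat_lit 0) (XT.lf (nat_lit 76) (nat_lit 874276228) (nat_lit 0) (nat_lit 4409473465) (nat_lit 76) (nat_lit 993158960) (nat_lit 113) (nat_lit 3) (nat_lit 112) (nat_lit 1) (nat_lit 113) (nat_lit 1) (nat_lit 353) (nat_lit 379) (nat_lit 288)) (XT.lf (nat_lit 0) (nat_lit 2246073546) (nat_lit 0) (nat_lit 2350908408) (nat_lit 152) (nat_lit 1520329738) (nat_lit 110) (nat_lit 3) (nat_lit 110) (nat_lit 1) (nat_lit 112) (nat_lit 1) (nat_lit 354) (nat_lit 379) (nat_lit 287)))) (XT.nd (nat_lit 156) (nat_lit 228) (nat_lit 0) (XT.nd (nat_lit 78) (nat_lit 152) (nat_lit 0) (XT.lf (nat_lit 76) (nat_lit 534134678) (nat_lit 0) (nat_lit 4797685680) (nat_lit 76) (nat_lit 631203994) (nat_lit 110) (nat_lit 3) (nat_lit 109) (nat_lit 1) (nat_lit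 110) (nat_lit 1) (nat_lit 355) (nat_lit 379) (nat_lit 286)) (XT.lf (nat_lit 0) (nat_lit 2434768678) (nat_lit 0) (nat_lit 2520367722) (nat_lit 152) (nat_lit 856092185) (nat_lit 107) (nat_lit 3) (nat_lit 107) (nat_lit 1) (nat_lit 109) (nat_lit 1) (nat_lit 356) (nat_lit 379) (nat_lit 285))) (XT.nd (nat_lit 78) (nat_lit 152) (nat_lit 0) (XT.lf (nat_lit 76) (nat_lit 225169141) (nat_lit 0) (nat_lit 5135344671) (nat_lit 76) (nat_lit 304427515) (nat_lit 107) (nat_lit 3) (nat_lit 106) (nat_lit 1) (nat_lit 107) (nat_lit 1) (nat_lit 357) (nat_lit 379) (nat_lit 284)) (XT.lf (nat_lit 0) (nat_lit 2597680346) (nat_lit 0) (nat_lit 2667573092) (nat_lit 152) (nat_lit 255307325) (nat_lit 104) (nat_lit 3) (nat_lit 104) (nat_lit 1) (nat_lit 106) (nat_lit 1) (nat_lit 358) (nat_lit 379) (nat_lit 283)))))) (XT.nd (nat_lit 546) (nat_lit 760) (nat_lit 0) (XT.nd (nat_lit 234) (nat_lit 456) (nat_lit 0) (XT.nd (nat_lit 78)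 (nat_lit 228) (nat_lit 0) (XT.lf (nat_lit 152) (nat_lit 5328146688) (nat_lit 0) (nat_lit 45224987) (nat_lit 76) (nat_lit 8404521) (nat_lit 103) (nat_lit 1) (nat_lit 101) (nat_lit 1) (nat_lit 102) (nat_lit 1) (nat_lit 359) (nat_lit 379) (nat_lit 282)) (XT.nd (nat_lit 78) (nat_lit 152) (nat_lit 0) (XT.lf (nat_lit 76) (nat_lit 2445532355) (nat_lit 0) (nat_lit 296158386) (nat_lit 76) (nat_lit 2502600702) (nat_lit 101) (nat_lit 3) (nat_lit 100) (nat_lit 1) (nat_lit 101) (nat_lit 1) (nat_lit 360) (nat_lit 379) (nat_lit 281)) (XT.lf (nat_lit 0) (nat_lit 260385655) (nat_lit 0) (nat_lit 310710476) (nat_lit 152) (nat_lit 4541004567) (nat_lit 98) (nat_lit 3) (nat_lit 98) (nat_lit 1) (nat_lit 100) (nat_lit 1) (nat_lit 361) (nat_lit 379) (nat_lit 280)))) (XT.nd (nat_lit 156) (nat_lit 228) (nat_lit 0) (XT.nd (nat_lit 78) (nat_lit 152) (nat_lit 0) (XT.lf (nat_lit 76) (nat_lit 2067658440) (nat_lit 0) (nat_lit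 799831545) (nat_lit 76) (nat_lit 2114255497) (nat_lit 98) (nat_lit 3) (nat_lit 97) (nat_lit 1) (nat_lit 98) (nat_lit 1) (nat_lit 362) (nat_lit 379) (nat_lit 279)) (XT.lf (nat_lit 0) (nat_lit 501077319) (nat_lit 0) (nat_lit 542168198) (nat_lit 152) (nat_lit 3812767265) (nat_lit 95) (nat_lit 3) (nat_lit 95) (nat_lit 1) (nat_lit 97) (nat_lit 1) (nat_lit 363) (nat_lit 379) (nat_lit 278))) (XT.nd (nat_lit 78) (nat_lit 152) (nat_lit 0) (XT.lf (nat_lit 76) (nat_lit 1721440219) (nat_lit 0) (nat_lit 1251492466) (nat_lit 76) (nat_lit 1759487329) (nat_lit 95) (nat_lit 3) (nat_lit 94) (nat_lit 1) (nat_lit 95) (nat_lit 1) (nat_lit 364) (nat_lit 379) (nat_lit 277)) (XT.lf (nat_lit 0) (nat_lit 716153624) (nat_lit 0) (nat_lit 749704868) (nat_lit 152) (nat_lit 3146968730) (nat_lit 92) (nat_lit 3) (nat_lit 92) (nat_lit 1) (nat_lit 94) (nat_lit 1) (nat_lit 365) (nat_lit 379) (nat_lit 276))))) (XT.nd (nat_lit 234)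 (nat_lit 456) (nat_lit 0) (XT.nd (nat_lit 78) (nat_lit 228) (nat_lit 0) (XT.lf (nat_lit 76) (nat_lit 1404742924) (nat_lit 0) (nat_lit 1655091374) (nat_lit 76) (nat_lit 1435808890) (nat_lit 92) (nat_lit 3) (nat_lit 91) (nat_lit 1) (nat_lit 92) (nat_lit 1) (nat_lit 366) (nat_lit 379) (nat_lit 275)) (XT.nd (nat_lit 78) (nat_lit 76) (nat_lit 0) (XT.lf (nat_lit 0) (nat_lit 907662694) (nat_lit 0) (nat_lit 935057726) (nat_lit 152) (nat_lit 2539167782) (nat_lit 89) (nat_lit 3) (nat_lit 89) (nat_lit 1) (nat_lit 91) (nat_lit 1) (nat_lit 367) (nat_lit 379) (nat_lit 274)) (XT.lf (nat_lit 76) (nat_lit 1115545593) (nat_lit 0) (nat_lit 2014321049) (nat_lit 76) (nat_lit 1140911363) (nat_lit 89) (nat_lit 3) (nat_lit 88) (nat_lit 1) (nat_lit 89) (nat_lit 1) (nat_lit 368) (nat_lit 379) (nat_lit 273)))) (XT.nd (nat_lit 156) (nat_lit 228) (nat_lit 0) (XT.nd (nat_lit 78) (nat_lit 76) (nat_lit 0) (XT.lf (nat_lit 0)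 (nat_lit 1077500029) (nat_lit 0) (nat_lit 1099868433) (nat_lit 152) (nat_lit 1985205429) (nat_lit 86) (nat_lit 3) (nat_lit 86) (nat_lit 1) (nat_lit 88) (nat_lit 1) (nat_lit 369) (nat_lit 379) (nat_lit 272)) (XT.lf (nat_lit 76) (nat_lit 851939061) (nat_lit 0) (nat_lit 2332630792) (nat_lit 76) (nat_lit 872650546) (nat_lit 86) (nat_lit 3) (nat_lit 85) (nat_lit 1) (nat_lit 86) (nat_lit 1) (nat_lit 370) (nat_lit 379) (nat_lit 271))) (XT.nd (nat_lit 78) (nat_lit 76) (nat_lit 0) (XT.lf (nat_lit 0) (nat_lit 1227420574) (nat_lit 0) (nat_lit 1245684670) (nat_lit 152) (nat_lit 1481189339) (nat_lit 83) (nat_lit 3) (nat_lit 83) (nat_lit 1) (nat_lit 85) (nat_lit 1) (nat_lit 371) (nat_lit 379) (nat_lit 270)) (XT.lf (nat_lit 76) (nat_lit 612123116) (nat_lit 0) (nat_lit 2613240023) (nat_lit 76) (nat_lit 629034316) (nat_lit 83) (nat_lit 3) (nat_lit 82) (nat_lit 1) (nat_lit 83) (nat_lit 1) (nat_lit 372) (nat_lit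 379) (nat_lit 269))))))))
noncomputable def ec113 : XT := (XT.nd (nat_lit 2106) (nat_lit 2052) (nat_lit 0) (XT.nd (nat_lit 1014) (nat_lit 1748) (nat_lit 0) (XT.nd (nat_lit 468) (nat_lit 912) (nat_lit 0) (XT.nd (nat_lit 234) (nat_lit 304) (nat_lit 0) (XT.nd (nat_lit 78) (nat_lit 228) (nat_lit 0) (XT.lf (nat_lit 0) (nat_lit 1359049622) (nat_lit 0) (nat_lit 1373962497) (nat_lit 152) (nat_lit 1023478840) (nat_lit 80) (nat_lit 3) (nat_lit 80) (nat_lit 1) (nat_lit 82) (nat_lit 1) (nat_lit 373) (nat_lit 379) (nat_lit 268)) (XT.nd (nat_lit 78) (nat_lit 152) (nat_lit 0) (XT.lf (nat_lit 76) (nat_lit 394403036) (nat_lit 0) (nat_lit 2859151426) (nat_lit 76) (nat_lit 408211254) (nat_lit 80) (nat_lit 3) (nat_lit 79) (nat_lit 1) (nat_lit 80) (nat_lit 1) (nat_lit 374) (nat_lit 379) (nat_lit 267)) (XT.lf (nat_lit 0) (nat_lit 1473892702) (nat_lit 0) (nat_lit 1486069260) (nat_lit 152) (nat_lit 608670488) (nat_lit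 77) (nat_lit 3) (nat_lit 77) (nat_lit 1) (nat_lit 79) (nat_lit 1) (nat_lit 375) (nat_lit 379) (nat_lit 266)))) (XT.nd (nat_lit 78) (nat_lit 228) (nat_lit 0) (XT.lf (nat_lit 76) (nat_lit 197185708) (nat_lit 0) (nat_lit 3073163611) (nat_lit 76) (nat_lit 208460300) (nat_lit 77) (nat_lit 3) (nat_lit 76) (nat_lit 1) (nat_lit 77) (nat_lit 1) (nat_lit 376) (nat_lit 379) (nat_lit 265)) (XT.nd (nat_lit 78) (nat_lit 76) (nat_lit 0) (XT.lf (nat_lit 0) (nat_lit 1573344572) (nat_lit 0) (nat_lit 1583286893) (nat_lit 152) (nat_lit 233584244) (nat_lit 74) (nat_lit 3) (nat_lit 74) (nat_lit 1) (nat_lit 76) (nat_lit 1) (nat_lit 377) (nat_lit 379) (nat_lit 264)) (XT.lf (nat_lit 76) (nat_lit 18975449) (nat_lit 0) (nat_lit 3257883253) (nat_lit 76) (nat_lit 28181301) (nat_lit 74) (nat_lit 3) (nat_lit 73) (nat_lit 1) (nat_lit 74) (nat_lit 1) (nat_lit 378) (nat_lit 379) (nat_lit 263))))) (XT.nd (nat_lit 234) (nat_lit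 456) (nat_lit 0) (XT.nd (nat_lit 78) (nat_lit 228) (nat_lit 0) (XT.lf (nat_lit 76) (nat_lit 1552173712) (nat_lit 0) (nat_lit 108213228) (nat_lit 76) (nat_lit 1560291748) (nat_lit 71) (nat_lit 3) (nat_lit 70) (nat_lit 1) (nat_lit 71) (nat_lit 1) (nat_lit 379) (nat_lit 379) (nat_lit 262)) (XT.nd (nat_lit 78) (nat_lit 76) (nat_lit 0) (XT.lf (nat_lit 0) (nat_lit 136552797) (nat_lit 0) (nat_lit 143711558) (nat_lit 152) (nat_lit 2859287087) (nat_lit 68) (nat_lit 3) (nat_lit 68) (nat_lit 1) (nat_lit 70) (nat_lit 1) (nat_lit 380) (nat_lit 379) (nat_lit 261)) (XT.lf (nat_lit 76) (nat_lit 1315116392) (nat_lit 0) (nat_lit 422630472) (nat_lit 76) (nat_lit 1321744875) (nat_lit 68) (nat_lit 3) (nat_lit 67) (nat_lit 1) (nat_lit 68) (nat_lit 1) (nat_lit 381) (nat_lit 379) (nat_lit 260)))) (XT.nd (nat_lit 156) (nat_lit 228) (nat_lit 0) (XT.nd (nat_lit 78) (nat_lit 76) (nat_lit 0) (XT.lf (nat_lit 0) (nat_lit 284591526)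 (nat_lit 0) (nat_lit 290436749) (nat_lit 152) (nat_lit 2407293656) (nat_lit 65) (nat_lit 3) (nat_lit 65) (nat_lit 1) (nat_lit 67) (nat_lit 1) (nat_lit 382) (nat_lit 379) (nat_lit 259)) (XT.lf (nat_lit 76) (nat_lit 1098191329) (nat_lit 0) (nat_lit 704616228) (nat_lit 76) (nat_lit 1103603572) (nat_lit 65) (nat_lit 3) (nat_lit 64) (nat_lit 1) (nat_lit 65) (nat_lit 1) (nat_lit 383) (nat_lit 379) (nat_lit 258))) (XT.nd (nat_lit 78) (nat_lit 76) (nat_lit 0) (XT.lf (nat_lit 0) (nat_lit 417073368) (nat_lit 0) (nat_lit 421846069) (nat_lit 152) (nat_lit 1994085472) (nat_lit 62) (nat_lit 3) (nat_lit 62) (nat_lit 1) (nat_lit 64) (nat_lit 1) (nat_lit 384) (nat_lit 379) (nat_lit 257)) (XT.lf (nat_lit 76) (nat_lit 899972570) (nat_lit 0) (nat_lit 956662514) (nat_lit 76) (nat_lit 904391738) (nat_lit 62) (nat_lit 3) (nat_lit 61) (nat_lit 1) (nat_lit 62) (nat_lit 1) (nat_lit 385) (nat_lit 379) (nat_lit 256))))))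 (XT.nd (nat_lit 546) (nat_lit 912) (nat_lit 0) (XT.nd (nat_lit 234) (nat_lit 456) (nat_lit 0) (XT.nd (nat_lit 78) (nat_lit 228) (nat_lit 0) (XT.lf (nat_lit 0) (nat_lit 535212729) (nat_lit 0) (nat_lit 539109703) (nat_lit 152) (nat_lit 1616877482) (nat_lit 59) (nat_lit 3) (nat_lit 59) (nat_lit 1) (nat_lit 61) (nat_lit 1) (nat_lit 386) (nat_lit 379) (nat_lit 255)) (XT.nd (nat_lit 78) (nat_lit 152) (nat_lit 0) (XT.lf (nat_lit 76) (nat_lit 719124504) (nat_lit 0) (nat_lit 1181092388) (nat_lit 76) (nat_lit 722732813) (nat_lit 59) (nat_lit 3) (nat_lit 58) (nat_lit 1) (nat_lit 59) (nat_lit 1) (nat_lit 387) (nat_lit 379) (nat_lit 254)) (XT.lf (nat_lit 0) (nat_lit 640138858) (nat_lit 0) (nat_lit 643320788) (nat_lit 152) (nat_lit 1273067268) (nat_lit 56) (nat_lit 3) (nat_lit 56) (nat_lit 1) (nat_lit 58) (nat_lit 1) (nat_lit 388) (nat_lit 379) (nat_lit 253)))) (XT.nd (nat_lit 156) (nat_lit 228) (nat_lit 0)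 (XT.nd (nat_lit 78) (nat_lit 152) (nat_lit 0) (XT.lf (nat_lit 76) (nat_lit 554396909) (nat_lit 0) (nat_lit 1380070440) (nat_lit 76) (nat_lit 557343140) (nat_lit 56) (nat_lit 3) (nat_lit 55) (nat_lit 1) (nat_lit 56) (nat_lit 1) (nat_lit 389) (nat_lit 379) (nat_lit 252)) (XT.lf (nat_lit 0) (nat_lit 732901653) (nat_lit 0) (nat_lit 735499740) (nat_lit 152) (nat_lit 960223864) (nat_lit 53) (nat_lit 3) (nat_lit 53) (nat_lit 1) (nat_lit 55) (nat_lit 1) (nat_lit 390) (nat_lit 379) (nat_lit 251))) (XT.nd (nat_lit 78) (nat_lit 152) (nat_lit 0) (XT.lf (nat_lit 76) (nat_lit 404620164) (nat_lit 0) (nat_lit 1555612730) (nat_lit 76) (nat_lit 407025801) (nat_lit 53) (nat_lit 3) (nat_lit 52) (nat_lit 1) (nat_lit 53) (nat_lit 1) (nat_lit 391) (nat_lit 379) (nat_lit 250)) (XT.lf (nat_lit 0) (nat_lit 814477048) (nat_lit 0) (nat_lit 816598421) (nat_lit 152) (nat_lit 676077193) (nat_lit 50) (nat_lit 3) (nat_lit 50)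 (nat_lit 1) (nat_lit 52) (nat_lit 1) (nat_lit 392) (nat_lit 379) (nat_lit 249))))) (XT.nd (nat_lit 234) (nat_lit 608) (nat_lit 0) (XT.nd (nat_lit 78) (nat_lit 228) (nat_lit 0) (XT.lf (nat_lit 76) (nat_lit 268700650) (nat_lit 0) (nat_lit 1709596140) (nat_lit 76) (nat_lit 270664884) (nat_lit 50) (nat_lit 3) (nat_lit 49) (nat_lit 1) (nat_lit 50) (nat_lit 1) (nat_lit 393) (nat_lit 379) (nat_lit 248)) (XT.nd (nat_lit 78) (nat_lit 76) (nat_lit 0) (XT.lf (nat_lit 0) (nat_lit 885772018) (nat_lit 0) (nat_lit 887504147) (nat_lit 152) (nat_lit 418508105) (nat_lit 47) (nat_lit 3) (nat_lit 47) (nat_lit 1) (nat_lit 49) (nat_lit 1) (nat_lit 394) (nat_lit 379) (nat_lit 247)) (XT.lf (nat_lit 76) (nat_lit 145616327) (nat_lit 0) (nat_lit 1843767217) (nat_lit 76) (nat_lit 147220150) (nat_lit 47) (nat_lit 3) (nat_lit 46) (nat_lit 1) (nat_lit 47) (nat_lit 1) (nat_lit 395) (nat_lit 379) (nat_lit 246)))) (XT.nd (nat_lit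 156) (nat_lit 380) (nat_lit 0) (XT.nd (nat_lit 78) (nat_lit 76) (nat_lit 0) (XT.lf (nat_lit 0) (nat_lit 947629232) (nat_lit 0) (nat_lit 949043538) (nat_lit 152) (nat_lit 185538978) (nat_lit 44) (nat_lit 3) (nat_lit 44) (nat_lit 1) (nat_lit 46) (nat_lit 1) (nat_lit 396) (nat_lit 379) (nat_lit 245)) (XT.lf (nat_lit 76) (nat_lit 34412518) (nat_lit 0) (nat_lit 1959750481) (nat_lit 76) (nat_lit 35722061) (nat_lit 44) (nat_lit 3) (nat_lit 43) (nat_lit 1) (nat_lit 44) (nat_lit 1) (nat_lit 397) (nat_lit 379) (nat_lit 244))) (XT.nd (nat_lit 78) (nat_lit 152) (nat_lit 0) (XT.lf (nat_lit 76) (nat_lit 975738370) (nat_lit 0) (nat_lit 25491000) (nat_lit 76) (nat_lit 976893170) (nat_lit 41) (nat_lit 3) (nat_lit 40) (nat_lit 1) (nat_lit 41) (nat_lit 1) (nat_lit 398) (nat_lit 379) (nat_lit 243)) (XT.lf (nat_lit 0) (nat_lit 65828269) (nat_lit 0) (nat_lit 66846611) (nat_lit 152) (nat_lit 1795637525) (nat_lit 38)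 (nat_lit 3) (nat_lit 38) (nat_lit 1) (nat_lit 40) (nat_lit 1) (nat_lit 399) (nat_lit 379) (nat_lit 242))))))) (XT.nd (nat_lit 1014) (nat_lit 608) (nat_lit 0) (XT.nd (nat_lit 468) (nat_lit 760) (nat_lit 0) (XT.nd (nat_lit 234) (nat_lit 380) (nat_lit 0) (XT.nd (nat_lit 78) (nat_lit 228) (nat_lit 0) (XT.lf (nat_lit 76) (nat_lit 828628680) (nat_lit 0) (nat_lit 220925823) (nat_lit 76) (nat_lit 829571589) (nat_lit 38) (nat_lit 3) (nat_lit 37) (nat_lit 1) (nat_lit 38) (nat_lit 1) (nat_lit 400) (nat_lit 379) (nat_lit 241)) (XT.nd (nat_lit 78) (nat_lit 76) (nat_lit 0) (XT.lf (nat_lit 0) (nat_lit 157555017) (nat_lit 0) (nat_lit 158386507) (nat_lit 152) (nat_lit 1515803409) (nat_lit 35) (nat_lit 3) (nat_lit 35) (nat_lit 1) (nat_lit 37) (nat_lit 1) (nat_lit 401) (nat_lit 379) (nat_lit 240)) (XT.lf (nat_lit 76) (nat_lit 694024643) (nat_lit 0) (nat_lit 396287874) (nat_lit 76) (nat_lit 694794541) (nat_lit 35)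 (nat_lit 3) (nat_lit 34) (nat_lit 1) (nat_lit 35) (nat_lit 1) (nat_lit 402) (nat_lit 379) (nat_lit 239)))) (XT.nd (nat_lit 78) (nat_lit 228) (nat_lit 0) (XT.lf (nat_lit 0) (nat_lit 239711103) (nat_lit 0) (nat_lit 240390025) (nat_lit 152) (nat_lit 1259934920) (nat_lit 32) (nat_lit 3) (nat_lit 32) (nat_lit 1) (nat_lit 34) (nat_lit 1) (nat_lit 403) (nat_lit 379) (nat_lit 238)) (XT.nd (nat_lit 78) (nat_lit 152) (nat_lit 0) (XT.lf (nat_lit 76) (nat_lit 571031866) (nat_lit 0) (nat_lit 553121568) (nat_lit 76) (nat_lit 571660498) (nat_lit 32) (nat_lit 3) (nat_lit 31) (nat_lit 1) (nat_lit 32) (nat_lit 1) (nat_lit 404) (nat_lit 379) (nat_lit 237)) (XT.lf (nat_lit 0) (nat_lit 313038369) (nat_lit 0) (nat_lit 313592718) (nat_lit 152) (nat_lit 1026308998) (nat_lit 29) (nat_lit 3) (nat_lit 29) (nat_lit 1) (nat_lit 31) (nat_lit 1) (nat_lit 405) (nat_lit 379) (nat_lit 236))))) (XT.nd (nat_lit 234) (nat_lit 456)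 (nat_lit 0) (XT.nd (nat_lit 78) (nat_lit 228) (nat_lit 0) (XT.lf (nat_lit 76) (nat_lit 458814472) (nat_lit 0) (nat_lit 692865761) (nat_lit 76) (nat_lit 459327758) (nat_lit 29) (nat_lit 3) (nat_lit 28) (nat_lit 1) (nat_lit 29) (nat_lit 1) (nat_lit 406) (nat_lit 379) (nat_lit 235)) (XT.nd (nat_lit 78) (nat_lit 76) (nat_lit 0) (XT.lf (nat_lit 0) (nat_lit 378227462) (nat_lit 0) (nat_lit 378680095) (nat_lit 152) (nat_lit 813316311) (nat_lit 26) (nat_lit 3) (nat_lit 26) (nat_lit 1) (nat_lit 28) (nat_lit 1) (nat_lit 407) (nat_lit 379) (nat_lit 234)) (XT.lf (nat_lit 76) (nat_lit 356591522) (nat_lit 0) (nat_lit 816860492) (nat_lit 76) (nat_lit 357010627) (nat_lit 26) (nat_lit 3) (nat_lit 25) (nat_lit 1) (nat_lit 26) (nat_lit 1) (nat_lit 408) (nat_lit 379) (nat_lit 233)))) (XT.nd (nat_lit 156) (nat_lit 228) (nat_lit 0) (XT.nd (nat_lit 78) (nat_lit 76) (nat_lit 0) (XT.lf (nat_lit 0) (nat_lit 435921177)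 (nat_lit 0) (nat_lit 436290757) (nat_lit 152) (nat_lit 619454142) (nat_lit 23) (nat_lit 3) (nat_lit 23) (nat_lit 1) (nat_lit 25) (nat_lit 1) (nat_lit 409) (nat_lit 379) (nat_lit 232)) (XT.lf (nat_lit 76) (nat_lit 263633636) (nat_lit 0) (nat_lit 926353311) (nat_lit 76) (nat_lit 263975840) (nat_lit 23) (nat_lit 3) (nat_lit 22) (nat_lit 1) (nat_lit 23) (nat_lit 1) (nat_lit 410) (nat_lit 379) (nat_lit 231))) (XT.nd (nat_lit 78) (nat_lit 76) (nat_lit 0) (XT.lf (nat_lit 0) (nat_lit 486717582) (nat_lit 0) (nat_lit 487019350) (nat_lit 152) (nat_lit 443319698) (nat_lit 20) (nat_lit 3) (nat_lit 20) (nat_lit 1) (nat_lit 22) (nat_lit 1) (nat_lit 411) (nat_lit 379) (nat_lit 230)) (XT.lf (nat_lit 76) (nat_lit 179259808) (nat_lit 0) (nat_lit 1022505227) (nat_lit 76) (nat_lit 179539223) (nat_lit 20) (nat_lit 3) (nat_lit 19) (nat_lit 1) (nat_lit 20) (nat_lit 1) (nat_lit 412) (nat_lit 379) (nat_lit 229)))))) (XT.nd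 (nat_lit 41340) (nat_lit 0) (nat_lit 20444) (XT.nd (nat_lit 234) (nat_lit 228) (nat_lit 0) (XT.nd (nat_lit 78) (nat_lit 228) (nat_lit 0) (XT.lf (nat_lit 0) (nat_lit 531172951) (nat_lit 0) (nat_lit 531419348) (nat_lit 152) (nat_lit 283603824) (nat_lit 17) (nat_lit 3) (nat_lit 17) (nat_lit 1) (nat_lit 19) (nat_lit 1) (nat_lit 413) (nat_lit 379) (nat_lit 228)) (XT.nd (nat_lit 78) (nat_lit 152) (nat_lit 0) (XT.lf (nat_lit 76) (nat_lit 102834399) (nat_lit 0) (nat_lit 1106396291) (nat_lit 76) (nat_lit 103062545) (nat_lit 17) (nat_lit 3) (nat_lit 16) (nat_lit 1) (nat_lit 17) (nat_lit 1) (nat_lit 414) (nat_lit 379) (nat_lit 227)) (XT.lf (nat_lit 0) (nat_lit 569804497) (nat_lit 0) (nat_lit 570005684) (nat_lit 152) (nat_lit 139085090) (nat_lit 14) (nat_lit 3) (nat_lit 14) (nat_lit 1) (nat_lit 16) (nat_lit 1) (nat_lit 415) (nat_lit 379) (nat_lit 226)))) (XT.nd (nat_lit 40950) (nat_lit 0) (nat_lit 21356)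 (XT.nd (nat_lit 78) (nat_lit 152) (nat_lit 0) (XT.lf (nat_lit 76) (nat_lit 33764305) (nat_lit 0) (nat_lit 1179030844) (nat_lit 76) (nat_lit 33950589) (nat_lit 14) (nat_lit 3) (nat_lit 13) (nat_lit 1) (nat_lit 14) (nat_lit 1) (nat_lit 416) (nat_lit 379) (nat_lit 225)) (XT.lf (nat_lit 0) (nat_lit 603092942) (nat_lit 0) (nat_lit 603257214) (nat_lit 152) (nat_lit 8624240) (nat_lit 11) (nat_lit 3) (nat_lit 11) (nat_lit 1) (nat_lit 13) (nat_lit 1) (nat_lit 417) (nat_lit 379) (nat_lit 224))) (XT.nd (nat_lit 78) (nat_lit 0) (nat_lit 76) (XT.lf (nat_lit 836) (nat_lit 11673468035) (nat_lit 0) (nat_lit 20726215664) (nat_lit 836) (nat_lit 11673468035) (nat_lit 303) (nat_lit 1) (nat_lit 292) (nat_lit 0) (nat_lit 303) (nat_lit 0) (nat_lit 260) (nat_lit 380) (nat_lit 380)) (XT.lf (nat_lit 836) (nat_lit 4354561767) (nat_lit 0) (nat_lit 40691842972) (nat_lit 760) (nat_lit 39796486479) (nat_lit 304) (nat_lit 1)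 (nat_lit 293) (nat_lit 1) (nat_lit 303) (nat_lit 1) (nat_lit 261) (nat_lit 380) (nat_lit 379))))) (XT.nd (nat_lit 234) (nat_lit 988) (nat_lit 0) (XT.nd (nat_lit 78) (nat_lit 0) (nat_lit 76) (XT.lf (nat_lit 836) (nat_lit 39994136344) (nat_lit 76) (nat_lit 27251340955) (nat_lit 0) (nat_lit 14452868142) (nat_lit 304) (nat_lit 1) (nat_lit 294) (nat_lit 1) (nat_lit 293) (nat_lit 1) (nat_lit 262) (nat_lit 380) (nat_lit 378)) (XT.nd (nat_lit 78) (nat_lit 0) (nat_lit 76) (XT.lf (nat_lit 836) (nat_lit 34558210168) (nat_lit 76) (nat_lit 11420848105) (nat_lit 0) (nat_lit 32732102438) (nat_lit 305) (nat_lit 1) (nat_lit 295) (nat_lit 1) (nat_lit 294) (nat_lit 1) (nat_lit 263) (nat_lit 380) (nat_lit 377)) (XT.lf (nat_lit 836) (nat_lit 25576013561) (nat_lit 0) (nat_lit 47851512448) (nat_lit 760) (nat_lit 2446162479) (nat_lit 306) (nat_lit 1) (nat_lit 295) (nat_lit 1) (nat_lit 305) (nat_lit 1) (nat_lit 264)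 (nat_lit 380) (nat_lit 376)))) (XT.nd (nat_lit 156) (nat_lit 1216) (nat_lit 0) (XT.nd (nat_lit 78) (nat_lit 0) (nat_lit 0) (XT.lf (nat_lit 836) (nat_lit 6136713688) (nat_lit 0) (nat_lit 52769586139) (nat_lit 760) (nat_lit 14265425599) (nat_lit 307) (nat_lit 1) (nat_lit 296) (nat_lit 1) (nat_lit 306) (nat_lit 1) (nat_lit 265) (nat_lit 380) (nat_lit 375)) (XT.lf (nat_lit 836) (nat_lit 11792267696) (nat_lit 76) (nat_lit 45861067567) (nat_lit 0) (nat_lit 12942559085) (nat_lit 307) (nat_lit 1) (nat_lit 297) (nat_lit 1) (nat_lit 296) (nat_lit 1) (nat_lit 266) (nat_lit 380) (nat_lit 374))) (XT.nd (nat_lit 78) (nat_lit 532) (nat_lit 0) (XT.lf (nat_lit 836) (nat_lit 2421862885) (nat_lit 0) (nat_lit 34284181599) (nat_lit 760) (nat_lit 31438235302) (nat_lit 298) (nat_lit 1) (nat_lit 287) (nat_lit 1) (nat_lit 297) (nat_lit 1) (nat_lit 267) (nat_lit 380) (nat_lit 373)) (XT.lf (nat_lit 76) (nat_lit 16769483109)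 (nat_lit 0) (nat_lit 7266997420) (nat_lit 532) (nat_lit 41772266278) (nat_lit 281) (nat_lit 1) (nat_lit 280) (nat_lit 1) (nat_lit 287) (nat_lit 1) (nat_lit 268) (nat_lit 380) (nat_lit 372))))))))
noncomputable def ec114 : XT := (XT.nd (nat_lit 2028) (nat_lit 3420) (nat_lit 0) (XT.nd (nat_lit 1014) (nat_lit 2204) (nat_lit 0) (XT.nd (nat_lit 468) (nat_lit 1900) (nat_lit 0) (XT.nd (nat_lit 234) (nat_lit 684) (nat_lit 0) (XT.nd (nat_lit 78) (nat_lit 684) (nat_lit 0) (XT.lf (nat_lit 456) (nat_lit 46214584729) (nat_lit 0) (nat_lit 15043843635) (nat_lit 380) (nat_lit 2325871180) (nat_lit 281) (nat_lit 1) (nat_lit 275) (nat_lit 1) (nat_lit 280) (nat_lit 1) (nat_lit 269) (nat_lit 380) (nat_lit 371)) (XT.nd (nat_lit 78) (nat_lit 304) (nat_lit 0) (XT.lf (nat_lit 456) (nat_lit 33348884429) (nat_lit 0) (nat_lit 7012000322) (nat_lit 380) (nat_lit 21094614785) (nat_lit 276) (nat_lit 1) (nat_lit 270) (nat_lit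 1) (nat_lit 275) (nat_lit 1) (nat_lit 270) (nat_lit 380) (nat_lit 370)) (XT.lf (nat_lit 380) (nat_lit 20292370845) (nat_lit 0) (nat_lit 129102321) (nat_lit 304) (nat_lit 39008447246) (nat_lit 271) (nat_lit 1) (nat_lit 266) (nat_lit 1) (nat_lit 270) (nat_lit 1) (nat_lit 271) (nat_lit 380) (nat_lit 369)))) (XT.nd (nat_lit 78) (nat_lit 684) (nat_lit 0) (XT.lf (nat_lit 76) (nat_lit 1497075219) (nat_lit 0) (nat_lit 50488630604) (nat_lit 380) (nat_lit 5511815720) (nat_lit 267) (nat_lit 1) (nat_lit 266) (nat_lit 1) (nat_lit 271) (nat_lit 1) (nat_lit 272) (nat_lit 380) (nat_lit 368)) (XT.nd (nat_lit 78) (nat_lit 304) (nat_lit 0) (XT.lf (nat_lit 76) (nat_lit 38654870463) (nat_lit 0) (nat_lit 6411323871) (nat_lit 380) (nat_lit 10573437448) (nat_lit 262) (nat_lit 1) (nat_lit 261) (nat_lit 1) (nat_lit 266) (nat_lit 1) (nat_lit 273) (nat_lit 380) (nat_lit 367)) (XT.lf (nat_lit 76) (nat_lit 19340011232) (nat_lit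 0) (nat_lit 19639023130) (nat_lit 380) (nat_lit 14884798699) (nat_lit 258) (nat_lit 1) (nat_lit 257) (nat_lit 1) (nat_lit 262) (nat_lit 1) (nat_lit 274) (nat_lit 380) (nat_lit 366))))) (XT.nd (nat_lit 234) (nat_lit 988) (nat_lit 0) (XT.nd (nat_lit 78) (nat_lit 608) (nat_lit 0) (XT.lf (nat_lit 76) (nat_lit 954580068) (nat_lit 0) (nat_lit 32836141724) (nat_lit 380) (nat_lit 18381390751) (nat_lit 254) (nat_lit 1) (nat_lit 253) (nat_lit 1) (nat_lit 258) (nat_lit 1) (nat_lit 275) (nat_lit 380) (nat_lit 365)) (XT.nd (nat_lit 78) (nat_lit 380) (nat_lit 0) (XT.lf (nat_lit 304) (nat_lit 4310829790) (nat_lit 0) (nat_lit 29152078410) (nat_lit 228) (nat_lit 17083787936) (nat_lit 254) (nat_lit 1) (nat_lit 250) (nat_lit 1) (nat_lit 253) (nat_lit 1) (nat_lit 276) (nat_lit 380) (nat_lit 364)) (XT.lf (nat_lit 76) (nat_lit 14895075934) (nat_lit 0) (nat_lit 10209177599) (nat_lit 380) (nat_lit 23884175095) (nat_lit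 246) (nat_lit 1) (nat_lit 245) (nat_lit 1) (nat_lit 250) (nat_lit 1) (nat_lit 277) (nat_lit 380) (nat_lit 363)))) (XT.nd (nat_lit 156) (nat_lit 532) (nat_lit 0) (XT.nd (nat_lit 78) (nat_lit 228) (nat_lit 0) (XT.lf (nat_lit 304) (nat_lit 23061160276) (nat_lit 0) (nat_lit 21662979495) (nat_lit 228) (nat_lit 2772835665) (nat_lit 246) (nat_lit 1) (nat_lit 242) (nat_lit 1) (nat_lit 245) (nat_lit 1) (nat_lit 278) (nat_lit 380) (nat_lit 362)) (XT.lf (nat_lit 304) (nat_lit 7390990458) (nat_lit 0) (nat_lit 18650938255) (nat_lit 228) (nat_lit 20020910494) (nat_lit 243) (nat_lit 1) (nat_lit 239) (nat_lit 1) (nat_lit 242) (nat_lit 1) (nat_lit 279) (nat_lit 380) (nat_lit 361))) (XT.nd (nat_lit 78) (nat_lit 228) (nat_lit 0) (XT.lf (nat_lit 76) (nat_lit 8423943221) (nat_lit 0) (nat_lit 7712852076) (nat_lit 304) (nat_lit 28551470058) (nat_lit 236) (nat_lit 1) (nat_lit 235) (nat_lit 1) (nat_lit 239) (nat_lit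 1) (nat_lit 280) (nat_lit 380) (nat_lit 360)) (XT.lf (nat_lit 304) (nat_lit 20961877067) (nat_lit 0) (nat_lit 13947256213) (nat_lit 228) (nat_lit 8454872572) (nat_lit 236) (nat_lit 1) (nat_lit 232) (nat_lit 1) (nat_lit 235) (nat_lit 1) (nat_lit 281) (nat_lit 380) (nat_lit 359)))))) (XT.nd (nat_lit 468) (nat_lit 1064) (nat_lit 0) (XT.nd (nat_lit 234) (nat_lit 532) (nat_lit 0) (XT.nd (nat_lit 78) (nat_lit 456) (nat_lit 0) (XT.lf (nat_lit 228) (nat_lit 5196480276) (nat_lit 0) (nat_lit 12167963730) (nat_lit 152) (nat_lit 24728726666) (nat_lit 233) (nat_lit 1) (nat_lit 230) (nat_lit 1) (nat_lit 232) (nat_lit 1) (nat_lit 282) (nat_lit 380) (nat_lit 358)) (XT.nd (nat_lit 78) (nat_lit 152) (nat_lit 0) (XT.lf (nat_lit 76) (nat_lit 880316958) (nat_lit 0) (nat_lit 9850937867) (nat_lit 304) (nat_lit 30140341587) (nat_lit 227) (nat_lit 1) (nat_lit 226) (nat_lit 1) (nat_lit 230) (nat_lit 1) (nat_lit 283) (nat_lit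 380) (nat_lit 357)) (XT.lf (nat_lit 228) (nat_lit 15100018196) (nat_lit 0) (nat_lit 9436215944) (nat_lit 152) (nat_lit 15152566412) (nat_lit 227) (nat_lit 1) (nat_lit 224) (nat_lit 1) (nat_lit 226) (nat_lit 1) (nat_lit 284) (nat_lit 380) (nat_lit 356)))) (XT.nd (nat_lit 78) (nat_lit 304) (nat_lit 0) (XT.lf (nat_lit 76) (nat_lit 8192638840) (nat_lit 0) (nat_lit 378423124) (nat_lit 228) (nat_lit 29986555866) (nat_lit 222) (nat_lit 1) (nat_lit 221) (nat_lit 1) (nat_lit 224) (nat_lit 1) (nat_lit 285) (nat_lit 380) (nat_lit 355)) (XT.nd (nat_lit 78) (nat_lit 152) (nat_lit 0) (XT.lf (nat_lit 228) (nat_lit 22397092552) (nat_lit 0) (nat_lit 7761094754) (nat_lit 152) (nat_lit 7301153100) (nat_lit 222) (nat_lit 1) (nat_lit 219) (nat_lit 1) (nat_lit 221) (nat_lit 1) (nat_lit 286) (nat_lit 380) (nat_lit 354)) (XT.lf (nat_lit 228) (nat_lit 6957434460) (nat_lit 0) (nat_lit 7214795809) (nat_lit 152) (nat_lit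 22230824666) (nat_lit 220) (nat_lit 1) (nat_lit 217) (nat_lit 1) (nat_lit 219) (nat_lit 1) (nat_lit 287) (nat_lit 380) (nat_lit 353))))) (XT.nd (nat_lit 234) (nat_lit 532) (nat_lit 0) (XT.nd (nat_lit 78) (nat_lit 304) (nat_lit 0) (XT.lf (nat_lit 228) (nat_lit 27618457880) (nat_lit 0) (nat_lit 6893151806) (nat_lit 152) (nat_lit 874476278) (nat_lit 217) (nat_lit 1) (nat_lit 214) (nat_lit 1) (nat_lit 216) (nat_lit 1) (nat_lit 288) (nat_lit 380) (nat_lit 352)) (XT.nd (nat_lit 78) (nat_lit 152) (nat_lit 0) (XT.lf (nat_lit 228) (nat_lit 12360741740) (nat_lit 0) (nat_lit 6580635971) (nat_lit 152) (nat_lit 15455997641) (nat_lit 215) (nat_lit 1) (nat_lit 212) (nat_lit 1) (nat_lit 214) (nat_lit 1) (nat_lit 289) (nat_lit 380) (nat_lit 351)) (XT.lf (nat_lit 76) (nat_lit 4234031280) (nat_lit 0) (nat_lit 2327214383) (nat_lit 152) (nat_lit 26888428236) (nat_lit 211) (nat_lit 1) (nat_lit 210) (nat_lit 1) (nat_lit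 212) (nat_lit 1) (nat_lit 290) (nat_lit 380) (nat_lit 350)))) (XT.nd (nat_lit 156) (nat_lit 304) (nat_lit 0) (XT.nd (nat_lit 78) (nat_lit 76) (nat_lit 0) (XT.lf (nat_lit 228) (nat_lit 16218004038) (nat_lit 0) (nat_lit 6491769375) (nat_lit 152) (nat_lit 9816113380) (nat_lit 211) (nat_lit 1) (nat_lit 208) (nat_lit 1) (nat_lit 210) (nat_lit 1) (nat_lit 291) (nat_lit 380) (nat_lit 349)) (XT.lf (nat_lit 152) (nat_lit 1746448579) (nat_lit 0) (nat_lit 6651215620) (nat_lit 76) (nat_lit 23240905412) (nat_lit 209) (nat_lit 1) (nat_lit 207) (nat_lit 1) (nat_lit 208) (nat_lit 1) (nat_lit 292) (nat_lit 380) (nat_lit 348))) (XT.nd (nat_lit 78) (nat_lit 76) (nat_lit 0) (XT.lf (nat_lit 228) (nat_lit 18852267639) (nat_lit 0) (nat_lit 6802418680) (nat_lit 152) (nat_lit 5121032187) (nat_lit 207) (nat_lit 1) (nat_lit 204) (nat_lit 1) (nat_lit 206) (nat_lit 1) (nat_lit 293) (nat_lit 380) (nat_lit 347)) (XT.lf (nat_lit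 152) (nat_lit 4741484327) (nat_lit 0) (nat_lit 7056767969) (nat_lit 76) (nat_lit 18143694920) (nat_lit 205) (nat_lit 1) (nat_lit 203) (nat_lit 1) (nat_lit 204) (nat_lit 1) (nat_lit 294) (nat_lit 380) (nat_lit 346))))))) (XT.nd (nat_lit 1014) (nat_lit 1672) (nat_lit 0) (XT.nd (nat_lit 468) (nat_lit 836) (nat_lit 0) (XT.nd (nat_lit 234) (nat_lit 380) (nat_lit 0) (XT.nd (nat_lit 78) (nat_lit 304) (nat_lit 0) (XT.lf (nat_lit 228) (nat_lit 20524719594) (nat_lit 0) (nat_lit 7397117976) (nat_lit 152) (nat_lit 1213930382) (nat_lit 203) (nat_lit 1) (nat_lit 200) (nat_lit 1) (nat_lit 202) (nat_lit 1) (nat_lit 295) (nat_lit 380) (nat_lit 345)) (XT.nd (nat_lit 78) (nat_lit 228) (nat_lit 0) (XT.lf (nat_lit 152) (nat_lit 6823646441) (nat_lit 0) (nat_lit 7711584375) (nat_lit 76) (nat_lit 13815969386) (nat_lit 201) (nat_lit 1) (nat_lit 199) (nat_lit 1) (nat_lit 200) (nat_lit 1) (nat_lit 296) (nat_lit 380) (nat_lit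 344)) (XT.lf (nat_lit 76) (nat_lit 1969575918) (nat_lit 0) (nat_lit 6181973797) (nat_lit 228) (nat_lit 19443268387) (nat_lit 197) (nat_lit 1) (nat_lit 196) (nat_lit 1) (nat_lit 199) (nat_lit 1) (nat_lit 297) (nat_lit 380) (nat_lit 343)))) (XT.nd (nat_lit 78) (nat_lit 304) (nat_lit 0) (XT.lf (nat_lit 152) (nat_lit 8188991377) (nat_lit 0) (nat_lit 8532540866) (nat_lit 76) (nat_lit 10135688044) (nat_lit 197) (nat_lit 1) (nat_lit 195) (nat_lit 1) (nat_lit 196) (nat_lit 1) (nat_lit 298) (nat_lit 380) (nat_lit 342)) (XT.nd (nat_lit 78) (nat_lit 76) (nat_lit 0) (XT.lf (nat_lit 76) (nat_lit 4580500215) (nat_lit 0) (nat_lit 4436524191) (nat_lit 228) (nat_lit 17128519059) (nat_lit 193) (nat_lit 1) (nat_lit 192) (nat_lit 1) (nat_lit 195) (nat_lit 1) (nat_lit 299) (nat_lit 380) (nat_lit 341)) (XT.lf (nat_lit 152) (nat_lit 8995625402) (nat_lit 0) (nat_lit 9454749795) (nat_lit 76) (nat_lit 7001674517) (nat_lit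 193) (nat_lit 1) (nat_lit 191) (nat_lit 1) (nat_lit 192) (nat_lit 1) (nat_lit 300) (nat_lit 380) (nat_lit 340))))) (XT.nd (nat_lit 234) (nat_lit 456) (nat_lit 0) (XT.nd (nat_lit 78) (nat_lit 228) (nat_lit 0) (XT.lf (nat_lit 76) (nat_lit 6743555512) (nat_lit 0) (nat_lit 3213183539) (nat_lit 152) (nat_lit 14824719816) (nat_lit 190) (nat_lit 1) (nat_lit 189) (nat_lit 1) (nat_lit 191) (nat_lit 1) (nat_lit 301) (nat_lit 380) (nat_lit 339)) (XT.nd (nat_lit 78) (nat_lit 152) (nat_lit 0) (XT.lf (nat_lit 152) (nat_lit 9370795847) (nat_lit 0) (nat_lit 10428005669) (nat_lit 76) (nat_lit 4329895051) (nat_lit 190) (nat_lit 1) (nat_lit 188) (nat_lit 1) (nat_lit 189) (nat_lit 1) (nat_lit 302) (nat_lit 380) (nat_lit 338)) (XT.lf (nat_lit 76) (nat_lit 8529970718) (nat_lit 0) (nat_lit 2397076818) (nat_lit 152) (nat_lit 12568965016) (nat_lit 187) (nat_lit 1) (nat_lit 186) (nat_lit 1) (nat_lit 188) (nat_lit 1) (nat_lit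 303) (nat_lit 380) (nat_lit 337)))) (XT.nd (nat_lit 156) (nat_lit 228) (nat_lit 0) (XT.nd (nat_lit 78) (nat_lit 152) (nat_lit 0) (XT.lf (nat_lit 152) (nat_lit 9416673266) (nat_lit 0) (nat_lit 11413896627) (nat_lit 76) (nat_lit 2050412700) (nat_lit 187) (nat_lit 1) (nat_lit 185) (nat_lit 1) (nat_lit 186) (nat_lit 1) (nat_lit 304) (nat_lit 380) (nat_lit 336)) (XT.lf (nat_lit 76) (nat_lit 9998945006) (nat_lit 0) (nat_lit 1895833826) (nat_lit 152) (nat_lit 10388617811) (nat_lit 184) (nat_lit 1) (nat_lit 183) (nat_lit 1) (nat_lit 185) (nat_lit 1) (nat_lit 305) (nat_lit 380) (nat_lit 335))) (XT.nd (nat_lit 78) (nat_lit 152) (nat_lit 0) (XT.lf (nat_lit 152) (nat_lit 9215065194) (nat_lit 0) (nat_lit 12383458612) (nat_lit 76) (nat_lit 104893897) (nat_lit 184) (nat_lit 1) (nat_lit 182) (nat_lit 1) (nat_lit 183) (nat_lit 1) (nat_lit 306) (nat_lit 380) (nat_lit 334)) (XT.lf (nat_lit 76) (nat_lit 11199777190)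 (nat_lit 0) (nat_lit 1635363506) (nat_lit 152) (nat_lit 8303293200) (nat_lit 181) (nat_lit 1) (nat_lit 180) (nat_lit 1) (nat_lit 182) (nat_lit 1) (nat_lit 307) (nat_lit 380) (nat_lit 333)))))) (XT.nd (nat_lit 546) (nat_lit 912) (nat_lit 0) (XT.nd (nat_lit 234) (nat_lit 456) (nat_lit 0) (XT.nd (nat_lit 78) (nat_lit 228) (nat_lit 0) (XT.lf (nat_lit 0) (nat_lit 1505649968) (nat_lit 0) (nat_lit 11784122974) (nat_lit 152) (nat_lit 7300109088) (nat_lit 179) (nat_lit 3) (nat_lit 179) (nat_lit 1) (nat_lit 181) (nat_lit 1) (nat_lit 308) (nat_lit 380) (nat_lit 332)) (XT.nd (nat_lit 78) (nat_lit 76) (nat_lit 0) (XT.lf (nat_lit 76) (nat_lit 12173609662) (nat_lit 0) (nat_lit 1556409762) (nat_lit 152) (nat_lit 6326464622) (nat_lit 178) (nat_lit 1) (nat_lit 177) (nat_lit 1) (nat_lit 179) (nat_lit 1) (nat_lit 309) (nat_lit 380) (nat_lit 331)) (XT.lf (nat_lit 0) (nat_lit 2876348461) (nat_lit 0) (nat_lit 11268856958)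 (nat_lit 152) (nat_lit 5392086232) (nat_lit 176) (nat_lit 3) (nat_lit 176) (nat_lit 1) (nat_lit 178) (nat_lit 1) (nat_lit 310) (nat_lit 380) (nat_lit 330)))) (XT.nd (nat_lit 156) (nat_lit 228) (nat_lit 0) (XT.nd (nat_lit 78) (nat_lit 76) (nat_lit 0) (XT.lf (nat_lit 76) (nat_lit 12954857265) (nat_lit 0) (nat_lit 1611745002) (nat_lit 152) (nat_lit 4466763944) (nat_lit 175) (nat_lit 1) (nat_lit 174) (nat_lit 1) (nat_lit 176) (nat_lit 1) (nat_lit 311) (nat_lit 380) (nat_lit 329)) (XT.lf (nat_lit 0) (nat_lit 4043825831) (nat_lit 0) (nat_lit 10896419482) (nat_lit 152) (nat_lit 3601476800) (nat_lit 173) (nat_lit 3) (nat_lit 173) (nat_lit 1) (nat_lit 175) (nat_lit 1) (nat_lit 312) (nat_lit 380) (nat_lit 328))) (XT.nd (nat_lit 78) (nat_lit 76) (nat_lit 0) (XT.lf (nat_lit 76) (nat_lit 13572378605) (nat_lit 0) (nat_lit 1763884048) (nat_lit 152) (nat_lit 2729031821) (nat_lit 172) (nat_lit 1) (nat_lit 171)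 (nat_lit 1) (nat_lit 173) (nat_lit 1) (nat_lit 313) (nat_lit 380) (nat_lit 327)) (XT.lf (nat_lit 0) (nat_lit 5036129514) (nat_lit 0) (nat_lit 10631362426) (nat_lit 152) (nat_lit 1932047683) (nat_lit 170) (nat_lit 3) (nat_lit 170) (nat_lit 1) (nat_lit 172) (nat_lit 1) (nat_lit 314) (nat_lit 380) (nat_lit 326))))) (XT.nd (nat_lit 234) (nat_lit 456) (nat_lit 0) (XT.nd (nat_lit 78) (nat_lit 304) (nat_lit 0) (XT.lf (nat_lit 76) (nat_lit 14050436759) (nat_lit 0) (nat_lit 1983222581) (nat_lit 152) (nat_lit 1115164922) (nat_lit 169) (nat_lit 1) (nat_lit 168) (nat_lit 1) (nat_lit 170) (nat_lit 1) (nat_lit 315) (nat_lit 380) (nat_lit 325)) (XT.nd (nat_lit 78) (nat_lit 228) (nat_lit 0) (XT.lf (nat_lit 0) (nat_lit 5876980954) (nat_lit 0) (nat_lit 10445562272) (nat_lit 152) (nat_lit 384889725) (nat_lit 167) (nat_lit 3) (nat_lit 167) (nat_lit 1) (nat_lit 169) (nat_lit 1) (nat_lit 316) (nat_lit 380) (nat_lit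 324)) (XT.lf (nat_lit 152) (nat_lit 14027931460) (nat_lit 0) (nat_lit 387607933) (nat_lit 76) (nat_lit 1864965637) (nat_lit 166) (nat_lit 1) (nat_lit 164) (nat_lit 1) (nat_lit 165) (nat_lit 1) (nat_lit 317) (nat_lit 380) (nat_lit 323)))) (XT.nd (nat_lit 156) (nat_lit 228) (nat_lit 0) (XT.nd (nat_lit 78) (nat_lit 152) (nat_lit 0) (XT.lf (nat_lit 76) (nat_lit 5527926366) (nat_lit 0) (nat_lit 1075372679) (nat_lit 76) (nat_lit 9258233145) (nat_lit 164) (nat_lit 3) (nat_lit 163) (nat_lit 1) (nat_lit 164) (nat_lit 1) (nat_lit 318) (nat_lit 380) (nat_lit 322)) (XT.lf (nat_lit 152) (nat_lit 12893141414) (nat_lit 0) (nat_lit 1801818133) (nat_lit 76) (nat_lit 761989618) (nat_lit 163) (nat_lit 1) (nat_lit 161) (nat_lit 1) (nat_lit 162) (nat_lit 1) (nat_lit 319) (nat_lit 380) (nat_lit 321))) (XT.nd (nat_lit 78) (nat_lit 152) (nat_lit 0) (XT.lf (nat_lit 76) (nat_lit 4794106908) (nat_lit 0) (nat_lit 2425619238)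 (nat_lit 76) (nat_lit 7839951492) (nat_lit 161) (nat_lit 3) (nat_lit 160) (nat_lit 1) (nat_lit 161) (nat_lit 1) (nat_lit 320) (nat_lit 380) (nat_lit 320)) (XT.lf (nat_lit 0) (nat_lit 202351285) (nat_lit 0) (nat_lit 2888281253) (nat_lit 152) (nat_lit 11585596511) (nat_lit 158) (nat_lit 3) (nat_lit 158) (nat_lit 1) (nat_lit 160) (nat_lit 1) (nat_lit 321) (nat_lit 380) (nat_lit 319))))))))
noncomputable def ec115 : XT := (XT.nd (nat_lit 2106) (nat_lit 3192) (nat_lit 0) (XT.nd (nat_lit 1014) (nat_lit 1748) (nat_lit 0) (XT.nd (nat_lit 468) (nat_lit 760) (nat_lit 0) (XT.nd (nat_lit 234) (nat_lit 380) (nat_lit 0) (XT.nd (nat_lit 78) (nat_lit 228) (nat_lit 0) (XT.lf (nat_lit 76) (nat_lit 4077875568) (nat_lit 0) (nat_lit 3656885244) (nat_lit 76) (nat_lit 6564847761) (nat_lit 158) (nat_lit 3) (nat_lit 157) (nat_lit 1) (nat_lit 158) (nat_lit 1) (nat_lit 322) (nat_lit 380) (nat_lit 318)) (XT.nd (nat_lit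 78) (nat_lit 76) (nat_lit 0) (XT.lf (nat_lit 0) (nat_lit 1029114262) (nat_lit 0) (nat_lit 3222211434) (nat_lit 152) (nat_lit 9684215366) (nat_lit 155) (nat_lit 3) (nat_lit 155) (nat_lit 1) (nat_lit 157) (nat_lit 1) (nat_lit 323) (nat_lit 380) (nat_lit 317)) (XT.lf (nat_lit 76) (nat_lit 3387260548) (nat_lit 0) (nat_lit 4773778213) (nat_lit 76) (nat_lit 5417906077) (nat_lit 155) (nat_lit 3) (nat_lit 154) (nat_lit 1) (nat_lit 155) (nat_lit 1) (nat_lit 324) (nat_lit 380) (nat_lit 316)))) (XT.nd (nat_lit 78) (nat_lit 228) (nat_lit 0) (XT.lf (nat_lit 0) (nat_lit 1755287093) (nat_lit 0) (nat_lit 3545979800) (nat_lit 152) (nat_lit 7931918063) (nat_lit 152) (nat_lit 3) (nat_lit 152) (nat_lit 1) (nat_lit 154) (nat_lit 1) (nat_lit 325) (nat_lit 380) (nat_lit 315)) (XT.nd (nat_lit 78) (nat_lit 152) (nat_lit 0) (XT.lf (nat_lit 76) (nat_lit 2727969768) (nat_lit 0) (nat_lit 5781488079) (nat_lit 76) (nat_lit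 4386018571) (nat_lit 152) (nat_lit 3) (nat_lit 151) (nat_lit 1) (nat_lit 152) (nat_lit 1) (nat_lit 326) (nat_lit 380) (nat_lit 314)) (XT.lf (nat_lit 0) (nat_lit 2391839244) (nat_lit 0) (nat_lit 3853963409) (nat_lit 152) (nat_lit 6321223775) (nat_lit 149) (nat_lit 3) (nat_lit 149) (nat_lit 1) (nat_lit 151) (nat_lit 1) (nat_lit 327) (nat_lit 380) (nat_lit 313))))) (XT.nd (nat_lit 234) (nat_lit 456) (nat_lit 0) (XT.nd (nat_lit 78) (nat_lit 228) (nat_lit 0) (XT.lf (nat_lit 76) (nat_lit 2103874009) (nat_lit 0) (nat_lit 6685579049) (nat_lit 76) (nat_lit 3457692680) (nat_lit 149) (nat_lit 3) (nat_lit 148) (nat_lit 1) (nat_lit 149) (nat_lit 1) (nat_lit 328) (nat_lit 380) (nat_lit 312)) (XT.nd (nat_lit 78) (nat_lit 76) (nat_lit 0) (XT.lf (nat_lit 0) (nat_lit 2948360840) (nat_lit 0) (nat_lit 4142204465) (nat_lit 152) (nat_lit 4844510359) (nat_lit 146) (nat_lit 3) (nat_lit 146) (nat_lit 1) (nat_lit 148)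 (nat_lit 1) (nat_lit 329) (nat_lit 380) (nat_lit 311)) (XT.lf (nat_lit 76) (nat_lit 1517397724) (nat_lit 0) (nat_lit 7491826292) (nat_lit 76) (nat_lit 2622808488) (nat_lit 146) (nat_lit 3) (nat_lit 145) (nat_lit 1) (nat_lit 146) (nat_lit 1) (nat_lit 330) (nat_lit 380) (nat_lit 310)))) (XT.nd (nat_lit 156) (nat_lit 228) (nat_lit 0) (XT.nd (nat_lit 78) (nat_lit 76) (nat_lit 0) (XT.lf (nat_lit 0) (nat_lit 3433270419) (nat_lit 0) (nat_lit 4408059453) (nat_lit 152) (nat_lit 3494143469) (nat_lit 143) (nat_lit 3) (nat_lit 143) (nat_lit 1) (nat_lit 145) (nat_lit 1) (nat_lit 331) (nat_lit 380) (nat_lit 309)) (XT.lf (nat_lit 76) (nat_lit 969834709) (nat_lit 0) (nat_lit 8206088828) (nat_lit 76) (nat_lit 1872417147) (nat_lit 143) (nat_lit 3) (nat_lit 142) (nat_lit 1) (nat_lit 143) (nat_lit 1) (nat_lit 332) (nat_lit 380) (nat_lit 308))) (XT.nd (nat_lit 78) (nat_lit 76) (nat_lit 0) (XT.lf (nat_lit 0) (nat_lit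 3853987571) (nat_lit 0) (nat_lit 4649915647) (nat_lit 152) (nat_lit 2262575367) (nat_lit 140) (nat_lit 3) (nat_lit 140) (nat_lit 1) (nat_lit 142) (nat_lit 1) (nat_lit 333) (nat_lit 380) (nat_lit 307)) (XT.lf (nat_lit 76) (nat_lit 461602620) (nat_lit 0) (nat_lit 8834211573) (nat_lit 76) (nat_lit 1198573061) (nat_lit 140) (nat_lit 3) (nat_lit 139) (nat_lit 1) (nat_lit 140) (nat_lit 1) (nat_lit 334) (nat_lit 380) (nat_lit 306)))))) (XT.nd (nat_lit 546) (nat_lit 836) (nat_lit 0) (XT.nd (nat_lit 234) (nat_lit 532) (nat_lit 0) (XT.nd (nat_lit 78) (nat_lit 228) (nat_lit 0) (XT.lf (nat_lit 0) (nat_lit 4217076687) (nat_lit 0) (nat_lit 4866962437) (nat_lit 152) (nat_lit 1142419388) (nat_lit 137) (nat_lit 3) (nat_lit 137) (nat_lit 1) (nat_lit 139) (nat_lit 1) (nat_lit 335) (nat_lit 380) (nat_lit 305)) (XT.nd (nat_lit 78) (nat_lit 76) (nat_lit 0) (XT.lf (nat_lit 76) (nat_lit 9374516505) (nat_lit 0) (nat_lit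 7310522) (nat_lit 152) (nat_lit 586759494) (nat_lit 136) (nat_lit 1) (nat_lit 135) (nat_lit 1) (nat_lit 137) (nat_lit 1) (nat_lit 336) (nat_lit 380) (nat_lit 304)) (XT.lf (nat_lit 0) (nat_lit 4528366963) (nat_lit 0) (nat_lit 5059007233) (nat_lit 152) (nat_lit 126504928) (nat_lit 134) (nat_lit 3) (nat_lit 134) (nat_lit 1) (nat_lit 136) (nat_lit 1) (nat_lit 337) (nat_lit 380) (nat_lit 303)))) (XT.nd (nat_lit 156) (nat_lit 228) (nat_lit 0) (XT.nd (nat_lit 78) (nat_lit 76) (nat_lit 0) (XT.lf (nat_lit 152) (nat_lit 9038357700) (nat_lit 0) (nat_lit 391121350) (nat_lit 76) (nat_lit 39344470) (nat_lit 133) (nat_lit 1) (nat_lit 131) (nat_lit 1) (nat_lit 132) (nat_lit 1) (nat_lit 338) (nat_lit 380) (nat_lit 302)) (XT.lf (nat_lit 76) (nat_lit 3987555405) (nat_lit 0) (nat_lit 818272980) (nat_lit 76) (nat_lit 4420830169) (nat_lit 131) (nat_lit 3) (nat_lit 130) (nat_lit 1) (nat_lit 131) (nat_lit 1) (nat_lit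 339) (nat_lit 380) (nat_lit 301))) (XT.nd (nat_lit 78) (nat_lit 76) (nat_lit 0) (XT.lf (nat_lit 0) (nat_lit 450771798) (nat_lit 0) (nat_lit 832848309) (nat_lit 152) (nat_lit 7709984135) (nat_lit 128) (nat_lit 3) (nat_lit 128) (nat_lit 1) (nat_lit 130) (nat_lit 1) (nat_lit 340) (nat_lit 380) (nat_lit 300)) (XT.lf (nat_lit 76) (nat_lit 3368365898) (nat_lit 0) (nat_lit 1673541137) (nat_lit 76) (nat_lit 3722140446) (nat_lit 128) (nat_lit 3) (nat_lit 127) (nat_lit 1) (nat_lit 128) (nat_lit 1) (nat_lit 341) (nat_lit 380) (nat_lit 299))))) (XT.nd (nat_lit 234) (nat_lit 456) (nat_lit 0) (XT.nd (nat_lit 78) (nat_lit 228) (nat_lit 0) (XT.lf (nat_lit 0) (nat_lit 886984907) (nat_lit 0) (nat_lit 1198955407) (nat_lit 152) (nat_lit 6456513137) (nat_lit 125) (nat_lit 3) (nat_lit 125) (nat_lit 1) (nat_lit 127) (nat_lit 1) (nat_lit 342) (nat_lit 380) (nat_lit 298)) (XT.nd (nat_lit 78) (nat_lit 152) (nat_lit 0)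 (XT.lf (nat_lit 76) (nat_lit 2797170418) (nat_lit 0) (nat_lit 2441658824) (nat_lit 76) (nat_lit 3086031993) (nat_lit 125) (nat_lit 3) (nat_lit 124) (nat_lit 1) (nat_lit 125) (nat_lit 1) (nat_lit 343) (nat_lit 380) (nat_lit 297)) (XT.lf (nat_lit 0) (nat_lit 1275161970) (nat_lit 0) (nat_lit 1529889990) (nat_lit 152) (nat_lit 5309097273) (nat_lit 122) (nat_lit 3) (nat_lit 122) (nat_lit 1) (nat_lit 124) (nat_lit 1) (nat_lit 344) (nat_lit 380) (nat_lit 296)))) (XT.nd (nat_lit 156) (nat_lit 228) (nat_lit 0) (XT.nd (nat_lit 78) (nat_lit 152) (nat_lit 0) (XT.lf (nat_lit 76) (nat_lit 2271588867) (nat_lit 0) (nat_lit 3128848452) (nat_lit 76) (nat_lit 2507448145) (nat_lit 122) (nat_lit 3) (nat_lit 121) (nat_lit 1) (nat_lit 122) (nat_lit 1) (nat_lit 345) (nat_lit 380) (nat_lit 295)) (XT.lf (nat_lit 0) (nat_lit 1619485985) (nat_lit 0) (nat_lit 1827474766) (nat_lit 152) (nat_lit 4260548121) (nat_lit 119) (nat_lit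 3) (nat_lit 119) (nat_lit 1) (nat_lit 121) (nat_lit 1) (nat_lit 346) (nat_lit 380) (nat_lit 294))) (XT.nd (nat_lit 78) (nat_lit 152) (nat_lit 0) (XT.lf (nat_lit 76) (nat_lit 1789190988) (nat_lit 0) (nat_lit 3741008991) (nat_lit 76) (nat_lit 1981773193) (nat_lit 119) (nat_lit 3) (nat_lit 118) (nat_lit 1) (nat_lit 119) (nat_lit 1) (nat_lit 347) (nat_lit 380) (nat_lit 293)) (XT.lf (nat_lit 0) (nat_lit 1923763165) (nat_lit 0) (nat_lit 2093588743) (nat_lit 152) (nat_lit 3304062954) (nat_lit 116) (nat_lit 3) (nat_lit 116) (nat_lit 1) (nat_lit 118) (nat_lit 1) (nat_lit 348) (nat_lit 380) (nat_lit 292))))))) (XT.nd (nat_lit 1014) (nat_lit 1596) (nat_lit 0) (XT.nd (nat_lit 468) (nat_lit 912) (nat_lit 0) (XT.nd (nat_lit 234) (nat_lit 380) (nat_lit 0) (XT.nd (nat_lit 78) (nat_lit 228) (nat_lit 0) (XT.lf (nat_lit 76) (nat_lit 1347538662) (nat_lit 0) (nat_lit 4283717007) (nat_lit 76) (nat_lit 1504784567)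 (nat_lit 116) (nat_lit 3) (nat_lit 115) (nat_lit 1) (nat_lit 116) (nat_lit 1) (nat_lit 349) (nat_lit 380) (nat_lit 291)) (XT.nd (nat_lit 78) (nat_lit 76) (nat_lit 0) (XT.lf (nat_lit 0) (nat_lit 2191464137) (nat_lit 0) (nat_lit 2330128957) (nat_lit 152) (nat_lit 2433217528) (nat_lit 113) (nat_lit 3) (nat_lit 113) (nat_lit 1) (nat_lit 115) (nat_lit 1) (nat_lit 350) (nat_lit 380) (nat_lit 290)) (XT.lf (nat_lit 76) (nat_lit 944218326) (nat_lit 0) (nat_lit 4762231342) (nat_lit 76) (nat_lit 1072611677) (nat_lit 113) (nat_lit 3) (nat_lit 112) (nat_lit 1) (nat_lit 113) (nat_lit 1) (nat_lit 351) (nat_lit 380) (nat_lit 289)))) (XT.nd (nat_lit 78) (nat_lit 228) (nat_lit 0) (XT.lf (nat_lit 0) (nat_lit 2425759430) (nat_lit 0) (nat_lit 2538981080) (nat_lit 152) (nat_lit 1641956117) (nat_lit 110) (nat_lit 3) (nat_lit 110) (nat_lit 1) (nat_lit 112) (nat_lit 1) (nat_lit 352) (nat_lit 380) (nat_lit 288)) (XT.nd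 (nat_lit 78) (nat_lit 152) (nat_lit 0) (XT.lf (nat_lit 76) (nat_lit 576865452) (nat_lit 0) (nat_lit 5181500534) (nat_lit 76) (nat_lit 681700313) (nat_lit 110) (nat_lit 3) (nat_lit 109) (nat_lit 1) (nat_lit 110) (nat_lit 1) (nat_lit 353) (nat_lit 380) (nat_lit 287)) (XT.lf (nat_lit 0) (nat_lit 2629550172) (nat_lit 0) (nat_lit 2721997139) (nat_lit 152) (nat_lit 924579560) (nat_lit 107) (nat_lit 3) (nat_lit 107) (nat_lit 1) (nat_lit 109) (nat_lit 1) (nat_lit 354) (nat_lit 380) (nat_lit 286))))) (XT.nd (nat_lit 234) (nat_lit 456) (nat_lit 0) (XT.nd (nat_lit 78) (nat_lit 380) (nat_lit 0) (XT.lf (nat_lit 76) (nat_lit 243182672) (nat_lit 0) (nat_lit 5546172245) (nat_lit 76) (nat_lit 328781716) (nat_lit 107) (nat_lit 3) (nat_lit 106) (nat_lit 1) (nat_lit 107) (nat_lit 1) (nat_lit 355) (nat_lit 380) (nat_lit 285)) (XT.nd (nat_lit 78) (nat_lit 228) (nat_lit 0) (XT.lf (nat_lit 0) (nat_lit 2805494773) (nat_lit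 0) (nat_lit 2880978939) (nat_lit 152) (nat_lit 275731911) (nat_lit 104) (nat_lit 3) (nat_lit 104) (nat_lit 1) (nat_lit 106) (nat_lit 1) (nat_lit 356) (nat_lit 380) (nat_lit 284)) (XT.lf (nat_lit 152) (nat_lit 5754398423) (nat_lit 0) (nat_lit 48842987) (nat_lit 76) (nat_lit 9076882) (nat_lit 103) (nat_lit 1) (nat_lit 101) (nat_lit 1) (nat_lit 102) (nat_lit 1) (nat_lit 357) (nat_lit 380) (nat_lit 283)))) (XT.nd (nat_lit 156) (nat_lit 228) (nat_lit 0) (XT.nd (nat_lit 78) (nat_lit 152) (nat_lit 0) (XT.lf (nat_lit 76) (nat_lit 2641174944) (nat_lit 0) (nat_lit 319851057) (nat_lit 76) (nat_lit 2702808758) (nat_lit 101) (nat_lit 3) (nat_lit 100) (nat_lit 1) (nat_lit 101) (nat_lit 1) (nat_lit 358) (nat_lit 380) (nat_lit 282)) (XT.lf (nat_lit 0) (nat_lit 281216508) (nat_lit 0) (nat_lit 335567315) (nat_lit 152) (nat_lit 4904284932) (nat_lit 98) (nat_lit 3) (nat_lit 98) (nat_lit 1) (nat_lit 100) (nat_lit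 1) (nat_lit 359) (nat_lit 380) (nat_lit 281))) (XT.nd (nat_lit 78) (nat_lit 152) (nat_lit 0) (XT.lf (nat_lit 76) (nat_lit 2233071115) (nat_lit 0) (nat_lit 863818069) (nat_lit 76) (nat_lit 2283395936) (nat_lit 98) (nat_lit 3) (nat_lit 97) (nat_lit 1) (nat_lit 98) (nat_lit 1) (nat_lit 360) (nat_lit 380) (nat_lit 280)) (XT.lf (nat_lit 0) (nat_lit 541163505) (nat_lit 0) (nat_lit 585541654) (nat_lit 152) (nat_lit 4117788646) (nat_lit 95) (nat_lit 3) (nat_lit 95) (nat_lit 1) (nat_lit 97) (nat_lit 1) (nat_lit 361) (nat_lit 380) (nat_lit 279)))))) (XT.nd (nat_lit 546) (nat_lit 836) (nat_lit 0) (XT.nd (nat_lit 234) (nat_lit 456) (nat_lit 0) (XT.nd (nat_lit 78) (nat_lit 228) (nat_lit 0) (XT.lf (nat_lit 76) (nat_lit 1859155437) (nat_lit 0) (nat_lit 1351611863) (nat_lit 76) (nat_lit 1900246316) (nat_lit 95) (nat_lit 3) (nat_lit 94) (nat_lit 1) (nat_lit 95) (nat_lit 1) (nat_lit 362) (nat_lit 380) (nat_lit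 278)) (XT.nd (nat_lit 78) (nat_lit 76) (nat_lit 0) (XT.lf (nat_lit 0) (nat_lit 773445914) (nat_lit 0) (nat_lit 809681257) (nat_lit 152) (nat_lit 3398726229) (nat_lit 92) (nat_lit 3) (nat_lit 92) (nat_lit 1) (nat_lit 94) (nat_lit 1) (nat_lit 363) (nat_lit 380) (nat_lit 277)) (XT.lf (nat_lit 76) (nat_lit 1517122358) (nat_lit 0) (nat_lit 1787498684) (nat_lit 76) (nat_lit 1550673602) (nat_lit 92) (nat_lit 3) (nat_lit 91) (nat_lit 1) (nat_lit 92) (nat_lit 1) (nat_lit 364) (nat_lit 380) (nat_lit 276)))) (XT.nd (nat_lit 156) (nat_lit 228) (nat_lit 0) (XT.nd (nat_lit 78) (nat_lit 76) (nat_lit 0) (XT.lf (nat_lit 0) (nat_lit 980275710) (nat_lit 0) (nat_lit 1009862344) (nat_lit 152) (nat_lit 2742301204) (nat_lit 89) (nat_lit 3) (nat_lit 89) (nat_lit 1) (nat_lit 91) (nat_lit 1) (nat_lit 365) (nat_lit 380) (nat_lit 275)) (XT.lf (nat_lit 76) (nat_lit 1204789240) (nat_lit 0) (nat_lit 2175466733) (nat_lit 76)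 (nat_lit 1232184272) (nat_lit 89) (nat_lit 3) (nat_lit 88) (nat_lit 1) (nat_lit 89) (nat_lit 1) (nat_lit 366) (nat_lit 380) (nat_lit 274))) (XT.nd (nat_lit 78) (nat_lit 76) (nat_lit 0) (XT.lf (nat_lit 0) (nat_lit 1163700031) (nat_lit 0) (nat_lit 1187857908) (nat_lit 152) (nat_lit 2144021863) (nat_lit 86) (nat_lit 3) (nat_lit 86) (nat_lit 1) (nat_lit 88) (nat_lit 1) (nat_lit 367) (nat_lit 380) (nat_lit 273)) (XT.lf (nat_lit 76) (nat_lit 920094186) (nat_lit 0) (nat_lit 2519241256) (nat_lit 76) (nat_lit 942462590) (nat_lit 86) (nat_lit 3) (nat_lit 85) (nat_lit 1) (nat_lit 86) (nat_lit 1) (nat_lit 368) (nat_lit 380) (nat_lit 272))))) (XT.nd (nat_lit 234) (nat_lit 456) (nat_lit 0) (XT.nd (nat_lit 78) (nat_lit 228) (nat_lit 0) (XT.lf (nat_lit 0) (nat_lit 1325614219) (nat_lit 0) (nat_lit 1345339443) (nat_lit 152) (nat_lit 1599684486) (nat_lit 83) (nat_lit 3) (nat_lit 83) (nat_lit 1) (nat_lit 85) (nat_lit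 1) (nat_lit 369) (nat_lit 380) (nat_lit 271)) (XT.nd (nat_lit 78) (nat_lit 152) (nat_lit 0) (XT.lf (nat_lit 76) (nat_lit 661092965) (nat_lit 0) (nat_lit 2822299225) (nat_lit 76) (nat_lit 679357061) (nat_lit 83) (nat_lit 3) (nat_lit 82) (nat_lit 1) (nat_lit 83) (nat_lit 1) (nat_lit 370) (nat_lit 380) (nat_lit 270)) (XT.lf (nat_lit 0) (nat_lit 1467773591) (nat_lit 0) (nat_lit 1483879496) (nat_lit 152) (nat_lit 1105357147) (nat_lit 80) (nat_lit 3) (nat_lit 80) (nat_lit 1) (nat_lit 82) (nat_lit 1) (nat_lit 371) (nat_lit 380) (nat_lit 269)))) (XT.nd (nat_lit 156) (nat_lit 228) (nat_lit 0) (XT.nd (nat_lit 78) (nat_lit 152) (nat_lit 0) (XT.lf (nat_lit 76) (nat_lit 425955279) (nat_lit 0) (nat_lit 3087883540) (nat_lit 76) (nat_lit 440868154) (nat_lit 80) (nat_lit 3) (nat_lit 79) (nat_lit 1) (nat_lit 80) (nat_lit 1) (nat_lit 372) (nat_lit 380) (nat_lit 268)) (XT.lf (nat_lit 0) (nat_lit 1591804118) (nat_lit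 0) (nat_lit 1604954801) (nat_lit 152) (nat_lit 657364127) (nat_lit 77) (nat_lit 3) (nat_lit 77) (nat_lit 1) (nat_lit 79) (nat_lit 1) (nat_lit 373) (nat_lit 380) (nat_lit 267))) (XT.nd (nat_lit 78) (nat_lit 152) (nat_lit 0) (XT.lf (nat_lit 76) (nat_lit 212960565) (nat_lit 0) (nat_lit 3319016700) (nat_lit 76) (nat_lit 225137124) (nat_lit 77) (nat_lit 3) (nat_lit 76) (nat_lit 1) (nat_lit 77) (nat_lit 1) (nat_lit 374) (nat_lit 380) (nat_lit 266)) (XT.lf (nat_lit 0) (nat_lit 1699212138) (nat_lit 0) (nat_lit 1709949844) (nat_lit 152) (nat_lit 252270984) (nat_lit 74) (nat_lit 3) (nat_lit 74) (nat_lit 1) (nat_lit 76) (nat_lit 1) (nat_lit 375) (nat_lit 380) (nat_lit 265))))))))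
noncomputable def ec116 : XT := (XT.nd (nat_lit 2028) (nat_lit 1900) (nat_lit 0) (XT.nd (nat_lit 1014) (nat_lit 1596) (nat_lit 0) (XT.nd (nat_lit 468) (nat_lit 836) (nat_lit 0) (XT.nd (nat_lit 234) (nat_lit 304) (nat_lit 0) (XT.nd (nat_lit 78) (nat_lit 380) (nat_lit 0) (XT.lf (nat_lit 76) (nat_lit 20493485) (nat_lit 0) (nat_lit 3518513913) (nat_lit 76) (nat_lit 30435805) (nat_lit 74) (nat_lit 3) (nat_lit 73) (nat_lit 1) (nat_lit 74) (nat_lit 1) (nat_lit 376) (nat_lit 380) (nat_lit 264)) (XT.nd (nat_lit 78) (nat_lit 152) (nat_lit 0) (XT.lf (nat_lit 76) (nat_lit 1676347609) (nat_lit 0) (nat_lit 116870287) (nat_lit 76) (nat_lit 1685115088) (nat_lit 71) (nat_lit 3) (nat_lit 70) (nat_lit 1) (nat_lit 71) (nat_lit 1) (nat_lit 377) (nat_lit 380) (nat_lit 263)) (XT.lf (nat_lit 0) (nat_lit 147477021) (nat_lit 0) (nat_lit 155208483) (nat_lit 152) (nat_lit 3088030054) (nat_lit 68) (nat_lit 3) (nat_lit 68)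 (nat_lit 1) (nat_lit 70) (nat_lit 1) (nat_lit 378) (nat_lit 380) (nat_lit 262)))) (XT.nd (nat_lit 78) (nat_lit 228) (nat_lit 0) (XT.lf (nat_lit 76) (nat_lit 1420325703) (nat_lit 0) (nat_lit 456440910) (nat_lit 76) (nat_lit 1427484465) (nat_lit 68) (nat_lit 3) (nat_lit 67) (nat_lit 1) (nat_lit 68) (nat_lit 1) (nat_lit 379) (nat_lit 380) (nat_lit 261)) (XT.nd (nat_lit 78) (nat_lit 76) (nat_lit 0) (XT.lf (nat_lit 0) (nat_lit 307358848) (nat_lit 0) (nat_lit 313671689) (nat_lit 152) (nat_lit 2599877149) (nat_lit 65) (nat_lit 3) (nat_lit 65) (nat_lit 1) (nat_lit 67) (nat_lit 1) (nat_lit 380) (nat_lit 380) (nat_lit 260)) (XT.lf (nat_lit 76) (nat_lit 1186046635) (nat_lit 0) (nat_lit 760985526) (nat_lit 76) (nat_lit 1191891858) (nat_lit 65) (nat_lit 3) (nat_lit 64) (nat_lit 1) (nat_lit 65) (nat_lit 1) (nat_lit 381) (nat_lit 380) (nat_lit 259))))) (XT.nd (nat_lit 234) (nat_lit 456) (nat_lit 0) (XT.nd (nat_lit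 78) (nat_lit 228) (nat_lit 0) (XT.lf (nat_lit 0) (nat_lit 450439237) (nat_lit 0) (nat_lit 455593755) (nat_lit 152) (nat_lit 2153612310) (nat_lit 62) (nat_lit 3) (nat_lit 62) (nat_lit 1) (nat_lit 64) (nat_lit 1) (nat_lit 382) (nat_lit 380) (nat_lit 258)) (XT.nd (nat_lit 78) (nat_lit 152) (nat_lit 0) (XT.lf (nat_lit 76) (nat_lit 971970376) (nat_lit 0) (nat_lit 1033195516) (nat_lit 76) (nat_lit 976743078) (nat_lit 62) (nat_lit 3) (nat_lit 61) (nat_lit 1) (nat_lit 62) (nat_lit 1) (nat_lit 383) (nat_lit 380) (nat_lit 257)) (XT.lf (nat_lit 0) (nat_lit 578029747) (nat_lit 0) (nat_lit 582238479) (nat_lit 152) (nat_lit 1746227681) (nat_lit 59) (nat_lit 3) (nat_lit 59) (nat_lit 1) (nat_lit 61) (nat_lit 1) (nat_lit 384) (nat_lit 380) (nat_lit 256)))) (XT.nd (nat_lit 156) (nat_lit 228) (nat_lit 0) (XT.nd (nat_lit 78) (nat_lit 152) (nat_lit 0) (XT.lf (nat_lit 76) (nat_lit 776654465) (nat_lit 0) (nat_lit 1275579779)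 (nat_lit 76) (nat_lit 780551438) (nat_lit 59) (nat_lit 3) (nat_lit 58) (nat_lit 1) (nat_lit 59) (nat_lit 1) (nat_lit 385) (nat_lit 380) (nat_lit 255)) (XT.lf (nat_lit 0) (nat_lit 691349966) (nat_lit 0) (nat_lit 694786451) (nat_lit 152) (nat_lit 1374912650) (nat_lit 56) (nat_lit 3) (nat_lit 56) (nat_lit 1) (nat_lit 58) (nat_lit 1) (nat_lit 386) (nat_lit 380) (nat_lit 254))) (XT.nd (nat_lit 78) (nat_lit 152) (nat_lit 0) (XT.lf (nat_lit 76) (nat_lit 598748661) (nat_lit 0) (nat_lit 1490476076) (nat_lit 76) (nat_lit 601930592) (nat_lit 56) (nat_lit 3) (nat_lit 55) (nat_lit 1) (nat_lit 56) (nat_lit 1) (nat_lit 387) (nat_lit 380) (nat_lit 253)) (XT.lf (nat_lit 0) (nat_lit 791533785) (nat_lit 0) (nat_lit 794339720) (nat_lit 152) (nat_lit 1037041773) (nat_lit 53) (nat_lit 3) (nat_lit 53) (nat_lit 1) (nat_lit 55) (nat_lit 1) (nat_lit 388) (nat_lit 380) (nat_lit 252)))))) (XT.nd (nat_lit 468) (nat_lit 912)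 (nat_lit 0) (XT.nd (nat_lit 234) (nat_lit 380) (nat_lit 0) (XT.nd (nat_lit 78) (nat_lit 228) (nat_lit 0) (XT.lf (nat_lit 76) (nat_lit 436989777) (nat_lit 0) (nat_lit 1680061748) (nat_lit 76) (nat_lit 439587865) (nat_lit 53) (nat_lit 3) (nat_lit 52) (nat_lit 1) (nat_lit 53) (nat_lit 1) (nat_lit 389) (nat_lit 380) (nat_lit 251)) (XT.nd (nat_lit 78) (nat_lit 76) (nat_lit 0) (XT.lf (nat_lit 0) (nat_lit 879635212) (nat_lit 0) (nat_lit 881926294) (nat_lit 152) (nat_lit 730163369) (nat_lit 50) (nat_lit 3) (nat_lit 50) (nat_lit 1) (nat_lit 52) (nat_lit 1) (nat_lit 390) (nat_lit 380) (nat_lit 250)) (XT.lf (nat_lit 76) (nat_lit 290196702) (nat_lit 0) (nat_lit 1846363832) (nat_lit 76) (nat_lit 292318075) (nat_lit 50) (nat_lit 3) (nat_lit 49) (nat_lit 1) (nat_lit 50) (nat_lit 1) (nat_lit 391) (nat_lit 380) (nat_lit 249)))) (XT.nd (nat_lit 78) (nat_lit 228) (nat_lit 0) (XT.lf (nat_lit 0) (nat_lit 956633779)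 (nat_lit 0) (nat_lit 958504479) (nat_lit 152) (nat_lit 451988753) (nat_lit 47) (nat_lit 3) (nat_lit 47) (nat_lit 1) (nat_lit 49) (nat_lit 1) (nat_lit 392) (nat_lit 380) (nat_lit 248)) (XT.nd (nat_lit 78) (nat_lit 152) (nat_lit 0) (XT.lf (nat_lit 76) (nat_lit 157265633) (nat_lit 0) (nat_lit 1991268594) (nat_lit 76) (nat_lit 158997762) (nat_lit 47) (nat_lit 3) (nat_lit 46) (nat_lit 1) (nat_lit 47) (nat_lit 1) (nat_lit 393) (nat_lit 380) (nat_lit 247)) (XT.lf (nat_lit 0) (nat_lit 1023439571) (nat_lit 0) (nat_lit 1024967022) (nat_lit 152) (nat_lit 200382096) (nat_lit 44) (nat_lit 3) (nat_lit 44) (nat_lit 1) (nat_lit 46) (nat_lit 1) (nat_lit 394) (nat_lit 380) (nat_lit 246))))) (XT.nd (nat_lit 234) (nat_lit 456) (nat_lit 0) (XT.nd (nat_lit 78) (nat_lit 380) (nat_lit 0) (XT.lf (nat_lit 76) (nat_lit 37165519) (nat_lit 0) (nat_lit 2116530520) (nat_lit 76) (nat_lit 38579826) (nat_lit 44) (nat_lit 3) (nat_lit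 43) (nat_lit 1) (nat_lit 44) (nat_lit 1) (nat_lit 395) (nat_lit 380) (nat_lit 245)) (XT.nd (nat_lit 78) (nat_lit 152) (nat_lit 0) (XT.lf (nat_lit 76) (nat_lit 1053797440) (nat_lit 0) (nat_lit 27530280) (nat_lit 76) (nat_lit 1055044624) (nat_lit 41) (nat_lit 3) (nat_lit 40) (nat_lit 1) (nat_lit 41) (nat_lit 1) (nat_lit 396) (nat_lit 380) (nat_lit 244)) (XT.lf (nat_lit 0) (nat_lit 71094530) (nat_lit 0) (nat_lit 72194340) (nat_lit 152) (nat_lit 1939288528) (nat_lit 38) (nat_lit 3) (nat_lit 38) (nat_lit 1) (nat_lit 40) (nat_lit 1) (nat_lit 397) (nat_lit 380) (nat_lit 243)))) (XT.nd (nat_lit 156) (nat_lit 228) (nat_lit 0) (XT.nd (nat_lit 78) (nat_lit 152) (nat_lit 0) (XT.lf (nat_lit 76) (nat_lit 894918975) (nat_lit 0) (nat_lit 238599889) (nat_lit 76) (nat_lit 895937317) (nat_lit 38) (nat_lit 3) (nat_lit 37) (nat_lit 1) (nat_lit 38) (nat_lit 1) (nat_lit 398) (nat_lit 380) (nat_lit 242)) (XT.lf (nat_lit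 0) (nat_lit 170159419) (nat_lit 0) (nat_lit 171057427) (nat_lit 152) (nat_lit 1637067682) (nat_lit 35) (nat_lit 3) (nat_lit 35) (nat_lit 1) (nat_lit 37) (nat_lit 1) (nat_lit 399) (nat_lit 380) (nat_lit 241))) (XT.nd (nat_lit 78) (nat_lit 152) (nat_lit 0) (XT.lf (nat_lit 76) (nat_lit 749546615) (nat_lit 0) (nat_lit 427990904) (nat_lit 76) (nat_lit 750378104) (nat_lit 35) (nat_lit 3) (nat_lit 34) (nat_lit 1) (nat_lit 35) (nat_lit 1) (nat_lit 400) (nat_lit 380) (nat_lit 240)) (XT.lf (nat_lit 0) (nat_lit 258887992) (nat_lit 0) (nat_lit 259621227) (nat_lit 152) (nat_lit 1360729714) (nat_lit 32) (nat_lit 3) (nat_lit 32) (nat_lit 1) (nat_lit 34) (nat_lit 1) (nat_lit 401) (nat_lit 380) (nat_lit 239))))))) (XT.nd (nat_lit 1014) (nat_lit 456) (nat_lit 0) (XT.nd (nat_lit 468) (nat_lit 760) (nat_lit 0) (XT.nd (nat_lit 234) (nat_lit 380) (nat_lit 0) (XT.nd (nat_lit 78) (nat_lit 228) (nat_lit 0) (XT.lf (nat_lit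 76) (nat_lit 616714416) (nat_lit 0) (nat_lit 597371293) (nat_lit 76) (nat_lit 617393338) (nat_lit 32) (nat_lit 3) (nat_lit 31) (nat_lit 1) (nat_lit 32) (nat_lit 1) (nat_lit 402) (nat_lit 380) (nat_lit 238)) (XT.nd (nat_lit 78) (nat_lit 76) (nat_lit 0) (XT.lf (nat_lit 0) (nat_lit 338081439) (nat_lit 0) (nat_lit 338680136) (nat_lit 152) (nat_lit 1108413718) (nat_lit 29) (nat_lit 3) (nat_lit 29) (nat_lit 1) (nat_lit 31) (nat_lit 1) (nat_lit 403) (nat_lit 380) (nat_lit 237)) (XT.lf (nat_lit 76) (nat_lit 495519630) (nat_lit 0) (nat_lit 748295022) (nat_lit 76) (nat_lit 496073979) (nat_lit 29) (nat_lit 3) (nat_lit 28) (nat_lit 1) (nat_lit 29) (nat_lit 1) (nat_lit 404) (nat_lit 380) (nat_lit 236)))) (XT.nd (nat_lit 78) (nat_lit 228) (nat_lit 0) (XT.lf (nat_lit 0) (nat_lit 408485659) (nat_lit 0) (nat_lit 408974503) (nat_lit 152) (nat_lit 878381616) (nat_lit 26) (nat_lit 3) (nat_lit 26) (nat_lit 1) (nat_lit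 28) (nat_lit 1) (nat_lit 405) (nat_lit 380) (nat_lit 235)) (XT.nd (nat_lit 78) (nat_lit 152) (nat_lit 0) (XT.lf (nat_lit 76) (nat_lit 385118844) (nat_lit 0) (nat_lit 882209332) (nat_lit 76) (nat_lit 385571477) (nat_lit 26) (nat_lit 3) (nat_lit 25) (nat_lit 1) (nat_lit 26) (nat_lit 1) (nat_lit 406) (nat_lit 380) (nat_lit 234)) (XT.lf (nat_lit 0) (nat_lit 470794871) (nat_lit 0) (nat_lit 471194018) (nat_lit 152) (nat_lit 669010473) (nat_lit 23) (nat_lit 3) (nat_lit 23) (nat_lit 1) (nat_lit 25) (nat_lit 1) (nat_lit 407) (nat_lit 380) (nat_lit 233))))) (XT.nd (nat_lit 234) (nat_lit 456) (nat_lit 0) (XT.nd (nat_lit 78) (nat_lit 228) (nat_lit 0) (XT.lf (nat_lit 76) (nat_lit 284724327) (nat_lit 0) (nat_lit 1000461576) (nat_lit 76) (nat_lit 285093908) (nat_lit 23) (nat_lit 3) (nat_lit 22) (nat_lit 1) (nat_lit 23) (nat_lit 1) (nat_lit 408) (nat_lit 380) (nat_lit 232)) (XT.nd (nat_lit 78) (nat_lit 76) (nat_lit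 0) (XT.lf (nat_lit 0) (nat_lit 525654989) (nat_lit 0) (nat_lit 525980898) (nat_lit 152) (nat_lit 478785274) (nat_lit 20) (nat_lit 3) (nat_lit 20) (nat_lit 1) (nat_lit 22) (nat_lit 1) (nat_lit 409) (nat_lit 380) (nat_lit 231)) (XT.lf (nat_lit 76) (nat_lit 193600593) (nat_lit 0) (nat_lit 1104305645) (nat_lit 76) (nat_lit 193902361) (nat_lit 20) (nat_lit 3) (nat_lit 19) (nat_lit 1) (nat_lit 20) (nat_lit 1) (nat_lit 410) (nat_lit 380) (nat_lit 230)))) (XT.nd (nat_lit 156) (nat_lit 228) (nat_lit 0) (XT.nd (nat_lit 78) (nat_lit 76) (nat_lit 0) (XT.lf (nat_lit 0) (nat_lit 573666787) (nat_lit 0) (nat_lit 573932896) (nat_lit 152) (nat_lit 306292130) (nat_lit 17) (nat_lit 3) (nat_lit 17) (nat_lit 1) (nat_lit 19) (nat_lit 1) (nat_lit 411) (nat_lit 380) (nat_lit 229)) (XT.lf (nat_lit 76) (nat_lit 111061151) (nat_lit 0) (nat_lit 1194907995) (nat_lit 76) (nat_lit 111307549) (nat_lit 17) (nat_lit 3) (nat_lit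 16) (nat_lit 1) (nat_lit 17) (nat_lit 1) (nat_lit 412) (nat_lit 380) (nat_lit 228))) (XT.nd (nat_lit 78) (nat_lit 76) (nat_lit 0) (XT.lf (nat_lit 0) (nat_lit 615388857) (nat_lit 0) (nat_lit 615606139) (nat_lit 152) (nat_lit 150211897) (nat_lit 14) (nat_lit 3) (nat_lit 14) (nat_lit 1) (nat_lit 16) (nat_lit 1) (nat_lit 413) (nat_lit 380) (nat_lit 227)) (XT.lf (nat_lit 76) (nat_lit 36465449) (nat_lit 0) (nat_lit 1273353312) (nat_lit 76) (nat_lit 36666636) (nat_lit 14) (nat_lit 3) (nat_lit 13) (nat_lit 1) (nat_lit 14) (nat_lit 1) (nat_lit 414) (nat_lit 380) (nat_lit 226)))))) (XT.nd (nat_lit 41184) (nat_lit 0) (nat_lit 19988) (XT.nd (nat_lit 40872) (nat_lit 0) (nat_lit 21660) (XT.nd (nat_lit 78) (nat_lit 304) (nat_lit 0) (XT.lf (nat_lit 0) (nat_lit 651340378) (nat_lit 0) (nat_lit 651517791) (nat_lit 152) (nat_lit 9314180) (nat_lit 11) (nat_lit 3) (nat_lit 11) (nat_lit 1) (nat_lit 13) (nat_lit 1)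 (nat_lit 415) (nat_lit 380) (nat_lit 225)) (XT.nd (nat_lit 78) (nat_lit 76) (nat_lit 0) (XT.lf (nat_lit 0) (nat_lit 31126958) (nat_lit 0) (nat_lit 31283407) (nat_lit 152) (nat_lit 1216737445) (nat_lit 8) (nat_lit 3) (nat_lit 8) (nat_lit 1) (nat_lit 10) (nat_lit 1) (nat_lit 416) (nat_lit 380) (nat_lit 224)) (XT.lf (nat_lit 76) (nat_lit 562464669) (nat_lit 0) (nat_lit 121434978) (nat_lit 76) (nat_lit 562609529) (nat_lit 8) (nat_lit 3) (nat_lit 7) (nat_lit 1) (nat_lit 8) (nat_lit 1) (nat_lit 417) (nat_lit 380) (nat_lit 223)))) (XT.nd (nat_lit 156) (nat_lit 0) (nat_lit 76) (XT.nd (nat_lit 78) (nat_lit 0) (nat_lit 76) (XT.lf (nat_lit 836) (nat_lit 12607345478) (nat_lit 0) (nat_lit 22384312917) (nat_lit 836) (nat_lit 12607345478) (nat_lit 303) (nat_lit 1) (nat_lit 292) (nat_lit 0) (nat_lit 303) (nat_lit 0) (nat_lit 258) (nat_lit 381) (nat_lit 381)) (XT.lf (nat_lit 836) (nat_lit 4702926708) (nat_lit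 0) (nat_lit 43947190410) (nat_lit 760) (nat_lit 42980205397) (nat_lit 304) (nat_lit 1) (nat_lit 293) (nat_lit 1) (nat_lit 303) (nat_lit 1) (nat_lit 259) (nat_lit 381) (nat_lit 380))) (XT.nd (nat_lit 78) (nat_lit 0) (nat_lit 76) (XT.lf (nat_lit 836) (nat_lit 43193667252) (nat_lit 76) (nat_lit 29431448231) (nat_lit 0) (nat_lit 15609097594) (nat_lit 304) (nat_lit 1) (nat_lit 294) (nat_lit 1) (nat_lit 293) (nat_lit 1) (nat_lit 260) (nat_lit 381) (nat_lit 379)) (XT.lf (nat_lit 836) (nat_lit 37322866982) (nat_lit 76) (nat_lit 12334515954) (nat_lit 0) (nat_lit 35350670633) (nat_lit 305) (nat_lit 1) (nat_lit 295) (nat_lit 1) (nat_lit 294) (nat_lit 1) (nat_lit 261) (nat_lit 381) (nat_lit 378))))) (XT.nd (nat_lit 234) (nat_lit 1900) (nat_lit 0) (XT.nd (nat_lit 78) (nat_lit 0) (nat_lit 76) (XT.lf (nat_lit 836) (nat_lit 27622094646) (nat_lit 0) (nat_lit 51679633444) (nat_lit 760) (nat_lit 2641855478) (nat_lit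 306) (nat_lit 1) (nat_lit 295) (nat_lit 1) (nat_lit 305) (nat_lit 1) (nat_lit 262) (nat_lit 381) (nat_lit 377)) (XT.nd (nat_lit 78) (nat_lit 0) (nat_lit 0) (XT.lf (nat_lit 836) (nat_lit 6627650783) (nat_lit 0) (nat_lit 56991153031) (nat_lit 760) (nat_lit 15406659647) (nat_lit 307) (nat_lit 1) (nat_lit 296) (nat_lit 1) (nat_lit 306) (nat_lit 1) (nat_lit 263) (nat_lit 381) (nat_lit 376)) (XT.lf (nat_lit 836) (nat_lit 12735649111) (nat_lit 76) (nat_lit 49529952972) (nat_lit 0) (nat_lit 13977963812) (nat_lit 307) (nat_lit 1) (nat_lit 297) (nat_lit 1) (nat_lit 296) (nat_lit 1) (nat_lit 264) (nat_lit 381) (nat_lit 375)))) (XT.nd (nat_lit 156) (nat_lit 760) (nat_lit 0) (XT.nd (nat_lit 78) (nat_lit 532) (nat_lit 0) (XT.lf (nat_lit 836) (nat_lit 2615611915) (nat_lit 0) (nat_lit 37026916127) (nat_lit 760) (nat_lit 33953294127) (nat_lit 298) (nat_lit 1) (nat_lit 287) (nat_lit 1) (nat_lit 297) (nat_lit 1)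 (nat_lit 265) (nat_lit 381) (nat_lit 374)) (XT.lf (nat_lit 76) (nat_lit 18111041758) (nat_lit 0) (nat_lit 7848357213) (nat_lit 532) (nat_lit 45114047580) (nat_lit 281) (nat_lit 1) (nat_lit 280) (nat_lit 1) (nat_lit 287) (nat_lit 1) (nat_lit 266) (nat_lit 381) (nat_lit 373))) (XT.nd (nat_lit 78) (nat_lit 380) (nat_lit 0) (XT.lf (nat_lit 456) (nat_lit 49911751507) (nat_lit 0) (nat_lit 16247351126) (nat_lit 380) (nat_lit 2511940874) (nat_lit 281) (nat_lit 1) (nat_lit 275) (nat_lit 1) (nat_lit 280) (nat_lit 1) (nat_lit 267) (nat_lit 381) (nat_lit 372)) (XT.lf (nat_lit 456) (nat_lit 36016795183) (nat_lit 0) (nat_lit 7572960347) (nat_lit 380) (nat_lit 22782183968) (nat_lit 276) (nat_lit 1) (nat_lit 270) (nat_lit 1) (nat_lit 275) (nat_lit 1) (nat_lit 268) (nat_lit 381) (nat_lit 371))))))))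
noncomputable def ec117 : XT := (XT.nd (nat_lit 2106) (nat_lit 3192) (nat_lit 0) (XT.nd (nat_lit 1014) (nat_lit 2280) (nat_lit 0) (XT.nd (nat_lit 468) (nat_lit 1824) (nat_lit 0) (XT.nd (nat_lit 234) (nat_lit 836) (nat_lit 0) (XT.nd (nat_lit 78) (nat_lit 380) (nat_lit 0) (XT.lf (nat_lit 380) (nat_lit 21915760513) (nat_lit 0) (nat_lit 139430506) (nat_lit 304) (nat_lit 42129123025) (nat_lit 271) (nat_lit 1) (nat_lit 266) (nat_lit 1) (nat_lit 270) (nat_lit 1) (nat_lit 269) (nat_lit 381) (nat_lit 370)) (XT.nd (nat_lit 78) (nat_lit 380) (nat_lit 0) (XT.lf (nat_lit 76) (nat_lit 1616841237) (nat_lit 0) (nat_lit 54527721052) (nat_lit 380) (nat_lit 5952760978) (nat_lit 267) (nat_lit 1) (nat_lit 266) (nat_lit 1) (nat_lit 271) (nat_lit 1) (nat_lit 270) (nat_lit 381) (nat_lit 369)) (XT.lf (nat_lit 76) (nat_lit 41747260100) (nat_lit 0) (nat_lit 6924229780) (nat_lit 380) (nat_lit 11419312443) (nat_lit 262)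 (nat_lit 1) (nat_lit 261) (nat_lit 1) (nat_lit 266) (nat_lit 1) (nat_lit 271) (nat_lit 381) (nat_lit 368)))) (XT.nd (nat_lit 78) (nat_lit 532) (nat_lit 0) (XT.lf (nat_lit 76) (nat_lit 20887212131) (nat_lit 0) (nat_lit 21210144981) (nat_lit 380) (nat_lit 16075582595) (nat_lit 258) (nat_lit 1) (nat_lit 257) (nat_lit 1) (nat_lit 262) (nat_lit 1) (nat_lit 272) (nat_lit 381) (nat_lit 367)) (XT.nd (nat_lit 78) (nat_lit 228) (nat_lit 0) (XT.lf (nat_lit 76) (nat_lit 1030946474) (nat_lit 0) (nat_lit 35463033062) (nat_lit 380) (nat_lit 19851902011) (nat_lit 254) (nat_lit 1) (nat_lit 253) (nat_lit 1) (nat_lit 258) (nat_lit 1) (nat_lit 273) (nat_lit 381) (nat_lit 366)) (XT.lf (nat_lit 304) (nat_lit 4655696173) (nat_lit 0) (nat_lit 31484244683) (nat_lit 228) (nat_lit 18450490971) (nat_lit 254) (nat_lit 1) (nat_lit 250) (nat_lit 1) (nat_lit 253) (nat_lit 1) (nat_lit 274) (nat_lit 381) (nat_lit 365))))) (XT.nd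 (nat_lit 234) (nat_lit 988) (nat_lit 0) (XT.nd (nat_lit 78) (nat_lit 456) (nat_lit 0) (XT.lf (nat_lit 76) (nat_lit 16086682009) (nat_lit 0) (nat_lit 11025911807) (nat_lit 380) (nat_lit 25794909103) (nat_lit 246) (nat_lit 1) (nat_lit 245) (nat_lit 1) (nat_lit 250) (nat_lit 1) (nat_lit 275) (nat_lit 381) (nat_lit 364)) (XT.nd (nat_lit 78) (nat_lit 228) (nat_lit 0) (XT.lf (nat_lit 304) (nat_lit 24906053099) (nat_lit 0) (nat_lit 23396017854) (nat_lit 228) (nat_lit 2994662518) (nat_lit 246) (nat_lit 1) (nat_lit 242) (nat_lit 1) (nat_lit 245) (nat_lit 1) (nat_lit 276) (nat_lit 381) (nat_lit 363)) (XT.lf (nat_lit 304) (nat_lit 7982269695) (nat_lit 0) (nat_lit 20143013315) (nat_lit 228) (nat_lit 21622583333) (nat_lit 243) (nat_lit 1) (nat_lit 239) (nat_lit 1) (nat_lit 242) (nat_lit 1) (nat_lit 277) (nat_lit 381) (nat_lit 362)))) (XT.nd (nat_lit 156) (nat_lit 456) (nat_lit 0) (XT.nd (nat_lit 78) (nat_lit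 228) (nat_lit 0) (XT.lf (nat_lit 76) (nat_lit 9097858679) (nat_lit 0) (nat_lit 8329880242) (nat_lit 304) (nat_lit 30835587663) (nat_lit 236) (nat_lit 1) (nat_lit 235) (nat_lit 1) (nat_lit 239) (nat_lit 1) (nat_lit 278) (nat_lit 381) (nat_lit 361)) (XT.lf (nat_lit 304) (nat_lit 22638827232) (nat_lit 0) (nat_lit 15063036710) (nat_lit 228) (nat_lit 9131262378) (nat_lit 236) (nat_lit 1) (nat_lit 232) (nat_lit 1) (nat_lit 235) (nat_lit 1) (nat_lit 279) (nat_lit 381) (nat_lit 360))) (XT.nd (nat_lit 78) (nat_lit 304) (nat_lit 0) (XT.lf (nat_lit 228) (nat_lit 5612198698) (nat_lit 0) (nat_lit 13141400829) (nat_lit 152) (nat_lit 26707024799) (nat_lit 233) (nat_lit 1) (nat_lit 230) (nat_lit 1) (nat_lit 232) (nat_lit 1) (nat_lit 280) (nat_lit 381) (nat_lit 359)) (XT.lf (nat_lit 76) (nat_lit 950742314) (nat_lit 0) (nat_lit 10639012896) (nat_lit 304) (nat_lit 32551568914) (nat_lit 227) (nat_lit 1) (nat_lit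 226) (nat_lit 1) (nat_lit 230) (nat_lit 1) (nat_lit 281) (nat_lit 381) (nat_lit 358)))))) (XT.nd (nat_lit 546) (nat_lit 1064) (nat_lit 0) (XT.nd (nat_lit 234) (nat_lit 684) (nat_lit 0) (XT.nd (nat_lit 78) (nat_lit 380) (nat_lit 0) (XT.lf (nat_lit 228) (nat_lit 16308019652) (nat_lit 0) (nat_lit 10191113220) (nat_lit 152) (nat_lit 16364771725) (nat_lit 227) (nat_lit 1) (nat_lit 224) (nat_lit 1) (nat_lit 226) (nat_lit 1) (nat_lit 282) (nat_lit 381) (nat_lit 357)) (XT.nd (nat_lit 78) (nat_lit 152) (nat_lit 0) (XT.lf (nat_lit 76) (nat_lit 8848049947) (nat_lit 0) (nat_lit 408696974) (nat_lit 228) (nat_lit 32385480335) (nat_lit 222) (nat_lit 1) (nat_lit 221) (nat_lit 1) (nat_lit 224) (nat_lit 1) (nat_lit 283) (nat_lit 381) (nat_lit 356)) (XT.lf (nat_lit 228) (nat_lit 24188859956) (nat_lit 0) (nat_lit 8381982334) (nat_lit 152) (nat_lit 7885245348) (nat_lit 222) (nat_lit 1) (nat_lit 219) (nat_lit 1) (nat_lit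 221) (nat_lit 1) (nat_lit 284) (nat_lit 381) (nat_lit 355)))) (XT.nd (nat_lit 156) (nat_lit 304) (nat_lit 0) (XT.nd (nat_lit 78) (nat_lit 228) (nat_lit 0) (XT.lf (nat_lit 228) (nat_lit 7514029217) (nat_lit 0) (nat_lit 7791979473) (nat_lit 152) (nat_lit 24009290639) (nat_lit 220) (nat_lit 1) (nat_lit 217) (nat_lit 1) (nat_lit 219) (nat_lit 1) (nat_lit 285) (nat_lit 381) (nat_lit 354)) (XT.lf (nat_lit 228) (nat_lit 29827934511) (nat_lit 0) (nat_lit 7444603950) (nat_lit 152) (nat_lit 944434381) (nat_lit 217) (nat_lit 1) (nat_lit 214) (nat_lit 1) (nat_lit 216) (nat_lit 1) (nat_lit 286) (nat_lit 381) (nat_lit 353))) (XT.nd (nat_lit 78) (nat_lit 152) (nat_lit 0) (XT.lf (nat_lit 228) (nat_lit 13349601079) (nat_lit 0) (nat_lit 7107086849) (nat_lit 152) (nat_lit 16692477452) (nat_lit 215) (nat_lit 1) (nat_lit 212) (nat_lit 1) (nat_lit 214) (nat_lit 1) (nat_lit 287) (nat_lit 381) (nat_lit 352)) (XT.lf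 (nat_lit 76) (nat_lit 4572753783) (nat_lit 0) (nat_lit 2513391533) (nat_lit 152) (nat_lit 29039502495) (nat_lit 211) (nat_lit 1) (nat_lit 210) (nat_lit 1) (nat_lit 212) (nat_lit 1) (nat_lit 288) (nat_lit 381) (nat_lit 351))))) (XT.nd (nat_lit 234) (nat_lit 608) (nat_lit 0) (XT.nd (nat_lit 78) (nat_lit 304) (nat_lit 0) (XT.lf (nat_lit 228) (nat_lit 17515444361) (nat_lit 0) (nat_lit 7011110925) (nat_lit 152) (nat_lit 10601402450) (nat_lit 211) (nat_lit 1) (nat_lit 208) (nat_lit 1) (nat_lit 210) (nat_lit 1) (nat_lit 289) (nat_lit 381) (nat_lit 350)) (XT.nd (nat_lit 78) (nat_lit 228) (nat_lit 0) (XT.lf (nat_lit 152) (nat_lit 1886164466) (nat_lit 0) (nat_lit 7183312870) (nat_lit 76) (nat_lit 25100177845) (nat_lit 209) (nat_lit 1) (nat_lit 207) (nat_lit 1) (nat_lit 208) (nat_lit 1) (nat_lit 290) (nat_lit 381) (nat_lit 349)) (XT.lf (nat_lit 228) (nat_lit 20360449051) (nat_lit 0) (nat_lit 7346612174)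 (nat_lit 152) (nat_lit 5530714762) (nat_lit 207) (nat_lit 1) (nat_lit 204) (nat_lit 1) (nat_lit 206) (nat_lit 1) (nat_lit 291) (nat_lit 381) (nat_lit 348)))) (XT.nd (nat_lit 156) (nat_lit 304) (nat_lit 0) (XT.nd (nat_lit 78) (nat_lit 228) (nat_lit 0) (XT.lf (nat_lit 152) (nat_lit 5120803073) (nat_lit 0) (nat_lit 7621309407) (nat_lit 76) (nat_lit 19595190513) (nat_lit 205) (nat_lit 1) (nat_lit 203) (nat_lit 1) (nat_lit 204) (nat_lit 1) (nat_lit 292) (nat_lit 381) (nat_lit 347)) (XT.lf (nat_lit 228) (nat_lit 22166697161) (nat_lit 0) (nat_lit 7988887414) (nat_lit 152) (nat_lit 1311044813) (nat_lit 203) (nat_lit 1) (nat_lit 200) (nat_lit 1) (nat_lit 202) (nat_lit 1) (nat_lit 293) (nat_lit 381) (nat_lit 346))) (XT.nd (nat_lit 78) (nat_lit 228) (nat_lit 0) (XT.lf (nat_lit 152) (nat_lit 7369538156) (nat_lit 0) (nat_lit 8328511126) (nat_lit 76) (nat_lit 14921246937) (nat_lit 201) (nat_lit 1) (nat_lit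 199) (nat_lit 1) (nat_lit 200) (nat_lit 1) (nat_lit 294) (nat_lit 381) (nat_lit 345)) (XT.lf (nat_lit 76) (nat_lit 2127141992) (nat_lit 0) (nat_lit 6676531700) (nat_lit 228) (nat_lit 20998729858) (nat_lit 197) (nat_lit 1) (nat_lit 196) (nat_lit 1) (nat_lit 199) (nat_lit 1) (nat_lit 295) (nat_lit 381) (nat_lit 344))))))) (XT.nd (nat_lit 1014) (nat_lit 1672) (nat_lit 0) (XT.nd (nat_lit 468) (nat_lit 760) (nat_lit 0) (XT.nd (nat_lit 234) (nat_lit 380) (nat_lit 0) (XT.nd (nat_lit 78) (nat_lit 304) (nat_lit 0) (XT.lf (nat_lit 152) (nat_lit 8844110687) (nat_lit 0) (nat_lit 9215144135) (nat_lit 76) (nat_lit 10946543087) (nat_lit 197) (nat_lit 1) (nat_lit 195) (nat_lit 1) (nat_lit 196) (nat_lit 1) (nat_lit 296) (nat_lit 381) (nat_lit 343)) (XT.nd (nat_lit 78) (nat_lit 76) (nat_lit 0) (XT.lf (nat_lit 76) (nat_lit 4946940232) (nat_lit 0) (nat_lit 4791446126) (nat_lit 228) (nat_lit 18498800583) (nat_lit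 193) (nat_lit 1) (nat_lit 192) (nat_lit 1) (nat_lit 195) (nat_lit 1) (nat_lit 297) (nat_lit 381) (nat_lit 342)) (XT.lf (nat_lit 152) (nat_lit 9715275435) (nat_lit 0) (nat_lit 10211129779) (nat_lit 76) (nat_lit 7561808479) (nat_lit 193) (nat_lit 1) (nat_lit 191) (nat_lit 1) (nat_lit 192) (nat_lit 1) (nat_lit 298) (nat_lit 381) (nat_lit 341)))) (XT.nd (nat_lit 78) (nat_lit 228) (nat_lit 0) (XT.lf (nat_lit 76) (nat_lit 7283039953) (nat_lit 0) (nat_lit 3470238223) (nat_lit 152) (nat_lit 16010697401) (nat_lit 190) (nat_lit 1) (nat_lit 189) (nat_lit 1) (nat_lit 191) (nat_lit 1) (nat_lit 299) (nat_lit 381) (nat_lit 340)) (XT.nd (nat_lit 78) (nat_lit 152) (nat_lit 0) (XT.lf (nat_lit 152) (nat_lit 10120459515) (nat_lit 0) (nat_lit 11262246122) (nat_lit 76) (nat_lit 4676286655) (nat_lit 190) (nat_lit 1) (nat_lit 188) (nat_lit 1) (nat_lit 189) (nat_lit 1) (nat_lit 300) (nat_lit 381) (nat_lit 339)) (XT.lf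 (nat_lit 76) (nat_lit 9212368376) (nat_lit 0) (nat_lit 2588842963) (nat_lit 152) (nat_lit 13574482217) (nat_lit 187) (nat_lit 1) (nat_lit 186) (nat_lit 1) (nat_lit 188) (nat_lit 1) (nat_lit 301) (nat_lit 381) (nat_lit 338))))) (XT.nd (nat_lit 234) (nat_lit 456) (nat_lit 0) (XT.nd (nat_lit 78) (nat_lit 228) (nat_lit 0) (XT.lf (nat_lit 152) (nat_lit 10170007128) (nat_lit 0) (nat_lit 12327008357) (nat_lit 76) (nat_lit 2214445716) (nat_lit 187) (nat_lit 1) (nat_lit 185) (nat_lit 1) (nat_lit 186) (nat_lit 1) (nat_lit 302) (nat_lit 381) (nat_lit 337)) (XT.nd (nat_lit 78) (nat_lit 76) (nat_lit 0) (XT.lf (nat_lit 76) (nat_lit 10798860606) (nat_lit 0) (nat_lit 2047500532) (nat_lit 152) (nat_lit 11219707236) (nat_lit 184) (nat_lit 1) (nat_lit 183) (nat_lit 1) (nat_lit 185) (nat_lit 1) (nat_lit 303) (nat_lit 381) (nat_lit 336)) (XT.lf (nat_lit 152) (nat_lit 9952270410) (nat_lit 0) (nat_lit 13374135301)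 (nat_lit 76) (nat_lit 113285409) (nat_lit 184) (nat_lit 1) (nat_lit 182) (nat_lit 1) (nat_lit 183) (nat_lit 1) (nat_lit 304) (nat_lit 381) (nat_lit 335)))) (XT.nd (nat_lit 156) (nat_lit 228) (nat_lit 0) (XT.nd (nat_lit 78) (nat_lit 76) (nat_lit 0) (XT.lf (nat_lit 76) (nat_lit 12095759365) (nat_lit 0) (nat_lit 1766192587) (nat_lit 152) (nat_lit 8967556656) (nat_lit 181) (nat_lit 1) (nat_lit 180) (nat_lit 1) (nat_lit 182) (nat_lit 1) (nat_lit 305) (nat_lit 381) (nat_lit 334)) (XT.lf (nat_lit 0) (nat_lit 1626101966) (nat_lit 0) (nat_lit 12726852812) (nat_lit 152) (nat_lit 7884117815) (nat_lit 179) (nat_lit 3) (nat_lit 179) (nat_lit 1) (nat_lit 181) (nat_lit 1) (nat_lit 306) (nat_lit 381) (nat_lit 333))) (XT.nd (nat_lit 78) (nat_lit 76) (nat_lit 0) (XT.lf (nat_lit 76) (nat_lit 13147498435) (nat_lit 0) (nat_lit 1680922543) (nat_lit 152) (nat_lit 6832581792) (nat_lit 178) (nat_lit 1) (nat_lit 177)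 (nat_lit 1) (nat_lit 179) (nat_lit 1) (nat_lit 307) (nat_lit 381) (nat_lit 332)) (XT.lf (nat_lit 0) (nat_lit 3106456338) (nat_lit 0) (nat_lit 12170365515) (nat_lit 152) (nat_lit 5823453131) (nat_lit 176) (nat_lit 3) (nat_lit 176) (nat_lit 1) (nat_lit 178) (nat_lit 1) (nat_lit 308) (nat_lit 381) (nat_lit 331)))))) (XT.nd (nat_lit 546) (nat_lit 760) (nat_lit 0) (XT.nd (nat_lit 234) (nat_lit 532) (nat_lit 0) (XT.nd (nat_lit 78) (nat_lit 228) (nat_lit 0) (XT.lf (nat_lit 76) (nat_lit 13991245846) (nat_lit 0) (nat_lit 1740684603) (nat_lit 152) (nat_lit 4824105060) (nat_lit 175) (nat_lit 1) (nat_lit 174) (nat_lit 1) (nat_lit 176) (nat_lit 1) (nat_lit 309) (nat_lit 381) (nat_lit 330)) (XT.nd (nat_lit 78) (nat_lit 152) (nat_lit 0) (XT.lf (nat_lit 0) (nat_lit 4367331898) (nat_lit 0) (nat_lit 11768133041) (nat_lit 152) (nat_lit 3889594944) (nat_lit 173) (nat_lit 3) (nat_lit 173) (nat_lit 1) (nat_lit 175)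 (nat_lit 1) (nat_lit 310) (nat_lit 381) (nat_lit 329)) (XT.lf (nat_lit 76) (nat_lit 14658168893) (nat_lit 0) (nat_lit 1904994772) (nat_lit 152) (nat_lit 2947354367) (nat_lit 172) (nat_lit 1) (nat_lit 171) (nat_lit 1) (nat_lit 173) (nat_lit 1) (nat_lit 311) (nat_lit 381) (nat_lit 328)))) (XT.nd (nat_lit 156) (nat_lit 304) (nat_lit 0) (XT.nd (nat_lit 78) (nat_lit 152) (nat_lit 0) (XT.lf (nat_lit 0) (nat_lit 5439019876) (nat_lit 0) (nat_lit 11481871420) (nat_lit 152) (nat_lit 2086611498) (nat_lit 170) (nat_lit 3) (nat_lit 170) (nat_lit 1) (nat_lit 172) (nat_lit 1) (nat_lit 312) (nat_lit 381) (nat_lit 327)) (XT.lf (nat_lit 76) (nat_lit 15174471699) (nat_lit 0) (nat_lit 2141880387) (nat_lit 152) (nat_lit 1204378116) (nat_lit 169) (nat_lit 1) (nat_lit 168) (nat_lit 1) (nat_lit 170) (nat_lit 1) (nat_lit 313) (nat_lit 381) (nat_lit 326))) (XT.nd (nat_lit 78) (nat_lit 228) (nat_lit 0) (XT.lf (nat_lit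 0) (nat_lit 6347139431) (nat_lit 0) (nat_lit 11281207254) (nat_lit 152) (nat_lit 415680903) (nat_lit 167) (nat_lit 3) (nat_lit 167) (nat_lit 1) (nat_lit 169) (nat_lit 1) (nat_lit 314) (nat_lit 381) (nat_lit 325)) (XT.lf (nat_lit 152) (nat_lit 15150165977) (nat_lit 0) (nat_lit 418616568) (nat_lit 76) (nat_lit 2014162888) (nat_lit 166) (nat_lit 1) (nat_lit 164) (nat_lit 1) (nat_lit 165) (nat_lit 1) (nat_lit 315) (nat_lit 381) (nat_lit 324))))) (XT.nd (nat_lit 234) (nat_lit 456) (nat_lit 0) (XT.nd (nat_lit 78) (nat_lit 228) (nat_lit 0) (XT.lf (nat_lit 76) (nat_lit 5970160476) (nat_lit 0) (nat_lit 1161402493) (nat_lit 76) (nat_lit 9998891797) (nat_lit 164) (nat_lit 3) (nat_lit 163) (nat_lit 1) (nat_lit 164) (nat_lit 1) (nat_lit 316) (nat_lit 381) (nat_lit 323)) (XT.nd (nat_lit 78) (nat_lit 76) (nat_lit 0) (XT.lf (nat_lit 152) (nat_lit 13924592727) (nat_lit 0) (nat_lit 1945963584) (nat_lit 76) (nat_lit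 822948787) (nat_lit 163) (nat_lit 1) (nat_lit 161) (nat_lit 1) (nat_lit 162) (nat_lit 1) (nat_lit 317) (nat_lit 381) (nat_lit 322)) (XT.lf (nat_lit 76) (nat_lit 5177635461) (nat_lit 0) (nat_lit 2619668777) (nat_lit 76) (nat_lit 8467147611) (nat_lit 161) (nat_lit 3) (nat_lit 160) (nat_lit 1) (nat_lit 161) (nat_lit 1) (nat_lit 318) (nat_lit 381) (nat_lit 321)))) (XT.nd (nat_lit 156) (nat_lit 228) (nat_lit 0) (XT.nd (nat_lit 78) (nat_lit 76) (nat_lit 0) (XT.lf (nat_lit 0) (nat_lit 218539388) (nat_lit 0) (nat_lit 3119343754) (nat_lit 152) (nat_lit 12512444232) (nat_lit 158) (nat_lit 3) (nat_lit 158) (nat_lit 1) (nat_lit 160) (nat_lit 1) (nat_lit 319) (nat_lit 381) (nat_lit 320)) (XT.lf (nat_lit 76) (nat_lit 4404105614) (nat_lit 0) (nat_lit 3949436064) (nat_lit 76) (nat_lit 7090035582) (nat_lit 158) (nat_lit 3) (nat_lit 157) (nat_lit 1) (nat_lit 158) (nat_lit 1) (nat_lit 320) (nat_lit 381) (nat_lit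 319))) (XT.nd (nat_lit 78) (nat_lit 76) (nat_lit 0) (XT.lf (nat_lit 0) (nat_lit 1111443403) (nat_lit 0) (nat_lit 3479988349) (nat_lit 152) (nat_lit 10458952595) (nat_lit 155) (nat_lit 3) (nat_lit 155) (nat_lit 1) (nat_lit 157) (nat_lit 1) (nat_lit 321) (nat_lit 381) (nat_lit 318)) (XT.lf (nat_lit 76) (nat_lit 3658241391) (nat_lit 0) (nat_lit 5155680470) (nat_lit 76) (nat_lit 5851338563) (nat_lit 155) (nat_lit 3) (nat_lit 154) (nat_lit 1) (nat_lit 155) (nat_lit 1) (nat_lit 322) (nat_lit 381) (nat_lit 317))))))))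
noncomputable def ec118 : XT := (XT.nd (nat_lit 2028) (nat_lit 3268) (nat_lit 0) (XT.nd (nat_lit 1014) (nat_lit 1596) (nat_lit 0) (XT.nd (nat_lit 468) (nat_lit 836) (nat_lit 0) (XT.nd (nat_lit 234) (nat_lit 304) (nat_lit 0) (XT.nd (nat_lit 78) (nat_lit 228) (nat_lit 0) (XT.lf (nat_lit 0) (nat_lit 1895710061) (nat_lit 0) (nat_lit 3829658184) (nat_lit 152) (nat_lit 8566471508) (nat_lit 152) (nat_lit 3) (nat_lit 152) (nat_lit 1) (nat_lit 154) (nat_lit 1) (nat_lit 323) (nat_lit 381) (nat_lit 316)) (XT.nd (nat_lit 78) (nat_lit 152) (nat_lit 0) (XT.lf (nat_lit 76) (nat_lit 2946207350) (nat_lit 0) (nat_lit 6244007125) (nat_lit 76) (nat_lit 4736900056) (nat_lit 152) (nat_lit 3) (nat_lit 151) (nat_lit 1) (nat_lit 152) (nat_lit 1) (nat_lit 324) (nat_lit 381) (nat_lit 315)) (XT.lf (nat_lit 0) (nat_lit 2583186384) (nat_lit 0) (nat_lit 4162280482) (nat_lit 152) (nat_lit 6826921677) (nat_lit 149) (nat_lit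 3) (nat_lit 149) (nat_lit 1) (nat_lit 151) (nat_lit 1) (nat_lit 325) (nat_lit 381) (nat_lit 314)))) (XT.nd (nat_lit 78) (nat_lit 228) (nat_lit 0) (XT.lf (nat_lit 76) (nat_lit 2272183930) (nat_lit 0) (nat_lit 7220425372) (nat_lit 76) (nat_lit 3734308094) (nat_lit 149) (nat_lit 3) (nat_lit 148) (nat_lit 1) (nat_lit 149) (nat_lit 1) (nat_lit 326) (nat_lit 381) (nat_lit 313)) (XT.nd (nat_lit 78) (nat_lit 76) (nat_lit 0) (XT.lf (nat_lit 0) (nat_lit 3184229707) (nat_lit 0) (nat_lit 4473580822) (nat_lit 152) (nat_lit 5232071188) (nat_lit 146) (nat_lit 3) (nat_lit 146) (nat_lit 1) (nat_lit 148) (nat_lit 1) (nat_lit 327) (nat_lit 381) (nat_lit 312)) (XT.lf (nat_lit 76) (nat_lit 1638789542) (nat_lit 0) (nat_lit 8091172396) (nat_lit 76) (nat_lit 2832633167) (nat_lit 146) (nat_lit 3) (nat_lit 145) (nat_lit 1) (nat_lit 146) (nat_lit 1) (nat_lit 328) (nat_lit 381) (nat_lit 311))))) (XT.nd (nat_lit 234) (nat_lit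 456) (nat_lit 0) (XT.nd (nat_lit 78) (nat_lit 228) (nat_lit 0) (XT.lf (nat_lit 0) (nat_lit 3707932053) (nat_lit 0) (nat_lit 4760704209) (nat_lit 152) (nat_lit 3773674947) (nat_lit 143) (nat_lit 3) (nat_lit 143) (nat_lit 1) (nat_lit 145) (nat_lit 1) (nat_lit 329) (nat_lit 381) (nat_lit 310)) (XT.nd (nat_lit 78) (nat_lit 152) (nat_lit 0) (XT.lf (nat_lit 76) (nat_lit 1047421486) (nat_lit 0) (nat_lit 8862575935) (nat_lit 76) (nat_lit 2022210519) (nat_lit 143) (nat_lit 3) (nat_lit 142) (nat_lit 1) (nat_lit 143) (nat_lit 1) (nat_lit 330) (nat_lit 381) (nat_lit 309)) (XT.lf (nat_lit 0) (nat_lit 4162306577) (nat_lit 0) (nat_lit 5021908899) (nat_lit 152) (nat_lit 2443581396) (nat_lit 140) (nat_lit 3) (nat_lit 140) (nat_lit 1) (nat_lit 142) (nat_lit 1) (nat_lit 331) (nat_lit 381) (nat_lit 308)))) (XT.nd (nat_lit 156) (nat_lit 228) (nat_lit 0) (XT.nd (nat_lit 78) (nat_lit 152) (nat_lit 0) (XT.lf (nat_lit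 76) (nat_lit 498530829) (nat_lit 0) (nat_lit 9540948499) (nat_lit 76) (nat_lit 1294458906) (nat_lit 140) (nat_lit 3) (nat_lit 139) (nat_lit 1) (nat_lit 140) (nat_lit 1) (nat_lit 332) (nat_lit 381) (nat_lit 307)) (XT.lf (nat_lit 0) (nat_lit 4554442822) (nat_lit 0) (nat_lit 5256319432) (nat_lit 152) (nat_lit 1233812940) (nat_lit 137) (nat_lit 3) (nat_lit 137) (nat_lit 1) (nat_lit 139) (nat_lit 1) (nat_lit 333) (nat_lit 381) (nat_lit 306))) (XT.nd (nat_lit 78) (nat_lit 76) (nat_lit 0) (XT.lf (nat_lit 76) (nat_lit 10124477825) (nat_lit 0) (nat_lit 7895363) (nat_lit 152) (nat_lit 633700254) (nat_lit 136) (nat_lit 1) (nat_lit 135) (nat_lit 1) (nat_lit 137) (nat_lit 1) (nat_lit 334) (nat_lit 381) (nat_lit 305)) (XT.lf (nat_lit 0) (nat_lit 4890636321) (nat_lit 0) (nat_lit 5463727811) (nat_lit 152) (nat_lit 136625323) (nat_lit 134) (nat_lit 3) (nat_lit 134) (nat_lit 1) (nat_lit 136) (nat_lit 1) (nat_lit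 335) (nat_lit 381) (nat_lit 304)))))) (XT.nd (nat_lit 468) (nat_lit 836) (nat_lit 0) (XT.nd (nat_lit 234) (nat_lit 304) (nat_lit 0) (XT.nd (nat_lit 78) (nat_lit 228) (nat_lit 0) (XT.lf (nat_lit 152) (nat_lit 9761426316) (nat_lit 0) (nat_lit 422411058) (nat_lit 76) (nat_lit 42492028) (nat_lit 133) (nat_lit 1) (nat_lit 131) (nat_lit 1) (nat_lit 132) (nat_lit 1) (nat_lit 336) (nat_lit 381) (nat_lit 303)) (XT.nd (nat_lit 78) (nat_lit 152) (nat_lit 0) (XT.lf (nat_lit 76) (nat_lit 4306559838) (nat_lit 0) (nat_lit 883734818) (nat_lit 76) (nat_lit 4774496583) (nat_lit 131) (nat_lit 3) (nat_lit 130) (nat_lit 1) (nat_lit 131) (nat_lit 1) (nat_lit 337) (nat_lit 381) (nat_lit 302)) (XT.lf (nat_lit 0) (nat_lit 486833542) (nat_lit 0) (nat_lit 899476174) (nat_lit 152) (nat_lit 8326782866) (nat_lit 128) (nat_lit 3) (nat_lit 128) (nat_lit 1) (nat_lit 130) (nat_lit 1) (nat_lit 338) (nat_lit 381) (nat_lit 301))))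 (XT.nd (nat_lit 78) (nat_lit 228) (nat_lit 0) (XT.lf (nat_lit 76) (nat_lit 3637835170) (nat_lit 0) (nat_lit 1807424428) (nat_lit 76) (nat_lit 4019911681) (nat_lit 128) (nat_lit 3) (nat_lit 127) (nat_lit 1) (nat_lit 128) (nat_lit 1) (nat_lit 339) (nat_lit 381) (nat_lit 300)) (XT.nd (nat_lit 78) (nat_lit 76) (nat_lit 0) (XT.lf (nat_lit 0) (nat_lit 957943699) (nat_lit 0) (nat_lit 1294871840) (nat_lit 152) (nat_lit 6973034188) (nat_lit 125) (nat_lit 3) (nat_lit 125) (nat_lit 1) (nat_lit 127) (nat_lit 1) (nat_lit 340) (nat_lit 381) (nat_lit 299)) (XT.lf (nat_lit 76) (nat_lit 3020944052) (nat_lit 0) (nat_lit 2636991530) (nat_lit 76) (nat_lit 3332914552) (nat_lit 125) (nat_lit 3) (nat_lit 124) (nat_lit 1) (nat_lit 125) (nat_lit 1) (nat_lit 341) (nat_lit 381) (nat_lit 298))))) (XT.nd (nat_lit 234) (nat_lit 456) (nat_lit 0) (XT.nd (nat_lit 78) (nat_lit 228) (nat_lit 0) (XT.lf (nat_lit 0) (nat_lit 1377174927)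 (nat_lit 0) (nat_lit 1652281189) (nat_lit 152) (nat_lit 5733825055) (nat_lit 122) (nat_lit 3) (nat_lit 122) (nat_lit 1) (nat_lit 124) (nat_lit 1) (nat_lit 342) (nat_lit 381) (nat_lit 297)) (XT.nd (nat_lit 78) (nat_lit 152) (nat_lit 0) (XT.lf (nat_lit 76) (nat_lit 2453315977) (nat_lit 0) (nat_lit 3379156328) (nat_lit 76) (nat_lit 2708043997) (nat_lit 122) (nat_lit 3) (nat_lit 121) (nat_lit 1) (nat_lit 122) (nat_lit 1) (nat_lit 343) (nat_lit 381) (nat_lit 296)) (XT.lf (nat_lit 0) (nat_lit 1749044864) (nat_lit 0) (nat_lit 1973672748) (nat_lit 152) (nat_lit 4601391970) (nat_lit 119) (nat_lit 3) (nat_lit 119) (nat_lit 1) (nat_lit 121) (nat_lit 1) (nat_lit 344) (nat_lit 381) (nat_lit 295)))) (XT.nd (nat_lit 156) (nat_lit 228) (nat_lit 0) (XT.nd (nat_lit 78) (nat_lit 152) (nat_lit 0) (XT.lf (nat_lit 76) (nat_lit 1932326268) (nat_lit 0) (nat_lit 4040289711) (nat_lit 76) (nat_lit 2140315049) (nat_lit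 119) (nat_lit 3) (nat_lit 118) (nat_lit 1) (nat_lit 119) (nat_lit 1) (nat_lit 345) (nat_lit 381) (nat_lit 294)) (XT.lf (nat_lit 0) (nat_lit 2077664219) (nat_lit 0) (nat_lit 2261075842) (nat_lit 152) (nat_lit 3568387991) (nat_lit 116) (nat_lit 3) (nat_lit 116) (nat_lit 1) (nat_lit 118) (nat_lit 1) (nat_lit 346) (nat_lit 381) (nat_lit 293))) (XT.nd (nat_lit 78) (nat_lit 152) (nat_lit 0) (XT.lf (nat_lit 76) (nat_lit 1455341756) (nat_lit 0) (nat_lit 4626414368) (nat_lit 76) (nat_lit 1625167333) (nat_lit 116) (nat_lit 3) (nat_lit 115) (nat_lit 1) (nat_lit 116) (nat_lit 1) (nat_lit 347) (nat_lit 381) (nat_lit 292)) (XT.lf (nat_lit 0) (nat_lit 2366781268) (nat_lit 0) (nat_lit 2516539273) (nat_lit 152) (nat_lit 2627874931) (nat_lit 113) (nat_lit 3) (nat_lit 113) (nat_lit 1) (nat_lit 115) (nat_lit 1) (nat_lit 348) (nat_lit 381) (nat_lit 291))))))) (XT.nd (nat_lit 1014) (nat_lit 1672) (nat_lit 0) (XT.nd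 (nat_lit 468) (nat_lit 912) (nat_lit 0) (XT.nd (nat_lit 234) (nat_lit 380) (nat_lit 0) (XT.nd (nat_lit 78) (nat_lit 228) (nat_lit 0) (XT.lf (nat_lit 76) (nat_lit 1019755792) (nat_lit 0) (nat_lit 5143209850) (nat_lit 76) (nat_lit 1158420612) (nat_lit 113) (nat_lit 3) (nat_lit 112) (nat_lit 1) (nat_lit 113) (nat_lit 1) (nat_lit 349) (nat_lit 381) (nat_lit 290)) (XT.nd (nat_lit 78) (nat_lit 76) (nat_lit 0) (XT.lf (nat_lit 0) (nat_lit 2619820185) (nat_lit 0) (nat_lit 2742099567) (nat_lit 152) (nat_lit 1773312607) (nat_lit 110) (nat_lit 3) (nat_lit 110) (nat_lit 1) (nat_lit 112) (nat_lit 1) (nat_lit 350) (nat_lit 381) (nat_lit 289)) (XT.lf (nat_lit 76) (nat_lit 623014688) (nat_lit 0) (nat_lit 5596020577) (nat_lit 76) (nat_lit 736236338) (nat_lit 110) (nat_lit 3) (nat_lit 109) (nat_lit 1) (nat_lit 110) (nat_lit 1) (nat_lit 351) (nat_lit 381) (nat_lit 288)))) (XT.nd (nat_lit 78) (nat_lit 228) (nat_lit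 0) (XT.lf (nat_lit 0) (nat_lit 2839914186) (nat_lit 0) (nat_lit 2939756911) (nat_lit 152) (nat_lit 998545925) (nat_lit 107) (nat_lit 3) (nat_lit 107) (nat_lit 1) (nat_lit 109) (nat_lit 1) (nat_lit 352) (nat_lit 381) (nat_lit 287)) (XT.nd (nat_lit 78) (nat_lit 152) (nat_lit 0) (XT.lf (nat_lit 76) (nat_lit 262637286) (nat_lit 0) (nat_lit 5989866025) (nat_lit 76) (nat_lit 355084254) (nat_lit 107) (nat_lit 3) (nat_lit 106) (nat_lit 1) (nat_lit 107) (nat_lit 1) (nat_lit 353) (nat_lit 381) (nat_lit 286)) (XT.lf (nat_lit 0) (nat_lit 3029934355) (nat_lit 0) (nat_lit 3111457254) (nat_lit 152) (nat_lit 297790464) (nat_lit 104) (nat_lit 3) (nat_lit 104) (nat_lit 1) (nat_lit 106) (nat_lit 1) (nat_lit 354) (nat_lit 381) (nat_lit 285))))) (XT.nd (nat_lit 234) (nat_lit 456) (nat_lit 0) (XT.nd (nat_lit 78) (nat_lit 228) (nat_lit 0) (XT.lf (nat_lit 152) (nat_lit 6214750296) (nat_lit 0) (nat_lit 52750425) (nat_lit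 76) (nat_lit 9803033) (nat_lit 103) (nat_lit 1) (nat_lit 101) (nat_lit 1) (nat_lit 102) (nat_lit 1) (nat_lit 355) (nat_lit 381) (nat_lit 284)) (XT.nd (nat_lit 78) (nat_lit 152) (nat_lit 0) (XT.lf (nat_lit 76) (nat_lit 2852468939) (nat_lit 0) (nat_lit 345439141) (nat_lit 76) (nat_lit 2919033459) (nat_lit 101) (nat_lit 3) (nat_lit 100) (nat_lit 1) (nat_lit 101) (nat_lit 1) (nat_lit 356) (nat_lit 381) (nat_lit 283)) (XT.lf (nat_lit 0) (nat_lit 303713828) (nat_lit 0) (nat_lit 362412700) (nat_lit 152) (nat_lit 5296627727) (nat_lit 98) (nat_lit 3) (nat_lit 98) (nat_lit 1) (nat_lit 100) (nat_lit 1) (nat_lit 357) (nat_lit 381) (nat_lit 282)))) (XT.nd (nat_lit 156) (nat_lit 228) (nat_lit 0) (XT.nd (nat_lit 78) (nat_lit 152) (nat_lit 0) (XT.lf (nat_lit 76) (nat_lit 2411716805) (nat_lit 0) (nat_lit 932923515) (nat_lit 76) (nat_lit 2466067611) (nat_lit 98) (nat_lit 3) (nat_lit 97) (nat_lit 1) (nat_lit 98)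 (nat_lit 1) (nat_lit 358) (nat_lit 381) (nat_lit 281)) (XT.lf (nat_lit 0) (nat_lit 584456585) (nat_lit 0) (nat_lit 632384986) (nat_lit 152) (nat_lit 4447211738) (nat_lit 95) (nat_lit 3) (nat_lit 95) (nat_lit 1) (nat_lit 97) (nat_lit 1) (nat_lit 359) (nat_lit 381) (nat_lit 280))) (XT.nd (nat_lit 78) (nat_lit 152) (nat_lit 0) (XT.lf (nat_lit 76) (nat_lit 2007887872) (nat_lit 0) (nat_lit 1459740812) (nat_lit 76) (nat_lit 2052266021) (nat_lit 95) (nat_lit 3) (nat_lit 94) (nat_lit 1) (nat_lit 95) (nat_lit 1) (nat_lit 360) (nat_lit 381) (nat_lit 279)) (XT.lf (nat_lit 0) (nat_lit 835321588) (nat_lit 0) (nat_lit 874455758) (nat_lit 152) (nat_lit 3670624327) (nat_lit 92) (nat_lit 3) (nat_lit 92) (nat_lit 1) (nat_lit 94) (nat_lit 1) (nat_lit 361) (nat_lit 381) (nat_lit 278)))))) (XT.nd (nat_lit 546) (nat_lit 912) (nat_lit 0) (XT.nd (nat_lit 234) (nat_lit 456) (nat_lit 0) (XT.nd (nat_lit 78) (nat_lit 228)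 (nat_lit 0) (XT.lf (nat_lit 76) (nat_lit 1638492147) (nat_lit 0) (nat_lit 1930498578) (nat_lit 76) (nat_lit 1674727490) (nat_lit 92) (nat_lit 3) (nat_lit 91) (nat_lit 1) (nat_lit 92) (nat_lit 1) (nat_lit 362) (nat_lit 381) (nat_lit 277)) (XT.nd (nat_lit 78) (nat_lit 76) (nat_lit 0) (XT.lf (nat_lit 0) (nat_lit 1058697766) (nat_lit 0) (nat_lit 1090651332) (nat_lit 152) (nat_lit 2961685301) (nat_lit 89) (nat_lit 3) (nat_lit 89) (nat_lit 1) (nat_lit 91) (nat_lit 1) (nat_lit 363) (nat_lit 381) (nat_lit 276)) (XT.lf (nat_lit 76) (nat_lit 1301172379) (nat_lit 0) (nat_lit 2349504071) (nat_lit 76) (nat_lit 1330759014) (nat_lit 89) (nat_lit 3) (nat_lit 88) (nat_lit 1) (nat_lit 89) (nat_lit 1) (nat_lit 364) (nat_lit 381) (nat_lit 275)))) (XT.nd (nat_lit 156) (nat_lit 228) (nat_lit 0) (XT.nd (nat_lit 78) (nat_lit 76) (nat_lit 0) (XT.lf (nat_lit 0) (nat_lit 1256796034) (nat_lit 0) (nat_lit 1282886540) (nat_lit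 152) (nat_lit 2315543612) (nat_lit 86) (nat_lit 3) (nat_lit 86) (nat_lit 1) (nat_lit 88) (nat_lit 1) (nat_lit 365) (nat_lit 381) (nat_lit 274)) (XT.lf (nat_lit 76) (nat_lit 993701721) (nat_lit 0) (nat_lit 2720780556) (nat_lit 76) (nat_lit 1017859597) (nat_lit 86) (nat_lit 3) (nat_lit 85) (nat_lit 1) (nat_lit 86) (nat_lit 1) (nat_lit 366) (nat_lit 381) (nat_lit 273))) (XT.nd (nat_lit 78) (nat_lit 76) (nat_lit 0) (XT.lf (nat_lit 0) (nat_lit 1431663357) (nat_lit 0) (nat_lit 1452966599) (nat_lit 152) (nat_lit 1727659245) (nat_lit 83) (nat_lit 3) (nat_lit 83) (nat_lit 1) (nat_lit 85) (nat_lit 1) (nat_lit 367) (nat_lit 381) (nat_lit 272)) (XT.lf (nat_lit 76) (nat_lit 713980402) (nat_lit 0) (nat_lit 3048083163) (nat_lit 76) (nat_lit 733705626) (nat_lit 83) (nat_lit 3) (nat_lit 82) (nat_lit 1) (nat_lit 83) (nat_lit 1) (nat_lit 368) (nat_lit 381) (nat_lit 271))))) (XT.nd (nat_lit 234) (nat_lit 532) (nat_lit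 0) (XT.nd (nat_lit 78) (nat_lit 228) (nat_lit 0) (XT.lf (nat_lit 0) (nat_lit 1585195479) (nat_lit 0) (nat_lit 1602589856) (nat_lit 152) (nat_lit 1193785719) (nat_lit 80) (nat_lit 3) (nat_lit 80) (nat_lit 1) (nat_lit 82) (nat_lit 1) (nat_lit 369) (nat_lit 381) (nat_lit 270)) (XT.nd (nat_lit 78) (nat_lit 152) (nat_lit 0) (XT.lf (nat_lit 76) (nat_lit 460031702) (nat_lit 0) (nat_lit 3334914223) (nat_lit 76) (nat_lit 476137607) (nat_lit 80) (nat_lit 3) (nat_lit 79) (nat_lit 1) (nat_lit 80) (nat_lit 1) (nat_lit 370) (nat_lit 381) (nat_lit 269)) (XT.lf (nat_lit 0) (nat_lit 1719148447) (nat_lit 0) (nat_lit 1733351185) (nat_lit 152) (nat_lit 709953257) (nat_lit 77) (nat_lit 3) (nat_lit 77) (nat_lit 1) (nat_lit 79) (nat_lit 1) (nat_lit 371) (nat_lit 381) (nat_lit 268)))) (XT.nd (nat_lit 156) (nat_lit 304) (nat_lit 0) (XT.nd (nat_lit 78) (nat_lit 152) (nat_lit 0) (XT.lf (nat_lit 76) (nat_lit 229997410)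 (nat_lit 0) (nat_lit 3584538036) (nat_lit 76) (nat_lit 243148094) (nat_lit 77) (nat_lit 3) (nat_lit 76) (nat_lit 1) (nat_lit 77) (nat_lit 1) (nat_lit 372) (nat_lit 381) (nat_lit 267)) (XT.lf (nat_lit 0) (nat_lit 1835149109) (nat_lit 0) (nat_lit 1846745832) (nat_lit 152) (nat_lit 272452662) (nat_lit 74) (nat_lit 3) (nat_lit 74) (nat_lit 1) (nat_lit 76) (nat_lit 1) (nat_lit 373) (nat_lit 381) (nat_lit 266))) (XT.nd (nat_lit 78) (nat_lit 228) (nat_lit 0) (XT.lf (nat_lit 76) (nat_lit 22132963) (nat_lit 0) (nat_lit 3799995026) (nat_lit 76) (nat_lit 32870670) (nat_lit 74) (nat_lit 3) (nat_lit 73) (nat_lit 1) (nat_lit 74) (nat_lit 1) (nat_lit 374) (nat_lit 381) (nat_lit 265)) (XT.lf (nat_lit 76) (nat_lit 1810455418) (nat_lit 0) (nat_lit 126219910) (nat_lit 76) (nat_lit 1819924295) (nat_lit 71) (nat_lit 3) (nat_lit 70) (nat_lit 1) (nat_lit 71) (nat_lit 1) (nat_lit 375) (nat_lit 381) (nat_lit 264))))))))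
noncomputable def ec119 : XT := (XT.nd (nat_lit 2106) (nat_lit 1824) (nat_lit 0) (XT.nd (nat_lit 1014) (nat_lit 1672) (nat_lit 0) (XT.nd (nat_lit 468) (nat_lit 836) (nat_lit 0) (XT.nd (nat_lit 234) (nat_lit 304) (nat_lit 0) (XT.nd (nat_lit 78) (nat_lit 228) (nat_lit 0) (XT.lf (nat_lit 0) (nat_lit 159275182) (nat_lit 0) (nat_lit 167625162) (nat_lit 152) (nat_lit 3335072458) (nat_lit 68) (nat_lit 3) (nat_lit 68) (nat_lit 1) (nat_lit 70) (nat_lit 1) (nat_lit 376) (nat_lit 381) (nat_lit 263)) (XT.nd (nat_lit 78) (nat_lit 152) (nat_lit 0) (XT.lf (nat_lit 76) (nat_lit 1533951759) (nat_lit 0) (nat_lit 492956183) (nat_lit 76) (nat_lit 1541683222) (nat_lit 68) (nat_lit 3) (nat_lit 67) (nat_lit 1) (nat_lit 68) (nat_lit 1) (nat_lit 377) (nat_lit 381) (nat_lit 262)) (XT.lf (nat_lit 0) (nat_lit 331947556) (nat_lit 0) (nat_lit 338765424) (nat_lit 152) (nat_lit 2807867320) (nat_lit 65) (nat_lit 3) (nat_lit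 65) (nat_lit 1) (nat_lit 67) (nat_lit 1) (nat_lit 378) (nat_lit 381) (nat_lit 261)))) (XT.nd (nat_lit 78) (nat_lit 228) (nat_lit 0) (XT.lf (nat_lit 76) (nat_lit 1280930366) (nat_lit 0) (nat_lit 821864368) (nat_lit 76) (nat_lit 1287243207) (nat_lit 65) (nat_lit 3) (nat_lit 64) (nat_lit 1) (nat_lit 65) (nat_lit 1) (nat_lit 379) (nat_lit 381) (nat_lit 260)) (XT.nd (nat_lit 78) (nat_lit 76) (nat_lit 0) (XT.lf (nat_lit 0) (nat_lit 486474376) (nat_lit 0) (nat_lit 492041255) (nat_lit 152) (nat_lit 2325901294) (nat_lit 62) (nat_lit 3) (nat_lit 62) (nat_lit 1) (nat_lit 64) (nat_lit 1) (nat_lit 380) (nat_lit 381) (nat_lit 259)) (XT.lf (nat_lit 76) (nat_lit 1049728006) (nat_lit 0) (nat_lit 1115851157) (nat_lit 76) (nat_lit 1054882524) (nat_lit 62) (nat_lit 3) (nat_lit 61) (nat_lit 1) (nat_lit 62) (nat_lit 1) (nat_lit 381) (nat_lit 381) (nat_lit 258))))) (XT.nd (nat_lit 234) (nat_lit 456) (nat_lit 0) (XT.nd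 (nat_lit 78) (nat_lit 228) (nat_lit 0) (XT.lf (nat_lit 0) (nat_lit 624272127) (nat_lit 0) (nat_lit 628817557) (nat_lit 152) (nat_lit 1885925895) (nat_lit 59) (nat_lit 3) (nat_lit 59) (nat_lit 1) (nat_lit 61) (nat_lit 1) (nat_lit 382) (nat_lit 381) (nat_lit 257)) (XT.nd (nat_lit 78) (nat_lit 152) (nat_lit 0) (XT.lf (nat_lit 76) (nat_lit 838786822) (nat_lit 0) (nat_lit 1377626161) (nat_lit 76) (nat_lit 842995554) (nat_lit 59) (nat_lit 3) (nat_lit 58) (nat_lit 1) (nat_lit 59) (nat_lit 1) (nat_lit 383) (nat_lit 381) (nat_lit 256)) (XT.lf (nat_lit 0) (nat_lit 746657964) (nat_lit 0) (nat_lit 750369367) (nat_lit 152) (nat_lit 1484905662) (nat_lit 56) (nat_lit 3) (nat_lit 56) (nat_lit 1) (nat_lit 58) (nat_lit 1) (nat_lit 384) (nat_lit 381) (nat_lit 255)))) (XT.nd (nat_lit 156) (nat_lit 228) (nat_lit 0) (XT.nd (nat_lit 78) (nat_lit 152) (nat_lit 0) (XT.lf (nat_lit 76) (nat_lit 646648554) (nat_lit 0) (nat_lit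 1609714162) (nat_lit 76) (nat_lit 650085039) (nat_lit 56) (nat_lit 3) (nat_lit 55) (nat_lit 1) (nat_lit 56) (nat_lit 1) (nat_lit 385) (nat_lit 381) (nat_lit 254)) (XT.lf (nat_lit 0) (nat_lit 854856488) (nat_lit 0) (nat_lit 857886897) (nat_lit 152) (nat_lit 1120005115) (nat_lit 53) (nat_lit 3) (nat_lit 53) (nat_lit 1) (nat_lit 55) (nat_lit 1) (nat_lit 386) (nat_lit 381) (nat_lit 253))) (XT.nd (nat_lit 78) (nat_lit 152) (nat_lit 0) (XT.lf (nat_lit 76) (nat_lit 471948960) (nat_lit 0) (nat_lit 1814466688) (nat_lit 76) (nat_lit 474754895) (nat_lit 53) (nat_lit 3) (nat_lit 52) (nat_lit 1) (nat_lit 53) (nat_lit 1) (nat_lit 387) (nat_lit 381) (nat_lit 252)) (XT.lf (nat_lit 0) (nat_lit 950006029) (nat_lit 0) (nat_lit 952480398) (nat_lit 152) (nat_lit 788576438) (nat_lit 50) (nat_lit 3) (nat_lit 50) (nat_lit 1) (nat_lit 52) (nat_lit 1) (nat_lit 388) (nat_lit 381) (nat_lit 251)))))) (XT.nd (nat_lit 546)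 (nat_lit 760) (nat_lit 0) (XT.nd (nat_lit 234) (nat_lit 608) (nat_lit 0) (XT.nd (nat_lit 78) (nat_lit 228) (nat_lit 0) (XT.lf (nat_lit 76) (nat_lit 313412438) (nat_lit 0) (nat_lit 1994072938) (nat_lit 76) (nat_lit 315703521) (nat_lit 50) (nat_lit 3) (nat_lit 49) (nat_lit 1) (nat_lit 50) (nat_lit 1) (nat_lit 389) (nat_lit 381) (nat_lit 250)) (XT.nd (nat_lit 78) (nat_lit 76) (nat_lit 0) (XT.lf (nat_lit 0) (nat_lit 1033164482) (nat_lit 0) (nat_lit 1035184837) (nat_lit 152) (nat_lit 488147853) (nat_lit 47) (nat_lit 3) (nat_lit 47) (nat_lit 1) (nat_lit 49) (nat_lit 1) (nat_lit 390) (nat_lit 381) (nat_lit 249)) (XT.lf (nat_lit 76) (nat_lit 169846884) (nat_lit 0) (nat_lit 2150570082) (nat_lit 76) (nat_lit 171717583) (nat_lit 47) (nat_lit 3) (nat_lit 46) (nat_lit 1) (nat_lit 47) (nat_lit 1) (nat_lit 391) (nat_lit 381) (nat_lit 248)))) (XT.nd (nat_lit 156) (nat_lit 380) (nat_lit 0) (XT.nd (nat_lit 78)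 (nat_lit 76) (nat_lit 0) (XT.lf (nat_lit 0) (nat_lit 1105314737) (nat_lit 0) (nat_lit 1106964383) (nat_lit 152) (nat_lit 216412664) (nat_lit 44) (nat_lit 3) (nat_lit 44) (nat_lit 1) (nat_lit 46) (nat_lit 1) (nat_lit 392) (nat_lit 381) (nat_lit 247)) (XT.lf (nat_lit 76) (nat_lit 40138761) (nat_lit 0) (nat_lit 2285852961) (nat_lit 76) (nat_lit 41666212) (nat_lit 44) (nat_lit 3) (nat_lit 43) (nat_lit 1) (nat_lit 44) (nat_lit 1) (nat_lit 393) (nat_lit 381) (nat_lit 246))) (XT.nd (nat_lit 78) (nat_lit 152) (nat_lit 0) (XT.lf (nat_lit 76) (nat_lit 1138101235) (nat_lit 0) (nat_lit 29732703) (nat_lit 76) (nat_lit 1139448194) (nat_lit 41) (nat_lit 3) (nat_lit 40) (nat_lit 1) (nat_lit 41) (nat_lit 1) (nat_lit 394) (nat_lit 381) (nat_lit 245)) (XT.lf (nat_lit 0) (nat_lit 76782093) (nat_lit 0) (nat_lit 77969887) (nat_lit 152) (nat_lit 2094431610) (nat_lit 38) (nat_lit 3) (nat_lit 38) (nat_lit 1) (nat_lit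 40) (nat_lit 1) (nat_lit 395) (nat_lit 381) (nat_lit 244))))) (XT.nd (nat_lit 234) (nat_lit 456) (nat_lit 0) (XT.nd (nat_lit 78) (nat_lit 228) (nat_lit 0) (XT.lf (nat_lit 76) (nat_lit 966512493) (nat_lit 0) (nat_lit 257687880) (nat_lit 76) (nat_lit 967612302) (nat_lit 38) (nat_lit 3) (nat_lit 37) (nat_lit 1) (nat_lit 38) (nat_lit 1) (nat_lit 396) (nat_lit 381) (nat_lit 243)) (XT.nd (nat_lit 78) (nat_lit 76) (nat_lit 0) (XT.lf (nat_lit 0) (nat_lit 183772172) (nat_lit 0) (nat_lit 184742022) (nat_lit 152) (nat_lit 1768033096) (nat_lit 35) (nat_lit 3) (nat_lit 35) (nat_lit 1) (nat_lit 37) (nat_lit 1) (nat_lit 397) (nat_lit 381) (nat_lit 242)) (XT.lf (nat_lit 76) (nat_lit 809510344) (nat_lit 0) (nat_lit 462230177) (nat_lit 76) (nat_lit 810408352) (nat_lit 35) (nat_lit 3) (nat_lit 34) (nat_lit 1) (nat_lit 35) (nat_lit 1) (nat_lit 398) (nat_lit 381) (nat_lit 241)))) (XT.nd (nat_lit 156) (nat_lit 228)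 (nat_lit 0) (XT.nd (nat_lit 78) (nat_lit 76) (nat_lit 0) (XT.lf (nat_lit 0) (nat_lit 279599031) (nat_lit 0) (nat_lit 280390926) (nat_lit 152) (nat_lit 1469588091) (nat_lit 32) (nat_lit 3) (nat_lit 32) (nat_lit 1) (nat_lit 34) (nat_lit 1) (nat_lit 399) (nat_lit 381) (nat_lit 240)) (XT.lf (nat_lit 76) (nat_lit 666051569) (nat_lit 0) (nat_lit 645160997) (nat_lit 76) (nat_lit 666784805) (nat_lit 32) (nat_lit 3) (nat_lit 31) (nat_lit 1) (nat_lit 32) (nat_lit 1) (nat_lit 400) (nat_lit 381) (nat_lit 239))) (XT.nd (nat_lit 78) (nat_lit 76) (nat_lit 0) (XT.lf (nat_lit 0) (nat_lit 365127954) (nat_lit 0) (nat_lit 365774546) (nat_lit 152) (nat_lit 1197086815) (nat_lit 29) (nat_lit 3) (nat_lit 29) (nat_lit 1) (nat_lit 31) (nat_lit 1) (nat_lit 401) (nat_lit 381) (nat_lit 238)) (XT.lf (nat_lit 76) (nat_lit 535161201) (nat_lit 0) (nat_lit 808158624) (nat_lit 76) (nat_lit 535759897) (nat_lit 29) (nat_lit 3) (nat_lit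 28) (nat_lit 1) (nat_lit 29) (nat_lit 1) (nat_lit 402) (nat_lit 381) (nat_lit 237))))))) (XT.nd (nat_lit 1014) (nat_lit 228) (nat_lit 0) (XT.nd (nat_lit 468) (nat_lit 912) (nat_lit 0) (XT.nd (nat_lit 234) (nat_lit 304) (nat_lit 0) (XT.nd (nat_lit 78) (nat_lit 228) (nat_lit 0) (XT.lf (nat_lit 0) (nat_lit 441164512) (nat_lit 0) (nat_lit 441692463) (nat_lit 152) (nat_lit 948652145) (nat_lit 26) (nat_lit 3) (nat_lit 26) (nat_lit 1) (nat_lit 28) (nat_lit 1) (nat_lit 403) (nat_lit 381) (nat_lit 236)) (XT.nd (nat_lit 78) (nat_lit 152) (nat_lit 0) (XT.lf (nat_lit 76) (nat_lit 415928351) (nat_lit 0) (nat_lit 952786078) (nat_lit 76) (nat_lit 416417195) (nat_lit 26) (nat_lit 3) (nat_lit 25) (nat_lit 1) (nat_lit 26) (nat_lit 1) (nat_lit 404) (nat_lit 381) (nat_lit 235)) (XT.lf (nat_lit 0) (nat_lit 508458460) (nat_lit 0) (nat_lit 508889540) (nat_lit 152) (nat_lit 722531311) (nat_lit 23) (nat_lit 3) (nat_lit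 23) (nat_lit 1) (nat_lit 25) (nat_lit 1) (nat_lit 405) (nat_lit 381) (nat_lit 234)))) (XT.nd (nat_lit 78) (nat_lit 228) (nat_lit 0) (XT.lf (nat_lit 76) (nat_lit 307502273) (nat_lit 0) (nat_lit 1080498502) (nat_lit 76) (nat_lit 307901420) (nat_lit 23) (nat_lit 3) (nat_lit 22) (nat_lit 1) (nat_lit 23) (nat_lit 1) (nat_lit 406) (nat_lit 381) (nat_lit 233)) (XT.nd (nat_lit 78) (nat_lit 76) (nat_lit 0) (XT.lf (nat_lit 0) (nat_lit 567707388) (nat_lit 0) (nat_lit 568059370) (nat_lit 152) (nat_lit 517088096) (nat_lit 20) (nat_lit 3) (nat_lit 20) (nat_lit 1) (nat_lit 22) (nat_lit 1) (nat_lit 407) (nat_lit 381) (nat_lit 232)) (XT.lf (nat_lit 76) (nat_lit 209088640) (nat_lit 0) (nat_lit 1192650096) (nat_lit 76) (nat_lit 209414549) (nat_lit 20) (nat_lit 3) (nat_lit 19) (nat_lit 1) (nat_lit 20) (nat_lit 1) (nat_lit 408) (nat_lit 381) (nat_lit 231))))) (XT.nd (nat_lit 234) (nat_lit 532) (nat_lit 0) (XT.nd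 (nat_lit 78) (nat_lit 228) (nat_lit 0) (XT.lf (nat_lit 0) (nat_lit 619560130) (nat_lit 0) (nat_lit 619847528) (nat_lit 152) (nat_lit 330795501) (nat_lit 17) (nat_lit 3) (nat_lit 17) (nat_lit 1) (nat_lit 19) (nat_lit 1) (nat_lit 409) (nat_lit 381) (nat_lit 230)) (XT.nd (nat_lit 78) (nat_lit 152) (nat_lit 0) (XT.lf (nat_lit 76) (nat_lit 119946044) (nat_lit 0) (nat_lit 1290500634) (nat_lit 76) (nat_lit 120212153) (nat_lit 17) (nat_lit 3) (nat_lit 16) (nat_lit 1) (nat_lit 17) (nat_lit 1) (nat_lit 410) (nat_lit 381) (nat_lit 229)) (XT.lf (nat_lit 0) (nat_lit 664619966) (nat_lit 0) (nat_lit 664854630) (nat_lit 152) (nat_lit 162228849) (nat_lit 14) (nat_lit 3) (nat_lit 14) (nat_lit 1) (nat_lit 16) (nat_lit 1) (nat_lit 411) (nat_lit 381) (nat_lit 228)))) (XT.nd (nat_lit 156) (nat_lit 304) (nat_lit 0) (XT.nd (nat_lit 78) (nat_lit 152) (nat_lit 0) (XT.lf (nat_lit 76) (nat_lit 39382685) (nat_lit 0) (nat_lit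 1375221577) (nat_lit 76) (nat_lit 39599967) (nat_lit 14) (nat_lit 3) (nat_lit 13) (nat_lit 1) (nat_lit 14) (nat_lit 1) (nat_lit 412) (nat_lit 381) (nat_lit 227)) (XT.lf (nat_lit 0) (nat_lit 703447608) (nat_lit 0) (nat_lit 703639214) (nat_lit 152) (nat_lit 10059314) (nat_lit 11) (nat_lit 3) (nat_lit 11) (nat_lit 1) (nat_lit 13) (nat_lit 1) (nat_lit 413) (nat_lit 381) (nat_lit 226))) (XT.nd (nat_lit 78) (nat_lit 76) (nat_lit 0) (XT.lf (nat_lit 0) (nat_lit 33617115) (nat_lit 0) (nat_lit 33786080) (nat_lit 152) (nat_lit 1314076441) (nat_lit 8) (nat_lit 3) (nat_lit 8) (nat_lit 1) (nat_lit 10) (nat_lit 1) (nat_lit 414) (nat_lit 381) (nat_lit 225)) (XT.lf (nat_lit 76) (nat_lit 607461843) (nat_lit 0) (nat_lit 131149777) (nat_lit 76) (nat_lit 607618292) (nat_lit 8) (nat_lit 3) (nat_lit 7) (nat_lit 1) (nat_lit 8) (nat_lit 1) (nat_lit 415) (nat_lit 381) (nat_lit 224)))))) (XT.nd (nat_lit 41028) (nat_lit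 0) (nat_lit 19912) (XT.nd (nat_lit 40716) (nat_lit 0) (nat_lit 21964) (XT.nd (nat_lit 78) (nat_lit 76) (nat_lit 0) (XT.lf (nat_lit 0) (nat_lit 100016805) (nat_lit 0) (nat_lit 100154767) (nat_lit 152) (nat_lit 1112123295) (nat_lit 5) (nat_lit 3) (nat_lit 5) (nat_lit 1) (nat_lit 7) (nat_lit 1) (nat_lit 416) (nat_lit 381) (nat_lit 223)) (XT.nd (nat_lit 40560) (nat_lit 0) (nat_lit 21888) (XT.lf (nat_lit 76) (nat_lit 510259155) (nat_lit 0) (nat_lit 258225425) (nat_lit 76) (nat_lit 510386897) (nat_lit 5) (nat_lit 3) (nat_lit 4) (nat_lit 1) (nat_lit 5) (nat_lit 1) (nat_lit 417) (nat_lit 381) (nat_lit 222)) (XT.lf (nat_lit 836) (nat_lit 13615933116) (nat_lit 0) (nat_lit 24175057950) (nat_lit 836) (nat_lit 13615933116) (nat_lit 303) (nat_lit 1) (nat_lit 292) (nat_lit 0) (nat_lit 303) (nat_lit 0) (nat_lit 256) (nat_lit 382) (nat_lit 382)))) (XT.nd (nat_lit 156) (nat_lit 0) (nat_lit 76) (XT.nd (nat_lit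 78) (nat_lit 0) (nat_lit 0) (XT.lf (nat_lit 836) (nat_lit 5079160845) (nat_lit 0) (nat_lit 47462965643) (nat_lit 760) (nat_lit 46418621829) (nat_lit 304) (nat_lit 1) (nat_lit 293) (nat_lit 1) (nat_lit 303) (nat_lit 1) (nat_lit 257) (nat_lit 382) (nat_lit 381)) (XT.lf (nat_lit 836) (nat_lit 46649160632) (nat_lit 76) (nat_lit 31785964090) (nat_lit 0) (nat_lit 16857825401) (nat_lit 304) (nat_lit 1) (nat_lit 294) (nat_lit 1) (nat_lit 293) (nat_lit 1) (nat_lit 258) (nat_lit 382) (nat_lit 380))) (XT.nd (nat_lit 78) (nat_lit 0) (nat_lit 76) (XT.lf (nat_lit 836) (nat_lit 40308696340) (nat_lit 76) (nat_lit 13321277230) (nat_lit 0) (nat_lit 38178724283) (nat_lit 305) (nat_lit 1) (nat_lit 295) (nat_lit 1) (nat_lit 294) (nat_lit 1) (nat_lit 259) (nat_lit 382) (nat_lit 379)) (XT.lf (nat_lit 836) (nat_lit 29831862218) (nat_lit 0) (nat_lit 55814004119) (nat_lit 760) (nat_lit 2853203916) (nat_lit 306) (nat_lit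 1) (nat_lit 295) (nat_lit 1) (nat_lit 305) (nat_lit 1) (nat_lit 260) (nat_lit 382) (nat_lit 378))))) (XT.nd (nat_lit 234) (nat_lit 1596) (nat_lit 0) (XT.nd (nat_lit 78) (nat_lit 684) (nat_lit 0) (XT.lf (nat_lit 836) (nat_lit 7157862845) (nat_lit 0) (nat_lit 61550445273) (nat_lit 760) (nat_lit 16639192419) (nat_lit 307) (nat_lit 1) (nat_lit 296) (nat_lit 1) (nat_lit 306) (nat_lit 1) (nat_lit 261) (nat_lit 382) (nat_lit 377)) (XT.nd (nat_lit 78) (nat_lit 684) (nat_lit 0) (XT.lf (nat_lit 836) (nat_lit 13754501040) (nat_lit 76) (nat_lit 53492349210) (nat_lit 0) (nat_lit 15096200917) (nat_lit 307) (nat_lit 1) (nat_lit 297) (nat_lit 1) (nat_lit 296) (nat_lit 1) (nat_lit 262) (nat_lit 382) (nat_lit 376)) (XT.lf (nat_lit 836) (nat_lit 2824860869) (nat_lit 0) (nat_lit 39989069417) (nat_lit 760) (nat_lit 36669557657) (nat_lit 298) (nat_lit 1) (nat_lit 287) (nat_lit 1) (nat_lit 297) (nat_lit 1) (nat_lit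 263) (nat_lit 382) (nat_lit 375)))) (XT.nd (nat_lit 156) (nat_lit 684) (nat_lit 0) (XT.nd (nat_lit 78) (nat_lit 380) (nat_lit 0) (XT.lf (nat_lit 76) (nat_lit 19559925099) (nat_lit 0) (nat_lit 8476225790) (nat_lit 532) (nat_lit 48723171386) (nat_lit 281) (nat_lit 1) (nat_lit 280) (nat_lit 1) (nat_lit 287) (nat_lit 1) (nat_lit 264) (nat_lit 382) (nat_lit 374)) (XT.lf (nat_lit 456) (nat_lit 53904691628) (nat_lit 0) (nat_lit 17547139216) (nat_lit 380) (nat_lit 2712896144) (nat_lit 281) (nat_lit 1) (nat_lit 275) (nat_lit 1) (nat_lit 280) (nat_lit 1) (nat_lit 265) (nat_lit 382) (nat_lit 373))) (XT.nd (nat_lit 78) (nat_lit 304) (nat_lit 0) (XT.lf (nat_lit 456) (nat_lit 38898138798) (nat_lit 0) (nat_lit 8178797175) (nat_lit 380) (nat_lit 24604758686) (nat_lit 276) (nat_lit 1) (nat_lit 270) (nat_lit 1) (nat_lit 275) (nat_lit 1) (nat_lit 266) (nat_lit 382) (nat_lit 372)) (XT.lf (nat_lit 380) (nat_lit 23669021354)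 (nat_lit 0) (nat_lit 150584947) (nat_lit 304) (nat_lit 45499452868) (nat_lit 271) (nat_lit 1) (nat_lit 266) (nat_lit 1) (nat_lit 270) (nat_lit 1) (nat_lit 267) (nat_lit 382) (nat_lit 371))))))))
noncomputable def ec120 : XT := (XT.nd (nat_lit 2028) (nat_lit 3192) (nat_lit 0) (XT.nd (nat_lit 1014) (nat_lit 2128) (nat_lit 0) (XT.nd (nat_lit 468) (nat_lit 1596) (nat_lit 0) (XT.nd (nat_lit 234) (nat_lit 912) (nat_lit 0) (XT.nd (nat_lit 78) (nat_lit 684) (nat_lit 0) (XT.lf (nat_lit 76) (nat_lit 1746188536) (nat_lit 0) (nat_lit 58889938737) (nat_lit 380) (nat_lit 6428981856) (nat_lit 267) (nat_lit 1) (nat_lit 266) (nat_lit 1) (nat_lit 271) (nat_lit 1) (nat_lit 268) (nat_lit 382) (nat_lit 370)) (XT.nd (nat_lit 78) (nat_lit 304) (nat_lit 0) (XT.lf (nat_lit 76) (nat_lit 45087040908) (nat_lit 0) (nat_lit 7478168163) (nat_lit 380) (nat_lit 12332857439) (nat_lit 262) (nat_lit 1) (nat_lit 261) (nat_lit 1)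 (nat_lit 266) (nat_lit 1) (nat_lit 269) (nat_lit 382) (nat_lit 369)) (XT.lf (nat_lit 76) (nat_lit 22558189101) (nat_lit 0) (nat_lit 22906956579) (nat_lit 380) (nat_lit 17361629203) (nat_lit 258) (nat_lit 1) (nat_lit 257) (nat_lit 1) (nat_lit 262) (nat_lit 1) (nat_lit 270) (nat_lit 382) (nat_lit 368)))) (XT.nd (nat_lit 78) (nat_lit 608) (nat_lit 0) (XT.lf (nat_lit 76) (nat_lit 1113422192) (nat_lit 0) (nat_lit 38300075707) (nat_lit 380) (nat_lit 21440054171) (nat_lit 254) (nat_lit 1) (nat_lit 253) (nat_lit 1) (nat_lit 258) (nat_lit 1) (nat_lit 271) (nat_lit 382) (nat_lit 367)) (XT.nd (nat_lit 78) (nat_lit 380) (nat_lit 0) (XT.lf (nat_lit 304) (nat_lit 5028151867) (nat_lit 0) (nat_lit 34002984258) (nat_lit 228) (nat_lit 19926530249) (nat_lit 254) (nat_lit 1) (nat_lit 250) (nat_lit 1) (nat_lit 253) (nat_lit 1) (nat_lit 272) (nat_lit 382) (nat_lit 366)) (XT.lf (nat_lit 76) (nat_lit 17373616569) (nat_lit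 0) (nat_lit 11907984751) (nat_lit 380) (nat_lit 27858501831) (nat_lit 246) (nat_lit 1) (nat_lit 245) (nat_lit 1) (nat_lit 250) (nat_lit 1) (nat_lit 273) (nat_lit 382) (nat_lit 365))))) (XT.nd (nat_lit 234) (nat_lit 836) (nat_lit 0) (XT.nd (nat_lit 78) (nat_lit 532) (nat_lit 0) (XT.lf (nat_lit 304) (nat_lit 26898537346) (nat_lit 0) (nat_lit 25267699283) (nat_lit 228) (nat_lit 3234235519) (nat_lit 246) (nat_lit 1) (nat_lit 242) (nat_lit 1) (nat_lit 245) (nat_lit 1) (nat_lit 274) (nat_lit 382) (nat_lit 364)) (XT.nd (nat_lit 78) (nat_lit 304) (nat_lit 0) (XT.lf (nat_lit 304) (nat_lit 8620851271) (nat_lit 0) (nat_lit 21754454380) (nat_lit 228) (nat_lit 23352390000) (nat_lit 243) (nat_lit 1) (nat_lit 239) (nat_lit 1) (nat_lit 242) (nat_lit 1) (nat_lit 275) (nat_lit 382) (nat_lit 363)) (XT.lf (nat_lit 76) (nat_lit 9825687373) (nat_lit 0) (nat_lit 8996270661) (nat_lit 304) (nat_lit 33302434676) (nat_lit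 236) (nat_lit 1) (nat_lit 235) (nat_lit 1) (nat_lit 239) (nat_lit 1) (nat_lit 276) (nat_lit 382) (nat_lit 362)))) (XT.nd (nat_lit 156) (nat_lit 456) (nat_lit 0) (XT.nd (nat_lit 78) (nat_lit 152) (nat_lit 0) (XT.lf (nat_lit 304) (nat_lit 24449933411) (nat_lit 0) (nat_lit 16268079647) (nat_lit 228) (nat_lit 9861763369) (nat_lit 236) (nat_lit 1) (nat_lit 232) (nat_lit 1) (nat_lit 235) (nat_lit 1) (nat_lit 277) (nat_lit 382) (nat_lit 361)) (XT.lf (nat_lit 228) (nat_lit 6061174594) (nat_lit 0) (nat_lit 14192712895) (nat_lit 152) (nat_lit 28843586783) (nat_lit 233) (nat_lit 1) (nat_lit 230) (nat_lit 1) (nat_lit 232) (nat_lit 1) (nat_lit 278) (nat_lit 382) (nat_lit 360))) (XT.nd (nat_lit 78) (nat_lit 152) (nat_lit 0) (XT.lf (nat_lit 76) (nat_lit 1026801699) (nat_lit 0) (nat_lit 11490133928) (nat_lit 304) (nat_lit 35155694428) (nat_lit 227) (nat_lit 1) (nat_lit 226) (nat_lit 1) (nat_lit 230) (nat_lit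 1) (nat_lit 279) (nat_lit 382) (nat_lit 359)) (XT.lf (nat_lit 228) (nat_lit 17612661224) (nat_lit 0) (nat_lit 11006402278) (nat_lit 152) (nat_lit 17673953463) (nat_lit 227) (nat_lit 1) (nat_lit 224) (nat_lit 1) (nat_lit 226) (nat_lit 1) (nat_lit 280) (nat_lit 382) (nat_lit 358)))))) (XT.nd (nat_lit 468) (nat_lit 1064) (nat_lit 0) (XT.nd (nat_lit 234) (nat_lit 532) (nat_lit 0) (XT.nd (nat_lit 78) (nat_lit 304) (nat_lit 0) (XT.lf (nat_lit 76) (nat_lit 9555893943) (nat_lit 0) (nat_lit 441392732) (nat_lit 228) (nat_lit 34976318762) (nat_lit 222) (nat_lit 1) (nat_lit 221) (nat_lit 1) (nat_lit 224) (nat_lit 1) (nat_lit 281) (nat_lit 382) (nat_lit 357)) (XT.nd (nat_lit 78) (nat_lit 152) (nat_lit 0) (XT.lf (nat_lit 228) (nat_lit 26123968753) (nat_lit 0) (nat_lit 9052540921) (nat_lit 152) (nat_lit 8516064976) (nat_lit 222) (nat_lit 1) (nat_lit 219) (nat_lit 1) (nat_lit 221) (nat_lit 1) (nat_lit 282) (nat_lit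 382) (nat_lit 356)) (XT.lf (nat_lit 228) (nat_lit 8115151555) (nat_lit 0) (nat_lit 8415337831) (nat_lit 152) (nat_lit 25930033891) (nat_lit 220) (nat_lit 1) (nat_lit 217) (nat_lit 1) (nat_lit 219) (nat_lit 1) (nat_lit 283) (nat_lit 382) (nat_lit 355)))) (XT.nd (nat_lit 78) (nat_lit 304) (nat_lit 0) (XT.lf (nat_lit 228) (nat_lit 32214169272) (nat_lit 0) (nat_lit 8040172266) (nat_lit 152) (nat_lit 1019989131) (nat_lit 217) (nat_lit 1) (nat_lit 214) (nat_lit 1) (nat_lit 216) (nat_lit 1) (nat_lit 284) (nat_lit 382) (nat_lit 354)) (XT.nd (nat_lit 78) (nat_lit 152) (nat_lit 0) (XT.lf (nat_lit 228) (nat_lit 14417569165) (nat_lit 0) (nat_lit 7675653797) (nat_lit 152) (nat_lit 18027875648) (nat_lit 215) (nat_lit 1) (nat_lit 212) (nat_lit 1) (nat_lit 214) (nat_lit 1) (nat_lit 285) (nat_lit 382) (nat_lit 353)) (XT.lf (nat_lit 76) (nat_lit 4938574086) (nat_lit 0) (nat_lit 2714462856) (nat_lit 152) (nat_lit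 31362662695) (nat_lit 211) (nat_lit 1) (nat_lit 210) (nat_lit 1) (nat_lit 212) (nat_lit 1) (nat_lit 286) (nat_lit 382) (nat_lit 352))))) (XT.nd (nat_lit 234) (nat_lit 608) (nat_lit 0) (XT.nd (nat_lit 78) (nat_lit 304) (nat_lit 0) (XT.lf (nat_lit 228) (nat_lit 18916679909) (nat_lit 0) (nat_lit 7571999800) (nat_lit 152) (nat_lit 11449514646) (nat_lit 211) (nat_lit 1) (nat_lit 208) (nat_lit 1) (nat_lit 210) (nat_lit 1) (nat_lit 287) (nat_lit 382) (nat_lit 351)) (XT.nd (nat_lit 78) (nat_lit 228) (nat_lit 0) (XT.lf (nat_lit 152) (nat_lit 2037057623) (nat_lit 0) (nat_lit 7757977900) (nat_lit 76) (nat_lit 27108192073) (nat_lit 209) (nat_lit 1) (nat_lit 207) (nat_lit 1) (nat_lit 208) (nat_lit 1) (nat_lit 288) (nat_lit 382) (nat_lit 350)) (XT.lf (nat_lit 228) (nat_lit 21989284975) (nat_lit 0) (nat_lit 7934341148) (nat_lit 152) (nat_lit 5973171943) (nat_lit 207) (nat_lit 1) (nat_lit 204) (nat_lit 1) (nat_lit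 206) (nat_lit 1) (nat_lit 289) (nat_lit 382) (nat_lit 349)))) (XT.nd (nat_lit 156) (nat_lit 304) (nat_lit 0) (XT.nd (nat_lit 78) (nat_lit 228) (nat_lit 0) (XT.lf (nat_lit 152) (nat_lit 5530467319) (nat_lit 0) (nat_lit 8231014159) (nat_lit 76) (nat_lit 21162805754) (nat_lit 205) (nat_lit 1) (nat_lit 203) (nat_lit 1) (nat_lit 204) (nat_lit 1) (nat_lit 290) (nat_lit 382) (nat_lit 348)) (XT.lf (nat_lit 228) (nat_lit 23940032934) (nat_lit 0) (nat_lit 8627998407) (nat_lit 152) (nat_lit 1415928398) (nat_lit 203) (nat_lit 1) (nat_lit 200) (nat_lit 1) (nat_lit 202) (nat_lit 1) (nat_lit 291) (nat_lit 382) (nat_lit 347))) (XT.nd (nat_lit 78) (nat_lit 228) (nat_lit 0) (XT.lf (nat_lit 152) (nat_lit 7959101208) (nat_lit 0) (nat_lit 8994792016) (nat_lit 76) (nat_lit 16114946692) (nat_lit 201) (nat_lit 1) (nat_lit 199) (nat_lit 1) (nat_lit 200) (nat_lit 1) (nat_lit 292) (nat_lit 382) (nat_lit 346)) (XT.lf (nat_lit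 76) (nat_lit 2297313351) (nat_lit 0) (nat_lit 7210654236) (nat_lit 228) (nat_lit 22678628247) (nat_lit 197) (nat_lit 1) (nat_lit 196) (nat_lit 1) (nat_lit 199) (nat_lit 1) (nat_lit 293) (nat_lit 382) (nat_lit 345))))))) (XT.nd (nat_lit 1014) (nat_lit 1672) (nat_lit 0) (XT.nd (nat_lit 468) (nat_lit 760) (nat_lit 0) (XT.nd (nat_lit 234) (nat_lit 380) (nat_lit 0) (XT.nd (nat_lit 78) (nat_lit 304) (nat_lit 0) (XT.lf (nat_lit 152) (nat_lit 9551639542) (nat_lit 0) (nat_lit 9952355666) (nat_lit 76) (nat_lit 11822266534) (nat_lit 197) (nat_lit 1) (nat_lit 195) (nat_lit 1) (nat_lit 196) (nat_lit 1) (nat_lit 294) (nat_lit 382) (nat_lit 344)) (XT.nd (nat_lit 78) (nat_lit 76) (nat_lit 0) (XT.lf (nat_lit 76) (nat_lit 5342695451) (nat_lit 0) (nat_lit 5174761816) (nat_lit 228) (nat_lit 19978704630) (nat_lit 193) (nat_lit 1) (nat_lit 192) (nat_lit 1) (nat_lit 195) (nat_lit 1) (nat_lit 295) (nat_lit 382) (nat_lit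 343)) (XT.lf (nat_lit 152) (nat_lit 10492497469) (nat_lit 0) (nat_lit 11028020161) (nat_lit 76) (nat_lit 8166753157) (nat_lit 193) (nat_lit 1) (nat_lit 191) (nat_lit 1) (nat_lit 192) (nat_lit 1) (nat_lit 296) (nat_lit 382) (nat_lit 342)))) (XT.nd (nat_lit 78) (nat_lit 228) (nat_lit 0) (XT.lf (nat_lit 76) (nat_lit 7865683149) (nat_lit 0) (nat_lit 3747857281) (nat_lit 152) (nat_lit 17291553193) (nat_lit 190) (nat_lit 1) (nat_lit 189) (nat_lit 1) (nat_lit 191) (nat_lit 1) (nat_lit 297) (nat_lit 382) (nat_lit 341)) (XT.nd (nat_lit 78) (nat_lit 152) (nat_lit 0) (XT.lf (nat_lit 152) (nat_lit 10930096276) (nat_lit 0) (nat_lit 12163225812) (nat_lit 76) (nat_lit 5050389588) (nat_lit 190) (nat_lit 1) (nat_lit 188) (nat_lit 1) (nat_lit 189) (nat_lit 1) (nat_lit 298) (nat_lit 382) (nat_lit 340)) (XT.lf (nat_lit 76) (nat_lit 9949357846) (nat_lit 0) (nat_lit 2795950400) (nat_lit 152) (nat_lit 14660440795)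 (nat_lit 187) (nat_lit 1) (nat_lit 186) (nat_lit 1) (nat_lit 188) (nat_lit 1) (nat_lit 299) (nat_lit 382) (nat_lit 339))))) (XT.nd (nat_lit 234) (nat_lit 456) (nat_lit 0) (XT.nd (nat_lit 78) (nat_lit 228) (nat_lit 0) (XT.lf (nat_lit 152) (nat_lit 10983607698) (nat_lit 0) (nat_lit 13313169026) (nat_lit 76) (nat_lit 2391601373) (nat_lit 187) (nat_lit 1) (nat_lit 185) (nat_lit 1) (nat_lit 186) (nat_lit 1) (nat_lit 300) (nat_lit 382) (nat_lit 338)) (XT.nd (nat_lit 78) (nat_lit 76) (nat_lit 0) (XT.lf (nat_lit 76) (nat_lit 11662769455) (nat_lit 0) (nat_lit 2211300575) (nat_lit 152) (nat_lit 12117283815) (nat_lit 184) (nat_lit 1) (nat_lit 183) (nat_lit 1) (nat_lit 185) (nat_lit 1) (nat_lit 301) (nat_lit 382) (nat_lit 337)) (XT.lf (nat_lit 152) (nat_lit 10748452042) (nat_lit 0) (nat_lit 14444066125) (nat_lit 76) (nat_lit 122348242) (nat_lit 184) (nat_lit 1) (nat_lit 182) (nat_lit 1) (nat_lit 183) (nat_lit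 1) (nat_lit 302) (nat_lit 382) (nat_lit 336)))) (XT.nd (nat_lit 156) (nat_lit 228) (nat_lit 0) (XT.nd (nat_lit 78) (nat_lit 76) (nat_lit 0) (XT.lf (nat_lit 76) (nat_lit 13063420114) (nat_lit 0) (nat_lit 1907487994) (nat_lit 152) (nat_lit 9684961188) (nat_lit 181) (nat_lit 1) (nat_lit 180) (nat_lit 1) (nat_lit 182) (nat_lit 1) (nat_lit 303) (nat_lit 382) (nat_lit 335)) (XT.lf (nat_lit 0) (nat_lit 1756190123) (nat_lit 0) (nat_lit 13745001037) (nat_lit 152) (nat_lit 8514847240) (nat_lit 179) (nat_lit 3) (nat_lit 179) (nat_lit 1) (nat_lit 181) (nat_lit 1) (nat_lit 304) (nat_lit 382) (nat_lit 334))) (XT.nd (nat_lit 78) (nat_lit 76) (nat_lit 0) (XT.lf (nat_lit 76) (nat_lit 14199298310) (nat_lit 0) (nat_lit 1815396346) (nat_lit 152) (nat_lit 7379188335) (nat_lit 178) (nat_lit 1) (nat_lit 177) (nat_lit 1) (nat_lit 179) (nat_lit 1) (nat_lit 305) (nat_lit 382) (nat_lit 333)) (XT.lf (nat_lit 0) (nat_lit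 3354972845) (nat_lit 0) (nat_lit 13143994756) (nat_lit 152) (nat_lit 6289329382) (nat_lit 176) (nat_lit 3) (nat_lit 176) (nat_lit 1) (nat_lit 178) (nat_lit 1) (nat_lit 306) (nat_lit 382) (nat_lit 332)))))) (XT.nd (nat_lit 546) (nat_lit 760) (nat_lit 0) (XT.nd (nat_lit 234) (nat_lit 532) (nat_lit 0) (XT.nd (nat_lit 78) (nat_lit 228) (nat_lit 0) (XT.lf (nat_lit 76) (nat_lit 15110545514) (nat_lit 0) (nat_lit 1879939371) (nat_lit 152) (nat_lit 5210033465) (nat_lit 175) (nat_lit 1) (nat_lit 174) (nat_lit 1) (nat_lit 176) (nat_lit 1) (nat_lit 307) (nat_lit 382) (nat_lit 331)) (XT.nd (nat_lit 78) (nat_lit 152) (nat_lit 0) (XT.lf (nat_lit 0) (nat_lit 4716718449) (nat_lit 0) (nat_lit 12709583684) (nat_lit 152) (nat_lit 4200762539) (nat_lit 173) (nat_lit 3) (nat_lit 173) (nat_lit 1) (nat_lit 175) (nat_lit 1) (nat_lit 308) (nat_lit 382) (nat_lit 330)) (XT.lf (nat_lit 76) (nat_lit 15830822405) (nat_lit 0)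 (nat_lit 2057394354) (nat_lit 152) (nat_lit 3183142716) (nat_lit 172) (nat_lit 1) (nat_lit 171) (nat_lit 1) (nat_lit 173) (nat_lit 1) (nat_lit 309) (nat_lit 382) (nat_lit 329)))) (XT.nd (nat_lit 156) (nat_lit 304) (nat_lit 0) (XT.nd (nat_lit 78) (nat_lit 152) (nat_lit 0) (XT.lf (nat_lit 0) (nat_lit 5874141466) (nat_lit 0) (nat_lit 12400421134) (nat_lit 152) (nat_lit 2253540418) (nat_lit 170) (nat_lit 3) (nat_lit 170) (nat_lit 1) (nat_lit 172) (nat_lit 1) (nat_lit 310) (nat_lit 382) (nat_lit 328)) (XT.lf (nat_lit 76) (nat_lit 16388429435) (nat_lit 0) (nat_lit 2313230818) (nat_lit 152) (nat_lit 1300728365) (nat_lit 169) (nat_lit 1) (nat_lit 168) (nat_lit 1) (nat_lit 170) (nat_lit 1) (nat_lit 311) (nat_lit 382) (nat_lit 327))) (XT.nd (nat_lit 78) (nat_lit 228) (nat_lit 0) (XT.lf (nat_lit 0) (nat_lit 6854910585) (nat_lit 0) (nat_lit 12183703834) (nat_lit 152) (nat_lit 448935375) (nat_lit 167) (nat_lit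 3) (nat_lit 167) (nat_lit 1) (nat_lit 169) (nat_lit 1) (nat_lit 312) (nat_lit 382) (nat_lit 326)) (XT.lf (nat_lit 152) (nat_lit 16362179255) (nat_lit 0) (nat_lit 452105893) (nat_lit 76) (nat_lit 2175295919) (nat_lit 166) (nat_lit 1) (nat_lit 164) (nat_lit 1) (nat_lit 165) (nat_lit 1) (nat_lit 313) (nat_lit 382) (nat_lit 325))))) (XT.nd (nat_lit 234) (nat_lit 456) (nat_lit 0) (XT.nd (nat_lit 78) (nat_lit 228) (nat_lit 0) (XT.lf (nat_lit 76) (nat_lit 6447773314) (nat_lit 0) (nat_lit 1254314692) (nat_lit 76) (nat_lit 10798803140) (nat_lit 164) (nat_lit 3) (nat_lit 163) (nat_lit 1) (nat_lit 164) (nat_lit 1) (nat_lit 314) (nat_lit 382) (nat_lit 324)) (XT.nd (nat_lit 78) (nat_lit 76) (nat_lit 0) (XT.lf (nat_lit 152) (nat_lit 15038560145) (nat_lit 0) (nat_lit 2101640671) (nat_lit 76) (nat_lit 888784690) (nat_lit 163) (nat_lit 1) (nat_lit 161) (nat_lit 1) (nat_lit 162) (nat_lit 1) (nat_lit 315) (nat_lit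 382) (nat_lit 323)) (XT.lf (nat_lit 76) (nat_lit 5591846298) (nat_lit 0) (nat_lit 2829242279) (nat_lit 76) (nat_lit 9144519420) (nat_lit 161) (nat_lit 3) (nat_lit 160) (nat_lit 1) (nat_lit 161) (nat_lit 1) (nat_lit 316) (nat_lit 382) (nat_lit 322)))) (XT.nd (nat_lit 156) (nat_lit 228) (nat_lit 0) (XT.nd (nat_lit 78) (nat_lit 76) (nat_lit 0) (XT.lf (nat_lit 0) (nat_lit 236022539) (nat_lit 0) (nat_lit 3368891254) (nat_lit 152) (nat_lit 13513439771) (nat_lit 158) (nat_lit 3) (nat_lit 158) (nat_lit 1) (nat_lit 160) (nat_lit 1) (nat_lit 317) (nat_lit 382) (nat_lit 321)) (XT.lf (nat_lit 76) (nat_lit 4756434063) (nat_lit 0) (nat_lit 4265390949) (nat_lit 76) (nat_lit 7657238428) (nat_lit 158) (nat_lit 3) (nat_lit 157) (nat_lit 1) (nat_lit 158) (nat_lit 1) (nat_lit 318) (nat_lit 382) (nat_lit 320))) (XT.nd (nat_lit 78) (nat_lit 76) (nat_lit 0) (XT.lf (nat_lit 0) (nat_lit 1200358876) (nat_lit 0) (nat_lit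 3758387417) (nat_lit 152) (nat_lit 11295668803) (nat_lit 155) (nat_lit 3) (nat_lit 155) (nat_lit 1) (nat_lit 157) (nat_lit 1) (nat_lit 319) (nat_lit 382) (nat_lit 319)) (XT.lf (nat_lit 76) (nat_lit 3950900703) (nat_lit 0) (nat_lit 5568134908) (nat_lit 76) (nat_lit 6319445648) (nat_lit 155) (nat_lit 3) (nat_lit 154) (nat_lit 1) (nat_lit 155) (nat_lit 1) (nat_lit 320) (nat_lit 382) (nat_lit 318))))))))
noncomputable def ec121 : XT := (XT.nd (nat_lit 2106) (nat_lit 3344) (nat_lit 0) (XT.nd (nat_lit 1014) (nat_lit 1672) (nat_lit 0) (XT.nd (nat_lit 468) (nat_lit 836) (nat_lit 0) (XT.nd (nat_lit 234) (nat_lit 304) (nat_lit 0) (XT.nd (nat_lit 78) (nat_lit 228) (nat_lit 0) (XT.lf (nat_lit 0) (nat_lit 2047366865) (nat_lit 0) (nat_lit 4136030838) (nat_lit 152) (nat_lit 9251789228) (nat_lit 152) (nat_lit 3) (nat_lit 152) (nat_lit 1) (nat_lit 154) (nat_lit 1) (nat_lit 321) (nat_lit 382) (nat_lit 317)) (XT.nd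 (nat_lit 78) (nat_lit 152) (nat_lit 0) (XT.lf (nat_lit 76) (nat_lit 3181903938) (nat_lit 0) (nat_lit 6743527695) (nat_lit 76) (nat_lit 5115852061) (nat_lit 152) (nat_lit 3) (nat_lit 151) (nat_lit 1) (nat_lit 152) (nat_lit 1) (nat_lit 322) (nat_lit 382) (nat_lit 316)) (XT.lf (nat_lit 0) (nat_lit 2789841295) (nat_lit 0) (nat_lit 4495262920) (nat_lit 152) (nat_lit 7373075411) (nat_lit 149) (nat_lit 3) (nat_lit 149) (nat_lit 1) (nat_lit 151) (nat_lit 1) (nat_lit 323) (nat_lit 382) (nat_lit 315)))) (XT.nd (nat_lit 78) (nat_lit 228) (nat_lit 0) (XT.lf (nat_lit 76) (nat_lit 2453958644) (nat_lit 0) (nat_lit 7798059402) (nat_lit 76) (nat_lit 4033052742) (nat_lit 149) (nat_lit 3) (nat_lit 148) (nat_lit 1) (nat_lit 149) (nat_lit 1) (nat_lit 324) (nat_lit 382) (nat_lit 314)) (XT.nd (nat_lit 78) (nat_lit 76) (nat_lit 0) (XT.lf (nat_lit 0) (nat_lit 3438968083) (nat_lit 0) (nat_lit 4831467288) (nat_lit 152)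 (nat_lit 5650636883) (nat_lit 146) (nat_lit 3) (nat_lit 146) (nat_lit 1) (nat_lit 148) (nat_lit 1) (nat_lit 325) (nat_lit 382) (nat_lit 313)) (XT.lf (nat_lit 76) (nat_lit 1769892705) (nat_lit 0) (nat_lit 8738466187) (nat_lit 76) (nat_lit 3059243820) (nat_lit 146) (nat_lit 3) (nat_lit 145) (nat_lit 1) (nat_lit 146) (nat_lit 1) (nat_lit 326) (nat_lit 382) (nat_lit 312))))) (XT.nd (nat_lit 234) (nat_lit 456) (nat_lit 0) (XT.nd (nat_lit 78) (nat_lit 228) (nat_lit 0) (XT.lf (nat_lit 0) (nat_lit 4004566617) (nat_lit 0) (nat_lit 5141560546) (nat_lit 152) (nat_lit 4075568942) (nat_lit 143) (nat_lit 3) (nat_lit 143) (nat_lit 1) (nat_lit 145) (nat_lit 1) (nat_lit 327) (nat_lit 382) (nat_lit 311)) (XT.nd (nat_lit 78) (nat_lit 152) (nat_lit 0) (XT.lf (nat_lit 76) (nat_lit 1131215205) (nat_lit 0) (nat_lit 9571582010) (nat_lit 76) (nat_lit 2183987361) (nat_lit 143) (nat_lit 3) (nat_lit 142) (nat_lit 1) (nat_lit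 143) (nat_lit 1) (nat_lit 328) (nat_lit 382) (nat_lit 310)) (XT.lf (nat_lit 0) (nat_lit 4495291103) (nat_lit 0) (nat_lit 5423661611) (nat_lit 152) (nat_lit 2639067908) (nat_lit 140) (nat_lit 3) (nat_lit 140) (nat_lit 1) (nat_lit 142) (nat_lit 1) (nat_lit 329) (nat_lit 382) (nat_lit 309)))) (XT.nd (nat_lit 156) (nat_lit 228) (nat_lit 0) (XT.nd (nat_lit 78) (nat_lit 152) (nat_lit 0) (XT.lf (nat_lit 76) (nat_lit 538413296) (nat_lit 0) (nat_lit 10304224379) (nat_lit 76) (nat_lit 1398015618) (nat_lit 140) (nat_lit 3) (nat_lit 139) (nat_lit 1) (nat_lit 140) (nat_lit 1) (nat_lit 330) (nat_lit 382) (nat_lit 308)) (XT.lf (nat_lit 0) (nat_lit 4918798247) (nat_lit 0) (nat_lit 5676824986) (nat_lit 152) (nat_lit 1332517975) (nat_lit 137) (nat_lit 3) (nat_lit 137) (nat_lit 1) (nat_lit 139) (nat_lit 1) (nat_lit 331) (nat_lit 382) (nat_lit 307))) (XT.nd (nat_lit 78) (nat_lit 76) (nat_lit 0) (XT.lf (nat_lit 76)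 (nat_lit 10934436052) (nat_lit 0) (nat_lit 8526992) (nat_lit 152) (nat_lit 684396274) (nat_lit 136) (nat_lit 1) (nat_lit 135) (nat_lit 1) (nat_lit 137) (nat_lit 1) (nat_lit 332) (nat_lit 382) (nat_lit 306)) (XT.lf (nat_lit 0) (nat_lit 5281887226) (nat_lit 0) (nat_lit 5900826036) (nat_lit 152) (nat_lit 147555348) (nat_lit 134) (nat_lit 3) (nat_lit 134) (nat_lit 1) (nat_lit 136) (nat_lit 1) (nat_lit 333) (nat_lit 382) (nat_lit 305)))))) (XT.nd (nat_lit 546) (nat_lit 760) (nat_lit 0) (XT.nd (nat_lit 234) (nat_lit 456) (nat_lit 0) (XT.nd (nat_lit 78) (nat_lit 228) (nat_lit 0) (XT.lf (nat_lit 152) (nat_lit 10542340421) (nat_lit 0) (nat_lit 456203943) (nat_lit 76) (nat_lit 45891390) (nat_lit 133) (nat_lit 1) (nat_lit 131) (nat_lit 1) (nat_lit 132) (nat_lit 1) (nat_lit 334) (nat_lit 382) (nat_lit 304)) (XT.nd (nat_lit 78) (nat_lit 152) (nat_lit 0) (XT.lf (nat_lit 76) (nat_lit 4651084625) (nat_lit 0)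 (nat_lit 954433604) (nat_lit 76) (nat_lit 5156456310) (nat_lit 131) (nat_lit 3) (nat_lit 130) (nat_lit 1) (nat_lit 131) (nat_lit 1) (nat_lit 335) (nat_lit 382) (nat_lit 303)) (XT.lf (nat_lit 0) (nat_lit 525780225) (nat_lit 0) (nat_lit 971434268) (nat_lit 152) (nat_lit 8992925495) (nat_lit 128) (nat_lit 3) (nat_lit 128) (nat_lit 1) (nat_lit 130) (nat_lit 1) (nat_lit 336) (nat_lit 382) (nat_lit 302)))) (XT.nd (nat_lit 156) (nat_lit 228) (nat_lit 0) (XT.nd (nat_lit 78) (nat_lit 152) (nat_lit 0) (XT.lf (nat_lit 76) (nat_lit 3928861984) (nat_lit 0) (nat_lit 1952018382) (nat_lit 76) (nat_lit 4341504616) (nat_lit 128) (nat_lit 3) (nat_lit 127) (nat_lit 1) (nat_lit 128) (nat_lit 1) (nat_lit 337) (nat_lit 382) (nat_lit 301)) (XT.lf (nat_lit 0) (nat_lit 1034579195) (nat_lit 0) (nat_lit 1398461587) (nat_lit 152) (nat_lit 7530876924) (nat_lit 125) (nat_lit 3) (nat_lit 125) (nat_lit 1) (nat_lit 127) (nat_lit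 1) (nat_lit 338) (nat_lit 382) (nat_lit 300))) (XT.nd (nat_lit 78) (nat_lit 152) (nat_lit 0) (XT.lf (nat_lit 76) (nat_lit 3262619576) (nat_lit 0) (nat_lit 2847950852) (nat_lit 76) (nat_lit 3599547717) (nat_lit 125) (nat_lit 3) (nat_lit 124) (nat_lit 1) (nat_lit 125) (nat_lit 1) (nat_lit 339) (nat_lit 382) (nat_lit 299)) (XT.lf (nat_lit 0) (nat_lit 1487348922) (nat_lit 0) (nat_lit 1784463684) (nat_lit 152) (nat_lit 6192531059) (nat_lit 122) (nat_lit 3) (nat_lit 122) (nat_lit 1) (nat_lit 124) (nat_lit 1) (nat_lit 340) (nat_lit 382) (nat_lit 298))))) (XT.nd (nat_lit 234) (nat_lit 456) (nat_lit 0) (XT.nd (nat_lit 78) (nat_lit 228) (nat_lit 0) (XT.lf (nat_lit 76) (nat_lit 2649581255) (nat_lit 0) (nat_lit 3649488834) (nat_lit 76) (nat_lit 2924687517) (nat_lit 122) (nat_lit 3) (nat_lit 121) (nat_lit 1) (nat_lit 122) (nat_lit 1) (nat_lit 341) (nat_lit 382) (nat_lit 297)) (XT.nd (nat_lit 78) (nat_lit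 76) (nat_lit 0) (XT.lf (nat_lit 0) (nat_lit 1888968453) (nat_lit 0) (nat_lit 2131566568) (nat_lit 152) (nat_lit 4969503328) (nat_lit 119) (nat_lit 3) (nat_lit 119) (nat_lit 1) (nat_lit 121) (nat_lit 1) (nat_lit 342) (nat_lit 382) (nat_lit 296)) (XT.lf (nat_lit 76) (nat_lit 2086912369) (nat_lit 0) (nat_lit 4363512887) (nat_lit 76) (nat_lit 2311540253) (nat_lit 119) (nat_lit 3) (nat_lit 118) (nat_lit 1) (nat_lit 119) (nat_lit 1) (nat_lit 343) (nat_lit 382) (nat_lit 295)))) (XT.nd (nat_lit 156) (nat_lit 228) (nat_lit 0) (XT.nd (nat_lit 78) (nat_lit 76) (nat_lit 0) (XT.lf (nat_lit 0) (nat_lit 2243877356) (nat_lit 0) (nat_lit 2441961910) (nat_lit 152) (nat_lit 3853859030) (nat_lit 116) (nat_lit 3) (nat_lit 116) (nat_lit 1) (nat_lit 118) (nat_lit 1) (nat_lit 344) (nat_lit 382) (nat_lit 294)) (XT.lf (nat_lit 76) (nat_lit 1571769096) (nat_lit 0) (nat_lit 4996527517) (nat_lit 76) (nat_lit 1755180720)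 (nat_lit 116) (nat_lit 3) (nat_lit 115) (nat_lit 1) (nat_lit 116) (nat_lit 1) (nat_lit 345) (nat_lit 382) (nat_lit 293))) (XT.nd (nat_lit 78) (nat_lit 76) (nat_lit 0) (XT.lf (nat_lit 0) (nat_lit 2556123770) (nat_lit 0) (nat_lit 2717862415) (nat_lit 152) (nat_lit 2838104925) (nat_lit 113) (nat_lit 3) (nat_lit 113) (nat_lit 1) (nat_lit 115) (nat_lit 1) (nat_lit 346) (nat_lit 382) (nat_lit 292)) (XT.lf (nat_lit 76) (nat_lit 1101336256) (nat_lit 0) (nat_lit 5554666638) (nat_lit 76) (nat_lit 1251094260) (nat_lit 113) (nat_lit 3) (nat_lit 112) (nat_lit 1) (nat_lit 113) (nat_lit 1) (nat_lit 347) (nat_lit 382) (nat_lit 291))))))) (XT.nd (nat_lit 1014) (nat_lit 1748) (nat_lit 0) (XT.nd (nat_lit 468) (nat_lit 760) (nat_lit 0) (XT.nd (nat_lit 234) (nat_lit 456) (nat_lit 0) (XT.nd (nat_lit 78) (nat_lit 228) (nat_lit 0) (XT.lf (nat_lit 0) (nat_lit 2829405799) (nat_lit 0) (nat_lit 2961467532) (nat_lit 152)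 (nat_lit 1915177615) (nat_lit 110) (nat_lit 3) (nat_lit 110) (nat_lit 1) (nat_lit 112) (nat_lit 1) (nat_lit 348) (nat_lit 382) (nat_lit 290)) (XT.nd (nat_lit 78) (nat_lit 152) (nat_lit 0) (XT.lf (nat_lit 76) (nat_lit 672855863) (nat_lit 0) (nat_lit 6043702223) (nat_lit 76) (nat_lit 795135245) (nat_lit 110) (nat_lit 3) (nat_lit 109) (nat_lit 1) (nat_lit 110) (nat_lit 1) (nat_lit 349) (nat_lit 382) (nat_lit 289)) (XT.lf (nat_lit 0) (nat_lit 3067107321) (nat_lit 0) (nat_lit 3174937463) (nat_lit 152) (nat_lit 1078429599) (nat_lit 107) (nat_lit 3) (nat_lit 107) (nat_lit 1) (nat_lit 109) (nat_lit 1) (nat_lit 350) (nat_lit 382) (nat_lit 288)))) (XT.nd (nat_lit 78) (nat_lit 380) (nat_lit 0) (XT.lf (nat_lit 76) (nat_lit 283648269) (nat_lit 0) (nat_lit 6469055307) (nat_lit 76) (nat_lit 383490994) (nat_lit 107) (nat_lit 3) (nat_lit 106) (nat_lit 1) (nat_lit 107) (nat_lit 1) (nat_lit 351) (nat_lit 382) (nat_lit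 287)) (XT.nd (nat_lit 78) (nat_lit 228) (nat_lit 0) (XT.lf (nat_lit 0) (nat_lit 3272329104) (nat_lit 0) (nat_lit 3360373835) (nat_lit 152) (nat_lit 321613701) (nat_lit 104) (nat_lit 3) (nat_lit 104) (nat_lit 1) (nat_lit 106) (nat_lit 1) (nat_lit 352) (nat_lit 382) (nat_lit 286)) (XT.lf (nat_lit 152) (nat_lit 6711930320) (nat_lit 0) (nat_lit 56970460) (nat_lit 76) (nat_lit 10587276) (nat_lit 103) (nat_lit 1) (nat_lit 101) (nat_lit 1) (nat_lit 102) (nat_lit 1) (nat_lit 353) (nat_lit 382) (nat_lit 285))))) (XT.nd (nat_lit 234) (nat_lit 456) (nat_lit 0) (XT.nd (nat_lit 78) (nat_lit 228) (nat_lit 0) (XT.lf (nat_lit 76) (nat_lit 3080666454) (nat_lit 0) (nat_lit 373074273) (nat_lit 76) (nat_lit 3152556136) (nat_lit 101) (nat_lit 3) (nat_lit 100) (nat_lit 1) (nat_lit 101) (nat_lit 1) (nat_lit 354) (nat_lit 382) (nat_lit 284)) (XT.nd (nat_lit 78) (nat_lit 76) (nat_lit 0) (XT.lf (nat_lit 0) (nat_lit 328010935)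 (nat_lit 0) (nat_lit 391405716) (nat_lit 152) (nat_lit 5720357945) (nat_lit 98) (nat_lit 3) (nat_lit 98) (nat_lit 1) (nat_lit 100) (nat_lit 1) (nat_lit 355) (nat_lit 382) (nat_lit 283)) (XT.lf (nat_lit 76) (nat_lit 2604654149) (nat_lit 0) (nat_lit 1007557396) (nat_lit 76) (nat_lit 2663353020) (nat_lit 98) (nat_lit 3) (nat_lit 97) (nat_lit 1) (nat_lit 98) (nat_lit 1) (nat_lit 356) (nat_lit 382) (nat_lit 282)))) (XT.nd (nat_lit 156) (nat_lit 228) (nat_lit 0) (XT.nd (nat_lit 78) (nat_lit 76) (nat_lit 0) (XT.lf (nat_lit 0) (nat_lit 631213112) (nat_lit 0) (nat_lit 682975785) (nat_lit 152) (nat_lit 4802988677) (nat_lit 95) (nat_lit 3) (nat_lit 95) (nat_lit 1) (nat_lit 97) (nat_lit 1) (nat_lit 357) (nat_lit 382) (nat_lit 281)) (XT.lf (nat_lit 76) (nat_lit 2168518902) (nat_lit 0) (nat_lit 1576520077) (nat_lit 76) (nat_lit 2216447303) (nat_lit 95) (nat_lit 3) (nat_lit 94) (nat_lit 1) (nat_lit 95) (nat_lit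 1) (nat_lit 358) (nat_lit 382) (nat_lit 280))) (XT.nd (nat_lit 78) (nat_lit 76) (nat_lit 0) (XT.lf (nat_lit 0) (nat_lit 902147315) (nat_lit 0) (nat_lit 944412218) (nat_lit 152) (nat_lit 3964274273) (nat_lit 92) (nat_lit 3) (nat_lit 92) (nat_lit 1) (nat_lit 94) (nat_lit 1) (nat_lit 359) (nat_lit 382) (nat_lit 279)) (XT.lf (nat_lit 76) (nat_lit 1769571519) (nat_lit 0) (nat_lit 2084938465) (nat_lit 76) (nat_lit 1808705689) (nat_lit 92) (nat_lit 3) (nat_lit 91) (nat_lit 1) (nat_lit 92) (nat_lit 1) (nat_lit 360) (nat_lit 382) (nat_lit 278)))))) (XT.nd (nat_lit 546) (nat_lit 912) (nat_lit 0) (XT.nd (nat_lit 234) (nat_lit 456) (nat_lit 0) (XT.nd (nat_lit 78) (nat_lit 228) (nat_lit 0) (XT.lf (nat_lit 0) (nat_lit 1143393588) (nat_lit 0) (nat_lit 1177903438) (nat_lit 152) (nat_lit 3198620125) (nat_lit 89) (nat_lit 3) (nat_lit 89) (nat_lit 1) (nat_lit 91) (nat_lit 1) (nat_lit 361) (nat_lit 382) (nat_lit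 277)) (XT.nd (nat_lit 78) (nat_lit 152) (nat_lit 0) (XT.lf (nat_lit 76) (nat_lit 1405266170) (nat_lit 0) (nat_lit 2537464397) (nat_lit 76) (nat_lit 1437219735) (nat_lit 89) (nat_lit 3) (nat_lit 88) (nat_lit 1) (nat_lit 89) (nat_lit 1) (nat_lit 362) (nat_lit 382) (nat_lit 276)) (XT.lf (nat_lit 0) (nat_lit 1357339716) (nat_lit 0) (nat_lit 1385517463) (nat_lit 152) (nat_lit 2500787101) (nat_lit 86) (nat_lit 3) (nat_lit 86) (nat_lit 1) (nat_lit 88) (nat_lit 1) (nat_lit 363) (nat_lit 382) (nat_lit 275)))) (XT.nd (nat_lit 156) (nat_lit 228) (nat_lit 0) (XT.nd (nat_lit 78) (nat_lit 152) (nat_lit 0) (XT.lf (nat_lit 76) (nat_lit 1073197858) (nat_lit 0) (nat_lit 2938443001) (nat_lit 76) (nat_lit 1099288365) (nat_lit 86) (nat_lit 3) (nat_lit 85) (nat_lit 1) (nat_lit 86) (nat_lit 1) (nat_lit 364) (nat_lit 382) (nat_lit 274)) (XT.lf (nat_lit 0) (nat_lit 1546196426) (nat_lit 0) (nat_lit 1569203927) (nat_lit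 152) (nat_lit 1865871985) (nat_lit 83) (nat_lit 3) (nat_lit 83) (nat_lit 1) (nat_lit 85) (nat_lit 1) (nat_lit 365) (nat_lit 382) (nat_lit 273))) (XT.nd (nat_lit 78) (nat_lit 152) (nat_lit 0) (XT.lf (nat_lit 76) (nat_lit 771098834) (nat_lit 0) (nat_lit 3291929816) (nat_lit 76) (nat_lit 792402076) (nat_lit 83) (nat_lit 3) (nat_lit 82) (nat_lit 1) (nat_lit 83) (nat_lit 1) (nat_lit 366) (nat_lit 382) (nat_lit 272)) (XT.lf (nat_lit 0) (nat_lit 1712011117) (nat_lit 0) (nat_lit 1730797045) (nat_lit 152) (nat_lit 1289288577) (nat_lit 80) (nat_lit 3) (nat_lit 80) (nat_lit 1) (nat_lit 82) (nat_lit 1) (nat_lit 367) (nat_lit 382) (nat_lit 271))))) (XT.nd (nat_lit 234) (nat_lit 608) (nat_lit 0) (XT.nd (nat_lit 78) (nat_lit 228) (nat_lit 0) (XT.lf (nat_lit 76) (nat_lit 496834238) (nat_lit 0) (nat_lit 3601707361) (nat_lit 76) (nat_lit 514228615) (nat_lit 80) (nat_lit 3) (nat_lit 79) (nat_lit 1) (nat_lit 80)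 (nat_lit 1) (nat_lit 368) (nat_lit 382) (nat_lit 270)) (XT.nd (nat_lit 78) (nat_lit 76) (nat_lit 0) (XT.lf (nat_lit 0) (nat_lit 1856680323) (nat_lit 0) (nat_lit 1872019280) (nat_lit 152) (nat_lit 766749517) (nat_lit 77) (nat_lit 3) (nat_lit 77) (nat_lit 1) (nat_lit 79) (nat_lit 1) (nat_lit 369) (nat_lit 382) (nat_lit 269)) (XT.lf (nat_lit 76) (nat_lit 248397203) (nat_lit 0) (nat_lit 3871301079) (nat_lit 76) (nat_lit 262599941) (nat_lit 77) (nat_lit 3) (nat_lit 76) (nat_lit 1) (nat_lit 77) (nat_lit 1) (nat_lit 370) (nat_lit 382) (nat_lit 268)))) (XT.nd (nat_lit 156) (nat_lit 380) (nat_lit 0) (XT.nd (nat_lit 78) (nat_lit 76) (nat_lit 0) (XT.lf (nat_lit 0) (nat_lit 1981961038) (nat_lit 0) (nat_lit 1994485498) (nat_lit 152) (nat_lit 294248875) (nat_lit 74) (nat_lit 3) (nat_lit 74) (nat_lit 1) (nat_lit 76) (nat_lit 1) (nat_lit 371) (nat_lit 382) (nat_lit 267)) (XT.lf (nat_lit 76) (nat_lit 23903601)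 (nat_lit 0) (nat_lit 4103994629) (nat_lit 76) (nat_lit 35500323) (nat_lit 74) (nat_lit 3) (nat_lit 73) (nat_lit 1) (nat_lit 74) (nat_lit 1) (nat_lit 372) (nat_lit 382) (nat_lit 266))) (XT.nd (nat_lit 78) (nat_lit 152) (nat_lit 0) (XT.lf (nat_lit 76) (nat_lit 1955291852) (nat_lit 0) (nat_lit 136317503) (nat_lit 76) (nat_lit 1965518239) (nat_lit 71) (nat_lit 3) (nat_lit 70) (nat_lit 1) (nat_lit 71) (nat_lit 1) (nat_lit 373) (nat_lit 382) (nat_lit 265)) (XT.lf (nat_lit 0) (nat_lit 172017197) (nat_lit 0) (nat_lit 181035175) (nat_lit 152) (nat_lit 3601878255) (nat_lit 68) (nat_lit 3) (nat_lit 68) (nat_lit 1) (nat_lit 70) (nat_lit 1) (nat_lit 374) (nat_lit 382) (nat_lit 264))))))))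
noncomputable def ec122 : XT := (XT.nd (nat_lit 2028) (nat_lit 2052) (nat_lit 0) (XT.nd (nat_lit 1014) (nat_lit 1596) (nat_lit 0) (XT.nd (nat_lit 468) (nat_lit 760) (nat_lit 0) (XT.nd (nat_lit 234) (nat_lit 380) (nat_lit 0) (XT.nd (nat_lit 78) (nat_lit 228) (nat_lit 0) (XT.lf (nat_lit 76) (nat_lit 1656667900) (nat_lit 0) (nat_lit 532392678) (nat_lit 76) (nat_lit 1665017880) (nat_lit 68) (nat_lit 3) (nat_lit 67) (nat_lit 1) (nat_lit 68) (nat_lit 1) (nat_lit 375) (nat_lit 382) (nat_lit 263)) (XT.nd (nat_lit 78) (nat_lit 76) (nat_lit 0) (XT.lf (nat_lit 0) (nat_lit 358503360) (nat_lit 0) (nat_lit 365866658) (nat_lit 152) (nat_lit 3032496706) (nat_lit 65) (nat_lit 3) (nat_lit 65) (nat_lit 1) (nat_lit 67) (nat_lit 1) (nat_lit 376) (nat_lit 382) (nat_lit 262)) (XT.lf (nat_lit 76) (nat_lit 1383404795) (nat_lit 0) (nat_lit 887613517) (nat_lit 76) (nat_lit 1390222663) (nat_lit 65) (nat_lit 3) (nat_lit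 64) (nat_lit 1) (nat_lit 65) (nat_lit 1) (nat_lit 377) (nat_lit 382) (nat_lit 261)))) (XT.nd (nat_lit 78) (nat_lit 228) (nat_lit 0) (XT.lf (nat_lit 0) (nat_lit 525392326) (nat_lit 0) (nat_lit 531404556) (nat_lit 152) (nat_lit 2511973398) (nat_lit 62) (nat_lit 3) (nat_lit 62) (nat_lit 1) (nat_lit 64) (nat_lit 1) (nat_lit 378) (nat_lit 382) (nat_lit 260)) (XT.nd (nat_lit 78) (nat_lit 152) (nat_lit 0) (XT.lf (nat_lit 76) (nat_lit 1133706247) (nat_lit 0) (nat_lit 1205119250) (nat_lit 76) (nat_lit 1139273126) (nat_lit 62) (nat_lit 3) (nat_lit 61) (nat_lit 1) (nat_lit 62) (nat_lit 1) (nat_lit 379) (nat_lit 382) (nat_lit 259)) (XT.lf (nat_lit 0) (nat_lit 674213897) (nat_lit 0) (nat_lit 679122962) (nat_lit 152) (nat_lit 2036799967) (nat_lit 59) (nat_lit 3) (nat_lit 59) (nat_lit 1) (nat_lit 61) (nat_lit 1) (nat_lit 380) (nat_lit 382) (nat_lit 258))))) (XT.nd (nat_lit 234) (nat_lit 456) (nat_lit 0) (XT.nd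 (nat_lit 78) (nat_lit 228) (nat_lit 0) (XT.lf (nat_lit 76) (nat_lit 905889768) (nat_lit 0) (nat_lit 1487836254) (nat_lit 76) (nat_lit 910435198) (nat_lit 59) (nat_lit 3) (nat_lit 58) (nat_lit 1) (nat_lit 59) (nat_lit 1) (nat_lit 381) (nat_lit 382) (nat_lit 257)) (XT.nd (nat_lit 78) (nat_lit 76) (nat_lit 0) (XT.lf (nat_lit 0) (nat_lit 806390601) (nat_lit 0) (nat_lit 810398917) (nat_lit 152) (nat_lit 1603698115) (nat_lit 56) (nat_lit 3) (nat_lit 56) (nat_lit 1) (nat_lit 58) (nat_lit 1) (nat_lit 382) (nat_lit 382) (nat_lit 256)) (XT.lf (nat_lit 76) (nat_lit 698380439) (nat_lit 0) (nat_lit 1738491295) (nat_lit 76) (nat_lit 702091842) (nat_lit 56) (nat_lit 3) (nat_lit 55) (nat_lit 1) (nat_lit 56) (nat_lit 1) (nat_lit 383) (nat_lit 382) (nat_lit 255)))) (XT.nd (nat_lit 156) (nat_lit 228) (nat_lit 0) (XT.nd (nat_lit 78) (nat_lit 76) (nat_lit 0) (XT.lf (nat_lit 0) (nat_lit 923245007) (nat_lit 0) (nat_lit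 926517849) (nat_lit 152) (nat_lit 1209605525) (nat_lit 53) (nat_lit 3) (nat_lit 53) (nat_lit 1) (nat_lit 55) (nat_lit 1) (nat_lit 384) (nat_lit 382) (nat_lit 254)) (XT.lf (nat_lit 76) (nat_lit 509704877) (nat_lit 0) (nat_lit 1959624023) (nat_lit 76) (nat_lit 512735286) (nat_lit 53) (nat_lit 3) (nat_lit 52) (nat_lit 1) (nat_lit 53) (nat_lit 1) (nat_lit 385) (nat_lit 382) (nat_lit 253))) (XT.nd (nat_lit 78) (nat_lit 76) (nat_lit 0) (XT.lf (nat_lit 0) (nat_lit 1026006511) (nat_lit 0) (nat_lit 1028678830) (nat_lit 152) (nat_lit 851662554) (nat_lit 50) (nat_lit 3) (nat_lit 50) (nat_lit 1) (nat_lit 52) (nat_lit 1) (nat_lit 386) (nat_lit 382) (nat_lit 252)) (XT.lf (nat_lit 76) (nat_lit 338485433) (nat_lit 0) (nat_lit 2153598773) (nat_lit 76) (nat_lit 340959803) (nat_lit 50) (nat_lit 3) (nat_lit 49) (nat_lit 1) (nat_lit 50) (nat_lit 1) (nat_lit 387) (nat_lit 382) (nat_lit 251)))))) (XT.nd (nat_lit 468)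 (nat_lit 760) (nat_lit 0) (XT.nd (nat_lit 234) (nat_lit 456) (nat_lit 0) (XT.nd (nat_lit 78) (nat_lit 228) (nat_lit 0) (XT.lf (nat_lit 0) (nat_lit 1115817640) (nat_lit 0) (nat_lit 1117999624) (nat_lit 152) (nat_lit 527199682) (nat_lit 47) (nat_lit 3) (nat_lit 47) (nat_lit 1) (nat_lit 49) (nat_lit 1) (nat_lit 388) (nat_lit 382) (nat_lit 250)) (XT.nd (nat_lit 78) (nat_lit 152) (nat_lit 0) (XT.lf (nat_lit 76) (nat_lit 183434634) (nat_lit 0) (nat_lit 2322615688) (nat_lit 76) (nat_lit 185454990) (nat_lit 47) (nat_lit 3) (nat_lit 46) (nat_lit 1) (nat_lit 47) (nat_lit 1) (nat_lit 389) (nat_lit 382) (nat_lit 249)) (XT.lf (nat_lit 0) (nat_lit 1193739916) (nat_lit 0) (nat_lit 1195521534) (nat_lit 152) (nat_lit 233725677) (nat_lit 44) (nat_lit 3) (nat_lit 44) (nat_lit 1) (nat_lit 46) (nat_lit 1) (nat_lit 390) (nat_lit 382) (nat_lit 248)))) (XT.nd (nat_lit 78) (nat_lit 380) (nat_lit 0) (XT.lf (nat_lit 76)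 (nat_lit 43349862) (nat_lit 0) (nat_lit 2468721198) (nat_lit 76) (nat_lit 44999509) (nat_lit 44) (nat_lit 3) (nat_lit 43) (nat_lit 1) (nat_lit 44) (nat_lit 1) (nat_lit 391) (nat_lit 382) (nat_lit 247)) (XT.nd (nat_lit 78) (nat_lit 152) (nat_lit 0) (XT.lf (nat_lit 76) (nat_lit 1229149334) (nat_lit 0) (nat_lit 32111319) (nat_lit 76) (nat_lit 1230604049) (nat_lit 41) (nat_lit 3) (nat_lit 40) (nat_lit 1) (nat_lit 41) (nat_lit 1) (nat_lit 392) (nat_lit 382) (nat_lit 246)) (XT.lf (nat_lit 0) (nat_lit 82924660) (nat_lit 0) (nat_lit 84207478) (nat_lit 152) (nat_lit 2261986139) (nat_lit 38) (nat_lit 3) (nat_lit 38) (nat_lit 1) (nat_lit 40) (nat_lit 1) (nat_lit 393) (nat_lit 382) (nat_lit 245))))) (XT.nd (nat_lit 234) (nat_lit 456) (nat_lit 0) (XT.nd (nat_lit 78) (nat_lit 228) (nat_lit 0) (XT.lf (nat_lit 76) (nat_lit 1043833492) (nat_lit 0) (nat_lit 278302911) (nat_lit 76) (nat_lit 1045021286) (nat_lit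 38) (nat_lit 3) (nat_lit 37) (nat_lit 1) (nat_lit 38) (nat_lit 1) (nat_lit 394) (nat_lit 382) (nat_lit 244)) (XT.nd (nat_lit 78) (nat_lit 76) (nat_lit 0) (XT.lf (nat_lit 0) (nat_lit 198473946) (nat_lit 0) (nat_lit 199521383) (nat_lit 152) (nat_lit 1909475744) (nat_lit 35) (nat_lit 3) (nat_lit 35) (nat_lit 1) (nat_lit 37) (nat_lit 1) (nat_lit 395) (nat_lit 382) (nat_lit 243)) (XT.lf (nat_lit 76) (nat_lit 874271171) (nat_lit 0) (nat_lit 499208591) (nat_lit 76) (nat_lit 875241021) (nat_lit 35) (nat_lit 3) (nat_lit 34) (nat_lit 1) (nat_lit 35) (nat_lit 1) (nat_lit 396) (nat_lit 382) (nat_lit 242)))) (XT.nd (nat_lit 156) (nat_lit 228) (nat_lit 0) (XT.nd (nat_lit 78) (nat_lit 76) (nat_lit 0) (XT.lf (nat_lit 0) (nat_lit 301966953) (nat_lit 0) (nat_lit 302822200) (nat_lit 152) (nat_lit 1587155138) (nat_lit 32) (nat_lit 3) (nat_lit 32) (nat_lit 1) (nat_lit 34) (nat_lit 1) (nat_lit 397) (nat_lit 382) (nat_lit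 241)) (XT.lf (nat_lit 76) (nat_lit 719335695) (nat_lit 0) (nat_lit 696773877) (nat_lit 76) (nat_lit 720127589) (nat_lit 32) (nat_lit 3) (nat_lit 31) (nat_lit 1) (nat_lit 32) (nat_lit 1) (nat_lit 398) (nat_lit 382) (nat_lit 240))) (XT.nd (nat_lit 78) (nat_lit 76) (nat_lit 0) (XT.lf (nat_lit 0) (nat_lit 394338190) (nat_lit 0) (nat_lit 395036510) (nat_lit 152) (nat_lit 1292853760) (nat_lit 29) (nat_lit 3) (nat_lit 29) (nat_lit 1) (nat_lit 31) (nat_lit 1) (nat_lit 399) (nat_lit 382) (nat_lit 239)) (XT.lf (nat_lit 76) (nat_lit 577974097) (nat_lit 0) (nat_lit 872811314) (nat_lit 76) (nat_lit 578620689) (nat_lit 29) (nat_lit 3) (nat_lit 28) (nat_lit 1) (nat_lit 29) (nat_lit 1) (nat_lit 400) (nat_lit 382) (nat_lit 238))))))) (XT.nd (nat_lit 1014) (nat_lit 456) (nat_lit 0) (XT.nd (nat_lit 468) (nat_lit 912) (nat_lit 0) (XT.nd (nat_lit 234) (nat_lit 304) (nat_lit 0) (XT.nd (nat_lit 78) (nat_lit 228) (nat_lit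 0) (XT.lf (nat_lit 0) (nat_lit 476457673) (nat_lit 0) (nat_lit 477027860) (nat_lit 152) (nat_lit 1024544317) (nat_lit 26) (nat_lit 3) (nat_lit 26) (nat_lit 1) (nat_lit 28) (nat_lit 1) (nat_lit 401) (nat_lit 382) (nat_lit 237)) (XT.nd (nat_lit 78) (nat_lit 152) (nat_lit 0) (XT.lf (nat_lit 76) (nat_lit 449202619) (nat_lit 0) (nat_lit 1029008964) (nat_lit 76) (nat_lit 449730571) (nat_lit 26) (nat_lit 3) (nat_lit 25) (nat_lit 1) (nat_lit 26) (nat_lit 1) (nat_lit 402) (nat_lit 382) (nat_lit 236)) (XT.lf (nat_lit 0) (nat_lit 549135137) (nat_lit 0) (nat_lit 549600703) (nat_lit 152) (nat_lit 780333816) (nat_lit 23) (nat_lit 3) (nat_lit 23) (nat_lit 1) (nat_lit 25) (nat_lit 1) (nat_lit 403) (nat_lit 382) (nat_lit 235)))) (XT.nd (nat_lit 78) (nat_lit 228) (nat_lit 0) (XT.lf (nat_lit 76) (nat_lit 332102455) (nat_lit 0) (nat_lit 1166938382) (nat_lit 76) (nat_lit 332533534) (nat_lit 23) (nat_lit 3) (nat_lit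 22) (nat_lit 1) (nat_lit 23) (nat_lit 1) (nat_lit 404) (nat_lit 382) (nat_lit 234)) (XT.nd (nat_lit 78) (nat_lit 76) (nat_lit 0) (XT.lf (nat_lit 0) (nat_lit 613123979) (nat_lit 0) (nat_lit 613504119) (nat_lit 152) (nat_lit 558455144) (nat_lit 20) (nat_lit 3) (nat_lit 20) (nat_lit 1) (nat_lit 22) (nat_lit 1) (nat_lit 405) (nat_lit 382) (nat_lit 233)) (XT.lf (nat_lit 76) (nat_lit 225815732) (nat_lit 0) (nat_lit 1288062104) (nat_lit 76) (nat_lit 226167713) (nat_lit 20) (nat_lit 3) (nat_lit 19) (nat_lit 1) (nat_lit 20) (nat_lit 1) (nat_lit 406) (nat_lit 382) (nat_lit 232))))) (XT.nd (nat_lit 234) (nat_lit 532) (nat_lit 0) (XT.nd (nat_lit 78) (nat_lit 228) (nat_lit 0) (XT.lf (nat_lit 0) (nat_lit 669124940) (nat_lit 0) (nat_lit 669435330) (nat_lit 152) (nat_lit 357259141) (nat_lit 17) (nat_lit 3) (nat_lit 17) (nat_lit 1) (nat_lit 19) (nat_lit 1) (nat_lit 407) (nat_lit 382) (nat_lit 231)) (XT.nd (nat_lit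 78) (nat_lit 152) (nat_lit 0) (XT.lf (nat_lit 76) (nat_lit 129541727) (nat_lit 0) (nat_lit 1393740685) (nat_lit 76) (nat_lit 129829125) (nat_lit 17) (nat_lit 3) (nat_lit 16) (nat_lit 1) (nat_lit 17) (nat_lit 1) (nat_lit 408) (nat_lit 382) (nat_lit 230)) (XT.lf (nat_lit 0) (nat_lit 717789563) (nat_lit 0) (nat_lit 718043000) (nat_lit 152) (nat_lit 175207157) (nat_lit 14) (nat_lit 3) (nat_lit 14) (nat_lit 1) (nat_lit 16) (nat_lit 1) (nat_lit 409) (nat_lit 382) (nat_lit 229)))) (XT.nd (nat_lit 156) (nat_lit 304) (nat_lit 0) (XT.nd (nat_lit 78) (nat_lit 152) (nat_lit 0) (XT.lf (nat_lit 76) (nat_lit 42533300) (nat_lit 0) (nat_lit 1485239303) (nat_lit 76) (nat_lit 42767964) (nat_lit 14) (nat_lit 3) (nat_lit 13) (nat_lit 1) (nat_lit 14) (nat_lit 1) (nat_lit 410) (nat_lit 382) (nat_lit 228)) (XT.lf (nat_lit 0) (nat_lit 759723417) (nat_lit 0) (nat_lit 759930351) (nat_lit 152) (nat_lit 10864059) (nat_lit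 11) (nat_lit 3) (nat_lit 11) (nat_lit 1) (nat_lit 13) (nat_lit 1) (nat_lit 411) (nat_lit 382) (nat_lit 227))) (XT.nd (nat_lit 78) (nat_lit 76) (nat_lit 0) (XT.lf (nat_lit 0) (nat_lit 36306484) (nat_lit 0) (nat_lit 36488967) (nat_lit 152) (nat_lit 1419202556) (nat_lit 8) (nat_lit 3) (nat_lit 8) (nat_lit 1) (nat_lit 10) (nat_lit 1) (nat_lit 412) (nat_lit 382) (nat_lit 226)) (XT.lf (nat_lit 76) (nat_lit 656058790) (nat_lit 0) (nat_lit 141641759) (nat_lit 76) (nat_lit 656227755) (nat_lit 8) (nat_lit 3) (nat_lit 7) (nat_lit 1) (nat_lit 8) (nat_lit 1) (nat_lit 413) (nat_lit 382) (nat_lit 225)))))) (XT.nd (nat_lit 40872) (nat_lit 0) (nat_lit 20824) (XT.nd (nat_lit 234) (nat_lit 76) (nat_lit 0) (XT.nd (nat_lit 78) (nat_lit 228) (nat_lit 0) (XT.lf (nat_lit 0) (nat_lit 108018149) (nat_lit 0) (nat_lit 108167148) (nat_lit 152) (nat_lit 1201093158) (nat_lit 5) (nat_lit 3) (nat_lit 5) (nat_lit 1) (nat_lit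 7) (nat_lit 1) (nat_lit 414) (nat_lit 382) (nat_lit 224)) (XT.nd (nat_lit 78) (nat_lit 152) (nat_lit 0) (XT.lf (nat_lit 76) (nat_lit 551079887) (nat_lit 0) (nat_lit 278883460) (nat_lit 76) (nat_lit 551217849) (nat_lit 5) (nat_lit 3) (nat_lit 4) (nat_lit 1) (nat_lit 5) (nat_lit 1) (nat_lit 415) (nat_lit 382) (nat_lit 223)) (XT.lf (nat_lit 0) (nat_lit 172290563) (nat_lit 0) (nat_lit 172412223) (nat_lit 152) (nat_lit 1001615412) (nat_lit 2) (nat_lit 3) (nat_lit 2) (nat_lit 1) (nat_lit 4) (nat_lit 1) (nat_lit 416) (nat_lit 382) (nat_lit 222)))) (XT.nd (nat_lit 40482) (nat_lit 0) (nat_lit 22192) (XT.nd (nat_lit 40404) (nat_lit 0) (nat_lit 22116) (XT.lf (nat_lit 76) (nat_lit 455137685) (nat_lit 0) (nat_lit 401702690) (nat_lit 76) (nat_lit 455250333) (nat_lit 2) (nat_lit 3) (nat_lit 1) (nat_lit 1) (nat_lit 2) (nat_lit 1) (nat_lit 417) (nat_lit 382) (nat_lit 221)) (XT.lf (nat_lit 836) (nat_lit 14705207765)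 (nat_lit 0) (nat_lit 26109062586) (nat_lit 836) (nat_lit 14705207765) (nat_lit 303) (nat_lit 1) (nat_lit 292) (nat_lit 0) (nat_lit 303) (nat_lit 0) (nat_lit 254) (nat_lit 383) (nat_lit 383))) (XT.nd (nat_lit 78) (nat_lit 0) (nat_lit 0) (XT.lf (nat_lit 836) (nat_lit 5485493713) (nat_lit 0) (nat_lit 51260002895) (nat_lit 760) (nat_lit 50132111575) (nat_lit 304) (nat_lit 1) (nat_lit 293) (nat_lit 1) (nat_lit 303) (nat_lit 1) (nat_lit 255) (nat_lit 383) (nat_lit 382)) (XT.lf (nat_lit 836) (nat_lit 50381093483) (nat_lit 76) (nat_lit 34328841217) (nat_lit 0) (nat_lit 18206451433) (nat_lit 304) (nat_lit 1) (nat_lit 294) (nat_lit 1) (nat_lit 293) (nat_lit 1) (nat_lit 256) (nat_lit 383) (nat_lit 381))))) (XT.nd (nat_lit 234) (nat_lit 1444) (nat_lit 0) (XT.nd (nat_lit 78) (nat_lit 0) (nat_lit 76) (XT.lf (nat_lit 836) (nat_lit 43533392048) (nat_lit 76) (nat_lit 14386979409) (nat_lit 0) (nat_lit 41233022226)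 (nat_lit 305) (nat_lit 1) (nat_lit 295) (nat_lit 1) (nat_lit 294) (nat_lit 1) (nat_lit 257) (nat_lit 383) (nat_lit 380)) (XT.nd (nat_lit 78) (nat_lit 0) (nat_lit 76) (XT.lf (nat_lit 836) (nat_lit 32218411196) (nat_lit 0) (nat_lit 60279124449) (nat_lit 760) (nat_lit 3081460229) (nat_lit 306) (nat_lit 1) (nat_lit 295) (nat_lit 1) (nat_lit 305) (nat_lit 1) (nat_lit 258) (nat_lit 383) (nat_lit 379)) (XT.lf (nat_lit 836) (nat_lit 7730491873) (nat_lit 0) (nat_lit 66474480895) (nat_lit 760) (nat_lit 17970327813) (nat_lit 307) (nat_lit 1) (nat_lit 296) (nat_lit 1) (nat_lit 306) (nat_lit 1) (nat_lit 259) (nat_lit 383) (nat_lit 378)))) (XT.nd (nat_lit 156) (nat_lit 912) (nat_lit 0) (XT.nd (nat_lit 78) (nat_lit 684) (nat_lit 0) (XT.lf (nat_lit 836) (nat_lit 14854861123) (nat_lit 76) (nat_lit 57771737147) (nat_lit 0) (nat_lit 16303896990) (nat_lit 307) (nat_lit 1) (nat_lit 297) (nat_lit 1) (nat_lit 296)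 (nat_lit 1) (nat_lit 260) (nat_lit 383) (nat_lit 377)) (XT.lf (nat_lit 836) (nat_lit 3050849738) (nat_lit 0) (nat_lit 43188194971) (nat_lit 760) (nat_lit 39603122269) (nat_lit 298) (nat_lit 1) (nat_lit 287) (nat_lit 1) (nat_lit 297) (nat_lit 1) (nat_lit 261) (nat_lit 383) (nat_lit 376))) (XT.nd (nat_lit 78) (nat_lit 380) (nat_lit 0) (XT.lf (nat_lit 76) (nat_lit 21124719107) (nat_lit 0) (nat_lit 9154323853) (nat_lit 532) (nat_lit 52621025097) (nat_lit 281) (nat_lit 1) (nat_lit 280) (nat_lit 1) (nat_lit 287) (nat_lit 1) (nat_lit 262) (nat_lit 383) (nat_lit 375)) (XT.lf (nat_lit 456) (nat_lit 58217066958) (nat_lit 0) (nat_lit 18950910353) (nat_lit 380) (nat_lit 2929927836) (nat_lit 281) (nat_lit 1) (nat_lit 275) (nat_lit 1) (nat_lit 280) (nat_lit 1) (nat_lit 263) (nat_lit 383) (nat_lit 374))))))))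
noncomputable def ec123 : XT := (XT.nd (nat_lit 2106) (nat_lit 3344) (nat_lit 0) (XT.nd (nat_lit 1014) (nat_lit 2356) (nat_lit 0) (XT.nd (nat_lit 468) (nat_lit 1748) (nat_lit 0) (XT.nd (nat_lit 234) (nat_lit 988) (nat_lit 0) (XT.nd (nat_lit 78) (nat_lit 304) (nat_lit 0) (XT.lf (nat_lit 456) (nat_lit 42009989902) (nat_lit 0) (nat_lit 8833100949) (nat_lit 380) (nat_lit 26573139381) (nat_lit 276) (nat_lit 1) (nat_lit 270) (nat_lit 1) (nat_lit 275) (nat_lit 1) (nat_lit 264) (nat_lit 383) (nat_lit 373)) (XT.nd (nat_lit 78) (nat_lit 0) (nat_lit 0) (XT.lf (nat_lit 380) (nat_lit 25562543062) (nat_lit 0) (nat_lit 162631743) (nat_lit 304) (nat_lit 49139409097) (nat_lit 271) (nat_lit 1) (nat_lit 266) (nat_lit 1) (nat_lit 270) (nat_lit 1) (nat_lit 265) (nat_lit 383) (nat_lit 372)) (XT.lf (nat_lit 76) (nat_lit 1885883618) (nat_lit 0) (nat_lit 63601133836) (nat_lit 380) (nat_lit 6943300405) (nat_lit 267) (nat_lit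 1) (nat_lit 266) (nat_lit 1) (nat_lit 271) (nat_lit 1) (nat_lit 266) (nat_lit 383) (nat_lit 371)))) (XT.nd (nat_lit 78) (nat_lit 608) (nat_lit 0) (XT.lf (nat_lit 76) (nat_lit 48694004181) (nat_lit 0) (nat_lit 8076421616) (nat_lit 380) (nat_lit 13319486034) (nat_lit 262) (nat_lit 1) (nat_lit 261) (nat_lit 1) (nat_lit 266) (nat_lit 1) (nat_lit 267) (nat_lit 383) (nat_lit 370)) (XT.nd (nat_lit 78) (nat_lit 304) (nat_lit 0) (XT.lf (nat_lit 76) (nat_lit 24362844229) (nat_lit 0) (nat_lit 24739513106) (nat_lit 380) (nat_lit 18750559539) (nat_lit 258) (nat_lit 1) (nat_lit 257) (nat_lit 1) (nat_lit 262) (nat_lit 1) (nat_lit 268) (nat_lit 383) (nat_lit 369)) (XT.lf (nat_lit 76) (nat_lit 1202495967) (nat_lit 0) (nat_lit 41364081763) (nat_lit 380) (nat_lit 23155258505) (nat_lit 254) (nat_lit 1) (nat_lit 253) (nat_lit 1) (nat_lit 258) (nat_lit 1) (nat_lit 269) (nat_lit 383) (nat_lit 368))))) (XT.nd (nat_lit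 234) (nat_lit 912) (nat_lit 0) (XT.nd (nat_lit 78) (nat_lit 608) (nat_lit 0) (XT.lf (nat_lit 304) (nat_lit 5430404016) (nat_lit 0) (nat_lit 36723222998) (nat_lit 228) (nat_lit 21520652668) (nat_lit 254) (nat_lit 1) (nat_lit 250) (nat_lit 1) (nat_lit 253) (nat_lit 1) (nat_lit 270) (nat_lit 383) (nat_lit 367)) (XT.nd (nat_lit 78) (nat_lit 228) (nat_lit 0) (XT.lf (nat_lit 76) (nat_lit 18763505895) (nat_lit 0) (nat_lit 12860623532) (nat_lit 380) (nat_lit 30087181977) (nat_lit 246) (nat_lit 1) (nat_lit 245) (nat_lit 1) (nat_lit 250) (nat_lit 1) (nat_lit 271) (nat_lit 383) (nat_lit 366)) (XT.lf (nat_lit 304) (nat_lit 29050420334) (nat_lit 0) (nat_lit 27289115226) (nat_lit 228) (nat_lit 3492974361) (nat_lit 246) (nat_lit 1) (nat_lit 242) (nat_lit 1) (nat_lit 245) (nat_lit 1) (nat_lit 272) (nat_lit 383) (nat_lit 365)))) (XT.nd (nat_lit 156) (nat_lit 380) (nat_lit 0) (XT.nd (nat_lit 78) (nat_lit 304)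 (nat_lit 0) (XT.lf (nat_lit 304) (nat_lit 9310519372) (nat_lit 0) (nat_lit 23494810731) (nat_lit 228) (nat_lit 25220581200) (nat_lit 243) (nat_lit 1) (nat_lit 239) (nat_lit 1) (nat_lit 242) (nat_lit 1) (nat_lit 273) (nat_lit 383) (nat_lit 364)) (XT.lf (nat_lit 76) (nat_lit 10611742363) (nat_lit 0) (nat_lit 9715972314) (nat_lit 304) (nat_lit 35966629450) (nat_lit 236) (nat_lit 1) (nat_lit 235) (nat_lit 1) (nat_lit 239) (nat_lit 1) (nat_lit 274) (nat_lit 383) (nat_lit 363))) (XT.nd (nat_lit 78) (nat_lit 152) (nat_lit 0) (XT.lf (nat_lit 304) (nat_lit 26405928084) (nat_lit 0) (nat_lit 17569526019) (nat_lit 228) (nat_lit 10650704438) (nat_lit 236) (nat_lit 1) (nat_lit 232) (nat_lit 1) (nat_lit 235) (nat_lit 1) (nat_lit 275) (nat_lit 383) (nat_lit 362)) (XT.lf (nat_lit 228) (nat_lit 6546068562) (nat_lit 0) (nat_lit 15328129927) (nat_lit 152) (nat_lit 31151073726) (nat_lit 233) (nat_lit 1) (nat_lit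 230) (nat_lit 1) (nat_lit 232) (nat_lit 1) (nat_lit 276) (nat_lit 383) (nat_lit 361)))))) (XT.nd (nat_lit 546) (nat_lit 988) (nat_lit 0) (XT.nd (nat_lit 234) (nat_lit 684) (nat_lit 0) (XT.nd (nat_lit 78) (nat_lit 380) (nat_lit 0) (XT.lf (nat_lit 76) (nat_lit 1108945835) (nat_lit 0) (nat_lit 12409344642) (nat_lit 304) (nat_lit 37968149982) (nat_lit 227) (nat_lit 1) (nat_lit 226) (nat_lit 1) (nat_lit 230) (nat_lit 1) (nat_lit 277) (nat_lit 383) (nat_lit 360)) (XT.nd (nat_lit 78) (nat_lit 228) (nat_lit 0) (XT.lf (nat_lit 228) (nat_lit 19021674122) (nat_lit 0) (nat_lit 11886914460) (nat_lit 152) (nat_lit 19087869740) (nat_lit 227) (nat_lit 1) (nat_lit 224) (nat_lit 1) (nat_lit 226) (nat_lit 1) (nat_lit 278) (nat_lit 383) (nat_lit 359)) (XT.lf (nat_lit 76) (nat_lit 10320365458) (nat_lit 0) (nat_lit 476704150) (nat_lit 228) (nat_lit 37774424263) (nat_lit 222) (nat_lit 1) (nat_lit 221) (nat_lit 1) (nat_lit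 224) (nat_lit 1) (nat_lit 279) (nat_lit 383) (nat_lit 358)))) (XT.nd (nat_lit 156) (nat_lit 380) (nat_lit 0) (XT.nd (nat_lit 78) (nat_lit 152) (nat_lit 0) (XT.lf (nat_lit 228) (nat_lit 28213886253) (nat_lit 0) (nat_lit 9776744195) (nat_lit 152) (nat_lit 9197350174) (nat_lit 222) (nat_lit 1) (nat_lit 219) (nat_lit 1) (nat_lit 221) (nat_lit 1) (nat_lit 280) (nat_lit 383) (nat_lit 357)) (XT.lf (nat_lit 228) (nat_lit 8764363679) (nat_lit 0) (nat_lit 9088564858) (nat_lit 152) (nat_lit 28004436602) (nat_lit 220) (nat_lit 1) (nat_lit 217) (nat_lit 1) (nat_lit 219) (nat_lit 1) (nat_lit 281) (nat_lit 383) (nat_lit 356))) (XT.nd (nat_lit 78) (nat_lit 152) (nat_lit 0) (XT.lf (nat_lit 228) (nat_lit 34791302813) (nat_lit 0) (nat_lit 8683386048) (nat_lit 152) (nat_lit 1101588262) (nat_lit 217) (nat_lit 1) (nat_lit 214) (nat_lit 1) (nat_lit 216) (nat_lit 1) (nat_lit 282) (nat_lit 383) (nat_lit 355)) (XT.lf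 (nat_lit 228) (nat_lit 15570974698) (nat_lit 0) (nat_lit 8289706100) (nat_lit 152) (nat_lit 19470105700) (nat_lit 215) (nat_lit 1) (nat_lit 212) (nat_lit 1) (nat_lit 214) (nat_lit 1) (nat_lit 283) (nat_lit 383) (nat_lit 354))))) (XT.nd (nat_lit 234) (nat_lit 608) (nat_lit 0) (XT.nd (nat_lit 78) (nat_lit 228) (nat_lit 0) (XT.lf (nat_lit 76) (nat_lit 5333660012) (nat_lit 0) (nat_lit 2931619884) (nat_lit 152) (nat_lit 33871675711) (nat_lit 211) (nat_lit 1) (nat_lit 210) (nat_lit 1) (nat_lit 212) (nat_lit 1) (nat_lit 284) (nat_lit 383) (nat_lit 353)) (XT.nd (nat_lit 78) (nat_lit 76) (nat_lit 0) (XT.lf (nat_lit 228) (nat_lit 20430014302) (nat_lit 0) (nat_lit 8177759784) (nat_lit 152) (nat_lit 12365475818) (nat_lit 211) (nat_lit 1) (nat_lit 208) (nat_lit 1) (nat_lit 210) (nat_lit 1) (nat_lit 285) (nat_lit 383) (nat_lit 352)) (XT.lf (nat_lit 152) (nat_lit 2200022233) (nat_lit 0) (nat_lit 8378616132)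 (nat_lit 76) (nat_lit 29276847439) (nat_lit 209) (nat_lit 1) (nat_lit 207) (nat_lit 1) (nat_lit 208) (nat_lit 1) (nat_lit 286) (nat_lit 383) (nat_lit 351)))) (XT.nd (nat_lit 156) (nat_lit 304) (nat_lit 0) (XT.nd (nat_lit 78) (nat_lit 76) (nat_lit 0) (XT.lf (nat_lit 228) (nat_lit 23748427773) (nat_lit 0) (nat_lit 8569088440) (nat_lit 152) (nat_lit 6451025698) (nat_lit 207) (nat_lit 1) (nat_lit 204) (nat_lit 1) (nat_lit 206) (nat_lit 1) (nat_lit 287) (nat_lit 383) (nat_lit 350)) (XT.lf (nat_lit 152) (nat_lit 5972904705) (nat_lit 0) (nat_lit 8889495292) (nat_lit 76) (nat_lit 22855830215) (nat_lit 205) (nat_lit 1) (nat_lit 203) (nat_lit 1) (nat_lit 204) (nat_lit 1) (nat_lit 288) (nat_lit 383) (nat_lit 349))) (XT.nd (nat_lit 78) (nat_lit 76) (nat_lit 0) (XT.lf (nat_lit 228) (nat_lit 25855235569) (nat_lit 0) (nat_lit 9318238280) (nat_lit 152) (nat_lit 1529202670) (nat_lit 203) (nat_lit 1) (nat_lit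 200) (nat_lit 1) (nat_lit 202) (nat_lit 1) (nat_lit 289) (nat_lit 383) (nat_lit 348)) (XT.lf (nat_lit 152) (nat_lit 8595829305) (nat_lit 0) (nat_lit 9714375377) (nat_lit 76) (nat_lit 17404142428) (nat_lit 201) (nat_lit 1) (nat_lit 199) (nat_lit 1) (nat_lit 200) (nat_lit 1) (nat_lit 290) (nat_lit 383) (nat_lit 347))))))) (XT.nd (nat_lit 1014) (nat_lit 1672) (nat_lit 0) (XT.nd (nat_lit 468) (nat_lit 836) (nat_lit 0) (XT.nd (nat_lit 234) (nat_lit 304) (nat_lit 0) (XT.nd (nat_lit 78) (nat_lit 304) (nat_lit 0) (XT.lf (nat_lit 76) (nat_lit 2481098420) (nat_lit 0) (nat_lit 7787506575) (nat_lit 228) (nat_lit 24492918507) (nat_lit 197) (nat_lit 1) (nat_lit 196) (nat_lit 1) (nat_lit 199) (nat_lit 1) (nat_lit 291) (nat_lit 383) (nat_lit 346)) (XT.nd (nat_lit 78) (nat_lit 228) (nat_lit 0) (XT.lf (nat_lit 152) (nat_lit 10315770706) (nat_lit 0) (nat_lit 10748544119) (nat_lit 76) (nat_lit 12768047857) (nat_lit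 197) (nat_lit 1) (nat_lit 195) (nat_lit 1) (nat_lit 196) (nat_lit 1) (nat_lit 292) (nat_lit 383) (nat_lit 345)) (XT.lf (nat_lit 76) (nat_lit 5770111087) (nat_lit 0) (nat_lit 5588742761) (nat_lit 228) (nat_lit 21577001000) (nat_lit 193) (nat_lit 1) (nat_lit 192) (nat_lit 1) (nat_lit 195) (nat_lit 1) (nat_lit 293) (nat_lit 383) (nat_lit 344)))) (XT.nd (nat_lit 78) (nat_lit 228) (nat_lit 0) (XT.lf (nat_lit 152) (nat_lit 11331897267) (nat_lit 0) (nat_lit 11910261774) (nat_lit 76) (nat_lit 8820093410) (nat_lit 193) (nat_lit 1) (nat_lit 191) (nat_lit 1) (nat_lit 192) (nat_lit 1) (nat_lit 294) (nat_lit 383) (nat_lit 343)) (XT.nd (nat_lit 78) (nat_lit 76) (nat_lit 0) (XT.lf (nat_lit 76) (nat_lit 8494937801) (nat_lit 0) (nat_lit 4047685863) (nat_lit 152) (nat_lit 18674877449) (nat_lit 190) (nat_lit 1) (nat_lit 189) (nat_lit 1) (nat_lit 191) (nat_lit 1) (nat_lit 295) (nat_lit 383) (nat_lit 342)) (XT.lf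 (nat_lit 152) (nat_lit 11804503978) (nat_lit 0) (nat_lit 13136283877) (nat_lit 76) (nat_lit 5454420755) (nat_lit 190) (nat_lit 1) (nat_lit 188) (nat_lit 1) (nat_lit 189) (nat_lit 1) (nat_lit 296) (nat_lit 383) (nat_lit 341))))) (XT.nd (nat_lit 234) (nat_lit 456) (nat_lit 0) (XT.nd (nat_lit 78) (nat_lit 228) (nat_lit 0) (XT.lf (nat_lit 76) (nat_lit 10745306473) (nat_lit 0) (nat_lit 3019626433) (nat_lit 152) (nat_lit 15833276058) (nat_lit 187) (nat_lit 1) (nat_lit 186) (nat_lit 1) (nat_lit 188) (nat_lit 1) (nat_lit 297) (nat_lit 383) (nat_lit 340)) (XT.nd (nat_lit 78) (nat_lit 152) (nat_lit 0) (XT.lf (nat_lit 152) (nat_lit 11862296314) (nat_lit 0) (nat_lit 14378222548) (nat_lit 76) (nat_lit 2582929483) (nat_lit 187) (nat_lit 1) (nat_lit 185) (nat_lit 1) (nat_lit 186) (nat_lit 1) (nat_lit 298) (nat_lit 383) (nat_lit 339)) (XT.lf (nat_lit 76) (nat_lit 12595791011) (nat_lit 0) (nat_lit 2388204621)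 (nat_lit 152) (nat_lit 13086666520) (nat_lit 184) (nat_lit 1) (nat_lit 183) (nat_lit 1) (nat_lit 185) (nat_lit 1) (nat_lit 299) (nat_lit 383) (nat_lit 338)))) (XT.nd (nat_lit 156) (nat_lit 228) (nat_lit 0) (XT.nd (nat_lit 78) (nat_lit 152) (nat_lit 0) (XT.lf (nat_lit 152) (nat_lit 11608328206) (nat_lit 0) (nat_lit 15599591415) (nat_lit 76) (nat_lit 132136101) (nat_lit 184) (nat_lit 1) (nat_lit 182) (nat_lit 1) (nat_lit 183) (nat_lit 1) (nat_lit 300) (nat_lit 383) (nat_lit 337)) (XT.lf (nat_lit 76) (nat_lit 14108493724) (nat_lit 0) (nat_lit 2060087033) (nat_lit 152) (nat_lit 10459758083) (nat_lit 181) (nat_lit 1) (nat_lit 180) (nat_lit 1) (nat_lit 182) (nat_lit 1) (nat_lit 301) (nat_lit 383) (nat_lit 336))) (XT.nd (nat_lit 78) (nat_lit 152) (nat_lit 0) (XT.lf (nat_lit 0) (nat_lit 1896685333) (nat_lit 0) (nat_lit 14844601121) (nat_lit 152) (nat_lit 9196035019) (nat_lit 179) (nat_lit 3) (nat_lit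 179) (nat_lit 1) (nat_lit 181) (nat_lit 1) (nat_lit 302) (nat_lit 383) (nat_lit 335)) (XT.lf (nat_lit 76) (nat_lit 15335242174) (nat_lit 0) (nat_lit 1960628054) (nat_lit 152) (nat_lit 7969523402) (nat_lit 178) (nat_lit 1) (nat_lit 177) (nat_lit 1) (nat_lit 179) (nat_lit 1) (nat_lit 303) (nat_lit 383) (nat_lit 334)))))) (XT.nd (nat_lit 546) (nat_lit 912) (nat_lit 0) (XT.nd (nat_lit 234) (nat_lit 456) (nat_lit 0) (XT.nd (nat_lit 78) (nat_lit 228) (nat_lit 0) (XT.lf (nat_lit 0) (nat_lit 3623370673) (nat_lit 0) (nat_lit 14195514337) (nat_lit 152) (nat_lit 6792475732) (nat_lit 176) (nat_lit 3) (nat_lit 176) (nat_lit 1) (nat_lit 178) (nat_lit 1) (nat_lit 304) (nat_lit 383) (nat_lit 333)) (XT.nd (nat_lit 78) (nat_lit 76) (nat_lit 0) (XT.lf (nat_lit 76) (nat_lit 16319389155) (nat_lit 0) (nat_lit 2030334521) (nat_lit 152) (nat_lit 5626836142) (nat_lit 175) (nat_lit 1) (nat_lit 174) (nat_lit 1) (nat_lit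 176) (nat_lit 1) (nat_lit 305) (nat_lit 383) (nat_lit 332)) (XT.lf (nat_lit 0) (nat_lit 5094055925) (nat_lit 0) (nat_lit 13726350379) (nat_lit 152) (nat_lit 4536823542) (nat_lit 173) (nat_lit 3) (nat_lit 173) (nat_lit 1) (nat_lit 175) (nat_lit 1) (nat_lit 306) (nat_lit 383) (nat_lit 331)))) (XT.nd (nat_lit 156) (nat_lit 228) (nat_lit 0) (XT.nd (nat_lit 78) (nat_lit 76) (nat_lit 0) (XT.lf (nat_lit 76) (nat_lit 17097288197) (nat_lit 0) (nat_lit 2221985902) (nat_lit 152) (nat_lit 3437794134) (nat_lit 172) (nat_lit 1) (nat_lit 171) (nat_lit 1) (nat_lit 173) (nat_lit 1) (nat_lit 307) (nat_lit 383) (nat_lit 330)) (XT.lf (nat_lit 0) (nat_lit 6344072783) (nat_lit 0) (nat_lit 13392454825) (nat_lit 152) (nat_lit 2433823651) (nat_lit 170) (nat_lit 3) (nat_lit 170) (nat_lit 1) (nat_lit 172) (nat_lit 1) (nat_lit 308) (nat_lit 383) (nat_lit 329))) (XT.nd (nat_lit 78) (nat_lit 76) (nat_lit 0) (XT.lf (nat_lit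 76) (nat_lit 17699503790) (nat_lit 0) (nat_lit 2498289284) (nat_lit 152) (nat_lit 1404786635) (nat_lit 169) (nat_lit 1) (nat_lit 168) (nat_lit 1) (nat_lit 170) (nat_lit 1) (nat_lit 309) (nat_lit 383) (nat_lit 328)) (XT.lf (nat_lit 0) (nat_lit 7403303432) (nat_lit 0) (nat_lit 13158400141) (nat_lit 152) (nat_lit 484850205) (nat_lit 167) (nat_lit 3) (nat_lit 167) (nat_lit 1) (nat_lit 169) (nat_lit 1) (nat_lit 310) (nat_lit 383) (nat_lit 327))))) (XT.nd (nat_lit 234) (nat_lit 456) (nat_lit 0) (XT.nd (nat_lit 78) (nat_lit 228) (nat_lit 0) (XT.lf (nat_lit 152) (nat_lit 17671153595) (nat_lit 0) (nat_lit 488274365) (nat_lit 76) (nat_lit 2349319592) (nat_lit 166) (nat_lit 1) (nat_lit 164) (nat_lit 1) (nat_lit 165) (nat_lit 1) (nat_lit 311) (nat_lit 383) (nat_lit 326)) (XT.nd (nat_lit 78) (nat_lit 152) (nat_lit 0) (XT.lf (nat_lit 76) (nat_lit 6963595179) (nat_lit 0) (nat_lit 1354659868) (nat_lit 76) (nat_lit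 11662707392) (nat_lit 164) (nat_lit 3) (nat_lit 163) (nat_lit 1) (nat_lit 164) (nat_lit 1) (nat_lit 312) (nat_lit 383) (nat_lit 325)) (XT.lf (nat_lit 152) (nat_lit 16241644957) (nat_lit 0) (nat_lit 2269771924) (nat_lit 76) (nat_lit 959887466) (nat_lit 163) (nat_lit 1) (nat_lit 161) (nat_lit 1) (nat_lit 162) (nat_lit 1) (nat_lit 313) (nat_lit 383) (nat_lit 324)))) (XT.nd (nat_lit 156) (nat_lit 228) (nat_lit 0) (XT.nd (nat_lit 78) (nat_lit 152) (nat_lit 0) (XT.lf (nat_lit 76) (nat_lit 6039194002) (nat_lit 0) (nat_lit 3055581661) (nat_lit 76) (nat_lit 9876080974) (nat_lit 161) (nat_lit 3) (nat_lit 160) (nat_lit 1) (nat_lit 161) (nat_lit 1) (nat_lit 314) (nat_lit 383) (nat_lit 323)) (XT.lf (nat_lit 0) (nat_lit 254904342) (nat_lit 0) (nat_lit 3638402554) (nat_lit 152) (nat_lit 14594514953) (nat_lit 158) (nat_lit 3) (nat_lit 158) (nat_lit 1) (nat_lit 160) (nat_lit 1) (nat_lit 315) (nat_lit 383) (nat_lit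 322))) (XT.nd (nat_lit 78) (nat_lit 152) (nat_lit 0) (XT.lf (nat_lit 76) (nat_lit 5136948788) (nat_lit 0) (nat_lit 4606622225) (nat_lit 76) (nat_lit 8269817503) (nat_lit 158) (nat_lit 3) (nat_lit 157) (nat_lit 1) (nat_lit 158) (nat_lit 1) (nat_lit 316) (nat_lit 383) (nat_lit 321)) (XT.lf (nat_lit 0) (nat_lit 1296387586) (nat_lit 0) (nat_lit 4059058410) (nat_lit 152) (nat_lit 12199322307) (nat_lit 155) (nat_lit 3) (nat_lit 155) (nat_lit 1) (nat_lit 157) (nat_lit 1) (nat_lit 317) (nat_lit 383) (nat_lit 320))))))))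
noncomputable def ec124 : XT := (XT.nd (nat_lit 2028) (nat_lit 3192) (nat_lit 0) (XT.nd (nat_lit 1014) (nat_lit 1520) (nat_lit 0) (XT.nd (nat_lit 468) (nat_lit 836) (nat_lit 0) (XT.nd (nat_lit 234) (nat_lit 380) (nat_lit 0) (XT.nd (nat_lit 78) (nat_lit 228) (nat_lit 0) (XT.lf (nat_lit 76) (nat_lit 4266972759) (nat_lit 0) (nat_lit 6013585700) (nat_lit 76) (nat_lit 6825001300) (nat_lit 155) (nat_lit 3) (nat_lit 154) (nat_lit 1) (nat_lit 155) (nat_lit 1) (nat_lit 318) (nat_lit 383) (nat_lit 319)) (XT.nd (nat_lit 78) (nat_lit 76) (nat_lit 0) (XT.lf (nat_lit 0) (nat_lit 2211156215) (nat_lit 0) (nat_lit 4466913305) (nat_lit 152) (nat_lit 9991932367) (nat_lit 152) (nat_lit 3) (nat_lit 152) (nat_lit 1) (nat_lit 154) (nat_lit 1) (nat_lit 319) (nat_lit 383) (nat_lit 318)) (XT.lf (nat_lit 76) (nat_lit 3436456253) (nat_lit 0) (nat_lit 7283009911) (nat_lit 76) (nat_lit 5525120226) (nat_lit 152) (nat_lit 3)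 (nat_lit 151) (nat_lit 1) (nat_lit 152) (nat_lit 1) (nat_lit 320) (nat_lit 383) (nat_lit 317)))) (XT.nd (nat_lit 78) (nat_lit 228) (nat_lit 0) (XT.lf (nat_lit 0) (nat_lit 3013028598) (nat_lit 0) (nat_lit 4854883954) (nat_lit 152) (nat_lit 7962921444) (nat_lit 149) (nat_lit 3) (nat_lit 149) (nat_lit 1) (nat_lit 151) (nat_lit 1) (nat_lit 321) (nat_lit 383) (nat_lit 316)) (XT.nd (nat_lit 78) (nat_lit 152) (nat_lit 0) (XT.lf (nat_lit 76) (nat_lit 2650275336) (nat_lit 0) (nat_lit 8421904155) (nat_lit 76) (nat_lit 4355696961) (nat_lit 149) (nat_lit 3) (nat_lit 148) (nat_lit 1) (nat_lit 149) (nat_lit 1) (nat_lit 322) (nat_lit 383) (nat_lit 315)) (XT.lf (nat_lit 0) (nat_lit 3714085530) (nat_lit 0) (nat_lit 5217984671) (nat_lit 152) (nat_lit 6102687833) (nat_lit 146) (nat_lit 3) (nat_lit 146) (nat_lit 1) (nat_lit 148) (nat_lit 1) (nat_lit 323) (nat_lit 383) (nat_lit 314))))) (XT.nd (nat_lit 234) (nat_lit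 532) (nat_lit 0) (XT.nd (nat_lit 78) (nat_lit 228) (nat_lit 0) (XT.lf (nat_lit 76) (nat_lit 1911484122) (nat_lit 0) (nat_lit 9437543482) (nat_lit 76) (nat_lit 3303983326) (nat_lit 146) (nat_lit 3) (nat_lit 145) (nat_lit 1) (nat_lit 146) (nat_lit 1) (nat_lit 324) (nat_lit 383) (nat_lit 313)) (XT.nd (nat_lit 78) (nat_lit 76) (nat_lit 0) (XT.lf (nat_lit 0) (nat_lit 4324931946) (nat_lit 0) (nat_lit 5552885389) (nat_lit 152) (nat_lit 4401614458) (nat_lit 143) (nat_lit 3) (nat_lit 143) (nat_lit 1) (nat_lit 145) (nat_lit 1) (nat_lit 325) (nat_lit 383) (nat_lit 312)) (XT.lf (nat_lit 76) (nat_lit 1221712421) (nat_lit 0) (nat_lit 10337308570) (nat_lit 76) (nat_lit 2358706350) (nat_lit 143) (nat_lit 3) (nat_lit 142) (nat_lit 1) (nat_lit 143) (nat_lit 1) (nat_lit 326) (nat_lit 383) (nat_lit 311)))) (XT.nd (nat_lit 156) (nat_lit 304) (nat_lit 0) (XT.nd (nat_lit 78) (nat_lit 76) (nat_lit 0) (XT.lf (nat_lit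 0) (nat_lit 4854914391) (nat_lit 0) (nat_lit 5857554540) (nat_lit 152) (nat_lit 2850193340) (nat_lit 140) (nat_lit 3) (nat_lit 140) (nat_lit 1) (nat_lit 142) (nat_lit 1) (nat_lit 327) (nat_lit 383) (nat_lit 310)) (XT.lf (nat_lit 76) (nat_lit 581486360) (nat_lit 0) (nat_lit 11128562330) (nat_lit 76) (nat_lit 1509856867) (nat_lit 140) (nat_lit 3) (nat_lit 139) (nat_lit 1) (nat_lit 140) (nat_lit 1) (nat_lit 328) (nat_lit 383) (nat_lit 309))) (XT.nd (nat_lit 78) (nat_lit 152) (nat_lit 0) (XT.lf (nat_lit 0) (nat_lit 5312302107) (nat_lit 0) (nat_lit 6130970985) (nat_lit 152) (nat_lit 1439119413) (nat_lit 137) (nat_lit 3) (nat_lit 137) (nat_lit 1) (nat_lit 139) (nat_lit 1) (nat_lit 329) (nat_lit 383) (nat_lit 308)) (XT.lf (nat_lit 76) (nat_lit 11809190936) (nat_lit 0) (nat_lit 9209152) (nat_lit 152) (nat_lit 739147976) (nat_lit 136) (nat_lit 1) (nat_lit 135) (nat_lit 1) (nat_lit 137) (nat_lit 1) (nat_lit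 330) (nat_lit 383) (nat_lit 307)))))) (XT.nd (nat_lit 468) (nat_lit 760) (nat_lit 0) (XT.nd (nat_lit 234) (nat_lit 380) (nat_lit 0) (XT.nd (nat_lit 78) (nat_lit 304) (nat_lit 0) (XT.lf (nat_lit 0) (nat_lit 5704438204) (nat_lit 0) (nat_lit 6372892119) (nat_lit 152) (nat_lit 159359776) (nat_lit 134) (nat_lit 3) (nat_lit 134) (nat_lit 1) (nat_lit 136) (nat_lit 1) (nat_lit 331) (nat_lit 383) (nat_lit 306)) (XT.nd (nat_lit 78) (nat_lit 76) (nat_lit 0) (XT.lf (nat_lit 152) (nat_lit 11385727655) (nat_lit 0) (nat_lit 492700258) (nat_lit 76) (nat_lit 49562701) (nat_lit 133) (nat_lit 1) (nat_lit 131) (nat_lit 1) (nat_lit 132) (nat_lit 1) (nat_lit 332) (nat_lit 383) (nat_lit 305)) (XT.lf (nat_lit 76) (nat_lit 5023171395) (nat_lit 0) (nat_lit 1030788292) (nat_lit 76) (nat_lit 5568972814) (nat_lit 131) (nat_lit 3) (nat_lit 130) (nat_lit 1) (nat_lit 131) (nat_lit 1) (nat_lit 333) (nat_lit 383) (nat_lit 304))))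 (XT.nd (nat_lit 78) (nat_lit 228) (nat_lit 0) (XT.lf (nat_lit 0) (nat_lit 567842643) (nat_lit 0) (nat_lit 1049149010) (nat_lit 152) (nat_lit 9712359535) (nat_lit 128) (nat_lit 3) (nat_lit 128) (nat_lit 1) (nat_lit 130) (nat_lit 1) (nat_lit 334) (nat_lit 383) (nat_lit 303)) (XT.nd (nat_lit 78) (nat_lit 152) (nat_lit 0) (XT.lf (nat_lit 76) (nat_lit 4243170942) (nat_lit 0) (nat_lit 2108179852) (nat_lit 76) (nat_lit 4688824985) (nat_lit 128) (nat_lit 3) (nat_lit 127) (nat_lit 1) (nat_lit 128) (nat_lit 1) (nat_lit 335) (nat_lit 383) (nat_lit 302)) (XT.lf (nat_lit 0) (nat_lit 1117345531) (nat_lit 0) (nat_lit 1510338514) (nat_lit 152) (nat_lit 8133347077) (nat_lit 125) (nat_lit 3) (nat_lit 125) (nat_lit 1) (nat_lit 127) (nat_lit 1) (nat_lit 336) (nat_lit 383) (nat_lit 301))))) (XT.nd (nat_lit 234) (nat_lit 456) (nat_lit 0) (XT.nd (nat_lit 78) (nat_lit 228) (nat_lit 0) (XT.lf (nat_lit 76) (nat_lit 3523629142)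 (nat_lit 0) (nat_lit 3075786920) (nat_lit 76) (nat_lit 3887511534) (nat_lit 125) (nat_lit 3) (nat_lit 124) (nat_lit 1) (nat_lit 125) (nat_lit 1) (nat_lit 337) (nat_lit 383) (nat_lit 300)) (XT.nd (nat_lit 78) (nat_lit 76) (nat_lit 0) (XT.lf (nat_lit 0) (nat_lit 1606336835) (nat_lit 0) (nat_lit 1927220779) (nat_lit 152) (nat_lit 6687933544) (nat_lit 122) (nat_lit 3) (nat_lit 122) (nat_lit 1) (nat_lit 124) (nat_lit 1) (nat_lit 338) (nat_lit 383) (nat_lit 299)) (XT.lf (nat_lit 76) (nat_lit 2861547756) (nat_lit 0) (nat_lit 3941447941) (nat_lit 76) (nat_lit 3158662518) (nat_lit 122) (nat_lit 3) (nat_lit 121) (nat_lit 1) (nat_lit 122) (nat_lit 1) (nat_lit 339) (nat_lit 383) (nat_lit 298)))) (XT.nd (nat_lit 156) (nat_lit 228) (nat_lit 0) (XT.nd (nat_lit 78) (nat_lit 76) (nat_lit 0) (XT.lf (nat_lit 0) (nat_lit 2040085930) (nat_lit 0) (nat_lit 2302091893) (nat_lit 152) (nat_lit 5367063594) (nat_lit 119)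 (nat_lit 3) (nat_lit 119) (nat_lit 1) (nat_lit 121) (nat_lit 1) (nat_lit 340) (nat_lit 383) (nat_lit 297)) (XT.lf (nat_lit 76) (nat_lit 2253865359) (nat_lit 0) (nat_lit 4712593918) (nat_lit 76) (nat_lit 2496463473) (nat_lit 119) (nat_lit 3) (nat_lit 118) (nat_lit 1) (nat_lit 119) (nat_lit 1) (nat_lit 341) (nat_lit 383) (nat_lit 296))) (XT.nd (nat_lit 78) (nat_lit 76) (nat_lit 0) (XT.lf (nat_lit 0) (nat_lit 2423387545) (nat_lit 0) (nat_lit 2637318862) (nat_lit 152) (nat_lit 4162167752) (nat_lit 116) (nat_lit 3) (nat_lit 116) (nat_lit 1) (nat_lit 118) (nat_lit 1) (nat_lit 342) (nat_lit 383) (nat_lit 295)) (XT.lf (nat_lit 76) (nat_lit 1697510624) (nat_lit 0) (nat_lit 5396249719) (nat_lit 76) (nat_lit 1895595177) (nat_lit 116) (nat_lit 3) (nat_lit 115) (nat_lit 1) (nat_lit 116) (nat_lit 1) (nat_lit 343) (nat_lit 383) (nat_lit 294))))))) (XT.nd (nat_lit 1014) (nat_lit 1596) (nat_lit 0) (XT.nd (nat_lit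 468) (nat_lit 912) (nat_lit 0) (XT.nd (nat_lit 234) (nat_lit 304) (nat_lit 0) (XT.nd (nat_lit 78) (nat_lit 228) (nat_lit 0) (XT.lf (nat_lit 0) (nat_lit 2760613672) (nat_lit 0) (nat_lit 2935291408) (nat_lit 152) (nat_lit 3065153319) (nat_lit 113) (nat_lit 3) (nat_lit 113) (nat_lit 1) (nat_lit 115) (nat_lit 1) (nat_lit 344) (nat_lit 383) (nat_lit 293)) (XT.nd (nat_lit 78) (nat_lit 152) (nat_lit 0) (XT.lf (nat_lit 76) (nat_lit 1189443156) (nat_lit 0) (nat_lit 5999039969) (nat_lit 76) (nat_lit 1351181801) (nat_lit 113) (nat_lit 3) (nat_lit 112) (nat_lit 1) (nat_lit 113) (nat_lit 1) (nat_lit 345) (nat_lit 383) (nat_lit 292)) (XT.lf (nat_lit 0) (nat_lit 3055758263) (nat_lit 0) (nat_lit 3198384935) (nat_lit 152) (nat_lit 2068391825) (nat_lit 110) (nat_lit 3) (nat_lit 110) (nat_lit 1) (nat_lit 112) (nat_lit 1) (nat_lit 346) (nat_lit 383) (nat_lit 291)))) (XT.nd (nat_lit 78) (nat_lit 228) (nat_lit 0)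 (XT.lf (nat_lit 76) (nat_lit 726684333) (nat_lit 0) (nat_lit 6527198401) (nat_lit 76) (nat_lit 858746065) (nat_lit 110) (nat_lit 3) (nat_lit 109) (nat_lit 1) (nat_lit 110) (nat_lit 1) (nat_lit 347) (nat_lit 383) (nat_lit 290)) (XT.nd (nat_lit 78) (nat_lit 76) (nat_lit 0) (XT.lf (nat_lit 0) (nat_lit 3312475906) (nat_lit 0) (nat_lit 3428932461) (nat_lit 152) (nat_lit 1164703967) (nat_lit 107) (nat_lit 3) (nat_lit 107) (nat_lit 1) (nat_lit 109) (nat_lit 1) (nat_lit 348) (nat_lit 383) (nat_lit 289)) (XT.lf (nat_lit 76) (nat_lit 306340131) (nat_lit 0) (nat_lit 6986579732) (nat_lit 76) (nat_lit 414170274) (nat_lit 107) (nat_lit 3) (nat_lit 106) (nat_lit 1) (nat_lit 107) (nat_lit 1) (nat_lit 349) (nat_lit 383) (nat_lit 288))))) (XT.nd (nat_lit 234) (nat_lit 456) (nat_lit 0) (XT.nd (nat_lit 78) (nat_lit 304) (nat_lit 0) (XT.lf (nat_lit 0) (nat_lit 3534115432) (nat_lit 0) (nat_lit 3629203742) (nat_lit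 152) (nat_lit 347342797) (nat_lit 104) (nat_lit 3) (nat_lit 104) (nat_lit 1) (nat_lit 106) (nat_lit 1) (nat_lit 350) (nat_lit 383) (nat_lit 287)) (XT.nd (nat_lit 78) (nat_lit 76) (nat_lit 0) (XT.lf (nat_lit 152) (nat_lit 7248884746) (nat_lit 0) (nat_lit 61528096) (nat_lit 76) (nat_lit 11434258) (nat_lit 103) (nat_lit 1) (nat_lit 101) (nat_lit 1) (nat_lit 102) (nat_lit 1) (nat_lit 351) (nat_lit 383) (nat_lit 286)) (XT.lf (nat_lit 76) (nat_lit 3327119771) (nat_lit 0) (nat_lit 402920215) (nat_lit 76) (nat_lit 3404760627) (nat_lit 101) (nat_lit 3) (nat_lit 100) (nat_lit 1) (nat_lit 101) (nat_lit 1) (nat_lit 352) (nat_lit 383) (nat_lit 285)))) (XT.nd (nat_lit 156) (nat_lit 228) (nat_lit 0) (XT.nd (nat_lit 78) (nat_lit 76) (nat_lit 0) (XT.lf (nat_lit 0) (nat_lit 354251810) (nat_lit 0) (nat_lit 422718173) (nat_lit 152) (nat_lit 6177986580) (nat_lit 98) (nat_lit 3) (nat_lit 98) (nat_lit 1) (nat_lit 100)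 (nat_lit 1) (nat_lit 353) (nat_lit 383) (nat_lit 284)) (XT.lf (nat_lit 76) (nat_lit 2813026481) (nat_lit 0) (nat_lit 1088161987) (nat_lit 76) (nat_lit 2876421262) (nat_lit 98) (nat_lit 3) (nat_lit 97) (nat_lit 1) (nat_lit 98) (nat_lit 1) (nat_lit 354) (nat_lit 383) (nat_lit 283))) (XT.nd (nat_lit 78) (nat_lit 76) (nat_lit 0) (XT.lf (nat_lit 0) (nat_lit 681710161) (nat_lit 0) (nat_lit 737613848) (nat_lit 152) (nat_lit 5187227771) (nat_lit 95) (nat_lit 3) (nat_lit 95) (nat_lit 1) (nat_lit 97) (nat_lit 1) (nat_lit 355) (nat_lit 383) (nat_lit 282)) (XT.lf (nat_lit 76) (nat_lit 2342000414) (nat_lit 0) (nat_lit 1702641683) (nat_lit 76) (nat_lit 2393763087) (nat_lit 95) (nat_lit 3) (nat_lit 94) (nat_lit 1) (nat_lit 95) (nat_lit 1) (nat_lit 356) (nat_lit 383) (nat_lit 281)))))) (XT.nd (nat_lit 546) (nat_lit 760) (nat_lit 0) (XT.nd (nat_lit 234) (nat_lit 456) (nat_lit 0) (XT.nd (nat_lit 78) (nat_lit 228)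 (nat_lit 0) (XT.lf (nat_lit 0) (nat_lit 974319100) (nat_lit 0) (nat_lit 1019965196) (nat_lit 152) (nat_lit 4281416215) (nat_lit 92) (nat_lit 3) (nat_lit 92) (nat_lit 1) (nat_lit 94) (nat_lit 1) (nat_lit 357) (nat_lit 383) (nat_lit 280)) (XT.nd (nat_lit 78) (nat_lit 152) (nat_lit 0) (XT.lf (nat_lit 76) (nat_lit 1911137240) (nat_lit 0) (nat_lit 2251733542) (nat_lit 76) (nat_lit 1953402144) (nat_lit 92) (nat_lit 3) (nat_lit 91) (nat_lit 1) (nat_lit 92) (nat_lit 1) (nat_lit 358) (nat_lit 383) (nat_lit 279)) (XT.lf (nat_lit 0) (nat_lit 1234865075) (nat_lit 0) (nat_lit 1272135713) (nat_lit 152) (nat_lit 3454509735) (nat_lit 89) (nat_lit 3) (nat_lit 89) (nat_lit 1) (nat_lit 91) (nat_lit 1) (nat_lit 359) (nat_lit 383) (nat_lit 278)))) (XT.nd (nat_lit 156) (nat_lit 228) (nat_lit 0) (XT.nd (nat_lit 78) (nat_lit 152) (nat_lit 0) (XT.lf (nat_lit 76) (nat_lit 1517687463) (nat_lit 0) (nat_lit 2740461549) (nat_lit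 76) (nat_lit 1552197314) (nat_lit 89) (nat_lit 3) (nat_lit 88) (nat_lit 1) (nat_lit 89) (nat_lit 1) (nat_lit 360) (nat_lit 383) (nat_lit 277)) (XT.lf (nat_lit 0) (nat_lit 1465926894) (nat_lit 0) (nat_lit 1496358861) (nat_lit 152) (nat_lit 2700850069) (nat_lit 86) (nat_lit 3) (nat_lit 86) (nat_lit 1) (nat_lit 88) (nat_lit 1) (nat_lit 361) (nat_lit 383) (nat_lit 276))) (XT.nd (nat_lit 78) (nat_lit 152) (nat_lit 0) (XT.lf (nat_lit 76) (nat_lit 1159053687) (nat_lit 0) (nat_lit 3173518441) (nat_lit 76) (nat_lit 1187231434) (nat_lit 86) (nat_lit 3) (nat_lit 85) (nat_lit 1) (nat_lit 86) (nat_lit 1) (nat_lit 362) (nat_lit 383) (nat_lit 275)) (XT.lf (nat_lit 0) (nat_lit 1669892140) (nat_lit 0) (nat_lit 1694740241) (nat_lit 152) (nat_lit 2015141744) (nat_lit 83) (nat_lit 3) (nat_lit 83) (nat_lit 1) (nat_lit 85) (nat_lit 1) (nat_lit 363) (nat_lit 383) (nat_lit 274))))) (XT.nd (nat_lit 234) (nat_lit 456)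 (nat_lit 0) (XT.nd (nat_lit 78) (nat_lit 228) (nat_lit 0) (XT.lf (nat_lit 76) (nat_lit 832786741) (nat_lit 0) (nat_lit 3555284201) (nat_lit 76) (nat_lit 855794242) (nat_lit 83) (nat_lit 3) (nat_lit 82) (nat_lit 1) (nat_lit 83) (nat_lit 1) (nat_lit 364) (nat_lit 383) (nat_lit 273)) (XT.nd (nat_lit 78) (nat_lit 76) (nat_lit 0) (XT.lf (nat_lit 0) (nat_lit 1848972006) (nat_lit 0) (nat_lit 1869260808) (nat_lit 152) (nat_lit 1392431663) (nat_lit 80) (nat_lit 3) (nat_lit 80) (nat_lit 1) (nat_lit 82) (nat_lit 1) (nat_lit 365) (nat_lit 383) (nat_lit 272)) (XT.lf (nat_lit 76) (nat_lit 536580977) (nat_lit 0) (nat_lit 3889843950) (nat_lit 76) (nat_lit 555366905) (nat_lit 80) (nat_lit 3) (nat_lit 79) (nat_lit 1) (nat_lit 80) (nat_lit 1) (nat_lit 366) (nat_lit 383) (nat_lit 271)))) (XT.nd (nat_lit 156) (nat_lit 228) (nat_lit 0) (XT.nd (nat_lit 78) (nat_lit 76) (nat_lit 0) (XT.lf (nat_lit 0) (nat_lit 2005214749)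 (nat_lit 0) (nat_lit 2021780823) (nat_lit 152) (nat_lit 828089479) (nat_lit 77) (nat_lit 3) (nat_lit 77) (nat_lit 1) (nat_lit 79) (nat_lit 1) (nat_lit 367) (nat_lit 383) (nat_lit 270)) (XT.lf (nat_lit 76) (nat_lit 268268979) (nat_lit 0) (nat_lit 4181005165) (nat_lit 76) (nat_lit 283607936) (nat_lit 77) (nat_lit 3) (nat_lit 76) (nat_lit 1) (nat_lit 77) (nat_lit 1) (nat_lit 368) (nat_lit 383) (nat_lit 269))) (XT.nd (nat_lit 78) (nat_lit 76) (nat_lit 0) (XT.lf (nat_lit 0) (nat_lit 2140517921) (nat_lit 0) (nat_lit 2154044338) (nat_lit 152) (nat_lit 317788786) (nat_lit 74) (nat_lit 3) (nat_lit 74) (nat_lit 1) (nat_lit 76) (nat_lit 1) (nat_lit 369) (nat_lit 383) (nat_lit 268)) (XT.lf (nat_lit 76) (nat_lit 25815889) (nat_lit 0) (nat_lit 4432314199) (nat_lit 76) (nat_lit 38340349) (nat_lit 74) (nat_lit 3) (nat_lit 73) (nat_lit 1) (nat_lit 74) (nat_lit 1) (nat_lit 370) (nat_lit 383) (nat_lit 267))))))))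
noncomputable def ec125 : XT := (XT.nd (nat_lit 2106) (nat_lit 2204) (nat_lit 0) (XT.nd (nat_lit 1014) (nat_lit 1748) (nat_lit 0) (XT.nd (nat_lit 468) (nat_lit 760) (nat_lit 0) (XT.nd (nat_lit 234) (nat_lit 380) (nat_lit 0) (XT.nd (nat_lit 78) (nat_lit 228) (nat_lit 0) (XT.lf (nat_lit 76) (nat_lit 2111715200) (nat_lit 0) (nat_lit 147222903) (nat_lit 76) (nat_lit 2122759698) (nat_lit 71) (nat_lit 3) (nat_lit 70) (nat_lit 1) (nat_lit 71) (nat_lit 1) (nat_lit 371) (nat_lit 383) (nat_lit 266)) (XT.nd (nat_lit 78) (nat_lit 76) (nat_lit 0) (XT.lf (nat_lit 0) (nat_lit 185778573) (nat_lit 0) (nat_lit 195517989) (nat_lit 152) (nat_lit 3890028515) (nat_lit 68) (nat_lit 3) (nat_lit 68) (nat_lit 1) (nat_lit 70) (nat_lit 1) (nat_lit 372) (nat_lit 383) (nat_lit 265)) (XT.lf (nat_lit 76) (nat_lit 1789201332) (nat_lit 0) (nat_lit 574984092) (nat_lit 76) (nat_lit 1798219310) (nat_lit 68) (nat_lit 3) (nat_lit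 67) (nat_lit 1) (nat_lit 68) (nat_lit 1) (nat_lit 373) (nat_lit 383) (nat_lit 264)))) (XT.nd (nat_lit 78) (nat_lit 228) (nat_lit 0) (XT.lf (nat_lit 0) (nat_lit 387183629) (nat_lit 0) (nat_lit 395135990) (nat_lit 152) (nat_lit 3275096443) (nat_lit 65) (nat_lit 3) (nat_lit 65) (nat_lit 1) (nat_lit 67) (nat_lit 1) (nat_lit 374) (nat_lit 383) (nat_lit 263)) (XT.nd (nat_lit 78) (nat_lit 152) (nat_lit 0) (XT.lf (nat_lit 76) (nat_lit 1494077179) (nat_lit 0) (nat_lit 958622599) (nat_lit 76) (nat_lit 1501440476) (nat_lit 65) (nat_lit 3) (nat_lit 64) (nat_lit 1) (nat_lit 65) (nat_lit 1) (nat_lit 375) (nat_lit 383) (nat_lit 262)) (XT.lf (nat_lit 0) (nat_lit 567423713) (nat_lit 0) (nat_lit 573916920) (nat_lit 152) (nat_lit 2712931270) (nat_lit 62) (nat_lit 3) (nat_lit 62) (nat_lit 1) (nat_lit 64) (nat_lit 1) (nat_lit 376) (nat_lit 383) (nat_lit 261))))) (XT.nd (nat_lit 234) (nat_lit 456) (nat_lit 0) (XT.nd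 (nat_lit 78) (nat_lit 228) (nat_lit 0) (XT.lf (nat_lit 76) (nat_lit 1224402746) (nat_lit 0) (nat_lit 1301528790) (nat_lit 76) (nat_lit 1230414976) (nat_lit 62) (nat_lit 3) (nat_lit 61) (nat_lit 1) (nat_lit 62) (nat_lit 1) (nat_lit 377) (nat_lit 383) (nat_lit 260)) (XT.nd (nat_lit 78) (nat_lit 76) (nat_lit 0) (XT.lf (nat_lit 0) (nat_lit 728151009) (nat_lit 0) (nat_lit 733452799) (nat_lit 152) (nat_lit 2199743964) (nat_lit 59) (nat_lit 3) (nat_lit 59) (nat_lit 1) (nat_lit 61) (nat_lit 1) (nat_lit 378) (nat_lit 383) (nat_lit 259)) (XT.lf (nat_lit 76) (nat_lit 978360949) (nat_lit 0) (nat_lit 1606863154) (nat_lit 76) (nat_lit 983270014) (nat_lit 59) (nat_lit 3) (nat_lit 58) (nat_lit 1) (nat_lit 59) (nat_lit 1) (nat_lit 379) (nat_lit 383) (nat_lit 258)))) (XT.nd (nat_lit 156) (nat_lit 228) (nat_lit 0) (XT.nd (nat_lit 78) (nat_lit 76) (nat_lit 0) (XT.lf (nat_lit 0) (nat_lit 870901849) (nat_lit 0) (nat_lit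 875230830) (nat_lit 152) (nat_lit 1731993964) (nat_lit 56) (nat_lit 3) (nat_lit 56) (nat_lit 1) (nat_lit 58) (nat_lit 1) (nat_lit 380) (nat_lit 383) (nat_lit 257)) (XT.lf (nat_lit 76) (nat_lit 754250874) (nat_lit 0) (nat_lit 1877570598) (nat_lit 76) (nat_lit 758259190) (nat_lit 56) (nat_lit 3) (nat_lit 55) (nat_lit 1) (nat_lit 56) (nat_lit 1) (nat_lit 381) (nat_lit 383) (nat_lit 256))) (XT.nd (nat_lit 78) (nat_lit 76) (nat_lit 0) (XT.lf (nat_lit 0) (nat_lit 997104607) (nat_lit 0) (nat_lit 1000639277) (nat_lit 152) (nat_lit 1306373967) (nat_lit 53) (nat_lit 3) (nat_lit 53) (nat_lit 1) (nat_lit 55) (nat_lit 1) (nat_lit 382) (nat_lit 383) (nat_lit 255)) (XT.lf (nat_lit 76) (nat_lit 550481267) (nat_lit 0) (nat_lit 2116393945) (nat_lit 76) (nat_lit 553754109) (nat_lit 53) (nat_lit 3) (nat_lit 52) (nat_lit 1) (nat_lit 53) (nat_lit 1) (nat_lit 383) (nat_lit 383) (nat_lit 254)))))) (XT.nd (nat_lit 546)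 (nat_lit 836) (nat_lit 0) (XT.nd (nat_lit 234) (nat_lit 532) (nat_lit 0) (XT.nd (nat_lit 78) (nat_lit 228) (nat_lit 0) (XT.lf (nat_lit 0) (nat_lit 1108087032) (nat_lit 0) (nat_lit 1110973136) (nat_lit 152) (nat_lit 919795558) (nat_lit 50) (nat_lit 3) (nat_lit 50) (nat_lit 1) (nat_lit 52) (nat_lit 1) (nat_lit 384) (nat_lit 383) (nat_lit 253)) (XT.nd (nat_lit 78) (nat_lit 152) (nat_lit 0) (XT.lf (nat_lit 76) (nat_lit 365564268) (nat_lit 0) (nat_lit 2325886675) (nat_lit 76) (nat_lit 368236587) (nat_lit 50) (nat_lit 3) (nat_lit 49) (nat_lit 1) (nat_lit 50) (nat_lit 1) (nat_lit 385) (nat_lit 383) (nat_lit 252)) (XT.lf (nat_lit 0) (nat_lit 1205083052) (nat_lit 0) (nat_lit 1207439594) (nat_lit 152) (nat_lit 569375656) (nat_lit 47) (nat_lit 3) (nat_lit 47) (nat_lit 1) (nat_lit 49) (nat_lit 1) (nat_lit 386) (nat_lit 383) (nat_lit 251)))) (XT.nd (nat_lit 156) (nat_lit 304) (nat_lit 0) (XT.nd (nat_lit 78)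 (nat_lit 152) (nat_lit 0) (XT.lf (nat_lit 76) (nat_lit 198109405) (nat_lit 0) (nat_lit 2508424943) (nat_lit 76) (nat_lit 200291389) (nat_lit 47) (nat_lit 3) (nat_lit 46) (nat_lit 1) (nat_lit 47) (nat_lit 1) (nat_lit 387) (nat_lit 383) (nat_lit 250)) (XT.lf (nat_lit 0) (nat_lit 1289239109) (nat_lit 0) (nat_lit 1291163257) (nat_lit 152) (nat_lit 252423731) (nat_lit 44) (nat_lit 3) (nat_lit 44) (nat_lit 1) (nat_lit 46) (nat_lit 1) (nat_lit 388) (nat_lit 383) (nat_lit 249))) (XT.nd (nat_lit 78) (nat_lit 228) (nat_lit 0) (XT.lf (nat_lit 76) (nat_lit 46817851) (nat_lit 0) (nat_lit 2666218894) (nat_lit 76) (nat_lit 48599469) (nat_lit 44) (nat_lit 3) (nat_lit 43) (nat_lit 1) (nat_lit 44) (nat_lit 1) (nat_lit 389) (nat_lit 383) (nat_lit 248)) (XT.lf (nat_lit 76) (nat_lit 1327481281) (nat_lit 0) (nat_lit 34680225) (nat_lit 76) (nat_lit 1329052373) (nat_lit 41) (nat_lit 3) (nat_lit 40) (nat_lit 1) (nat_lit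 41) (nat_lit 1) (nat_lit 390) (nat_lit 383) (nat_lit 247))))) (XT.nd (nat_lit 234) (nat_lit 456) (nat_lit 0) (XT.nd (nat_lit 78) (nat_lit 228) (nat_lit 0) (XT.lf (nat_lit 0) (nat_lit 89558633) (nat_lit 0) (nat_lit 90944076) (nat_lit 152) (nat_lit 2442945030) (nat_lit 38) (nat_lit 3) (nat_lit 38) (nat_lit 1) (nat_lit 40) (nat_lit 1) (nat_lit 391) (nat_lit 383) (nat_lit 246)) (XT.nd (nat_lit 78) (nat_lit 152) (nat_lit 0) (XT.lf (nat_lit 76) (nat_lit 1127340172) (nat_lit 0) (nat_lit 300567144) (nat_lit 76) (nat_lit 1128622989) (nat_lit 38) (nat_lit 3) (nat_lit 37) (nat_lit 1) (nat_lit 38) (nat_lit 1) (nat_lit 392) (nat_lit 383) (nat_lit 245)) (XT.lf (nat_lit 0) (nat_lit 214351862) (nat_lit 0) (nat_lit 215483094) (nat_lit 152) (nat_lit 2062233804) (nat_lit 35) (nat_lit 3) (nat_lit 35) (nat_lit 1) (nat_lit 37) (nat_lit 1) (nat_lit 393) (nat_lit 383) (nat_lit 244)))) (XT.nd (nat_lit 156) (nat_lit 228)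 (nat_lit 0) (XT.nd (nat_lit 78) (nat_lit 152) (nat_lit 0) (XT.lf (nat_lit 76) (nat_lit 944212865) (nat_lit 0) (nat_lit 539145278) (nat_lit 76) (nat_lit 945260302) (nat_lit 35) (nat_lit 3) (nat_lit 34) (nat_lit 1) (nat_lit 35) (nat_lit 1) (nat_lit 394) (nat_lit 383) (nat_lit 243)) (XT.lf (nat_lit 0) (nat_lit 326124310) (nat_lit 0) (nat_lit 327047976) (nat_lit 152) (nat_lit 1714127549) (nat_lit 32) (nat_lit 3) (nat_lit 32) (nat_lit 1) (nat_lit 34) (nat_lit 1) (nat_lit 395) (nat_lit 383) (nat_lit 242))) (XT.nd (nat_lit 78) (nat_lit 152) (nat_lit 0) (XT.lf (nat_lit 76) (nat_lit 776882550) (nat_lit 0) (nat_lit 752515787) (nat_lit 76) (nat_lit 777737796) (nat_lit 32) (nat_lit 3) (nat_lit 31) (nat_lit 1) (nat_lit 32) (nat_lit 1) (nat_lit 396) (nat_lit 383) (nat_lit 241)) (XT.lf (nat_lit 0) (nat_lit 425885246) (nat_lit 0) (nat_lit 426639431) (nat_lit 152) (nat_lit 1396282061) (nat_lit 29) (nat_lit 3)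 (nat_lit 29) (nat_lit 1) (nat_lit 31) (nat_lit 1) (nat_lit 397) (nat_lit 383) (nat_lit 240))))))) (XT.nd (nat_lit 1014) (nat_lit 608) (nat_lit 0) (XT.nd (nat_lit 468) (nat_lit 912) (nat_lit 0) (XT.nd (nat_lit 234) (nat_lit 380) (nat_lit 0) (XT.nd (nat_lit 78) (nat_lit 228) (nat_lit 0) (XT.lf (nat_lit 76) (nat_lit 624212025) (nat_lit 0) (nat_lit 942636219) (nat_lit 76) (nat_lit 624910344) (nat_lit 29) (nat_lit 3) (nat_lit 28) (nat_lit 1) (nat_lit 29) (nat_lit 1) (nat_lit 398) (nat_lit 383) (nat_lit 239)) (XT.nd (nat_lit 78) (nat_lit 76) (nat_lit 0) (XT.lf (nat_lit 0) (nat_lit 514574287) (nat_lit 0) (nat_lit 515190089) (nat_lit 152) (nat_lit 1106507862) (nat_lit 26) (nat_lit 3) (nat_lit 26) (nat_lit 1) (nat_lit 28) (nat_lit 1) (nat_lit 399) (nat_lit 383) (nat_lit 238)) (XT.lf (nat_lit 76) (nat_lit 485138829) (nat_lit 0) (nat_lit 1111329682) (nat_lit 76) (nat_lit 485709016) (nat_lit 26) (nat_lit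 3) (nat_lit 25) (nat_lit 1) (nat_lit 26) (nat_lit 1) (nat_lit 400) (nat_lit 383) (nat_lit 237)))) (XT.nd (nat_lit 78) (nat_lit 228) (nat_lit 0) (XT.lf (nat_lit 0) (nat_lit 593065948) (nat_lit 0) (nat_lit 593568759) (nat_lit 152) (nat_lit 842760521) (nat_lit 23) (nat_lit 3) (nat_lit 23) (nat_lit 1) (nat_lit 25) (nat_lit 1) (nat_lit 401) (nat_lit 383) (nat_lit 236)) (XT.nd (nat_lit 78) (nat_lit 152) (nat_lit 0) (XT.lf (nat_lit 76) (nat_lit 358670651) (nat_lit 0) (nat_lit 1260293453) (nat_lit 76) (nat_lit 359136217) (nat_lit 23) (nat_lit 3) (nat_lit 22) (nat_lit 1) (nat_lit 23) (nat_lit 1) (nat_lit 402) (nat_lit 383) (nat_lit 235)) (XT.lf (nat_lit 0) (nat_lit 662173897) (nat_lit 0) (nat_lit 662584449) (nat_lit 152) (nat_lit 603131556) (nat_lit 20) (nat_lit 3) (nat_lit 20) (nat_lit 1) (nat_lit 22) (nat_lit 1) (nat_lit 403) (nat_lit 383) (nat_lit 234))))) (XT.nd (nat_lit 234) (nat_lit 608) (nat_lit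 0) (XT.nd (nat_lit 78) (nat_lit 228) (nat_lit 0) (XT.lf (nat_lit 76) (nat_lit 243880990) (nat_lit 0) (nat_lit 1391107072) (nat_lit 76) (nat_lit 244261130) (nat_lit 20) (nat_lit 3) (nat_lit 19) (nat_lit 1) (nat_lit 20) (nat_lit 1) (nat_lit 404) (nat_lit 383) (nat_lit 233)) (XT.nd (nat_lit 78) (nat_lit 76) (nat_lit 0) (XT.lf (nat_lit 0) (nat_lit 722654936) (nat_lit 0) (nat_lit 722990156) (nat_lit 152) (nat_lit 385839872) (nat_lit 17) (nat_lit 3) (nat_lit 17) (nat_lit 1) (nat_lit 19) (nat_lit 1) (nat_lit 405) (nat_lit 383) (nat_lit 232)) (XT.lf (nat_lit 76) (nat_lit 139905065) (nat_lit 0) (nat_lit 1505239940) (nat_lit 76) (nat_lit 140215455) (nat_lit 17) (nat_lit 3) (nat_lit 16) (nat_lit 1) (nat_lit 17) (nat_lit 1) (nat_lit 406) (nat_lit 383) (nat_lit 231)))) (XT.nd (nat_lit 156) (nat_lit 380) (nat_lit 0) (XT.nd (nat_lit 78) (nat_lit 76) (nat_lit 0) (XT.lf (nat_lit 0) (nat_lit 775212728) (nat_lit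 0) (nat_lit 775486440) (nat_lit 152) (nat_lit 189223729) (nat_lit 14) (nat_lit 3) (nat_lit 14) (nat_lit 1) (nat_lit 16) (nat_lit 1) (nat_lit 407) (nat_lit 383) (nat_lit 230)) (XT.lf (nat_lit 76) (nat_lit 45935964) (nat_lit 0) (nat_lit 1604058448) (nat_lit 76) (nat_lit 46189401) (nat_lit 14) (nat_lit 3) (nat_lit 13) (nat_lit 1) (nat_lit 14) (nat_lit 1) (nat_lit 408) (nat_lit 383) (nat_lit 229))) (XT.nd (nat_lit 78) (nat_lit 228) (nat_lit 0) (XT.lf (nat_lit 0) (nat_lit 820501290) (nat_lit 0) (nat_lit 820724780) (nat_lit 152) (nat_lit 11733184) (nat_lit 11) (nat_lit 3) (nat_lit 11) (nat_lit 1) (nat_lit 13) (nat_lit 1) (nat_lit 409) (nat_lit 383) (nat_lit 228)) (XT.lf (nat_lit 0) (nat_lit 39211003) (nat_lit 0) (nat_lit 39408084) (nat_lit 152) (nat_lit 1532738761) (nat_lit 8) (nat_lit 3) (nat_lit 8) (nat_lit 1) (nat_lit 10) (nat_lit 1) (nat_lit 410) (nat_lit 383) (nat_lit 227)))))) (XT.nd (nat_lit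 40716) (nat_lit 0) (nat_lit 22192) (XT.nd (nat_lit 234) (nat_lit 304) (nat_lit 0) (XT.nd (nat_lit 78) (nat_lit 228) (nat_lit 0) (XT.lf (nat_lit 76) (nat_lit 708543493) (nat_lit 0) (nat_lit 152973100) (nat_lit 76) (nat_lit 708725975) (nat_lit 8) (nat_lit 3) (nat_lit 7) (nat_lit 1) (nat_lit 8) (nat_lit 1) (nat_lit 411) (nat_lit 383) (nat_lit 226)) (XT.nd (nat_lit 78) (nat_lit 76) (nat_lit 0) (XT.lf (nat_lit 0) (nat_lit 116659601) (nat_lit 0) (nat_lit 116820520) (nat_lit 152) (nat_lit 1297180611) (nat_lit 5) (nat_lit 3) (nat_lit 5) (nat_lit 1) (nat_lit 7) (nat_lit 1) (nat_lit 412) (nat_lit 383) (nat_lit 225)) (XT.lf (nat_lit 76) (nat_lit 595166278) (nat_lit 0) (nat_lit 301194136) (nat_lit 76) (nat_lit 595315277) (nat_lit 5) (nat_lit 3) (nat_lit 4) (nat_lit 1) (nat_lit 5) (nat_lit 1) (nat_lit 413) (nat_lit 383) (nat_lit 224)))) (XT.nd (nat_lit 156) (nat_lit 76) (nat_lit 0) (XT.nd (nat_lit 78) (nat_lit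 76) (nat_lit 0) (XT.lf (nat_lit 0) (nat_lit 186073808) (nat_lit 0) (nat_lit 186205201) (nat_lit 152) (nat_lit 1081744645) (nat_lit 2) (nat_lit 3) (nat_lit 2) (nat_lit 1) (nat_lit 4) (nat_lit 1) (nat_lit 414) (nat_lit 383) (nat_lit 223)) (XT.lf (nat_lit 76) (nat_lit 491548700) (nat_lit 0) (nat_lit 433838905) (nat_lit 76) (nat_lit 491670360) (nat_lit 2) (nat_lit 3) (nat_lit 1) (nat_lit 1) (nat_lit 2) (nat_lit 1) (nat_lit 415) (nat_lit 383) (nat_lit 222))) (XT.nd (nat_lit 78) (nat_lit 0) (nat_lit 0) (XT.lf (nat_lit 0) (nat_lit 29384819507) (nat_lit 0) (nat_lit 0) (nat_lit 0) (nat_lit 0) (nat_lit 0) (nat_lit 0) (nat_lit 1) (nat_lit 0) (nat_lit 1) (nat_lit 0) (nat_lit 416) (nat_lit 383) (nat_lit 221)) (XT.lf (nat_lit 0) (nat_lit 29384811129) (nat_lit 0) (nat_lit 0) (nat_lit 0) (nat_lit 0) (nat_lit 0) (nat_lit 0) (nat_lit 1) (nat_lit 0) (nat_lit 1) (nat_lit 0) (nat_lit 417) (nat_lit 383) (nat_lit 220)))))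 (XT.nd (nat_lit 234) (nat_lit 0) (nat_lit 152) (XT.nd (nat_lit 78) (nat_lit 0) (nat_lit 76) (XT.lf (nat_lit 836) (nat_lit 15881624386) (nat_lit 0) (nat_lit 28197787593) (nat_lit 836) (nat_lit 15881624386) (nat_lit 303) (nat_lit 1) (nat_lit 292) (nat_lit 0) (nat_lit 303) (nat_lit 0) (nat_lit 252) (nat_lit 384) (nat_lit 384)) (XT.nd (nat_lit 78) (nat_lit 0) (nat_lit 0) (XT.lf (nat_lit 836) (nat_lit 5924333210) (nat_lit 0) (nat_lit 55360803126) (nat_lit 760) (nat_lit 54142680501) (nat_lit 304) (nat_lit 1) (nat_lit 293) (nat_lit 1) (nat_lit 303) (nat_lit 1) (nat_lit 253) (nat_lit 384) (nat_lit 383)) (XT.lf (nat_lit 836) (nat_lit 54411580961) (nat_lit 76) (nat_lit 37075148514) (nat_lit 0) (nat_lit 19662967548) (nat_lit 304) (nat_lit 1) (nat_lit 294) (nat_lit 1) (nat_lit 293) (nat_lit 1) (nat_lit 254) (nat_lit 384) (nat_lit 382)))) (XT.nd (nat_lit 156) (nat_lit 0) (nat_lit 152) (XT.nd (nat_lit 78)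 (nat_lit 0) (nat_lit 76) (XT.lf (nat_lit 836) (nat_lit 47016063411) (nat_lit 76) (nat_lit 15537937761) (nat_lit 0) (nat_lit 44531664004) (nat_lit 305) (nat_lit 1) (nat_lit 295) (nat_lit 1) (nat_lit 294) (nat_lit 1) (nat_lit 255) (nat_lit 384) (nat_lit 381)) (XT.lf (nat_lit 836) (nat_lit 34795884091) (nat_lit 0) (nat_lit 65101454405) (nat_lit 760) (nat_lit 3327977048) (nat_lit 306) (nat_lit 1) (nat_lit 295) (nat_lit 1) (nat_lit 305) (nat_lit 1) (nat_lit 256) (nat_lit 384) (nat_lit 380))) (XT.nd (nat_lit 78) (nat_lit 0) (nat_lit 0) (XT.lf (nat_lit 836) (nat_lit 8348931223) (nat_lit 0) (nat_lit 71792439367) (nat_lit 760) (nat_lit 19407954038) (nat_lit 307) (nat_lit 1) (nat_lit 296) (nat_lit 1) (nat_lit 306) (nat_lit 1) (nat_lit 257) (nat_lit 384) (nat_lit 379)) (XT.lf (nat_lit 836) (nat_lit 16043250013) (nat_lit 76) (nat_lit 62393476119) (nat_lit 0) (nat_lit 17608208750) (nat_lit 307) (nat_lit 1)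 (nat_lit 297) (nat_lit 1) (nat_lit 296) (nat_lit 1) (nat_lit 258) (nat_lit 384) (nat_lit 378))))))))
noncomputable def ec126 : XT := (XT.nd (nat_lit 2028) (nat_lit 3496) (nat_lit 0) (XT.nd (nat_lit 1014) (nat_lit 2432) (nat_lit 0) (XT.nd (nat_lit 468) (nat_lit 2052) (nat_lit 0) (XT.nd (nat_lit 234) (nat_lit 684) (nat_lit 0) (XT.nd (nat_lit 78) (nat_lit 912) (nat_lit 0) (XT.lf (nat_lit 836) (nat_lit 3294917717) (nat_lit 0) (nat_lit 46643250569) (nat_lit 760) (nat_lit 42771372051) (nat_lit 298) (nat_lit 1) (nat_lit 287) (nat_lit 1) (nat_lit 297) (nat_lit 1) (nat_lit 259) (nat_lit 384) (nat_lit 377)) (XT.nd (nat_lit 78) (nat_lit 380) (nat_lit 0) (XT.lf (nat_lit 76) (nat_lit 22814696635) (nat_lit 0) (nat_lit 9886669762) (nat_lit 532) (nat_lit 56830707105) (nat_lit 281) (nat_lit 1) (nat_lit 280) (nat_lit 1) (nat_lit 287) (nat_lit 1) (nat_lit 260) (nat_lit 384) (nat_lit 376)) (XT.lf (nat_lit 456) (nat_lit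 62874432315) (nat_lit 0) (nat_lit 20466983181) (nat_lit 380) (nat_lit 3164322063) (nat_lit 281) (nat_lit 1) (nat_lit 275) (nat_lit 1) (nat_lit 280) (nat_lit 1) (nat_lit 261) (nat_lit 384) (nat_lit 375)))) (XT.nd (nat_lit 78) (nat_lit 304) (nat_lit 0) (XT.lf (nat_lit 456) (nat_lit 45370789094) (nat_lit 0) (nat_lit 9539749025) (nat_lit 380) (nat_lit 28698990531) (nat_lit 276) (nat_lit 1) (nat_lit 270) (nat_lit 1) (nat_lit 275) (nat_lit 1) (nat_lit 262) (nat_lit 384) (nat_lit 374)) (XT.nd (nat_lit 78) (nat_lit 0) (nat_lit 0) (XT.lf (nat_lit 380) (nat_lit 27607546507) (nat_lit 0) (nat_lit 175642282) (nat_lit 304) (nat_lit 53070561825) (nat_lit 271) (nat_lit 1) (nat_lit 266) (nat_lit 1) (nat_lit 270) (nat_lit 1) (nat_lit 263) (nat_lit 384) (nat_lit 373)) (XT.lf (nat_lit 76) (nat_lit 2036754308) (nat_lit 0) (nat_lit 68689224543) (nat_lit 380) (nat_lit 7498764437) (nat_lit 267) (nat_lit 1) (nat_lit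 266) (nat_lit 1) (nat_lit 271) (nat_lit 1) (nat_lit 264) (nat_lit 384) (nat_lit 372))))) (XT.nd (nat_lit 234) (nat_lit 1064) (nat_lit 0) (XT.nd (nat_lit 78) (nat_lit 608) (nat_lit 0) (XT.lf (nat_lit 76) (nat_lit 52589524516) (nat_lit 0) (nat_lit 8722535345) (nat_lit 380) (nat_lit 14385044917) (nat_lit 262) (nat_lit 1) (nat_lit 261) (nat_lit 1) (nat_lit 266) (nat_lit 1) (nat_lit 265) (nat_lit 384) (nat_lit 371)) (XT.nd (nat_lit 78) (nat_lit 304) (nat_lit 0) (XT.lf (nat_lit 76) (nat_lit 26311871768) (nat_lit 0) (nat_lit 26718674154) (nat_lit 380) (nat_lit 20250604302) (nat_lit 258) (nat_lit 1) (nat_lit 257) (nat_lit 1) (nat_lit 262) (nat_lit 1) (nat_lit 266) (nat_lit 384) (nat_lit 370)) (XT.lf (nat_lit 76) (nat_lit 1298695644) (nat_lit 0) (nat_lit 44673208304) (nat_lit 380) (nat_lit 25007679186) (nat_lit 254) (nat_lit 1) (nat_lit 253) (nat_lit 1) (nat_lit 258) (nat_lit 1) (nat_lit 267) (nat_lit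 384) (nat_lit 369)))) (XT.nd (nat_lit 156) (nat_lit 456) (nat_lit 0) (XT.nd (nat_lit 78) (nat_lit 380) (nat_lit 0) (XT.lf (nat_lit 304) (nat_lit 5864836338) (nat_lit 0) (nat_lit 39661080838) (nat_lit 228) (nat_lit 23242304882) (nat_lit 254) (nat_lit 1) (nat_lit 250) (nat_lit 1) (nat_lit 253) (nat_lit 1) (nat_lit 268) (nat_lit 384) (nat_lit 368)) (XT.lf (nat_lit 76) (nat_lit 20264586367) (nat_lit 0) (nat_lit 13889473414) (nat_lit 380) (nat_lit 32494156536) (nat_lit 246) (nat_lit 1) (nat_lit 245) (nat_lit 1) (nat_lit 250) (nat_lit 1) (nat_lit 269) (nat_lit 384) (nat_lit 367))) (XT.nd (nat_lit 78) (nat_lit 228) (nat_lit 0) (XT.lf (nat_lit 304) (nat_lit 31374453961) (nat_lit 0) (nat_lit 29472244444) (nat_lit 228) (nat_lit 3772412310) (nat_lit 246) (nat_lit 1) (nat_lit 242) (nat_lit 1) (nat_lit 245) (nat_lit 1) (nat_lit 270) (nat_lit 384) (nat_lit 366)) (XT.lf (nat_lit 304) (nat_lit 10055360922) (nat_lit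 0) (nat_lit 25374395589) (nat_lit 228) (nat_lit 27238227696) (nat_lit 243) (nat_lit 1) (nat_lit 239) (nat_lit 1) (nat_lit 242) (nat_lit 1) (nat_lit 271) (nat_lit 384) (nat_lit 365)))))) (XT.nd (nat_lit 468) (nat_lit 1064) (nat_lit 0) (XT.nd (nat_lit 234) (nat_lit 684) (nat_lit 0) (XT.nd (nat_lit 78) (nat_lit 380) (nat_lit 0) (XT.lf (nat_lit 76) (nat_lit 11460681752) (nat_lit 0) (nat_lit 10493250100) (nat_lit 304) (nat_lit 38843959806) (nat_lit 236) (nat_lit 1) (nat_lit 235) (nat_lit 1) (nat_lit 239) (nat_lit 1) (nat_lit 272) (nat_lit 384) (nat_lit 364)) (XT.nd (nat_lit 78) (nat_lit 152) (nat_lit 0) (XT.lf (nat_lit 304) (nat_lit 28518402331) (nat_lit 0) (nat_lit 18975088100) (nat_lit 228) (nat_lit 11502760793) (nat_lit 236) (nat_lit 1) (nat_lit 232) (nat_lit 1) (nat_lit 235) (nat_lit 1) (nat_lit 273) (nat_lit 384) (nat_lit 363)) (XT.lf (nat_lit 228) (nat_lit 7069754047) (nat_lit 0) (nat_lit 16554380321)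 (nat_lit 152) (nat_lit 33643159624) (nat_lit 233) (nat_lit 1) (nat_lit 230) (nat_lit 1) (nat_lit 232) (nat_lit 1) (nat_lit 274) (nat_lit 384) (nat_lit 362)))) (XT.nd (nat_lit 78) (nat_lit 380) (nat_lit 0) (XT.lf (nat_lit 76) (nat_lit 1197661502) (nat_lit 0) (nat_lit 13402092214) (nat_lit 304) (nat_lit 41005601980) (nat_lit 227) (nat_lit 1) (nat_lit 226) (nat_lit 1) (nat_lit 230) (nat_lit 1) (nat_lit 275) (nat_lit 384) (nat_lit 361)) (XT.nd (nat_lit 78) (nat_lit 228) (nat_lit 0) (XT.lf (nat_lit 228) (nat_lit 20543408052) (nat_lit 0) (nat_lit 12837867617) (nat_lit 152) (nat_lit 20614899319) (nat_lit 227) (nat_lit 1) (nat_lit 224) (nat_lit 1) (nat_lit 226) (nat_lit 1) (nat_lit 276) (nat_lit 384) (nat_lit 360)) (XT.lf (nat_lit 76) (nat_lit 11145994695) (nat_lit 0) (nat_lit 514840482) (nat_lit 228) (nat_lit 40796378204) (nat_lit 222) (nat_lit 1) (nat_lit 221) (nat_lit 1) (nat_lit 224) (nat_lit 1)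 (nat_lit 277) (nat_lit 384) (nat_lit 359))))) (XT.nd (nat_lit 234) (nat_lit 532) (nat_lit 0) (XT.nd (nat_lit 78) (nat_lit 380) (nat_lit 0) (XT.lf (nat_lit 228) (nat_lit 30470997153) (nat_lit 0) (nat_lit 10558883730) (nat_lit 152) (nat_lit 9933138188) (nat_lit 222) (nat_lit 1) (nat_lit 219) (nat_lit 1) (nat_lit 221) (nat_lit 1) (nat_lit 278) (nat_lit 384) (nat_lit 358)) (XT.nd (nat_lit 78) (nat_lit 228) (nat_lit 0) (XT.lf (nat_lit 228) (nat_lit 9465512774) (nat_lit 0) (nat_lit 9815650046) (nat_lit 152) (nat_lit 30244791530) (nat_lit 220) (nat_lit 1) (nat_lit 217) (nat_lit 1) (nat_lit 219) (nat_lit 1) (nat_lit 279) (nat_lit 384) (nat_lit 357)) (XT.lf (nat_lit 228) (nat_lit 37574607039) (nat_lit 0) (nat_lit 9378056931) (nat_lit 152) (nat_lit 1189715322) (nat_lit 217) (nat_lit 1) (nat_lit 214) (nat_lit 1) (nat_lit 216) (nat_lit 1) (nat_lit 280) (nat_lit 384) (nat_lit 356)))) (XT.nd (nat_lit 156)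 (nat_lit 228) (nat_lit 0) (XT.nd (nat_lit 78) (nat_lit 152) (nat_lit 0) (XT.lf (nat_lit 228) (nat_lit 16816652674) (nat_lit 0) (nat_lit 8952882588) (nat_lit 152) (nat_lit 21027714156) (nat_lit 215) (nat_lit 1) (nat_lit 212) (nat_lit 1) (nat_lit 214) (nat_lit 1) (nat_lit 281) (nat_lit 384) (nat_lit 355)) (XT.lf (nat_lit 76) (nat_lit 5760352813) (nat_lit 0) (nat_lit 3166149475) (nat_lit 152) (nat_lit 36581409768) (nat_lit 211) (nat_lit 1) (nat_lit 210) (nat_lit 1) (nat_lit 212) (nat_lit 1) (nat_lit 282) (nat_lit 384) (nat_lit 354))) (XT.nd (nat_lit 78) (nat_lit 76) (nat_lit 0) (XT.lf (nat_lit 228) (nat_lit 22064415446) (nat_lit 0) (nat_lit 8831980566) (nat_lit 152) (nat_lit 13354713884) (nat_lit 211) (nat_lit 1) (nat_lit 208) (nat_lit 1) (nat_lit 210) (nat_lit 1) (nat_lit 283) (nat_lit 384) (nat_lit 353)) (XT.lf (nat_lit 152) (nat_lit 2376024012) (nat_lit 0) (nat_lit 9048905422) (nat_lit 76) (nat_lit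 31618995234) (nat_lit 209) (nat_lit 1) (nat_lit 207) (nat_lit 1) (nat_lit 208) (nat_lit 1) (nat_lit 284) (nat_lit 384) (nat_lit 352))))))) (XT.nd (nat_lit 1014) (nat_lit 1672) (nat_lit 0) (XT.nd (nat_lit 468) (nat_lit 912) (nat_lit 0) (XT.nd (nat_lit 234) (nat_lit 380) (nat_lit 0) (XT.nd (nat_lit 78) (nat_lit 304) (nat_lit 0) (XT.lf (nat_lit 228) (nat_lit 25648301995) (nat_lit 0) (nat_lit 9254615516) (nat_lit 152) (nat_lit 6967107754) (nat_lit 207) (nat_lit 1) (nat_lit 204) (nat_lit 1) (nat_lit 206) (nat_lit 1) (nat_lit 285) (nat_lit 384) (nat_lit 351)) (XT.nd (nat_lit 78) (nat_lit 228) (nat_lit 0) (XT.lf (nat_lit 152) (nat_lit 6450737081) (nat_lit 0) (nat_lit 9600654915) (nat_lit 76) (nat_lit 24684296632) (nat_lit 205) (nat_lit 1) (nat_lit 203) (nat_lit 1) (nat_lit 204) (nat_lit 1) (nat_lit 286) (nat_lit 384) (nat_lit 350)) (XT.lf (nat_lit 228) (nat_lit 27923654415) (nat_lit 0) (nat_lit 10063697342)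 (nat_lit 152) (nat_lit 1651538884) (nat_lit 203) (nat_lit 1) (nat_lit 200) (nat_lit 1) (nat_lit 202) (nat_lit 1) (nat_lit 287) (nat_lit 384) (nat_lit 349)))) (XT.nd (nat_lit 78) (nat_lit 304) (nat_lit 0) (XT.lf (nat_lit 152) (nat_lit 9283495650) (nat_lit 0) (nat_lit 10491525407) (nat_lit 76) (nat_lit 18796473822) (nat_lit 201) (nat_lit 1) (nat_lit 199) (nat_lit 1) (nat_lit 200) (nat_lit 1) (nat_lit 288) (nat_lit 384) (nat_lit 348)) (XT.nd (nat_lit 78) (nat_lit 76) (nat_lit 0) (XT.lf (nat_lit 76) (nat_lit 2679586293) (nat_lit 0) (nat_lit 8410507101) (nat_lit 228) (nat_lit 26452351988) (nat_lit 197) (nat_lit 1) (nat_lit 196) (nat_lit 1) (nat_lit 199) (nat_lit 1) (nat_lit 289) (nat_lit 384) (nat_lit 347)) (XT.lf (nat_lit 152) (nat_lit 11141032362) (nat_lit 0) (nat_lit 11608427648) (nat_lit 76) (nat_lit 13789491686) (nat_lit 197) (nat_lit 1) (nat_lit 195) (nat_lit 1) (nat_lit 196) (nat_lit 1) (nat_lit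 290) (nat_lit 384) (nat_lit 346))))) (XT.nd (nat_lit 234) (nat_lit 456) (nat_lit 0) (XT.nd (nat_lit 78) (nat_lit 228) (nat_lit 0) (XT.lf (nat_lit 76) (nat_lit 6231719974) (nat_lit 0) (nat_lit 6035842182) (nat_lit 228) (nat_lit 23303161080) (nat_lit 193) (nat_lit 1) (nat_lit 192) (nat_lit 1) (nat_lit 195) (nat_lit 1) (nat_lit 291) (nat_lit 384) (nat_lit 345)) (XT.nd (nat_lit 78) (nat_lit 152) (nat_lit 0) (XT.lf (nat_lit 152) (nat_lit 12238449048) (nat_lit 0) (nat_lit 12863082716) (nat_lit 76) (nat_lit 9525700883) (nat_lit 193) (nat_lit 1) (nat_lit 191) (nat_lit 1) (nat_lit 192) (nat_lit 1) (nat_lit 292) (nat_lit 384) (nat_lit 344)) (XT.lf (nat_lit 76) (nat_lit 9174532825) (nat_lit 0) (nat_lit 4371500732) (nat_lit 152) (nat_lit 20168867645) (nat_lit 190) (nat_lit 1) (nat_lit 189) (nat_lit 1) (nat_lit 191) (nat_lit 1) (nat_lit 293) (nat_lit 384) (nat_lit 343)))) (XT.nd (nat_lit 156) (nat_lit 228)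 (nat_lit 0) (XT.nd (nat_lit 78) (nat_lit 152) (nat_lit 0) (XT.lf (nat_lit 152) (nat_lit 12748864296) (nat_lit 0) (nat_lit 14187186587) (nat_lit 76) (nat_lit 5890774415) (nat_lit 190) (nat_lit 1) (nat_lit 188) (nat_lit 1) (nat_lit 189) (nat_lit 1) (nat_lit 294) (nat_lit 384) (nat_lit 342)) (XT.lf (nat_lit 76) (nat_lit 11604930991) (nat_lit 0) (nat_lit 3261196547) (nat_lit 152) (nat_lit 17099938143) (nat_lit 187) (nat_lit 1) (nat_lit 186) (nat_lit 1) (nat_lit 188) (nat_lit 1) (nat_lit 295) (nat_lit 384) (nat_lit 341))) (XT.nd (nat_lit 78) (nat_lit 152) (nat_lit 0) (XT.lf (nat_lit 152) (nat_lit 12811280019) (nat_lit 0) (nat_lit 15528480351) (nat_lit 76) (nat_lit 2789563842) (nat_lit 187) (nat_lit 1) (nat_lit 185) (nat_lit 1) (nat_lit 186) (nat_lit 1) (nat_lit 296) (nat_lit 384) (nat_lit 340)) (XT.lf (nat_lit 76) (nat_lit 13603454292) (nat_lit 0) (nat_lit 2579260990) (nat_lit 152) (nat_lit 14133599842)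 (nat_lit 184) (nat_lit 1) (nat_lit 183) (nat_lit 1) (nat_lit 185) (nat_lit 1) (nat_lit 297) (nat_lit 384) (nat_lit 339)))))) (XT.nd (nat_lit 546) (nat_lit 912) (nat_lit 0) (XT.nd (nat_lit 234) (nat_lit 456) (nat_lit 0) (XT.nd (nat_lit 78) (nat_lit 228) (nat_lit 0) (XT.lf (nat_lit 152) (nat_lit 12536994462) (nat_lit 0) (nat_lit 16847558728) (nat_lit 76) (nat_lit 142706989) (nat_lit 184) (nat_lit 1) (nat_lit 182) (nat_lit 1) (nat_lit 183) (nat_lit 1) (nat_lit 298) (nat_lit 384) (nat_lit 338)) (XT.nd (nat_lit 78) (nat_lit 76) (nat_lit 0) (XT.lf (nat_lit 76) (nat_lit 15237173221) (nat_lit 0) (nat_lit 2224893996) (nat_lit 152) (nat_lit 11296538730) (nat_lit 181) (nat_lit 1) (nat_lit 180) (nat_lit 1) (nat_lit 182) (nat_lit 1) (nat_lit 299) (nat_lit 384) (nat_lit 337)) (XT.lf (nat_lit 0) (nat_lit 2048420160) (nat_lit 0) (nat_lit 16032169210) (nat_lit 152) (nat_lit 9931717821) (nat_lit 179) (nat_lit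 3) (nat_lit 179) (nat_lit 1) (nat_lit 181) (nat_lit 1) (nat_lit 300) (nat_lit 384) (nat_lit 336)))) (XT.nd (nat_lit 156) (nat_lit 228) (nat_lit 0) (XT.nd (nat_lit 78) (nat_lit 76) (nat_lit 0) (XT.lf (nat_lit 76) (nat_lit 16562061548) (nat_lit 0) (nat_lit 2117478298) (nat_lit 152) (nat_lit 8607085274) (nat_lit 178) (nat_lit 1) (nat_lit 177) (nat_lit 1) (nat_lit 179) (nat_lit 1) (nat_lit 301) (nat_lit 384) (nat_lit 335)) (XT.lf (nat_lit 0) (nat_lit 3913240327) (nat_lit 0) (nat_lit 15331155484) (nat_lit 152) (nat_lit 7335873791) (nat_lit 176) (nat_lit 3) (nat_lit 176) (nat_lit 1) (nat_lit 178) (nat_lit 1) (nat_lit 302) (nat_lit 384) (nat_lit 334))) (XT.nd (nat_lit 78) (nat_lit 76) (nat_lit 0) (XT.lf (nat_lit 76) (nat_lit 17624940288) (nat_lit 0) (nat_lit 2192761282) (nat_lit 152) (nat_lit 6076983033) (nat_lit 175) (nat_lit 1) (nat_lit 174) (nat_lit 1) (nat_lit 176) (nat_lit 1) (nat_lit 303) (nat_lit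 384) (nat_lit 333)) (XT.lf (nat_lit 0) (nat_lit 5501580399) (nat_lit 0) (nat_lit 14824458410) (nat_lit 152) (nat_lit 4899769426) (nat_lit 173) (nat_lit 3) (nat_lit 173) (nat_lit 1) (nat_lit 175) (nat_lit 1) (nat_lit 304) (nat_lit 384) (nat_lit 332))))) (XT.nd (nat_lit 234) (nat_lit 532) (nat_lit 0) (XT.nd (nat_lit 78) (nat_lit 228) (nat_lit 0) (XT.lf (nat_lit 76) (nat_lit 18465071253) (nat_lit 0) (nat_lit 2399744775) (nat_lit 152) (nat_lit 3712817664) (nat_lit 172) (nat_lit 1) (nat_lit 171) (nat_lit 1) (nat_lit 173) (nat_lit 1) (nat_lit 305) (nat_lit 384) (nat_lit 331)) (XT.nd (nat_lit 78) (nat_lit 152) (nat_lit 0) (XT.lf (nat_lit 0) (nat_lit 6851598606) (nat_lit 0) (nat_lit 14463851211) (nat_lit 152) (nat_lit 2628529544) (nat_lit 170) (nat_lit 3) (nat_lit 170) (nat_lit 1) (nat_lit 172) (nat_lit 1) (nat_lit 306) (nat_lit 384) (nat_lit 330)) (XT.lf (nat_lit 76) (nat_lit 19115464094) (nat_lit 0)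 (nat_lit 2698152427) (nat_lit 152) (nat_lit 1517169565) (nat_lit 169) (nat_lit 1) (nat_lit 168) (nat_lit 1) (nat_lit 170) (nat_lit 1) (nat_lit 307) (nat_lit 384) (nat_lit 329)))) (XT.nd (nat_lit 156) (nat_lit 228) (nat_lit 0) (XT.nd (nat_lit 78) (nat_lit 228) (nat_lit 0) (XT.lf (nat_lit 0) (nat_lit 7995567707) (nat_lit 0) (nat_lit 14211072153) (nat_lit 152) (nat_lit 523638222) (nat_lit 167) (nat_lit 3) (nat_lit 167) (nat_lit 1) (nat_lit 169) (nat_lit 1) (nat_lit 308) (nat_lit 384) (nat_lit 328)) (XT.lf (nat_lit 152) (nat_lit 19084845883) (nat_lit 0) (nat_lit 527336314) (nat_lit 76) (nat_lit 2537265160) (nat_lit 166) (nat_lit 1) (nat_lit 164) (nat_lit 1) (nat_lit 165) (nat_lit 1) (nat_lit 309) (nat_lit 384) (nat_lit 327))) (XT.nd (nat_lit 78) (nat_lit 152) (nat_lit 0) (XT.lf (nat_lit 76) (nat_lit 7520682793) (nat_lit 0) (nat_lit 1463032657) (nat_lit 76) (nat_lit 12595723983) (nat_lit 164) (nat_lit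 3) (nat_lit 163) (nat_lit 1) (nat_lit 164) (nat_lit 1) (nat_lit 310) (nat_lit 384) (nat_lit 326)) (XT.lf (nat_lit 152) (nat_lit 17540976554) (nat_lit 0) (nat_lit 2451353678) (nat_lit 76) (nat_lit 1036678463) (nat_lit 163) (nat_lit 1) (nat_lit 161) (nat_lit 1) (nat_lit 162) (nat_lit 1) (nat_lit 311) (nat_lit 384) (nat_lit 325))))))))
noncomputable def ec127 : XT := (XT.nd (nat_lit 2106) (nat_lit 3192) (nat_lit 0) (XT.nd (nat_lit 1014) (nat_lit 1748) (nat_lit 0) (XT.nd (nat_lit 468) (nat_lit 760) (nat_lit 0) (XT.nd (nat_lit 234) (nat_lit 380) (nat_lit 0) (XT.nd (nat_lit 78) (nat_lit 228) (nat_lit 0) (XT.lf (nat_lit 76) (nat_lit 6522329522) (nat_lit 0) (nat_lit 3300028194) (nat_lit 76) (nat_lit 10666167452) (nat_lit 161) (nat_lit 3) (nat_lit 160) (nat_lit 1) (nat_lit 161) (nat_lit 1) (nat_lit 312) (nat_lit 384) (nat_lit 324)) (XT.nd (nat_lit 78) (nat_lit 76) (nat_lit 0) (XT.lf (nat_lit 0) (nat_lit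 275296690) (nat_lit 0) (nat_lit 3929474759) (nat_lit 152) (nat_lit 15762076149) (nat_lit 158) (nat_lit 3) (nat_lit 158) (nat_lit 1) (nat_lit 160) (nat_lit 1) (nat_lit 313) (nat_lit 384) (nat_lit 323)) (XT.lf (nat_lit 76) (nat_lit 5547904691) (nat_lit 0) (nat_lit 4975152003) (nat_lit 76) (nat_lit 8931402903) (nat_lit 158) (nat_lit 3) (nat_lit 157) (nat_lit 1) (nat_lit 158) (nat_lit 1) (nat_lit 314) (nat_lit 384) (nat_lit 322)))) (XT.nd (nat_lit 78) (nat_lit 228) (nat_lit 0) (XT.lf (nat_lit 0) (nat_lit 1400098593) (nat_lit 0) (nat_lit 4383783083) (nat_lit 152) (nat_lit 13175268092) (nat_lit 155) (nat_lit 3) (nat_lit 155) (nat_lit 1) (nat_lit 157) (nat_lit 1) (nat_lit 315) (nat_lit 384) (nat_lit 321)) (XT.nd (nat_lit 78) (nat_lit 152) (nat_lit 0) (XT.lf (nat_lit 76) (nat_lit 4608330580) (nat_lit 0) (nat_lit 6494672556) (nat_lit 76) (nat_lit 7371001404) (nat_lit 155) (nat_lit 3) (nat_lit 154) (nat_lit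 1) (nat_lit 155) (nat_lit 1) (nat_lit 316) (nat_lit 384) (nat_lit 320)) (XT.lf (nat_lit 0) (nat_lit 2388048712) (nat_lit 0) (nat_lit 4824266370) (nat_lit 152) (nat_lit 10791286956) (nat_lit 152) (nat_lit 3) (nat_lit 152) (nat_lit 1) (nat_lit 154) (nat_lit 1) (nat_lit 317) (nat_lit 384) (nat_lit 319))))) (XT.nd (nat_lit 234) (nat_lit 456) (nat_lit 0) (XT.nd (nat_lit 78) (nat_lit 228) (nat_lit 0) (XT.lf (nat_lit 76) (nat_lit 3711372753) (nat_lit 0) (nat_lit 7865650704) (nat_lit 76) (nat_lit 5967129844) (nat_lit 152) (nat_lit 3) (nat_lit 151) (nat_lit 1) (nat_lit 152) (nat_lit 1) (nat_lit 318) (nat_lit 384) (nat_lit 318)) (XT.nd (nat_lit 78) (nat_lit 76) (nat_lit 0) (XT.lf (nat_lit 0) (nat_lit 3254070886) (nat_lit 0) (nat_lit 5243274670) (nat_lit 152) (nat_lit 8599955159) (nat_lit 149) (nat_lit 3) (nat_lit 149) (nat_lit 1) (nat_lit 151) (nat_lit 1) (nat_lit 319) (nat_lit 384) (nat_lit 317)) (XT.lf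 (nat_lit 76) (nat_lit 2862297363) (nat_lit 0) (nat_lit 9095656487) (nat_lit 76) (nat_lit 4704152718) (nat_lit 149) (nat_lit 3) (nat_lit 148) (nat_lit 1) (nat_lit 149) (nat_lit 1) (nat_lit 320) (nat_lit 384) (nat_lit 316)))) (XT.nd (nat_lit 156) (nat_lit 228) (nat_lit 0) (XT.nd (nat_lit 78) (nat_lit 76) (nat_lit 0) (XT.lf (nat_lit 0) (nat_lit 4011212373) (nat_lit 0) (nat_lit 5635423444) (nat_lit 152) (nat_lit 6590902860) (nat_lit 146) (nat_lit 3) (nat_lit 146) (nat_lit 1) (nat_lit 148) (nat_lit 1) (nat_lit 321) (nat_lit 384) (nat_lit 315)) (XT.lf (nat_lit 76) (nat_lit 2064402852) (nat_lit 0) (nat_lit 10192546961) (nat_lit 76) (nat_lit 3568301992) (nat_lit 146) (nat_lit 3) (nat_lit 145) (nat_lit 1) (nat_lit 146) (nat_lit 1) (nat_lit 322) (nat_lit 384) (nat_lit 314))) (XT.nd (nat_lit 78) (nat_lit 76) (nat_lit 0) (XT.lf (nat_lit 0) (nat_lit 4670926502) (nat_lit 0) (nat_lit 5997116220) (nat_lit 152)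 (nat_lit 4753743614) (nat_lit 143) (nat_lit 3) (nat_lit 143) (nat_lit 1) (nat_lit 145) (nat_lit 1) (nat_lit 323) (nat_lit 384) (nat_lit 313)) (XT.lf (nat_lit 76) (nat_lit 1319449415) (nat_lit 0) (nat_lit 11164293256) (nat_lit 76) (nat_lit 2547402858) (nat_lit 143) (nat_lit 3) (nat_lit 142) (nat_lit 1) (nat_lit 143) (nat_lit 1) (nat_lit 324) (nat_lit 384) (nat_lit 312)))))) (XT.nd (nat_lit 546) (nat_lit 836) (nat_lit 0) (XT.nd (nat_lit 234) (nat_lit 532) (nat_lit 0) (XT.nd (nat_lit 78) (nat_lit 228) (nat_lit 0) (XT.lf (nat_lit 0) (nat_lit 5243307543) (nat_lit 0) (nat_lit 6326158903) (nat_lit 152) (nat_lit 3078208808) (nat_lit 140) (nat_lit 3) (nat_lit 140) (nat_lit 1) (nat_lit 142) (nat_lit 1) (nat_lit 325) (nat_lit 384) (nat_lit 311)) (XT.nd (nat_lit 78) (nat_lit 152) (nat_lit 0) (XT.lf (nat_lit 76) (nat_lit 628005268) (nat_lit 0) (nat_lit 12018847316) (nat_lit 76) (nat_lit 1630645417) (nat_lit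 140) (nat_lit 3) (nat_lit 139) (nat_lit 1) (nat_lit 140) (nat_lit 1) (nat_lit 326) (nat_lit 384) (nat_lit 310)) (XT.lf (nat_lit 0) (nat_lit 5737286276) (nat_lit 0) (nat_lit 6621448664) (nat_lit 152) (nat_lit 1554248966) (nat_lit 137) (nat_lit 3) (nat_lit 137) (nat_lit 1) (nat_lit 139) (nat_lit 1) (nat_lit 327) (nat_lit 384) (nat_lit 309)))) (XT.nd (nat_lit 156) (nat_lit 304) (nat_lit 0) (XT.nd (nat_lit 78) (nat_lit 76) (nat_lit 0) (XT.lf (nat_lit 76) (nat_lit 12753926211) (nat_lit 0) (nat_lit 9945884) (nat_lit 152) (nat_lit 798279814) (nat_lit 136) (nat_lit 1) (nat_lit 135) (nat_lit 1) (nat_lit 137) (nat_lit 1) (nat_lit 328) (nat_lit 384) (nat_lit 308)) (XT.lf (nat_lit 0) (nat_lit 6160793261) (nat_lit 0) (nat_lit 6882723489) (nat_lit 152) (nat_lit 172108558) (nat_lit 134) (nat_lit 3) (nat_lit 134) (nat_lit 1) (nat_lit 136) (nat_lit 1) (nat_lit 329) (nat_lit 384) (nat_lit 307))) (XT.nd (nat_lit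 78) (nat_lit 76) (nat_lit 0) (XT.lf (nat_lit 152) (nat_lit 12296585867) (nat_lit 0) (nat_lit 532116279) (nat_lit 76) (nat_lit 53527717) (nat_lit 133) (nat_lit 1) (nat_lit 131) (nat_lit 1) (nat_lit 132) (nat_lit 1) (nat_lit 330) (nat_lit 384) (nat_lit 306)) (XT.lf (nat_lit 76) (nat_lit 5425025106) (nat_lit 0) (nat_lit 1113251355) (nat_lit 76) (nat_lit 6014490640) (nat_lit 131) (nat_lit 3) (nat_lit 130) (nat_lit 1) (nat_lit 131) (nat_lit 1) (nat_lit 331) (nat_lit 384) (nat_lit 305))))) (XT.nd (nat_lit 234) (nat_lit 456) (nat_lit 0) (XT.nd (nat_lit 78) (nat_lit 228) (nat_lit 0) (XT.lf (nat_lit 0) (nat_lit 613270055) (nat_lit 0) (nat_lit 1133080930) (nat_lit 152) (nat_lit 10489348298) (nat_lit 128) (nat_lit 3) (nat_lit 128) (nat_lit 1) (nat_lit 130) (nat_lit 1) (nat_lit 332) (nat_lit 384) (nat_lit 304)) (XT.nd (nat_lit 78) (nat_lit 152) (nat_lit 0) (XT.lf (nat_lit 76) (nat_lit 4582624618) (nat_lit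 0) (nat_lit 2276834241) (nat_lit 76) (nat_lit 5063930984) (nat_lit 128) (nat_lit 3) (nat_lit 127) (nat_lit 1) (nat_lit 128) (nat_lit 1) (nat_lit 333) (nat_lit 384) (nat_lit 303)) (XT.lf (nat_lit 0) (nat_lit 1206733174) (nat_lit 0) (nat_lit 1631165596) (nat_lit 152) (nat_lit 8784014844) (nat_lit 125) (nat_lit 3) (nat_lit 125) (nat_lit 1) (nat_lit 127) (nat_lit 1) (nat_lit 334) (nat_lit 384) (nat_lit 302)))) (XT.nd (nat_lit 156) (nat_lit 228) (nat_lit 0) (XT.nd (nat_lit 78) (nat_lit 152) (nat_lit 0) (XT.lf (nat_lit 76) (nat_lit 3805519474) (nat_lit 0) (nat_lit 3321849874) (nat_lit 76) (nat_lit 4198512457) (nat_lit 125) (nat_lit 3) (nat_lit 124) (nat_lit 1) (nat_lit 125) (nat_lit 1) (nat_lit 335) (nat_lit 384) (nat_lit 301)) (XT.lf (nat_lit 0) (nat_lit 1734843782) (nat_lit 0) (nat_lit 2081398441) (nat_lit 152) (nat_lit 7222968227) (nat_lit 122) (nat_lit 3) (nat_lit 122) (nat_lit 1) (nat_lit 124)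 (nat_lit 1) (nat_lit 336) (nat_lit 384) (nat_lit 300))) (XT.nd (nat_lit 78) (nat_lit 152) (nat_lit 0) (XT.lf (nat_lit 76) (nat_lit 3090471576) (nat_lit 0) (nat_lit 4256763776) (nat_lit 76) (nat_lit 3411355520) (nat_lit 122) (nat_lit 3) (nat_lit 121) (nat_lit 1) (nat_lit 122) (nat_lit 1) (nat_lit 337) (nat_lit 384) (nat_lit 299)) (XT.lf (nat_lit 0) (nat_lit 2203292804) (nat_lit 0) (nat_lit 2486259245) (nat_lit 152) (nat_lit 5796428682) (nat_lit 119) (nat_lit 3) (nat_lit 119) (nat_lit 1) (nat_lit 121) (nat_lit 1) (nat_lit 338) (nat_lit 384) (nat_lit 298))))))) (XT.nd (nat_lit 1014) (nat_lit 1596) (nat_lit 0) (XT.nd (nat_lit 468) (nat_lit 912) (nat_lit 0) (XT.nd (nat_lit 234) (nat_lit 380) (nat_lit 0) (XT.nd (nat_lit 78) (nat_lit 228) (nat_lit 0) (XT.lf (nat_lit 76) (nat_lit 2434174587) (nat_lit 0) (nat_lit 5089601432) (nat_lit 76) (nat_lit 2696180551) (nat_lit 119) (nat_lit 3) (nat_lit 118) (nat_lit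 1) (nat_lit 119) (nat_lit 1) (nat_lit 339) (nat_lit 384) (nat_lit 297)) (XT.nd (nat_lit 78) (nat_lit 76) (nat_lit 0) (XT.lf (nat_lit 0) (nat_lit 2617258548) (nat_lit 0) (nat_lit 2848304371) (nat_lit 152) (nat_lit 4495141173) (nat_lit 116) (nat_lit 3) (nat_lit 116) (nat_lit 1) (nat_lit 118) (nat_lit 1) (nat_lit 340) (nat_lit 384) (nat_lit 296)) (XT.lf (nat_lit 76) (nat_lit 1833311474) (nat_lit 0) (nat_lit 5827949696) (nat_lit 76) (nat_lit 2047242791) (nat_lit 116) (nat_lit 3) (nat_lit 115) (nat_lit 1) (nat_lit 116) (nat_lit 1) (nat_lit 341) (nat_lit 384) (nat_lit 295)))) (XT.nd (nat_lit 78) (nat_lit 228) (nat_lit 0) (XT.lf (nat_lit 0) (nat_lit 2981462765) (nat_lit 0) (nat_lit 3170114721) (nat_lit 152) (nat_lit 3310365585) (nat_lit 113) (nat_lit 3) (nat_lit 113) (nat_lit 1) (nat_lit 115) (nat_lit 1) (nat_lit 342) (nat_lit 384) (nat_lit 294)) (XT.nd (nat_lit 78) (nat_lit 152) (nat_lit 0) (XT.lf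 (nat_lit 76) (nat_lit 1284598609) (nat_lit 0) (nat_lit 6478963166) (nat_lit 76) (nat_lit 1459276346) (nat_lit 113) (nat_lit 3) (nat_lit 112) (nat_lit 1) (nat_lit 113) (nat_lit 1) (nat_lit 343) (nat_lit 384) (nat_lit 293)) (XT.lf (nat_lit 0) (nat_lit 3300218925) (nat_lit 0) (nat_lit 3454255729) (nat_lit 152) (nat_lit 2233863171) (nat_lit 110) (nat_lit 3) (nat_lit 110) (nat_lit 1) (nat_lit 112) (nat_lit 1) (nat_lit 344) (nat_lit 384) (nat_lit 292))))) (XT.nd (nat_lit 234) (nat_lit 608) (nat_lit 0) (XT.nd (nat_lit 78) (nat_lit 228) (nat_lit 0) (XT.lf (nat_lit 76) (nat_lit 784819079) (nat_lit 0) (nat_lit 7049374273) (nat_lit 76) (nat_lit 927445750) (nat_lit 110) (nat_lit 3) (nat_lit 109) (nat_lit 1) (nat_lit 110) (nat_lit 1) (nat_lit 345) (nat_lit 384) (nat_lit 291)) (XT.nd (nat_lit 78) (nat_lit 76) (nat_lit 0) (XT.lf (nat_lit 0) (nat_lit 3577473979) (nat_lit 0) (nat_lit 3703247057) (nat_lit 152)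 (nat_lit 1257880285) (nat_lit 107) (nat_lit 3) (nat_lit 107) (nat_lit 1) (nat_lit 109) (nat_lit 1) (nat_lit 346) (nat_lit 384) (nat_lit 290)) (XT.lf (nat_lit 76) (nat_lit 330847341) (nat_lit 0) (nat_lit 7545506110) (nat_lit 76) (nat_lit 447303896) (nat_lit 107) (nat_lit 3) (nat_lit 106) (nat_lit 1) (nat_lit 107) (nat_lit 1) (nat_lit 347) (nat_lit 384) (nat_lit 289)))) (XT.nd (nat_lit 156) (nat_lit 228) (nat_lit 0) (XT.nd (nat_lit 78) (nat_lit 228) (nat_lit 0) (XT.lf (nat_lit 0) (nat_lit 3816844667) (nat_lit 0) (nat_lit 3919540041) (nat_lit 152) (nat_lit 375130221) (nat_lit 104) (nat_lit 3) (nat_lit 104) (nat_lit 1) (nat_lit 106) (nat_lit 1) (nat_lit 348) (nat_lit 384) (nat_lit 288)) (XT.lf (nat_lit 152) (nat_lit 7828795526) (nat_lit 0) (nat_lit 66450344) (nat_lit 76) (nat_lit 12348998) (nat_lit 103) (nat_lit 1) (nat_lit 101) (nat_lit 1) (nat_lit 102) (nat_lit 1) (nat_lit 349) (nat_lit 384) (nat_lit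 287))) (XT.nd (nat_lit 78) (nat_lit 152) (nat_lit 0) (XT.lf (nat_lit 76) (nat_lit 3593289352) (nat_lit 0) (nat_lit 435153832) (nat_lit 76) (nat_lit 3677141477) (nat_lit 101) (nat_lit 3) (nat_lit 100) (nat_lit 1) (nat_lit 101) (nat_lit 1) (nat_lit 350) (nat_lit 384) (nat_lit 286)) (XT.lf (nat_lit 0) (nat_lit 382591954) (nat_lit 0) (nat_lit 456535627) (nat_lit 152) (nat_lit 6672225507) (nat_lit 98) (nat_lit 3) (nat_lit 98) (nat_lit 1) (nat_lit 100) (nat_lit 1) (nat_lit 351) (nat_lit 384) (nat_lit 285)))))) (XT.nd (nat_lit 546) (nat_lit 836) (nat_lit 0) (XT.nd (nat_lit 234) (nat_lit 456) (nat_lit 0) (XT.nd (nat_lit 78) (nat_lit 228) (nat_lit 0) (XT.lf (nat_lit 76) (nat_lit 3038068599) (nat_lit 0) (nat_lit 1175214946) (nat_lit 76) (nat_lit 3106534963) (nat_lit 98) (nat_lit 3) (nat_lit 97) (nat_lit 1) (nat_lit 98) (nat_lit 1) (nat_lit 352) (nat_lit 384) (nat_lit 284)) (XT.nd (nat_lit 78) (nat_lit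 76) (nat_lit 0) (XT.lf (nat_lit 0) (nat_lit 736246974) (nat_lit 0) (nat_lit 796622956) (nat_lit 152) (nat_lit 5602205993) (nat_lit 95) (nat_lit 3) (nat_lit 95) (nat_lit 1) (nat_lit 97) (nat_lit 1) (nat_lit 353) (nat_lit 384) (nat_lit 283)) (XT.lf (nat_lit 76) (nat_lit 2529360447) (nat_lit 0) (nat_lit 1838853018) (nat_lit 76) (nat_lit 2585264134) (nat_lit 95) (nat_lit 3) (nat_lit 94) (nat_lit 1) (nat_lit 95) (nat_lit 1) (nat_lit 354) (nat_lit 384) (nat_lit 282)))) (XT.nd (nat_lit 156) (nat_lit 228) (nat_lit 0) (XT.nd (nat_lit 78) (nat_lit 76) (nat_lit 0) (XT.lf (nat_lit 0) (nat_lit 1052264628) (nat_lit 0) (nat_lit 1101562412) (nat_lit 152) (nat_lit 4623929512) (nat_lit 92) (nat_lit 3) (nat_lit 92) (nat_lit 1) (nat_lit 94) (nat_lit 1) (nat_lit 355) (nat_lit 384) (nat_lit 281)) (XT.lf (nat_lit 76) (nat_lit 2064028220) (nat_lit 0) (nat_lit 2431872225) (nat_lit 76) (nat_lit 2109674316) (nat_lit 92)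 (nat_lit 3) (nat_lit 91) (nat_lit 1) (nat_lit 92) (nat_lit 1) (nat_lit 356) (nat_lit 384) (nat_lit 280))) (XT.nd (nat_lit 78) (nat_lit 76) (nat_lit 0) (XT.lf (nat_lit 0) (nat_lit 1333654281) (nat_lit 0) (nat_lit 1373906570) (nat_lit 152) (nat_lit 3730870514) (nat_lit 89) (nat_lit 3) (nat_lit 89) (nat_lit 1) (nat_lit 91) (nat_lit 1) (nat_lit 357) (nat_lit 384) (nat_lit 279)) (XT.lf (nat_lit 76) (nat_lit 1639102461) (nat_lit 0) (nat_lit 2959698473) (nat_lit 76) (nat_lit 1676373099) (nat_lit 89) (nat_lit 3) (nat_lit 88) (nat_lit 1) (nat_lit 89) (nat_lit 1) (nat_lit 358) (nat_lit 384) (nat_lit 278))))) (XT.nd (nat_lit 234) (nat_lit 456) (nat_lit 0) (XT.nd (nat_lit 78) (nat_lit 228) (nat_lit 0) (XT.lf (nat_lit 0) (nat_lit 1583201045) (nat_lit 0) (nat_lit 1616067569) (nat_lit 152) (nat_lit 2916918075) (nat_lit 86) (nat_lit 3) (nat_lit 86) (nat_lit 1) (nat_lit 88) (nat_lit 1) (nat_lit 359) (nat_lit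 384) (nat_lit 277)) (XT.nd (nat_lit 78) (nat_lit 152) (nat_lit 0) (XT.lf (nat_lit 76) (nat_lit 1251777982) (nat_lit 0) (nat_lit 3427399916) (nat_lit 76) (nat_lit 1282209949) (nat_lit 86) (nat_lit 3) (nat_lit 85) (nat_lit 1) (nat_lit 86) (nat_lit 1) (nat_lit 360) (nat_lit 384) (nat_lit 276)) (XT.lf (nat_lit 0) (nat_lit 1803483511) (nat_lit 0) (nat_lit 1830319460) (nat_lit 152) (nat_lit 2176353083) (nat_lit 83) (nat_lit 3) (nat_lit 83) (nat_lit 1) (nat_lit 85) (nat_lit 1) (nat_lit 361) (nat_lit 384) (nat_lit 275)))) (XT.nd (nat_lit 156) (nat_lit 228) (nat_lit 0) (XT.nd (nat_lit 78) (nat_lit 152) (nat_lit 0) (XT.lf (nat_lit 76) (nat_lit 899409680) (nat_lit 0) (nat_lit 3839706937) (nat_lit 76) (nat_lit 924257782) (nat_lit 83) (nat_lit 3) (nat_lit 82) (nat_lit 1) (nat_lit 83) (nat_lit 1) (nat_lit 362) (nat_lit 384) (nat_lit 274)) (XT.lf (nat_lit 0) (nat_lit 1996889767) (nat_lit 0) (nat_lit 2018801673)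 (nat_lit 152) (nat_lit 1503826196) (nat_lit 80) (nat_lit 3) (nat_lit 80) (nat_lit 1) (nat_lit 82) (nat_lit 1) (nat_lit 363) (nat_lit 384) (nat_lit 273))) (XT.nd (nat_lit 78) (nat_lit 152) (nat_lit 0) (XT.lf (nat_lit 76) (nat_lit 579507455) (nat_lit 0) (nat_lit 4201031466) (nat_lit 76) (nat_lit 599796257) (nat_lit 80) (nat_lit 3) (nat_lit 79) (nat_lit 1) (nat_lit 80) (nat_lit 1) (nat_lit 364) (nat_lit 384) (nat_lit 272)) (XT.lf (nat_lit 0) (nat_lit 2165631929) (nat_lit 0) (nat_lit 2183523289) (nat_lit 152) (nat_lit 894336637) (nat_lit 77) (nat_lit 3) (nat_lit 77) (nat_lit 1) (nat_lit 79) (nat_lit 1) (nat_lit 365) (nat_lit 384) (nat_lit 271))))))))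
noncomputable def ec128 : XT := (XT.nd (nat_lit 2028) (nat_lit 2660) (nat_lit 0) (XT.nd (nat_lit 1014) (nat_lit 1596) (nat_lit 0) (XT.nd (nat_lit 468) (nat_lit 836) (nat_lit 0) (XT.nd (nat_lit 234) (nat_lit 456) (nat_lit 0) (XT.nd (nat_lit 78) (nat_lit 228) (nat_lit 0) (XT.lf (nat_lit 76) (nat_lit 289730498) (nat_lit 0) (nat_lit 4515485579) (nat_lit 76) (nat_lit 306296571) (nat_lit 77) (nat_lit 3) (nat_lit 76) (nat_lit 1) (nat_lit 77) (nat_lit 1) (nat_lit 366) (nat_lit 384) (nat_lit 270)) (XT.nd (nat_lit 78) (nat_lit 76) (nat_lit 0) (XT.lf (nat_lit 0) (nat_lit 2311759355) (nat_lit 0) (nat_lit 2326367885) (nat_lit 152) (nat_lit 343211888) (nat_lit 74) (nat_lit 3) (nat_lit 74) (nat_lit 1) (nat_lit 76) (nat_lit 1) (nat_lit 367) (nat_lit 384) (nat_lit 269)) (XT.lf (nat_lit 76) (nat_lit 27881160) (nat_lit 0) (nat_lit 4786899335) (nat_lit 76) (nat_lit 41407577) (nat_lit 74) (nat_lit 3) (nat_lit 73)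 (nat_lit 1) (nat_lit 74) (nat_lit 1) (nat_lit 368) (nat_lit 384) (nat_lit 268)))) (XT.nd (nat_lit 78) (nat_lit 228) (nat_lit 0) (XT.lf (nat_lit 76) (nat_lit 2280652416) (nat_lit 0) (nat_lit 159000735) (nat_lit 76) (nat_lit 2292580474) (nat_lit 71) (nat_lit 3) (nat_lit 70) (nat_lit 1) (nat_lit 71) (nat_lit 1) (nat_lit 369) (nat_lit 384) (nat_lit 267)) (XT.nd (nat_lit 78) (nat_lit 76) (nat_lit 0) (XT.lf (nat_lit 0) (nat_lit 200640859) (nat_lit 0) (nat_lit 211159428) (nat_lit 152) (nat_lit 4201230796) (nat_lit 68) (nat_lit 3) (nat_lit 68) (nat_lit 1) (nat_lit 70) (nat_lit 1) (nat_lit 370) (nat_lit 384) (nat_lit 266)) (XT.lf (nat_lit 76) (nat_lit 1932337439) (nat_lit 0) (nat_lit 620982819) (nat_lit 76) (nat_lit 1942076855) (nat_lit 68) (nat_lit 3) (nat_lit 67) (nat_lit 1) (nat_lit 68) (nat_lit 1) (nat_lit 371) (nat_lit 384) (nat_lit 265))))) (XT.nd (nat_lit 234) (nat_lit 456) (nat_lit 0) (XT.nd (nat_lit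 78) (nat_lit 228) (nat_lit 0) (XT.lf (nat_lit 0) (nat_lit 418158319) (nat_lit 0) (nat_lit 426746869) (nat_lit 152) (nat_lit 3537104158) (nat_lit 65) (nat_lit 3) (nat_lit 65) (nat_lit 1) (nat_lit 67) (nat_lit 1) (nat_lit 372) (nat_lit 384) (nat_lit 264)) (XT.nd (nat_lit 78) (nat_lit 152) (nat_lit 0) (XT.lf (nat_lit 76) (nat_lit 1613603353) (nat_lit 0) (nat_lit 1035312407) (nat_lit 76) (nat_lit 1621555715) (nat_lit 65) (nat_lit 3) (nat_lit 64) (nat_lit 1) (nat_lit 65) (nat_lit 1) (nat_lit 373) (nat_lit 384) (nat_lit 263)) (XT.lf (nat_lit 0) (nat_lit 612817610) (nat_lit 0) (nat_lit 619830274) (nat_lit 152) (nat_lit 2929965772) (nat_lit 62) (nat_lit 3) (nat_lit 62) (nat_lit 1) (nat_lit 64) (nat_lit 1) (nat_lit 374) (nat_lit 384) (nat_lit 262)))) (XT.nd (nat_lit 156) (nat_lit 228) (nat_lit 0) (XT.nd (nat_lit 78) (nat_lit 152) (nat_lit 0) (XT.lf (nat_lit 76) (nat_lit 1322354966) (nat_lit 0) (nat_lit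 1405651093) (nat_lit 76) (nat_lit 1328848174) (nat_lit 62) (nat_lit 3) (nat_lit 61) (nat_lit 1) (nat_lit 62) (nat_lit 1) (nat_lit 375) (nat_lit 384) (nat_lit 261)) (XT.lf (nat_lit 0) (nat_lit 786403090) (nat_lit 0) (nat_lit 792129023) (nat_lit 152) (nat_lit 2375723481) (nat_lit 59) (nat_lit 3) (nat_lit 59) (nat_lit 1) (nat_lit 61) (nat_lit 1) (nat_lit 376) (nat_lit 384) (nat_lit 260))) (XT.nd (nat_lit 78) (nat_lit 152) (nat_lit 0) (XT.lf (nat_lit 76) (nat_lit 1056629825) (nat_lit 0) (nat_lit 1735412207) (nat_lit 76) (nat_lit 1061931615) (nat_lit 59) (nat_lit 3) (nat_lit 58) (nat_lit 1) (nat_lit 59) (nat_lit 1) (nat_lit 377) (nat_lit 384) (nat_lit 259)) (XT.lf (nat_lit 0) (nat_lit 940573997) (nat_lit 0) (nat_lit 945249296) (nat_lit 152) (nat_lit 1870553481) (nat_lit 56) (nat_lit 3) (nat_lit 56) (nat_lit 1) (nat_lit 58) (nat_lit 1) (nat_lit 378) (nat_lit 384) (nat_lit 258)))))) (XT.nd (nat_lit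 468) (nat_lit 912) (nat_lit 0) (XT.nd (nat_lit 234) (nat_lit 380) (nat_lit 0) (XT.nd (nat_lit 78) (nat_lit 228) (nat_lit 0) (XT.lf (nat_lit 76) (nat_lit 814590944) (nat_lit 0) (nat_lit 2027776246) (nat_lit 76) (nat_lit 818919925) (nat_lit 56) (nat_lit 3) (nat_lit 55) (nat_lit 1) (nat_lit 56) (nat_lit 1) (nat_lit 379) (nat_lit 384) (nat_lit 257)) (XT.nd (nat_lit 78) (nat_lit 76) (nat_lit 0) (XT.lf (nat_lit 0) (nat_lit 1076872976) (nat_lit 0) (nat_lit 1080690419) (nat_lit 152) (nat_lit 1410883884) (nat_lit 53) (nat_lit 3) (nat_lit 53) (nat_lit 1) (nat_lit 55) (nat_lit 1) (nat_lit 380) (nat_lit 384) (nat_lit 256)) (XT.lf (nat_lit 76) (nat_lit 594519768) (nat_lit 0) (nat_lit 2285705460) (nat_lit 76) (nat_lit 598054438) (nat_lit 53) (nat_lit 3) (nat_lit 52) (nat_lit 1) (nat_lit 53) (nat_lit 1) (nat_lit 381) (nat_lit 384) (nat_lit 255)))) (XT.nd (nat_lit 78) (nat_lit 228) (nat_lit 0) (XT.lf (nat_lit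 0) (nat_lit 1196733994) (nat_lit 0) (nat_lit 1199850987) (nat_lit 152) (nat_lit 993379202) (nat_lit 50) (nat_lit 3) (nat_lit 50) (nat_lit 1) (nat_lit 52) (nat_lit 1) (nat_lit 382) (nat_lit 384) (nat_lit 254)) (XT.nd (nat_lit 78) (nat_lit 152) (nat_lit 0) (XT.lf (nat_lit 76) (nat_lit 394809410) (nat_lit 0) (nat_lit 2511957609) (nat_lit 76) (nat_lit 397695514) (nat_lit 50) (nat_lit 3) (nat_lit 49) (nat_lit 1) (nat_lit 50) (nat_lit 1) (nat_lit 383) (nat_lit 384) (nat_lit 253)) (XT.lf (nat_lit 0) (nat_lit 1301489696) (nat_lit 0) (nat_lit 1304034762) (nat_lit 152) (nat_lit 614925709) (nat_lit 47) (nat_lit 3) (nat_lit 47) (nat_lit 1) (nat_lit 49) (nat_lit 1) (nat_lit 384) (nat_lit 384) (nat_lit 252))))) (XT.nd (nat_lit 234) (nat_lit 608) (nat_lit 0) (XT.nd (nat_lit 78) (nat_lit 228) (nat_lit 0) (XT.lf (nat_lit 76) (nat_lit 213958158) (nat_lit 0) (nat_lit 2709098939) (nat_lit 76) (nat_lit 216314700)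 (nat_lit 47) (nat_lit 3) (nat_lit 46) (nat_lit 1) (nat_lit 47) (nat_lit 1) (nat_lit 385) (nat_lit 384) (nat_lit 251)) (XT.nd (nat_lit 78) (nat_lit 76) (nat_lit 0) (XT.lf (nat_lit 0) (nat_lit 1392378238) (nat_lit 0) (nat_lit 1394456317) (nat_lit 152) (nat_lit 272617629) (nat_lit 44) (nat_lit 3) (nat_lit 44) (nat_lit 1) (nat_lit 46) (nat_lit 1) (nat_lit 386) (nat_lit 384) (nat_lit 250)) (XT.lf (nat_lit 76) (nat_lit 50563279) (nat_lit 0) (nat_lit 2879516406) (nat_lit 76) (nat_lit 52487427) (nat_lit 44) (nat_lit 3) (nat_lit 43) (nat_lit 1) (nat_lit 44) (nat_lit 1) (nat_lit 387) (nat_lit 384) (nat_lit 249)))) (XT.nd (nat_lit 156) (nat_lit 228) (nat_lit 0) (XT.nd (nat_lit 78) (nat_lit 152) (nat_lit 0) (XT.lf (nat_lit 76) (nat_lit 1433679784) (nat_lit 0) (nat_lit 37454643) (nat_lit 76) (nat_lit 1435376563) (nat_lit 41) (nat_lit 3) (nat_lit 40) (nat_lit 1) (nat_lit 41) (nat_lit 1) (nat_lit 388) (nat_lit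 384) (nat_lit 248)) (XT.lf (nat_lit 0) (nat_lit 96723324) (nat_lit 0) (nat_lit 98219602) (nat_lit 152) (nat_lit 2638380632) (nat_lit 38) (nat_lit 3) (nat_lit 38) (nat_lit 1) (nat_lit 40) (nat_lit 1) (nat_lit 389) (nat_lit 384) (nat_lit 247))) (XT.nd (nat_lit 78) (nat_lit 152) (nat_lit 0) (XT.lf (nat_lit 76) (nat_lit 1217527386) (nat_lit 0) (nat_lit 324612515) (nat_lit 76) (nat_lit 1218912828) (nat_lit 38) (nat_lit 3) (nat_lit 37) (nat_lit 1) (nat_lit 38) (nat_lit 1) (nat_lit 390) (nat_lit 384) (nat_lit 246)) (XT.lf (nat_lit 0) (nat_lit 231500011) (nat_lit 0) (nat_lit 232721742) (nat_lit 152) (nat_lit 2227212508) (nat_lit 35) (nat_lit 3) (nat_lit 35) (nat_lit 1) (nat_lit 37) (nat_lit 1) (nat_lit 391) (nat_lit 384) (nat_lit 245))))))) (XT.nd (nat_lit 1014) (nat_lit 1216) (nat_lit 0) (XT.nd (nat_lit 468) (nat_lit 760) (nat_lit 0) (XT.nd (nat_lit 234) (nat_lit 380) (nat_lit 0) (XT.nd (nat_lit 78)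 (nat_lit 228) (nat_lit 0) (XT.lf (nat_lit 76) (nat_lit 1019749894) (nat_lit 0) (nat_lit 582276900) (nat_lit 76) (nat_lit 1020881127) (nat_lit 35) (nat_lit 3) (nat_lit 34) (nat_lit 1) (nat_lit 35) (nat_lit 1) (nat_lit 392) (nat_lit 384) (nat_lit 244)) (XT.nd (nat_lit 78) (nat_lit 76) (nat_lit 0) (XT.lf (nat_lit 0) (nat_lit 352214255) (nat_lit 0) (nat_lit 353211814) (nat_lit 152) (nat_lit 1851257753) (nat_lit 32) (nat_lit 3) (nat_lit 32) (nat_lit 1) (nat_lit 34) (nat_lit 1) (nat_lit 393) (nat_lit 384) (nat_lit 243)) (XT.lf (nat_lit 76) (nat_lit 839033154) (nat_lit 0) (nat_lit 812717050) (nat_lit 76) (nat_lit 839956820) (nat_lit 32) (nat_lit 3) (nat_lit 31) (nat_lit 1) (nat_lit 32) (nat_lit 1) (nat_lit 394) (nat_lit 384) (nat_lit 242)))) (XT.nd (nat_lit 78) (nat_lit 228) (nat_lit 0) (XT.lf (nat_lit 0) (nat_lit 459956065) (nat_lit 0) (nat_lit 460770586) (nat_lit 152) (nat_lit 1507984626) (nat_lit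 29) (nat_lit 3) (nat_lit 29) (nat_lit 1) (nat_lit 31) (nat_lit 1) (nat_lit 395) (nat_lit 384) (nat_lit 241)) (XT.nd (nat_lit 78) (nat_lit 152) (nat_lit 0) (XT.lf (nat_lit 76) (nat_lit 674148987) (nat_lit 0) (nat_lit 1018047117) (nat_lit 76) (nat_lit 674903172) (nat_lit 29) (nat_lit 3) (nat_lit 28) (nat_lit 1) (nat_lit 29) (nat_lit 1) (nat_lit 396) (nat_lit 384) (nat_lit 240)) (XT.lf (nat_lit 0) (nat_lit 555740230) (nat_lit 0) (nat_lit 556405296) (nat_lit 152) (nat_lit 1195028491) (nat_lit 26) (nat_lit 3) (nat_lit 26) (nat_lit 1) (nat_lit 28) (nat_lit 1) (nat_lit 397) (nat_lit 384) (nat_lit 239))))) (XT.nd (nat_lit 234) (nat_lit 456) (nat_lit 0) (XT.nd (nat_lit 78) (nat_lit 228) (nat_lit 0) (XT.lf (nat_lit 76) (nat_lit 523949935) (nat_lit 0) (nat_lit 1200236056) (nat_lit 76) (nat_lit 524565738) (nat_lit 26) (nat_lit 3) (nat_lit 25) (nat_lit 1) (nat_lit 26) (nat_lit 1) (nat_lit 398) (nat_lit 384)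 (nat_lit 238)) (XT.nd (nat_lit 78) (nat_lit 76) (nat_lit 0) (XT.lf (nat_lit 0) (nat_lit 640511224) (nat_lit 0) (nat_lit 641054260) (nat_lit 152) (nat_lit 910181363) (nat_lit 23) (nat_lit 3) (nat_lit 23) (nat_lit 1) (nat_lit 25) (nat_lit 1) (nat_lit 399) (nat_lit 384) (nat_lit 237)) (XT.lf (nat_lit 76) (nat_lit 387364303) (nat_lit 0) (nat_lit 1361116929) (nat_lit 76) (nat_lit 387867114) (nat_lit 23) (nat_lit 3) (nat_lit 22) (nat_lit 1) (nat_lit 23) (nat_lit 1) (nat_lit 400) (nat_lit 384) (nat_lit 236)))) (XT.nd (nat_lit 156) (nat_lit 228) (nat_lit 0) (XT.nd (nat_lit 78) (nat_lit 76) (nat_lit 0) (XT.lf (nat_lit 0) (nat_lit 715147809) (nat_lit 0) (nat_lit 715591205) (nat_lit 152) (nat_lit 651382080) (nat_lit 20) (nat_lit 3) (nat_lit 20) (nat_lit 1) (nat_lit 22) (nat_lit 1) (nat_lit 401) (nat_lit 384) (nat_lit 235)) (XT.lf (nat_lit 76) (nat_lit 263391469) (nat_lit 0) (nat_lit 1502395638) (nat_lit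 76) (nat_lit 263802021) (nat_lit 20) (nat_lit 3) (nat_lit 19) (nat_lit 1) (nat_lit 20) (nat_lit 1) (nat_lit 402) (nat_lit 384) (nat_lit 234))) (XT.nd (nat_lit 78) (nat_lit 76) (nat_lit 0) (XT.lf (nat_lit 0) (nat_lit 780467330) (nat_lit 0) (nat_lit 780829369) (nat_lit 152) (nat_lit 416707062) (nat_lit 17) (nat_lit 3) (nat_lit 17) (nat_lit 1) (nat_lit 19) (nat_lit 1) (nat_lit 403) (nat_lit 384) (nat_lit 233)) (XT.lf (nat_lit 76) (nat_lit 151097471) (nat_lit 0) (nat_lit 1625659135) (nat_lit 76) (nat_lit 151432691) (nat_lit 17) (nat_lit 3) (nat_lit 16) (nat_lit 1) (nat_lit 17) (nat_lit 1) (nat_lit 404) (nat_lit 384) (nat_lit 232)))))) (XT.nd (nat_lit 546) (nat_lit 304) (nat_lit 0) (XT.nd (nat_lit 234) (nat_lit 532) (nat_lit 0) (XT.nd (nat_lit 78) (nat_lit 228) (nat_lit 0) (XT.lf (nat_lit 0) (nat_lit 837229746) (nat_lit 0) (nat_lit 837525355) (nat_lit 152) (nat_lit 204361628) (nat_lit 14) (nat_lit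 3) (nat_lit 14) (nat_lit 1) (nat_lit 16) (nat_lit 1) (nat_lit 405) (nat_lit 384) (nat_lit 231)) (XT.nd (nat_lit 78) (nat_lit 152) (nat_lit 0) (XT.lf (nat_lit 76) (nat_lit 49610841) (nat_lit 0) (nat_lit 1732383123) (nat_lit 76) (nat_lit 49884554) (nat_lit 14) (nat_lit 3) (nat_lit 13) (nat_lit 1) (nat_lit 14) (nat_lit 1) (nat_lit 406) (nat_lit 384) (nat_lit 230)) (XT.lf (nat_lit 0) (nat_lit 886141393) (nat_lit 0) (nat_lit 886382762) (nat_lit 152) (nat_lit 12671839) (nat_lit 11) (nat_lit 3) (nat_lit 11) (nat_lit 1) (nat_lit 13) (nat_lit 1) (nat_lit 407) (nat_lit 384) (nat_lit 229)))) (XT.nd (nat_lit 156) (nat_lit 228) (nat_lit 0) (XT.nd (nat_lit 78) (nat_lit 76) (nat_lit 0) (XT.lf (nat_lit 0) (nat_lit 42347883) (nat_lit 0) (nat_lit 42560731) (nat_lit 152) (nat_lit 1655357862) (nat_lit 8) (nat_lit 3) (nat_lit 8) (nat_lit 1) (nat_lit 10) (nat_lit 1) (nat_lit 408) (nat_lit 384) (nat_lit 228)) (XT.lf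 (nat_lit 76) (nat_lit 765226973) (nat_lit 0) (nat_lit 165210948) (nat_lit 76) (nat_lit 765424053) (nat_lit 8) (nat_lit 3) (nat_lit 7) (nat_lit 1) (nat_lit 8) (nat_lit 1) (nat_lit 409) (nat_lit 384) (nat_lit 227))) (XT.nd (nat_lit 78) (nat_lit 76) (nat_lit 0) (XT.lf (nat_lit 0) (nat_lit 125992369) (nat_lit 0) (nat_lit 126166162) (nat_lit 152) (nat_lit 1400955060) (nat_lit 5) (nat_lit 3) (nat_lit 5) (nat_lit 1) (nat_lit 7) (nat_lit 1) (nat_lit 410) (nat_lit 384) (nat_lit 226)) (XT.lf (nat_lit 76) (nat_lit 642779580) (nat_lit 0) (nat_lit 325289667) (nat_lit 76) (nat_lit 642940499) (nat_lit 5) (nat_lit 3) (nat_lit 4) (nat_lit 1) (nat_lit 5) (nat_lit 1) (nat_lit 411) (nat_lit 384) (nat_lit 225))))) (XT.nd (nat_lit 234) (nat_lit 0) (nat_lit 0) (XT.nd (nat_lit 78) (nat_lit 152) (nat_lit 0) (XT.lf (nat_lit 0) (nat_lit 200959713) (nat_lit 0) (nat_lit 201101617) (nat_lit 152) (nat_lit 1168284217) (nat_lit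 2) (nat_lit 3) (nat_lit 2) (nat_lit 1) (nat_lit 4) (nat_lit 1) (nat_lit 412) (nat_lit 384) (nat_lit 224)) (XT.nd (nat_lit 78) (nat_lit 76) (nat_lit 0) (XT.lf (nat_lit 76) (nat_lit 530872596) (nat_lit 0) (nat_lit 468546018) (nat_lit 76) (nat_lit 531003988) (nat_lit 2) (nat_lit 3) (nat_lit 1) (nat_lit 1) (nat_lit 2) (nat_lit 1) (nat_lit 413) (nat_lit 384) (nat_lit 223)) (XT.lf (nat_lit 0) (nat_lit 31735605068) (nat_lit 0) (nat_lit 0) (nat_lit 0) (nat_lit 0) (nat_lit 0) (nat_lit 0) (nat_lit 1) (nat_lit 0) (nat_lit 1) (nat_lit 0) (nat_lit 414) (nat_lit 384) (nat_lit 222)))) (XT.nd (nat_lit 156) (nat_lit 0) (nat_lit 0) (XT.nd (nat_lit 78) (nat_lit 0) (nat_lit 0) (XT.lf (nat_lit 0) (nat_lit 31735596020) (nat_lit 0) (nat_lit 0) (nat_lit 0) (nat_lit 0) (nat_lit 0) (nat_lit 0) (nat_lit 1) (nat_lit 0) (nat_lit 1) (nat_lit 0) (nat_lit 415) (nat_lit 384) (nat_lit 221)) (XT.lf (nat_lit 0) (nat_lit 31735587642)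 (nat_lit 0) (nat_lit 0) (nat_lit 0) (nat_lit 0) (nat_lit 0) (nat_lit 0) (nat_lit 1) (nat_lit 0) (nat_lit 1) (nat_lit 0) (nat_lit 416) (nat_lit 384) (nat_lit 220))) (XT.nd (nat_lit 40092) (nat_lit 0) (nat_lit 22192) (XT.lf (nat_lit 0) (nat_lit 31735579884) (nat_lit 0) (nat_lit 0) (nat_lit 0) (nat_lit 0) (nat_lit 0) (nat_lit 0) (nat_lit 1) (nat_lit 0) (nat_lit 1) (nat_lit 0) (nat_lit 417) (nat_lit 384) (nat_lit 219)) (XT.lf (nat_lit 836) (nat_lit 17152154337) (nat_lit 0) (nat_lit 30453610601) (nat_lit 836) (nat_lit 17152154337) (nat_lit 303) (nat_lit 1) (nat_lit 292) (nat_lit 0) (nat_lit 303) (nat_lit 0) (nat_lit 250) (nat_lit 385) (nat_lit 385))))))))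
noncomputable def ec129 : XT := (XT.nd (nat_lit 2028) (nat_lit 3648) (nat_lit 0) (XT.nd (nat_lit 1014) (nat_lit 3192) (nat_lit 0) (XT.nd (nat_lit 468) (nat_lit 2432) (nat_lit 0) (XT.nd (nat_lit 234) (nat_lit 0) (nat_lit 152) (XT.nd (nat_lit 78) (nat_lit 0) (nat_lit 0) (XT.lf (nat_lit 836) (nat_lit 6398279867) (nat_lit 0) (nat_lit 59789667376) (nat_lit 760) (nat_lit 58474094941) (nat_lit 304) (nat_lit 1) (nat_lit 293) (nat_lit 1) (nat_lit 303) (nat_lit 1) (nat_lit 251) (nat_lit 385) (nat_lit 384)) (XT.nd (nat_lit 78) (nat_lit 0) (nat_lit 76) (XT.lf (nat_lit 836) (nat_lit 58764507438) (nat_lit 76) (nat_lit 40041160396) (nat_lit 0) (nat_lit 21236004952) (nat_lit 304) (nat_lit 1) (nat_lit 294) (nat_lit 1) (nat_lit 293) (nat_lit 1) (nat_lit 252) (nat_lit 385) (nat_lit 383)) (XT.lf (nat_lit 836) (nat_lit 50777348484) (nat_lit 76) (nat_lit 16780972782) (nat_lit 0) (nat_lit 48094197124) (nat_lit 305)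 (nat_lit 1) (nat_lit 295) (nat_lit 1) (nat_lit 294) (nat_lit 1) (nat_lit 253) (nat_lit 385) (nat_lit 382)))) (XT.nd (nat_lit 78) (nat_lit 0) (nat_lit 76) (XT.lf (nat_lit 836) (nat_lit 37579554819) (nat_lit 0) (nat_lit 70309570757) (nat_lit 760) (nat_lit 3594215211) (nat_lit 306) (nat_lit 1) (nat_lit 295) (nat_lit 1) (nat_lit 305) (nat_lit 1) (nat_lit 254) (nat_lit 385) (nat_lit 381)) (XT.nd (nat_lit 78) (nat_lit 0) (nat_lit 0) (XT.lf (nat_lit 836) (nat_lit 9016845721) (nat_lit 0) (nat_lit 77535834516) (nat_lit 760) (nat_lit 20960590361) (nat_lit 307) (nat_lit 1) (nat_lit 296) (nat_lit 1) (nat_lit 306) (nat_lit 1) (nat_lit 255) (nat_lit 385) (nat_lit 380)) (XT.lf (nat_lit 836) (nat_lit 17326710015) (nat_lit 76) (nat_lit 67384954208) (nat_lit 0) (nat_lit 19016865450) (nat_lit 307) (nat_lit 1) (nat_lit 297) (nat_lit 1) (nat_lit 296) (nat_lit 1) (nat_lit 256) (nat_lit 385) (nat_lit 379))))) (XT.nd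 (nat_lit 234) (nat_lit 1064) (nat_lit 0) (XT.nd (nat_lit 78) (nat_lit 912) (nat_lit 0) (XT.lf (nat_lit 836) (nat_lit 3558511135) (nat_lit 0) (nat_lit 50374710614) (nat_lit 760) (nat_lit 46193081815) (nat_lit 298) (nat_lit 1) (nat_lit 287) (nat_lit 1) (nat_lit 297) (nat_lit 1) (nat_lit 257) (nat_lit 385) (nat_lit 378)) (XT.nd (nat_lit 78) (nat_lit 380) (nat_lit 0) (XT.lf (nat_lit 76) (nat_lit 24639872366) (nat_lit 0) (nat_lit 10677603343) (nat_lit 532) (nat_lit 61377163674) (nat_lit 281) (nat_lit 1) (nat_lit 280) (nat_lit 1) (nat_lit 287) (nat_lit 1) (nat_lit 258) (nat_lit 385) (nat_lit 377)) (XT.lf (nat_lit 456) (nat_lit 67904386900) (nat_lit 0) (nat_lit 22104341836) (nat_lit 380) (nat_lit 3417467828) (nat_lit 281) (nat_lit 1) (nat_lit 275) (nat_lit 1) (nat_lit 280) (nat_lit 1) (nat_lit 259) (nat_lit 385) (nat_lit 376)))) (XT.nd (nat_lit 156) (nat_lit 380) (nat_lit 0) (XT.nd (nat_lit 78) (nat_lit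 304) (nat_lit 0) (XT.lf (nat_lit 456) (nat_lit 49000452222) (nat_lit 0) (nat_lit 10302928947) (nat_lit 380) (nat_lit 30994909774) (nat_lit 276) (nat_lit 1) (nat_lit 270) (nat_lit 1) (nat_lit 275) (nat_lit 1) (nat_lit 260) (nat_lit 385) (nat_lit 375)) (XT.lf (nat_lit 380) (nat_lit 29816150228) (nat_lit 0) (nat_lit 189693665) (nat_lit 304) (nat_lit 57316206771) (nat_lit 271) (nat_lit 1) (nat_lit 266) (nat_lit 1) (nat_lit 270) (nat_lit 1) (nat_lit 261) (nat_lit 385) (nat_lit 374))) (XT.nd (nat_lit 78) (nat_lit 380) (nat_lit 0) (XT.lf (nat_lit 76) (nat_lit 2199694653) (nat_lit 0) (nat_lit 74184362506) (nat_lit 380) (nat_lit 8098665592) (nat_lit 267) (nat_lit 1) (nat_lit 266) (nat_lit 1) (nat_lit 271) (nat_lit 1) (nat_lit 262) (nat_lit 385) (nat_lit 373)) (XT.lf (nat_lit 76) (nat_lit 56796686477) (nat_lit 0) (nat_lit 9420338173) (nat_lit 380) (nat_lit 15535848510) (nat_lit 262) (nat_lit 1) (nat_lit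 261) (nat_lit 1) (nat_lit 266) (nat_lit 1) (nat_lit 263) (nat_lit 385) (nat_lit 372)))))) (XT.nd (nat_lit 468) (nat_lit 1520) (nat_lit 0) (XT.nd (nat_lit 234) (nat_lit 836) (nat_lit 0) (XT.nd (nat_lit 78) (nat_lit 532) (nat_lit 0) (XT.lf (nat_lit 76) (nat_lit 28416821509) (nat_lit 0) (nat_lit 28856168087) (nat_lit 380) (nat_lit 21870652646) (nat_lit 258) (nat_lit 1) (nat_lit 257) (nat_lit 1) (nat_lit 262) (nat_lit 1) (nat_lit 264) (nat_lit 385) (nat_lit 371)) (XT.nd (nat_lit 78) (nat_lit 228) (nat_lit 0) (XT.lf (nat_lit 76) (nat_lit 1402591296) (nat_lit 0) (nat_lit 48247064969) (nat_lit 380) (nat_lit 27008293521) (nat_lit 254) (nat_lit 1) (nat_lit 253) (nat_lit 1) (nat_lit 258) (nat_lit 1) (nat_lit 265) (nat_lit 385) (nat_lit 370)) (XT.lf (nat_lit 304) (nat_lit 6334023245) (nat_lit 0) (nat_lit 42833967305) (nat_lit 228) (nat_lit 25101689273) (nat_lit 254) (nat_lit 1) (nat_lit 250) (nat_lit 1)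 (nat_lit 253) (nat_lit 1) (nat_lit 266) (nat_lit 385) (nat_lit 369)))) (XT.nd (nat_lit 78) (nat_lit 456) (nat_lit 0) (XT.lf (nat_lit 76) (nat_lit 21885753276) (nat_lit 0) (nat_lit 15000631287) (nat_lit 380) (nat_lit 35093689059) (nat_lit 246) (nat_lit 1) (nat_lit 245) (nat_lit 1) (nat_lit 250) (nat_lit 1) (nat_lit 267) (nat_lit 385) (nat_lit 368)) (XT.nd (nat_lit 78) (nat_lit 228) (nat_lit 0) (XT.lf (nat_lit 304) (nat_lit 33884410278) (nat_lit 0) (nat_lit 31830023999) (nat_lit 228) (nat_lit 4074205295) (nat_lit 246) (nat_lit 1) (nat_lit 242) (nat_lit 1) (nat_lit 245) (nat_lit 1) (nat_lit 268) (nat_lit 385) (nat_lit 367)) (XT.lf (nat_lit 304) (nat_lit 10859789796) (nat_lit 0) (nat_lit 27404347236) (nat_lit 228) (nat_lit 29417285912) (nat_lit 243) (nat_lit 1) (nat_lit 239) (nat_lit 1) (nat_lit 242) (nat_lit 1) (nat_lit 269) (nat_lit 385) (nat_lit 366))))) (XT.nd (nat_lit 234) (nat_lit 836) (nat_lit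 0) (XT.nd (nat_lit 78) (nat_lit 380) (nat_lit 0) (XT.lf (nat_lit 76) (nat_lit 12377536293) (nat_lit 0) (nat_lit 11332710108) (nat_lit 304) (nat_lit 41951476591) (nat_lit 236) (nat_lit 1) (nat_lit 235) (nat_lit 1) (nat_lit 239) (nat_lit 1) (nat_lit 270) (nat_lit 385) (nat_lit 365)) (XT.nd (nat_lit 78) (nat_lit 152) (nat_lit 0) (XT.lf (nat_lit 304) (nat_lit 30799874517) (nat_lit 0) (nat_lit 20493095148) (nat_lit 228) (nat_lit 12422981657) (nat_lit 236) (nat_lit 1) (nat_lit 232) (nat_lit 1) (nat_lit 235) (nat_lit 1) (nat_lit 271) (nat_lit 385) (nat_lit 364)) (XT.lf (nat_lit 228) (nat_lit 7635334370) (nat_lit 0) (nat_lit 17878730746) (nat_lit 152) (nat_lit 36334612394) (nat_lit 233) (nat_lit 1) (nat_lit 230) (nat_lit 1) (nat_lit 232) (nat_lit 1) (nat_lit 272) (nat_lit 385) (nat_lit 363)))) (XT.nd (nat_lit 156) (nat_lit 380) (nat_lit 0) (XT.nd (nat_lit 78) (nat_lit 152) (nat_lit 0) (XT.lf (nat_lit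 76) (nat_lit 1293474422) (nat_lit 0) (nat_lit 14474259591) (nat_lit 304) (nat_lit 44286050139) (nat_lit 227) (nat_lit 1) (nat_lit 226) (nat_lit 1) (nat_lit 230) (nat_lit 1) (nat_lit 273) (nat_lit 385) (nat_lit 362)) (XT.lf (nat_lit 228) (nat_lit 22186880696) (nat_lit 0) (nat_lit 13864897026) (nat_lit 152) (nat_lit 22264091265) (nat_lit 227) (nat_lit 1) (nat_lit 224) (nat_lit 1) (nat_lit 226) (nat_lit 1) (nat_lit 274) (nat_lit 385) (nat_lit 361))) (XT.nd (nat_lit 78) (nat_lit 152) (nat_lit 0) (XT.lf (nat_lit 76) (nat_lit 12037674270) (nat_lit 0) (nat_lit 556027721) (nat_lit 228) (nat_lit 44060088460) (nat_lit 222) (nat_lit 1) (nat_lit 221) (nat_lit 1) (nat_lit 224) (nat_lit 1) (nat_lit 275) (nat_lit 385) (nat_lit 360)) (XT.lf (nat_lit 228) (nat_lit 32908676925) (nat_lit 0) (nat_lit 11403594429) (nat_lit 152) (nat_lit 10727789243) (nat_lit 222) (nat_lit 1) (nat_lit 219) (nat_lit 1) (nat_lit 221)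 (nat_lit 1) (nat_lit 276) (nat_lit 385) (nat_lit 359))))))) (XT.nd (nat_lit 1014) (nat_lit 1596) (nat_lit 0) (XT.nd (nat_lit 468) (nat_lit 1140) (nat_lit 0) (XT.nd (nat_lit 234) (nat_lit 380) (nat_lit 0) (XT.nd (nat_lit 78) (nat_lit 380) (nat_lit 0) (XT.lf (nat_lit 228) (nat_lit 10222753795) (nat_lit 0) (nat_lit 10600902050) (nat_lit 152) (nat_lit 32664374852) (nat_lit 220) (nat_lit 1) (nat_lit 217) (nat_lit 1) (nat_lit 219) (nat_lit 1) (nat_lit 277) (nat_lit 385) (nat_lit 358)) (XT.nd (nat_lit 78) (nat_lit 152) (nat_lit 0) (XT.lf (nat_lit 228) (nat_lit 40580575602) (nat_lit 0) (nat_lit 10128301486) (nat_lit 152) (nat_lit 1284892548) (nat_lit 217) (nat_lit 1) (nat_lit 214) (nat_lit 1) (nat_lit 216) (nat_lit 1) (nat_lit 278) (nat_lit 385) (nat_lit 357)) (XT.lf (nat_lit 228) (nat_lit 18161984888) (nat_lit 0) (nat_lit 9669113195) (nat_lit 152) (nat_lit 22709931289) (nat_lit 215) (nat_lit 1) (nat_lit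 212) (nat_lit 1) (nat_lit 214) (nat_lit 1) (nat_lit 279) (nat_lit 385) (nat_lit 356)))) (XT.nd (nat_lit 78) (nat_lit 228) (nat_lit 0) (XT.lf (nat_lit 76) (nat_lit 6221181039) (nat_lit 0) (nat_lit 3419441433) (nat_lit 152) (nat_lit 39507922549) (nat_lit 211) (nat_lit 1) (nat_lit 210) (nat_lit 1) (nat_lit 212) (nat_lit 1) (nat_lit 280) (nat_lit 385) (nat_lit 355)) (XT.nd (nat_lit 78) (nat_lit 76) (nat_lit 0) (XT.lf (nat_lit 228) (nat_lit 23829568682) (nat_lit 0) (nat_lit 9538539012) (nat_lit 152) (nat_lit 14423090994) (nat_lit 211) (nat_lit 1) (nat_lit 208) (nat_lit 1) (nat_lit 210) (nat_lit 1) (nat_lit 281) (nat_lit 385) (nat_lit 354)) (XT.lf (nat_lit 152) (nat_lit 2566105933) (nat_lit 0) (nat_lit 9772817856) (nat_lit 76) (nat_lit 34148514853) (nat_lit 209) (nat_lit 1) (nat_lit 207) (nat_lit 1) (nat_lit 208) (nat_lit 1) (nat_lit 282) (nat_lit 385) (nat_lit 353))))) (XT.nd (nat_lit 234) (nat_lit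 608) (nat_lit 0) (XT.nd (nat_lit 78) (nat_lit 304) (nat_lit 0) (XT.lf (nat_lit 228) (nat_lit 27700166154) (nat_lit 0) (nat_lit 9994984757) (nat_lit 152) (nat_lit 7524476374) (nat_lit 207) (nat_lit 1) (nat_lit 204) (nat_lit 1) (nat_lit 206) (nat_lit 1) (nat_lit 283) (nat_lit 385) (nat_lit 352)) (XT.nd (nat_lit 78) (nat_lit 228) (nat_lit 0) (XT.lf (nat_lit 152) (nat_lit 6966796048) (nat_lit 0) (nat_lit 10368707309) (nat_lit 76) (nat_lit 26659040362) (nat_lit 205) (nat_lit 1) (nat_lit 203) (nat_lit 1) (nat_lit 204) (nat_lit 1) (nat_lit 284) (nat_lit 385) (nat_lit 351)) (XT.lf (nat_lit 228) (nat_lit 30157546768) (nat_lit 0) (nat_lit 10868793130) (nat_lit 152) (nat_lit 1783661994) (nat_lit 203) (nat_lit 1) (nat_lit 200) (nat_lit 1) (nat_lit 202) (nat_lit 1) (nat_lit 285) (nat_lit 385) (nat_lit 350)))) (XT.nd (nat_lit 156) (nat_lit 304) (nat_lit 0) (XT.nd (nat_lit 78) (nat_lit 228) (nat_lit 0) (XT.lf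 (nat_lit 152) (nat_lit 10026175302) (nat_lit 0) (nat_lit 11330847440) (nat_lit 76) (nat_lit 20300191728) (nat_lit 201) (nat_lit 1) (nat_lit 199) (nat_lit 1) (nat_lit 200) (nat_lit 1) (nat_lit 286) (nat_lit 385) (nat_lit 349)) (XT.lf (nat_lit 76) (nat_lit 2893953197) (nat_lit 0) (nat_lit 9083347670) (nat_lit 228) (nat_lit 28568540147) (nat_lit 197) (nat_lit 1) (nat_lit 196) (nat_lit 1) (nat_lit 199) (nat_lit 1) (nat_lit 287) (nat_lit 385) (nat_lit 348))) (XT.nd (nat_lit 78) (nat_lit 228) (nat_lit 0) (XT.lf (nat_lit 152) (nat_lit 12032314951) (nat_lit 0) (nat_lit 12537101860) (nat_lit 76) (nat_lit 14892651021) (nat_lit 197) (nat_lit 1) (nat_lit 195) (nat_lit 1) (nat_lit 196) (nat_lit 1) (nat_lit 288) (nat_lit 385) (nat_lit 347)) (XT.lf (nat_lit 76) (nat_lit 6730257572) (nat_lit 0) (nat_lit 6518709557) (nat_lit 228) (nat_lit 25167413967) (nat_lit 193) (nat_lit 1) (nat_lit 192) (nat_lit 1) (nat_lit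 195) (nat_lit 1) (nat_lit 289) (nat_lit 385) (nat_lit 346)))))) (XT.nd (nat_lit 546) (nat_lit 836) (nat_lit 0) (XT.nd (nat_lit 234) (nat_lit 456) (nat_lit 0) (XT.nd (nat_lit 78) (nat_lit 228) (nat_lit 0) (XT.lf (nat_lit 152) (nat_lit 13217524972) (nat_lit 0) (nat_lit 13892129333) (nat_lit 76) (nat_lit 10287756953) (nat_lit 193) (nat_lit 1) (nat_lit 191) (nat_lit 1) (nat_lit 192) (nat_lit 1) (nat_lit 290) (nat_lit 385) (nat_lit 345)) (XT.nd (nat_lit 78) (nat_lit 76) (nat_lit 0) (XT.lf (nat_lit 76) (nat_lit 9908495451) (nat_lit 0) (nat_lit 4721220791) (nat_lit 152) (nat_lit 21782377056) (nat_lit 190) (nat_lit 1) (nat_lit 189) (nat_lit 1) (nat_lit 191) (nat_lit 1) (nat_lit 291) (nat_lit 385) (nat_lit 344)) (XT.lf (nat_lit 152) (nat_lit 13768773440) (nat_lit 0) (nat_lit 15322161514) (nat_lit 76) (nat_lit 6362036368) (nat_lit 190) (nat_lit 1) (nat_lit 188) (nat_lit 1) (nat_lit 189) (nat_lit 1) (nat_lit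 292) (nat_lit 385) (nat_lit 343)))) (XT.nd (nat_lit 156) (nat_lit 228) (nat_lit 0) (XT.nd (nat_lit 78) (nat_lit 76) (nat_lit 0) (XT.lf (nat_lit 76) (nat_lit 12533325471) (nat_lit 0) (nat_lit 3522092271) (nat_lit 152) (nat_lit 18467933195) (nat_lit 187) (nat_lit 1) (nat_lit 186) (nat_lit 1) (nat_lit 188) (nat_lit 1) (nat_lit 293) (nat_lit 385) (nat_lit 342)) (XT.lf (nat_lit 152) (nat_lit 13836182421) (nat_lit 0) (nat_lit 16770758780) (nat_lit 76) (nat_lit 3012728949) (nat_lit 187) (nat_lit 1) (nat_lit 185) (nat_lit 1) (nat_lit 186) (nat_lit 1) (nat_lit 294) (nat_lit 385) (nat_lit 341))) (XT.nd (nat_lit 78) (nat_lit 76) (nat_lit 0) (XT.lf (nat_lit 76) (nat_lit 14691730636) (nat_lit 0) (nat_lit 2785601870) (nat_lit 152) (nat_lit 15264287829) (nat_lit 184) (nat_lit 1) (nat_lit 183) (nat_lit 1) (nat_lit 185) (nat_lit 1) (nat_lit 295) (nat_lit 385) (nat_lit 340)) (XT.lf (nat_lit 152) (nat_lit 13539954019)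 (nat_lit 0) (nat_lit 18195363426) (nat_lit 76) (nat_lit 154123549) (nat_lit 184) (nat_lit 1) (nat_lit 182) (nat_lit 1) (nat_lit 183) (nat_lit 1) (nat_lit 296) (nat_lit 385) (nat_lit 339))))) (XT.nd (nat_lit 234) (nat_lit 456) (nat_lit 0) (XT.nd (nat_lit 78) (nat_lit 228) (nat_lit 0) (XT.lf (nat_lit 76) (nat_lit 16456147079) (nat_lit 0) (nat_lit 2402885516) (nat_lit 152) (nat_lit 12200261828) (nat_lit 181) (nat_lit 1) (nat_lit 180) (nat_lit 1) (nat_lit 182) (nat_lit 1) (nat_lit 297) (nat_lit 385) (nat_lit 338)) (XT.nd (nat_lit 78) (nat_lit 152) (nat_lit 0) (XT.lf (nat_lit 0) (nat_lit 2212293772) (nat_lit 0) (nat_lit 17314742747) (nat_lit 152) (nat_lit 10726255246) (nat_lit 179) (nat_lit 3) (nat_lit 179) (nat_lit 1) (nat_lit 181) (nat_lit 1) (nat_lit 298) (nat_lit 385) (nat_lit 337)) (XT.lf (nat_lit 76) (nat_lit 17887026472) (nat_lit 0) (nat_lit 2286876562) (nat_lit 152) (nat_lit 9295652096) (nat_lit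 178) (nat_lit 1) (nat_lit 177) (nat_lit 1) (nat_lit 179) (nat_lit 1) (nat_lit 299) (nat_lit 385) (nat_lit 336)))) (XT.nd (nat_lit 156) (nat_lit 228) (nat_lit 0) (XT.nd (nat_lit 78) (nat_lit 152) (nat_lit 0) (XT.lf (nat_lit 0) (nat_lit 4226299553) (nat_lit 0) (nat_lit 16557647922) (nat_lit 152) (nat_lit 7922743694) (nat_lit 176) (nat_lit 3) (nat_lit 176) (nat_lit 1) (nat_lit 178) (nat_lit 1) (nat_lit 300) (nat_lit 385) (nat_lit 335)) (XT.lf (nat_lit 76) (nat_lit 19034935511) (nat_lit 0) (nat_lit 2368182185) (nat_lit 152) (nat_lit 6563141676) (nat_lit 175) (nat_lit 1) (nat_lit 174) (nat_lit 1) (nat_lit 176) (nat_lit 1) (nat_lit 301) (nat_lit 385) (nat_lit 334))) (XT.nd (nat_lit 78) (nat_lit 152) (nat_lit 0) (XT.lf (nat_lit 0) (nat_lit 5941706831) (nat_lit 0) (nat_lit 16010415082) (nat_lit 152) (nat_lit 5291750980) (nat_lit 173) (nat_lit 3) (nat_lit 173) (nat_lit 1) (nat_lit 175) (nat_lit 1) (nat_lit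 302) (nat_lit 385) (nat_lit 333)) (XT.lf (nat_lit 76) (nat_lit 19942276954) (nat_lit 0) (nat_lit 2591724357) (nat_lit 152) (nat_lit 4009843077) (nat_lit 172) (nat_lit 1) (nat_lit 171) (nat_lit 1) (nat_lit 173) (nat_lit 1) (nat_lit 303) (nat_lit 385) (nat_lit 332))))))))
noncomputable def ec130 : XT := (XT.nd (nat_lit 2028) (nat_lit 3192) (nat_lit 0) (XT.nd (nat_lit 1014) (nat_lit 1596) (nat_lit 0) (XT.nd (nat_lit 468) (nat_lit 760) (nat_lit 0) (XT.nd (nat_lit 234) (nat_lit 456) (nat_lit 0) (XT.nd (nat_lit 78) (nat_lit 228) (nat_lit 0) (XT.lf (nat_lit 0) (nat_lit 7399726494) (nat_lit 0) (nat_lit 15620959307) (nat_lit 152) (nat_lit 2838811907) (nat_lit 170) (nat_lit 3) (nat_lit 170) (nat_lit 1) (nat_lit 172) (nat_lit 1) (nat_lit 304) (nat_lit 385) (nat_lit 331)) (XT.nd (nat_lit 78) (nat_lit 76) (nat_lit 0) (XT.lf (nat_lit 76) (nat_lit 20644701221) (nat_lit 0) (nat_lit 2914004621) (nat_lit 152)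 (nat_lit 1638543131) (nat_lit 169) (nat_lit 1) (nat_lit 168) (nat_lit 1) (nat_lit 170) (nat_lit 1) (nat_lit 305) (nat_lit 385) (nat_lit 330)) (XT.lf (nat_lit 0) (nat_lit 8635213123) (nat_lit 0) (nat_lit 15347957925) (nat_lit 152) (nat_lit 565529280) (nat_lit 167) (nat_lit 3) (nat_lit 167) (nat_lit 1) (nat_lit 169) (nat_lit 1) (nat_lit 306) (nat_lit 385) (nat_lit 329)))) (XT.nd (nat_lit 78) (nat_lit 228) (nat_lit 0) (XT.lf (nat_lit 152) (nat_lit 20611633554) (nat_lit 0) (nat_lit 569523219) (nat_lit 76) (nat_lit 2740246373) (nat_lit 166) (nat_lit 1) (nat_lit 164) (nat_lit 1) (nat_lit 165) (nat_lit 1) (nat_lit 307) (nat_lit 385) (nat_lit 328)) (XT.nd (nat_lit 78) (nat_lit 152) (nat_lit 0) (XT.lf (nat_lit 76) (nat_lit 8122337417) (nat_lit 0) (nat_lit 1580075270) (nat_lit 76) (nat_lit 13603381902) (nat_lit 164) (nat_lit 3) (nat_lit 163) (nat_lit 1) (nat_lit 164) (nat_lit 1) (nat_lit 308) (nat_lit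 385) (nat_lit 327)) (XT.lf (nat_lit 152) (nat_lit 18944254678) (nat_lit 0) (nat_lit 2647461973) (nat_lit 76) (nat_lit 1119612740) (nat_lit 163) (nat_lit 1) (nat_lit 161) (nat_lit 1) (nat_lit 162) (nat_lit 1) (nat_lit 309) (nat_lit 385) (nat_lit 326))))) (XT.nd (nat_lit 234) (nat_lit 456) (nat_lit 0) (XT.nd (nat_lit 78) (nat_lit 228) (nat_lit 0) (XT.lf (nat_lit 76) (nat_lit 7044115884) (nat_lit 0) (nat_lit 3564030450) (nat_lit 76) (nat_lit 11519460848) (nat_lit 161) (nat_lit 3) (nat_lit 160) (nat_lit 1) (nat_lit 161) (nat_lit 1) (nat_lit 310) (nat_lit 385) (nat_lit 325)) (XT.nd (nat_lit 78) (nat_lit 76) (nat_lit 0) (XT.lf (nat_lit 0) (nat_lit 297320425) (nat_lit 0) (nat_lit 4243832739) (nat_lit 152) (nat_lit 17023042241) (nat_lit 158) (nat_lit 3) (nat_lit 158) (nat_lit 1) (nat_lit 160) (nat_lit 1) (nat_lit 311) (nat_lit 385) (nat_lit 324)) (XT.lf (nat_lit 76) (nat_lit 5991737067) (nat_lit 0) (nat_lit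 5373164163) (nat_lit 76) (nat_lit 9645915135) (nat_lit 158) (nat_lit 3) (nat_lit 157) (nat_lit 1) (nat_lit 158) (nat_lit 1) (nat_lit 312) (nat_lit 385) (nat_lit 323)))) (XT.nd (nat_lit 156) (nat_lit 228) (nat_lit 0) (XT.nd (nat_lit 78) (nat_lit 76) (nat_lit 0) (XT.lf (nat_lit 0) (nat_lit 1512106480) (nat_lit 0) (nat_lit 4734485729) (nat_lit 152) (nat_lit 14229289539) (nat_lit 155) (nat_lit 3) (nat_lit 155) (nat_lit 1) (nat_lit 157) (nat_lit 1) (nat_lit 313) (nat_lit 385) (nat_lit 322)) (XT.lf (nat_lit 76) (nat_lit 4976997026) (nat_lit 0) (nat_lit 7014246361) (nat_lit 76) (nat_lit 7960681516) (nat_lit 155) (nat_lit 3) (nat_lit 154) (nat_lit 1) (nat_lit 155) (nat_lit 1) (nat_lit 314) (nat_lit 385) (nat_lit 321))) (XT.nd (nat_lit 78) (nat_lit 76) (nat_lit 0) (XT.lf (nat_lit 0) (nat_lit 2579092609) (nat_lit 0) (nat_lit 5210207680) (nat_lit 152) (nat_lit 11654589912) (nat_lit 152) (nat_lit 3) (nat_lit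 152) (nat_lit 1) (nat_lit 154) (nat_lit 1) (nat_lit 315) (nat_lit 385) (nat_lit 320)) (XT.lf (nat_lit 76) (nat_lit 4008282573) (nat_lit 0) (nat_lit 8494902760) (nat_lit 76) (nat_lit 6444500231) (nat_lit 152) (nat_lit 3) (nat_lit 151) (nat_lit 1) (nat_lit 152) (nat_lit 1) (nat_lit 316) (nat_lit 385) (nat_lit 319)))))) (XT.nd (nat_lit 468) (nat_lit 912) (nat_lit 0) (XT.nd (nat_lit 234) (nat_lit 304) (nat_lit 0) (XT.nd (nat_lit 78) (nat_lit 228) (nat_lit 0) (XT.lf (nat_lit 0) (nat_lit 3514396557) (nat_lit 0) (nat_lit 5662736644) (nat_lit 152) (nat_lit 9287951572) (nat_lit 149) (nat_lit 3) (nat_lit 149) (nat_lit 1) (nat_lit 151) (nat_lit 1) (nat_lit 317) (nat_lit 385) (nat_lit 318)) (XT.nd (nat_lit 78) (nat_lit 152) (nat_lit 0) (XT.lf (nat_lit 76) (nat_lit 3091281152) (nat_lit 0) (nat_lit 9823309006) (nat_lit 76) (nat_lit 5080484936) (nat_lit 149) (nat_lit 3) (nat_lit 148) (nat_lit 1) (nat_lit 149)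 (nat_lit 1) (nat_lit 318) (nat_lit 385) (nat_lit 317)) (XT.lf (nat_lit 0) (nat_lit 4332109362) (nat_lit 0) (nat_lit 6086257320) (nat_lit 152) (nat_lit 7118175089) (nat_lit 146) (nat_lit 3) (nat_lit 146) (nat_lit 1) (nat_lit 148) (nat_lit 1) (nat_lit 319) (nat_lit 385) (nat_lit 316)))) (XT.nd (nat_lit 78) (nat_lit 228) (nat_lit 0) (XT.lf (nat_lit 76) (nat_lit 2229555080) (nat_lit 0) (nat_lit 11007950718) (nat_lit 76) (nat_lit 3853766151) (nat_lit 146) (nat_lit 3) (nat_lit 145) (nat_lit 1) (nat_lit 146) (nat_lit 1) (nat_lit 320) (nat_lit 385) (nat_lit 315)) (XT.nd (nat_lit 78) (nat_lit 76) (nat_lit 0) (XT.lf (nat_lit 0) (nat_lit 5044600622) (nat_lit 0) (nat_lit 6476885518) (nat_lit 152) (nat_lit 5134043104) (nat_lit 143) (nat_lit 3) (nat_lit 143) (nat_lit 1) (nat_lit 145) (nat_lit 1) (nat_lit 321) (nat_lit 385) (nat_lit 314)) (XT.lf (nat_lit 76) (nat_lit 1425005368) (nat_lit 0) (nat_lit 12057436717)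 (nat_lit 76) (nat_lit 2751195086) (nat_lit 143) (nat_lit 3) (nat_lit 142) (nat_lit 1) (nat_lit 143) (nat_lit 1) (nat_lit 322) (nat_lit 385) (nat_lit 313))))) (XT.nd (nat_lit 234) (nat_lit 532) (nat_lit 0) (XT.nd (nat_lit 78) (nat_lit 228) (nat_lit 0) (XT.lf (nat_lit 0) (nat_lit 5662772146) (nat_lit 0) (nat_lit 6832251615) (nat_lit 152) (nat_lit 3324465512) (nat_lit 140) (nat_lit 3) (nat_lit 140) (nat_lit 1) (nat_lit 142) (nat_lit 1) (nat_lit 323) (nat_lit 385) (nat_lit 312)) (XT.nd (nat_lit 78) (nat_lit 152) (nat_lit 0) (XT.lf (nat_lit 76) (nat_lit 678245690) (nat_lit 0) (nat_lit 12980355101) (nat_lit 76) (nat_lit 1761097050) (nat_lit 140) (nat_lit 3) (nat_lit 139) (nat_lit 1) (nat_lit 140) (nat_lit 1) (nat_lit 324) (nat_lit 385) (nat_lit 311)) (XT.lf (nat_lit 0) (nat_lit 6196269178) (nat_lit 0) (nat_lit 7151164557) (nat_lit 152) (nat_lit 1678588883) (nat_lit 137) (nat_lit 3) (nat_lit 137) (nat_lit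 1) (nat_lit 139) (nat_lit 1) (nat_lit 325) (nat_lit 385) (nat_lit 310)))) (XT.nd (nat_lit 156) (nat_lit 304) (nat_lit 0) (XT.nd (nat_lit 78) (nat_lit 76) (nat_lit 0) (XT.lf (nat_lit 76) (nat_lit 13774240307) (nat_lit 0) (nat_lit 10741555) (nat_lit 152) (nat_lit 862142199) (nat_lit 136) (nat_lit 1) (nat_lit 135) (nat_lit 1) (nat_lit 137) (nat_lit 1) (nat_lit 326) (nat_lit 385) (nat_lit 309)) (XT.lf (nat_lit 0) (nat_lit 6653656722) (nat_lit 0) (nat_lit 7433341368) (nat_lit 152) (nat_lit 185877243) (nat_lit 134) (nat_lit 3) (nat_lit 134) (nat_lit 1) (nat_lit 136) (nat_lit 1) (nat_lit 327) (nat_lit 385) (nat_lit 308))) (XT.nd (nat_lit 78) (nat_lit 76) (nat_lit 0) (XT.lf (nat_lit 152) (nat_lit 13280312737) (nat_lit 0) (nat_lit 574685581) (nat_lit 76) (nat_lit 57809935) (nat_lit 133) (nat_lit 1) (nat_lit 131) (nat_lit 1) (nat_lit 132) (nat_lit 1) (nat_lit 328) (nat_lit 385) (nat_lit 307)) (XT.lf (nat_lit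 76) (nat_lit 5859027115) (nat_lit 0) (nat_lit 1202311464) (nat_lit 76) (nat_lit 6495649891) (nat_lit 131) (nat_lit 3) (nat_lit 130) (nat_lit 1) (nat_lit 131) (nat_lit 1) (nat_lit 329) (nat_lit 385) (nat_lit 306))))))) (XT.nd (nat_lit 1014) (nat_lit 1672) (nat_lit 0) (XT.nd (nat_lit 468) (nat_lit 836) (nat_lit 0) (XT.nd (nat_lit 234) (nat_lit 304) (nat_lit 0) (XT.nd (nat_lit 78) (nat_lit 228) (nat_lit 0) (XT.lf (nat_lit 0) (nat_lit 662331659) (nat_lit 0) (nat_lit 1223727405) (nat_lit 152) (nat_lit 11328496161) (nat_lit 128) (nat_lit 3) (nat_lit 128) (nat_lit 1) (nat_lit 130) (nat_lit 1) (nat_lit 330) (nat_lit 385) (nat_lit 305)) (XT.nd (nat_lit 78) (nat_lit 152) (nat_lit 0) (XT.lf (nat_lit 76) (nat_lit 4949234587) (nat_lit 0) (nat_lit 2458980980) (nat_lit 76) (nat_lit 5469045463) (nat_lit 128) (nat_lit 3) (nat_lit 127) (nat_lit 1) (nat_lit 128) (nat_lit 1) (nat_lit 331) (nat_lit 385) (nat_lit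 304)) (XT.lf (nat_lit 0) (nat_lit 1303271828) (nat_lit 0) (nat_lit 1761658843) (nat_lit 152) (nat_lit 9486736031) (nat_lit 125) (nat_lit 3) (nat_lit 125) (nat_lit 1) (nat_lit 127) (nat_lit 1) (nat_lit 332) (nat_lit 385) (nat_lit 303)))) (XT.nd (nat_lit 78) (nat_lit 228) (nat_lit 0) (XT.lf (nat_lit 76) (nat_lit 4109961031) (nat_lit 0) (nat_lit 3587597864) (nat_lit 76) (nat_lit 4534393453) (nat_lit 125) (nat_lit 3) (nat_lit 124) (nat_lit 1) (nat_lit 125) (nat_lit 1) (nat_lit 333) (nat_lit 385) (nat_lit 302)) (XT.nd (nat_lit 78) (nat_lit 76) (nat_lit 0) (XT.lf (nat_lit 0) (nat_lit 1873631285) (nat_lit 0) (nat_lit 2247910316) (nat_lit 152) (nat_lit 7800805685) (nat_lit 122) (nat_lit 3) (nat_lit 122) (nat_lit 1) (nat_lit 124) (nat_lit 1) (nat_lit 334) (nat_lit 385) (nat_lit 301)) (XT.lf (nat_lit 76) (nat_lit 3337709302) (nat_lit 0) (nat_lit 4597304878) (nat_lit 76) (nat_lit 3684263961) (nat_lit 122)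 (nat_lit 3) (nat_lit 121) (nat_lit 1) (nat_lit 122) (nat_lit 1) (nat_lit 335) (nat_lit 385) (nat_lit 300))))) (XT.nd (nat_lit 234) (nat_lit 456) (nat_lit 0) (XT.nd (nat_lit 78) (nat_lit 228) (nat_lit 0) (XT.lf (nat_lit 0) (nat_lit 2379556229) (nat_lit 0) (nat_lit 2685159984) (nat_lit 152) (nat_lit 6260142977) (nat_lit 119) (nat_lit 3) (nat_lit 119) (nat_lit 1) (nat_lit 121) (nat_lit 1) (nat_lit 336) (nat_lit 385) (nat_lit 299)) (XT.nd (nat_lit 78) (nat_lit 152) (nat_lit 0) (XT.lf (nat_lit 76) (nat_lit 2628908554) (nat_lit 0) (nat_lit 5496769547) (nat_lit 76) (nat_lit 2911874995) (nat_lit 119) (nat_lit 3) (nat_lit 118) (nat_lit 1) (nat_lit 119) (nat_lit 1) (nat_lit 337) (nat_lit 385) (nat_lit 298)) (XT.lf (nat_lit 0) (nat_lit 2826639232) (nat_lit 0) (nat_lit 3076168721) (nat_lit 152) (nat_lit 4854752466) (nat_lit 116) (nat_lit 3) (nat_lit 116) (nat_lit 1) (nat_lit 118) (nat_lit 1) (nat_lit 338)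 (nat_lit 385) (nat_lit 297)))) (XT.nd (nat_lit 156) (nat_lit 228) (nat_lit 0) (XT.nd (nat_lit 78) (nat_lit 152) (nat_lit 0) (XT.lf (nat_lit 76) (nat_lit 1979976392) (nat_lit 0) (nat_lit 6294185672) (nat_lit 76) (nat_lit 2211022215) (nat_lit 116) (nat_lit 3) (nat_lit 115) (nat_lit 1) (nat_lit 116) (nat_lit 1) (nat_lit 339) (nat_lit 385) (nat_lit 296)) (XT.lf (nat_lit 0) (nat_lit 3219979787) (nat_lit 0) (nat_lit 3423723899) (nat_lit 152) (nat_lit 3575194831) (nat_lit 113) (nat_lit 3) (nat_lit 113) (nat_lit 1) (nat_lit 115) (nat_lit 1) (nat_lit 340) (nat_lit 385) (nat_lit 295))) (XT.nd (nat_lit 78) (nat_lit 152) (nat_lit 0) (XT.lf (nat_lit 76) (nat_lit 1387366498) (nat_lit 0) (nat_lit 6997280220) (nat_lit 76) (nat_lit 1576018453) (nat_lit 113) (nat_lit 3) (nat_lit 112) (nat_lit 1) (nat_lit 113) (nat_lit 1) (nat_lit 341) (nat_lit 385) (nat_lit 294)) (XT.lf (nat_lit 0) (nat_lit 3564236439) (nat_lit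 0) (nat_lit 3730596188) (nat_lit 152) (nat_lit 2412572224) (nat_lit 110) (nat_lit 3) (nat_lit 110) (nat_lit 1) (nat_lit 112) (nat_lit 1) (nat_lit 342) (nat_lit 385) (nat_lit 293)))))) (XT.nd (nat_lit 546) (nat_lit 760) (nat_lit 0) (XT.nd (nat_lit 234) (nat_lit 608) (nat_lit 0) (XT.nd (nat_lit 78) (nat_lit 228) (nat_lit 0) (XT.lf (nat_lit 76) (nat_lit 847604606) (nat_lit 0) (nat_lit 7613324215) (nat_lit 76) (nat_lit 1001641410) (nat_lit 110) (nat_lit 3) (nat_lit 109) (nat_lit 1) (nat_lit 110) (nat_lit 1) (nat_lit 343) (nat_lit 385) (nat_lit 292)) (XT.nd (nat_lit 78) (nat_lit 76) (nat_lit 0) (XT.lf (nat_lit 0) (nat_lit 3863671897) (nat_lit 0) (nat_lit 3999506822) (nat_lit 152) (nat_lit 1358510707) (nat_lit 107) (nat_lit 3) (nat_lit 107) (nat_lit 1) (nat_lit 109) (nat_lit 1) (nat_lit 344) (nat_lit 385) (nat_lit 291)) (XT.lf (nat_lit 76) (nat_lit 357315129) (nat_lit 0) (nat_lit 8149146599) (nat_lit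 76) (nat_lit 483088207) (nat_lit 107) (nat_lit 3) (nat_lit 106) (nat_lit 1) (nat_lit 107) (nat_lit 1) (nat_lit 345) (nat_lit 385) (nat_lit 290)))) (XT.nd (nat_lit 156) (nat_lit 228) (nat_lit 0) (XT.nd (nat_lit 78) (nat_lit 228) (nat_lit 0) (XT.lf (nat_lit 0) (nat_lit 4122192240) (nat_lit 0) (nat_lit 4233103244) (nat_lit 152) (nat_lit 405140638) (nat_lit 104) (nat_lit 3) (nat_lit 104) (nat_lit 1) (nat_lit 106) (nat_lit 1) (nat_lit 346) (nat_lit 385) (nat_lit 289)) (XT.lf (nat_lit 152) (nat_lit 8455099168) (nat_lit 0) (nat_lit 71766372) (nat_lit 76) (nat_lit 13336918) (nat_lit 103) (nat_lit 1) (nat_lit 101) (nat_lit 1) (nat_lit 102) (nat_lit 1) (nat_lit 347) (nat_lit 385) (nat_lit 288))) (XT.nd (nat_lit 78) (nat_lit 152) (nat_lit 0) (XT.lf (nat_lit 76) (nat_lit 3880752501) (nat_lit 0) (nat_lit 469966138) (nat_lit 76) (nat_lit 3971312795) (nat_lit 101) (nat_lit 3) (nat_lit 100) (nat_lit 1) (nat_lit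 101) (nat_lit 1) (nat_lit 348) (nat_lit 385) (nat_lit 287)) (XT.lf (nat_lit 0) (nat_lit 413199311) (nat_lit 0) (nat_lit 493058477) (nat_lit 152) (nat_lit 7206003548) (nat_lit 98) (nat_lit 3) (nat_lit 98) (nat_lit 1) (nat_lit 100) (nat_lit 1) (nat_lit 349) (nat_lit 385) (nat_lit 286))))) (XT.nd (nat_lit 234) (nat_lit 456) (nat_lit 0) (XT.nd (nat_lit 78) (nat_lit 228) (nat_lit 0) (XT.lf (nat_lit 76) (nat_lit 3281114087) (nat_lit 0) (nat_lit 1269232142) (nat_lit 76) (nat_lit 3355057760) (nat_lit 98) (nat_lit 3) (nat_lit 97) (nat_lit 1) (nat_lit 98) (nat_lit 1) (nat_lit 350) (nat_lit 385) (nat_lit 285)) (XT.nd (nat_lit 78) (nat_lit 76) (nat_lit 0) (XT.lf (nat_lit 0) (nat_lit 795146732) (nat_lit 0) (nat_lit 860352793) (nat_lit 152) (nat_lit 6050382473) (nat_lit 95) (nat_lit 3) (nat_lit 95) (nat_lit 1) (nat_lit 97) (nat_lit 1) (nat_lit 351) (nat_lit 385) (nat_lit 284)) (XT.lf (nat_lit 76) (nat_lit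 2731709283) (nat_lit 0) (nat_lit 1985961259) (nat_lit 76) (nat_lit 2792085265) (nat_lit 95) (nat_lit 3) (nat_lit 94) (nat_lit 1) (nat_lit 95) (nat_lit 1) (nat_lit 352) (nat_lit 385) (nat_lit 283)))) (XT.nd (nat_lit 156) (nat_lit 228) (nat_lit 0) (XT.nd (nat_lit 78) (nat_lit 76) (nat_lit 0) (XT.lf (nat_lit 0) (nat_lit 1136445798) (nat_lit 0) (nat_lit 1189687405) (nat_lit 152) (nat_lit 4993843873) (nat_lit 92) (nat_lit 3) (nat_lit 92) (nat_lit 1) (nat_lit 94) (nat_lit 1) (nat_lit 353) (nat_lit 385) (nat_lit 282)) (XT.lf (nat_lit 76) (nat_lit 2229150477) (nat_lit 0) (nat_lit 2626422003) (nat_lit 76) (nat_lit 2278448261) (nat_lit 92) (nat_lit 3) (nat_lit 91) (nat_lit 1) (nat_lit 92) (nat_lit 1) (nat_lit 354) (nat_lit 385) (nat_lit 281))) (XT.nd (nat_lit 78) (nat_lit 76) (nat_lit 0) (XT.lf (nat_lit 0) (nat_lit 1440346623) (nat_lit 0) (nat_lit 1483819096) (nat_lit 152) (nat_lit 4029340155) (nat_lit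 89) (nat_lit 3) (nat_lit 89) (nat_lit 1) (nat_lit 91) (nat_lit 1) (nat_lit 355) (nat_lit 385) (nat_lit 280)) (XT.lf (nat_lit 76) (nat_lit 1770230657) (nat_lit 0) (nat_lit 3196474351) (nat_lit 76) (nat_lit 1810482947) (nat_lit 89) (nat_lit 3) (nat_lit 88) (nat_lit 1) (nat_lit 89) (nat_lit 1) (nat_lit 356) (nat_lit 385) (nat_lit 279))))))))
noncomputable def ec131 : XT := (XT.nd (nat_lit 2106) (nat_lit 3344) (nat_lit 0) (XT.nd (nat_lit 1014) (nat_lit 1596) (nat_lit 0) (XT.nd (nat_lit 468) (nat_lit 912) (nat_lit 0) (XT.nd (nat_lit 234) (nat_lit 304) (nat_lit 0) (XT.nd (nat_lit 78) (nat_lit 228) (nat_lit 0) (XT.lf (nat_lit 0) (nat_lit 1709857129) (nat_lit 0) (nat_lit 1745352975) (nat_lit 152) (nat_lit 3150271521) (nat_lit 86) (nat_lit 3) (nat_lit 86) (nat_lit 1) (nat_lit 88) (nat_lit 1) (nat_lit 357) (nat_lit 385) (nat_lit 278)) (XT.nd (nat_lit 78) (nat_lit 152) (nat_lit 0) (XT.lf (nat_lit 76) (nat_lit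 1351920220) (nat_lit 0) (nat_lit 3701591910) (nat_lit 76) (nat_lit 1384786745) (nat_lit 86) (nat_lit 3) (nat_lit 85) (nat_lit 1) (nat_lit 86) (nat_lit 1) (nat_lit 358) (nat_lit 385) (nat_lit 277)) (XT.lf (nat_lit 0) (nat_lit 1947762192) (nat_lit 0) (nat_lit 1976745017) (nat_lit 152) (nat_lit 2350461330) (nat_lit 83) (nat_lit 3) (nat_lit 83) (nat_lit 1) (nat_lit 85) (nat_lit 1) (nat_lit 359) (nat_lit 385) (nat_lit 276)))) (XT.nd (nat_lit 78) (nat_lit 228) (nat_lit 0) (XT.lf (nat_lit 76) (nat_lit 971362455) (nat_lit 0) (nat_lit 4146883492) (nat_lit 76) (nat_lit 998198404) (nat_lit 83) (nat_lit 3) (nat_lit 82) (nat_lit 1) (nat_lit 83) (nat_lit 1) (nat_lit 360) (nat_lit 385) (nat_lit 275)) (XT.nd (nat_lit 78) (nat_lit 76) (nat_lit 0) (XT.lf (nat_lit 0) (nat_lit 2156640948) (nat_lit 0) (nat_lit 2180305807) (nat_lit 152) (nat_lit 1624132291) (nat_lit 80) (nat_lit 3) (nat_lit 80) (nat_lit 1) (nat_lit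 82) (nat_lit 1) (nat_lit 361) (nat_lit 385) (nat_lit 274)) (XT.lf (nat_lit 76) (nat_lit 625868052) (nat_lit 0) (nat_lit 4537113983) (nat_lit 76) (nat_lit 647779958) (nat_lit 80) (nat_lit 3) (nat_lit 79) (nat_lit 1) (nat_lit 80) (nat_lit 1) (nat_lit 362) (nat_lit 385) (nat_lit 273))))) (XT.nd (nat_lit 234) (nat_lit 532) (nat_lit 0) (XT.nd (nat_lit 78) (nat_lit 228) (nat_lit 0) (XT.lf (nat_lit 0) (nat_lit 2338882483) (nat_lit 0) (nat_lit 2358205152) (nat_lit 152) (nat_lit 965883568) (nat_lit 77) (nat_lit 3) (nat_lit 77) (nat_lit 1) (nat_lit 79) (nat_lit 1) (nat_lit 363) (nat_lit 385) (nat_lit 272)) (XT.nd (nat_lit 78) (nat_lit 152) (nat_lit 0) (XT.lf (nat_lit 76) (nat_lit 312908937) (nat_lit 0) (nat_lit 4876724425) (nat_lit 76) (nat_lit 330800297) (nat_lit 77) (nat_lit 3) (nat_lit 76) (nat_lit 1) (nat_lit 77) (nat_lit 1) (nat_lit 364) (nat_lit 385) (nat_lit 271)) (XT.lf (nat_lit 0) (nat_lit 2496700103)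 (nat_lit 0) (nat_lit 2512477316) (nat_lit 152) (nat_lit 370668840) (nat_lit 74) (nat_lit 3) (nat_lit 74) (nat_lit 1) (nat_lit 76) (nat_lit 1) (nat_lit 365) (nat_lit 385) (nat_lit 270)))) (XT.nd (nat_lit 156) (nat_lit 228) (nat_lit 0) (XT.nd (nat_lit 78) (nat_lit 228) (nat_lit 0) (XT.lf (nat_lit 76) (nat_lit 30111653) (nat_lit 0) (nat_lit 5169851282) (nat_lit 76) (nat_lit 44720183) (nat_lit 74) (nat_lit 3) (nat_lit 73) (nat_lit 1) (nat_lit 74) (nat_lit 1) (nat_lit 366) (nat_lit 385) (nat_lit 269)) (XT.lf (nat_lit 76) (nat_lit 2463104609) (nat_lit 0) (nat_lit 171720794) (nat_lit 76) (nat_lit 2475986912) (nat_lit 71) (nat_lit 3) (nat_lit 70) (nat_lit 1) (nat_lit 71) (nat_lit 1) (nat_lit 367) (nat_lit 385) (nat_lit 268))) (XT.nd (nat_lit 78) (nat_lit 76) (nat_lit 0) (XT.lf (nat_lit 0) (nat_lit 216692127) (nat_lit 0) (nat_lit 228052182) (nat_lit 152) (nat_lit 4537329260) (nat_lit 68) (nat_lit 3) (nat_lit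 68) (nat_lit 1) (nat_lit 70) (nat_lit 1) (nat_lit 368) (nat_lit 385) (nat_lit 267)) (XT.lf (nat_lit 76) (nat_lit 2086924434) (nat_lit 0) (nat_lit 670661445) (nat_lit 76) (nat_lit 2097443003) (nat_lit 68) (nat_lit 3) (nat_lit 67) (nat_lit 1) (nat_lit 68) (nat_lit 1) (nat_lit 369) (nat_lit 385) (nat_lit 266)))))) (XT.nd (nat_lit 546) (nat_lit 760) (nat_lit 0) (XT.nd (nat_lit 234) (nat_lit 456) (nat_lit 0) (XT.nd (nat_lit 78) (nat_lit 228) (nat_lit 0) (XT.lf (nat_lit 0) (nat_lit 451610985) (nat_lit 0) (nat_lit 460886619) (nat_lit 152) (nat_lit 3820072491) (nat_lit 65) (nat_lit 3) (nat_lit 65) (nat_lit 1) (nat_lit 67) (nat_lit 1) (nat_lit 370) (nat_lit 385) (nat_lit 265)) (XT.nd (nat_lit 78) (nat_lit 152) (nat_lit 0) (XT.lf (nat_lit 76) (nat_lit 1742691622) (nat_lit 0) (nat_lit 1118137399) (nat_lit 76) (nat_lit 1751280172) (nat_lit 65) (nat_lit 3) (nat_lit 64) (nat_lit 1) (nat_lit 65) (nat_lit 1)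 (nat_lit 371) (nat_lit 385) (nat_lit 264)) (XT.lf (nat_lit 0) (nat_lit 661843019) (nat_lit 0) (nat_lit 669416696) (nat_lit 152) (nat_lit 3164363033) (nat_lit 62) (nat_lit 3) (nat_lit 62) (nat_lit 1) (nat_lit 64) (nat_lit 1) (nat_lit 372) (nat_lit 385) (nat_lit 263)))) (XT.nd (nat_lit 156) (nat_lit 228) (nat_lit 0) (XT.nd (nat_lit 78) (nat_lit 152) (nat_lit 0) (XT.lf (nat_lit 76) (nat_lit 1428143364) (nat_lit 0) (nat_lit 1518103180) (nat_lit 76) (nat_lit 1435156028) (nat_lit 62) (nat_lit 3) (nat_lit 61) (nat_lit 1) (nat_lit 62) (nat_lit 1) (nat_lit 373) (nat_lit 385) (nat_lit 262)) (XT.lf (nat_lit 0) (nat_lit 849315337) (nat_lit 0) (nat_lit 855499345) (nat_lit 152) (nat_lit 2565781360) (nat_lit 59) (nat_lit 3) (nat_lit 59) (nat_lit 1) (nat_lit 61) (nat_lit 1) (nat_lit 374) (nat_lit 385) (nat_lit 261))) (XT.nd (nat_lit 78) (nat_lit 152) (nat_lit 0) (XT.lf (nat_lit 76) (nat_lit 1141160211) (nat_lit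 0) (nat_lit 1874245183) (nat_lit 76) (nat_lit 1146886144) (nat_lit 59) (nat_lit 3) (nat_lit 58) (nat_lit 1) (nat_lit 59) (nat_lit 1) (nat_lit 375) (nat_lit 385) (nat_lit 260)) (XT.lf (nat_lit 0) (nat_lit 1015819917) (nat_lit 0) (nat_lit 1020869240) (nat_lit 152) (nat_lit 2020197760) (nat_lit 56) (nat_lit 3) (nat_lit 56) (nat_lit 1) (nat_lit 58) (nat_lit 1) (nat_lit 376) (nat_lit 385) (nat_lit 259))))) (XT.nd (nat_lit 234) (nat_lit 456) (nat_lit 0) (XT.nd (nat_lit 78) (nat_lit 228) (nat_lit 0) (XT.lf (nat_lit 76) (nat_lit 879758219) (nat_lit 0) (nat_lit 2189998346) (nat_lit 76) (nat_lit 884433519) (nat_lit 56) (nat_lit 3) (nat_lit 55) (nat_lit 1) (nat_lit 56) (nat_lit 1) (nat_lit 377) (nat_lit 385) (nat_lit 258)) (XT.nd (nat_lit 78) (nat_lit 76) (nat_lit 0) (XT.lf (nat_lit 0) (nat_lit 1163022814) (nat_lit 0) (nat_lit 1167145653) (nat_lit 152) (nat_lit 1523754595) (nat_lit 53) (nat_lit 3) (nat_lit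 53) (nat_lit 1) (nat_lit 55) (nat_lit 1) (nat_lit 378) (nat_lit 385) (nat_lit 257)) (XT.lf (nat_lit 76) (nat_lit 642081350) (nat_lit 0) (nat_lit 2468561897) (nat_lit 76) (nat_lit 645898793) (nat_lit 53) (nat_lit 3) (nat_lit 52) (nat_lit 1) (nat_lit 53) (nat_lit 1) (nat_lit 379) (nat_lit 385) (nat_lit 256)))) (XT.nd (nat_lit 156) (nat_lit 228) (nat_lit 0) (XT.nd (nat_lit 78) (nat_lit 76) (nat_lit 0) (XT.lf (nat_lit 0) (nat_lit 1292472714) (nat_lit 0) (nat_lit 1295839066) (nat_lit 152) (nat_lit 1072849539) (nat_lit 50) (nat_lit 3) (nat_lit 50) (nat_lit 1) (nat_lit 52) (nat_lit 1) (nat_lit 380) (nat_lit 385) (nat_lit 255)) (XT.lf (nat_lit 76) (nat_lit 426394162) (nat_lit 0) (nat_lit 2712914218) (nat_lit 76) (nat_lit 429511155) (nat_lit 50) (nat_lit 3) (nat_lit 49) (nat_lit 1) (nat_lit 50) (nat_lit 1) (nat_lit 381) (nat_lit 385) (nat_lit 254))) (XT.nd (nat_lit 78) (nat_lit 76) (nat_lit 0) (XT.lf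 (nat_lit 0) (nat_lit 1405608872) (nat_lit 0) (nat_lit 1408357543) (nat_lit 152) (nat_lit 664119766) (nat_lit 47) (nat_lit 3) (nat_lit 47) (nat_lit 1) (nat_lit 49) (nat_lit 1) (nat_lit 382) (nat_lit 385) (nat_lit 253)) (XT.lf (nat_lit 76) (nat_lit 231074810) (nat_lit 0) (nat_lit 2925826854) (nat_lit 76) (nat_lit 233619876) (nat_lit 47) (nat_lit 3) (nat_lit 46) (nat_lit 1) (nat_lit 47) (nat_lit 1) (nat_lit 383) (nat_lit 385) (nat_lit 252))))))) (XT.nd (nat_lit 1014) (nat_lit 1748) (nat_lit 0) (XT.nd (nat_lit 468) (nat_lit 760) (nat_lit 0) (XT.nd (nat_lit 234) (nat_lit 380) (nat_lit 0) (XT.nd (nat_lit 78) (nat_lit 304) (nat_lit 0) (XT.lf (nat_lit 0) (nat_lit 1503768497) (nat_lit 0) (nat_lit 1506012823) (nat_lit 152) (nat_lit 294427040) (nat_lit 44) (nat_lit 3) (nat_lit 44) (nat_lit 1) (nat_lit 46) (nat_lit 1) (nat_lit 384) (nat_lit 385) (nat_lit 251)) (XT.nd (nat_lit 78) (nat_lit 228) (nat_lit 0)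 (XT.lf (nat_lit 76) (nat_lit 54608341) (nat_lit 0) (nat_lit 3109877718) (nat_lit 76) (nat_lit 56686421) (nat_lit 44) (nat_lit 3) (nat_lit 43) (nat_lit 1) (nat_lit 44) (nat_lit 1) (nat_lit 385) (nat_lit 385) (nat_lit 250)) (XT.lf (nat_lit 76) (nat_lit 1548374166) (nat_lit 0) (nat_lit 40451014) (nat_lit 76) (nat_lit 1550206688) (nat_lit 41) (nat_lit 3) (nat_lit 40) (nat_lit 1) (nat_lit 41) (nat_lit 1) (nat_lit 386) (nat_lit 385) (nat_lit 249)))) (XT.nd (nat_lit 78) (nat_lit 228) (nat_lit 0) (XT.lf (nat_lit 0) (nat_lit 104461190) (nat_lit 0) (nat_lit 106077170) (nat_lit 152) (nat_lit 2849451083) (nat_lit 38) (nat_lit 3) (nat_lit 38) (nat_lit 1) (nat_lit 40) (nat_lit 1) (nat_lit 387) (nat_lit 385) (nat_lit 248)) (XT.nd (nat_lit 78) (nat_lit 152) (nat_lit 0) (XT.lf (nat_lit 76) (nat_lit 1314929577) (nat_lit 0) (nat_lit 350581517) (nat_lit 76) (nat_lit 1316425855) (nat_lit 38) (nat_lit 3) (nat_lit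 37) (nat_lit 1) (nat_lit 38) (nat_lit 1) (nat_lit 388) (nat_lit 385) (nat_lit 247)) (XT.lf (nat_lit 0) (nat_lit 250020012) (nat_lit 0) (nat_lit 251339481) (nat_lit 152) (nat_lit 2405389509) (nat_lit 35) (nat_lit 3) (nat_lit 35) (nat_lit 1) (nat_lit 37) (nat_lit 1) (nat_lit 389) (nat_lit 385) (nat_lit 246))))) (XT.nd (nat_lit 234) (nat_lit 456) (nat_lit 0) (XT.nd (nat_lit 78) (nat_lit 228) (nat_lit 0) (XT.lf (nat_lit 76) (nat_lit 1101329886) (nat_lit 0) (nat_lit 628859052) (nat_lit 76) (nat_lit 1102551617) (nat_lit 35) (nat_lit 3) (nat_lit 34) (nat_lit 1) (nat_lit 35) (nat_lit 1) (nat_lit 390) (nat_lit 385) (nat_lit 245)) (XT.nd (nat_lit 78) (nat_lit 76) (nat_lit 0) (XT.lf (nat_lit 0) (nat_lit 380391395) (nat_lit 0) (nat_lit 381468759) (nat_lit 152) (nat_lit 1999358374) (nat_lit 32) (nat_lit 3) (nat_lit 32) (nat_lit 1) (nat_lit 34) (nat_lit 1) (nat_lit 391) (nat_lit 385) (nat_lit 244)) (XT.lf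 (nat_lit 76) (nat_lit 906155807) (nat_lit 0) (nat_lit 877734414) (nat_lit 76) (nat_lit 907153366) (nat_lit 32) (nat_lit 3) (nat_lit 31) (nat_lit 1) (nat_lit 32) (nat_lit 1) (nat_lit 392) (nat_lit 385) (nat_lit 243)))) (XT.nd (nat_lit 156) (nat_lit 228) (nat_lit 0) (XT.nd (nat_lit 78) (nat_lit 76) (nat_lit 0) (XT.lf (nat_lit 0) (nat_lit 496752551) (nat_lit 0) (nat_lit 497632232) (nat_lit 152) (nat_lit 1628623396) (nat_lit 29) (nat_lit 3) (nat_lit 29) (nat_lit 1) (nat_lit 31) (nat_lit 1) (nat_lit 393) (nat_lit 385) (nat_lit 242)) (XT.lf (nat_lit 76) (nat_lit 728080906) (nat_lit 0) (nat_lit 1099490886) (nat_lit 76) (nat_lit 728895426) (nat_lit 29) (nat_lit 3) (nat_lit 28) (nat_lit 1) (nat_lit 29) (nat_lit 1) (nat_lit 394) (nat_lit 385) (nat_lit 241))) (XT.nd (nat_lit 78) (nat_lit 76) (nat_lit 0) (XT.lf (nat_lit 0) (nat_lit 600199448) (nat_lit 0) (nat_lit 600917720) (nat_lit 152) (nat_lit 1290630770)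 (nat_lit 26) (nat_lit 3) (nat_lit 26) (nat_lit 1) (nat_lit 28) (nat_lit 1) (nat_lit 395) (nat_lit 385) (nat_lit 240)) (XT.lf (nat_lit 76) (nat_lit 565865930) (nat_lit 0) (nat_lit 1296254941) (nat_lit 76) (nat_lit 566530997) (nat_lit 26) (nat_lit 3) (nat_lit 25) (nat_lit 1) (nat_lit 26) (nat_lit 1) (nat_lit 396) (nat_lit 385) (nat_lit 239)))))) (XT.nd (nat_lit 546) (nat_lit 912) (nat_lit 0) (XT.nd (nat_lit 234) (nat_lit 456) (nat_lit 0) (XT.nd (nat_lit 78) (nat_lit 228) (nat_lit 0) (XT.lf (nat_lit 0) (nat_lit 691752122) (nat_lit 0) (nat_lit 692338601) (nat_lit 152) (nat_lit 982995872) (nat_lit 23) (nat_lit 3) (nat_lit 23) (nat_lit 1) (nat_lit 25) (nat_lit 1) (nat_lit 397) (nat_lit 385) (nat_lit 238)) (XT.nd (nat_lit 78) (nat_lit 152) (nat_lit 0) (XT.lf (nat_lit 76) (nat_lit 418353448) (nat_lit 0) (nat_lit 1470006283) (nat_lit 76) (nat_lit 418896483) (nat_lit 23) (nat_lit 3) (nat_lit 22) (nat_lit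 1) (nat_lit 23) (nat_lit 1) (nat_lit 398) (nat_lit 385) (nat_lit 237)) (XT.lf (nat_lit 0) (nat_lit 772359634) (nat_lit 0) (nat_lit 772838501) (nat_lit 152) (nat_lit 703492646) (nat_lit 20) (nat_lit 3) (nat_lit 20) (nat_lit 1) (nat_lit 22) (nat_lit 1) (nat_lit 399) (nat_lit 385) (nat_lit 236)))) (XT.nd (nat_lit 156) (nat_lit 228) (nat_lit 0) (XT.nd (nat_lit 78) (nat_lit 152) (nat_lit 0) (XT.lf (nat_lit 76) (nat_lit 284462787) (nat_lit 0) (nat_lit 1622587289) (nat_lit 76) (nat_lit 284906183) (nat_lit 20) (nat_lit 3) (nat_lit 19) (nat_lit 1) (nat_lit 20) (nat_lit 1) (nat_lit 400) (nat_lit 385) (nat_lit 235)) (XT.lf (nat_lit 0) (nat_lit 842904717) (nat_lit 0) (nat_lit 843295718) (nat_lit 152) (nat_lit 450043627) (nat_lit 17) (nat_lit 3) (nat_lit 17) (nat_lit 1) (nat_lit 19) (nat_lit 1) (nat_lit 401) (nat_lit 385) (nat_lit 234))) (XT.nd (nat_lit 78) (nat_lit 152) (nat_lit 0) (XT.lf (nat_lit 76) (nat_lit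 163185268) (nat_lit 0) (nat_lit 1755711866) (nat_lit 76) (nat_lit 163547307) (nat_lit 17) (nat_lit 3) (nat_lit 16) (nat_lit 1) (nat_lit 17) (nat_lit 1) (nat_lit 402) (nat_lit 385) (nat_lit 233)) (XT.lf (nat_lit 0) (nat_lit 904208126) (nat_lit 0) (nat_lit 904527384) (nat_lit 152) (nat_lit 220710558) (nat_lit 14) (nat_lit 3) (nat_lit 14) (nat_lit 1) (nat_lit 16) (nat_lit 1) (nat_lit 403) (nat_lit 385) (nat_lit 232))))) (XT.nd (nat_lit 234) (nat_lit 456) (nat_lit 0) (XT.nd (nat_lit 78) (nat_lit 380) (nat_lit 0) (XT.lf (nat_lit 76) (nat_lit 53579709) (nat_lit 0) (nat_lit 1870973773) (nat_lit 76) (nat_lit 53875318) (nat_lit 14) (nat_lit 3) (nat_lit 13) (nat_lit 1) (nat_lit 14) (nat_lit 1) (nat_lit 404) (nat_lit 385) (nat_lit 231)) (XT.nd (nat_lit 78) (nat_lit 228) (nat_lit 0) (XT.lf (nat_lit 0) (nat_lit 957032705) (nat_lit 0) (nat_lit 957293383) (nat_lit 152) (nat_lit 13685586) (nat_lit 11) (nat_lit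 3) (nat_lit 11) (nat_lit 1) (nat_lit 13) (nat_lit 1) (nat_lit 405) (nat_lit 385) (nat_lit 230)) (XT.lf (nat_lit 0) (nat_lit 45735714) (nat_lit 0) (nat_lit 45965589) (nat_lit 152) (nat_lit 1787786491) (nat_lit 8) (nat_lit 3) (nat_lit 8) (nat_lit 1) (nat_lit 10) (nat_lit 1) (nat_lit 406) (nat_lit 385) (nat_lit 229)))) (XT.nd (nat_lit 156) (nat_lit 228) (nat_lit 0) (XT.nd (nat_lit 78) (nat_lit 152) (nat_lit 0) (XT.lf (nat_lit 76) (nat_lit 826445131) (nat_lit 0) (nat_lit 178427824) (nat_lit 76) (nat_lit 826657978) (nat_lit 8) (nat_lit 3) (nat_lit 7) (nat_lit 1) (nat_lit 8) (nat_lit 1) (nat_lit 407) (nat_lit 385) (nat_lit 228)) (XT.lf (nat_lit 0) (nat_lit 136071759) (nat_lit 0) (nat_lit 136259455) (nat_lit 152) (nat_lit 1513031465) (nat_lit 5) (nat_lit 3) (nat_lit 5) (nat_lit 1) (nat_lit 7) (nat_lit 1) (nat_lit 408) (nat_lit 385) (nat_lit 227))) (XT.nd (nat_lit 78) (nat_lit 152) (nat_lit 0) (XT.lf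 (nat_lit 76) (nat_lit 694201947) (nat_lit 0) (nat_lit 351312841) (nat_lit 76) (nat_lit 694375739) (nat_lit 5) (nat_lit 3) (nat_lit 4) (nat_lit 1) (nat_lit 5) (nat_lit 1) (nat_lit 409) (nat_lit 385) (nat_lit 226)) (XT.lf (nat_lit 0) (nat_lit 217036490) (nat_lit 0) (nat_lit 217189746) (nat_lit 152) (nat_lit 1261746954) (nat_lit 2) (nat_lit 3) (nat_lit 2) (nat_lit 1) (nat_lit 4) (nat_lit 1) (nat_lit 410) (nat_lit 385) (nat_lit 225))))))))
noncomputable def ec132 : XT := (XT.nd (nat_lit 41886) (nat_lit 0) (nat_lit 13908) (XT.nd (nat_lit 40872) (nat_lit 0) (nat_lit 18392) (XT.nd (nat_lit 468) (nat_lit 0) (nat_lit 0) (XT.nd (nat_lit 234) (nat_lit 0) (nat_lit 0) (XT.nd (nat_lit 78) (nat_lit 76) (nat_lit 0) (XT.lf (nat_lit 76) (nat_lit 573342404) (nat_lit 0) (nat_lit 506029699) (nat_lit 76) (nat_lit 573484308) (nat_lit 2) (nat_lit 3) (nat_lit 1) (nat_lit 1) (nat_lit 2) (nat_lit 1) (nat_lit 411) (nat_lit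 385) (nat_lit 224)) (XT.nd (nat_lit 78) (nat_lit 0) (nat_lit 0) (XT.lf (nat_lit 0) (nat_lit 34274453473) (nat_lit 0) (nat_lit 0) (nat_lit 0) (nat_lit 0) (nat_lit 0) (nat_lit 0) (nat_lit 1) (nat_lit 0) (nat_lit 1) (nat_lit 0) (nat_lit 412) (nat_lit 385) (nat_lit 223)) (XT.lf (nat_lit 0) (nat_lit 34274443701) (nat_lit 0) (nat_lit 0) (nat_lit 0) (nat_lit 0) (nat_lit 0) (nat_lit 0) (nat_lit 1) (nat_lit 0) (nat_lit 1) (nat_lit 0) (nat_lit 413) (nat_lit 385) (nat_lit 222)))) (XT.nd (nat_lit 78) (nat_lit 0) (nat_lit 0) (XT.lf (nat_lit 0) (nat_lit 34274434653) (nat_lit 0) (nat_lit 0) (nat_lit 0) (nat_lit 0) (nat_lit 0) (nat_lit 0) (nat_lit 1) (nat_lit 0) (nat_lit 1) (nat_lit 0) (nat_lit 414) (nat_lit 385) (nat_lit 221)) (XT.nd (nat_lit 78) (nat_lit 0) (nat_lit 0) (XT.lf (nat_lit 0) (nat_lit 34274426275) (nat_lit 0) (nat_lit 0) (nat_lit 0) (nat_lit 0) (nat_lit 0) (nat_lit 0) (nat_lit 1) (nat_lit 0) (nat_lit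 1) (nat_lit 0) (nat_lit 415) (nat_lit 385) (nat_lit 220)) (XT.lf (nat_lit 0) (nat_lit 34274418518) (nat_lit 0) (nat_lit 0) (nat_lit 0) (nat_lit 0) (nat_lit 0) (nat_lit 0) (nat_lit 1) (nat_lit 0) (nat_lit 1) (nat_lit 0) (nat_lit 416) (nat_lit 385) (nat_lit 219))))) (XT.nd (nat_lit 40092) (nat_lit 0) (nat_lit 22268) (XT.nd (nat_lit 39936) (nat_lit 0) (nat_lit 22192) (XT.lf (nat_lit 0) (nat_lit 34274411335) (nat_lit 0) (nat_lit 0) (nat_lit 0) (nat_lit 0) (nat_lit 0) (nat_lit 0) (nat_lit 1) (nat_lit 0) (nat_lit 1) (nat_lit 0) (nat_lit 417) (nat_lit 385) (nat_lit 218)) (XT.nd (nat_lit 78) (nat_lit 0) (nat_lit 76) (XT.lf (nat_lit 836) (nat_lit 18524326684) (nat_lit 0) (nat_lit 32889899449) (nat_lit 836) (nat_lit 18524326684) (nat_lit 303) (nat_lit 1) (nat_lit 292) (nat_lit 0) (nat_lit 303) (nat_lit 0) (nat_lit 248) (nat_lit 386) (nat_lit 386)) (XT.lf (nat_lit 836) (nat_lit 6910142256) (nat_lit 0) (nat_lit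 64572840766) (nat_lit 760) (nat_lit 63152022536) (nat_lit 304) (nat_lit 1) (nat_lit 293) (nat_lit 1) (nat_lit 303) (nat_lit 1) (nat_lit 249) (nat_lit 386) (nat_lit 385)))) (XT.nd (nat_lit 156) (nat_lit 0) (nat_lit 152) (XT.nd (nat_lit 78) (nat_lit 0) (nat_lit 76) (XT.lf (nat_lit 836) (nat_lit 63465668033) (nat_lit 76) (nat_lit 43244453227) (nat_lit 0) (nat_lit 22934885348) (nat_lit 304) (nat_lit 1) (nat_lit 294) (nat_lit 1) (nat_lit 293) (nat_lit 1) (nat_lit 250) (nat_lit 386) (nat_lit 384)) (XT.lf (nat_lit 836) (nat_lit 54839536363) (nat_lit 76) (nat_lit 18123450605) (nat_lit 0) (nat_lit 51941732894) (nat_lit 305) (nat_lit 1) (nat_lit 295) (nat_lit 1) (nat_lit 294) (nat_lit 1) (nat_lit 251) (nat_lit 386) (nat_lit 383))) (XT.nd (nat_lit 78) (nat_lit 0) (nat_lit 76) (XT.lf (nat_lit 836) (nat_lit 40585919204) (nat_lit 0) (nat_lit 75934336418) (nat_lit 760) (nat_lit 3881752428) (nat_lit 306) (nat_lit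 1) (nat_lit 295) (nat_lit 1) (nat_lit 305) (nat_lit 1) (nat_lit 252) (nat_lit 386) (nat_lit 382)) (XT.lf (nat_lit 836) (nat_lit 9738193379) (nat_lit 0) (nat_lit 83738701277) (nat_lit 760) (nat_lit 22637437590) (nat_lit 307) (nat_lit 1) (nat_lit 296) (nat_lit 1) (nat_lit 306) (nat_lit 1) (nat_lit 253) (nat_lit 386) (nat_lit 381)))))) (XT.nd (nat_lit 468) (nat_lit 1824) (nat_lit 0) (XT.nd (nat_lit 234) (nat_lit 1064) (nat_lit 0) (XT.nd (nat_lit 78) (nat_lit 1216) (nat_lit 0) (XT.lf (nat_lit 836) (nat_lit 18712846816) (nat_lit 76) (nat_lit 72775750545) (nat_lit 0) (nat_lit 20538214686) (nat_lit 307) (nat_lit 1) (nat_lit 297) (nat_lit 1) (nat_lit 296) (nat_lit 1) (nat_lit 254) (nat_lit 386) (nat_lit 380)) (XT.nd (nat_lit 78) (nat_lit 532) (nat_lit 0) (XT.lf (nat_lit 836) (nat_lit 3843192025) (nat_lit 0) (nat_lit 54404687463) (nat_lit 760) (nat_lit 49888528360) (nat_lit 298) (nat_lit 1) (nat_lit 287)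 (nat_lit 1) (nat_lit 297) (nat_lit 1) (nat_lit 255) (nat_lit 386) (nat_lit 379)) (XT.lf (nat_lit 76) (nat_lit 26611062156) (nat_lit 0) (nat_lit 11531811610) (nat_lit 532) (nat_lit 66287336768) (nat_lit 281) (nat_lit 1) (nat_lit 280) (nat_lit 1) (nat_lit 287) (nat_lit 1) (nat_lit 256) (nat_lit 386) (nat_lit 378)))) (XT.nd (nat_lit 78) (nat_lit 684) (nat_lit 0) (XT.lf (nat_lit 456) (nat_lit 73336737852) (nat_lit 0) (nat_lit 23872689183) (nat_lit 380) (nat_lit 3690865254) (nat_lit 281) (nat_lit 1) (nat_lit 275) (nat_lit 1) (nat_lit 280) (nat_lit 1) (nat_lit 257) (nat_lit 386) (nat_lit 377)) (XT.nd (nat_lit 78) (nat_lit 304) (nat_lit 0) (XT.lf (nat_lit 456) (nat_lit 52920488399) (nat_lit 0) (nat_lit 11127163263) (nat_lit 380) (nat_lit 33474502556) (nat_lit 276) (nat_lit 1) (nat_lit 270) (nat_lit 1) (nat_lit 275) (nat_lit 1) (nat_lit 258) (nat_lit 386) (nat_lit 376)) (XT.lf (nat_lit 380) (nat_lit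 32201442246) (nat_lit 0) (nat_lit 204869158) (nat_lit 304) (nat_lit 61901503313) (nat_lit 271) (nat_lit 1) (nat_lit 266) (nat_lit 1) (nat_lit 270) (nat_lit 1) (nat_lit 259) (nat_lit 386) (nat_lit 375))))) (XT.nd (nat_lit 234) (nat_lit 1140) (nat_lit 0) (XT.nd (nat_lit 78) (nat_lit 684) (nat_lit 0) (XT.lf (nat_lit 76) (nat_lit 2375670225) (nat_lit 0) (nat_lit 80119111506) (nat_lit 380) (nat_lit 8746558840) (nat_lit 267) (nat_lit 1) (nat_lit 266) (nat_lit 1) (nat_lit 271) (nat_lit 1) (nat_lit 260) (nat_lit 386) (nat_lit 374)) (XT.nd (nat_lit 78) (nat_lit 304) (nat_lit 0) (XT.lf (nat_lit 76) (nat_lit 61340421395) (nat_lit 0) (nat_lit 10173965227) (nat_lit 380) (nat_lit 16778716391) (nat_lit 262) (nat_lit 1) (nat_lit 261) (nat_lit 1) (nat_lit 266) (nat_lit 1) (nat_lit 261) (nat_lit 386) (nat_lit 373)) (XT.lf (nat_lit 76) (nat_lit 30690167230) (nat_lit 0) (nat_lit 31164661534) (nat_lit 380) (nat_lit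 23620304858) (nat_lit 258) (nat_lit 1) (nat_lit 257) (nat_lit 1) (nat_lit 262) (nat_lit 1) (nat_lit 262) (nat_lit 386) (nat_lit 372)))) (XT.nd (nat_lit 156) (nat_lit 608) (nat_lit 0) (XT.nd (nat_lit 78) (nat_lit 228) (nat_lit 0) (XT.lf (nat_lit 76) (nat_lit 1514798600) (nat_lit 0) (nat_lit 52106830166) (nat_lit 380) (nat_lit 29168957002) (nat_lit 254) (nat_lit 1) (nat_lit 253) (nat_lit 1) (nat_lit 258) (nat_lit 1) (nat_lit 263) (nat_lit 386) (nat_lit 371)) (XT.lf (nat_lit 304) (nat_lit 6840745105) (nat_lit 0) (nat_lit 46260684690) (nat_lit 228) (nat_lit 27109824414) (nat_lit 254) (nat_lit 1) (nat_lit 250) (nat_lit 1) (nat_lit 253) (nat_lit 1) (nat_lit 264) (nat_lit 386) (nat_lit 370))) (XT.nd (nat_lit 78) (nat_lit 228) (nat_lit 0) (XT.lf (nat_lit 76) (nat_lit 23636613538) (nat_lit 0) (nat_lit 16200681790) (nat_lit 380) (nat_lit 37901184183) (nat_lit 246) (nat_lit 1) (nat_lit 245) (nat_lit 1)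 (nat_lit 250) (nat_lit 1) (nat_lit 265) (nat_lit 386) (nat_lit 369)) (XT.lf (nat_lit 304) (nat_lit 36595163100) (nat_lit 0) (nat_lit 34376425919) (nat_lit 228) (nat_lit 4400141718) (nat_lit 246) (nat_lit 1) (nat_lit 242) (nat_lit 1) (nat_lit 245) (nat_lit 1) (nat_lit 266) (nat_lit 386) (nat_lit 368))))))) (XT.nd (nat_lit 1014) (nat_lit 1900) (nat_lit 0) (XT.nd (nat_lit 468) (nat_lit 1216) (nat_lit 0) (XT.nd (nat_lit 234) (nat_lit 608) (nat_lit 0) (XT.nd (nat_lit 78) (nat_lit 532) (nat_lit 0) (XT.lf (nat_lit 304) (nat_lit 11728572980) (nat_lit 0) (nat_lit 29596695015) (nat_lit 228) (nat_lit 31770668785) (nat_lit 243) (nat_lit 1) (nat_lit 239) (nat_lit 1) (nat_lit 242) (nat_lit 1) (nat_lit 267) (nat_lit 386) (nat_lit 367)) (XT.nd (nat_lit 78) (nat_lit 228) (nat_lit 0) (XT.lf (nat_lit 76) (nat_lit 13367739196) (nat_lit 0) (nat_lit 12239326916) (nat_lit 304) (nat_lit 45307594718) (nat_lit 236) (nat_lit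 1) (nat_lit 235) (nat_lit 1) (nat_lit 239) (nat_lit 1) (nat_lit 268) (nat_lit 386) (nat_lit 366)) (XT.lf (nat_lit 304) (nat_lit 33263864478) (nat_lit 0) (nat_lit 22132542760) (nat_lit 228) (nat_lit 13416820189) (nat_lit 236) (nat_lit 1) (nat_lit 232) (nat_lit 1) (nat_lit 235) (nat_lit 1) (nat_lit 269) (nat_lit 386) (nat_lit 365)))) (XT.nd (nat_lit 78) (nat_lit 456) (nat_lit 0) (XT.lf (nat_lit 228) (nat_lit 8246161120) (nat_lit 0) (nat_lit 19309029206) (nat_lit 152) (nat_lit 39241381386) (nat_lit 233) (nat_lit 1) (nat_lit 230) (nat_lit 1) (nat_lit 232) (nat_lit 1) (nat_lit 270) (nat_lit 386) (nat_lit 364)) (XT.nd (nat_lit 78) (nat_lit 152) (nat_lit 0) (XT.lf (nat_lit 76) (nat_lit 1396952376) (nat_lit 0) (nat_lit 15632200358) (nat_lit 304) (nat_lit 47828934150) (nat_lit 227) (nat_lit 1) (nat_lit 226) (nat_lit 1) (nat_lit 230) (nat_lit 1) (nat_lit 271) (nat_lit 386) (nat_lit 363)) (XT.lf (nat_lit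 228) (nat_lit 23961831152) (nat_lit 0) (nat_lit 14974088788) (nat_lit 152) (nat_lit 24045218566) (nat_lit 227) (nat_lit 1) (nat_lit 224) (nat_lit 1) (nat_lit 226) (nat_lit 1) (nat_lit 272) (nat_lit 386) (nat_lit 362))))) (XT.nd (nat_lit 234) (nat_lit 684) (nat_lit 0) (XT.nd (nat_lit 78) (nat_lit 304) (nat_lit 0) (XT.lf (nat_lit 76) (nat_lit 13000688212) (nat_lit 0) (nat_lit 600509939) (nat_lit 228) (nat_lit 47584895537) (nat_lit 222) (nat_lit 1) (nat_lit 221) (nat_lit 1) (nat_lit 224) (nat_lit 1) (nat_lit 273) (nat_lit 386) (nat_lit 361)) (XT.nd (nat_lit 78) (nat_lit 152) (nat_lit 0) (XT.lf (nat_lit 228) (nat_lit 35541371079) (nat_lit 0) (nat_lit 12315881983) (nat_lit 152) (nat_lit 11586012383) (nat_lit 222) (nat_lit 1) (nat_lit 219) (nat_lit 1) (nat_lit 221) (nat_lit 1) (nat_lit 274) (nat_lit 386) (nat_lit 360)) (XT.lf (nat_lit 228) (nat_lit 11040574099) (nat_lit 0) (nat_lit 11448974214) (nat_lit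 152) (nat_lit 35277524841) (nat_lit 220) (nat_lit 1) (nat_lit 217) (nat_lit 1) (nat_lit 219) (nat_lit 1) (nat_lit 275) (nat_lit 386) (nat_lit 359)))) (XT.nd (nat_lit 156) (nat_lit 304) (nat_lit 0) (XT.nd (nat_lit 78) (nat_lit 152) (nat_lit 0) (XT.lf (nat_lit 228) (nat_lit 43827021650) (nat_lit 0) (nat_lit 10938565605) (nat_lit 152) (nat_lit 1387683952) (nat_lit 217) (nat_lit 1) (nat_lit 214) (nat_lit 1) (nat_lit 216) (nat_lit 1) (nat_lit 276) (nat_lit 386) (nat_lit 358)) (XT.lf (nat_lit 228) (nat_lit 19614943679) (nat_lit 0) (nat_lit 10442642251) (nat_lit 152) (nat_lit 24526725792) (nat_lit 215) (nat_lit 1) (nat_lit 212) (nat_lit 1) (nat_lit 214) (nat_lit 1) (nat_lit 277) (nat_lit 386) (nat_lit 357))) (XT.nd (nat_lit 78) (nat_lit 152) (nat_lit 0) (XT.lf (nat_lit 76) (nat_lit 6718875522) (nat_lit 0) (nat_lit 3692996748) (nat_lit 152) (nat_lit 42668556353) (nat_lit 211) (nat_lit 1) (nat_lit 210)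 (nat_lit 1) (nat_lit 212) (nat_lit 1) (nat_lit 278) (nat_lit 386) (nat_lit 356)) (XT.lf (nat_lit 228) (nat_lit 25735934177) (nat_lit 0) (nat_lit 10301622133) (nat_lit 152) (nat_lit 15576938274) (nat_lit 211) (nat_lit 1) (nat_lit 208) (nat_lit 1) (nat_lit 210) (nat_lit 1) (nat_lit 279) (nat_lit 386) (nat_lit 355)))))) (XT.nd (nat_lit 546) (nat_lit 912) (nat_lit 0) (XT.nd (nat_lit 234) (nat_lit 608) (nat_lit 0) (XT.nd (nat_lit 78) (nat_lit 304) (nat_lit 0) (XT.lf (nat_lit 152) (nat_lit 2771394407) (nat_lit 0) (nat_lit 10554643285) (nat_lit 76) (nat_lit 36880396041) (nat_lit 209) (nat_lit 1) (nat_lit 207) (nat_lit 1) (nat_lit 208) (nat_lit 1) (nat_lit 280) (nat_lit 386) (nat_lit 354)) (XT.nd (nat_lit 78) (nat_lit 76) (nat_lit 0) (XT.lf (nat_lit 228) (nat_lit 29916179447) (nat_lit 0) (nat_lit 10794583537) (nat_lit 152) (nat_lit 8126434484) (nat_lit 207) (nat_lit 1) (nat_lit 204) (nat_lit 1) (nat_lit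 206) (nat_lit 1) (nat_lit 281) (nat_lit 386) (nat_lit 353)) (XT.lf (nat_lit 152) (nat_lit 7524139732) (nat_lit 0) (nat_lit 11198203893) (nat_lit 76) (nat_lit 28791763592) (nat_lit 205) (nat_lit 1) (nat_lit 203) (nat_lit 1) (nat_lit 204) (nat_lit 1) (nat_lit 282) (nat_lit 386) (nat_lit 352)))) (XT.nd (nat_lit 156) (nat_lit 304) (nat_lit 0) (XT.nd (nat_lit 78) (nat_lit 76) (nat_lit 0) (XT.lf (nat_lit 228) (nat_lit 32570150509) (nat_lit 0) (nat_lit 11738296580) (nat_lit 152) (nat_lit 1926354954) (nat_lit 203) (nat_lit 1) (nat_lit 200) (nat_lit 1) (nat_lit 202) (nat_lit 1) (nat_lit 283) (nat_lit 386) (nat_lit 351)) (XT.lf (nat_lit 152) (nat_lit 10828269326) (nat_lit 0) (nat_lit 12237315235) (nat_lit 76) (nat_lit 21924207066) (nat_lit 201) (nat_lit 1) (nat_lit 199) (nat_lit 1) (nat_lit 200) (nat_lit 1) (nat_lit 284) (nat_lit 386) (nat_lit 350))) (XT.nd (nat_lit 78) (nat_lit 76) (nat_lit 0) (XT.lf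 (nat_lit 76) (nat_lit 3125469452) (nat_lit 0) (nat_lit 9810015483) (nat_lit 228) (nat_lit 30854023358) (nat_lit 197) (nat_lit 1) (nat_lit 196) (nat_lit 1) (nat_lit 199) (nat_lit 1) (nat_lit 285) (nat_lit 386) (nat_lit 349)) (XT.lf (nat_lit 152) (nat_lit 12994900147) (nat_lit 0) (nat_lit 13540070009) (nat_lit 76) (nat_lit 16084063102) (nat_lit 197) (nat_lit 1) (nat_lit 195) (nat_lit 1) (nat_lit 196) (nat_lit 1) (nat_lit 286) (nat_lit 386) (nat_lit 348))))) (XT.nd (nat_lit 234) (nat_lit 456) (nat_lit 0) (XT.nd (nat_lit 78) (nat_lit 228) (nat_lit 0) (XT.lf (nat_lit 76) (nat_lit 7268678177) (nat_lit 0) (nat_lit 7040206321) (nat_lit 228) (nat_lit 27180807084) (nat_lit 193) (nat_lit 1) (nat_lit 192) (nat_lit 1) (nat_lit 195) (nat_lit 1) (nat_lit 287) (nat_lit 386) (nat_lit 347)) (XT.nd (nat_lit 78) (nat_lit 152) (nat_lit 0) (XT.lf (nat_lit 152) (nat_lit 14274926970) (nat_lit 0) (nat_lit 15003499680)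 (nat_lit 76) (nat_lit 11110777510) (nat_lit 193) (nat_lit 1) (nat_lit 191) (nat_lit 1) (nat_lit 192) (nat_lit 1) (nat_lit 288) (nat_lit 386) (nat_lit 346)) (XT.lf (nat_lit 76) (nat_lit 10701175087) (nat_lit 0) (nat_lit 5098918454) (nat_lit 152) (nat_lit 23524967221) (nat_lit 190) (nat_lit 1) (nat_lit 189) (nat_lit 1) (nat_lit 191) (nat_lit 1) (nat_lit 289) (nat_lit 386) (nat_lit 345)))) (XT.nd (nat_lit 156) (nat_lit 228) (nat_lit 0) (XT.nd (nat_lit 78) (nat_lit 152) (nat_lit 0) (XT.lf (nat_lit 152) (nat_lit 14870275315) (nat_lit 0) (nat_lit 16547934435) (nat_lit 76) (nat_lit 6870999278) (nat_lit 190) (nat_lit 1) (nat_lit 188) (nat_lit 1) (nat_lit 189) (nat_lit 1) (nat_lit 290) (nat_lit 386) (nat_lit 344)) (XT.lf (nat_lit 76) (nat_lit 13535991508) (nat_lit 0) (nat_lit 3803859653) (nat_lit 152) (nat_lit 19945367850) (nat_lit 187) (nat_lit 1) (nat_lit 186) (nat_lit 1) (nat_lit 188) (nat_lit 1) (nat_lit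 291) (nat_lit 386) (nat_lit 343))) (XT.nd (nat_lit 78) (nat_lit 152) (nat_lit 0) (XT.lf (nat_lit 152) (nat_lit 14943077014) (nat_lit 0) (nat_lit 18112419482) (nat_lit 76) (nat_lit 3253747265) (nat_lit 187) (nat_lit 1) (nat_lit 185) (nat_lit 1) (nat_lit 186) (nat_lit 1) (nat_lit 292) (nat_lit 386) (nat_lit 342)) (XT.lf (nat_lit 76) (nat_lit 15867069087) (nat_lit 0) (nat_lit 3008450019) (nat_lit 152) (nat_lit 16485430855) (nat_lit 184) (nat_lit 1) (nat_lit 183) (nat_lit 1) (nat_lit 185) (nat_lit 1) (nat_lit 293) (nat_lit 386) (nat_lit 341))))))))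
noncomputable def ec133 : XT := (XT.nd (nat_lit 2106) (nat_lit 3344) (nat_lit 0) (XT.nd (nat_lit 1014) (nat_lit 1596) (nat_lit 0) (XT.nd (nat_lit 468) (nat_lit 836) (nat_lit 0) (XT.nd (nat_lit 234) (nat_lit 380) (nat_lit 0) (XT.nd (nat_lit 78) (nat_lit 228) (nat_lit 0) (XT.lf (nat_lit 152) (nat_lit 14623150341) (nat_lit 0) (nat_lit 19650992500) (nat_lit 76) (nat_lit 166453433) (nat_lit 184) (nat_lit 1) (nat_lit 182) (nat_lit 1) (nat_lit 183) (nat_lit 1) (nat_lit 294) (nat_lit 386) (nat_lit 340)) (XT.nd (nat_lit 78) (nat_lit 76) (nat_lit 0) (XT.lf (nat_lit 76) (nat_lit 17772638846) (nat_lit 0) (nat_lit 2595116357) (nat_lit 152) (nat_lit 13176282775) (nat_lit 181) (nat_lit 1) (nat_lit 180) (nat_lit 1) (nat_lit 182) (nat_lit 1) (nat_lit 295) (nat_lit 386) (nat_lit 339)) (XT.lf (nat_lit 0) (nat_lit 2389277274) (nat_lit 0) (nat_lit 18699922167) (nat_lit 152) (nat_lit 11584355666) (nat_lit 179) (nat_lit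 3) (nat_lit 179) (nat_lit 1) (nat_lit 181) (nat_lit 1) (nat_lit 296) (nat_lit 386) (nat_lit 338)))) (XT.nd (nat_lit 78) (nat_lit 228) (nat_lit 0) (XT.lf (nat_lit 76) (nat_lit 19317988590) (nat_lit 0) (nat_lit 2469826687) (nat_lit 152) (nat_lit 10039304264) (nat_lit 178) (nat_lit 1) (nat_lit 177) (nat_lit 1) (nat_lit 179) (nat_lit 1) (nat_lit 297) (nat_lit 386) (nat_lit 337)) (XT.nd (nat_lit 78) (nat_lit 152) (nat_lit 0) (XT.lf (nat_lit 0) (nat_lit 4564403517) (nat_lit 0) (nat_lit 17882259756) (nat_lit 152) (nat_lit 8556563190) (nat_lit 176) (nat_lit 3) (nat_lit 176) (nat_lit 1) (nat_lit 178) (nat_lit 1) (nat_lit 298) (nat_lit 386) (nat_lit 336)) (XT.lf (nat_lit 76) (nat_lit 20557730352) (nat_lit 0) (nat_lit 2557636760) (nat_lit 152) (nat_lit 7088193010) (nat_lit 175) (nat_lit 1) (nat_lit 174) (nat_lit 1) (nat_lit 176) (nat_lit 1) (nat_lit 299) (nat_lit 386) (nat_lit 335))))) (XT.nd (nat_lit 234)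 (nat_lit 532) (nat_lit 0) (XT.nd (nat_lit 78) (nat_lit 228) (nat_lit 0) (XT.lf (nat_lit 0) (nat_lit 6417043378) (nat_lit 0) (nat_lit 17291248289) (nat_lit 152) (nat_lit 5715091058) (nat_lit 173) (nat_lit 3) (nat_lit 173) (nat_lit 1) (nat_lit 175) (nat_lit 1) (nat_lit 300) (nat_lit 386) (nat_lit 334)) (XT.nd (nat_lit 78) (nat_lit 76) (nat_lit 0) (XT.lf (nat_lit 76) (nat_lit 21537659110) (nat_lit 0) (nat_lit 2799062305) (nat_lit 152) (nat_lit 4330630524) (nat_lit 172) (nat_lit 1) (nat_lit 171) (nat_lit 1) (nat_lit 173) (nat_lit 1) (nat_lit 301) (nat_lit 386) (nat_lit 333)) (XT.lf (nat_lit 0) (nat_lit 7991704614) (nat_lit 0) (nat_lit 16870636052) (nat_lit 152) (nat_lit 3065916860) (nat_lit 170) (nat_lit 3) (nat_lit 170) (nat_lit 1) (nat_lit 172) (nat_lit 1) (nat_lit 302) (nat_lit 386) (nat_lit 332)))) (XT.nd (nat_lit 156) (nat_lit 304) (nat_lit 0) (XT.nd (nat_lit 78) (nat_lit 76) (nat_lit 0) (XT.lf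 (nat_lit 76) (nat_lit 22296277319) (nat_lit 0) (nat_lit 3147124990) (nat_lit 152) (nat_lit 1769626581) (nat_lit 169) (nat_lit 1) (nat_lit 168) (nat_lit 1) (nat_lit 170) (nat_lit 1) (nat_lit 303) (nat_lit 386) (nat_lit 331)) (XT.lf (nat_lit 0) (nat_lit 9326030173) (nat_lit 0) (nat_lit 16575794559) (nat_lit 152) (nat_lit 610771622) (nat_lit 167) (nat_lit 3) (nat_lit 167) (nat_lit 1) (nat_lit 169) (nat_lit 1) (nat_lit 304) (nat_lit 386) (nat_lit 330))) (XT.nd (nat_lit 78) (nat_lit 76) (nat_lit 0) (XT.lf (nat_lit 152) (nat_lit 22260564238) (nat_lit 0) (nat_lit 615085077) (nat_lit 76) (nat_lit 2959466083) (nat_lit 166) (nat_lit 1) (nat_lit 164) (nat_lit 1) (nat_lit 165) (nat_lit 1) (nat_lit 305) (nat_lit 386) (nat_lit 329)) (XT.lf (nat_lit 76) (nat_lit 8772124410) (nat_lit 0) (nat_lit 1706481292) (nat_lit 76) (nat_lit 14691652454) (nat_lit 164) (nat_lit 3) (nat_lit 163) (nat_lit 1) (nat_lit 164) (nat_lit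 1) (nat_lit 306) (nat_lit 386) (nat_lit 328)))))) (XT.nd (nat_lit 546) (nat_lit 760) (nat_lit 0) (XT.nd (nat_lit 234) (nat_lit 456) (nat_lit 0) (XT.nd (nat_lit 78) (nat_lit 228) (nat_lit 0) (XT.lf (nat_lit 152) (nat_lit 20459795052) (nat_lit 0) (nat_lit 2859258930) (nat_lit 76) (nat_lit 1209181759) (nat_lit 163) (nat_lit 1) (nat_lit 161) (nat_lit 1) (nat_lit 162) (nat_lit 1) (nat_lit 307) (nat_lit 386) (nat_lit 327)) (XT.nd (nat_lit 78) (nat_lit 152) (nat_lit 0) (XT.lf (nat_lit 76) (nat_lit 7607645154) (nat_lit 0) (nat_lit 3849152886) (nat_lit 76) (nat_lit 12441017716) (nat_lit 161) (nat_lit 3) (nat_lit 160) (nat_lit 1) (nat_lit 161) (nat_lit 1) (nat_lit 308) (nat_lit 386) (nat_lit 326)) (XT.lf (nat_lit 0) (nat_lit 321106059) (nat_lit 0) (nat_lit 4583339359) (nat_lit 152) (nat_lit 18384885620) (nat_lit 158) (nat_lit 3) (nat_lit 158) (nat_lit 1) (nat_lit 160) (nat_lit 1) (nat_lit 309) (nat_lit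 386) (nat_lit 325)))) (XT.nd (nat_lit 156) (nat_lit 228) (nat_lit 0) (XT.nd (nat_lit 78) (nat_lit 152) (nat_lit 0) (XT.lf (nat_lit 76) (nat_lit 6471076032) (nat_lit 0) (nat_lit 5803017296) (nat_lit 76) (nat_lit 10417588346) (nat_lit 158) (nat_lit 3) (nat_lit 157) (nat_lit 1) (nat_lit 158) (nat_lit 1) (nat_lit 310) (nat_lit 386) (nat_lit 324)) (XT.lf (nat_lit 0) (nat_lit 1633074999) (nat_lit 0) (nat_lit 5113244588) (nat_lit 152) (nat_lit 15367632703) (nat_lit 155) (nat_lit 3) (nat_lit 155) (nat_lit 1) (nat_lit 157) (nat_lit 1) (nat_lit 311) (nat_lit 386) (nat_lit 323))) (XT.nd (nat_lit 78) (nat_lit 152) (nat_lit 0) (XT.lf (nat_lit 76) (nat_lit 5375156788) (nat_lit 0) (nat_lit 7575386070) (nat_lit 76) (nat_lit 8597536038) (nat_lit 155) (nat_lit 3) (nat_lit 154) (nat_lit 1) (nat_lit 155) (nat_lit 1) (nat_lit 312) (nat_lit 386) (nat_lit 322)) (XT.lf (nat_lit 0) (nat_lit 2785420018) (nat_lit 0) (nat_lit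 5627024294) (nat_lit 152) (nat_lit 12586957105) (nat_lit 152) (nat_lit 3) (nat_lit 152) (nat_lit 1) (nat_lit 154) (nat_lit 1) (nat_lit 313) (nat_lit 386) (nat_lit 321))))) (XT.nd (nat_lit 234) (nat_lit 456) (nat_lit 0) (XT.nd (nat_lit 78) (nat_lit 228) (nat_lit 0) (XT.lf (nat_lit 76) (nat_lit 4328945179) (nat_lit 0) (nat_lit 9174494981) (nat_lit 76) (nat_lit 6960060250) (nat_lit 152) (nat_lit 3) (nat_lit 151) (nat_lit 1) (nat_lit 152) (nat_lit 1) (nat_lit 314) (nat_lit 386) (nat_lit 320)) (XT.nd (nat_lit 78) (nat_lit 76) (nat_lit 0) (XT.lf (nat_lit 0) (nat_lit 3795548282) (nat_lit 0) (nat_lit 6115755575) (nat_lit 152) (nat_lit 10030987698) (nat_lit 149) (nat_lit 3) (nat_lit 149) (nat_lit 1) (nat_lit 151) (nat_lit 1) (nat_lit 315) (nat_lit 386) (nat_lit 319)) (XT.lf (nat_lit 76) (nat_lit 3338583644) (nat_lit 0) (nat_lit 10609173726) (nat_lit 76) (nat_lit 5486923730) (nat_lit 149) (nat_lit 3) (nat_lit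 148) (nat_lit 1) (nat_lit 149) (nat_lit 1) (nat_lit 316) (nat_lit 386) (nat_lit 318)))) (XT.nd (nat_lit 156) (nat_lit 228) (nat_lit 0) (XT.nd (nat_lit 78) (nat_lit 76) (nat_lit 0) (XT.lf (nat_lit 0) (nat_lit 4678678111) (nat_lit 0) (nat_lit 6573157905) (nat_lit 152) (nat_lit 7687629096) (nat_lit 146) (nat_lit 3) (nat_lit 146) (nat_lit 1) (nat_lit 148) (nat_lit 1) (nat_lit 317) (nat_lit 386) (nat_lit 317)) (XT.lf (nat_lit 76) (nat_lit 2407919486) (nat_lit 0) (nat_lit 11888586775) (nat_lit 76) (nat_lit 4162067444) (nat_lit 146) (nat_lit 3) (nat_lit 145) (nat_lit 1) (nat_lit 146) (nat_lit 1) (nat_lit 318) (nat_lit 386) (nat_lit 316))) (XT.nd (nat_lit 78) (nat_lit 76) (nat_lit 0) (XT.lf (nat_lit 0) (nat_lit 5448168672) (nat_lit 0) (nat_lit 6995036360) (nat_lit 152) (nat_lit 5544766552) (nat_lit 143) (nat_lit 3) (nat_lit 143) (nat_lit 1) (nat_lit 145) (nat_lit 1) (nat_lit 319) (nat_lit 386) (nat_lit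 315)) (XT.lf (nat_lit 76) (nat_lit 1539005798) (nat_lit 0) (nat_lit 13022031654) (nat_lit 76) (nat_lit 2971290693) (nat_lit 143) (nat_lit 3) (nat_lit 142) (nat_lit 1) (nat_lit 143) (nat_lit 1) (nat_lit 320) (nat_lit 386) (nat_lit 314))))))) (XT.nd (nat_lit 1014) (nat_lit 1748) (nat_lit 0) (XT.nd (nat_lit 468) (nat_lit 760) (nat_lit 0) (XT.nd (nat_lit 234) (nat_lit 456) (nat_lit 0) (XT.nd (nat_lit 78) (nat_lit 228) (nat_lit 0) (XT.lf (nat_lit 0) (nat_lit 6115793918) (nat_lit 0) (nat_lit 7378831745) (nat_lit 152) (nat_lit 3590422753) (nat_lit 140) (nat_lit 3) (nat_lit 140) (nat_lit 1) (nat_lit 142) (nat_lit 1) (nat_lit 321) (nat_lit 386) (nat_lit 313)) (XT.nd (nat_lit 78) (nat_lit 152) (nat_lit 0) (XT.lf (nat_lit 76) (nat_lit 732505345) (nat_lit 0) (nat_lit 14018783510) (nat_lit 76) (nat_lit 1901984814) (nat_lit 140) (nat_lit 3) (nat_lit 139) (nat_lit 1) (nat_lit 140) (nat_lit 1) (nat_lit 322)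 (nat_lit 386) (nat_lit 312)) (XT.lf (nat_lit 0) (nat_lit 6691970712) (nat_lit 0) (nat_lit 7723257722) (nat_lit 152) (nat_lit 1812875994) (nat_lit 137) (nat_lit 3) (nat_lit 137) (nat_lit 1) (nat_lit 139) (nat_lit 1) (nat_lit 323) (nat_lit 386) (nat_lit 311)))) (XT.nd (nat_lit 78) (nat_lit 304) (nat_lit 0) (XT.lf (nat_lit 76) (nat_lit 14876179532) (nat_lit 0) (nat_lit 11600879) (nat_lit 152) (nat_lit 931113575) (nat_lit 136) (nat_lit 1) (nat_lit 135) (nat_lit 1) (nat_lit 137) (nat_lit 1) (nat_lit 324) (nat_lit 386) (nat_lit 310)) (XT.nd (nat_lit 78) (nat_lit 228) (nat_lit 0) (XT.lf (nat_lit 0) (nat_lit 7185949259) (nat_lit 0) (nat_lit 8028008677) (nat_lit 152) (nat_lit 200747423) (nat_lit 134) (nat_lit 3) (nat_lit 134) (nat_lit 1) (nat_lit 136) (nat_lit 1) (nat_lit 325) (nat_lit 386) (nat_lit 309)) (XT.lf (nat_lit 152) (nat_lit 14342737756) (nat_lit 0) (nat_lit 620660428) (nat_lit 76) (nat_lit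 62434729) (nat_lit 133) (nat_lit 1) (nat_lit 131) (nat_lit 1) (nat_lit 132) (nat_lit 1) (nat_lit 326) (nat_lit 386) (nat_lit 308))))) (XT.nd (nat_lit 234) (nat_lit 456) (nat_lit 0) (XT.nd (nat_lit 78) (nat_lit 228) (nat_lit 0) (XT.lf (nat_lit 76) (nat_lit 6327749284) (nat_lit 0) (nat_lit 1298496381) (nat_lit 76) (nat_lit 7015301882) (nat_lit 131) (nat_lit 3) (nat_lit 130) (nat_lit 1) (nat_lit 131) (nat_lit 1) (nat_lit 327) (nat_lit 386) (nat_lit 307)) (XT.nd (nat_lit 78) (nat_lit 76) (nat_lit 0) (XT.lf (nat_lit 0) (nat_lit 715318192) (nat_lit 0) (nat_lit 1321625597) (nat_lit 152) (nat_lit 12234775854) (nat_lit 128) (nat_lit 3) (nat_lit 128) (nat_lit 1) (nat_lit 130) (nat_lit 1) (nat_lit 328) (nat_lit 386) (nat_lit 306)) (XT.lf (nat_lit 76) (nat_lit 5345173354) (nat_lit 0) (nat_lit 2655699458) (nat_lit 76) (nat_lit 5906569100) (nat_lit 128) (nat_lit 3) (nat_lit 127) (nat_lit 1) (nat_lit 128) (nat_lit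 1) (nat_lit 329) (nat_lit 386) (nat_lit 305)))) (XT.nd (nat_lit 156) (nat_lit 228) (nat_lit 0) (XT.nd (nat_lit 78) (nat_lit 76) (nat_lit 0) (XT.lf (nat_lit 0) (nat_lit 1407533574) (nat_lit 0) (nat_lit 1902591551) (nat_lit 152) (nat_lit 10245674914) (nat_lit 125) (nat_lit 3) (nat_lit 125) (nat_lit 1) (nat_lit 127) (nat_lit 1) (nat_lit 330) (nat_lit 386) (nat_lit 304)) (XT.lf (nat_lit 76) (nat_lit 4438757914) (nat_lit 0) (nat_lit 3874605693) (nat_lit 76) (nat_lit 4897144930) (nat_lit 125) (nat_lit 3) (nat_lit 124) (nat_lit 1) (nat_lit 125) (nat_lit 1) (nat_lit 331) (nat_lit 386) (nat_lit 303))) (XT.nd (nat_lit 78) (nat_lit 76) (nat_lit 0) (XT.lf (nat_lit 0) (nat_lit 2023521788) (nat_lit 0) (nat_lit 2427743142) (nat_lit 152) (nat_lit 8424870140) (nat_lit 122) (nat_lit 3) (nat_lit 122) (nat_lit 1) (nat_lit 124) (nat_lit 1) (nat_lit 332) (nat_lit 386) (nat_lit 302)) (XT.lf (nat_lit 76) (nat_lit 3604726046)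 (nat_lit 0) (nat_lit 4965089269) (nat_lit 76) (nat_lit 3979005078) (nat_lit 122) (nat_lit 3) (nat_lit 121) (nat_lit 1) (nat_lit 122) (nat_lit 1) (nat_lit 333) (nat_lit 386) (nat_lit 301)))))) (XT.nd (nat_lit 546) (nat_lit 912) (nat_lit 0) (XT.nd (nat_lit 234) (nat_lit 456) (nat_lit 0) (XT.nd (nat_lit 78) (nat_lit 228) (nat_lit 0) (XT.lf (nat_lit 0) (nat_lit 2569920727) (nat_lit 0) (nat_lit 2899972783) (nat_lit 152) (nat_lit 6760954415) (nat_lit 119) (nat_lit 3) (nat_lit 119) (nat_lit 1) (nat_lit 121) (nat_lit 1) (nat_lit 334) (nat_lit 386) (nat_lit 300)) (XT.nd (nat_lit 78) (nat_lit 152) (nat_lit 0) (XT.lf (nat_lit 76) (nat_lit 2839221239) (nat_lit 0) (nat_lit 5936511110) (nat_lit 76) (nat_lit 3144824994) (nat_lit 119) (nat_lit 3) (nat_lit 118) (nat_lit 1) (nat_lit 119) (nat_lit 1) (nat_lit 335) (nat_lit 386) (nat_lit 299)) (XT.lf (nat_lit 0) (nat_lit 3052770371) (nat_lit 0) (nat_lit 3322262219)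 (nat_lit 152) (nat_lit 5243132664) (nat_lit 116) (nat_lit 3) (nat_lit 116) (nat_lit 1) (nat_lit 118) (nat_lit 1) (nat_lit 336) (nat_lit 386) (nat_lit 298)))) (XT.nd (nat_lit 156) (nat_lit 228) (nat_lit 0) (XT.nd (nat_lit 78) (nat_lit 152) (nat_lit 0) (XT.lf (nat_lit 76) (nat_lit 2138374503) (nat_lit 0) (nat_lit 6797720526) (nat_lit 76) (nat_lit 2387903992) (nat_lit 116) (nat_lit 3) (nat_lit 115) (nat_lit 1) (nat_lit 116) (nat_lit 1) (nat_lit 337) (nat_lit 386) (nat_lit 297)) (XT.lf (nat_lit 0) (nat_lit 3477578170) (nat_lit 0) (nat_lit 3697621811) (nat_lit 152) (nat_lit 3861210418) (nat_lit 113) (nat_lit 3) (nat_lit 113) (nat_lit 1) (nat_lit 115) (nat_lit 1) (nat_lit 338) (nat_lit 386) (nat_lit 296))) (XT.nd (nat_lit 78) (nat_lit 152) (nat_lit 0) (XT.lf (nat_lit 76) (nat_lit 1498355817) (nat_lit 0) (nat_lit 7557062637) (nat_lit 76) (nat_lit 1702099929) (nat_lit 113) (nat_lit 3) (nat_lit 112) (nat_lit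 1) (nat_lit 113) (nat_lit 1) (nat_lit 339) (nat_lit 386) (nat_lit 295)) (XT.lf (nat_lit 0) (nat_lit 3849375354) (nat_lit 0) (nat_lit 4029043883) (nat_lit 152) (nat_lit 2605578002) (nat_lit 110) (nat_lit 3) (nat_lit 110) (nat_lit 1) (nat_lit 112) (nat_lit 1) (nat_lit 340) (nat_lit 386) (nat_lit 294))))) (XT.nd (nat_lit 234) (nat_lit 608) (nat_lit 0) (XT.nd (nat_lit 78) (nat_lit 228) (nat_lit 0) (XT.lf (nat_lit 76) (nat_lit 915412974) (nat_lit 0) (nat_lit 8222390153) (nat_lit 76) (nat_lit 1081772723) (nat_lit 110) (nat_lit 3) (nat_lit 109) (nat_lit 1) (nat_lit 110) (nat_lit 1) (nat_lit 341) (nat_lit 386) (nat_lit 293)) (XT.nd (nat_lit 78) (nat_lit 76) (nat_lit 0) (XT.lf (nat_lit 0) (nat_lit 4172765649) (nat_lit 0) (nat_lit 4319467368) (nat_lit 152) (nat_lit 1467191564) (nat_lit 107) (nat_lit 3) (nat_lit 107) (nat_lit 1) (nat_lit 109) (nat_lit 1) (nat_lit 342) (nat_lit 386) (nat_lit 292)) (XT.lf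 (nat_lit 76) (nat_lit 385900339) (nat_lit 0) (nat_lit 8801078327) (nat_lit 76) (nat_lit 521735264) (nat_lit 107) (nat_lit 3) (nat_lit 106) (nat_lit 1) (nat_lit 107) (nat_lit 1) (nat_lit 343) (nat_lit 386) (nat_lit 291)))) (XT.nd (nat_lit 156) (nat_lit 228) (nat_lit 0) (XT.nd (nat_lit 78) (nat_lit 228) (nat_lit 0) (XT.lf (nat_lit 0) (nat_lit 4451967619) (nat_lit 0) (nat_lit 4571751504) (nat_lit 152) (nat_lit 437551889) (nat_lit 104) (nat_lit 3) (nat_lit 104) (nat_lit 1) (nat_lit 106) (nat_lit 1) (nat_lit 344) (nat_lit 386) (nat_lit 290)) (XT.lf (nat_lit 152) (nat_lit 9131507101) (nat_lit 0) (nat_lit 77507681) (nat_lit 76) (nat_lit 14403872) (nat_lit 103) (nat_lit 1) (nat_lit 101) (nat_lit 1) (nat_lit 102) (nat_lit 1) (nat_lit 345) (nat_lit 386) (nat_lit 289))) (XT.nd (nat_lit 78) (nat_lit 152) (nat_lit 0) (XT.lf (nat_lit 76) (nat_lit 4191212701) (nat_lit 0) (nat_lit 507563430) (nat_lit 76) (nat_lit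 4289017819) (nat_lit 101) (nat_lit 3) (nat_lit 100) (nat_lit 1) (nat_lit 101) (nat_lit 1) (nat_lit 346) (nat_lit 386) (nat_lit 288)) (XT.lf (nat_lit 0) (nat_lit 446255256) (nat_lit 0) (nat_lit 532503155) (nat_lit 152) (nat_lit 7782483831) (nat_lit 98) (nat_lit 3) (nat_lit 98) (nat_lit 1) (nat_lit 100) (nat_lit 1) (nat_lit 347) (nat_lit 386) (nat_lit 287))))))))
noncomputable def ec134 : XT := (XT.nd (nat_lit 2028) (nat_lit 3192) (nat_lit 0) (XT.nd (nat_lit 1014) (nat_lit 1596) (nat_lit 0) (XT.nd (nat_lit 468) (nat_lit 760) (nat_lit 0) (XT.nd (nat_lit 234) (nat_lit 380) (nat_lit 0) (XT.nd (nat_lit 78) (nat_lit 228) (nat_lit 0) (XT.lf (nat_lit 76) (nat_lit 3543603214) (nat_lit 0) (nat_lit 1370770714) (nat_lit 76) (nat_lit 3623462381) (nat_lit 98) (nat_lit 3) (nat_lit 97) (nat_lit 1) (nat_lit 98) (nat_lit 1) (nat_lit 348) (nat_lit 386) (nat_lit 286)) (XT.nd (nat_lit 78) (nat_lit 76) (nat_lit 0)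 (XT.lf (nat_lit 0) (nat_lit 858758471) (nat_lit 0) (nat_lit 929181016) (nat_lit 152) (nat_lit 6534413071) (nat_lit 95) (nat_lit 3) (nat_lit 95) (nat_lit 1) (nat_lit 97) (nat_lit 1) (nat_lit 349) (nat_lit 386) (nat_lit 285)) (XT.lf (nat_lit 76) (nat_lit 2950246026) (nat_lit 0) (nat_lit 2144838160) (nat_lit 76) (nat_lit 3015452086) (nat_lit 95) (nat_lit 3) (nat_lit 94) (nat_lit 1) (nat_lit 95) (nat_lit 1) (nat_lit 350) (nat_lit 386) (nat_lit 284)))) (XT.nd (nat_lit 78) (nat_lit 228) (nat_lit 0) (XT.lf (nat_lit 0) (nat_lit 1227361462) (nat_lit 0) (nat_lit 1284862397) (nat_lit 152) (nat_lit 5393351383) (nat_lit 92) (nat_lit 3) (nat_lit 92) (nat_lit 1) (nat_lit 94) (nat_lit 1) (nat_lit 351) (nat_lit 386) (nat_lit 283)) (XT.nd (nat_lit 78) (nat_lit 152) (nat_lit 0) (XT.lf (nat_lit 76) (nat_lit 2407482515) (nat_lit 0) (nat_lit 2836535764) (nat_lit 76) (nat_lit 2460724122) (nat_lit 92) (nat_lit 3) (nat_lit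 91) (nat_lit 1) (nat_lit 92) (nat_lit 1) (nat_lit 352) (nat_lit 386) (nat_lit 282)) (XT.lf (nat_lit 0) (nat_lit 1555574353) (nat_lit 0) (nat_lit 1602524624) (nat_lit 152) (nat_lit 4351687367) (nat_lit 89) (nat_lit 3) (nat_lit 89) (nat_lit 1) (nat_lit 91) (nat_lit 1) (nat_lit 353) (nat_lit 386) (nat_lit 281))))) (XT.nd (nat_lit 234) (nat_lit 456) (nat_lit 0) (XT.nd (nat_lit 78) (nat_lit 228) (nat_lit 0) (XT.lf (nat_lit 76) (nat_lit 1911849110) (nat_lit 0) (nat_lit 3452192299) (nat_lit 76) (nat_lit 1955321583) (nat_lit 89) (nat_lit 3) (nat_lit 88) (nat_lit 1) (nat_lit 89) (nat_lit 1) (nat_lit 354) (nat_lit 386) (nat_lit 280)) (XT.nd (nat_lit 78) (nat_lit 76) (nat_lit 0) (XT.lf (nat_lit 0) (nat_lit 1846645699) (nat_lit 0) (nat_lit 1884981213) (nat_lit 152) (nat_lit 3402293243) (nat_lit 86) (nat_lit 3) (nat_lit 86) (nat_lit 1) (nat_lit 88) (nat_lit 1) (nat_lit 355) (nat_lit 386) (nat_lit 279)) (XT.lf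 (nat_lit 76) (nat_lit 1460073838) (nat_lit 0) (nat_lit 3997719263) (nat_lit 76) (nat_lit 1495569684) (nat_lit 86) (nat_lit 3) (nat_lit 85) (nat_lit 1) (nat_lit 86) (nat_lit 1) (nat_lit 356) (nat_lit 386) (nat_lit 278)))) (XT.nd (nat_lit 156) (nat_lit 228) (nat_lit 0) (XT.nd (nat_lit 78) (nat_lit 76) (nat_lit 0) (XT.lf (nat_lit 0) (nat_lit 2103583167) (nat_lit 0) (nat_lit 2134884619) (nat_lit 152) (nat_lit 2538498237) (nat_lit 83) (nat_lit 3) (nat_lit 83) (nat_lit 1) (nat_lit 85) (nat_lit 1) (nat_lit 357) (nat_lit 386) (nat_lit 277)) (XT.lf (nat_lit 76) (nat_lit 1049071451) (nat_lit 0) (nat_lit 4478634172) (nat_lit 76) (nat_lit 1078054277) (nat_lit 83) (nat_lit 3) (nat_lit 82) (nat_lit 1) (nat_lit 83) (nat_lit 1) (nat_lit 358) (nat_lit 386) (nat_lit 276))) (XT.nd (nat_lit 78) (nat_lit 76) (nat_lit 0) (XT.lf (nat_lit 0) (nat_lit 2329172224) (nat_lit 0) (nat_lit 2354730271) (nat_lit 152) (nat_lit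 1754062875) (nat_lit 80) (nat_lit 3) (nat_lit 80) (nat_lit 1) (nat_lit 82) (nat_lit 1) (nat_lit 359) (nat_lit 386) (nat_lit 275)) (XT.lf (nat_lit 76) (nat_lit 675937496) (nat_lit 0) (nat_lit 4900083102) (nat_lit 76) (nat_lit 699602354) (nat_lit 80) (nat_lit 3) (nat_lit 79) (nat_lit 1) (nat_lit 80) (nat_lit 1) (nat_lit 360) (nat_lit 386) (nat_lit 274)))))) (XT.nd (nat_lit 468) (nat_lit 760) (nat_lit 0) (XT.nd (nat_lit 234) (nat_lit 456) (nat_lit 0) (XT.nd (nat_lit 78) (nat_lit 228) (nat_lit 0) (XT.lf (nat_lit 0) (nat_lit 2525993082) (nat_lit 0) (nat_lit 2546861564) (nat_lit 152) (nat_lit 1043154254) (nat_lit 77) (nat_lit 3) (nat_lit 77) (nat_lit 1) (nat_lit 79) (nat_lit 1) (nat_lit 361) (nat_lit 386) (nat_lit 273)) (XT.nd (nat_lit 78) (nat_lit 152) (nat_lit 0) (XT.lf (nat_lit 76) (nat_lit 337941652) (nat_lit 0) (nat_lit 5266862379) (nat_lit 76) (nat_lit 357264321) (nat_lit 77) (nat_lit 3) (nat_lit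 76) (nat_lit 1) (nat_lit 77) (nat_lit 1) (nat_lit 362) (nat_lit 386) (nat_lit 272)) (XT.lf (nat_lit 0) (nat_lit 2696436112) (nat_lit 0) (nat_lit 2713475502) (nat_lit 152) (nat_lit 400322347) (nat_lit 74) (nat_lit 3) (nat_lit 74) (nat_lit 1) (nat_lit 76) (nat_lit 1) (nat_lit 363) (nat_lit 386) (nat_lit 271)))) (XT.nd (nat_lit 78) (nat_lit 380) (nat_lit 0) (XT.lf (nat_lit 76) (nat_lit 32520585) (nat_lit 0) (nat_lit 5583439384) (nat_lit 76) (nat_lit 48297798) (nat_lit 74) (nat_lit 3) (nat_lit 73) (nat_lit 1) (nat_lit 74) (nat_lit 1) (nat_lit 364) (nat_lit 386) (nat_lit 270)) (XT.nd (nat_lit 78) (nat_lit 152) (nat_lit 0) (XT.lf (nat_lit 76) (nat_lit 2660152978) (nat_lit 0) (nat_lit 185458458) (nat_lit 76) (nat_lit 2674065864) (nat_lit 71) (nat_lit 3) (nat_lit 70) (nat_lit 1) (nat_lit 71) (nat_lit 1) (nat_lit 365) (nat_lit 386) (nat_lit 269)) (XT.lf (nat_lit 0) (nat_lit 234027498) (nat_lit 0) (nat_lit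 246296357) (nat_lit 152) (nat_lit 4900315601) (nat_lit 68) (nat_lit 3) (nat_lit 68) (nat_lit 1) (nat_lit 70) (nat_lit 1) (nat_lit 366) (nat_lit 386) (nat_lit 268))))) (XT.nd (nat_lit 234) (nat_lit 456) (nat_lit 0) (XT.nd (nat_lit 78) (nat_lit 228) (nat_lit 0) (XT.lf (nat_lit 76) (nat_lit 2253878389) (nat_lit 0) (nat_lit 724314361) (nat_lit 76) (nat_lit 2265238443) (nat_lit 68) (nat_lit 3) (nat_lit 67) (nat_lit 1) (nat_lit 68) (nat_lit 1) (nat_lit 367) (nat_lit 386) (nat_lit 267)) (XT.nd (nat_lit 78) (nat_lit 76) (nat_lit 0) (XT.lf (nat_lit 0) (nat_lit 487739864) (nat_lit 0) (nat_lit 497757549) (nat_lit 152) (nat_lit 4125678290) (nat_lit 65) (nat_lit 3) (nat_lit 65) (nat_lit 1) (nat_lit 67) (nat_lit 1) (nat_lit 368) (nat_lit 386) (nat_lit 266)) (XT.lf (nat_lit 76) (nat_lit 1882106951) (nat_lit 0) (nat_lit 1207588391) (nat_lit 76) (nat_lit 1891382586) (nat_lit 65) (nat_lit 3) (nat_lit 64) (nat_lit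 1) (nat_lit 65) (nat_lit 1) (nat_lit 369) (nat_lit 386) (nat_lit 265)))) (XT.nd (nat_lit 156) (nat_lit 228) (nat_lit 0) (XT.nd (nat_lit 78) (nat_lit 76) (nat_lit 0) (XT.lf (nat_lit 0) (nat_lit 714790460) (nat_lit 0) (nat_lit 722970032) (nat_lit 152) (nat_lit 3417512076) (nat_lit 62) (nat_lit 3) (nat_lit 62) (nat_lit 1) (nat_lit 64) (nat_lit 1) (nat_lit 370) (nat_lit 386) (nat_lit 264)) (XT.lf (nat_lit 76) (nat_lit 1542394833) (nat_lit 0) (nat_lit 1639551435) (nat_lit 76) (nat_lit 1549968510) (nat_lit 62) (nat_lit 3) (nat_lit 61) (nat_lit 1) (nat_lit 62) (nat_lit 1) (nat_lit 371) (nat_lit 386) (nat_lit 263))) (XT.nd (nat_lit 78) (nat_lit 76) (nat_lit 0) (XT.lf (nat_lit 0) (nat_lit 917260564) (nat_lit 0) (nat_lit 923939292) (nat_lit 152) (nat_lit 2771043869) (nat_lit 59) (nat_lit 3) (nat_lit 59) (nat_lit 1) (nat_lit 61) (nat_lit 1) (nat_lit 372) (nat_lit 386) (nat_lit 262)) (XT.lf (nat_lit 76)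 (nat_lit 1232453028) (nat_lit 0) (nat_lit 2024184798) (nat_lit 76) (nat_lit 1238637036) (nat_lit 59) (nat_lit 3) (nat_lit 58) (nat_lit 1) (nat_lit 59) (nat_lit 1) (nat_lit 373) (nat_lit 386) (nat_lit 261))))))) (XT.nd (nat_lit 1014) (nat_lit 1596) (nat_lit 0) (XT.nd (nat_lit 468) (nat_lit 912) (nat_lit 0) (XT.nd (nat_lit 234) (nat_lit 304) (nat_lit 0) (XT.nd (nat_lit 78) (nat_lit 228) (nat_lit 0) (XT.lf (nat_lit 0) (nat_lit 1097085510) (nat_lit 0) (nat_lit 1102538779) (nat_lit 152) (nat_lit 2181813581) (nat_lit 56) (nat_lit 3) (nat_lit 56) (nat_lit 1) (nat_lit 58) (nat_lit 1) (nat_lit 374) (nat_lit 386) (nat_lit 260)) (XT.nd (nat_lit 78) (nat_lit 152) (nat_lit 0) (XT.lf (nat_lit 76) (nat_lit 950138877) (nat_lit 0) (nat_lit 2365198214) (nat_lit 76) (nat_lit 955188200) (nat_lit 56) (nat_lit 3) (nat_lit 55) (nat_lit 1) (nat_lit 56) (nat_lit 1) (nat_lit 375) (nat_lit 386) (nat_lit 259)) (XT.lf (nat_lit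 0) (nat_lit 1256064639) (nat_lit 0) (nat_lit 1260517305) (nat_lit 152) (nat_lit 1645654962) (nat_lit 53) (nat_lit 3) (nat_lit 53) (nat_lit 1) (nat_lit 55) (nat_lit 1) (nat_lit 376) (nat_lit 386) (nat_lit 258)))) (XT.nd (nat_lit 78) (nat_lit 228) (nat_lit 0) (XT.lf (nat_lit 76) (nat_lit 693447858) (nat_lit 0) (nat_lit 2666046849) (nat_lit 76) (nat_lit 697570697) (nat_lit 53) (nat_lit 3) (nat_lit 52) (nat_lit 1) (nat_lit 53) (nat_lit 1) (nat_lit 377) (nat_lit 386) (nat_lit 257)) (XT.nd (nat_lit 78) (nat_lit 76) (nat_lit 0) (XT.lf (nat_lit 0) (nat_lit 1395870531) (nat_lit 0) (nat_lit 1399506192) (nat_lit 152) (nat_lit 1158677502) (nat_lit 50) (nat_lit 3) (nat_lit 50) (nat_lit 1) (nat_lit 52) (nat_lit 1) (nat_lit 378) (nat_lit 386) (nat_lit 256)) (XT.lf (nat_lit 76) (nat_lit 460505695) (nat_lit 0) (nat_lit 2929947355) (nat_lit 76) (nat_lit 463872048) (nat_lit 50) (nat_lit 3) (nat_lit 49) (nat_lit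 1) (nat_lit 50) (nat_lit 1) (nat_lit 379) (nat_lit 386) (nat_lit 255))))) (XT.nd (nat_lit 234) (nat_lit 532) (nat_lit 0) (XT.nd (nat_lit 78) (nat_lit 228) (nat_lit 0) (XT.lf (nat_lit 0) (nat_lit 1518057581) (nat_lit 0) (nat_lit 1521026146) (nat_lit 152) (nat_lit 717249347) (nat_lit 47) (nat_lit 3) (nat_lit 47) (nat_lit 1) (nat_lit 49) (nat_lit 1) (nat_lit 380) (nat_lit 386) (nat_lit 254)) (XT.nd (nat_lit 78) (nat_lit 152) (nat_lit 0) (XT.lf (nat_lit 76) (nat_lit 249560795) (nat_lit 0) (nat_lit 3159893002) (nat_lit 76) (nat_lit 252309466) (nat_lit 47) (nat_lit 3) (nat_lit 46) (nat_lit 1) (nat_lit 47) (nat_lit 1) (nat_lit 381) (nat_lit 386) (nat_lit 253)) (XT.lf (nat_lit 0) (nat_lit 1624069976) (nat_lit 0) (nat_lit 1626493849) (nat_lit 152) (nat_lit 317981203) (nat_lit 44) (nat_lit 3) (nat_lit 44) (nat_lit 1) (nat_lit 46) (nat_lit 1) (nat_lit 382) (nat_lit 386) (nat_lit 252)))) (XT.nd (nat_lit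 156) (nat_lit 228) (nat_lit 0) (XT.nd (nat_lit 78) (nat_lit 228) (nat_lit 0) (XT.lf (nat_lit 76) (nat_lit 58977009) (nat_lit 0) (nat_lit 3358667936) (nat_lit 76) (nat_lit 61221335) (nat_lit 44) (nat_lit 3) (nat_lit 43) (nat_lit 1) (nat_lit 44) (nat_lit 1) (nat_lit 383) (nat_lit 386) (nat_lit 251)) (XT.lf (nat_lit 76) (nat_lit 1672244100) (nat_lit 0) (nat_lit 43687095) (nat_lit 76) (nat_lit 1674223223) (nat_lit 41) (nat_lit 3) (nat_lit 40) (nat_lit 1) (nat_lit 41) (nat_lit 1) (nat_lit 384) (nat_lit 386) (nat_lit 250))) (XT.nd (nat_lit 78) (nat_lit 76) (nat_lit 0) (XT.lf (nat_lit 0) (nat_lit 112818085) (nat_lit 0) (nat_lit 114563344) (nat_lit 152) (nat_lit 3077407169) (nat_lit 38) (nat_lit 3) (nat_lit 38) (nat_lit 1) (nat_lit 40) (nat_lit 1) (nat_lit 385) (nat_lit 386) (nat_lit 249)) (XT.lf (nat_lit 76) (nat_lit 1420123943) (nat_lit 0) (nat_lit 378628038) (nat_lit 76) (nat_lit 1421739923) (nat_lit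 38) (nat_lit 3) (nat_lit 37) (nat_lit 1) (nat_lit 38) (nat_lit 1) (nat_lit 386) (nat_lit 386) (nat_lit 248)))))) (XT.nd (nat_lit 546) (nat_lit 760) (nat_lit 0) (XT.nd (nat_lit 234) (nat_lit 456) (nat_lit 0) (XT.nd (nat_lit 78) (nat_lit 228) (nat_lit 0) (XT.lf (nat_lit 0) (nat_lit 270021613) (nat_lit 0) (nat_lit 271446640) (nat_lit 152) (nat_lit 2597820669) (nat_lit 35) (nat_lit 3) (nat_lit 35) (nat_lit 1) (nat_lit 37) (nat_lit 1) (nat_lit 387) (nat_lit 386) (nat_lit 247)) (XT.nd (nat_lit 78) (nat_lit 152) (nat_lit 0) (XT.lf (nat_lit 76) (nat_lit 1189436277) (nat_lit 0) (nat_lit 679167777) (nat_lit 76) (nat_lit 1190755746) (nat_lit 35) (nat_lit 3) (nat_lit 34) (nat_lit 1) (nat_lit 35) (nat_lit 1) (nat_lit 388) (nat_lit 386) (nat_lit 246)) (XT.lf (nat_lit 0) (nat_lit 410822707) (nat_lit 0) (nat_lit 411986260) (nat_lit 152) (nat_lit 2159307044) (nat_lit 32) (nat_lit 3) (nat_lit 32) (nat_lit 1) (nat_lit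 34) (nat_lit 1) (nat_lit 389) (nat_lit 386) (nat_lit 245)))) (XT.nd (nat_lit 156) (nat_lit 228) (nat_lit 0) (XT.nd (nat_lit 78) (nat_lit 152) (nat_lit 0) (XT.lf (nat_lit 76) (nat_lit 978648271) (nat_lit 0) (nat_lit 947953167) (nat_lit 76) (nat_lit 979725635) (nat_lit 32) (nat_lit 3) (nat_lit 31) (nat_lit 1) (nat_lit 32) (nat_lit 1) (nat_lit 390) (nat_lit 386) (nat_lit 244)) (XT.lf (nat_lit 0) (nat_lit 536492755) (nat_lit 0) (nat_lit 537442811) (nat_lit 152) (nat_lit 1758913268) (nat_lit 29) (nat_lit 3) (nat_lit 29) (nat_lit 1) (nat_lit 31) (nat_lit 1) (nat_lit 391) (nat_lit 386) (nat_lit 243))) (XT.nd (nat_lit 78) (nat_lit 152) (nat_lit 0) (XT.lf (nat_lit 76) (nat_lit 786327378) (nat_lit 0) (nat_lit 1187450157) (nat_lit 76) (nat_lit 787207060) (nat_lit 29) (nat_lit 3) (nat_lit 28) (nat_lit 1) (nat_lit 29) (nat_lit 1) (nat_lit 392) (nat_lit 386) (nat_lit 242)) (XT.lf (nat_lit 0) (nat_lit 648215404)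 (nat_lit 0) (nat_lit 648991138) (nat_lit 152) (nat_lit 1393881232) (nat_lit 26) (nat_lit 3) (nat_lit 26) (nat_lit 1) (nat_lit 28) (nat_lit 1) (nat_lit 393) (nat_lit 386) (nat_lit 241))))) (XT.nd (nat_lit 234) (nat_lit 456) (nat_lit 0) (XT.nd (nat_lit 78) (nat_lit 228) (nat_lit 0) (XT.lf (nat_lit 76) (nat_lit 611135205) (nat_lit 0) (nat_lit 1399955336) (nat_lit 76) (nat_lit 611853476) (nat_lit 26) (nat_lit 3) (nat_lit 25) (nat_lit 1) (nat_lit 26) (nat_lit 1) (nat_lit 394) (nat_lit 386) (nat_lit 240)) (XT.nd (nat_lit 78) (nat_lit 76) (nat_lit 0) (XT.lf (nat_lit 0) (nat_lit 747092292) (nat_lit 0) (nat_lit 747725689) (nat_lit 152) (nat_lit 1061635542) (nat_lit 23) (nat_lit 3) (nat_lit 23) (nat_lit 1) (nat_lit 25) (nat_lit 1) (nat_lit 395) (nat_lit 386) (nat_lit 239)) (XT.lf (nat_lit 76) (nat_lit 451821724) (nat_lit 0) (nat_lit 1587606786) (nat_lit 76) (nat_lit 452408202) (nat_lit 23) (nat_lit 3)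 (nat_lit 22) (nat_lit 1) (nat_lit 23) (nat_lit 1) (nat_lit 396) (nat_lit 386) (nat_lit 238)))) (XT.nd (nat_lit 156) (nat_lit 228) (nat_lit 0) (XT.nd (nat_lit 78) (nat_lit 76) (nat_lit 0) (XT.lf (nat_lit 0) (nat_lit 834148404) (nat_lit 0) (nat_lit 834665581) (nat_lit 152) (nat_lit 759772058) (nat_lit 20) (nat_lit 3) (nat_lit 20) (nat_lit 1) (nat_lit 22) (nat_lit 1) (nat_lit 397) (nat_lit 386) (nat_lit 237)) (XT.lf (nat_lit 76) (nat_lit 307219810) (nat_lit 0) (nat_lit 1752394273) (nat_lit 76) (nat_lit 307698677) (nat_lit 20) (nat_lit 3) (nat_lit 19) (nat_lit 1) (nat_lit 20) (nat_lit 1) (nat_lit 398) (nat_lit 386) (nat_lit 236))) (XT.nd (nat_lit 78) (nat_lit 76) (nat_lit 0) (XT.lf (nat_lit 0) (nat_lit 910337094) (nat_lit 0) (nat_lit 910759376) (nat_lit 152) (nat_lit 486047117) (nat_lit 17) (nat_lit 3) (nat_lit 17) (nat_lit 1) (nat_lit 19) (nat_lit 1) (nat_lit 399) (nat_lit 386) (nat_lit 235)) (XT.lf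 (nat_lit 76) (nat_lit 176240090) (nat_lit 0) (nat_lit 1896168816) (nat_lit 76) (nat_lit 176631091) (nat_lit 17) (nat_lit 3) (nat_lit 16) (nat_lit 1) (nat_lit 17) (nat_lit 1) (nat_lit 400) (nat_lit 386) (nat_lit 234))))))))
noncomputable def ec135 : XT := (XT.nd (nat_lit 41808) (nat_lit 0) (nat_lit 15124) (XT.nd (nat_lit 1014) (nat_lit 0) (nat_lit 0) (XT.nd (nat_lit 468) (nat_lit 380) (nat_lit 0) (XT.nd (nat_lit 234) (nat_lit 456) (nat_lit 0) (XT.nd (nat_lit 78) (nat_lit 228) (nat_lit 0) (XT.lf (nat_lit 0) (nat_lit 976544776) (nat_lit 0) (nat_lit 976889575) (nat_lit 152) (nat_lit 238367403) (nat_lit 14) (nat_lit 3) (nat_lit 14) (nat_lit 1) (nat_lit 16) (nat_lit 1) (nat_lit 401) (nat_lit 386) (nat_lit 233)) (XT.nd (nat_lit 78) (nat_lit 152) (nat_lit 0) (XT.lf (nat_lit 76) (nat_lit 57866086) (nat_lit 0) (nat_lit 2020651675) (nat_lit 76) (nat_lit 58185343) (nat_lit 14) (nat_lit 3) (nat_lit 13) (nat_lit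 1) (nat_lit 14) (nat_lit 1) (nat_lit 402) (nat_lit 386) (nat_lit 232)) (XT.lf (nat_lit 0) (nat_lit 1033595321) (nat_lit 0) (nat_lit 1033876854) (nat_lit 152) (nat_lit 14780433) (nat_lit 11) (nat_lit 3) (nat_lit 11) (nat_lit 1) (nat_lit 13) (nat_lit 1) (nat_lit 403) (nat_lit 386) (nat_lit 231)))) (XT.nd (nat_lit 78) (nat_lit 228) (nat_lit 0) (XT.lf (nat_lit 0) (nat_lit 49394571) (nat_lit 0) (nat_lit 49642836) (nat_lit 152) (nat_lit 1930809410) (nat_lit 8) (nat_lit 3) (nat_lit 8) (nat_lit 1) (nat_lit 10) (nat_lit 1) (nat_lit 404) (nat_lit 386) (nat_lit 230)) (XT.nd (nat_lit 78) (nat_lit 152) (nat_lit 0) (XT.lf (nat_lit 76) (nat_lit 892560741) (nat_lit 0) (nat_lit 192702049) (nat_lit 76) (nat_lit 892790616) (nat_lit 8) (nat_lit 3) (nat_lit 7) (nat_lit 1) (nat_lit 8) (nat_lit 1) (nat_lit 405) (nat_lit 386) (nat_lit 229)) (XT.lf (nat_lit 0) (nat_lit 146957500) (nat_lit 0) (nat_lit 147160211) (nat_lit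 152) (nat_lit 1634073982) (nat_lit 5) (nat_lit 3) (nat_lit 5) (nat_lit 1) (nat_lit 7) (nat_lit 1) (nat_lit 406) (nat_lit 386) (nat_lit 228))))) (XT.nd (nat_lit 234) (nat_lit 76) (nat_lit 0) (XT.nd (nat_lit 78) (nat_lit 228) (nat_lit 0) (XT.lf (nat_lit 76) (nat_lit 749738103) (nat_lit 0) (nat_lit 379417868) (nat_lit 76) (nat_lit 749925799) (nat_lit 5) (nat_lit 3) (nat_lit 4) (nat_lit 1) (nat_lit 5) (nat_lit 1) (nat_lit 407) (nat_lit 386) (nat_lit 227)) (XT.nd (nat_lit 78) (nat_lit 76) (nat_lit 0) (XT.lf (nat_lit 0) (nat_lit 234399409) (nat_lit 0) (nat_lit 234564926) (nat_lit 152) (nat_lit 1362686711) (nat_lit 2) (nat_lit 3) (nat_lit 2) (nat_lit 1) (nat_lit 4) (nat_lit 1) (nat_lit 408) (nat_lit 386) (nat_lit 226)) (XT.lf (nat_lit 76) (nat_lit 619209796) (nat_lit 0) (nat_lit 546512075) (nat_lit 76) (nat_lit 619363052) (nat_lit 2) (nat_lit 3) (nat_lit 1) (nat_lit 1) (nat_lit 2) (nat_lit 1) (nat_lit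 409) (nat_lit 386) (nat_lit 225)))) (XT.nd (nat_lit 156) (nat_lit 0) (nat_lit 0) (XT.nd (nat_lit 78) (nat_lit 0) (nat_lit 0) (XT.lf (nat_lit 0) (nat_lit 37016409751) (nat_lit 0) (nat_lit 0) (nat_lit 0) (nat_lit 0) (nat_lit 0) (nat_lit 0) (nat_lit 1) (nat_lit 0) (nat_lit 1) (nat_lit 0) (nat_lit 410) (nat_lit 386) (nat_lit 224)) (XT.lf (nat_lit 0) (nat_lit 37016399197) (nat_lit 0) (nat_lit 0) (nat_lit 0) (nat_lit 0) (nat_lit 0) (nat_lit 0) (nat_lit 1) (nat_lit 0) (nat_lit 1) (nat_lit 0) (nat_lit 411) (nat_lit 386) (nat_lit 223))) (XT.nd (nat_lit 78) (nat_lit 0) (nat_lit 0) (XT.lf (nat_lit 0) (nat_lit 37016389425) (nat_lit 0) (nat_lit 0) (nat_lit 0) (nat_lit 0) (nat_lit 0) (nat_lit 0) (nat_lit 1) (nat_lit 0) (nat_lit 1) (nat_lit 0) (nat_lit 412) (nat_lit 386) (nat_lit 222)) (XT.lf (nat_lit 0) (nat_lit 37016380377) (nat_lit 0) (nat_lit 0) (nat_lit 0) (nat_lit 0) (nat_lit 0) (nat_lit 0) (nat_lit 1)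 (nat_lit 0) (nat_lit 1) (nat_lit 0) (nat_lit 413) (nat_lit 386) (nat_lit 221)))))) (XT.nd (nat_lit 40248) (nat_lit 0) (nat_lit 20900) (XT.nd (nat_lit 234) (nat_lit 0) (nat_lit 0) (XT.nd (nat_lit 78) (nat_lit 0) (nat_lit 0) (XT.lf (nat_lit 0) (nat_lit 37016371999) (nat_lit 0) (nat_lit 0) (nat_lit 0) (nat_lit 0) (nat_lit 0) (nat_lit 0) (nat_lit 1) (nat_lit 0) (nat_lit 1) (nat_lit 0) (nat_lit 414) (nat_lit 386) (nat_lit 220)) (XT.nd (nat_lit 78) (nat_lit 0) (nat_lit 0) (XT.lf (nat_lit 0) (nat_lit 37016364242) (nat_lit 0) (nat_lit 0) (nat_lit 0) (nat_lit 0) (nat_lit 0) (nat_lit 0) (nat_lit 1) (nat_lit 0) (nat_lit 1) (nat_lit 0) (nat_lit 415) (nat_lit 386) (nat_lit 219)) (XT.lf (nat_lit 0) (nat_lit 37016357059) (nat_lit 0) (nat_lit 0) (nat_lit 0) (nat_lit 0) (nat_lit 0) (nat_lit 0) (nat_lit 1) (nat_lit 0) (nat_lit 1) (nat_lit 0) (nat_lit 416) (nat_lit 386) (nat_lit 218)))) (XT.nd (nat_lit 39858) (nat_lit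 0) (nat_lit 22268) (XT.nd (nat_lit 39780) (nat_lit 0) (nat_lit 22192) (XT.lf (nat_lit 0) (nat_lit 37016350408) (nat_lit 0) (nat_lit 0) (nat_lit 0) (nat_lit 0) (nat_lit 0) (nat_lit 0) (nat_lit 1) (nat_lit 0) (nat_lit 1) (nat_lit 0) (nat_lit 417) (nat_lit 386) (nat_lit 217)) (XT.lf (nat_lit 836) (nat_lit 20006272819) (nat_lit 0) (nat_lit 35521091405) (nat_lit 836) (nat_lit 20006272819) (nat_lit 303) (nat_lit 1) (nat_lit 292) (nat_lit 0) (nat_lit 303) (nat_lit 0) (nat_lit 246) (nat_lit 387) (nat_lit 387))) (XT.nd (nat_lit 78) (nat_lit 0) (nat_lit 0) (XT.lf (nat_lit 836) (nat_lit 7462953636) (nat_lit 0) (nat_lit 69738668028) (nat_lit 760) (nat_lit 68204184339) (nat_lit 304) (nat_lit 1) (nat_lit 293) (nat_lit 1) (nat_lit 303) (nat_lit 1) (nat_lit 247) (nat_lit 387) (nat_lit 386)) (XT.lf (nat_lit 836) (nat_lit 68542921476) (nat_lit 76) (nat_lit 46704009485) (nat_lit 0) (nat_lit 24769676176) (nat_lit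 304) (nat_lit 1) (nat_lit 294) (nat_lit 1) (nat_lit 293) (nat_lit 1) (nat_lit 248) (nat_lit 387) (nat_lit 385))))) (XT.nd (nat_lit 234) (nat_lit 1444) (nat_lit 0) (XT.nd (nat_lit 78) (nat_lit 0) (nat_lit 76) (XT.lf (nat_lit 836) (nat_lit 59226699272) (nat_lit 76) (nat_lit 19573326653) (nat_lit 0) (nat_lit 56097071526) (nat_lit 305) (nat_lit 1) (nat_lit 295) (nat_lit 1) (nat_lit 294) (nat_lit 1) (nat_lit 249) (nat_lit 387) (nat_lit 384)) (XT.nd (nat_lit 78) (nat_lit 0) (nat_lit 76) (XT.lf (nat_lit 836) (nat_lit 43832792740) (nat_lit 0) (nat_lit 82009083331) (nat_lit 760) (nat_lit 4192292623) (nat_lit 306) (nat_lit 1) (nat_lit 295) (nat_lit 1) (nat_lit 305) (nat_lit 1) (nat_lit 250) (nat_lit 387) (nat_lit 383)) (XT.lf (nat_lit 836) (nat_lit 10517248849) (nat_lit 0) (nat_lit 90437797380) (nat_lit 760) (nat_lit 24448432597) (nat_lit 307) (nat_lit 1) (nat_lit 296) (nat_lit 1) (nat_lit 306) (nat_lit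 1) (nat_lit 251) (nat_lit 387) (nat_lit 382)))) (XT.nd (nat_lit 156) (nat_lit 912) (nat_lit 0) (XT.nd (nat_lit 78) (nat_lit 684) (nat_lit 0) (XT.lf (nat_lit 836) (nat_lit 20209874561) (nat_lit 76) (nat_lit 78597810589) (nat_lit 0) (nat_lit 22181271861) (nat_lit 307) (nat_lit 1) (nat_lit 297) (nat_lit 1) (nat_lit 296) (nat_lit 1) (nat_lit 252) (nat_lit 387) (nat_lit 381)) (XT.lf (nat_lit 836) (nat_lit 4150647387) (nat_lit 0) (nat_lit 58757062460) (nat_lit 760) (nat_lit 53879610629) (nat_lit 298) (nat_lit 1) (nat_lit 287) (nat_lit 1) (nat_lit 297) (nat_lit 1) (nat_lit 253) (nat_lit 387) (nat_lit 380))) (XT.nd (nat_lit 78) (nat_lit 380) (nat_lit 0) (XT.lf (nat_lit 76) (nat_lit 28739947128) (nat_lit 0) (nat_lit 12454356539) (nat_lit 532) (nat_lit 71590323709) (nat_lit 281) (nat_lit 1) (nat_lit 280) (nat_lit 1) (nat_lit 287) (nat_lit 1) (nat_lit 254) (nat_lit 387) (nat_lit 379)) (XT.lf (nat_lit 456)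 (nat_lit 79203676880) (nat_lit 0) (nat_lit 25782504318) (nat_lit 380) (nat_lit 3986134475) (nat_lit 281) (nat_lit 1) (nat_lit 275) (nat_lit 1) (nat_lit 280) (nat_lit 1) (nat_lit 255) (nat_lit 387) (nat_lit 378))))))) (XT.nd (nat_lit 1014) (nat_lit 2356) (nat_lit 0) (XT.nd (nat_lit 468) (nat_lit 1748) (nat_lit 0) (XT.nd (nat_lit 234) (nat_lit 988) (nat_lit 0) (XT.nd (nat_lit 78) (nat_lit 304) (nat_lit 0) (XT.lf (nat_lit 456) (nat_lit 57154127471) (nat_lit 0) (nat_lit 12017336324) (nat_lit 380) (nat_lit 36152462760) (nat_lit 276) (nat_lit 1) (nat_lit 270) (nat_lit 1) (nat_lit 275) (nat_lit 1) (nat_lit 256) (nat_lit 387) (nat_lit 377)) (XT.nd (nat_lit 78) (nat_lit 0) (nat_lit 0) (XT.lf (nat_lit 380) (nat_lit 34777557626) (nat_lit 0) (nat_lit 221258690) (nat_lit 304) (nat_lit 66853623578) (nat_lit 271) (nat_lit 1) (nat_lit 266) (nat_lit 1) (nat_lit 270) (nat_lit 1) (nat_lit 257) (nat_lit 387) (nat_lit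 376)) (XT.lf (nat_lit 76) (nat_lit 2565723843) (nat_lit 0) (nat_lit 86528640427) (nat_lit 380) (nat_lit 9446283547) (nat_lit 267) (nat_lit 1) (nat_lit 266) (nat_lit 1) (nat_lit 271) (nat_lit 1) (nat_lit 258) (nat_lit 387) (nat_lit 375)))) (XT.nd (nat_lit 78) (nat_lit 608) (nat_lit 0) (XT.lf (nat_lit 76) (nat_lit 66247655107) (nat_lit 0) (nat_lit 10987882445) (nat_lit 380) (nat_lit 18121013702) (nat_lit 262) (nat_lit 1) (nat_lit 261) (nat_lit 1) (nat_lit 266) (nat_lit 1) (nat_lit 259) (nat_lit 387) (nat_lit 374)) (XT.nd (nat_lit 78) (nat_lit 304) (nat_lit 0) (XT.lf (nat_lit 76) (nat_lit 33145380608) (nat_lit 0) (nat_lit 33657834456) (nat_lit 380) (nat_lit 25509929247) (nat_lit 258) (nat_lit 1) (nat_lit 257) (nat_lit 1) (nat_lit 262) (nat_lit 1) (nat_lit 260) (nat_lit 387) (nat_lit 373)) (XT.lf (nat_lit 76) (nat_lit 1635982488) (nat_lit 0) (nat_lit 56275376580) (nat_lit 380) (nat_lit 31502473563)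 (nat_lit 254) (nat_lit 1) (nat_lit 253) (nat_lit 1) (nat_lit 258) (nat_lit 1) (nat_lit 261) (nat_lit 387) (nat_lit 372))))) (XT.nd (nat_lit 234) (nat_lit 912) (nat_lit 0) (XT.nd (nat_lit 78) (nat_lit 608) (nat_lit 0) (XT.lf (nat_lit 304) (nat_lit 7388004713) (nat_lit 0) (nat_lit 49961539465) (nat_lit 228) (nat_lit 29278610368) (nat_lit 254) (nat_lit 1) (nat_lit 250) (nat_lit 1) (nat_lit 253) (nat_lit 1) (nat_lit 262) (nat_lit 387) (nat_lit 371)) (XT.nd (nat_lit 78) (nat_lit 228) (nat_lit 0) (XT.lf (nat_lit 76) (nat_lit 25527542621) (nat_lit 0) (nat_lit 17496736334) (nat_lit 380) (nat_lit 40933278918) (nat_lit 246) (nat_lit 1) (nat_lit 245) (nat_lit 1) (nat_lit 250) (nat_lit 1) (nat_lit 263) (nat_lit 387) (nat_lit 370)) (XT.lf (nat_lit 304) (nat_lit 39522776148) (nat_lit 0) (nat_lit 37126539993) (nat_lit 228) (nat_lit 4752153056) (nat_lit 246) (nat_lit 1) (nat_lit 242) (nat_lit 1) (nat_lit 245)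 (nat_lit 1) (nat_lit 264) (nat_lit 387) (nat_lit 369)))) (XT.nd (nat_lit 156) (nat_lit 380) (nat_lit 0) (XT.nd (nat_lit 78) (nat_lit 304) (nat_lit 0) (XT.lf (nat_lit 304) (nat_lit 12666858818) (nat_lit 0) (nat_lit 31964430617) (nat_lit 228) (nat_lit 34312322287) (nat_lit 243) (nat_lit 1) (nat_lit 239) (nat_lit 1) (nat_lit 242) (nat_lit 1) (nat_lit 265) (nat_lit 387) (nat_lit 368)) (XT.lf (nat_lit 76) (nat_lit 14437158332) (nat_lit 0) (nat_lit 13218473070) (nat_lit 304) (nat_lit 48932202296) (nat_lit 236) (nat_lit 1) (nat_lit 235) (nat_lit 1) (nat_lit 239) (nat_lit 1) (nat_lit 266) (nat_lit 387) (nat_lit 367))) (XT.nd (nat_lit 78) (nat_lit 152) (nat_lit 0) (XT.lf (nat_lit 304) (nat_lit 35924973637) (nat_lit 0) (nat_lit 23903146181) (nat_lit 228) (nat_lit 14490165804) (nat_lit 236) (nat_lit 1) (nat_lit 232) (nat_lit 1) (nat_lit 235) (nat_lit 1) (nat_lit 267) (nat_lit 387) (nat_lit 366)) (XT.lf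 (nat_lit 228) (nat_lit 8905854010) (nat_lit 0) (nat_lit 20853751543) (nat_lit 152) (nat_lit 42380691897) (nat_lit 233) (nat_lit 1) (nat_lit 230) (nat_lit 1) (nat_lit 232) (nat_lit 1) (nat_lit 268) (nat_lit 387) (nat_lit 365)))))) (XT.nd (nat_lit 546) (nat_lit 988) (nat_lit 0) (XT.nd (nat_lit 234) (nat_lit 684) (nat_lit 0) (XT.nd (nat_lit 78) (nat_lit 380) (nat_lit 0) (XT.lf (nat_lit 76) (nat_lit 1508708566) (nat_lit 0) (nat_lit 16882776387) (nat_lit 304) (nat_lit 51655248882) (nat_lit 227) (nat_lit 1) (nat_lit 226) (nat_lit 1) (nat_lit 230) (nat_lit 1) (nat_lit 269) (nat_lit 387) (nat_lit 364)) (XT.nd (nat_lit 78) (nat_lit 228) (nat_lit 0) (XT.lf (nat_lit 228) (nat_lit 25878777644) (nat_lit 0) (nat_lit 16172015891) (nat_lit 152) (nat_lit 25968836051) (nat_lit 227) (nat_lit 1) (nat_lit 224) (nat_lit 1) (nat_lit 226) (nat_lit 1) (nat_lit 270) (nat_lit 387) (nat_lit 363)) (XT.lf (nat_lit 76) (nat_lit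 14040743269) (nat_lit 0) (nat_lit 648550734) (nat_lit 228) (nat_lit 51391687180) (nat_lit 222) (nat_lit 1) (nat_lit 221) (nat_lit 1) (nat_lit 224) (nat_lit 1) (nat_lit 271) (nat_lit 387) (nat_lit 362)))) (XT.nd (nat_lit 156) (nat_lit 380) (nat_lit 0) (XT.nd (nat_lit 78) (nat_lit 152) (nat_lit 0) (XT.lf (nat_lit 228) (nat_lit 38384680766) (nat_lit 0) (nat_lit 13301152542) (nat_lit 152) (nat_lit 12512893373) (nat_lit 222) (nat_lit 1) (nat_lit 219) (nat_lit 1) (nat_lit 221) (nat_lit 1) (nat_lit 272) (nat_lit 387) (nat_lit 361)) (XT.lf (nat_lit 228) (nat_lit 11923820027) (nat_lit 0) (nat_lit 12364892151) (nat_lit 152) (nat_lit 38099726828) (nat_lit 220) (nat_lit 1) (nat_lit 217) (nat_lit 1) (nat_lit 219) (nat_lit 1) (nat_lit 273) (nat_lit 387) (nat_lit 360))) (XT.nd (nat_lit 78) (nat_lit 152) (nat_lit 0) (XT.lf (nat_lit 228) (nat_lit 47333183382) (nat_lit 0) (nat_lit 11813650853) (nat_lit 152) (nat_lit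 1498698668) (nat_lit 217) (nat_lit 1) (nat_lit 214) (nat_lit 1) (nat_lit 216) (nat_lit 1) (nat_lit 274) (nat_lit 387) (nat_lit 359)) (XT.lf (nat_lit 228) (nat_lit 21184139174) (nat_lit 0) (nat_lit 11278053631) (nat_lit 152) (nat_lit 26488863855) (nat_lit 215) (nat_lit 1) (nat_lit 212) (nat_lit 1) (nat_lit 214) (nat_lit 1) (nat_lit 275) (nat_lit 387) (nat_lit 358))))) (XT.nd (nat_lit 234) (nat_lit 608) (nat_lit 0) (XT.nd (nat_lit 78) (nat_lit 228) (nat_lit 0) (XT.lf (nat_lit 76) (nat_lit 7256385564) (nat_lit 0) (nat_lit 3988436488) (nat_lit 152) (nat_lit 46082040861) (nat_lit 211) (nat_lit 1) (nat_lit 210) (nat_lit 1) (nat_lit 212) (nat_lit 1) (nat_lit 276) (nat_lit 387) (nat_lit 357)) (XT.nd (nat_lit 78) (nat_lit 76) (nat_lit 0) (XT.lf (nat_lit 228) (nat_lit 27794808911) (nat_lit 0) (nat_lit 11125751903) (nat_lit 152) (nat_lit 16823093336) (nat_lit 211) (nat_lit 1) (nat_lit 208) (nat_lit 1) (nat_lit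 210) (nat_lit 1) (nat_lit 277) (nat_lit 387) (nat_lit 356)) (XT.lf (nat_lit 152) (nat_lit 2993105960) (nat_lit 0) (nat_lit 11399014747) (nat_lit 76) (nat_lit 39830827724) (nat_lit 209) (nat_lit 1) (nat_lit 207) (nat_lit 1) (nat_lit 208) (nat_lit 1) (nat_lit 278) (nat_lit 387) (nat_lit 355)))) (XT.nd (nat_lit 156) (nat_lit 304) (nat_lit 0) (XT.nd (nat_lit 78) (nat_lit 76) (nat_lit 0) (XT.lf (nat_lit 228) (nat_lit 32309473802) (nat_lit 0) (nat_lit 11658150220) (nat_lit 152) (nat_lit 8776549243) (nat_lit 207) (nat_lit 1) (nat_lit 204) (nat_lit 1) (nat_lit 206) (nat_lit 1) (nat_lit 279) (nat_lit 387) (nat_lit 354)) (XT.lf (nat_lit 152) (nat_lit 8126070910) (nat_lit 0) (nat_lit 12094060205) (nat_lit 76) (nat_lit 31095104679) (nat_lit 205) (nat_lit 1) (nat_lit 203) (nat_lit 1) (nat_lit 204) (nat_lit 1) (nat_lit 280) (nat_lit 387) (nat_lit 353))) (XT.nd (nat_lit 78) (nat_lit 76) (nat_lit 0) (XT.lf (nat_lit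 228) (nat_lit 35175762550) (nat_lit 0) (nat_lit 12677360307) (nat_lit 152) (nat_lit 2080463350) (nat_lit 203) (nat_lit 1) (nat_lit 200) (nat_lit 1) (nat_lit 202) (nat_lit 1) (nat_lit 281) (nat_lit 387) (nat_lit 352)) (XT.lf (nat_lit 152) (nat_lit 11694530872) (nat_lit 0) (nat_lit 13216300454) (nat_lit 76) (nat_lit 23678143631) (nat_lit 201) (nat_lit 1) (nat_lit 199) (nat_lit 1) (nat_lit 200) (nat_lit 1) (nat_lit 282) (nat_lit 387) (nat_lit 351))))))))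
noncomputable def ec136 : XT := (XT.nd (nat_lit 2028) (nat_lit 3192) (nat_lit 0) (XT.nd (nat_lit 1014) (nat_lit 1520) (nat_lit 0) (XT.nd (nat_lit 468) (nat_lit 836) (nat_lit 0) (XT.nd (nat_lit 234) (nat_lit 304) (nat_lit 0) (XT.nd (nat_lit 78) (nat_lit 304) (nat_lit 0) (XT.lf (nat_lit 76) (nat_lit 3375507009) (nat_lit 0) (nat_lit 10594816722) (nat_lit 228) (nat_lit 33322345227) (nat_lit 197) (nat_lit 1) (nat_lit 196) (nat_lit 1) (nat_lit 199) (nat_lit 1) (nat_lit 283) (nat_lit 387) (nat_lit 350)) (XT.nd (nat_lit 78) (nat_lit 228) (nat_lit 0) (XT.lf (nat_lit 152) (nat_lit 14034492159) (nat_lit 0) (nat_lit 14623275610) (nat_lit 76) (nat_lit 17370788150) (nat_lit 197) (nat_lit 1) (nat_lit 195) (nat_lit 1) (nat_lit 196) (nat_lit 1) (nat_lit 284) (nat_lit 387) (nat_lit 349)) (XT.lf (nat_lit 76) (nat_lit 7850172432) (nat_lit 0) (nat_lit 7603422827) (nat_lit 228) (nat_lit 29355271651) (nat_lit 193)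 (nat_lit 1) (nat_lit 192) (nat_lit 1) (nat_lit 195) (nat_lit 1) (nat_lit 285) (nat_lit 387) (nat_lit 348)))) (XT.nd (nat_lit 78) (nat_lit 228) (nat_lit 0) (XT.lf (nat_lit 152) (nat_lit 15416921128) (nat_lit 0) (nat_lit 16203779654) (nat_lit 76) (nat_lit 11999639710) (nat_lit 193) (nat_lit 1) (nat_lit 191) (nat_lit 1) (nat_lit 192) (nat_lit 1) (nat_lit 286) (nat_lit 387) (nat_lit 347)) (XT.nd (nat_lit 78) (nat_lit 76) (nat_lit 0) (XT.lf (nat_lit 76) (nat_lit 11557269094) (nat_lit 0) (nat_lit 5506831930) (nat_lit 152) (nat_lit 25406964598) (nat_lit 190) (nat_lit 1) (nat_lit 189) (nat_lit 1) (nat_lit 191) (nat_lit 1) (nat_lit 287) (nat_lit 387) (nat_lit 346)) (XT.lf (nat_lit 152) (nat_lit 16059897340) (nat_lit 0) (nat_lit 17871769190) (nat_lit 76) (nat_lit 7420679220) (nat_lit 190) (nat_lit 1) (nat_lit 188) (nat_lit 1) (nat_lit 189) (nat_lit 1) (nat_lit 288) (nat_lit 387) (nat_lit 345))))) (XT.nd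 (nat_lit 234) (nat_lit 456) (nat_lit 0) (XT.nd (nat_lit 78) (nat_lit 228) (nat_lit 0) (XT.lf (nat_lit 76) (nat_lit 14618870829) (nat_lit 0) (nat_lit 4108168425) (nat_lit 152) (nat_lit 21540997278) (nat_lit 187) (nat_lit 1) (nat_lit 186) (nat_lit 1) (nat_lit 188) (nat_lit 1) (nat_lit 289) (nat_lit 387) (nat_lit 344)) (XT.nd (nat_lit 78) (nat_lit 152) (nat_lit 0) (XT.lf (nat_lit 152) (nat_lit 16138523176) (nat_lit 0) (nat_lit 19561413041) (nat_lit 76) (nat_lit 3514047047) (nat_lit 187) (nat_lit 1) (nat_lit 185) (nat_lit 1) (nat_lit 186) (nat_lit 1) (nat_lit 290) (nat_lit 387) (nat_lit 343)) (XT.lf (nat_lit 76) (nat_lit 17136434614) (nat_lit 0) (nat_lit 3249126021) (nat_lit 152) (nat_lit 17804265324) (nat_lit 184) (nat_lit 1) (nat_lit 183) (nat_lit 1) (nat_lit 185) (nat_lit 1) (nat_lit 291) (nat_lit 387) (nat_lit 342)))) (XT.nd (nat_lit 156) (nat_lit 228) (nat_lit 0) (XT.nd (nat_lit 78) (nat_lit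 152) (nat_lit 0) (XT.lf (nat_lit 152) (nat_lit 15793002368) (nat_lit 0) (nat_lit 21223071900) (nat_lit 76) (nat_lit 179769707) (nat_lit 184) (nat_lit 1) (nat_lit 182) (nat_lit 1) (nat_lit 183) (nat_lit 1) (nat_lit 292) (nat_lit 387) (nat_lit 341)) (XT.lf (nat_lit 76) (nat_lit 19194449953) (nat_lit 0) (nat_lit 2802725666) (nat_lit 152) (nat_lit 14230385397) (nat_lit 181) (nat_lit 1) (nat_lit 180) (nat_lit 1) (nat_lit 182) (nat_lit 1) (nat_lit 293) (nat_lit 387) (nat_lit 340))) (XT.nd (nat_lit 78) (nat_lit 152) (nat_lit 0) (XT.lf (nat_lit 0) (nat_lit 2580419456) (nat_lit 0) (nat_lit 20195915940) (nat_lit 152) (nat_lit 12511104120) (nat_lit 179) (nat_lit 3) (nat_lit 179) (nat_lit 1) (nat_lit 181) (nat_lit 1) (nat_lit 294) (nat_lit 387) (nat_lit 339)) (XT.lf (nat_lit 76) (nat_lit 20863427677) (nat_lit 0) (nat_lit 2667412822) (nat_lit 152) (nat_lit 10842448605) (nat_lit 178) (nat_lit 1) (nat_lit 177)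 (nat_lit 1) (nat_lit 179) (nat_lit 1) (nat_lit 295) (nat_lit 387) (nat_lit 338)))))) (XT.nd (nat_lit 468) (nat_lit 836) (nat_lit 0) (XT.nd (nat_lit 234) (nat_lit 380) (nat_lit 0) (XT.nd (nat_lit 78) (nat_lit 228) (nat_lit 0) (XT.lf (nat_lit 0) (nat_lit 4929555799) (nat_lit 0) (nat_lit 19312840537) (nat_lit 152) (nat_lit 9241088245) (nat_lit 176) (nat_lit 3) (nat_lit 176) (nat_lit 1) (nat_lit 178) (nat_lit 1) (nat_lit 296) (nat_lit 387) (nat_lit 337)) (XT.nd (nat_lit 78) (nat_lit 76) (nat_lit 0) (XT.lf (nat_lit 76) (nat_lit 22202348780) (nat_lit 0) (nat_lit 2762247700) (nat_lit 152) (nat_lit 7655248451) (nat_lit 175) (nat_lit 1) (nat_lit 174) (nat_lit 1) (nat_lit 176) (nat_lit 1) (nat_lit 297) (nat_lit 387) (nat_lit 336)) (XT.lf (nat_lit 0) (nat_lit 6930406848) (nat_lit 0) (nat_lit 18674548152) (nat_lit 152) (nat_lit 6172298343) (nat_lit 173) (nat_lit 3) (nat_lit 173) (nat_lit 1) (nat_lit 175)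 (nat_lit 1) (nat_lit 298) (nat_lit 387) (nat_lit 335)))) (XT.nd (nat_lit 78) (nat_lit 228) (nat_lit 0) (XT.lf (nat_lit 76) (nat_lit 23260671839) (nat_lit 0) (nat_lit 3022987290) (nat_lit 152) (nat_lit 4677080966) (nat_lit 172) (nat_lit 1) (nat_lit 171) (nat_lit 1) (nat_lit 173) (nat_lit 1) (nat_lit 299) (nat_lit 387) (nat_lit 334)) (XT.nd (nat_lit 78) (nat_lit 152) (nat_lit 0) (XT.lf (nat_lit 0) (nat_lit 8631040983) (nat_lit 0) (nat_lit 18220286936) (nat_lit 152) (nat_lit 3311190209) (nat_lit 170) (nat_lit 3) (nat_lit 170) (nat_lit 1) (nat_lit 172) (nat_lit 1) (nat_lit 300) (nat_lit 387) (nat_lit 333)) (XT.lf (nat_lit 76) (nat_lit 24079979504) (nat_lit 0) (nat_lit 3398894990) (nat_lit 152) (nat_lit 1911196708) (nat_lit 169) (nat_lit 1) (nat_lit 168) (nat_lit 1) (nat_lit 170) (nat_lit 1) (nat_lit 301) (nat_lit 387) (nat_lit 332))))) (XT.nd (nat_lit 234) (nat_lit 456) (nat_lit 0) (XT.nd (nat_lit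 78) (nat_lit 304) (nat_lit 0) (XT.lf (nat_lit 0) (nat_lit 10072112587) (nat_lit 0) (nat_lit 17901858124) (nat_lit 152) (nat_lit 659633352) (nat_lit 167) (nat_lit 3) (nat_lit 167) (nat_lit 1) (nat_lit 169) (nat_lit 1) (nat_lit 302) (nat_lit 387) (nat_lit 331)) (XT.nd (nat_lit 78) (nat_lit 76) (nat_lit 0) (XT.lf (nat_lit 152) (nat_lit 24041409377) (nat_lit 0) (nat_lit 664291883) (nat_lit 76) (nat_lit 3196223369) (nat_lit 166) (nat_lit 1) (nat_lit 164) (nat_lit 1) (nat_lit 165) (nat_lit 1) (nat_lit 303) (nat_lit 387) (nat_lit 330)) (XT.lf (nat_lit 76) (nat_lit 9473894363) (nat_lit 0) (nat_lit 1842999795) (nat_lit 76) (nat_lit 15866984650) (nat_lit 164) (nat_lit 3) (nat_lit 163) (nat_lit 1) (nat_lit 164) (nat_lit 1) (nat_lit 304) (nat_lit 387) (nat_lit 329)))) (XT.nd (nat_lit 156) (nat_lit 228) (nat_lit 0) (XT.nd (nat_lit 78) (nat_lit 76) (nat_lit 0) (XT.lf (nat_lit 152) (nat_lit 22096578656) (nat_lit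 0) (nat_lit 3087999645) (nat_lit 76) (nat_lit 1305916300) (nat_lit 163) (nat_lit 1) (nat_lit 161) (nat_lit 1) (nat_lit 162) (nat_lit 1) (nat_lit 305) (nat_lit 387) (nat_lit 328)) (XT.lf (nat_lit 76) (nat_lit 8216256767) (nat_lit 0) (nat_lit 4157085116) (nat_lit 76) (nat_lit 13436299133) (nat_lit 161) (nat_lit 3) (nat_lit 160) (nat_lit 1) (nat_lit 161) (nat_lit 1) (nat_lit 306) (nat_lit 387) (nat_lit 327))) (XT.nd (nat_lit 78) (nat_lit 76) (nat_lit 0) (XT.lf (nat_lit 0) (nat_lit 346794544) (nat_lit 0) (nat_lit 4950006507) (nat_lit 152) (nat_lit 19855676470) (nat_lit 158) (nat_lit 3) (nat_lit 158) (nat_lit 1) (nat_lit 160) (nat_lit 1) (nat_lit 307) (nat_lit 387) (nat_lit 326)) (XT.lf (nat_lit 76) (nat_lit 6988762115) (nat_lit 0) (nat_lit 6267258680) (nat_lit 76) (nat_lit 11250995414) (nat_lit 158) (nat_lit 3) (nat_lit 157) (nat_lit 1) (nat_lit 158) (nat_lit 1) (nat_lit 308) (nat_lit 387) (nat_lit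 325))))))) (XT.nd (nat_lit 1014) (nat_lit 1672) (nat_lit 0) (XT.nd (nat_lit 468) (nat_lit 836) (nat_lit 0) (XT.nd (nat_lit 234) (nat_lit 304) (nat_lit 0) (XT.nd (nat_lit 78) (nat_lit 228) (nat_lit 0) (XT.lf (nat_lit 0) (nat_lit 1763720998) (nat_lit 0) (nat_lit 5522304155) (nat_lit 152) (nat_lit 16597043319) (nat_lit 155) (nat_lit 3) (nat_lit 155) (nat_lit 1) (nat_lit 157) (nat_lit 1) (nat_lit 309) (nat_lit 387) (nat_lit 324)) (XT.nd (nat_lit 78) (nat_lit 152) (nat_lit 0) (XT.lf (nat_lit 76) (nat_lit 5805169331) (nat_lit 0) (nat_lit 8181416956) (nat_lit 76) (nat_lit 9285338921) (nat_lit 155) (nat_lit 3) (nat_lit 154) (nat_lit 1) (nat_lit 155) (nat_lit 1) (nat_lit 310) (nat_lit 387) (nat_lit 323)) (XT.lf (nat_lit 0) (nat_lit 3008253619) (nat_lit 0) (nat_lit 6077186238) (nat_lit 152) (nat_lit 13593913674) (nat_lit 152) (nat_lit 3) (nat_lit 152) (nat_lit 1) (nat_lit 154) (nat_lit 1) (nat_lit 311)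 (nat_lit 387) (nat_lit 322)))) (XT.nd (nat_lit 78) (nat_lit 228) (nat_lit 0) (XT.lf (nat_lit 76) (nat_lit 4675260794) (nat_lit 0) (nat_lit 9908454579) (nat_lit 76) (nat_lit 7516865070) (nat_lit 152) (nat_lit 3) (nat_lit 151) (nat_lit 1) (nat_lit 152) (nat_lit 1) (nat_lit 312) (nat_lit 387) (nat_lit 321)) (XT.nd (nat_lit 78) (nat_lit 76) (nat_lit 0) (XT.lf (nat_lit 0) (nat_lit 4099192145) (nat_lit 0) (nat_lit 6605016021) (nat_lit 152) (nat_lit 10833466714) (nat_lit 149) (nat_lit 3) (nat_lit 149) (nat_lit 1) (nat_lit 151) (nat_lit 1) (nat_lit 313) (nat_lit 387) (nat_lit 320)) (XT.lf (nat_lit 76) (nat_lit 3605670336) (nat_lit 0) (nat_lit 11457907625) (nat_lit 76) (nat_lit 5925877629) (nat_lit 149) (nat_lit 3) (nat_lit 148) (nat_lit 1) (nat_lit 149) (nat_lit 1) (nat_lit 314) (nat_lit 387) (nat_lit 319))))) (XT.nd (nat_lit 234) (nat_lit 456) (nat_lit 0) (XT.nd (nat_lit 78) (nat_lit 228) (nat_lit 0)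 (XT.lf (nat_lit 0) (nat_lit 5052972360) (nat_lit 0) (nat_lit 7099010538) (nat_lit 152) (nat_lit 8302639424) (nat_lit 146) (nat_lit 3) (nat_lit 146) (nat_lit 1) (nat_lit 148) (nat_lit 1) (nat_lit 315) (nat_lit 387) (nat_lit 318)) (XT.nd (nat_lit 78) (nat_lit 152) (nat_lit 0) (XT.lf (nat_lit 76) (nat_lit 2600553045) (nat_lit 0) (nat_lit 12839673717) (nat_lit 76) (nat_lit 4495032839) (nat_lit 146) (nat_lit 3) (nat_lit 145) (nat_lit 1) (nat_lit 146) (nat_lit 1) (nat_lit 316) (nat_lit 387) (nat_lit 317)) (XT.lf (nat_lit 0) (nat_lit 5884022166) (nat_lit 0) (nat_lit 7554639268) (nat_lit 152) (nat_lit 5988347876) (nat_lit 143) (nat_lit 3) (nat_lit 143) (nat_lit 1) (nat_lit 145) (nat_lit 1) (nat_lit 317) (nat_lit 387) (nat_lit 316)))) (XT.nd (nat_lit 156) (nat_lit 228) (nat_lit 0) (XT.nd (nat_lit 78) (nat_lit 152) (nat_lit 0) (XT.lf (nat_lit 76) (nat_lit 1662126261) (nat_lit 0) (nat_lit 14063794186) (nat_lit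 76) (nat_lit 3208993949) (nat_lit 143) (nat_lit 3) (nat_lit 142) (nat_lit 1) (nat_lit 143) (nat_lit 1) (nat_lit 318) (nat_lit 387) (nat_lit 315)) (XT.lf (nat_lit 0) (nat_lit 6605057431) (nat_lit 0) (nat_lit 7969138284) (nat_lit 152) (nat_lit 3877656574) (nat_lit 140) (nat_lit 3) (nat_lit 140) (nat_lit 1) (nat_lit 142) (nat_lit 1) (nat_lit 319) (nat_lit 387) (nat_lit 314))) (XT.nd (nat_lit 78) (nat_lit 152) (nat_lit 0) (XT.lf (nat_lit 76) (nat_lit 791105773) (nat_lit 0) (nat_lit 15140286190) (nat_lit 76) (nat_lit 2054143600) (nat_lit 140) (nat_lit 3) (nat_lit 139) (nat_lit 1) (nat_lit 140) (nat_lit 1) (nat_lit 320) (nat_lit 387) (nat_lit 313)) (XT.lf (nat_lit 0) (nat_lit 7227328369) (nat_lit 0) (nat_lit 8341118340) (nat_lit 152) (nat_lit 1957906073) (nat_lit 137) (nat_lit 3) (nat_lit 137) (nat_lit 1) (nat_lit 139) (nat_lit 1) (nat_lit 321) (nat_lit 387) (nat_lit 312)))))) (XT.nd (nat_lit 546)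 (nat_lit 760) (nat_lit 0) (XT.nd (nat_lit 234) (nat_lit 456) (nat_lit 0) (XT.nd (nat_lit 78) (nat_lit 304) (nat_lit 0) (XT.lf (nat_lit 76) (nat_lit 16066273895) (nat_lit 0) (nat_lit 12528950) (nat_lit 152) (nat_lit 1005602662) (nat_lit 136) (nat_lit 1) (nat_lit 135) (nat_lit 1) (nat_lit 137) (nat_lit 1) (nat_lit 322) (nat_lit 387) (nat_lit 311)) (XT.nd (nat_lit 78) (nat_lit 228) (nat_lit 0) (XT.lf (nat_lit 0) (nat_lit 7760825200) (nat_lit 0) (nat_lit 8670249371) (nat_lit 152) (nat_lit 216807217) (nat_lit 134) (nat_lit 3) (nat_lit 134) (nat_lit 1) (nat_lit 136) (nat_lit 1) (nat_lit 323) (nat_lit 387) (nat_lit 310)) (XT.lf (nat_lit 152) (nat_lit 15490156776) (nat_lit 0) (nat_lit 670313262) (nat_lit 76) (nat_lit 67429508) (nat_lit 133) (nat_lit 1) (nat_lit 131) (nat_lit 1) (nat_lit 132) (nat_lit 1) (nat_lit 324) (nat_lit 387) (nat_lit 309)))) (XT.nd (nat_lit 156) (nat_lit 228) (nat_lit 0) (XT.nd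 (nat_lit 78) (nat_lit 152) (nat_lit 0) (XT.lf (nat_lit 76) (nat_lit 6833969227) (nat_lit 0) (nat_lit 1402376092) (nat_lit 76) (nat_lit 7576526033) (nat_lit 131) (nat_lit 3) (nat_lit 130) (nat_lit 1) (nat_lit 131) (nat_lit 1) (nat_lit 325) (nat_lit 387) (nat_lit 308)) (XT.lf (nat_lit 0) (nat_lit 772543647) (nat_lit 0) (nat_lit 1427355645) (nat_lit 152) (nat_lit 13213557923) (nat_lit 128) (nat_lit 3) (nat_lit 128) (nat_lit 1) (nat_lit 130) (nat_lit 1) (nat_lit 326) (nat_lit 387) (nat_lit 307))) (XT.nd (nat_lit 78) (nat_lit 152) (nat_lit 0) (XT.lf (nat_lit 76) (nat_lit 5772787222) (nat_lit 0) (nat_lit 2868155415) (nat_lit 76) (nat_lit 6379094628) (nat_lit 128) (nat_lit 3) (nat_lit 127) (nat_lit 1) (nat_lit 128) (nat_lit 1) (nat_lit 327) (nat_lit 387) (nat_lit 306)) (XT.lf (nat_lit 0) (nat_lit 1520136260) (nat_lit 0) (nat_lit 2054798875) (nat_lit 152) (nat_lit 11065328907) (nat_lit 125) (nat_lit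 3) (nat_lit 125) (nat_lit 1) (nat_lit 127) (nat_lit 1) (nat_lit 328) (nat_lit 387) (nat_lit 305))))) (XT.nd (nat_lit 234) (nat_lit 456) (nat_lit 0) (XT.nd (nat_lit 78) (nat_lit 228) (nat_lit 0) (XT.lf (nat_lit 76) (nat_lit 4793858547) (nat_lit 0) (nat_lit 4184574148) (nat_lit 76) (nat_lit 5288916524) (nat_lit 125) (nat_lit 3) (nat_lit 124) (nat_lit 1) (nat_lit 125) (nat_lit 1) (nat_lit 329) (nat_lit 387) (nat_lit 304)) (XT.nd (nat_lit 78) (nat_lit 76) (nat_lit 0) (XT.lf (nat_lit 0) (nat_lit 2185403531) (nat_lit 0) (nat_lit 2621962593) (nat_lit 152) (nat_lit 9098859752) (nat_lit 122) (nat_lit 3) (nat_lit 122) (nat_lit 1) (nat_lit 124) (nat_lit 1) (nat_lit 330) (nat_lit 387) (nat_lit 303)) (XT.lf (nat_lit 76) (nat_lit 3893104130) (nat_lit 0) (nat_lit 5362296410) (nat_lit 76) (nat_lit 4297325484) (nat_lit 122) (nat_lit 3) (nat_lit 121) (nat_lit 1) (nat_lit 122) (nat_lit 1) (nat_lit 331) (nat_lit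 387) (nat_lit 302)))) (XT.nd (nat_lit 156) (nat_lit 228) (nat_lit 0) (XT.nd (nat_lit 78) (nat_lit 76) (nat_lit 0) (XT.lf (nat_lit 0) (nat_lit 2775514385) (nat_lit 0) (nat_lit 3131970606) (nat_lit 152) (nat_lit 7301830768) (nat_lit 119) (nat_lit 3) (nat_lit 119) (nat_lit 1) (nat_lit 121) (nat_lit 1) (nat_lit 332) (nat_lit 387) (nat_lit 301)) (XT.lf (nat_lit 76) (nat_lit 3066358938) (nat_lit 0) (nat_lit 6411431999) (nat_lit 76) (nat_lit 3396410994) (nat_lit 119) (nat_lit 3) (nat_lit 118) (nat_lit 1) (nat_lit 119) (nat_lit 1) (nat_lit 333) (nat_lit 387) (nat_lit 300))) (XT.nd (nat_lit 78) (nat_lit 76) (nat_lit 0) (XT.lf (nat_lit 0) (nat_lit 3296992001) (nat_lit 0) (nat_lit 3588043196) (nat_lit 152) (nat_lit 5662583277) (nat_lit 116) (nat_lit 3) (nat_lit 116) (nat_lit 1) (nat_lit 118) (nat_lit 1) (nat_lit 334) (nat_lit 387) (nat_lit 299)) (XT.lf (nat_lit 76) (nat_lit 2309444463) (nat_lit 0) (nat_lit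 7341538168) (nat_lit 76) (nat_lit 2578936311) (nat_lit 116) (nat_lit 3) (nat_lit 115) (nat_lit 1) (nat_lit 116) (nat_lit 1) (nat_lit 335) (nat_lit 387) (nat_lit 298))))))))
noncomputable def ec137 : XT := (XT.nd (nat_lit 2106) (nat_lit 3344) (nat_lit 0) (XT.nd (nat_lit 1014) (nat_lit 1596) (nat_lit 0) (XT.nd (nat_lit 468) (nat_lit 912) (nat_lit 0) (XT.nd (nat_lit 234) (nat_lit 304) (nat_lit 0) (XT.nd (nat_lit 78) (nat_lit 228) (nat_lit 0) (XT.lf (nat_lit 0) (nat_lit 3755784423) (nat_lit 0) (nat_lit 3993431556) (nat_lit 152) (nat_lit 4170107251) (nat_lit 113) (nat_lit 3) (nat_lit 113) (nat_lit 1) (nat_lit 115) (nat_lit 1) (nat_lit 336) (nat_lit 387) (nat_lit 297)) (XT.nd (nat_lit 78) (nat_lit 152) (nat_lit 0) (XT.lf (nat_lit 76) (nat_lit 1618224283) (nat_lit 0) (nat_lit 8161627648) (nat_lit 76) (nat_lit 1838267924) (nat_lit 113) (nat_lit 3) (nat_lit 112) (nat_lit 1) (nat_lit 113) (nat_lit 1) (nat_lit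 337) (nat_lit 387) (nat_lit 296)) (XT.lf (nat_lit 0) (nat_lit 4157325382) (nat_lit 0) (nat_lit 4351367393) (nat_lit 152) (nat_lit 2814024242) (nat_lit 110) (nat_lit 3) (nat_lit 110) (nat_lit 1) (nat_lit 112) (nat_lit 1) (nat_lit 338) (nat_lit 387) (nat_lit 295)))) (XT.nd (nat_lit 78) (nat_lit 228) (nat_lit 0) (XT.lf (nat_lit 76) (nat_lit 988646012) (nat_lit 0) (nat_lit 8880181365) (nat_lit 76) (nat_lit 1168314541) (nat_lit 110) (nat_lit 3) (nat_lit 109) (nat_lit 1) (nat_lit 110) (nat_lit 1) (nat_lit 339) (nat_lit 387) (nat_lit 294)) (XT.nd (nat_lit 78) (nat_lit 76) (nat_lit 0) (XT.lf (nat_lit 0) (nat_lit 4506586901) (nat_lit 0) (nat_lit 4665024757) (nat_lit 152) (nat_lit 1584566889) (nat_lit 107) (nat_lit 3) (nat_lit 107) (nat_lit 1) (nat_lit 109) (nat_lit 1) (nat_lit 340) (nat_lit 387) (nat_lit 293)) (XT.lf (nat_lit 76) (nat_lit 416772366) (nat_lit 0) (nat_lit 9505164593) (nat_lit 76) (nat_lit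 563474085) (nat_lit 107) (nat_lit 3) (nat_lit 106) (nat_lit 1) (nat_lit 107) (nat_lit 1) (nat_lit 341) (nat_lit 387) (nat_lit 292))))) (XT.nd (nat_lit 234) (nat_lit 456) (nat_lit 0) (XT.nd (nat_lit 78) (nat_lit 304) (nat_lit 0) (XT.lf (nat_lit 0) (nat_lit 4808125029) (nat_lit 0) (nat_lit 4937491624) (nat_lit 152) (nat_lit 472556041) (nat_lit 104) (nat_lit 3) (nat_lit 104) (nat_lit 1) (nat_lit 106) (nat_lit 1) (nat_lit 342) (nat_lit 387) (nat_lit 291)) (XT.nd (nat_lit 78) (nat_lit 76) (nat_lit 0) (XT.lf (nat_lit 152) (nat_lit 9862027669) (nat_lit 0) (nat_lit 83708296) (nat_lit 76) (nat_lit 15556181) (nat_lit 103) (nat_lit 1) (nat_lit 101) (nat_lit 1) (nat_lit 102) (nat_lit 1) (nat_lit 343) (nat_lit 387) (nat_lit 290)) (XT.lf (nat_lit 76) (nat_lit 4526509717) (nat_lit 0) (nat_lit 548168504) (nat_lit 76) (nat_lit 4632139244) (nat_lit 101) (nat_lit 3) (nat_lit 100) (nat_lit 1) (nat_lit 101) (nat_lit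 1) (nat_lit 344) (nat_lit 387) (nat_lit 289)))) (XT.nd (nat_lit 156) (nat_lit 228) (nat_lit 0) (XT.nd (nat_lit 78) (nat_lit 76) (nat_lit 0) (XT.lf (nat_lit 0) (nat_lit 481955676) (nat_lit 0) (nat_lit 575103408) (nat_lit 152) (nat_lit 8405082538) (nat_lit 98) (nat_lit 3) (nat_lit 98) (nat_lit 1) (nat_lit 100) (nat_lit 1) (nat_lit 345) (nat_lit 387) (nat_lit 288)) (XT.lf (nat_lit 76) (nat_lit 3827091472) (nat_lit 0) (nat_lit 1480432371) (nat_lit 76) (nat_lit 3913339371) (nat_lit 98) (nat_lit 3) (nat_lit 97) (nat_lit 1) (nat_lit 98) (nat_lit 1) (nat_lit 346) (nat_lit 387) (nat_lit 287))) (XT.nd (nat_lit 78) (nat_lit 76) (nat_lit 0) (XT.lf (nat_lit 0) (nat_lit 927459149) (nat_lit 0) (nat_lit 1003515498) (nat_lit 152) (nat_lit 7057166116) (nat_lit 95) (nat_lit 3) (nat_lit 95) (nat_lit 1) (nat_lit 97) (nat_lit 1) (nat_lit 347) (nat_lit 387) (nat_lit 286)) (XT.lf (nat_lit 76) (nat_lit 3186265708) (nat_lit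 0) (nat_lit 2316425213) (nat_lit 76) (nat_lit 3256688253) (nat_lit 95) (nat_lit 3) (nat_lit 94) (nat_lit 1) (nat_lit 95) (nat_lit 1) (nat_lit 348) (nat_lit 387) (nat_lit 285)))))) (XT.nd (nat_lit 546) (nat_lit 760) (nat_lit 0) (XT.nd (nat_lit 234) (nat_lit 456) (nat_lit 0) (XT.nd (nat_lit 78) (nat_lit 228) (nat_lit 0) (XT.lf (nat_lit 0) (nat_lit 1325550379) (nat_lit 0) (nat_lit 1387651389) (nat_lit 152) (nat_lit 5824819494) (nat_lit 92) (nat_lit 3) (nat_lit 92) (nat_lit 1) (nat_lit 94) (nat_lit 1) (nat_lit 349) (nat_lit 387) (nat_lit 284)) (XT.nd (nat_lit 78) (nat_lit 152) (nat_lit 0) (XT.lf (nat_lit 76) (nat_lit 2600081117) (nat_lit 0) (nat_lit 3063458625) (nat_lit 76) (nat_lit 2657582052) (nat_lit 92) (nat_lit 3) (nat_lit 91) (nat_lit 1) (nat_lit 92) (nat_lit 1) (nat_lit 350) (nat_lit 387) (nat_lit 283)) (XT.lf (nat_lit 0) (nat_lit 1680020302) (nat_lit 0) (nat_lit 1730726594) (nat_lit 152)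 (nat_lit 4699822357) (nat_lit 89) (nat_lit 3) (nat_lit 89) (nat_lit 1) (nat_lit 91) (nat_lit 1) (nat_lit 351) (nat_lit 387) (nat_lit 282)))) (XT.nd (nat_lit 156) (nat_lit 228) (nat_lit 0) (XT.nd (nat_lit 78) (nat_lit 152) (nat_lit 0) (XT.lf (nat_lit 76) (nat_lit 2064797039) (nat_lit 0) (nat_lit 3728367683) (nat_lit 76) (nat_lit 2111747309) (nat_lit 89) (nat_lit 3) (nat_lit 88) (nat_lit 1) (nat_lit 89) (nat_lit 1) (nat_lit 352) (nat_lit 387) (nat_lit 281)) (XT.lf (nat_lit 0) (nat_lit 1994377355) (nat_lit 0) (nat_lit 2035779710) (nat_lit 152) (nat_lit 3674476702) (nat_lit 86) (nat_lit 3) (nat_lit 86) (nat_lit 1) (nat_lit 88) (nat_lit 1) (nat_lit 353) (nat_lit 387) (nat_lit 280))) (XT.nd (nat_lit 78) (nat_lit 152) (nat_lit 0) (XT.lf (nat_lit 76) (nat_lit 1576879745) (nat_lit 0) (nat_lit 4317536804) (nat_lit 76) (nat_lit 1615215259) (nat_lit 86) (nat_lit 3) (nat_lit 85) (nat_lit 1) (nat_lit 86) (nat_lit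 1) (nat_lit 354) (nat_lit 387) (nat_lit 279)) (XT.lf (nat_lit 0) (nat_lit 2271869821) (nat_lit 0) (nat_lit 2305675388) (nat_lit 152) (nat_lit 2741578095) (nat_lit 83) (nat_lit 3) (nat_lit 83) (nat_lit 1) (nat_lit 85) (nat_lit 1) (nat_lit 355) (nat_lit 387) (nat_lit 278))))) (XT.nd (nat_lit 234) (nat_lit 456) (nat_lit 0) (XT.nd (nat_lit 78) (nat_lit 228) (nat_lit 0) (XT.lf (nat_lit 76) (nat_lit 1132997167) (nat_lit 0) (nat_lit 4836924906) (nat_lit 76) (nat_lit 1164298619) (nat_lit 83) (nat_lit 3) (nat_lit 82) (nat_lit 1) (nat_lit 83) (nat_lit 1) (nat_lit 356) (nat_lit 387) (nat_lit 277)) (XT.nd (nat_lit 78) (nat_lit 76) (nat_lit 0) (XT.lf (nat_lit 0) (nat_lit 2515506002) (nat_lit 0) (nat_lit 2543108693) (nat_lit 152) (nat_lit 1894387905) (nat_lit 80) (nat_lit 3) (nat_lit 80) (nat_lit 1) (nat_lit 82) (nat_lit 1) (nat_lit 357) (nat_lit 387) (nat_lit 276)) (XT.lf (nat_lit 76) (nat_lit 730012496)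 (nat_lit 0) (nat_lit 5292089750) (nat_lit 76) (nat_lit 755570543) (nat_lit 80) (nat_lit 3) (nat_lit 79) (nat_lit 1) (nat_lit 80) (nat_lit 1) (nat_lit 358) (nat_lit 387) (nat_lit 275)))) (XT.nd (nat_lit 156) (nat_lit 228) (nat_lit 0) (XT.nd (nat_lit 78) (nat_lit 76) (nat_lit 0) (XT.lf (nat_lit 0) (nat_lit 2728072529) (nat_lit 0) (nat_lit 2750610489) (nat_lit 152) (nat_lit 1126606594) (nat_lit 77) (nat_lit 3) (nat_lit 77) (nat_lit 1) (nat_lit 79) (nat_lit 1) (nat_lit 359) (nat_lit 387) (nat_lit 274)) (XT.lf (nat_lit 76) (nat_lit 364976985) (nat_lit 0) (nat_lit 5688211369) (nat_lit 76) (nat_lit 385845467) (nat_lit 77) (nat_lit 3) (nat_lit 76) (nat_lit 1) (nat_lit 77) (nat_lit 1) (nat_lit 360) (nat_lit 387) (nat_lit 273))) (XT.nd (nat_lit 78) (nat_lit 76) (nat_lit 0) (XT.lf (nat_lit 0) (nat_lit 2912151001) (nat_lit 0) (nat_lit 2930553542) (nat_lit 152) (nat_lit 432348135) (nat_lit 74) (nat_lit 3)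 (nat_lit 74) (nat_lit 1) (nat_lit 76) (nat_lit 1) (nat_lit 361) (nat_lit 387) (nat_lit 272)) (XT.lf (nat_lit 76) (nat_lit 35122232) (nat_lit 0) (nat_lit 6030114535) (nat_lit 76) (nat_lit 52161622) (nat_lit 74) (nat_lit 3) (nat_lit 73) (nat_lit 1) (nat_lit 74) (nat_lit 1) (nat_lit 362) (nat_lit 387) (nat_lit 271))))))) (XT.nd (nat_lit 1014) (nat_lit 1748) (nat_lit 0) (XT.nd (nat_lit 468) (nat_lit 760) (nat_lit 0) (XT.nd (nat_lit 234) (nat_lit 380) (nat_lit 0) (XT.nd (nat_lit 78) (nat_lit 228) (nat_lit 0) (XT.lf (nat_lit 76) (nat_lit 2872965216) (nat_lit 0) (nat_lit 200295134) (nat_lit 76) (nat_lit 2887991134) (nat_lit 71) (nat_lit 3) (nat_lit 70) (nat_lit 1) (nat_lit 71) (nat_lit 1) (nat_lit 363) (nat_lit 387) (nat_lit 270)) (XT.nd (nat_lit 78) (nat_lit 76) (nat_lit 0) (XT.lf (nat_lit 0) (nat_lit 252749697) (nat_lit 0) (nat_lit 266000065) (nat_lit 152) (nat_lit 5292340849) (nat_lit 68) (nat_lit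 3) (nat_lit 68) (nat_lit 1) (nat_lit 70) (nat_lit 1) (nat_lit 364) (nat_lit 387) (nat_lit 269)) (XT.lf (nat_lit 76) (nat_lit 2434188660) (nat_lit 0) (nat_lit 782259510) (nat_lit 76) (nat_lit 2446457519) (nat_lit 68) (nat_lit 3) (nat_lit 67) (nat_lit 1) (nat_lit 68) (nat_lit 1) (nat_lit 365) (nat_lit 387) (nat_lit 268)))) (XT.nd (nat_lit 78) (nat_lit 228) (nat_lit 0) (XT.lf (nat_lit 0) (nat_lit 526759053) (nat_lit 0) (nat_lit 537578153) (nat_lit 152) (nat_lit 4455732553) (nat_lit 65) (nat_lit 3) (nat_lit 65) (nat_lit 1) (nat_lit 67) (nat_lit 1) (nat_lit 366) (nat_lit 387) (nat_lit 267)) (XT.nd (nat_lit 78) (nat_lit 152) (nat_lit 0) (XT.lf (nat_lit 76) (nat_lit 2032675507) (nat_lit 0) (nat_lit 1304195463) (nat_lit 76) (nat_lit 2042693192) (nat_lit 65) (nat_lit 3) (nat_lit 64) (nat_lit 1) (nat_lit 65) (nat_lit 1) (nat_lit 367) (nat_lit 387) (nat_lit 266)) (XT.lf (nat_lit 0) (nat_lit 771973697) (nat_lit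 0) (nat_lit 780807634) (nat_lit 152) (nat_lit 3690913042) (nat_lit 62) (nat_lit 3) (nat_lit 62) (nat_lit 1) (nat_lit 64) (nat_lit 1) (nat_lit 368) (nat_lit 387) (nat_lit 265))))) (XT.nd (nat_lit 234) (nat_lit 456) (nat_lit 0) (XT.nd (nat_lit 78) (nat_lit 228) (nat_lit 0) (XT.lf (nat_lit 76) (nat_lit 1665786419) (nat_lit 0) (nat_lit 1770715550) (nat_lit 76) (nat_lit 1673965991) (nat_lit 62) (nat_lit 3) (nat_lit 61) (nat_lit 1) (nat_lit 62) (nat_lit 1) (nat_lit 369) (nat_lit 387) (nat_lit 264)) (XT.nd (nat_lit 78) (nat_lit 76) (nat_lit 0) (XT.lf (nat_lit 0) (nat_lit 990641409) (nat_lit 0) (nat_lit 997854436) (nat_lit 152) (nat_lit 2992727378) (nat_lit 59) (nat_lit 3) (nat_lit 59) (nat_lit 1) (nat_lit 61) (nat_lit 1) (nat_lit 370) (nat_lit 387) (nat_lit 263)) (XT.lf (nat_lit 76) (nat_lit 1331049271) (nat_lit 0) (nat_lit 2186119582) (nat_lit 76) (nat_lit 1337727999) (nat_lit 59) (nat_lit 3) (nat_lit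 58) (nat_lit 1) (nat_lit 59) (nat_lit 1) (nat_lit 371) (nat_lit 387) (nat_lit 262)))) (XT.nd (nat_lit 156) (nat_lit 228) (nat_lit 0) (XT.nd (nat_lit 78) (nat_lit 76) (nat_lit 0) (XT.lf (nat_lit 0) (nat_lit 1184852351) (nat_lit 0) (nat_lit 1190741882) (nat_lit 152) (nat_lit 2356358667) (nat_lit 56) (nat_lit 3) (nat_lit 56) (nat_lit 1) (nat_lit 58) (nat_lit 1) (nat_lit 372) (nat_lit 387) (nat_lit 261)) (XT.lf (nat_lit 76) (nat_lit 1026149987) (nat_lit 0) (nat_lit 2554414071) (nat_lit 76) (nat_lit 1031603256) (nat_lit 56) (nat_lit 3) (nat_lit 55) (nat_lit 1) (nat_lit 56) (nat_lit 1) (nat_lit 373) (nat_lit 387) (nat_lit 260))) (XT.nd (nat_lit 78) (nat_lit 76) (nat_lit 0) (XT.lf (nat_lit 0) (nat_lit 1356549810) (nat_lit 0) (nat_lit 1361358690) (nat_lit 152) (nat_lit 1777307359) (nat_lit 53) (nat_lit 3) (nat_lit 53) (nat_lit 1) (nat_lit 55) (nat_lit 1) (nat_lit 374) (nat_lit 387) (nat_lit 259)) (XT.lf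 (nat_lit 76) (nat_lit 748923686) (nat_lit 0) (nat_lit 2879330597) (nat_lit 76) (nat_lit 753376352) (nat_lit 53) (nat_lit 3) (nat_lit 52) (nat_lit 1) (nat_lit 53) (nat_lit 1) (nat_lit 375) (nat_lit 387) (nat_lit 258)))))) (XT.nd (nat_lit 546) (nat_lit 836) (nat_lit 0) (XT.nd (nat_lit 234) (nat_lit 532) (nat_lit 0) (XT.nd (nat_lit 78) (nat_lit 228) (nat_lit 0) (XT.lf (nat_lit 0) (nat_lit 1507540174) (nat_lit 0) (nat_lit 1511466687) (nat_lit 152) (nat_lit 1251371702) (nat_lit 50) (nat_lit 3) (nat_lit 50) (nat_lit 1) (nat_lit 52) (nat_lit 1) (nat_lit 376) (nat_lit 387) (nat_lit 257)) (XT.nd (nat_lit 78) (nat_lit 152) (nat_lit 0) (XT.lf (nat_lit 76) (nat_lit 497346151) (nat_lit 0) (nat_lit 3164343144) (nat_lit 76) (nat_lit 500981812) (nat_lit 50) (nat_lit 3) (nat_lit 49) (nat_lit 1) (nat_lit 50) (nat_lit 1) (nat_lit 377) (nat_lit 387) (nat_lit 256)) (XT.lf (nat_lit 0) (nat_lit 1639502188) (nat_lit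 0) (nat_lit 1642708238) (nat_lit 152) (nat_lit 774629295) (nat_lit 47) (nat_lit 3) (nat_lit 47) (nat_lit 1) (nat_lit 49) (nat_lit 1) (nat_lit 378) (nat_lit 387) (nat_lit 255)))) (XT.nd (nat_lit 156) (nat_lit 304) (nat_lit 0) (XT.nd (nat_lit 78) (nat_lit 152) (nat_lit 0) (XT.lf (nat_lit 76) (nat_lit 269525659) (nat_lit 0) (nat_lit 3412684443) (nat_lit 76) (nat_lit 272494223) (nat_lit 47) (nat_lit 3) (nat_lit 46) (nat_lit 1) (nat_lit 47) (nat_lit 1) (nat_lit 379) (nat_lit 387) (nat_lit 254)) (XT.lf (nat_lit 0) (nat_lit 1753995575) (nat_lit 0) (nat_lit 1756613357) (nat_lit 152) (nat_lit 343419699) (nat_lit 44) (nat_lit 3) (nat_lit 44) (nat_lit 1) (nat_lit 46) (nat_lit 1) (nat_lit 380) (nat_lit 387) (nat_lit 253))) (XT.nd (nat_lit 78) (nat_lit 228) (nat_lit 0) (XT.lf (nat_lit 76) (nat_lit 63695170) (nat_lit 0) (nat_lit 3627361371) (nat_lit 76) (nat_lit 66119042) (nat_lit 44) (nat_lit 3) (nat_lit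 43) (nat_lit 1) (nat_lit 44) (nat_lit 1) (nat_lit 381) (nat_lit 387) (nat_lit 252)) (XT.lf (nat_lit 76) (nat_lit 1806023628) (nat_lit 0) (nat_lit 47182063) (nat_lit 76) (nat_lit 1808161081) (nat_lit 41) (nat_lit 3) (nat_lit 40) (nat_lit 1) (nat_lit 41) (nat_lit 1) (nat_lit 382) (nat_lit 387) (nat_lit 251))))) (XT.nd (nat_lit 234) (nat_lit 456) (nat_lit 0) (XT.nd (nat_lit 78) (nat_lit 228) (nat_lit 0) (XT.lf (nat_lit 0) (nat_lit 121843532) (nat_lit 0) (nat_lit 123728411) (nat_lit 152) (nat_lit 3323599743) (nat_lit 38) (nat_lit 3) (nat_lit 38) (nat_lit 1) (nat_lit 40) (nat_lit 1) (nat_lit 383) (nat_lit 387) (nat_lit 250)) (XT.nd (nat_lit 78) (nat_lit 152) (nat_lit 0) (XT.lf (nat_lit 76) (nat_lit 1533733858) (nat_lit 0) (nat_lit 408918281) (nat_lit 76) (nat_lit 1535479117) (nat_lit 38) (nat_lit 3) (nat_lit 37) (nat_lit 1) (nat_lit 38) (nat_lit 1) (nat_lit 384) (nat_lit 387) (nat_lit 249)) (XT.lf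 (nat_lit 0) (nat_lit 291623342) (nat_lit 0) (nat_lit 293162371) (nat_lit 152) (nat_lit 2805646323) (nat_lit 35) (nat_lit 3) (nat_lit 35) (nat_lit 1) (nat_lit 37) (nat_lit 1) (nat_lit 385) (nat_lit 387) (nat_lit 248)))) (XT.nd (nat_lit 156) (nat_lit 228) (nat_lit 0) (XT.nd (nat_lit 78) (nat_lit 152) (nat_lit 0) (XT.lf (nat_lit 76) (nat_lit 1284591179) (nat_lit 0) (nat_lit 733501199) (nat_lit 76) (nat_lit 1286016206) (nat_lit 35) (nat_lit 3) (nat_lit 34) (nat_lit 1) (nat_lit 35) (nat_lit 1) (nat_lit 386) (nat_lit 387) (nat_lit 247)) (XT.lf (nat_lit 0) (nat_lit 443688523) (nat_lit 0) (nat_lit 444945161) (nat_lit 152) (nat_lit 2332051607) (nat_lit 32) (nat_lit 3) (nat_lit 32) (nat_lit 1) (nat_lit 34) (nat_lit 1) (nat_lit 387) (nat_lit 387) (nat_lit 246))) (XT.nd (nat_lit 78) (nat_lit 152) (nat_lit 0) (XT.lf (nat_lit 76) (nat_lit 1056940133) (nat_lit 0) (nat_lit 1023789420) (nat_lit 76) (nat_lit 1058103686)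 (nat_lit 32) (nat_lit 3) (nat_lit 31) (nat_lit 1) (nat_lit 32) (nat_lit 1) (nat_lit 388) (nat_lit 387) (nat_lit 245)) (XT.lf (nat_lit 0) (nat_lit 579412175) (nat_lit 0) (nat_lit 580438236) (nat_lit 152) (nat_lit 1899626330) (nat_lit 29) (nat_lit 3) (nat_lit 29) (nat_lit 1) (nat_lit 31) (nat_lit 1) (nat_lit 389) (nat_lit 387) (nat_lit 244))))))))
noncomputable def ec138 : XT := (XT.nd (nat_lit 2028) (nat_lit 0) (nat_lit 0) (XT.nd (nat_lit 1014) (nat_lit 608) (nat_lit 0) (XT.nd (nat_lit 468) (nat_lit 912) (nat_lit 0) (XT.nd (nat_lit 234) (nat_lit 380) (nat_lit 0) (XT.nd (nat_lit 78) (nat_lit 228) (nat_lit 0) (XT.lf (nat_lit 76) (nat_lit 849233568) (nat_lit 0) (nat_lit 1282446169) (nat_lit 76) (nat_lit 850183625) (nat_lit 29) (nat_lit 3) (nat_lit 28) (nat_lit 1) (nat_lit 29) (nat_lit 1) (nat_lit 390) (nat_lit 387) (nat_lit 243)) (XT.nd (nat_lit 78) (nat_lit 76) (nat_lit 0) (XT.lf (nat_lit 0) (nat_lit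 700072637) (nat_lit 0) (nat_lit 700910429) (nat_lit 152) (nat_lit 1505391731) (nat_lit 26) (nat_lit 3) (nat_lit 26) (nat_lit 1) (nat_lit 28) (nat_lit 1) (nat_lit 391) (nat_lit 387) (nat_lit 242)) (XT.lf (nat_lit 76) (nat_lit 660026021) (nat_lit 0) (nat_lit 1511951763) (nat_lit 76) (nat_lit 660801755) (nat_lit 26) (nat_lit 3) (nat_lit 25) (nat_lit 1) (nat_lit 26) (nat_lit 1) (nat_lit 392) (nat_lit 387) (nat_lit 241)))) (XT.nd (nat_lit 78) (nat_lit 228) (nat_lit 0) (XT.lf (nat_lit 0) (nat_lit 806859675) (nat_lit 0) (nat_lit 807543744) (nat_lit 152) (nat_lit 1146566385) (nat_lit 23) (nat_lit 3) (nat_lit 23) (nat_lit 1) (nat_lit 25) (nat_lit 1) (nat_lit 393) (nat_lit 387) (nat_lit 240)) (XT.nd (nat_lit 78) (nat_lit 152) (nat_lit 0) (XT.lf (nat_lit 76) (nat_lit 487967462) (nat_lit 0) (nat_lit 1714615329) (nat_lit 76) (nat_lit 488600858) (nat_lit 23) (nat_lit 3) (nat_lit 22) (nat_lit 1) (nat_lit 23)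 (nat_lit 1) (nat_lit 394) (nat_lit 387) (nat_lit 239)) (XT.lf (nat_lit 0) (nat_lit 900880277) (nat_lit 0) (nat_lit 901438828) (nat_lit 152) (nat_lit 820553823) (nat_lit 20) (nat_lit 3) (nat_lit 20) (nat_lit 1) (nat_lit 22) (nat_lit 1) (nat_lit 395) (nat_lit 387) (nat_lit 238))))) (XT.nd (nat_lit 234) (nat_lit 608) (nat_lit 0) (XT.nd (nat_lit 78) (nat_lit 228) (nat_lit 0) (XT.lf (nat_lit 76) (nat_lit 331797395) (nat_lit 0) (nat_lit 1892585814) (nat_lit 76) (nat_lit 332314572) (nat_lit 20) (nat_lit 3) (nat_lit 19) (nat_lit 1) (nat_lit 20) (nat_lit 1) (nat_lit 396) (nat_lit 387) (nat_lit 237)) (XT.nd (nat_lit 78) (nat_lit 76) (nat_lit 0) (XT.lf (nat_lit 0) (nat_lit 983164062) (nat_lit 0) (nat_lit 983620126) (nat_lit 152) (nat_lit 524930886) (nat_lit 17) (nat_lit 3) (nat_lit 17) (nat_lit 1) (nat_lit 19) (nat_lit 1) (nat_lit 397) (nat_lit 387) (nat_lit 236)) (XT.lf (nat_lit 76) (nat_lit 190339297)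 (nat_lit 0) (nat_lit 2047862321) (nat_lit 76) (nat_lit 190761579) (nat_lit 17) (nat_lit 3) (nat_lit 16) (nat_lit 1) (nat_lit 17) (nat_lit 1) (nat_lit 398) (nat_lit 387) (nat_lit 235)))) (XT.nd (nat_lit 156) (nat_lit 380) (nat_lit 0) (XT.nd (nat_lit 78) (nat_lit 76) (nat_lit 0) (XT.lf (nat_lit 0) (nat_lit 1054668358) (nat_lit 0) (nat_lit 1055040741) (nat_lit 152) (nat_lit 257436795) (nat_lit 14) (nat_lit 3) (nat_lit 14) (nat_lit 1) (nat_lit 16) (nat_lit 1) (nat_lit 399) (nat_lit 387) (nat_lit 234)) (XT.lf (nat_lit 76) (nat_lit 62495372) (nat_lit 0) (nat_lit 2182303809) (nat_lit 76) (nat_lit 62840171) (nat_lit 14) (nat_lit 3) (nat_lit 13) (nat_lit 1) (nat_lit 14) (nat_lit 1) (nat_lit 400) (nat_lit 387) (nat_lit 233))) (XT.nd (nat_lit 78) (nat_lit 228) (nat_lit 0) (XT.lf (nat_lit 0) (nat_lit 1116282947) (nat_lit 0) (nat_lit 1116587002) (nat_lit 152) (nat_lit 15962867) (nat_lit 11) (nat_lit 3) (nat_lit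 11) (nat_lit 1) (nat_lit 13) (nat_lit 1) (nat_lit 401) (nat_lit 387) (nat_lit 232)) (XT.lf (nat_lit 0) (nat_lit 53346137) (nat_lit 0) (nat_lit 53614263) (nat_lit 152) (nat_lit 2085274163) (nat_lit 8) (nat_lit 3) (nat_lit 8) (nat_lit 1) (nat_lit 10) (nat_lit 1) (nat_lit 402) (nat_lit 387) (nat_lit 231)))))) (XT.nd (nat_lit 468) (nat_lit 0) (nat_lit 0) (XT.nd (nat_lit 234) (nat_lit 304) (nat_lit 0) (XT.nd (nat_lit 78) (nat_lit 228) (nat_lit 0) (XT.lf (nat_lit 76) (nat_lit 963965600) (nat_lit 0) (nat_lit 208118213) (nat_lit 76) (nat_lit 964213865) (nat_lit 8) (nat_lit 3) (nat_lit 7) (nat_lit 1) (nat_lit 8) (nat_lit 1) (nat_lit 403) (nat_lit 387) (nat_lit 230)) (XT.nd (nat_lit 78) (nat_lit 76) (nat_lit 0) (XT.lf (nat_lit 0) (nat_lit 158714100) (nat_lit 0) (nat_lit 158933028) (nat_lit 152) (nat_lit 1764799900) (nat_lit 5) (nat_lit 3) (nat_lit 5) (nat_lit 1) (nat_lit 7) (nat_lit 1) (nat_lit 404) (nat_lit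 387) (nat_lit 229)) (XT.lf (nat_lit 76) (nat_lit 809717151) (nat_lit 0) (nat_lit 409771297) (nat_lit 76) (nat_lit 809919862) (nat_lit 5) (nat_lit 3) (nat_lit 4) (nat_lit 1) (nat_lit 5) (nat_lit 1) (nat_lit 405) (nat_lit 387) (nat_lit 228)))) (XT.nd (nat_lit 78) (nat_lit 152) (nat_lit 0) (XT.lf (nat_lit 0) (nat_lit 253151362) (nat_lit 0) (nat_lit 253330120) (nat_lit 152) (nat_lit 1471701648) (nat_lit 2) (nat_lit 3) (nat_lit 2) (nat_lit 1) (nat_lit 4) (nat_lit 1) (nat_lit 406) (nat_lit 387) (nat_lit 227)) (XT.nd (nat_lit 78) (nat_lit 76) (nat_lit 0) (XT.lf (nat_lit 76) (nat_lit 668746580) (nat_lit 0) (nat_lit 590233041) (nat_lit 76) (nat_lit 668912096) (nat_lit 2) (nat_lit 3) (nat_lit 1) (nat_lit 1) (nat_lit 2) (nat_lit 1) (nat_lit 407) (nat_lit 387) (nat_lit 226)) (XT.lf (nat_lit 0) (nat_lit 39977722531) (nat_lit 0) (nat_lit 0) (nat_lit 0) (nat_lit 0) (nat_lit 0) (nat_lit 0) (nat_lit 1) (nat_lit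 0) (nat_lit 1) (nat_lit 0) (nat_lit 408) (nat_lit 387) (nat_lit 225))))) (XT.nd (nat_lit 234) (nat_lit 0) (nat_lit 0) (XT.nd (nat_lit 78) (nat_lit 0) (nat_lit 0) (XT.lf (nat_lit 0) (nat_lit 39977711133) (nat_lit 0) (nat_lit 0) (nat_lit 0) (nat_lit 0) (nat_lit 0) (nat_lit 0) (nat_lit 1) (nat_lit 0) (nat_lit 1) (nat_lit 0) (nat_lit 409) (nat_lit 387) (nat_lit 224)) (XT.nd (nat_lit 78) (nat_lit 0) (nat_lit 0) (XT.lf (nat_lit 0) (nat_lit 39977700579) (nat_lit 0) (nat_lit 0) (nat_lit 0) (nat_lit 0) (nat_lit 0) (nat_lit 0) (nat_lit 1) (nat_lit 0) (nat_lit 1) (nat_lit 0) (nat_lit 410) (nat_lit 387) (nat_lit 223)) (XT.lf (nat_lit 0) (nat_lit 39977690807) (nat_lit 0) (nat_lit 0) (nat_lit 0) (nat_lit 0) (nat_lit 0) (nat_lit 0) (nat_lit 1) (nat_lit 0) (nat_lit 1) (nat_lit 0) (nat_lit 411) (nat_lit 387) (nat_lit 222)))) (XT.nd (nat_lit 156) (nat_lit 0) (nat_lit 0) (XT.nd (nat_lit 78) (nat_lit 0) (nat_lit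 0) (XT.lf (nat_lit 0) (nat_lit 39977681759) (nat_lit 0) (nat_lit 0) (nat_lit 0) (nat_lit 0) (nat_lit 0) (nat_lit 0) (nat_lit 1) (nat_lit 0) (nat_lit 1) (nat_lit 0) (nat_lit 412) (nat_lit 387) (nat_lit 221)) (XT.lf (nat_lit 0) (nat_lit 39977673381) (nat_lit 0) (nat_lit 0) (nat_lit 0) (nat_lit 0) (nat_lit 0) (nat_lit 0) (nat_lit 1) (nat_lit 0) (nat_lit 1) (nat_lit 0) (nat_lit 413) (nat_lit 387) (nat_lit 220))) (XT.nd (nat_lit 78) (nat_lit 0) (nat_lit 0) (XT.lf (nat_lit 0) (nat_lit 39977665624) (nat_lit 0) (nat_lit 0) (nat_lit 0) (nat_lit 0) (nat_lit 0) (nat_lit 0) (nat_lit 1) (nat_lit 0) (nat_lit 1) (nat_lit 0) (nat_lit 414) (nat_lit 387) (nat_lit 219)) (XT.lf (nat_lit 0) (nat_lit 39977658441) (nat_lit 0) (nat_lit 0) (nat_lit 0) (nat_lit 0) (nat_lit 0) (nat_lit 0) (nat_lit 1) (nat_lit 0) (nat_lit 1) (nat_lit 0) (nat_lit 415) (nat_lit 387) (nat_lit 218))))))) (XT.nd (nat_lit 40560) (nat_lit 0) (nat_lit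 17024) (XT.nd (nat_lit 40014) (nat_lit 0) (nat_lit 20520) (XT.nd (nat_lit 39780) (nat_lit 0) (nat_lit 22268) (XT.nd (nat_lit 78) (nat_lit 0) (nat_lit 0) (XT.lf (nat_lit 0) (nat_lit 39977651790) (nat_lit 0) (nat_lit 0) (nat_lit 0) (nat_lit 0) (nat_lit 0) (nat_lit 0) (nat_lit 1) (nat_lit 0) (nat_lit 1) (nat_lit 0) (nat_lit 416) (nat_lit 387) (nat_lit 217)) (XT.nd (nat_lit 39624) (nat_lit 0) (nat_lit 22192) (XT.lf (nat_lit 0) (nat_lit 39977645632) (nat_lit 0) (nat_lit 0) (nat_lit 0) (nat_lit 0) (nat_lit 0) (nat_lit 0) (nat_lit 1) (nat_lit 0) (nat_lit 1) (nat_lit 0) (nat_lit 417) (nat_lit 387) (nat_lit 216)) (XT.lf (nat_lit 836) (nat_lit 21606774645) (nat_lit 0) (nat_lit 38362778717) (nat_lit 836) (nat_lit 21606774645) (nat_lit 303) (nat_lit 1) (nat_lit 292) (nat_lit 0) (nat_lit 303) (nat_lit 0) (nat_lit 244) (nat_lit 388) (nat_lit 388)))) (XT.nd (nat_lit 78) (nat_lit 0) (nat_lit 0) (XT.lf (nat_lit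 836) (nat_lit 8059989927) (nat_lit 0) (nat_lit 75317761470) (nat_lit 760) (nat_lit 73660519087) (nat_lit 304) (nat_lit 1) (nat_lit 293) (nat_lit 1) (nat_lit 303) (nat_lit 1) (nat_lit 245) (nat_lit 388) (nat_lit 387)) (XT.nd (nat_lit 78) (nat_lit 0) (nat_lit 76) (XT.lf (nat_lit 836) (nat_lit 74026355194) (nat_lit 76) (nat_lit 50440330244) (nat_lit 0) (nat_lit 26751250270) (nat_lit 304) (nat_lit 1) (nat_lit 294) (nat_lit 1) (nat_lit 293) (nat_lit 1) (nat_lit 246) (nat_lit 388) (nat_lit 386)) (XT.lf (nat_lit 836) (nat_lit 63964835214) (nat_lit 76) (nat_lit 21139192786) (nat_lit 0) (nat_lit 60584837248) (nat_lit 305) (nat_lit 1) (nat_lit 295) (nat_lit 1) (nat_lit 294) (nat_lit 1) (nat_lit 247) (nat_lit 388) (nat_lit 385))))) (XT.nd (nat_lit 234) (nat_lit 1900) (nat_lit 0) (XT.nd (nat_lit 78) (nat_lit 0) (nat_lit 76) (XT.lf (nat_lit 836) (nat_lit 47339416160) (nat_lit 0) (nat_lit 88569809998) (nat_lit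 760) (nat_lit 4527676033) (nat_lit 306) (nat_lit 1) (nat_lit 295) (nat_lit 1) (nat_lit 305) (nat_lit 1) (nat_lit 248) (nat_lit 388) (nat_lit 384)) (XT.nd (nat_lit 78) (nat_lit 0) (nat_lit 0) (XT.lf (nat_lit 836) (nat_lit 11358628757) (nat_lit 0) (nat_lit 97672821170) (nat_lit 760) (nat_lit 26404307205) (nat_lit 307) (nat_lit 1) (nat_lit 296) (nat_lit 1) (nat_lit 306) (nat_lit 1) (nat_lit 249) (nat_lit 388) (nat_lit 383)) (XT.lf (nat_lit 836) (nat_lit 21826664526) (nat_lit 76) (nat_lit 84885635436) (nat_lit 0) (nat_lit 23955773609) (nat_lit 307) (nat_lit 1) (nat_lit 297) (nat_lit 1) (nat_lit 296) (nat_lit 1) (nat_lit 250) (nat_lit 388) (nat_lit 382)))) (XT.nd (nat_lit 156) (nat_lit 760) (nat_lit 0) (XT.nd (nat_lit 78) (nat_lit 532) (nat_lit 0) (XT.lf (nat_lit 836) (nat_lit 4482699179) (nat_lit 0) (nat_lit 63457627457) (nat_lit 760) (nat_lit 58189979479) (nat_lit 298) (nat_lit 1) (nat_lit 287)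 (nat_lit 1) (nat_lit 297) (nat_lit 1) (nat_lit 251) (nat_lit 388) (nat_lit 381)) (XT.lf (nat_lit 76) (nat_lit 31039142898) (nat_lit 0) (nat_lit 13450705062) (nat_lit 532) (nat_lit 77317549606) (nat_lit 281) (nat_lit 1) (nat_lit 280) (nat_lit 1) (nat_lit 287) (nat_lit 1) (nat_lit 252) (nat_lit 388) (nat_lit 380))) (XT.nd (nat_lit 78) (nat_lit 380) (nat_lit 0) (XT.lf (nat_lit 456) (nat_lit 85539971031) (nat_lit 0) (nat_lit 27845104663) (nat_lit 380) (nat_lit 4305025233) (nat_lit 281) (nat_lit 1) (nat_lit 275) (nat_lit 1) (nat_lit 280) (nat_lit 1) (nat_lit 253) (nat_lit 388) (nat_lit 379)) (XT.lf (nat_lit 456) (nat_lit 61726457669) (nat_lit 0) (nat_lit 12978723230) (nat_lit 380) (nat_lit 39044659781) (nat_lit 276) (nat_lit 1) (nat_lit 270) (nat_lit 1) (nat_lit 275) (nat_lit 1) (nat_lit 254) (nat_lit 388) (nat_lit 378)))))) (XT.nd (nat_lit 546) (nat_lit 1596) (nat_lit 0) (XT.nd (nat_lit 234) (nat_lit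 1216) (nat_lit 0) (XT.nd (nat_lit 78) (nat_lit 380) (nat_lit 0) (XT.lf (nat_lit 380) (nat_lit 37559762236) (nat_lit 0) (nat_lit 238959386) (nat_lit 304) (nat_lit 72201913464) (nat_lit 271) (nat_lit 1) (nat_lit 266) (nat_lit 1) (nat_lit 270) (nat_lit 1) (nat_lit 255) (nat_lit 388) (nat_lit 377)) (XT.nd (nat_lit 78) (nat_lit 380) (nat_lit 0) (XT.lf (nat_lit 76) (nat_lit 2770981750) (nat_lit 0) (nat_lit 93450931661) (nat_lit 380) (nat_lit 10201986231) (nat_lit 267) (nat_lit 1) (nat_lit 266) (nat_lit 1) (nat_lit 271) (nat_lit 1) (nat_lit 256) (nat_lit 388) (nat_lit 376)) (XT.lf (nat_lit 76) (nat_lit 71547467515) (nat_lit 0) (nat_lit 11866913040) (nat_lit 380) (nat_lit 19570694799) (nat_lit 262) (nat_lit 1) (nat_lit 261) (nat_lit 1) (nat_lit 266) (nat_lit 1) (nat_lit 257) (nat_lit 388) (nat_lit 375)))) (XT.nd (nat_lit 156) (nat_lit 608) (nat_lit 0) (XT.nd (nat_lit 78) (nat_lit 304) (nat_lit 0) (XT.lf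 (nat_lit 76) (nat_lit 35797011057) (nat_lit 0) (nat_lit 36350461213) (nat_lit 380) (nat_lit 27550723587) (nat_lit 258) (nat_lit 1) (nat_lit 257) (nat_lit 1) (nat_lit 262) (nat_lit 1) (nat_lit 258) (nat_lit 388) (nat_lit 374)) (XT.lf (nat_lit 76) (nat_lit 1766861087) (nat_lit 0) (nat_lit 60777406706) (nat_lit 380) (nat_lit 34022671448) (nat_lit 254) (nat_lit 1) (nat_lit 253) (nat_lit 1) (nat_lit 258) (nat_lit 1) (nat_lit 259) (nat_lit 388) (nat_lit 373))) (XT.nd (nat_lit 78) (nat_lit 380) (nat_lit 0) (XT.lf (nat_lit 304) (nat_lit 7979045090) (nat_lit 0) (nat_lit 53958462622) (nat_lit 228) (nat_lit 31620899197) (nat_lit 254) (nat_lit 1) (nat_lit 250) (nat_lit 1) (nat_lit 253) (nat_lit 1) (nat_lit 260) (nat_lit 388) (nat_lit 372)) (XT.lf (nat_lit 76) (nat_lit 27569746031) (nat_lit 0) (nat_lit 18896475240) (nat_lit 380) (nat_lit 44207941231) (nat_lit 246) (nat_lit 1) (nat_lit 245) (nat_lit 1) (nat_lit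 250) (nat_lit 1) (nat_lit 261) (nat_lit 388) (nat_lit 371))))) (XT.nd (nat_lit 234) (nat_lit 836) (nat_lit 0) (XT.nd (nat_lit 78) (nat_lit 532) (nat_lit 0) (XT.lf (nat_lit 304) (nat_lit 42684598240) (nat_lit 0) (nat_lit 40096663192) (nat_lit 228) (nat_lit 5132325300) (nat_lit 246) (nat_lit 1) (nat_lit 242) (nat_lit 1) (nat_lit 245) (nat_lit 1) (nat_lit 262) (nat_lit 388) (nat_lit 370)) (XT.nd (nat_lit 78) (nat_lit 304) (nat_lit 0) (XT.lf (nat_lit 304) (nat_lit 13680207524) (nat_lit 0) (nat_lit 34521585066) (nat_lit 228) (nat_lit 37057308071) (nat_lit 243) (nat_lit 1) (nat_lit 239) (nat_lit 1) (nat_lit 242) (nat_lit 1) (nat_lit 263) (nat_lit 388) (nat_lit 369)) (XT.lf (nat_lit 76) (nat_lit 15592130998) (nat_lit 0) (nat_lit 14275950915) (nat_lit 304) (nat_lit 52846778479) (nat_lit 236) (nat_lit 1) (nat_lit 235) (nat_lit 1) (nat_lit 239) (nat_lit 1) (nat_lit 264) (nat_lit 388) (nat_lit 368)))) (XT.nd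 (nat_lit 156) (nat_lit 456) (nat_lit 0) (XT.nd (nat_lit 78) (nat_lit 152) (nat_lit 0) (XT.lf (nat_lit 304) (nat_lit 38798971528) (nat_lit 0) (nat_lit 25815397876) (nat_lit 228) (nat_lit 15649379069) (nat_lit 236) (nat_lit 1) (nat_lit 232) (nat_lit 1) (nat_lit 235) (nat_lit 1) (nat_lit 265) (nat_lit 388) (nat_lit 367)) (XT.lf (nat_lit 228) (nat_lit 9618322331) (nat_lit 0) (nat_lit 22522051666) (nat_lit 152) (nat_lit 45771147249) (nat_lit 233) (nat_lit 1) (nat_lit 230) (nat_lit 1) (nat_lit 232) (nat_lit 1) (nat_lit 266) (nat_lit 388) (nat_lit 366))) (XT.nd (nat_lit 78) (nat_lit 152) (nat_lit 0) (XT.lf (nat_lit 76) (nat_lit 1629405252) (nat_lit 0) (nat_lit 18233398498) (nat_lit 304) (nat_lit 55787668793) (nat_lit 227) (nat_lit 1) (nat_lit 226) (nat_lit 1) (nat_lit 230) (nat_lit 1) (nat_lit 267) (nat_lit 388) (nat_lit 365)) (XT.lf (nat_lit 228) (nat_lit 27949079856) (nat_lit 0) (nat_lit 17465777163)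 (nat_lit 152) (nat_lit 28046342935) (nat_lit 227) (nat_lit 1) (nat_lit 224) (nat_lit 1) (nat_lit 226) (nat_lit 1) (nat_lit 268) (nat_lit 388) (nat_lit 364))))))))
noncomputable def ec139 : XT := (XT.nd (nat_lit 2106) (nat_lit 3268) (nat_lit 0) (XT.nd (nat_lit 1014) (nat_lit 1672) (nat_lit 0) (XT.nd (nat_lit 468) (nat_lit 1064) (nat_lit 0) (XT.nd (nat_lit 234) (nat_lit 532) (nat_lit 0) (XT.nd (nat_lit 78) (nat_lit 304) (nat_lit 0) (XT.lf (nat_lit 76) (nat_lit 15164002730) (nat_lit 0) (nat_lit 700434793) (nat_lit 228) (nat_lit 55503022155) (nat_lit 222) (nat_lit 1) (nat_lit 221) (nat_lit 1) (nat_lit 224) (nat_lit 1) (nat_lit 269) (nat_lit 388) (nat_lit 363)) (XT.nd (nat_lit 78) (nat_lit 152) (nat_lit 0) (XT.lf (nat_lit 228) (nat_lit 41455455227) (nat_lit 0) (nat_lit 14365244745) (nat_lit 152) (nat_lit 13513924843) (nat_lit 222) (nat_lit 1) (nat_lit 219) (nat_lit 1) (nat_lit 221) (nat_lit 1) (nat_lit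 270) (nat_lit 388) (nat_lit 362)) (XT.lf (nat_lit 228) (nat_lit 12877725629) (nat_lit 0) (nat_lit 13354083524) (nat_lit 152) (nat_lit 41147704974) (nat_lit 220) (nat_lit 1) (nat_lit 217) (nat_lit 1) (nat_lit 219) (nat_lit 1) (nat_lit 271) (nat_lit 388) (nat_lit 361)))) (XT.nd (nat_lit 78) (nat_lit 304) (nat_lit 0) (XT.lf (nat_lit 228) (nat_lit 51119838052) (nat_lit 0) (nat_lit 12758742922) (nat_lit 152) (nat_lit 1618594562) (nat_lit 217) (nat_lit 1) (nat_lit 214) (nat_lit 1) (nat_lit 216) (nat_lit 1) (nat_lit 272) (nat_lit 388) (nat_lit 360)) (XT.nd (nat_lit 78) (nat_lit 152) (nat_lit 0) (XT.lf (nat_lit 228) (nat_lit 22878870308) (nat_lit 0) (nat_lit 12180297922) (nat_lit 152) (nat_lit 28607972963) (nat_lit 215) (nat_lit 1) (nat_lit 212) (nat_lit 1) (nat_lit 214) (nat_lit 1) (nat_lit 273) (nat_lit 388) (nat_lit 359)) (XT.lf (nat_lit 76) (nat_lit 7836896409) (nat_lit 0) (nat_lit 4307511407) (nat_lit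 152) (nat_lit 49768604130) (nat_lit 211) (nat_lit 1) (nat_lit 210) (nat_lit 1) (nat_lit 212) (nat_lit 1) (nat_lit 274) (nat_lit 388) (nat_lit 358))))) (XT.nd (nat_lit 234) (nat_lit 608) (nat_lit 0) (XT.nd (nat_lit 78) (nat_lit 304) (nat_lit 0) (XT.lf (nat_lit 228) (nat_lit 30018393624) (nat_lit 0) (nat_lit 12015812056) (nat_lit 152) (nat_lit 18168940803) (nat_lit 211) (nat_lit 1) (nat_lit 208) (nat_lit 1) (nat_lit 210) (nat_lit 1) (nat_lit 275) (nat_lit 388) (nat_lit 357)) (XT.nd (nat_lit 78) (nat_lit 228) (nat_lit 0) (XT.lf (nat_lit 152) (nat_lit 3232554437) (nat_lit 0) (nat_lit 12310935927) (nat_lit 76) (nat_lit 43017293942) (nat_lit 209) (nat_lit 1) (nat_lit 207) (nat_lit 1) (nat_lit 208) (nat_lit 1) (nat_lit 276) (nat_lit 388) (nat_lit 356)) (XT.lf (nat_lit 228) (nat_lit 34894231707) (nat_lit 0) (nat_lit 12590802238) (nat_lit 152) (nat_lit 9478673183) (nat_lit 207) (nat_lit 1) (nat_lit 204)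 (nat_lit 1) (nat_lit 206) (nat_lit 1) (nat_lit 277) (nat_lit 388) (nat_lit 355)))) (XT.nd (nat_lit 156) (nat_lit 304) (nat_lit 0) (XT.nd (nat_lit 78) (nat_lit 228) (nat_lit 0) (XT.lf (nat_lit 152) (nat_lit 8776156583) (nat_lit 0) (nat_lit 13061585021) (nat_lit 76) (nat_lit 33582713053) (nat_lit 205) (nat_lit 1) (nat_lit 203) (nat_lit 1) (nat_lit 204) (nat_lit 1) (nat_lit 278) (nat_lit 388) (nat_lit 354)) (XT.lf (nat_lit 228) (nat_lit 37989823554) (nat_lit 0) (nat_lit 13691549131) (nat_lit 152) (nat_lit 2246900418) (nat_lit 203) (nat_lit 1) (nat_lit 200) (nat_lit 1) (nat_lit 202) (nat_lit 1) (nat_lit 279) (nat_lit 388) (nat_lit 353))) (XT.nd (nat_lit 78) (nat_lit 228) (nat_lit 0) (XT.lf (nat_lit 152) (nat_lit 12630093342) (nat_lit 0) (nat_lit 14273604490) (nat_lit 76) (nat_lit 25572395122) (nat_lit 201) (nat_lit 1) (nat_lit 199) (nat_lit 1) (nat_lit 200) (nat_lit 1) (nat_lit 280) (nat_lit 388)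 (nat_lit 352)) (XT.lf (nat_lit 76) (nat_lit 3645547569) (nat_lit 0) (nat_lit 11442402060) (nat_lit 228) (nat_lit 35988132845) (nat_lit 197) (nat_lit 1) (nat_lit 196) (nat_lit 1) (nat_lit 199) (nat_lit 1) (nat_lit 281) (nat_lit 388) (nat_lit 351)))))) (XT.nd (nat_lit 546) (nat_lit 836) (nat_lit 0) (XT.nd (nat_lit 234) (nat_lit 456) (nat_lit 0) (XT.nd (nat_lit 78) (nat_lit 304) (nat_lit 0) (XT.lf (nat_lit 152) (nat_lit 15157251532) (nat_lit 0) (nat_lit 15793137659) (nat_lit 76) (nat_lit 18760451202) (nat_lit 197) (nat_lit 1) (nat_lit 195) (nat_lit 1) (nat_lit 196) (nat_lit 1) (nat_lit 282) (nat_lit 388) (nat_lit 350)) (XT.nd (nat_lit 78) (nat_lit 76) (nat_lit 0) (XT.lf (nat_lit 76) (nat_lit 8478186226) (nat_lit 0) (nat_lit 8211696653) (nat_lit 228) (nat_lit 31703693383) (nat_lit 193) (nat_lit 1) (nat_lit 192) (nat_lit 1) (nat_lit 195) (nat_lit 1) (nat_lit 283) (nat_lit 388) (nat_lit 349)) (XT.lf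 (nat_lit 152) (nat_lit 16650274818) (nat_lit 0) (nat_lit 17500082026) (nat_lit 76) (nat_lit 12959610887) (nat_lit 193) (nat_lit 1) (nat_lit 191) (nat_lit 1) (nat_lit 192) (nat_lit 1) (nat_lit 284) (nat_lit 388) (nat_lit 348)))) (XT.nd (nat_lit 156) (nat_lit 228) (nat_lit 0) (XT.nd (nat_lit 78) (nat_lit 76) (nat_lit 0) (XT.lf (nat_lit 76) (nat_lit 12481850622) (nat_lit 0) (nat_lit 5947378485) (nat_lit 152) (nat_lit 27439521766) (nat_lit 190) (nat_lit 1) (nat_lit 189) (nat_lit 1) (nat_lit 191) (nat_lit 1) (nat_lit 285) (nat_lit 388) (nat_lit 347)) (XT.lf (nat_lit 152) (nat_lit 17344689128) (nat_lit 0) (nat_lit 19301510726) (nat_lit 76) (nat_lit 8014333558) (nat_lit 190) (nat_lit 1) (nat_lit 188) (nat_lit 1) (nat_lit 189) (nat_lit 1) (nat_lit 286) (nat_lit 388) (nat_lit 346))) (XT.nd (nat_lit 78) (nat_lit 76) (nat_lit 0) (XT.lf (nat_lit 76) (nat_lit 15788380495) (nat_lit 0) (nat_lit 4436821899)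 (nat_lit 152) (nat_lit 23264277061) (nat_lit 187) (nat_lit 1) (nat_lit 186) (nat_lit 1) (nat_lit 188) (nat_lit 1) (nat_lit 287) (nat_lit 388) (nat_lit 345)) (XT.lf (nat_lit 152) (nat_lit 17429605030) (nat_lit 0) (nat_lit 21126326084) (nat_lit 76) (nat_lit 3795170810) (nat_lit 187) (nat_lit 1) (nat_lit 185) (nat_lit 1) (nat_lit 186) (nat_lit 1) (nat_lit 288) (nat_lit 388) (nat_lit 344))))) (XT.nd (nat_lit 234) (nat_lit 456) (nat_lit 0) (XT.nd (nat_lit 78) (nat_lit 228) (nat_lit 0) (XT.lf (nat_lit 76) (nat_lit 18507349383) (nat_lit 0) (nat_lit 3509056103) (nat_lit 152) (nat_lit 19228606550) (nat_lit 184) (nat_lit 1) (nat_lit 183) (nat_lit 1) (nat_lit 185) (nat_lit 1) (nat_lit 289) (nat_lit 388) (nat_lit 343)) (XT.nd (nat_lit 78) (nat_lit 152) (nat_lit 0) (XT.lf (nat_lit 152) (nat_lit 17056442558) (nat_lit 0) (nat_lit 22920917652) (nat_lit 76) (nat_lit 194151284) (nat_lit 184) (nat_lit 1) (nat_lit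 182) (nat_lit 1) (nat_lit 183) (nat_lit 1) (nat_lit 290) (nat_lit 388) (nat_lit 342)) (XT.lf (nat_lit 76) (nat_lit 20730005950) (nat_lit 0) (nat_lit 3026943719) (nat_lit 152) (nat_lit 15368816229) (nat_lit 181) (nat_lit 1) (nat_lit 180) (nat_lit 1) (nat_lit 182) (nat_lit 1) (nat_lit 291) (nat_lit 388) (nat_lit 341)))) (XT.nd (nat_lit 156) (nat_lit 228) (nat_lit 0) (XT.nd (nat_lit 78) (nat_lit 152) (nat_lit 0) (XT.lf (nat_lit 0) (nat_lit 2786853013) (nat_lit 0) (nat_lit 21811589216) (nat_lit 152) (nat_lit 13511992449) (nat_lit 179) (nat_lit 3) (nat_lit 179) (nat_lit 1) (nat_lit 181) (nat_lit 1) (nat_lit 292) (nat_lit 388) (nat_lit 340)) (XT.lf (nat_lit 76) (nat_lit 22532501892) (nat_lit 0) (nat_lit 2880805848) (nat_lit 152) (nat_lit 11709844494) (nat_lit 178) (nat_lit 1) (nat_lit 177) (nat_lit 1) (nat_lit 179) (nat_lit 1) (nat_lit 293) (nat_lit 388) (nat_lit 339))) (XT.nd (nat_lit 78) (nat_lit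 152) (nat_lit 0) (XT.lf (nat_lit 0) (nat_lit 5323920263) (nat_lit 0) (nat_lit 20857867780) (nat_lit 152) (nat_lit 9980375305) (nat_lit 176) (nat_lit 3) (nat_lit 176) (nat_lit 1) (nat_lit 178) (nat_lit 1) (nat_lit 294) (nat_lit 388) (nat_lit 338)) (XT.lf (nat_lit 76) (nat_lit 23978536682) (nat_lit 0) (nat_lit 2983227517) (nat_lit 152) (nat_lit 8267668327) (nat_lit 175) (nat_lit 1) (nat_lit 174) (nat_lit 1) (nat_lit 176) (nat_lit 1) (nat_lit 295) (nat_lit 388) (nat_lit 337))))))) (XT.nd (nat_lit 1014) (nat_lit 1748) (nat_lit 0) (XT.nd (nat_lit 468) (nat_lit 760) (nat_lit 0) (XT.nd (nat_lit 234) (nat_lit 456) (nat_lit 0) (XT.nd (nat_lit 78) (nat_lit 228) (nat_lit 0) (XT.lf (nat_lit 0) (nat_lit 7484839396) (nat_lit 0) (nat_lit 20168512004) (nat_lit 152) (nat_lit 6666082211) (nat_lit 173) (nat_lit 3) (nat_lit 173) (nat_lit 1) (nat_lit 175) (nat_lit 1) (nat_lit 296) (nat_lit 388) (nat_lit 336)) (XT.nd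 (nat_lit 78) (nat_lit 76) (nat_lit 0) (XT.lf (nat_lit 76) (nat_lit 25121525586) (nat_lit 0) (nat_lit 3264826273) (nat_lit 152) (nat_lit 5051247443) (nat_lit 172) (nat_lit 1) (nat_lit 171) (nat_lit 1) (nat_lit 173) (nat_lit 1) (nat_lit 297) (nat_lit 388) (nat_lit 335)) (XT.lf (nat_lit 0) (nat_lit 9321524262) (nat_lit 0) (nat_lit 19677909891) (nat_lit 152) (nat_lit 3576085425) (nat_lit 170) (nat_lit 3) (nat_lit 170) (nat_lit 1) (nat_lit 172) (nat_lit 1) (nat_lit 298) (nat_lit 388) (nat_lit 334)))) (XT.nd (nat_lit 78) (nat_lit 304) (nat_lit 0) (XT.lf (nat_lit 76) (nat_lit 26006377865) (nat_lit 0) (nat_lit 3670806589) (nat_lit 152) (nat_lit 2064092444) (nat_lit 169) (nat_lit 1) (nat_lit 168) (nat_lit 1) (nat_lit 170) (nat_lit 1) (nat_lit 299) (nat_lit 388) (nat_lit 333)) (XT.nd (nat_lit 78) (nat_lit 228) (nat_lit 0) (XT.lf (nat_lit 0) (nat_lit 10877881594) (nat_lit 0) (nat_lit 19334006774) (nat_lit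 152) (nat_lit 712404020) (nat_lit 167) (nat_lit 3) (nat_lit 167) (nat_lit 1) (nat_lit 169) (nat_lit 1) (nat_lit 300) (nat_lit 388) (nat_lit 332)) (XT.lf (nat_lit 152) (nat_lit 25964722127) (nat_lit 0) (nat_lit 717435234) (nat_lit 76) (nat_lit 3451921239) (nat_lit 166) (nat_lit 1) (nat_lit 164) (nat_lit 1) (nat_lit 165) (nat_lit 1) (nat_lit 301) (nat_lit 388) (nat_lit 331))))) (XT.nd (nat_lit 234) (nat_lit 456) (nat_lit 0) (XT.nd (nat_lit 78) (nat_lit 228) (nat_lit 0) (XT.lf (nat_lit 76) (nat_lit 10231805912) (nat_lit 0) (nat_lit 1990439779) (nat_lit 76) (nat_lit 17136343422) (nat_lit 164) (nat_lit 3) (nat_lit 163) (nat_lit 1) (nat_lit 164) (nat_lit 1) (nat_lit 302) (nat_lit 388) (nat_lit 330)) (XT.nd (nat_lit 78) (nat_lit 76) (nat_lit 0) (XT.lf (nat_lit 152) (nat_lit 23864304949) (nat_lit 0) (nat_lit 3335039617) (nat_lit 76) (nat_lit 1410389604) (nat_lit 163) (nat_lit 1) (nat_lit 161) (nat_lit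 1) (nat_lit 162) (nat_lit 1) (nat_lit 303) (nat_lit 388) (nat_lit 329)) (XT.lf (nat_lit 76) (nat_lit 8873557308) (nat_lit 0) (nat_lit 4489651926) (nat_lit 76) (nat_lit 14511203064) (nat_lit 161) (nat_lit 3) (nat_lit 160) (nat_lit 1) (nat_lit 161) (nat_lit 1) (nat_lit 304) (nat_lit 388) (nat_lit 328)))) (XT.nd (nat_lit 156) (nat_lit 228) (nat_lit 0) (XT.nd (nat_lit 78) (nat_lit 76) (nat_lit 0) (XT.lf (nat_lit 0) (nat_lit 374538107) (nat_lit 0) (nat_lit 5346007028) (nat_lit 152) (nat_lit 21444130588) (nat_lit 158) (nat_lit 3) (nat_lit 158) (nat_lit 1) (nat_lit 160) (nat_lit 1) (nat_lit 305) (nat_lit 388) (nat_lit 327)) (XT.lf (nat_lit 76) (nat_lit 7547863084) (nat_lit 0) (nat_lit 6768639375) (nat_lit 76) (nat_lit 12151075047) (nat_lit 158) (nat_lit 3) (nat_lit 157) (nat_lit 1) (nat_lit 158) (nat_lit 1) (nat_lit 306) (nat_lit 388) (nat_lit 326))) (XT.nd (nat_lit 78) (nat_lit 76) (nat_lit 0) (XT.lf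 (nat_lit 0) (nat_lit 1904818678) (nat_lit 0) (nat_lit 5964088487) (nat_lit 152) (nat_lit 17924806784) (nat_lit 155) (nat_lit 3) (nat_lit 155) (nat_lit 1) (nat_lit 157) (nat_lit 1) (nat_lit 307) (nat_lit 388) (nat_lit 325)) (XT.lf (nat_lit 76) (nat_lit 6269582878) (nat_lit 0) (nat_lit 8835930312) (nat_lit 76) (nat_lit 10028166034) (nat_lit 155) (nat_lit 3) (nat_lit 154) (nat_lit 1) (nat_lit 155) (nat_lit 1) (nat_lit 308) (nat_lit 388) (nat_lit 324)))))) (XT.nd (nat_lit 546) (nat_lit 912) (nat_lit 0) (XT.nd (nat_lit 234) (nat_lit 456) (nat_lit 0) (XT.nd (nat_lit 78) (nat_lit 228) (nat_lit 0) (XT.lf (nat_lit 0) (nat_lit 3248913909) (nat_lit 0) (nat_lit 6563361137) (nat_lit 152) (nat_lit 14681426768) (nat_lit 152) (nat_lit 3) (nat_lit 152) (nat_lit 1) (nat_lit 154) (nat_lit 1) (nat_lit 309) (nat_lit 388) (nat_lit 323)) (XT.nd (nat_lit 78) (nat_lit 152) (nat_lit 0) (XT.lf (nat_lit 76) (nat_lit 5049281657)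 (nat_lit 0) (nat_lit 10701130946) (nat_lit 76) (nat_lit 8118214276) (nat_lit 152) (nat_lit 3) (nat_lit 151) (nat_lit 1) (nat_lit 152) (nat_lit 1) (nat_lit 310) (nat_lit 388) (nat_lit 322)) (XT.lf (nat_lit 0) (nat_lit 4427127516) (nat_lit 0) (nat_lit 7133417303) (nat_lit 152) (nat_lit 11700144051) (nat_lit 149) (nat_lit 3) (nat_lit 149) (nat_lit 1) (nat_lit 151) (nat_lit 1) (nat_lit 311) (nat_lit 388) (nat_lit 321)))) (XT.nd (nat_lit 156) (nat_lit 228) (nat_lit 0) (XT.nd (nat_lit 78) (nat_lit 152) (nat_lit 0) (XT.lf (nat_lit 76) (nat_lit 3894123962) (nat_lit 0) (nat_lit 12374540235) (nat_lit 76) (nat_lit 6399947839) (nat_lit 149) (nat_lit 3) (nat_lit 148) (nat_lit 1) (nat_lit 149) (nat_lit 1) (nat_lit 312) (nat_lit 388) (nat_lit 320)) (XT.lf (nat_lit 0) (nat_lit 5457210149) (nat_lit 0) (nat_lit 7666931381) (nat_lit 152) (nat_lit 8966850578) (nat_lit 146) (nat_lit 3) (nat_lit 146) (nat_lit 1) (nat_lit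 148) (nat_lit 1) (nat_lit 313) (nat_lit 388) (nat_lit 319))) (XT.nd (nat_lit 78) (nat_lit 152) (nat_lit 0) (XT.lf (nat_lit 76) (nat_lit 2808597289) (nat_lit 0) (nat_lit 13866847615) (nat_lit 76) (nat_lit 4854635466) (nat_lit 146) (nat_lit 3) (nat_lit 145) (nat_lit 1) (nat_lit 146) (nat_lit 1) (nat_lit 314) (nat_lit 388) (nat_lit 318)) (XT.lf (nat_lit 0) (nat_lit 6354743939) (nat_lit 0) (nat_lit 8159010410) (nat_lit 152) (nat_lit 6467415706) (nat_lit 143) (nat_lit 3) (nat_lit 143) (nat_lit 1) (nat_lit 145) (nat_lit 1) (nat_lit 315) (nat_lit 388) (nat_lit 317))))) (XT.nd (nat_lit 234) (nat_lit 608) (nat_lit 0) (XT.nd (nat_lit 78) (nat_lit 228) (nat_lit 0) (XT.lf (nat_lit 76) (nat_lit 1795096362) (nat_lit 0) (nat_lit 15188897721) (nat_lit 76) (nat_lit 3465713465) (nat_lit 143) (nat_lit 3) (nat_lit 142) (nat_lit 1) (nat_lit 143) (nat_lit 1) (nat_lit 316) (nat_lit 388) (nat_lit 316)) (XT.nd (nat_lit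 78) (nat_lit 76) (nat_lit 0) (XT.lf (nat_lit 0) (nat_lit 7133462026) (nat_lit 0) (nat_lit 8606669347) (nat_lit 152) (nat_lit 4187869099) (nat_lit 140) (nat_lit 3) (nat_lit 140) (nat_lit 1) (nat_lit 142) (nat_lit 1) (nat_lit 317) (nat_lit 388) (nat_lit 315)) (XT.lf (nat_lit 76) (nat_lit 854394235) (nat_lit 0) (nat_lit 16351509086) (nat_lit 76) (nat_lit 2218475088) (nat_lit 140) (nat_lit 3) (nat_lit 139) (nat_lit 1) (nat_lit 140) (nat_lit 1) (nat_lit 318) (nat_lit 388) (nat_lit 314)))) (XT.nd (nat_lit 156) (nat_lit 304) (nat_lit 0) (XT.nd (nat_lit 78) (nat_lit 152) (nat_lit 0) (XT.lf (nat_lit 0) (nat_lit 7805514639) (nat_lit 0) (nat_lit 9008407807) (nat_lit 152) (nat_lit 2114538559) (nat_lit 137) (nat_lit 3) (nat_lit 137) (nat_lit 1) (nat_lit 139) (nat_lit 1) (nat_lit 319) (nat_lit 388) (nat_lit 313)) (XT.lf (nat_lit 76) (nat_lit 17351575806) (nat_lit 0) (nat_lit 13531266) (nat_lit 152) (nat_lit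 1086050875) (nat_lit 136) (nat_lit 1) (nat_lit 135) (nat_lit 1) (nat_lit 137) (nat_lit 1) (nat_lit 320) (nat_lit 388) (nat_lit 312))) (XT.nd (nat_lit 78) (nat_lit 228) (nat_lit 0) (XT.lf (nat_lit 0) (nat_lit 8381691216) (nat_lit 0) (nat_lit 9363869321) (nat_lit 152) (nat_lit 234151794) (nat_lit 134) (nat_lit 3) (nat_lit 134) (nat_lit 1) (nat_lit 136) (nat_lit 1) (nat_lit 321) (nat_lit 388) (nat_lit 311)) (XT.lf (nat_lit 152) (nat_lit 16729369319) (nat_lit 0) (nat_lit 723938323) (nat_lit 76) (nat_lit 72823868) (nat_lit 133) (nat_lit 1) (nat_lit 131) (nat_lit 1) (nat_lit 132) (nat_lit 1) (nat_lit 322) (nat_lit 388) (nat_lit 310))))))))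
noncomputable def ec140 : XT := (XT.nd (nat_lit 2028) (nat_lit 3192) (nat_lit 0) (XT.nd (nat_lit 1014) (nat_lit 1596) (nat_lit 0) (XT.nd (nat_lit 468) (nat_lit 760) (nat_lit 0) (XT.nd (nat_lit 234) (nat_lit 380) (nat_lit 0) (XT.nd (nat_lit 78) (nat_lit 228) (nat_lit 0) (XT.lf (nat_lit 76) (nat_lit 7380686765) (nat_lit 0) (nat_lit 1514566179) (nat_lit 76) (nat_lit 8182648115) (nat_lit 131) (nat_lit 3) (nat_lit 130) (nat_lit 1) (nat_lit 131) (nat_lit 1) (nat_lit 323) (nat_lit 388) (nat_lit 309)) (XT.nd (nat_lit 78) (nat_lit 76) (nat_lit 0) (XT.lf (nat_lit 0) (nat_lit 834347139) (nat_lit 0) (nat_lit 1541544097) (nat_lit 152) (nat_lit 14270642557) (nat_lit 128) (nat_lit 3) (nat_lit 128) (nat_lit 1) (nat_lit 130) (nat_lit 1) (nat_lit 324) (nat_lit 388) (nat_lit 308)) (XT.lf (nat_lit 76) (nat_lit 6234610200) (nat_lit 0) (nat_lit 3097607848) (nat_lit 76) (nat_lit 6889422198) (nat_lit 128) (nat_lit 3)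 (nat_lit 127) (nat_lit 1) (nat_lit 128) (nat_lit 1) (nat_lit 325) (nat_lit 388) (nat_lit 307)))) (XT.nd (nat_lit 78) (nat_lit 228) (nat_lit 0) (XT.lf (nat_lit 0) (nat_lit 1641747161) (nat_lit 0) (nat_lit 2219182785) (nat_lit 152) (nat_lit 11950555220) (nat_lit 125) (nat_lit 3) (nat_lit 125) (nat_lit 1) (nat_lit 127) (nat_lit 1) (nat_lit 326) (nat_lit 388) (nat_lit 306)) (XT.nd (nat_lit 78) (nat_lit 152) (nat_lit 0) (XT.lf (nat_lit 76) (nat_lit 5177367231) (nat_lit 0) (nat_lit 4519340080) (nat_lit 76) (nat_lit 5712029846) (nat_lit 125) (nat_lit 3) (nat_lit 124) (nat_lit 1) (nat_lit 125) (nat_lit 1) (nat_lit 327) (nat_lit 388) (nat_lit 305)) (XT.lf (nat_lit 0) (nat_lit 2360235813) (nat_lit 0) (nat_lit 2831719601) (nat_lit 152) (nat_lit 9826768532) (nat_lit 122) (nat_lit 3) (nat_lit 122) (nat_lit 1) (nat_lit 124) (nat_lit 1) (nat_lit 328) (nat_lit 388) (nat_lit 304))))) (XT.nd (nat_lit 234) (nat_lit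 456) (nat_lit 0) (XT.nd (nat_lit 78) (nat_lit 228) (nat_lit 0) (XT.lf (nat_lit 76) (nat_lit 4204552461) (nat_lit 0) (nat_lit 5791280123) (nat_lit 76) (nat_lit 4641111523) (nat_lit 122) (nat_lit 3) (nat_lit 121) (nat_lit 1) (nat_lit 122) (nat_lit 1) (nat_lit 329) (nat_lit 388) (nat_lit 303)) (XT.nd (nat_lit 78) (nat_lit 76) (nat_lit 0) (XT.lf (nat_lit 0) (nat_lit 2997555536) (nat_lit 0) (nat_lit 3382528254) (nat_lit 152) (nat_lit 7885977229) (nat_lit 119) (nat_lit 3) (nat_lit 119) (nat_lit 1) (nat_lit 121) (nat_lit 1) (nat_lit 330) (nat_lit 388) (nat_lit 302)) (XT.lf (nat_lit 76) (nat_lit 3311667653) (nat_lit 0) (nat_lit 6924346559) (nat_lit 76) (nat_lit 3668123874) (nat_lit 119) (nat_lit 3) (nat_lit 118) (nat_lit 1) (nat_lit 119) (nat_lit 1) (nat_lit 331) (nat_lit 388) (nat_lit 301)))) (XT.nd (nat_lit 156) (nat_lit 228) (nat_lit 0) (XT.nd (nat_lit 78) (nat_lit 76) (nat_lit 0) (XT.lf (nat_lit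 0) (nat_lit 3560751361) (nat_lit 0) (nat_lit 3875086652) (nat_lit 152) (nat_lit 6115589939) (nat_lit 116) (nat_lit 3) (nat_lit 116) (nat_lit 1) (nat_lit 118) (nat_lit 1) (nat_lit 332) (nat_lit 388) (nat_lit 300)) (XT.lf (nat_lit 76) (nat_lit 2494200020) (nat_lit 0) (nat_lit 7928861221) (nat_lit 76) (nat_lit 2785251216) (nat_lit 116) (nat_lit 3) (nat_lit 115) (nat_lit 1) (nat_lit 116) (nat_lit 1) (nat_lit 333) (nat_lit 388) (nat_lit 299))) (XT.nd (nat_lit 78) (nat_lit 76) (nat_lit 0) (XT.lf (nat_lit 0) (nat_lit 4056247177) (nat_lit 0) (nat_lit 4312906080) (nat_lit 152) (nat_lit 4503715832) (nat_lit 113) (nat_lit 3) (nat_lit 113) (nat_lit 1) (nat_lit 115) (nat_lit 1) (nat_lit 334) (nat_lit 388) (nat_lit 298)) (XT.lf (nat_lit 76) (nat_lit 1747682225) (nat_lit 0) (nat_lit 8814557860) (nat_lit 76) (nat_lit 1985329358) (nat_lit 113) (nat_lit 3) (nat_lit 112) (nat_lit 1) (nat_lit 113) (nat_lit 1) (nat_lit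 335) (nat_lit 388) (nat_lit 297)))))) (XT.nd (nat_lit 468) (nat_lit 760) (nat_lit 0) (XT.nd (nat_lit 234) (nat_lit 456) (nat_lit 0) (XT.nd (nat_lit 78) (nat_lit 228) (nat_lit 0) (XT.lf (nat_lit 0) (nat_lit 4489911413) (nat_lit 0) (nat_lit 4699476785) (nat_lit 152) (nat_lit 3039146182) (nat_lit 110) (nat_lit 3) (nat_lit 110) (nat_lit 1) (nat_lit 112) (nat_lit 1) (nat_lit 336) (nat_lit 388) (nat_lit 296)) (XT.nd (nat_lit 78) (nat_lit 152) (nat_lit 0) (XT.lf (nat_lit 76) (nat_lit 1067737693) (nat_lit 0) (nat_lit 9590595874) (nat_lit 76) (nat_lit 1261779705) (nat_lit 110) (nat_lit 3) (nat_lit 109) (nat_lit 1) (nat_lit 110) (nat_lit 1) (nat_lit 337) (nat_lit 388) (nat_lit 295)) (XT.lf (nat_lit 0) (nat_lit 4867113853) (nat_lit 0) (nat_lit 5038226738) (nat_lit 152) (nat_lit 1711332240) (nat_lit 107) (nat_lit 3) (nat_lit 107) (nat_lit 1) (nat_lit 109) (nat_lit 1) (nat_lit 338) (nat_lit 388) (nat_lit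 294)))) (XT.nd (nat_lit 78) (nat_lit 380) (nat_lit 0) (XT.lf (nat_lit 76) (nat_lit 450114156) (nat_lit 0) (nat_lit 10265577761) (nat_lit 76) (nat_lit 608552012) (nat_lit 107) (nat_lit 3) (nat_lit 106) (nat_lit 1) (nat_lit 107) (nat_lit 1) (nat_lit 339) (nat_lit 388) (nat_lit 293)) (XT.nd (nat_lit 78) (nat_lit 228) (nat_lit 0) (XT.lf (nat_lit 0) (nat_lit 5192775031) (nat_lit 0) (nat_lit 5332490954) (nat_lit 152) (nat_lit 510360524) (nat_lit 104) (nat_lit 3) (nat_lit 104) (nat_lit 1) (nat_lit 106) (nat_lit 1) (nat_lit 340) (nat_lit 388) (nat_lit 292)) (XT.lf (nat_lit 152) (nat_lit 10650989883) (nat_lit 0) (nat_lit 90404960) (nat_lit 76) (nat_lit 16800676) (nat_lit 103) (nat_lit 1) (nat_lit 101) (nat_lit 1) (nat_lit 102) (nat_lit 1) (nat_lit 341) (nat_lit 388) (nat_lit 291))))) (XT.nd (nat_lit 234) (nat_lit 456) (nat_lit 0) (XT.nd (nat_lit 78) (nat_lit 228) (nat_lit 0) (XT.lf (nat_lit 76) (nat_lit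 4888630494) (nat_lit 0) (nat_lit 592021984) (nat_lit 76) (nat_lit 5002710384) (nat_lit 101) (nat_lit 3) (nat_lit 100) (nat_lit 1) (nat_lit 101) (nat_lit 1) (nat_lit 342) (nat_lit 388) (nat_lit 290)) (XT.nd (nat_lit 78) (nat_lit 76) (nat_lit 0) (XT.lf (nat_lit 0) (nat_lit 520512130) (nat_lit 0) (nat_lit 621111680) (nat_lit 152) (nat_lit 9077489141) (nat_lit 98) (nat_lit 3) (nat_lit 98) (nat_lit 1) (nat_lit 100) (nat_lit 1) (nat_lit 343) (nat_lit 388) (nat_lit 289)) (XT.lf (nat_lit 76) (nat_lit 4133258789) (nat_lit 0) (nat_lit 1598866961) (nat_lit 76) (nat_lit 4226406521) (nat_lit 98) (nat_lit 3) (nat_lit 97) (nat_lit 1) (nat_lit 98) (nat_lit 1) (nat_lit 344) (nat_lit 388) (nat_lit 288)))) (XT.nd (nat_lit 156) (nat_lit 228) (nat_lit 0) (XT.nd (nat_lit 78) (nat_lit 76) (nat_lit 0) (XT.lf (nat_lit 0) (nat_lit 1001655881) (nat_lit 0) (nat_lit 1083796737) (nat_lit 152) (nat_lit 7621739406) (nat_lit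 95) (nat_lit 3) (nat_lit 95) (nat_lit 1) (nat_lit 97) (nat_lit 1) (nat_lit 345) (nat_lit 388) (nat_lit 287)) (XT.lf (nat_lit 76) (nat_lit 3441166964) (nat_lit 0) (nat_lit 2501739230) (nat_lit 76) (nat_lit 3517223313) (nat_lit 95) (nat_lit 3) (nat_lit 94) (nat_lit 1) (nat_lit 95) (nat_lit 1) (nat_lit 346) (nat_lit 388) (nat_lit 286))) (XT.nd (nat_lit 78) (nat_lit 76) (nat_lit 0) (XT.lf (nat_lit 0) (nat_lit 1431594409) (nat_lit 0) (nat_lit 1498663500) (nat_lit 152) (nat_lit 6290805053) (nat_lit 92) (nat_lit 3) (nat_lit 92) (nat_lit 1) (nat_lit 94) (nat_lit 1) (nat_lit 347) (nat_lit 388) (nat_lit 285)) (XT.lf (nat_lit 76) (nat_lit 2808087606) (nat_lit 0) (nat_lit 3308535315) (nat_lit 76) (nat_lit 2870188616) (nat_lit 92) (nat_lit 3) (nat_lit 91) (nat_lit 1) (nat_lit 92) (nat_lit 1) (nat_lit 348) (nat_lit 388) (nat_lit 284))))))) (XT.nd (nat_lit 1014) (nat_lit 1596) (nat_lit 0) (XT.nd (nat_lit 468)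 (nat_lit 912) (nat_lit 0) (XT.nd (nat_lit 234) (nat_lit 304) (nat_lit 0) (XT.nd (nat_lit 78) (nat_lit 228) (nat_lit 0) (XT.lf (nat_lit 0) (nat_lit 1814421926) (nat_lit 0) (nat_lit 1869184721) (nat_lit 152) (nat_lit 5075808145) (nat_lit 89) (nat_lit 3) (nat_lit 89) (nat_lit 1) (nat_lit 91) (nat_lit 1) (nat_lit 349) (nat_lit 388) (nat_lit 283)) (XT.nd (nat_lit 78) (nat_lit 152) (nat_lit 0) (XT.lf (nat_lit 76) (nat_lit 2229980802) (nat_lit 0) (nat_lit 4026637098) (nat_lit 76) (nat_lit 2280687094) (nat_lit 89) (nat_lit 3) (nat_lit 88) (nat_lit 1) (nat_lit 89) (nat_lit 1) (nat_lit 350) (nat_lit 388) (nat_lit 282)) (XT.lf (nat_lit 0) (nat_lit 2153927544) (nat_lit 0) (nat_lit 2198642087) (nat_lit 152) (nat_lit 3968434838) (nat_lit 86) (nat_lit 3) (nat_lit 86) (nat_lit 1) (nat_lit 88) (nat_lit 1) (nat_lit 351) (nat_lit 388) (nat_lit 281)))) (XT.nd (nat_lit 78) (nat_lit 228) (nat_lit 0) (XT.lf (nat_lit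 76) (nat_lit 1703030125) (nat_lit 0) (nat_lit 4662939748) (nat_lit 76) (nat_lit 1744432480) (nat_lit 86) (nat_lit 3) (nat_lit 85) (nat_lit 1) (nat_lit 86) (nat_lit 1) (nat_lit 352) (nat_lit 388) (nat_lit 280)) (XT.nd (nat_lit 78) (nat_lit 76) (nat_lit 0) (XT.lf (nat_lit 0) (nat_lit 2453619406) (nat_lit 0) (nat_lit 2490129419) (nat_lit 152) (nat_lit 2960904343) (nat_lit 83) (nat_lit 3) (nat_lit 83) (nat_lit 1) (nat_lit 85) (nat_lit 1) (nat_lit 353) (nat_lit 388) (nat_lit 279)) (XT.lf (nat_lit 76) (nat_lit 1223636941) (nat_lit 0) (nat_lit 5223878898) (nat_lit 76) (nat_lit 1257442508) (nat_lit 83) (nat_lit 3) (nat_lit 82) (nat_lit 1) (nat_lit 83) (nat_lit 1) (nat_lit 354) (nat_lit 388) (nat_lit 278))))) (XT.nd (nat_lit 234) (nat_lit 532) (nat_lit 0) (XT.nd (nat_lit 78) (nat_lit 228) (nat_lit 0) (XT.lf (nat_lit 0) (nat_lit 2716746482) (nat_lit 0) (nat_lit 2746557389) (nat_lit 152) (nat_lit 2045938937)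 (nat_lit 80) (nat_lit 3) (nat_lit 80) (nat_lit 1) (nat_lit 82) (nat_lit 1) (nat_lit 355) (nat_lit 388) (nat_lit 277)) (XT.nd (nat_lit 78) (nat_lit 152) (nat_lit 0) (XT.lf (nat_lit 76) (nat_lit 788413495) (nat_lit 0) (nat_lit 5715456930) (nat_lit 76) (nat_lit 816016186) (nat_lit 80) (nat_lit 3) (nat_lit 79) (nat_lit 1) (nat_lit 80) (nat_lit 1) (nat_lit 356) (nat_lit 388) (nat_lit 276)) (XT.lf (nat_lit 0) (nat_lit 2946318331) (nat_lit 0) (nat_lit 2970659328) (nat_lit 152) (nat_lit 1216735122) (nat_lit 77) (nat_lit 3) (nat_lit 77) (nat_lit 1) (nat_lit 79) (nat_lit 1) (nat_lit 357) (nat_lit 388) (nat_lit 275)))) (XT.nd (nat_lit 156) (nat_lit 304) (nat_lit 0) (XT.nd (nat_lit 78) (nat_lit 152) (nat_lit 0) (XT.lf (nat_lit 76) (nat_lit 394175143) (nat_lit 0) (nat_lit 6143268279) (nat_lit 76) (nat_lit 416713104) (nat_lit 77) (nat_lit 3) (nat_lit 76) (nat_lit 1) (nat_lit 77) (nat_lit 1) (nat_lit 358) (nat_lit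 388) (nat_lit 274)) (XT.lf (nat_lit 0) (nat_lit 3145123081) (nat_lit 0) (nat_lit 3164997825) (nat_lit 152) (nat_lit 466935985) (nat_lit 74) (nat_lit 3) (nat_lit 74) (nat_lit 1) (nat_lit 76) (nat_lit 1) (nat_lit 359) (nat_lit 388) (nat_lit 273))) (XT.nd (nat_lit 78) (nat_lit 228) (nat_lit 0) (XT.lf (nat_lit 76) (nat_lit 37932010) (nat_lit 0) (nat_lit 6512523698) (nat_lit 76) (nat_lit 56334552) (nat_lit 74) (nat_lit 3) (nat_lit 73) (nat_lit 1) (nat_lit 74) (nat_lit 1) (nat_lit 360) (nat_lit 388) (nat_lit 272)) (XT.lf (nat_lit 76) (nat_lit 3102802434) (nat_lit 0) (nat_lit 216318745) (nat_lit 76) (nat_lit 3119030424) (nat_lit 71) (nat_lit 3) (nat_lit 70) (nat_lit 1) (nat_lit 71) (nat_lit 1) (nat_lit 361) (nat_lit 388) (nat_lit 271)))))) (XT.nd (nat_lit 546) (nat_lit 760) (nat_lit 0) (XT.nd (nat_lit 234) (nat_lit 456) (nat_lit 0) (XT.nd (nat_lit 78) (nat_lit 228) (nat_lit 0) (XT.lf (nat_lit 0) (nat_lit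 272969673) (nat_lit 0) (nat_lit 287280071) (nat_lit 152) (nat_lit 5715728117) (nat_lit 68) (nat_lit 3) (nat_lit 68) (nat_lit 1) (nat_lit 70) (nat_lit 1) (nat_lit 362) (nat_lit 388) (nat_lit 270)) (XT.nd (nat_lit 78) (nat_lit 152) (nat_lit 0) (XT.lf (nat_lit 76) (nat_lit 2628923753) (nat_lit 0) (nat_lit 844840270) (nat_lit 76) (nat_lit 2642174121) (nat_lit 68) (nat_lit 3) (nat_lit 67) (nat_lit 1) (nat_lit 68) (nat_lit 1) (nat_lit 363) (nat_lit 388) (nat_lit 269)) (XT.lf (nat_lit 0) (nat_lit 568899777) (nat_lit 0) (nat_lit 580584405) (nat_lit 152) (nat_lit 4812191158) (nat_lit 65) (nat_lit 3) (nat_lit 65) (nat_lit 1) (nat_lit 67) (nat_lit 1) (nat_lit 364) (nat_lit 388) (nat_lit 268)))) (XT.nd (nat_lit 156) (nat_lit 228) (nat_lit 0) (XT.nd (nat_lit 78) (nat_lit 152) (nat_lit 0) (XT.lf (nat_lit 76) (nat_lit 2195289548) (nat_lit 0) (nat_lit 1408531100) (nat_lit 76) (nat_lit 2206108648) (nat_lit 65)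 (nat_lit 3) (nat_lit 64) (nat_lit 1) (nat_lit 65) (nat_lit 1) (nat_lit 365) (nat_lit 388) (nat_lit 267)) (XT.lf (nat_lit 0) (nat_lit 833731593) (nat_lit 0) (nat_lit 843272245) (nat_lit 152) (nat_lit 3986186086) (nat_lit 62) (nat_lit 3) (nat_lit 62) (nat_lit 1) (nat_lit 64) (nat_lit 1) (nat_lit 366) (nat_lit 388) (nat_lit 266))) (XT.nd (nat_lit 78) (nat_lit 152) (nat_lit 0) (XT.lf (nat_lit 76) (nat_lit 1799049333) (nat_lit 0) (nat_lit 1912372794) (nat_lit 76) (nat_lit 1807883270) (nat_lit 62) (nat_lit 3) (nat_lit 61) (nat_lit 1) (nat_lit 62) (nat_lit 1) (nat_lit 367) (nat_lit 388) (nat_lit 265)) (XT.lf (nat_lit 0) (nat_lit 1069892722) (nat_lit 0) (nat_lit 1077682790) (nat_lit 152) (nat_lit 3232145568) (nat_lit 59) (nat_lit 3) (nat_lit 59) (nat_lit 1) (nat_lit 61) (nat_lit 1) (nat_lit 368) (nat_lit 388) (nat_lit 264))))) (XT.nd (nat_lit 234) (nat_lit 456) (nat_lit 0) (XT.nd (nat_lit 78) (nat_lit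 228) (nat_lit 0) (XT.lf (nat_lit 76) (nat_lit 1437533212) (nat_lit 0) (nat_lit 2361009148) (nat_lit 76) (nat_lit 1444746238) (nat_lit 59) (nat_lit 3) (nat_lit 58) (nat_lit 1) (nat_lit 59) (nat_lit 1) (nat_lit 369) (nat_lit 388) (nat_lit 263)) (XT.nd (nat_lit 78) (nat_lit 76) (nat_lit 0) (XT.lf (nat_lit 0) (nat_lit 1279640539) (nat_lit 0) (nat_lit 1286001232) (nat_lit 152) (nat_lit 2544867360) (nat_lit 56) (nat_lit 3) (nat_lit 56) (nat_lit 1) (nat_lit 58) (nat_lit 1) (nat_lit 370) (nat_lit 388) (nat_lit 262)) (XT.lf (nat_lit 76) (nat_lit 1108241986) (nat_lit 0) (nat_lit 2758767197) (nat_lit 76) (nat_lit 1114131517) (nat_lit 56) (nat_lit 3) (nat_lit 55) (nat_lit 1) (nat_lit 56) (nat_lit 1) (nat_lit 371) (nat_lit 388) (nat_lit 261)))) (XT.nd (nat_lit 156) (nat_lit 228) (nat_lit 0) (XT.nd (nat_lit 78) (nat_lit 76) (nat_lit 0) (XT.lf (nat_lit 0) (nat_lit 1465073795) (nat_lit 0) (nat_lit 1470267385)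 (nat_lit 152) (nat_lit 1919491948) (nat_lit 53) (nat_lit 3) (nat_lit 53) (nat_lit 1) (nat_lit 55) (nat_lit 1) (nat_lit 372) (nat_lit 388) (nat_lit 260)) (XT.lf (nat_lit 76) (nat_lit 808837581) (nat_lit 0) (nat_lit 3109677045) (nat_lit 76) (nat_lit 813646461) (nat_lit 53) (nat_lit 3) (nat_lit 52) (nat_lit 1) (nat_lit 53) (nat_lit 1) (nat_lit 373) (nat_lit 388) (nat_lit 259))) (XT.nd (nat_lit 78) (nat_lit 76) (nat_lit 0) (XT.lf (nat_lit 0) (nat_lit 1628143388) (nat_lit 0) (nat_lit 1632384022) (nat_lit 152) (nat_lit 1351481438) (nat_lit 50) (nat_lit 3) (nat_lit 50) (nat_lit 1) (nat_lit 52) (nat_lit 1) (nat_lit 374) (nat_lit 388) (nat_lit 258)) (XT.lf (nat_lit 76) (nat_lit 537133843) (nat_lit 0) (nat_lit 3417490595) (nat_lit 76) (nat_lit 541060357) (nat_lit 50) (nat_lit 3) (nat_lit 49) (nat_lit 1) (nat_lit 50) (nat_lit 1) (nat_lit 375) (nat_lit 388) (nat_lit 257))))))))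
noncomputable def ec141 : XT := (XT.nd (nat_lit 2106) (nat_lit 380) (nat_lit 0) (XT.nd (nat_lit 1014) (nat_lit 1748) (nat_lit 0) (XT.nd (nat_lit 468) (nat_lit 760) (nat_lit 0) (XT.nd (nat_lit 234) (nat_lit 456) (nat_lit 0) (XT.nd (nat_lit 78) (nat_lit 228) (nat_lit 0) (XT.lf (nat_lit 0) (nat_lit 1770662363) (nat_lit 0) (nat_lit 1774124897) (nat_lit 152) (nat_lit 836599638) (nat_lit 47) (nat_lit 3) (nat_lit 47) (nat_lit 1) (nat_lit 49) (nat_lit 1) (nat_lit 376) (nat_lit 388) (nat_lit 256)) (XT.nd (nat_lit 78) (nat_lit 152) (nat_lit 0) (XT.lf (nat_lit 76) (nat_lit 291087711) (nat_lit 0) (nat_lit 3685699198) (nat_lit 76) (nat_lit 294293761) (nat_lit 47) (nat_lit 3) (nat_lit 46) (nat_lit 1) (nat_lit 47) (nat_lit 1) (nat_lit 377) (nat_lit 388) (nat_lit 255)) (XT.lf (nat_lit 0) (nat_lit 1894315221) (nat_lit 0) (nat_lit 1897142425) (nat_lit 152) (nat_lit 370893275) (nat_lit 44) (nat_lit 3) (nat_lit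 44) (nat_lit 1) (nat_lit 46) (nat_lit 1) (nat_lit 378) (nat_lit 388) (nat_lit 254)))) (XT.nd (nat_lit 78) (nat_lit 380) (nat_lit 0) (XT.lf (nat_lit 76) (nat_lit 68790783) (nat_lit 0) (nat_lit 3917550281) (nat_lit 76) (nat_lit 71408565) (nat_lit 44) (nat_lit 3) (nat_lit 43) (nat_lit 1) (nat_lit 44) (nat_lit 1) (nat_lit 379) (nat_lit 388) (nat_lit 253)) (XT.nd (nat_lit 78) (nat_lit 152) (nat_lit 0) (XT.lf (nat_lit 76) (nat_lit 1950505518) (nat_lit 0) (nat_lit 50956628) (nat_lit 76) (nat_lit 1952813968) (nat_lit 41) (nat_lit 3) (nat_lit 40) (nat_lit 1) (nat_lit 41) (nat_lit 1) (nat_lit 380) (nat_lit 388) (nat_lit 252)) (XT.lf (nat_lit 0) (nat_lit 131591015) (nat_lit 0) (nat_lit 133626684) (nat_lit 152) (nat_lit 3589487723) (nat_lit 38) (nat_lit 3) (nat_lit 38) (nat_lit 1) (nat_lit 40) (nat_lit 1) (nat_lit 381) (nat_lit 388) (nat_lit 251))))) (XT.nd (nat_lit 234) (nat_lit 456) (nat_lit 0) (XT.nd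 (nat_lit 78) (nat_lit 228) (nat_lit 0) (XT.lf (nat_lit 76) (nat_lit 1656432567) (nat_lit 0) (nat_lit 441631744) (nat_lit 76) (nat_lit 1658317446) (nat_lit 38) (nat_lit 3) (nat_lit 37) (nat_lit 1) (nat_lit 38) (nat_lit 1) (nat_lit 382) (nat_lit 388) (nat_lit 250)) (XT.nd (nat_lit 78) (nat_lit 76) (nat_lit 0) (XT.lf (nat_lit 0) (nat_lit 314953209) (nat_lit 0) (nat_lit 316615361) (nat_lit 152) (nat_lit 3030098029) (nat_lit 35) (nat_lit 3) (nat_lit 35) (nat_lit 1) (nat_lit 37) (nat_lit 1) (nat_lit 383) (nat_lit 388) (nat_lit 249)) (XT.lf (nat_lit 76) (nat_lit 1387358474) (nat_lit 0) (nat_lit 792181295) (nat_lit 76) (nat_lit 1388897502) (nat_lit 35) (nat_lit 3) (nat_lit 34) (nat_lit 1) (nat_lit 35) (nat_lit 1) (nat_lit 384) (nat_lit 388) (nat_lit 248)))) (XT.nd (nat_lit 156) (nat_lit 228) (nat_lit 0) (XT.nd (nat_lit 78) (nat_lit 76) (nat_lit 0) (XT.lf (nat_lit 0) (nat_lit 479183605) (nat_lit 0) (nat_lit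 480540773) (nat_lit 152) (nat_lit 2518615736) (nat_lit 32) (nat_lit 3) (nat_lit 32) (nat_lit 1) (nat_lit 34) (nat_lit 1) (nat_lit 385) (nat_lit 388) (nat_lit 247)) (XT.lf (nat_lit 76) (nat_lit 1141495344) (nat_lit 0) (nat_lit 1105692574) (nat_lit 76) (nat_lit 1142751981) (nat_lit 32) (nat_lit 3) (nat_lit 31) (nat_lit 1) (nat_lit 32) (nat_lit 1) (nat_lit 386) (nat_lit 388) (nat_lit 246))) (XT.nd (nat_lit 78) (nat_lit 76) (nat_lit 0) (XT.lf (nat_lit 0) (nat_lit 625765149) (nat_lit 0) (nat_lit 626873295) (nat_lit 152) (nat_lit 2051596436) (nat_lit 29) (nat_lit 3) (nat_lit 29) (nat_lit 1) (nat_lit 31) (nat_lit 1) (nat_lit 387) (nat_lit 388) (nat_lit 245)) (XT.lf (nat_lit 76) (nat_lit 917172254) (nat_lit 0) (nat_lit 1385041863) (nat_lit 76) (nat_lit 918198315) (nat_lit 29) (nat_lit 3) (nat_lit 28) (nat_lit 1) (nat_lit 29) (nat_lit 1) (nat_lit 388) (nat_lit 388) (nat_lit 244)))))) (XT.nd (nat_lit 546)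 (nat_lit 912) (nat_lit 0) (XT.nd (nat_lit 234) (nat_lit 456) (nat_lit 0) (XT.nd (nat_lit 78) (nat_lit 228) (nat_lit 0) (XT.lf (nat_lit 0) (nat_lit 756078448) (nat_lit 0) (nat_lit 756983263) (nat_lit 152) (nat_lit 1625823069) (nat_lit 26) (nat_lit 3) (nat_lit 26) (nat_lit 1) (nat_lit 28) (nat_lit 1) (nat_lit 389) (nat_lit 388) (nat_lit 243)) (XT.nd (nat_lit 78) (nat_lit 152) (nat_lit 0) (XT.lf (nat_lit 76) (nat_lit 712828103) (nat_lit 0) (nat_lit 1632907904) (nat_lit 76) (nat_lit 713665895) (nat_lit 26) (nat_lit 3) (nat_lit 25) (nat_lit 1) (nat_lit 26) (nat_lit 1) (nat_lit 390) (nat_lit 388) (nat_lit 242)) (XT.lf (nat_lit 0) (nat_lit 871408450) (nat_lit 0) (nat_lit 872147243) (nat_lit 152) (nat_lit 1238291696) (nat_lit 23) (nat_lit 3) (nat_lit 23) (nat_lit 1) (nat_lit 25) (nat_lit 1) (nat_lit 391) (nat_lit 388) (nat_lit 241)))) (XT.nd (nat_lit 156) (nat_lit 228) (nat_lit 0) (XT.nd (nat_lit 78)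 (nat_lit 152) (nat_lit 0) (XT.lf (nat_lit 76) (nat_lit 527004858) (nat_lit 0) (nat_lit 1851784555) (nat_lit 76) (nat_lit 527688927) (nat_lit 23) (nat_lit 3) (nat_lit 22) (nat_lit 1) (nat_lit 23) (nat_lit 1) (nat_lit 392) (nat_lit 388) (nat_lit 240)) (XT.lf (nat_lit 0) (nat_lit 972950699) (nat_lit 0) (nat_lit 973553934) (nat_lit 152) (nat_lit 886198129) (nat_lit 20) (nat_lit 3) (nat_lit 20) (nat_lit 1) (nat_lit 22) (nat_lit 1) (nat_lit 393) (nat_lit 388) (nat_lit 239))) (XT.nd (nat_lit 78) (nat_lit 152) (nat_lit 0) (XT.lf (nat_lit 76) (nat_lit 358341186) (nat_lit 0) (nat_lit 2043992680) (nat_lit 76) (nat_lit 358899737) (nat_lit 20) (nat_lit 3) (nat_lit 19) (nat_lit 1) (nat_lit 20) (nat_lit 1) (nat_lit 394) (nat_lit 388) (nat_lit 238)) (XT.lf (nat_lit 0) (nat_lit 1061817187) (nat_lit 0) (nat_lit 1062309736) (nat_lit 152) (nat_lit 566925357) (nat_lit 17) (nat_lit 3) (nat_lit 17) (nat_lit 1) (nat_lit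 19) (nat_lit 1) (nat_lit 395) (nat_lit 388) (nat_lit 237))))) (XT.nd (nat_lit 234) (nat_lit 608) (nat_lit 0) (XT.nd (nat_lit 78) (nat_lit 228) (nat_lit 0) (XT.lf (nat_lit 76) (nat_lit 205566441) (nat_lit 0) (nat_lit 2211691306) (nat_lit 76) (nat_lit 206022505) (nat_lit 17) (nat_lit 3) (nat_lit 16) (nat_lit 1) (nat_lit 17) (nat_lit 1) (nat_lit 396) (nat_lit 388) (nat_lit 236)) (XT.nd (nat_lit 78) (nat_lit 76) (nat_lit 0) (XT.lf (nat_lit 0) (nat_lit 1139041827) (nat_lit 0) (nat_lit 1139444000) (nat_lit 152) (nat_lit 278031739) (nat_lit 14) (nat_lit 3) (nat_lit 14) (nat_lit 1) (nat_lit 16) (nat_lit 1) (nat_lit 397) (nat_lit 388) (nat_lit 235)) (XT.lf (nat_lit 76) (nat_lit 67495002) (nat_lit 0) (nat_lit 2356888114) (nat_lit 76) (nat_lit 67867385) (nat_lit 14) (nat_lit 3) (nat_lit 13) (nat_lit 1) (nat_lit 14) (nat_lit 1) (nat_lit 398) (nat_lit 388) (nat_lit 234)))) (XT.nd (nat_lit 156) (nat_lit 228)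 (nat_lit 0) (XT.nd (nat_lit 78) (nat_lit 228) (nat_lit 0) (XT.lf (nat_lit 0) (nat_lit 1205585583) (nat_lit 0) (nat_lit 1205913962) (nat_lit 152) (nat_lit 17239897) (nat_lit 11) (nat_lit 3) (nat_lit 11) (nat_lit 1) (nat_lit 13) (nat_lit 1) (nat_lit 399) (nat_lit 388) (nat_lit 233)) (XT.lf (nat_lit 0) (nat_lit 57613828) (nat_lit 0) (nat_lit 57903404) (nat_lit 152) (nat_lit 2252096096) (nat_lit 8) (nat_lit 3) (nat_lit 8) (nat_lit 1) (nat_lit 10) (nat_lit 1) (nat_lit 400) (nat_lit 388) (nat_lit 232))) (XT.nd (nat_lit 78) (nat_lit 152) (nat_lit 0) (XT.lf (nat_lit 76) (nat_lit 1041082848) (nat_lit 0) (nat_lit 224767671) (nat_lit 76) (nat_lit 1041350975) (nat_lit 8) (nat_lit 3) (nat_lit 7) (nat_lit 1) (nat_lit 8) (nat_lit 1) (nat_lit 401) (nat_lit 388) (nat_lit 231)) (XT.lf (nat_lit 0) (nat_lit 171411228) (nat_lit 0) (nat_lit 171647670) (nat_lit 152) (nat_lit 1905983893) (nat_lit 5) (nat_lit 3) (nat_lit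 5) (nat_lit 1) (nat_lit 7) (nat_lit 1) (nat_lit 402) (nat_lit 388) (nat_lit 230))))))) (XT.nd (nat_lit 1014) (nat_lit 0) (nat_lit 0) (XT.nd (nat_lit 468) (nat_lit 0) (nat_lit 0) (XT.nd (nat_lit 234) (nat_lit 76) (nat_lit 0) (XT.nd (nat_lit 78) (nat_lit 228) (nat_lit 0) (XT.lf (nat_lit 76) (nat_lit 874494523) (nat_lit 0) (nat_lit 442553001) (nat_lit 76) (nat_lit 874713451) (nat_lit 5) (nat_lit 3) (nat_lit 4) (nat_lit 1) (nat_lit 5) (nat_lit 1) (nat_lit 403) (nat_lit 388) (nat_lit 229)) (XT.nd (nat_lit 78) (nat_lit 76) (nat_lit 0) (XT.lf (nat_lit 0) (nat_lit 273403471) (nat_lit 0) (nat_lit 273596530) (nat_lit 152) (nat_lit 1589437779) (nat_lit 2) (nat_lit 3) (nat_lit 2) (nat_lit 1) (nat_lit 4) (nat_lit 1) (nat_lit 404) (nat_lit 388) (nat_lit 228)) (XT.lf (nat_lit 76) (nat_lit 722246306) (nat_lit 0) (nat_lit 637451684) (nat_lit 76) (nat_lit 722425064) (nat_lit 2) (nat_lit 3) (nat_lit 1) (nat_lit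 1) (nat_lit 2) (nat_lit 1) (nat_lit 405) (nat_lit 388) (nat_lit 227)))) (XT.nd (nat_lit 78) (nat_lit 0) (nat_lit 0) (XT.lf (nat_lit 0) (nat_lit 43175940334) (nat_lit 0) (nat_lit 0) (nat_lit 0) (nat_lit 0) (nat_lit 0) (nat_lit 0) (nat_lit 1) (nat_lit 0) (nat_lit 1) (nat_lit 0) (nat_lit 406) (nat_lit 388) (nat_lit 226)) (XT.nd (nat_lit 78) (nat_lit 0) (nat_lit 0) (XT.lf (nat_lit 0) (nat_lit 43175928024) (nat_lit 0) (nat_lit 0) (nat_lit 0) (nat_lit 0) (nat_lit 0) (nat_lit 0) (nat_lit 1) (nat_lit 0) (nat_lit 1) (nat_lit 0) (nat_lit 407) (nat_lit 388) (nat_lit 225)) (XT.lf (nat_lit 0) (nat_lit 43175916626) (nat_lit 0) (nat_lit 0) (nat_lit 0) (nat_lit 0) (nat_lit 0) (nat_lit 0) (nat_lit 1) (nat_lit 0) (nat_lit 1) (nat_lit 0) (nat_lit 408) (nat_lit 388) (nat_lit 224))))) (XT.nd (nat_lit 234) (nat_lit 0) (nat_lit 0) (XT.nd (nat_lit 78) (nat_lit 0) (nat_lit 0) (XT.lf (nat_lit 0) (nat_lit 43175906072)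 (nat_lit 0) (nat_lit 0) (nat_lit 0) (nat_lit 0) (nat_lit 0) (nat_lit 0) (nat_lit 1) (nat_lit 0) (nat_lit 1) (nat_lit 0) (nat_lit 409) (nat_lit 388) (nat_lit 223)) (XT.nd (nat_lit 78) (nat_lit 0) (nat_lit 0) (XT.lf (nat_lit 0) (nat_lit 43175896300) (nat_lit 0) (nat_lit 0) (nat_lit 0) (nat_lit 0) (nat_lit 0) (nat_lit 0) (nat_lit 1) (nat_lit 0) (nat_lit 1) (nat_lit 0) (nat_lit 410) (nat_lit 388) (nat_lit 222)) (XT.lf (nat_lit 0) (nat_lit 43175887252) (nat_lit 0) (nat_lit 0) (nat_lit 0) (nat_lit 0) (nat_lit 0) (nat_lit 0) (nat_lit 1) (nat_lit 0) (nat_lit 1) (nat_lit 0) (nat_lit 411) (nat_lit 388) (nat_lit 221)))) (XT.nd (nat_lit 156) (nat_lit 0) (nat_lit 0) (XT.nd (nat_lit 78) (nat_lit 0) (nat_lit 0) (XT.lf (nat_lit 0) (nat_lit 43175878874) (nat_lit 0) (nat_lit 0) (nat_lit 0) (nat_lit 0) (nat_lit 0) (nat_lit 0) (nat_lit 1) (nat_lit 0) (nat_lit 1) (nat_lit 0) (nat_lit 412) (nat_lit 388) (nat_lit 220))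 (XT.lf (nat_lit 0) (nat_lit 43175871116) (nat_lit 0) (nat_lit 0) (nat_lit 0) (nat_lit 0) (nat_lit 0) (nat_lit 0) (nat_lit 1) (nat_lit 0) (nat_lit 1) (nat_lit 0) (nat_lit 413) (nat_lit 388) (nat_lit 219))) (XT.nd (nat_lit 78) (nat_lit 0) (nat_lit 0) (XT.lf (nat_lit 0) (nat_lit 43175863934) (nat_lit 0) (nat_lit 0) (nat_lit 0) (nat_lit 0) (nat_lit 0) (nat_lit 0) (nat_lit 1) (nat_lit 0) (nat_lit 1) (nat_lit 0) (nat_lit 414) (nat_lit 388) (nat_lit 218)) (XT.lf (nat_lit 0) (nat_lit 43175857283) (nat_lit 0) (nat_lit 0) (nat_lit 0) (nat_lit 0) (nat_lit 0) (nat_lit 0) (nat_lit 1) (nat_lit 0) (nat_lit 1) (nat_lit 0) (nat_lit 415) (nat_lit 388) (nat_lit 217)))))) (XT.nd (nat_lit 39936) (nat_lit 0) (nat_lit 20216) (XT.nd (nat_lit 39624) (nat_lit 0) (nat_lit 22268) (XT.nd (nat_lit 78) (nat_lit 0) (nat_lit 0) (XT.lf (nat_lit 0) (nat_lit 43175851125) (nat_lit 0) (nat_lit 0) (nat_lit 0) (nat_lit 0) (nat_lit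 0) (nat_lit 0) (nat_lit 1) (nat_lit 0) (nat_lit 1) (nat_lit 0) (nat_lit 416) (nat_lit 388) (nat_lit 216)) (XT.nd (nat_lit 39468) (nat_lit 0) (nat_lit 22192) (XT.lf (nat_lit 0) (nat_lit 43175845423) (nat_lit 0) (nat_lit 0) (nat_lit 0) (nat_lit 0) (nat_lit 0) (nat_lit 0) (nat_lit 1) (nat_lit 0) (nat_lit 1) (nat_lit 0) (nat_lit 417) (nat_lit 388) (nat_lit 215)) (XT.lf (nat_lit 836) (nat_lit 23335316616) (nat_lit 0) (nat_lit 41431801015) (nat_lit 836) (nat_lit 23335316616) (nat_lit 303) (nat_lit 1) (nat_lit 292) (nat_lit 0) (nat_lit 303) (nat_lit 0) (nat_lit 242) (nat_lit 389) (nat_lit 389)))) (XT.nd (nat_lit 156) (nat_lit 0) (nat_lit 76) (XT.nd (nat_lit 78) (nat_lit 0) (nat_lit 0) (XT.lf (nat_lit 836) (nat_lit 8704789122) (nat_lit 0) (nat_lit 81343182388) (nat_lit 760) (nat_lit 79553360614) (nat_lit 304) (nat_lit 1) (nat_lit 293) (nat_lit 1) (nat_lit 303) (nat_lit 1) (nat_lit 243) (nat_lit 389)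 (nat_lit 388)) (XT.lf (nat_lit 836) (nat_lit 79948463610) (nat_lit 76) (nat_lit 54475556664) (nat_lit 0) (nat_lit 28891350292) (nat_lit 304) (nat_lit 1) (nat_lit 294) (nat_lit 1) (nat_lit 293) (nat_lit 1) (nat_lit 244) (nat_lit 389) (nat_lit 387))) (XT.nd (nat_lit 78) (nat_lit 0) (nat_lit 76) (XT.lf (nat_lit 836) (nat_lit 69082022031) (nat_lit 76) (nat_lit 22830328209) (nat_lit 0) (nat_lit 65431624228) (nat_lit 305) (nat_lit 1) (nat_lit 295) (nat_lit 1) (nat_lit 294) (nat_lit 1) (nat_lit 245) (nat_lit 389) (nat_lit 386)) (XT.lf (nat_lit 836) (nat_lit 51126569452) (nat_lit 0) (nat_lit 95655394798) (nat_lit 760) (nat_lit 4889890115) (nat_lit 306) (nat_lit 1) (nat_lit 295) (nat_lit 1) (nat_lit 305) (nat_lit 1) (nat_lit 246) (nat_lit 389) (nat_lit 385))))) (XT.nd (nat_lit 234) (nat_lit 1596) (nat_lit 0) (XT.nd (nat_lit 78) (nat_lit 684) (nat_lit 0) (XT.lf (nat_lit 836) (nat_lit 12267319058) (nat_lit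 0) (nat_lit 105486646864) (nat_lit 760) (nat_lit 28516651781) (nat_lit 307) (nat_lit 1) (nat_lit 296) (nat_lit 1) (nat_lit 306) (nat_lit 1) (nat_lit 247) (nat_lit 389) (nat_lit 384)) (XT.nd (nat_lit 78) (nat_lit 684) (nat_lit 0) (XT.lf (nat_lit 836) (nat_lit 23572797688) (nat_lit 76) (nat_lit 91676486271) (nat_lit 0) (nat_lit 25872235498) (nat_lit 307) (nat_lit 1) (nat_lit 297) (nat_lit 1) (nat_lit 296) (nat_lit 1) (nat_lit 248) (nat_lit 389) (nat_lit 383)) (XT.lf (nat_lit 836) (nat_lit 4841315113) (nat_lit 0) (nat_lit 68534237654) (nat_lit 760) (nat_lit 62845177838) (nat_lit 298) (nat_lit 1) (nat_lit 287) (nat_lit 1) (nat_lit 297) (nat_lit 1) (nat_lit 249) (nat_lit 389) (nat_lit 382)))) (XT.nd (nat_lit 156) (nat_lit 684) (nat_lit 0) (XT.nd (nat_lit 78) (nat_lit 380) (nat_lit 0) (XT.lf (nat_lit 76) (nat_lit 33522274330) (nat_lit 0) (nat_lit 14526761467) (nat_lit 532) (nat_lit 83502953574) (nat_lit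 281) (nat_lit 1) (nat_lit 280) (nat_lit 1) (nat_lit 287) (nat_lit 1) (nat_lit 250) (nat_lit 389) (nat_lit 381)) (XT.lf (nat_lit 456) (nat_lit 92383168713) (nat_lit 0) (nat_lit 30072713036) (nat_lit 380) (nat_lit 4649427251) (nat_lit 281) (nat_lit 1) (nat_lit 275) (nat_lit 1) (nat_lit 280) (nat_lit 1) (nat_lit 251) (nat_lit 389) (nat_lit 380))) (XT.nd (nat_lit 78) (nat_lit 304) (nat_lit 0) (XT.lf (nat_lit 456) (nat_lit 66664574283) (nat_lit 0) (nat_lit 14017021088) (nat_lit 380) (nat_lit 42168232564) (nat_lit 276) (nat_lit 1) (nat_lit 270) (nat_lit 1) (nat_lit 275) (nat_lit 1) (nat_lit 252) (nat_lit 389) (nat_lit 379)) (XT.lf (nat_lit 380) (nat_lit 40564543215) (nat_lit 0) (nat_lit 258076137) (nat_lit 304) (nat_lit 77978066541) (nat_lit 271) (nat_lit 1) (nat_lit 266) (nat_lit 1) (nat_lit 270) (nat_lit 1) (nat_lit 253) (nat_lit 389) (nat_lit 378))))))))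
noncomputable def ec142 : XT := (XT.nd (nat_lit 2028) (nat_lit 3192) (nat_lit 0) (XT.nd (nat_lit 1014) (nat_lit 2128) (nat_lit 0) (XT.nd (nat_lit 468) (nat_lit 1596) (nat_lit 0) (XT.nd (nat_lit 234) (nat_lit 912) (nat_lit 0) (XT.nd (nat_lit 78) (nat_lit 684) (nat_lit 0) (XT.lf (nat_lit 76) (nat_lit 2992660290) (nat_lit 0) (nat_lit 100927006194) (nat_lit 380) (nat_lit 11018145129) (nat_lit 267) (nat_lit 1) (nat_lit 266) (nat_lit 1) (nat_lit 271) (nat_lit 1) (nat_lit 254) (nat_lit 389) (nat_lit 377)) (XT.nd (nat_lit 78) (nat_lit 304) (nat_lit 0) (XT.lf (nat_lit 76) (nat_lit 77271264917) (nat_lit 0) (nat_lit 12816266084) (nat_lit 380) (nat_lit 21136350382) (nat_lit 262) (nat_lit 1) (nat_lit 261) (nat_lit 1) (nat_lit 266) (nat_lit 1) (nat_lit 255) (nat_lit 389) (nat_lit 376)) (XT.lf (nat_lit 76) (nat_lit 38660771942) (nat_lit 0) (nat_lit 39258498110) (nat_lit 380) (nat_lit 29754781474) (nat_lit 258)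 (nat_lit 1) (nat_lit 257) (nat_lit 1) (nat_lit 262) (nat_lit 1) (nat_lit 256) (nat_lit 389) (nat_lit 375)))) (XT.nd (nat_lit 78) (nat_lit 608) (nat_lit 0) (XT.lf (nat_lit 76) (nat_lit 1908209974) (nat_lit 0) (nat_lit 65639599243) (nat_lit 380) (nat_lit 36744485163) (nat_lit 254) (nat_lit 1) (nat_lit 253) (nat_lit 1) (nat_lit 258) (nat_lit 1) (nat_lit 257) (nat_lit 389) (nat_lit 374)) (XT.nd (nat_lit 78) (nat_lit 380) (nat_lit 0) (XT.lf (nat_lit 304) (nat_lit 8617368697) (nat_lit 0) (nat_lit 58275139632) (nat_lit 228) (nat_lit 34150571133) (nat_lit 254) (nat_lit 1) (nat_lit 250) (nat_lit 1) (nat_lit 253) (nat_lit 1) (nat_lit 258) (nat_lit 389) (nat_lit 373)) (XT.lf (nat_lit 76) (nat_lit 29775325714) (nat_lit 0) (nat_lit 20408193260) (nat_lit 380) (nat_lit 47744576530) (nat_lit 246) (nat_lit 1) (nat_lit 245) (nat_lit 1) (nat_lit 250) (nat_lit 1) (nat_lit 259) (nat_lit 389) (nat_lit 372))))) (XT.nd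 (nat_lit 234) (nat_lit 836) (nat_lit 0) (XT.nd (nat_lit 78) (nat_lit 532) (nat_lit 0) (XT.lf (nat_lit 304) (nat_lit 46099366099) (nat_lit 0) (nat_lit 43304396248) (nat_lit 228) (nat_lit 5542911324) (nat_lit 246) (nat_lit 1) (nat_lit 242) (nat_lit 1) (nat_lit 245) (nat_lit 1) (nat_lit 260) (nat_lit 389) (nat_lit 371)) (XT.nd (nat_lit 78) (nat_lit 304) (nat_lit 0) (XT.lf (nat_lit 304) (nat_lit 14774624126) (nat_lit 0) (nat_lit 37283311871) (nat_lit 228) (nat_lit 40021892716) (nat_lit 243) (nat_lit 1) (nat_lit 239) (nat_lit 1) (nat_lit 242) (nat_lit 1) (nat_lit 261) (nat_lit 389) (nat_lit 370)) (XT.lf (nat_lit 76) (nat_lit 16839501478) (nat_lit 0) (nat_lit 15418026988) (nat_lit 304) (nat_lit 57074520758) (nat_lit 236) (nat_lit 1) (nat_lit 235) (nat_lit 1) (nat_lit 239) (nat_lit 1) (nat_lit 262) (nat_lit 389) (nat_lit 369)))) (XT.nd (nat_lit 156) (nat_lit 456) (nat_lit 0) (XT.nd (nat_lit 78) (nat_lit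 152) (nat_lit 0) (XT.lf (nat_lit 304) (nat_lit 41902889250) (nat_lit 0) (nat_lit 27880629706) (nat_lit 228) (nat_lit 16901329394) (nat_lit 236) (nat_lit 1) (nat_lit 232) (nat_lit 1) (nat_lit 235) (nat_lit 1) (nat_lit 263) (nat_lit 389) (nat_lit 368)) (XT.lf (nat_lit 228) (nat_lit 10387788117) (nat_lit 0) (nat_lit 24323815800) (nat_lit 152) (nat_lit 49432839028) (nat_lit 233) (nat_lit 1) (nat_lit 230) (nat_lit 1) (nat_lit 232) (nat_lit 1) (nat_lit 264) (nat_lit 389) (nat_lit 367))) (XT.nd (nat_lit 78) (nat_lit 152) (nat_lit 0) (XT.lf (nat_lit 76) (nat_lit 1759757672) (nat_lit 0) (nat_lit 19692070378) (nat_lit 304) (nat_lit 60250682296) (nat_lit 227) (nat_lit 1) (nat_lit 226) (nat_lit 1) (nat_lit 230) (nat_lit 1) (nat_lit 265) (nat_lit 389) (nat_lit 366)) (XT.lf (nat_lit 228) (nat_lit 30185006245) (nat_lit 0) (nat_lit 18863039336) (nat_lit 152) (nat_lit 30290050370) (nat_lit 227) (nat_lit 1) (nat_lit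 224) (nat_lit 1) (nat_lit 226) (nat_lit 1) (nat_lit 266) (nat_lit 389) (nat_lit 365)))))) (XT.nd (nat_lit 468) (nat_lit 1064) (nat_lit 0) (XT.nd (nat_lit 234) (nat_lit 532) (nat_lit 0) (XT.nd (nat_lit 78) (nat_lit 304) (nat_lit 0) (XT.lf (nat_lit 76) (nat_lit 16377122949) (nat_lit 0) (nat_lit 756469576) (nat_lit 228) (nat_lit 59943263927) (nat_lit 222) (nat_lit 1) (nat_lit 221) (nat_lit 1) (nat_lit 224) (nat_lit 1) (nat_lit 267) (nat_lit 389) (nat_lit 364)) (XT.nd (nat_lit 78) (nat_lit 152) (nat_lit 0) (XT.lf (nat_lit 228) (nat_lit 44771891645) (nat_lit 0) (nat_lit 15514464325) (nat_lit 152) (nat_lit 14595038831) (nat_lit 222) (nat_lit 1) (nat_lit 219) (nat_lit 1) (nat_lit 221) (nat_lit 1) (nat_lit 268) (nat_lit 389) (nat_lit 363)) (XT.lf (nat_lit 228) (nat_lit 13907943680) (nat_lit 0) (nat_lit 14422410205) (nat_lit 152) (nat_lit 44439521372) (nat_lit 220) (nat_lit 1) (nat_lit 217) (nat_lit 1)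 (nat_lit 219) (nat_lit 1) (nat_lit 269) (nat_lit 389) (nat_lit 362)))) (XT.nd (nat_lit 78) (nat_lit 304) (nat_lit 0) (XT.lf (nat_lit 228) (nat_lit 55209425097) (nat_lit 0) (nat_lit 13779442355) (nat_lit 152) (nat_lit 1748082127) (nat_lit 217) (nat_lit 1) (nat_lit 214) (nat_lit 1) (nat_lit 216) (nat_lit 1) (nat_lit 270) (nat_lit 389) (nat_lit 361)) (XT.nd (nat_lit 78) (nat_lit 152) (nat_lit 0) (XT.lf (nat_lit 228) (nat_lit 24709179932) (nat_lit 0) (nat_lit 13154721756) (nat_lit 152) (nat_lit 30896610801) (nat_lit 215) (nat_lit 1) (nat_lit 212) (nat_lit 1) (nat_lit 214) (nat_lit 1) (nat_lit 271) (nat_lit 389) (nat_lit 360)) (XT.lf (nat_lit 76) (nat_lit 8463848121) (nat_lit 0) (nat_lit 4652112320) (nat_lit 152) (nat_lit 53750092461) (nat_lit 211) (nat_lit 1) (nat_lit 210) (nat_lit 1) (nat_lit 212) (nat_lit 1) (nat_lit 272) (nat_lit 389) (nat_lit 359))))) (XT.nd (nat_lit 234) (nat_lit 608) (nat_lit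 0) (XT.nd (nat_lit 78) (nat_lit 304) (nat_lit 0) (XT.lf (nat_lit 228) (nat_lit 32419865114) (nat_lit 0) (nat_lit 12977077020) (nat_lit 152) (nat_lit 19622456067) (nat_lit 211) (nat_lit 1) (nat_lit 208) (nat_lit 1) (nat_lit 210) (nat_lit 1) (nat_lit 273) (nat_lit 389) (nat_lit 358)) (XT.nd (nat_lit 78) (nat_lit 228) (nat_lit 0) (XT.lf (nat_lit 152) (nat_lit 3491158792) (nat_lit 0) (nat_lit 13295810801) (nat_lit 76) (nat_lit 46458677458) (nat_lit 209) (nat_lit 1) (nat_lit 207) (nat_lit 1) (nat_lit 208) (nat_lit 1) (nat_lit 274) (nat_lit 389) (nat_lit 357)) (XT.lf (nat_lit 228) (nat_lit 37685770243) (nat_lit 0) (nat_lit 13598066417) (nat_lit 152) (nat_lit 10236967037) (nat_lit 207) (nat_lit 1) (nat_lit 204) (nat_lit 1) (nat_lit 206) (nat_lit 1) (nat_lit 275) (nat_lit 389) (nat_lit 356)))) (XT.nd (nat_lit 156) (nat_lit 304) (nat_lit 0) (XT.nd (nat_lit 78) (nat_lit 228) (nat_lit 0) (XT.lf (nat_lit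 152) (nat_lit 9478249110) (nat_lit 0) (nat_lit 14106511823) (nat_lit 76) (nat_lit 36269330098) (nat_lit 205) (nat_lit 1) (nat_lit 203) (nat_lit 1) (nat_lit 204) (nat_lit 1) (nat_lit 276) (nat_lit 389) (nat_lit 355)) (XT.lf (nat_lit 228) (nat_lit 41029009439) (nat_lit 0) (nat_lit 14786873062) (nat_lit 152) (nat_lit 2426652452) (nat_lit 203) (nat_lit 1) (nat_lit 200) (nat_lit 1) (nat_lit 202) (nat_lit 1) (nat_lit 277) (nat_lit 389) (nat_lit 354))) (XT.nd (nat_lit 78) (nat_lit 228) (nat_lit 0) (XT.lf (nat_lit 152) (nat_lit 13640500809) (nat_lit 0) (nat_lit 15415492849) (nat_lit 76) (nat_lit 27618186732) (nat_lit 201) (nat_lit 1) (nat_lit 199) (nat_lit 1) (nat_lit 200) (nat_lit 1) (nat_lit 278) (nat_lit 389) (nat_lit 353)) (XT.lf (nat_lit 76) (nat_lit 3937191375) (nat_lit 0) (nat_lit 12357794224) (nat_lit 228) (nat_lit 38867183473) (nat_lit 197) (nat_lit 1) (nat_lit 196) (nat_lit 1) (nat_lit 199)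 (nat_lit 1) (nat_lit 279) (nat_lit 389) (nat_lit 352))))))) (XT.nd (nat_lit 1014) (nat_lit 1672) (nat_lit 0) (XT.nd (nat_lit 468) (nat_lit 760) (nat_lit 0) (XT.nd (nat_lit 234) (nat_lit 380) (nat_lit 0) (XT.nd (nat_lit 78) (nat_lit 304) (nat_lit 0) (XT.lf (nat_lit 152) (nat_lit 16369831654) (nat_lit 0) (nat_lit 17056588672) (nat_lit 76) (nat_lit 20261287299) (nat_lit 197) (nat_lit 1) (nat_lit 195) (nat_lit 1) (nat_lit 196) (nat_lit 1) (nat_lit 280) (nat_lit 389) (nat_lit 351)) (XT.nd (nat_lit 78) (nat_lit 76) (nat_lit 0) (XT.lf (nat_lit 76) (nat_lit 9156441124) (nat_lit 0) (nat_lit 8868632386) (nat_lit 228) (nat_lit 34239988854) (nat_lit 193) (nat_lit 1) (nat_lit 192) (nat_lit 1) (nat_lit 195) (nat_lit 1) (nat_lit 281) (nat_lit 389) (nat_lit 350)) (XT.lf (nat_lit 152) (nat_lit 17982296803) (nat_lit 0) (nat_lit 18900088589) (nat_lit 76) (nat_lit 13996379758) (nat_lit 193) (nat_lit 1) (nat_lit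 191) (nat_lit 1) (nat_lit 192) (nat_lit 1) (nat_lit 282) (nat_lit 389) (nat_lit 349)))) (XT.nd (nat_lit 78) (nat_lit 228) (nat_lit 0) (XT.lf (nat_lit 76) (nat_lit 13480398671) (nat_lit 0) (nat_lit 6423168764) (nat_lit 152) (nat_lit 29634683508) (nat_lit 190) (nat_lit 1) (nat_lit 189) (nat_lit 1) (nat_lit 191) (nat_lit 1) (nat_lit 283) (nat_lit 389) (nat_lit 348)) (XT.nd (nat_lit 78) (nat_lit 152) (nat_lit 0) (XT.lf (nat_lit 152) (nat_lit 18732264258) (nat_lit 0) (nat_lit 20845631584) (nat_lit 76) (nat_lit 8655480243) (nat_lit 190) (nat_lit 1) (nat_lit 188) (nat_lit 1) (nat_lit 189) (nat_lit 1) (nat_lit 284) (nat_lit 389) (nat_lit 347)) (XT.lf (nat_lit 76) (nat_lit 17051450935) (nat_lit 0) (nat_lit 4791767651) (nat_lit 152) (nat_lit 25125419225) (nat_lit 187) (nat_lit 1) (nat_lit 186) (nat_lit 1) (nat_lit 188) (nat_lit 1) (nat_lit 285) (nat_lit 389) (nat_lit 346))))) (XT.nd (nat_lit 234) (nat_lit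 456) (nat_lit 0) (XT.nd (nat_lit 78) (nat_lit 228) (nat_lit 0) (XT.lf (nat_lit 152) (nat_lit 18823973432) (nat_lit 0) (nat_lit 22816432171) (nat_lit 76) (nat_lit 4098784475) (nat_lit 187) (nat_lit 1) (nat_lit 185) (nat_lit 1) (nat_lit 186) (nat_lit 1) (nat_lit 286) (nat_lit 389) (nat_lit 345)) (XT.nd (nat_lit 78) (nat_lit 76) (nat_lit 0) (XT.lf (nat_lit 76) (nat_lit 19987937333) (nat_lit 0) (nat_lit 3789780591) (nat_lit 152) (nat_lit 20766895074) (nat_lit 184) (nat_lit 1) (nat_lit 183) (nat_lit 1) (nat_lit 185) (nat_lit 1) (nat_lit 287) (nat_lit 389) (nat_lit 344)) (XT.lf (nat_lit 152) (nat_lit 18420957962) (nat_lit 0) (nat_lit 24754591065) (nat_lit 76) (nat_lit 209683387) (nat_lit 184) (nat_lit 1) (nat_lit 182) (nat_lit 1) (nat_lit 183) (nat_lit 1) (nat_lit 288) (nat_lit 389) (nat_lit 343)))) (XT.nd (nat_lit 156) (nat_lit 228) (nat_lit 0) (XT.nd (nat_lit 78) (nat_lit 76) (nat_lit 0) (XT.lf (nat_lit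 76) (nat_lit 22388406426) (nat_lit 0) (nat_lit 3269099216) (nat_lit 152) (nat_lit 16598321527) (nat_lit 181) (nat_lit 1) (nat_lit 180) (nat_lit 1) (nat_lit 182) (nat_lit 1) (nat_lit 289) (nat_lit 389) (nat_lit 342)) (XT.lf (nat_lit 0) (nat_lit 3009801254) (nat_lit 0) (nat_lit 23556516353) (nat_lit 152) (nat_lit 14592951845) (nat_lit 179) (nat_lit 3) (nat_lit 179) (nat_lit 1) (nat_lit 181) (nat_lit 1) (nat_lit 290) (nat_lit 389) (nat_lit 341))) (XT.nd (nat_lit 78) (nat_lit 76) (nat_lit 0) (XT.lf (nat_lit 76) (nat_lit 24335102043) (nat_lit 0) (nat_lit 3111270316) (nat_lit 152) (nat_lit 12646632053) (nat_lit 178) (nat_lit 1) (nat_lit 177) (nat_lit 1) (nat_lit 179) (nat_lit 1) (nat_lit 291) (nat_lit 389) (nat_lit 340)) (XT.lf (nat_lit 0) (nat_lit 5749833884) (nat_lit 0) (nat_lit 22526497202) (nat_lit 152) (nat_lit 10778805329) (nat_lit 176) (nat_lit 3) (nat_lit 176) (nat_lit 1) (nat_lit 178) (nat_lit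 1) (nat_lit 292) (nat_lit 389) (nat_lit 339)))))) (XT.nd (nat_lit 546) (nat_lit 760) (nat_lit 0) (XT.nd (nat_lit 234) (nat_lit 532) (nat_lit 0) (XT.nd (nat_lit 78) (nat_lit 228) (nat_lit 0) (XT.lf (nat_lit 76) (nat_lit 25896819617) (nat_lit 0) (nat_lit 3221885718) (nat_lit 152) (nat_lit 8929081794) (nat_lit 175) (nat_lit 1) (nat_lit 174) (nat_lit 1) (nat_lit 176) (nat_lit 1) (nat_lit 293) (nat_lit 389) (nat_lit 338)) (XT.nd (nat_lit 78) (nat_lit 152) (nat_lit 0) (XT.lf (nat_lit 0) (nat_lit 8083626548) (nat_lit 0) (nat_lit 21781992965) (nat_lit 152) (nat_lit 7199368787) (nat_lit 173) (nat_lit 3) (nat_lit 173) (nat_lit 1) (nat_lit 175) (nat_lit 1) (nat_lit 294) (nat_lit 389) (nat_lit 337)) (XT.lf (nat_lit 76) (nat_lit 27131247633) (nat_lit 0) (nat_lit 3526012375) (nat_lit 152) (nat_lit 5455347238) (nat_lit 172) (nat_lit 1) (nat_lit 171) (nat_lit 1) (nat_lit 173) (nat_lit 1) (nat_lit 295) (nat_lit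 389) (nat_lit 336)))) (XT.nd (nat_lit 156) (nat_lit 304) (nat_lit 0) (XT.nd (nat_lit 78) (nat_lit 152) (nat_lit 0) (XT.lf (nat_lit 0) (nat_lit 10067246203) (nat_lit 0) (nat_lit 21252142683) (nat_lit 152) (nat_lit 3862172259) (nat_lit 170) (nat_lit 3) (nat_lit 170) (nat_lit 1) (nat_lit 172) (nat_lit 1) (nat_lit 296) (nat_lit 389) (nat_lit 335)) (XT.lf (nat_lit 76) (nat_lit 28086888094) (nat_lit 0) (nat_lit 3964471116) (nat_lit 152) (nat_lit 2229219840) (nat_lit 169) (nat_lit 1) (nat_lit 168) (nat_lit 1) (nat_lit 170) (nat_lit 1) (nat_lit 297) (nat_lit 389) (nat_lit 334))) (XT.nd (nat_lit 78) (nat_lit 228) (nat_lit 0) (XT.lf (nat_lit 0) (nat_lit 11748112122) (nat_lit 0) (nat_lit 20880727316) (nat_lit 152) (nat_lit 769396342) (nat_lit 167) (nat_lit 3) (nat_lit 167) (nat_lit 1) (nat_lit 169) (nat_lit 1) (nat_lit 298) (nat_lit 389) (nat_lit 333)) (XT.lf (nat_lit 152) (nat_lit 28041899898) (nat_lit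 0) (nat_lit 774830052) (nat_lit 76) (nat_lit 3728074938) (nat_lit 166) (nat_lit 1) (nat_lit 164) (nat_lit 1) (nat_lit 165) (nat_lit 1) (nat_lit 299) (nat_lit 389) (nat_lit 332))))) (XT.nd (nat_lit 234) (nat_lit 456) (nat_lit 0) (XT.nd (nat_lit 78) (nat_lit 228) (nat_lit 0) (XT.lf (nat_lit 76) (nat_lit 11050350385) (nat_lit 0) (nat_lit 2149674961) (nat_lit 76) (nat_lit 18507250896) (nat_lit 164) (nat_lit 3) (nat_lit 163) (nat_lit 1) (nat_lit 164) (nat_lit 1) (nat_lit 300) (nat_lit 389) (nat_lit 331)) (XT.nd (nat_lit 78) (nat_lit 76) (nat_lit 0) (XT.lf (nat_lit 152) (nat_lit 25773449345) (nat_lit 0) (nat_lit 3601842786) (nat_lit 76) (nat_lit 1523220772) (nat_lit 163) (nat_lit 1) (nat_lit 161) (nat_lit 1) (nat_lit 162) (nat_lit 1) (nat_lit 301) (nat_lit 389) (nat_lit 330)) (XT.lf (nat_lit 76) (nat_lit 9583441893) (nat_lit 0) (nat_lit 4848824080) (nat_lit 76) (nat_lit 15672099309) (nat_lit 161) (nat_lit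 3) (nat_lit 160) (nat_lit 1) (nat_lit 161) (nat_lit 1) (nat_lit 302) (nat_lit 389) (nat_lit 329)))) (XT.nd (nat_lit 156) (nat_lit 228) (nat_lit 0) (XT.nd (nat_lit 78) (nat_lit 76) (nat_lit 0) (XT.lf (nat_lit 0) (nat_lit 404501156) (nat_lit 0) (nat_lit 5773687590) (nat_lit 152) (nat_lit 23159661035) (nat_lit 158) (nat_lit 3) (nat_lit 158) (nat_lit 1) (nat_lit 160) (nat_lit 1) (nat_lit 303) (nat_lit 389) (nat_lit 328)) (XT.lf (nat_lit 76) (nat_lit 8151692130) (nat_lit 0) (nat_lit 7310130525) (nat_lit 76) (nat_lit 13123161051) (nat_lit 158) (nat_lit 3) (nat_lit 157) (nat_lit 1) (nat_lit 158) (nat_lit 1) (nat_lit 304) (nat_lit 389) (nat_lit 327))) (XT.nd (nat_lit 78) (nat_lit 76) (nat_lit 0) (XT.lf (nat_lit 0) (nat_lit 2057204173) (nat_lit 0) (nat_lit 6441215566) (nat_lit 152) (nat_lit 19358791327) (nat_lit 155) (nat_lit 3) (nat_lit 155) (nat_lit 1) (nat_lit 157) (nat_lit 1) (nat_lit 305) (nat_lit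 389) (nat_lit 326)) (XT.lf (nat_lit 76) (nat_lit 6771149508) (nat_lit 0) (nat_lit 9542804737) (nat_lit 76) (nat_lit 10830419317) (nat_lit 155) (nat_lit 3) (nat_lit 154) (nat_lit 1) (nat_lit 155) (nat_lit 1) (nat_lit 306) (nat_lit 389) (nat_lit 325))))))))
noncomputable def ec143 : XT := (XT.nd (nat_lit 2106) (nat_lit 3344) (nat_lit 0) (XT.nd (nat_lit 1014) (nat_lit 1672) (nat_lit 0) (XT.nd (nat_lit 468) (nat_lit 836) (nat_lit 0) (XT.nd (nat_lit 234) (nat_lit 304) (nat_lit 0) (XT.nd (nat_lit 78) (nat_lit 228) (nat_lit 0) (XT.lf (nat_lit 0) (nat_lit 3508827021) (nat_lit 0) (nat_lit 7088430028) (nat_lit 152) (nat_lit 15855940909) (nat_lit 152) (nat_lit 3) (nat_lit 152) (nat_lit 1) (nat_lit 154) (nat_lit 1) (nat_lit 307) (nat_lit 389) (nat_lit 324)) (XT.nd (nat_lit 78) (nat_lit 152) (nat_lit 0) (XT.lf (nat_lit 76) (nat_lit 5453224190) (nat_lit 0) (nat_lit 11557221421) (nat_lit 76) (nat_lit 8767671418)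 (nat_lit 152) (nat_lit 3) (nat_lit 151) (nat_lit 1) (nat_lit 152) (nat_lit 1) (nat_lit 308) (nat_lit 389) (nat_lit 323)) (XT.lf (nat_lit 0) (nat_lit 4781297717) (nat_lit 0) (nat_lit 7704090687) (nat_lit 152) (nat_lit 12636155575) (nat_lit 149) (nat_lit 3) (nat_lit 149) (nat_lit 1) (nat_lit 151) (nat_lit 1) (nat_lit 309) (nat_lit 389) (nat_lit 322)))) (XT.nd (nat_lit 78) (nat_lit 228) (nat_lit 0) (XT.lf (nat_lit 76) (nat_lit 4205653879) (nat_lit 0) (nat_lit 13364503453) (nat_lit 76) (nat_lit 6911943666) (nat_lit 149) (nat_lit 3) (nat_lit 148) (nat_lit 1) (nat_lit 149) (nat_lit 1) (nat_lit 310) (nat_lit 389) (nat_lit 321)) (XT.nd (nat_lit 78) (nat_lit 76) (nat_lit 0) (XT.lf (nat_lit 0) (nat_lit 5893786961) (nat_lit 0) (nat_lit 8280285892) (nat_lit 152) (nat_lit 9684198624) (nat_lit 146) (nat_lit 3) (nat_lit 146) (nat_lit 1) (nat_lit 148) (nat_lit 1) (nat_lit 311) (nat_lit 389) (nat_lit 320)) (XT.lf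 (nat_lit 76) (nat_lit 3033285072) (nat_lit 0) (nat_lit 14976195424) (nat_lit 76) (nat_lit 5243006304) (nat_lit 146) (nat_lit 3) (nat_lit 145) (nat_lit 1) (nat_lit 146) (nat_lit 1) (nat_lit 312) (nat_lit 389) (nat_lit 319))))) (XT.nd (nat_lit 234) (nat_lit 456) (nat_lit 0) (XT.nd (nat_lit 78) (nat_lit 228) (nat_lit 0) (XT.lf (nat_lit 0) (nat_lit 6863123455) (nat_lit 0) (nat_lit 8811731243) (nat_lit 152) (nat_lit 6984808963) (nat_lit 143) (nat_lit 3) (nat_lit 143) (nat_lit 1) (nat_lit 145) (nat_lit 1) (nat_lit 313) (nat_lit 389) (nat_lit 318)) (XT.nd (nat_lit 78) (nat_lit 152) (nat_lit 0) (XT.lf (nat_lit 76) (nat_lit 1938704071) (nat_lit 0) (nat_lit 16404009539) (nat_lit 76) (nat_lit 3742970542) (nat_lit 143) (nat_lit 3) (nat_lit 142) (nat_lit 1) (nat_lit 143) (nat_lit 1) (nat_lit 314) (nat_lit 389) (nat_lit 317)) (XT.lf (nat_lit 0) (nat_lit 7704138988) (nat_lit 0) (nat_lit 9295202895) (nat_lit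 152) (nat_lit 4522898627) (nat_lit 140) (nat_lit 3) (nat_lit 140) (nat_lit 1) (nat_lit 142) (nat_lit 1) (nat_lit 315) (nat_lit 389) (nat_lit 316)))) (XT.nd (nat_lit 156) (nat_lit 228) (nat_lit 0) (XT.nd (nat_lit 78) (nat_lit 152) (nat_lit 0) (XT.lf (nat_lit 76) (nat_lit 922745773) (nat_lit 0) (nat_lit 17659629813) (nat_lit 76) (nat_lit 2395953095) (nat_lit 140) (nat_lit 3) (nat_lit 139) (nat_lit 1) (nat_lit 140) (nat_lit 1) (nat_lit 316) (nat_lit 389) (nat_lit 315)) (XT.lf (nat_lit 0) (nat_lit 8429955810) (nat_lit 0) (nat_lit 9729080432) (nat_lit 152) (nat_lit 2283701644) (nat_lit 137) (nat_lit 3) (nat_lit 137) (nat_lit 1) (nat_lit 139) (nat_lit 1) (nat_lit 317) (nat_lit 389) (nat_lit 314))) (XT.nd (nat_lit 78) (nat_lit 76) (nat_lit 0) (XT.lf (nat_lit 76) (nat_lit 18739701871) (nat_lit 0) (nat_lit 14613767) (nat_lit 152) (nat_lit 1172934945) (nat_lit 136) (nat_lit 1) (nat_lit 135) (nat_lit 1)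 (nat_lit 137) (nat_lit 1) (nat_lit 318) (nat_lit 389) (nat_lit 313)) (XT.lf (nat_lit 0) (nat_lit 9052226514) (nat_lit 0) (nat_lit 10112978867) (nat_lit 152) (nat_lit 252883937) (nat_lit 134) (nat_lit 3) (nat_lit 134) (nat_lit 1) (nat_lit 136) (nat_lit 1) (nat_lit 319) (nat_lit 389) (nat_lit 312)))))) (XT.nd (nat_lit 546) (nat_lit 760) (nat_lit 0) (XT.nd (nat_lit 234) (nat_lit 456) (nat_lit 0) (XT.nd (nat_lit 78) (nat_lit 228) (nat_lit 0) (XT.lf (nat_lit 152) (nat_lit 18067718864) (nat_lit 0) (nat_lit 781853389) (nat_lit 76) (nat_lit 78649778) (nat_lit 133) (nat_lit 1) (nat_lit 131) (nat_lit 1) (nat_lit 132) (nat_lit 1) (nat_lit 320) (nat_lit 389) (nat_lit 311)) (XT.nd (nat_lit 78) (nat_lit 152) (nat_lit 0) (XT.lf (nat_lit 76) (nat_lit 7971141706) (nat_lit 0) (nat_lit 1635731473) (nat_lit 76) (nat_lit 8837259965) (nat_lit 131) (nat_lit 3) (nat_lit 130) (nat_lit 1) (nat_lit 131) (nat_lit 1) (nat_lit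 321) (nat_lit 389) (nat_lit 310)) (XT.lf (nat_lit 0) (nat_lit 901094910) (nat_lit 0) (nat_lit 1664867625) (nat_lit 152) (nat_lit 15412293961) (nat_lit 128) (nat_lit 3) (nat_lit 128) (nat_lit 1) (nat_lit 130) (nat_lit 1) (nat_lit 322) (nat_lit 389) (nat_lit 309)))) (XT.nd (nat_lit 156) (nat_lit 228) (nat_lit 0) (XT.nd (nat_lit 78) (nat_lit 152) (nat_lit 0) (XT.lf (nat_lit 76) (nat_lit 6733379016) (nat_lit 0) (nat_lit 3345416476) (nat_lit 76) (nat_lit 7440575974) (nat_lit 128) (nat_lit 3) (nat_lit 127) (nat_lit 1) (nat_lit 128) (nat_lit 1) (nat_lit 323) (nat_lit 389) (nat_lit 308)) (XT.lf (nat_lit 0) (nat_lit 1773086933) (nat_lit 0) (nat_lit 2396717408) (nat_lit 152) (nat_lit 12906599637) (nat_lit 125) (nat_lit 3) (nat_lit 125) (nat_lit 1) (nat_lit 127) (nat_lit 1) (nat_lit 324) (nat_lit 389) (nat_lit 307))) (XT.nd (nat_lit 78) (nat_lit 152) (nat_lit 0) (XT.lf (nat_lit 76) (nat_lit 5591556610)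 (nat_lit 0) (nat_lit 4880887287) (nat_lit 76) (nat_lit 6168992234) (nat_lit 125) (nat_lit 3) (nat_lit 124) (nat_lit 1) (nat_lit 125) (nat_lit 1) (nat_lit 325) (nat_lit 389) (nat_lit 306)) (XT.lf (nat_lit 0) (nat_lit 2549054678) (nat_lit 0) (nat_lit 3058257169) (nat_lit 152) (nat_lit 10612910014) (nat_lit 122) (nat_lit 3) (nat_lit 122) (nat_lit 1) (nat_lit 124) (nat_lit 1) (nat_lit 326) (nat_lit 389) (nat_lit 305))))) (XT.nd (nat_lit 234) (nat_lit 456) (nat_lit 0) (XT.nd (nat_lit 78) (nat_lit 228) (nat_lit 0) (XT.lf (nat_lit 76) (nat_lit 4540916657) (nat_lit 0) (nat_lit 6254582533) (nat_lit 76) (nat_lit 5012400445) (nat_lit 122) (nat_lit 3) (nat_lit 121) (nat_lit 1) (nat_lit 122) (nat_lit 1) (nat_lit 327) (nat_lit 389) (nat_lit 304)) (XT.nd (nat_lit 78) (nat_lit 76) (nat_lit 0) (XT.lf (nat_lit 0) (nat_lit 3237359979) (nat_lit 0) (nat_lit 3653130515) (nat_lit 152) (nat_lit 8516855408) (nat_lit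 119) (nat_lit 3) (nat_lit 119) (nat_lit 1) (nat_lit 121) (nat_lit 1) (nat_lit 328) (nat_lit 389) (nat_lit 303)) (XT.lf (nat_lit 76) (nat_lit 3576601065) (nat_lit 0) (nat_lit 7478294284) (nat_lit 76) (nat_lit 3961573783) (nat_lit 119) (nat_lit 3) (nat_lit 118) (nat_lit 1) (nat_lit 119) (nat_lit 1) (nat_lit 329) (nat_lit 389) (nat_lit 302)))) (XT.nd (nat_lit 156) (nat_lit 228) (nat_lit 0) (XT.nd (nat_lit 78) (nat_lit 76) (nat_lit 0) (XT.lf (nat_lit 0) (nat_lit 3845611470) (nat_lit 0) (nat_lit 4185093584) (nat_lit 152) (nat_lit 6604837134) (nat_lit 116) (nat_lit 3) (nat_lit 116) (nat_lit 1) (nat_lit 118) (nat_lit 1) (nat_lit 330) (nat_lit 389) (nat_lit 301)) (XT.lf (nat_lit 76) (nat_lit 2693736022) (nat_lit 0) (nat_lit 8563170119) (nat_lit 76) (nat_lit 3008071314) (nat_lit 116) (nat_lit 3) (nat_lit 115) (nat_lit 1) (nat_lit 116) (nat_lit 1) (nat_lit 331) (nat_lit 389) (nat_lit 300))) (XT.nd (nat_lit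 78) (nat_lit 76) (nat_lit 0) (XT.lf (nat_lit 0) (nat_lit 4380746951) (nat_lit 0) (nat_lit 4657938567) (nat_lit 152) (nat_lit 4864013098) (nat_lit 113) (nat_lit 3) (nat_lit 113) (nat_lit 1) (nat_lit 115) (nat_lit 1) (nat_lit 332) (nat_lit 389) (nat_lit 299)) (XT.lf (nat_lit 76) (nat_lit 1887496804) (nat_lit 0) (nat_lit 9519722489) (nat_lit 76) (nat_lit 2144155706) (nat_lit 113) (nat_lit 3) (nat_lit 112) (nat_lit 1) (nat_lit 113) (nat_lit 1) (nat_lit 333) (nat_lit 389) (nat_lit 298))))))) (XT.nd (nat_lit 1014) (nat_lit 1748) (nat_lit 0) (XT.nd (nat_lit 468) (nat_lit 760) (nat_lit 0) (XT.nd (nat_lit 234) (nat_lit 456) (nat_lit 0) (XT.nd (nat_lit 78) (nat_lit 228) (nat_lit 0) (XT.lf (nat_lit 0) (nat_lit 4849104326) (nat_lit 0) (nat_lit 5075434928) (nat_lit 152) (nat_lit 3282277877) (nat_lit 110) (nat_lit 3) (nat_lit 110) (nat_lit 1) (nat_lit 112) (nat_lit 1) (nat_lit 334) (nat_lit 389) (nat_lit 297))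 (XT.nd (nat_lit 78) (nat_lit 152) (nat_lit 0) (XT.lf (nat_lit 76) (nat_lit 1153156709) (nat_lit 0) (nat_lit 10357843544) (nat_lit 76) (nat_lit 1362722081) (nat_lit 110) (nat_lit 3) (nat_lit 109) (nat_lit 1) (nat_lit 110) (nat_lit 1) (nat_lit 335) (nat_lit 389) (nat_lit 296)) (XT.lf (nat_lit 0) (nat_lit 5256482961) (nat_lit 0) (nat_lit 5441284877) (nat_lit 152) (nat_lit 1848238820) (nat_lit 107) (nat_lit 3) (nat_lit 107) (nat_lit 1) (nat_lit 109) (nat_lit 1) (nat_lit 336) (nat_lit 389) (nat_lit 295)))) (XT.nd (nat_lit 78) (nat_lit 380) (nat_lit 0) (XT.lf (nat_lit 76) (nat_lit 486123288) (nat_lit 0) (nat_lit 11086823981) (nat_lit 76) (nat_lit 657236173) (nat_lit 107) (nat_lit 3) (nat_lit 106) (nat_lit 1) (nat_lit 107) (nat_lit 1) (nat_lit 337) (nat_lit 389) (nat_lit 294)) (XT.nd (nat_lit 78) (nat_lit 228) (nat_lit 0) (XT.lf (nat_lit 0) (nat_lit 5608197034) (nat_lit 0) (nat_lit 5759090230) (nat_lit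 152) (nat_lit 551189366) (nat_lit 104) (nat_lit 3) (nat_lit 104) (nat_lit 1) (nat_lit 106) (nat_lit 1) (nat_lit 338) (nat_lit 389) (nat_lit 293)) (XT.lf (nat_lit 152) (nat_lit 11503069073) (nat_lit 0) (nat_lit 97637357) (nat_lit 76) (nat_lit 18144730) (nat_lit 103) (nat_lit 1) (nat_lit 101) (nat_lit 1) (nat_lit 102) (nat_lit 1) (nat_lit 339) (nat_lit 389) (nat_lit 292))))) (XT.nd (nat_lit 234) (nat_lit 456) (nat_lit 0) (XT.nd (nat_lit 78) (nat_lit 228) (nat_lit 0) (XT.lf (nat_lit 76) (nat_lit 5279720934) (nat_lit 0) (nat_lit 639383743) (nat_lit 76) (nat_lit 5402927215) (nat_lit 101) (nat_lit 3) (nat_lit 100) (nat_lit 1) (nat_lit 101) (nat_lit 1) (nat_lit 340) (nat_lit 389) (nat_lit 291)) (XT.nd (nat_lit 78) (nat_lit 76) (nat_lit 0) (XT.lf (nat_lit 0) (nat_lit 562153101) (nat_lit 0) (nat_lit 670800615) (nat_lit 152) (nat_lit 9803688272) (nat_lit 98) (nat_lit 3) (nat_lit 98) (nat_lit 1) (nat_lit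 100) (nat_lit 1) (nat_lit 341) (nat_lit 389) (nat_lit 290)) (XT.lf (nat_lit 76) (nat_lit 4463919493) (nat_lit 0) (nat_lit 1726776317) (nat_lit 76) (nat_lit 4564519043) (nat_lit 98) (nat_lit 3) (nat_lit 97) (nat_lit 1) (nat_lit 98) (nat_lit 1) (nat_lit 342) (nat_lit 389) (nat_lit 289)))) (XT.nd (nat_lit 156) (nat_lit 228) (nat_lit 0) (XT.nd (nat_lit 78) (nat_lit 76) (nat_lit 0) (XT.lf (nat_lit 0) (nat_lit 1081788351) (nat_lit 0) (nat_lit 1170500476) (nat_lit 152) (nat_lit 8231478558) (nat_lit 95) (nat_lit 3) (nat_lit 95) (nat_lit 1) (nat_lit 97) (nat_lit 1) (nat_lit 343) (nat_lit 389) (nat_lit 288)) (XT.lf (nat_lit 76) (nat_lit 3716460322) (nat_lit 0) (nat_lit 2701878368) (nat_lit 76) (nat_lit 3798601178) (nat_lit 95) (nat_lit 3) (nat_lit 94) (nat_lit 1) (nat_lit 95) (nat_lit 1) (nat_lit 344) (nat_lit 389) (nat_lit 287))) (XT.nd (nat_lit 78) (nat_lit 76) (nat_lit 0) (XT.lf (nat_lit 0) (nat_lit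 1546121962) (nat_lit 0) (nat_lit 1618556580) (nat_lit 152) (nat_lit 6794069458) (nat_lit 92) (nat_lit 3) (nat_lit 92) (nat_lit 1) (nat_lit 94) (nat_lit 1) (nat_lit 345) (nat_lit 389) (nat_lit 286)) (XT.lf (nat_lit 76) (nat_lit 3032734615) (nat_lit 0) (nat_lit 3573218140) (nat_lit 76) (nat_lit 3099803705) (nat_lit 92) (nat_lit 3) (nat_lit 91) (nat_lit 1) (nat_lit 92) (nat_lit 1) (nat_lit 346) (nat_lit 389) (nat_lit 285)))))) (XT.nd (nat_lit 546) (nat_lit 912) (nat_lit 0) (XT.nd (nat_lit 234) (nat_lit 456) (nat_lit 0) (XT.nd (nat_lit 78) (nat_lit 228) (nat_lit 0) (XT.lf (nat_lit 0) (nat_lit 1959575680) (nat_lit 0) (nat_lit 2018719499) (nat_lit 152) (nat_lit 5481872797) (nat_lit 89) (nat_lit 3) (nat_lit 89) (nat_lit 1) (nat_lit 91) (nat_lit 1) (nat_lit 347) (nat_lit 389) (nat_lit 284)) (XT.nd (nat_lit 78) (nat_lit 152) (nat_lit 0) (XT.lf (nat_lit 76) (nat_lit 2408379266) (nat_lit 0) (nat_lit 4348768065)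 (nat_lit 76) (nat_lit 2463142062) (nat_lit 89) (nat_lit 3) (nat_lit 88) (nat_lit 1) (nat_lit 89) (nat_lit 1) (nat_lit 348) (nat_lit 389) (nat_lit 283)) (XT.lf (nat_lit 0) (nat_lit 2326241747) (nat_lit 0) (nat_lit 2374533454) (nat_lit 152) (nat_lit 4285909625) (nat_lit 86) (nat_lit 3) (nat_lit 86) (nat_lit 1) (nat_lit 88) (nat_lit 1) (nat_lit 349) (nat_lit 389) (nat_lit 282)))) (XT.nd (nat_lit 156) (nat_lit 228) (nat_lit 0) (XT.nd (nat_lit 78) (nat_lit 152) (nat_lit 0) (XT.lf (nat_lit 76) (nat_lit 1839272535) (nat_lit 0) (nat_lit 5035974928) (nat_lit 76) (nat_lit 1883987078) (nat_lit 86) (nat_lit 3) (nat_lit 85) (nat_lit 1) (nat_lit 86) (nat_lit 1) (nat_lit 350) (nat_lit 389) (nat_lit 281)) (XT.lf (nat_lit 0) (nat_lit 2649908959) (nat_lit 0) (nat_lit 2689339773) (nat_lit 152) (nat_lit 3197776691) (nat_lit 83) (nat_lit 3) (nat_lit 83) (nat_lit 1) (nat_lit 85) (nat_lit 1) (nat_lit 351) (nat_lit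 389) (nat_lit 280))) (XT.nd (nat_lit 78) (nat_lit 152) (nat_lit 0) (XT.lf (nat_lit 76) (nat_lit 1321527896) (nat_lit 0) (nat_lit 5641789210) (nat_lit 76) (nat_lit 1358037909) (nat_lit 83) (nat_lit 3) (nat_lit 82) (nat_lit 1) (nat_lit 83) (nat_lit 1) (nat_lit 352) (nat_lit 389) (nat_lit 279)) (XT.lf (nat_lit 0) (nat_lit 2934086201) (nat_lit 0) (nat_lit 2966281980) (nat_lit 152) (nat_lit 2209614052) (nat_lit 80) (nat_lit 3) (nat_lit 80) (nat_lit 1) (nat_lit 82) (nat_lit 1) (nat_lit 353) (nat_lit 389) (nat_lit 278))))) (XT.nd (nat_lit 234) (nat_lit 608) (nat_lit 0) (XT.nd (nat_lit 78) (nat_lit 228) (nat_lit 0) (XT.lf (nat_lit 76) (nat_lit 851486575) (nat_lit 0) (nat_lit 6172693484) (nat_lit 76) (nat_lit 881297481) (nat_lit 80) (nat_lit 3) (nat_lit 79) (nat_lit 1) (nat_lit 80) (nat_lit 1) (nat_lit 354) (nat_lit 389) (nat_lit 277)) (XT.nd (nat_lit 78) (nat_lit 76) (nat_lit 0) (XT.lf (nat_lit 0) (nat_lit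 3182023798) (nat_lit 0) (nat_lit 3208312075) (nat_lit 152) (nat_lit 1314073932) (nat_lit 77) (nat_lit 3) (nat_lit 77) (nat_lit 1) (nat_lit 79) (nat_lit 1) (nat_lit 355) (nat_lit 389) (nat_lit 276)) (XT.lf (nat_lit 76) (nat_lit 425709155) (nat_lit 0) (nat_lit 6634729741) (nat_lit 76) (nat_lit 450050152) (nat_lit 77) (nat_lit 3) (nat_lit 76) (nat_lit 1) (nat_lit 77) (nat_lit 1) (nat_lit 356) (nat_lit 389) (nat_lit 275)))) (XT.nd (nat_lit 156) (nat_lit 380) (nat_lit 0) (XT.nd (nat_lit 78) (nat_lit 76) (nat_lit 0) (XT.lf (nat_lit 0) (nat_lit 3396732927) (nat_lit 0) (nat_lit 3418197651) (nat_lit 152) (nat_lit 504290864) (nat_lit 74) (nat_lit 3) (nat_lit 74) (nat_lit 1) (nat_lit 76) (nat_lit 1) (nat_lit 357) (nat_lit 389) (nat_lit 274)) (XT.lf (nat_lit 76) (nat_lit 40966571) (nat_lit 0) (nat_lit 7033525594) (nat_lit 76) (nat_lit 60841316) (nat_lit 74) (nat_lit 3) (nat_lit 73) (nat_lit 1) (nat_lit 74)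 (nat_lit 1) (nat_lit 358) (nat_lit 389) (nat_lit 273))) (XT.nd (nat_lit 78) (nat_lit 152) (nat_lit 0) (XT.lf (nat_lit 76) (nat_lit 3351026629) (nat_lit 0) (nat_lit 233624245) (nat_lit 76) (nat_lit 3368552858) (nat_lit 71) (nat_lit 3) (nat_lit 70) (nat_lit 1) (nat_lit 71) (nat_lit 1) (nat_lit 359) (nat_lit 389) (nat_lit 272)) (XT.lf (nat_lit 0) (nat_lit 294807247) (nat_lit 0) (nat_lit 310262476) (nat_lit 152) (nat_lit 6172986366) (nat_lit 68) (nat_lit 3) (nat_lit 68) (nat_lit 1) (nat_lit 70) (nat_lit 1) (nat_lit 360) (nat_lit 389) (nat_lit 271))))))))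
noncomputable def ec144 : XT := (XT.nd (nat_lit 2028) (nat_lit 2128) (nat_lit 0) (XT.nd (nat_lit 1014) (nat_lit 1596) (nat_lit 0) (XT.nd (nat_lit 468) (nat_lit 760) (nat_lit 0) (XT.nd (nat_lit 234) (nat_lit 380) (nat_lit 0) (XT.nd (nat_lit 78) (nat_lit 228) (nat_lit 0) (XT.lf (nat_lit 76) (nat_lit 2839237653) (nat_lit 0) (nat_lit 912427492) (nat_lit 76) (nat_lit 2853548050) (nat_lit 68) (nat_lit 3) (nat_lit 67) (nat_lit 1) (nat_lit 68) (nat_lit 1) (nat_lit 361) (nat_lit 389) (nat_lit 270)) (XT.nd (nat_lit 78) (nat_lit 76) (nat_lit 0) (XT.lf (nat_lit 0) (nat_lit 614411759) (nat_lit 0) (nat_lit 627031157) (nat_lit 152) (nat_lit 5197166450) (nat_lit 65) (nat_lit 3) (nat_lit 65) (nat_lit 1) (nat_lit 67) (nat_lit 1) (nat_lit 362) (nat_lit 389) (nat_lit 269)) (XT.lf (nat_lit 76) (nat_lit 2370912712) (nat_lit 0) (nat_lit 1521213588) (nat_lit 76) (nat_lit 2382597340) (nat_lit 65) (nat_lit 3) (nat_lit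 64) (nat_lit 1) (nat_lit 65) (nat_lit 1) (nat_lit 363) (nat_lit 389) (nat_lit 268)))) (XT.nd (nat_lit 78) (nat_lit 228) (nat_lit 0) (XT.lf (nat_lit 0) (nat_lit 900430120) (nat_lit 0) (nat_lit 910734025) (nat_lit 152) (nat_lit 4305080973) (nat_lit 62) (nat_lit 3) (nat_lit 62) (nat_lit 1) (nat_lit 64) (nat_lit 1) (nat_lit 364) (nat_lit 389) (nat_lit 267)) (XT.nd (nat_lit 78) (nat_lit 152) (nat_lit 0) (XT.lf (nat_lit 76) (nat_lit 1942973280) (nat_lit 0) (nat_lit 2065362617) (nat_lit 76) (nat_lit 1952513932) (nat_lit 62) (nat_lit 3) (nat_lit 61) (nat_lit 1) (nat_lit 62) (nat_lit 1) (nat_lit 365) (nat_lit 389) (nat_lit 266)) (XT.lf (nat_lit 0) (nat_lit 1155484140) (nat_lit 0) (nat_lit 1163897414) (nat_lit 152) (nat_lit 3490717214) (nat_lit 59) (nat_lit 3) (nat_lit 59) (nat_lit 1) (nat_lit 61) (nat_lit 1) (nat_lit 366) (nat_lit 389) (nat_lit 265))))) (XT.nd (nat_lit 234) (nat_lit 456) (nat_lit 0) (XT.nd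 (nat_lit 78) (nat_lit 228) (nat_lit 0) (XT.lf (nat_lit 76) (nat_lit 1552535869) (nat_lit 0) (nat_lit 2549889880) (nat_lit 76) (nat_lit 1560325938) (nat_lit 59) (nat_lit 3) (nat_lit 58) (nat_lit 1) (nat_lit 59) (nat_lit 1) (nat_lit 367) (nat_lit 389) (nat_lit 264)) (XT.nd (nat_lit 78) (nat_lit 76) (nat_lit 0) (XT.lf (nat_lit 0) (nat_lit 1382011782) (nat_lit 0) (nat_lit 1388881331) (nat_lit 152) (nat_lit 2748456749) (nat_lit 56) (nat_lit 3) (nat_lit 56) (nat_lit 1) (nat_lit 58) (nat_lit 1) (nat_lit 368) (nat_lit 389) (nat_lit 263)) (XT.lf (nat_lit 76) (nat_lit 1196901345) (nat_lit 0) (nat_lit 2979468572) (nat_lit 76) (nat_lit 1203262038) (nat_lit 56) (nat_lit 3) (nat_lit 55) (nat_lit 1) (nat_lit 56) (nat_lit 1) (nat_lit 369) (nat_lit 389) (nat_lit 262)))) (XT.nd (nat_lit 156) (nat_lit 228) (nat_lit 0) (XT.nd (nat_lit 78) (nat_lit 76) (nat_lit 0) (XT.lf (nat_lit 0) (nat_lit 1582279699) (nat_lit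 0) (nat_lit 1587888776) (nat_lit 152) (nat_lit 2073051304) (nat_lit 53) (nat_lit 3) (nat_lit 53) (nat_lit 1) (nat_lit 55) (nat_lit 1) (nat_lit 370) (nat_lit 389) (nat_lit 261)) (XT.lf (nat_lit 76) (nat_lit 873544588) (nat_lit 0) (nat_lit 3358451209) (nat_lit 76) (nat_lit 878738177) (nat_lit 53) (nat_lit 3) (nat_lit 52) (nat_lit 1) (nat_lit 53) (nat_lit 1) (nat_lit 371) (nat_lit 389) (nat_lit 260))) (XT.nd (nat_lit 78) (nat_lit 76) (nat_lit 0) (XT.lf (nat_lit 0) (nat_lit 1758394859) (nat_lit 0) (nat_lit 1762974744) (nat_lit 152) (nat_lit 1459599953) (nat_lit 50) (nat_lit 3) (nat_lit 50) (nat_lit 1) (nat_lit 52) (nat_lit 1) (nat_lit 372) (nat_lit 389) (nat_lit 259)) (XT.lf (nat_lit 76) (nat_lit 580104551) (nat_lit 0) (nat_lit 3690889843) (nat_lit 76) (nat_lit 584345185) (nat_lit 50) (nat_lit 3) (nat_lit 49) (nat_lit 1) (nat_lit 50) (nat_lit 1) (nat_lit 373) (nat_lit 389) (nat_lit 258)))))) (XT.nd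 (nat_lit 468) (nat_lit 760) (nat_lit 0) (XT.nd (nat_lit 234) (nat_lit 456) (nat_lit 0) (XT.nd (nat_lit 78) (nat_lit 228) (nat_lit 0) (XT.lf (nat_lit 0) (nat_lit 1912315352) (nat_lit 0) (nat_lit 1916054889) (nat_lit 152) (nat_lit 903527609) (nat_lit 47) (nat_lit 3) (nat_lit 47) (nat_lit 1) (nat_lit 49) (nat_lit 1) (nat_lit 374) (nat_lit 389) (nat_lit 257)) (XT.nd (nat_lit 78) (nat_lit 152) (nat_lit 0) (XT.lf (nat_lit 76) (nat_lit 314374728) (nat_lit 0) (nat_lit 3980555134) (nat_lit 76) (nat_lit 317837262) (nat_lit 47) (nat_lit 3) (nat_lit 46) (nat_lit 1) (nat_lit 47) (nat_lit 1) (nat_lit 375) (nat_lit 389) (nat_lit 256)) (XT.lf (nat_lit 0) (nat_lit 2045860438) (nat_lit 0) (nat_lit 2048913819) (nat_lit 152) (nat_lit 400564737) (nat_lit 44) (nat_lit 3) (nat_lit 44) (nat_lit 1) (nat_lit 46) (nat_lit 1) (nat_lit 376) (nat_lit 389) (nat_lit 255)))) (XT.nd (nat_lit 78) (nat_lit 380) (nat_lit 0) (XT.lf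 (nat_lit 76) (nat_lit 74294046) (nat_lit 0) (nat_lit 4230954303) (nat_lit 76) (nat_lit 77121250) (nat_lit 44) (nat_lit 3) (nat_lit 43) (nat_lit 1) (nat_lit 44) (nat_lit 1) (nat_lit 377) (nat_lit 389) (nat_lit 254)) (XT.nd (nat_lit 78) (nat_lit 152) (nat_lit 0) (XT.lf (nat_lit 76) (nat_lit 2106545959) (nat_lit 0) (nat_lit 55033158) (nat_lit 76) (nat_lit 2109039085) (nat_lit 41) (nat_lit 3) (nat_lit 40) (nat_lit 1) (nat_lit 41) (nat_lit 1) (nat_lit 378) (nat_lit 389) (nat_lit 253)) (XT.lf (nat_lit 0) (nat_lit 142118296) (nat_lit 0) (nat_lit 144316819) (nat_lit 152) (nat_lit 3876646740) (nat_lit 38) (nat_lit 3) (nat_lit 38) (nat_lit 1) (nat_lit 40) (nat_lit 1) (nat_lit 379) (nat_lit 389) (nat_lit 252))))) (XT.nd (nat_lit 234) (nat_lit 456) (nat_lit 0) (XT.nd (nat_lit 78) (nat_lit 228) (nat_lit 0) (XT.lf (nat_lit 76) (nat_lit 1788947172) (nat_lit 0) (nat_lit 476962283) (nat_lit 76) (nat_lit 1790982842)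 (nat_lit 38) (nat_lit 3) (nat_lit 37) (nat_lit 1) (nat_lit 38) (nat_lit 1) (nat_lit 380) (nat_lit 389) (nat_lit 251)) (XT.nd (nat_lit 78) (nat_lit 76) (nat_lit 0) (XT.lf (nat_lit 0) (nat_lit 340149466) (nat_lit 0) (nat_lit 341944589) (nat_lit 152) (nat_lit 3272505871) (nat_lit 35) (nat_lit 3) (nat_lit 35) (nat_lit 1) (nat_lit 37) (nat_lit 1) (nat_lit 381) (nat_lit 389) (nat_lit 250)) (XT.lf (nat_lit 76) (nat_lit 1498347151) (nat_lit 0) (nat_lit 855555798) (nat_lit 76) (nat_lit 1500009303) (nat_lit 35) (nat_lit 3) (nat_lit 34) (nat_lit 1) (nat_lit 35) (nat_lit 1) (nat_lit 382) (nat_lit 389) (nat_lit 249)))) (XT.nd (nat_lit 156) (nat_lit 228) (nat_lit 0) (XT.nd (nat_lit 78) (nat_lit 76) (nat_lit 0) (XT.lf (nat_lit 0) (nat_lit 517518293) (nat_lit 0) (nat_lit 518984035) (nat_lit 152) (nat_lit 2720104995) (nat_lit 32) (nat_lit 3) (nat_lit 32) (nat_lit 1) (nat_lit 34) (nat_lit 1) (nat_lit 383) (nat_lit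 389) (nat_lit 248)) (XT.lf (nat_lit 76) (nat_lit 1232814971) (nat_lit 0) (nat_lit 1194147980) (nat_lit 76) (nat_lit 1234172140) (nat_lit 32) (nat_lit 3) (nat_lit 31) (nat_lit 1) (nat_lit 32) (nat_lit 1) (nat_lit 384) (nat_lit 389) (nat_lit 247))) (XT.nd (nat_lit 78) (nat_lit 76) (nat_lit 0) (XT.lf (nat_lit 0) (nat_lit 675826361) (nat_lit 0) (nat_lit 677023159) (nat_lit 152) (nat_lit 2215724151) (nat_lit 29) (nat_lit 3) (nat_lit 29) (nat_lit 1) (nat_lit 31) (nat_lit 1) (nat_lit 385) (nat_lit 389) (nat_lit 246)) (XT.lf (nat_lit 76) (nat_lit 990546034) (nat_lit 0) (nat_lit 1495845212) (nat_lit 76) (nat_lit 991654180) (nat_lit 29) (nat_lit 3) (nat_lit 28) (nat_lit 1) (nat_lit 29) (nat_lit 1) (nat_lit 386) (nat_lit 389) (nat_lit 245))))))) (XT.nd (nat_lit 1014) (nat_lit 532) (nat_lit 0) (XT.nd (nat_lit 468) (nat_lit 912) (nat_lit 0) (XT.nd (nat_lit 234) (nat_lit 304) (nat_lit 0) (XT.nd (nat_lit 78)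 (nat_lit 228) (nat_lit 0) (XT.lf (nat_lit 0) (nat_lit 816564723) (nat_lit 0) (nat_lit 817541924) (nat_lit 152) (nat_lit 1755888915) (nat_lit 26) (nat_lit 3) (nat_lit 26) (nat_lit 1) (nat_lit 28) (nat_lit 1) (nat_lit 387) (nat_lit 389) (nat_lit 244)) (XT.nd (nat_lit 78) (nat_lit 152) (nat_lit 0) (XT.lf (nat_lit 76) (nat_lit 769854351) (nat_lit 0) (nat_lit 1763540536) (nat_lit 76) (nat_lit 770759167) (nat_lit 26) (nat_lit 3) (nat_lit 25) (nat_lit 1) (nat_lit 26) (nat_lit 1) (nat_lit 388) (nat_lit 389) (nat_lit 243)) (XT.lf (nat_lit 0) (nat_lit 941121126) (nat_lit 0) (nat_lit 941919023) (nat_lit 152) (nat_lit 1337355032) (nat_lit 23) (nat_lit 3) (nat_lit 23) (nat_lit 1) (nat_lit 25) (nat_lit 1) (nat_lit 389) (nat_lit 389) (nat_lit 242)))) (XT.nd (nat_lit 78) (nat_lit 228) (nat_lit 0) (XT.lf (nat_lit 76) (nat_lit 569165247) (nat_lit 0) (nat_lit 1999927320) (nat_lit 76) (nat_lit 569904041) (nat_lit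 23) (nat_lit 3) (nat_lit 22) (nat_lit 1) (nat_lit 23) (nat_lit 1) (nat_lit 390) (nat_lit 389) (nat_lit 241)) (XT.nd (nat_lit 78) (nat_lit 76) (nat_lit 0) (XT.lf (nat_lit 0) (nat_lit 1050786755) (nat_lit 0) (nat_lit 1051438249) (nat_lit 152) (nat_lit 957093979) (nat_lit 20) (nat_lit 3) (nat_lit 20) (nat_lit 1) (nat_lit 22) (nat_lit 1) (nat_lit 391) (nat_lit 389) (nat_lit 240)) (XT.lf (nat_lit 76) (nat_lit 387008481) (nat_lit 0) (nat_lit 2207512094) (nat_lit 76) (nat_lit 387611716) (nat_lit 20) (nat_lit 3) (nat_lit 19) (nat_lit 1) (nat_lit 20) (nat_lit 1) (nat_lit 392) (nat_lit 389) (nat_lit 239))))) (XT.nd (nat_lit 234) (nat_lit 532) (nat_lit 0) (XT.nd (nat_lit 78) (nat_lit 228) (nat_lit 0) (XT.lf (nat_lit 0) (nat_lit 1146762562) (nat_lit 0) (nat_lit 1147294515) (nat_lit 152) (nat_lit 612279386) (nat_lit 17) (nat_lit 3) (nat_lit 17) (nat_lit 1) (nat_lit 19) (nat_lit 1) (nat_lit 393) (nat_lit 389)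 (nat_lit 238)) (XT.nd (nat_lit 78) (nat_lit 152) (nat_lit 0) (XT.lf (nat_lit 76) (nat_lit 222011756) (nat_lit 0) (nat_lit 2388626611) (nat_lit 76) (nat_lit 222504305) (nat_lit 17) (nat_lit 3) (nat_lit 16) (nat_lit 1) (nat_lit 17) (nat_lit 1) (nat_lit 394) (nat_lit 389) (nat_lit 237)) (XT.lf (nat_lit 0) (nat_lit 1230165173) (nat_lit 0) (nat_lit 1230599520) (nat_lit 152) (nat_lit 300274278) (nat_lit 14) (nat_lit 3) (nat_lit 14) (nat_lit 1) (nat_lit 16) (nat_lit 1) (nat_lit 395) (nat_lit 389) (nat_lit 236)))) (XT.nd (nat_lit 156) (nat_lit 304) (nat_lit 0) (XT.nd (nat_lit 78) (nat_lit 152) (nat_lit 0) (XT.lf (nat_lit 76) (nat_lit 72894602) (nat_lit 0) (nat_lit 2545439163) (nat_lit 76) (nat_lit 73296775) (nat_lit 14) (nat_lit 3) (nat_lit 13) (nat_lit 1) (nat_lit 14) (nat_lit 1) (nat_lit 396) (nat_lit 389) (nat_lit 235)) (XT.lf (nat_lit 0) (nat_lit 1302032429) (nat_lit 0) (nat_lit 1302387079) (nat_lit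 152) (nat_lit 18619088) (nat_lit 11) (nat_lit 3) (nat_lit 11) (nat_lit 1) (nat_lit 13) (nat_lit 1) (nat_lit 397) (nat_lit 389) (nat_lit 234))) (XT.nd (nat_lit 78) (nat_lit 76) (nat_lit 0) (XT.lf (nat_lit 0) (nat_lit 62222934) (nat_lit 0) (nat_lit 62535677) (nat_lit 152) (nat_lit 2432263783) (nat_lit 8) (nat_lit 3) (nat_lit 8) (nat_lit 1) (nat_lit 10) (nat_lit 1) (nat_lit 398) (nat_lit 389) (nat_lit 233)) (XT.lf (nat_lit 76) (nat_lit 1124369476) (nat_lit 0) (nat_lit 242749084) (nat_lit 76) (nat_lit 1124659053) (nat_lit 8) (nat_lit 3) (nat_lit 7) (nat_lit 1) (nat_lit 8) (nat_lit 1) (nat_lit 399) (nat_lit 389) (nat_lit 232)))))) (XT.nd (nat_lit 546) (nat_lit 0) (nat_lit 0) (XT.nd (nat_lit 234) (nat_lit 152) (nat_lit 0) (XT.nd (nat_lit 78) (nat_lit 228) (nat_lit 0) (XT.lf (nat_lit 0) (nat_lit 185124126) (nat_lit 0) (nat_lit 185379484) (nat_lit 152) (nat_lit 2058462604) (nat_lit 5) (nat_lit 3) (nat_lit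 5) (nat_lit 1) (nat_lit 7) (nat_lit 1) (nat_lit 400) (nat_lit 389) (nat_lit 231)) (XT.nd (nat_lit 78) (nat_lit 152) (nat_lit 0) (XT.lf (nat_lit 76) (nat_lit 944454085) (nat_lit 0) (nat_lit 477957241) (nat_lit 76) (nat_lit 944690528) (nat_lit 5) (nat_lit 3) (nat_lit 4) (nat_lit 1) (nat_lit 5) (nat_lit 1) (nat_lit 401) (nat_lit 389) (nat_lit 230)) (XT.lf (nat_lit 0) (nat_lit 295275749) (nat_lit 0) (nat_lit 295484252) (nat_lit 152) (nat_lit 1716592802) (nat_lit 2) (nat_lit 3) (nat_lit 2) (nat_lit 1) (nat_lit 4) (nat_lit 1) (nat_lit 402) (nat_lit 389) (nat_lit 229)))) (XT.nd (nat_lit 156) (nat_lit 0) (nat_lit 0) (XT.nd (nat_lit 78) (nat_lit 76) (nat_lit 0) (XT.lf (nat_lit 76) (nat_lit 780026011) (nat_lit 0) (nat_lit 688447819) (nat_lit 76) (nat_lit 780219069) (nat_lit 2) (nat_lit 3) (nat_lit 1) (nat_lit 1) (nat_lit 2) (nat_lit 1) (nat_lit 403) (nat_lit 389) (nat_lit 228)) (XT.lf (nat_lit 0) (nat_lit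 46630015561) (nat_lit 0) (nat_lit 0) (nat_lit 0) (nat_lit 0) (nat_lit 0) (nat_lit 0) (nat_lit 1) (nat_lit 0) (nat_lit 1) (nat_lit 0) (nat_lit 404) (nat_lit 389) (nat_lit 227))) (XT.nd (nat_lit 78) (nat_lit 0) (nat_lit 0) (XT.lf (nat_lit 0) (nat_lit 46630002266) (nat_lit 0) (nat_lit 0) (nat_lit 0) (nat_lit 0) (nat_lit 0) (nat_lit 0) (nat_lit 1) (nat_lit 0) (nat_lit 1) (nat_lit 0) (nat_lit 405) (nat_lit 389) (nat_lit 226)) (XT.lf (nat_lit 0) (nat_lit 46629989956) (nat_lit 0) (nat_lit 0) (nat_lit 0) (nat_lit 0) (nat_lit 0) (nat_lit 0) (nat_lit 1) (nat_lit 0) (nat_lit 1) (nat_lit 0) (nat_lit 406) (nat_lit 389) (nat_lit 225))))) (XT.nd (nat_lit 234) (nat_lit 0) (nat_lit 0) (XT.nd (nat_lit 78) (nat_lit 0) (nat_lit 0) (XT.lf (nat_lit 0) (nat_lit 46629978558) (nat_lit 0) (nat_lit 0) (nat_lit 0) (nat_lit 0) (nat_lit 0) (nat_lit 0) (nat_lit 1) (nat_lit 0) (nat_lit 1) (nat_lit 0) (nat_lit 407) (nat_lit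 389) (nat_lit 224)) (XT.nd (nat_lit 78) (nat_lit 0) (nat_lit 0) (XT.lf (nat_lit 0) (nat_lit 46629968004) (nat_lit 0) (nat_lit 0) (nat_lit 0) (nat_lit 0) (nat_lit 0) (nat_lit 0) (nat_lit 1) (nat_lit 0) (nat_lit 1) (nat_lit 0) (nat_lit 408) (nat_lit 389) (nat_lit 223)) (XT.lf (nat_lit 0) (nat_lit 46629958232) (nat_lit 0) (nat_lit 0) (nat_lit 0) (nat_lit 0) (nat_lit 0) (nat_lit 0) (nat_lit 1) (nat_lit 0) (nat_lit 1) (nat_lit 0) (nat_lit 409) (nat_lit 389) (nat_lit 222)))) (XT.nd (nat_lit 156) (nat_lit 0) (nat_lit 0) (XT.nd (nat_lit 78) (nat_lit 0) (nat_lit 0) (XT.lf (nat_lit 0) (nat_lit 46629949184) (nat_lit 0) (nat_lit 0) (nat_lit 0) (nat_lit 0) (nat_lit 0) (nat_lit 0) (nat_lit 1) (nat_lit 0) (nat_lit 1) (nat_lit 0) (nat_lit 410) (nat_lit 389) (nat_lit 221)) (XT.lf (nat_lit 0) (nat_lit 46629940806) (nat_lit 0) (nat_lit 0) (nat_lit 0) (nat_lit 0) (nat_lit 0) (nat_lit 0) (nat_lit 1) (nat_lit 0) (nat_lit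 1) (nat_lit 0) (nat_lit 411) (nat_lit 389) (nat_lit 220))) (XT.nd (nat_lit 78) (nat_lit 0) (nat_lit 0) (XT.lf (nat_lit 0) (nat_lit 46629933048) (nat_lit 0) (nat_lit 0) (nat_lit 0) (nat_lit 0) (nat_lit 0) (nat_lit 0) (nat_lit 1) (nat_lit 0) (nat_lit 1) (nat_lit 0) (nat_lit 412) (nat_lit 389) (nat_lit 219)) (XT.lf (nat_lit 0) (nat_lit 46629925866) (nat_lit 0) (nat_lit 0) (nat_lit 0) (nat_lit 0) (nat_lit 0) (nat_lit 0) (nat_lit 1) (nat_lit 0) (nat_lit 1) (nat_lit 0) (nat_lit 413) (nat_lit 389) (nat_lit 218))))))))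
noncomputable def ec145 : XT := (XT.nd (nat_lit 41262) (nat_lit 0) (nat_lit 13604) (XT.nd (nat_lit 40248) (nat_lit 0) (nat_lit 17632) (XT.nd (nat_lit 39702) (nat_lit 0) (nat_lit 21280) (XT.nd (nat_lit 234) (nat_lit 0) (nat_lit 0) (XT.nd (nat_lit 78) (nat_lit 0) (nat_lit 0) (XT.lf (nat_lit 0) (nat_lit 46629919215) (nat_lit 0) (nat_lit 0) (nat_lit 0) (nat_lit 0) (nat_lit 0) (nat_lit 0) (nat_lit 1) (nat_lit 0) (nat_lit 1) (nat_lit 0) (nat_lit 414) (nat_lit 389) (nat_lit 217)) (XT.nd (nat_lit 78) (nat_lit 0) (nat_lit 0) (XT.lf (nat_lit 0) (nat_lit 46629913057) (nat_lit 0) (nat_lit 0) (nat_lit 0) (nat_lit 0) (nat_lit 0) (nat_lit 0) (nat_lit 1) (nat_lit 0) (nat_lit 1) (nat_lit 0) (nat_lit 415) (nat_lit 389) (nat_lit 216)) (XT.lf (nat_lit 0) (nat_lit 46629907355) (nat_lit 0) (nat_lit 0) (nat_lit 0) (nat_lit 0) (nat_lit 0) (nat_lit 0) (nat_lit 1) (nat_lit 0) (nat_lit 1) (nat_lit 0) (nat_lit 416) (nat_lit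 389) (nat_lit 215)))) (XT.nd (nat_lit 39312) (nat_lit 0) (nat_lit 22192) (XT.lf (nat_lit 0) (nat_lit 46629902075) (nat_lit 0) (nat_lit 0) (nat_lit 0) (nat_lit 0) (nat_lit 0) (nat_lit 0) (nat_lit 1) (nat_lit 0) (nat_lit 1) (nat_lit 0) (nat_lit 417) (nat_lit 389) (nat_lit 214)) (XT.nd (nat_lit 78) (nat_lit 0) (nat_lit 76) (XT.lf (nat_lit 836) (nat_lit 25202141946) (nat_lit 0) (nat_lit 44746345096) (nat_lit 836) (nat_lit 25202141946) (nat_lit 303) (nat_lit 1) (nat_lit 292) (nat_lit 0) (nat_lit 303) (nat_lit 0) (nat_lit 240) (nat_lit 390) (nat_lit 390)) (XT.lf (nat_lit 836) (nat_lit 9401172251) (nat_lit 0) (nat_lit 87850636979) (nat_lit 760) (nat_lit 85917629463) (nat_lit 304) (nat_lit 1) (nat_lit 293) (nat_lit 1) (nat_lit 303) (nat_lit 1) (nat_lit 241) (nat_lit 390) (nat_lit 389))))) (XT.nd (nat_lit 234) (nat_lit 988) (nat_lit 0) (XT.nd (nat_lit 78) (nat_lit 0) (nat_lit 76) (XT.lf (nat_lit 836)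 (nat_lit 86344340698) (nat_lit 76) (nat_lit 58833601197) (nat_lit 0) (nat_lit 31202658315) (nat_lit 304) (nat_lit 1) (nat_lit 294) (nat_lit 1) (nat_lit 293) (nat_lit 1) (nat_lit 242) (nat_lit 390) (nat_lit 388)) (XT.nd (nat_lit 78) (nat_lit 0) (nat_lit 76) (XT.lf (nat_lit 836) (nat_lit 74608583794) (nat_lit 76) (nat_lit 24656754465) (nat_lit 0) (nat_lit 70666154166) (nat_lit 305) (nat_lit 1) (nat_lit 295) (nat_lit 1) (nat_lit 294) (nat_lit 1) (nat_lit 243) (nat_lit 390) (nat_lit 387)) (XT.lf (nat_lit 836) (nat_lit 55216695009) (nat_lit 0) (nat_lit 103307826381) (nat_lit 760) (nat_lit 5281081324) (nat_lit 306) (nat_lit 1) (nat_lit 295) (nat_lit 1) (nat_lit 305) (nat_lit 1) (nat_lit 244) (nat_lit 390) (nat_lit 386)))) (XT.nd (nat_lit 156) (nat_lit 1216) (nat_lit 0) (XT.nd (nat_lit 78) (nat_lit 0) (nat_lit 0) (XT.lf (nat_lit 836) (nat_lit 13248704582) (nat_lit 0) (nat_lit 113925578613) (nat_lit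 760) (nat_lit 30797983924) (nat_lit 307) (nat_lit 1) (nat_lit 296) (nat_lit 1) (nat_lit 306) (nat_lit 1) (nat_lit 245) (nat_lit 390) (nat_lit 385)) (XT.lf (nat_lit 836) (nat_lit 25458621503) (nat_lit 76) (nat_lit 99010605173) (nat_lit 0) (nat_lit 27942014338) (nat_lit 307) (nat_lit 1) (nat_lit 297) (nat_lit 1) (nat_lit 296) (nat_lit 1) (nat_lit 246) (nat_lit 390) (nat_lit 384))) (XT.nd (nat_lit 78) (nat_lit 532) (nat_lit 0) (XT.lf (nat_lit 836) (nat_lit 5228620322) (nat_lit 0) (nat_lit 74016976666) (nat_lit 760) (nat_lit 67872792065) (nat_lit 298) (nat_lit 1) (nat_lit 287) (nat_lit 1) (nat_lit 297) (nat_lit 1) (nat_lit 247) (nat_lit 390) (nat_lit 383)) (XT.lf (nat_lit 76) (nat_lit 36204056277) (nat_lit 0) (nat_lit 15688902385) (nat_lit 532) (nat_lit 90183189860) (nat_lit 281) (nat_lit 1) (nat_lit 280) (nat_lit 1) (nat_lit 287) (nat_lit 1) (nat_lit 248) (nat_lit 390) (nat_lit 382)))))) (XT.nd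 (nat_lit 468) (nat_lit 1900) (nat_lit 0) (XT.nd (nat_lit 234) (nat_lit 684) (nat_lit 0) (XT.nd (nat_lit 78) (nat_lit 684) (nat_lit 0) (XT.lf (nat_lit 456) (nat_lit 99773822210) (nat_lit 0) (nat_lit 32478530079) (nat_lit 380) (nat_lit 5021381432) (nat_lit 281) (nat_lit 1) (nat_lit 275) (nat_lit 1) (nat_lit 280) (nat_lit 1) (nat_lit 249) (nat_lit 390) (nat_lit 381)) (XT.nd (nat_lit 78) (nat_lit 304) (nat_lit 0) (XT.lf (nat_lit 456) (nat_lit 71997740225) (nat_lit 0) (nat_lit 15138382776) (nat_lit 380) (nat_lit 45541691169) (nat_lit 276) (nat_lit 1) (nat_lit 270) (nat_lit 1) (nat_lit 275) (nat_lit 1) (nat_lit 250) (nat_lit 390) (nat_lit 380)) (XT.lf (nat_lit 380) (nat_lit 43809706672) (nat_lit 0) (nat_lit 278722228) (nat_lit 304) (nat_lit 84216311864) (nat_lit 271) (nat_lit 1) (nat_lit 266) (nat_lit 1) (nat_lit 270) (nat_lit 1) (nat_lit 251) (nat_lit 390) (nat_lit 379)))) (XT.nd (nat_lit 78) (nat_lit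 684) (nat_lit 0) (XT.lf (nat_lit 76) (nat_lit 3232073114) (nat_lit 0) (nat_lit 109001166690) (nat_lit 380) (nat_lit 11899596740) (nat_lit 267) (nat_lit 1) (nat_lit 266) (nat_lit 1) (nat_lit 271) (nat_lit 1) (nat_lit 252) (nat_lit 390) (nat_lit 378)) (XT.nd (nat_lit 78) (nat_lit 304) (nat_lit 0) (XT.lf (nat_lit 76) (nat_lit 83452966110) (nat_lit 0) (nat_lit 13841567370) (nat_lit 380) (nat_lit 22827258413) (nat_lit 262) (nat_lit 1) (nat_lit 261) (nat_lit 1) (nat_lit 266) (nat_lit 1) (nat_lit 253) (nat_lit 390) (nat_lit 377)) (XT.lf (nat_lit 76) (nat_lit 41753633697) (nat_lit 0) (nat_lit 42399177959) (nat_lit 380) (nat_lit 32135163992) (nat_lit 258) (nat_lit 1) (nat_lit 257) (nat_lit 1) (nat_lit 262) (nat_lit 1) (nat_lit 254) (nat_lit 390) (nat_lit 376))))) (XT.nd (nat_lit 234) (nat_lit 988) (nat_lit 0) (XT.nd (nat_lit 78) (nat_lit 608) (nat_lit 0) (XT.lf (nat_lit 76) (nat_lit 2060866772) (nat_lit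 0) (nat_lit 70890767182) (nat_lit 380) (nat_lit 39684043976) (nat_lit 254) (nat_lit 1) (nat_lit 253) (nat_lit 1) (nat_lit 258) (nat_lit 1) (nat_lit 255) (nat_lit 390) (nat_lit 375)) (XT.nd (nat_lit 78) (nat_lit 380) (nat_lit 0) (XT.lf (nat_lit 304) (nat_lit 9306758193) (nat_lit 0) (nat_lit 62937150802) (nat_lit 228) (nat_lit 36882616824) (nat_lit 254) (nat_lit 1) (nat_lit 250) (nat_lit 1) (nat_lit 253) (nat_lit 1) (nat_lit 256) (nat_lit 390) (nat_lit 374)) (XT.lf (nat_lit 76) (nat_lit 32157351771) (nat_lit 0) (nat_lit 22040848721) (nat_lit 380) (nat_lit 51564142652) (nat_lit 246) (nat_lit 1) (nat_lit 245) (nat_lit 1) (nat_lit 250) (nat_lit 1) (nat_lit 257) (nat_lit 390) (nat_lit 373)))) (XT.nd (nat_lit 156) (nat_lit 532) (nat_lit 0) (XT.nd (nat_lit 78) (nat_lit 228) (nat_lit 0) (XT.lf (nat_lit 304) (nat_lit 49787315387) (nat_lit 0) (nat_lit 46768747947) (nat_lit 228) (nat_lit 5986344230) (nat_lit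 246) (nat_lit 1) (nat_lit 242) (nat_lit 1) (nat_lit 245) (nat_lit 1) (nat_lit 258) (nat_lit 390) (nat_lit 372)) (XT.lf (nat_lit 304) (nat_lit 15956594056) (nat_lit 0) (nat_lit 40265976821) (nat_lit 228) (nat_lit 43223644134) (nat_lit 243) (nat_lit 1) (nat_lit 239) (nat_lit 1) (nat_lit 242) (nat_lit 1) (nat_lit 259) (nat_lit 390) (nat_lit 371))) (XT.nd (nat_lit 78) (nat_lit 228) (nat_lit 0) (XT.lf (nat_lit 76) (nat_lit 18186661596) (nat_lit 0) (nat_lit 16651469148) (nat_lit 304) (nat_lit 61640482418) (nat_lit 236) (nat_lit 1) (nat_lit 235) (nat_lit 1) (nat_lit 239) (nat_lit 1) (nat_lit 260) (nat_lit 390) (nat_lit 370)) (XT.lf (nat_lit 304) (nat_lit 45255120390) (nat_lit 0) (nat_lit 30111080082) (nat_lit 228) (nat_lit 18253435746) (nat_lit 236) (nat_lit 1) (nat_lit 232) (nat_lit 1) (nat_lit 235) (nat_lit 1) (nat_lit 261) (nat_lit 390) (nat_lit 369))))))) (XT.nd (nat_lit 1014) (nat_lit 1824) (nat_lit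 0) (XT.nd (nat_lit 468) (nat_lit 1064) (nat_lit 0) (XT.nd (nat_lit 234) (nat_lit 532) (nat_lit 0) (XT.nd (nat_lit 78) (nat_lit 456) (nat_lit 0) (XT.lf (nat_lit 228) (nat_lit 11218811167) (nat_lit 0) (nat_lit 26269721064) (nat_lit 152) (nat_lit 53387466151) (nat_lit 233) (nat_lit 1) (nat_lit 230) (nat_lit 1) (nat_lit 232) (nat_lit 1) (nat_lit 262) (nat_lit 390) (nat_lit 368)) (XT.nd (nat_lit 78) (nat_lit 152) (nat_lit 0) (XT.lf (nat_lit 76) (nat_lit 1900538286) (nat_lit 0) (nat_lit 21267436008) (nat_lit 304) (nat_lit 65070736880) (nat_lit 227) (nat_lit 1) (nat_lit 226) (nat_lit 1) (nat_lit 230) (nat_lit 1) (nat_lit 263) (nat_lit 390) (nat_lit 367)) (XT.lf (nat_lit 228) (nat_lit 32599806744) (nat_lit 0) (nat_lit 20372082483) (nat_lit 152) (nat_lit 32713254400) (nat_lit 227) (nat_lit 1) (nat_lit 224) (nat_lit 1) (nat_lit 226) (nat_lit 1) (nat_lit 264) (nat_lit 390) (nat_lit 366)))) (XT.nd (nat_lit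 78) (nat_lit 304) (nat_lit 0) (XT.lf (nat_lit 76) (nat_lit 17687292785) (nat_lit 0) (nat_lit 816987142) (nat_lit 228) (nat_lit 64738725041) (nat_lit 222) (nat_lit 1) (nat_lit 221) (nat_lit 1) (nat_lit 224) (nat_lit 1) (nat_lit 265) (nat_lit 390) (nat_lit 365)) (XT.nd (nat_lit 78) (nat_lit 152) (nat_lit 0) (XT.lf (nat_lit 228) (nat_lit 48353642977) (nat_lit 0) (nat_lit 16755621471) (nat_lit 152) (nat_lit 15762641937) (nat_lit 222) (nat_lit 1) (nat_lit 219) (nat_lit 1) (nat_lit 221) (nat_lit 1) (nat_lit 266) (nat_lit 390) (nat_lit 364)) (XT.lf (nat_lit 228) (nat_lit 15020579174) (nat_lit 0) (nat_lit 15576203022) (nat_lit 152) (nat_lit 47994683082) (nat_lit 220) (nat_lit 1) (nat_lit 217) (nat_lit 1) (nat_lit 219) (nat_lit 1) (nat_lit 267) (nat_lit 390) (nat_lit 363))))) (XT.nd (nat_lit 234) (nat_lit 532) (nat_lit 0) (XT.nd (nat_lit 78) (nat_lit 304) (nat_lit 0) (XT.lf (nat_lit 228) (nat_lit 59626179104)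 (nat_lit 0) (nat_lit 14881797744) (nat_lit 152) (nat_lit 1887928697) (nat_lit 217) (nat_lit 1) (nat_lit 214) (nat_lit 1) (nat_lit 216) (nat_lit 1) (nat_lit 268) (nat_lit 390) (nat_lit 362)) (XT.nd (nat_lit 78) (nat_lit 152) (nat_lit 0) (XT.lf (nat_lit 228) (nat_lit 26685914327) (nat_lit 0) (nat_lit 14207099496) (nat_lit 152) (nat_lit 33368339665) (nat_lit 215) (nat_lit 1) (nat_lit 212) (nat_lit 1) (nat_lit 214) (nat_lit 1) (nat_lit 269) (nat_lit 390) (nat_lit 361)) (XT.lf (nat_lit 76) (nat_lit 9140955971) (nat_lit 0) (nat_lit 5024281305) (nat_lit 152) (nat_lit 58050099857) (nat_lit 211) (nat_lit 1) (nat_lit 210) (nat_lit 1) (nat_lit 212) (nat_lit 1) (nat_lit 270) (nat_lit 390) (nat_lit 360)))) (XT.nd (nat_lit 156) (nat_lit 304) (nat_lit 0) (XT.nd (nat_lit 78) (nat_lit 76) (nat_lit 0) (XT.lf (nat_lit 228) (nat_lit 35013454323) (nat_lit 0) (nat_lit 14015243182) (nat_lit 152) (nat_lit 21192252552)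 (nat_lit 211) (nat_lit 1) (nat_lit 208) (nat_lit 1) (nat_lit 210) (nat_lit 1) (nat_lit 271) (nat_lit 390) (nat_lit 359)) (XT.lf (nat_lit 152) (nat_lit 3770451495) (nat_lit 0) (nat_lit 14359475666) (nat_lit 76) (nat_lit 50175371655) (nat_lit 209) (nat_lit 1) (nat_lit 207) (nat_lit 1) (nat_lit 208) (nat_lit 1) (nat_lit 272) (nat_lit 390) (nat_lit 358))) (XT.nd (nat_lit 78) (nat_lit 76) (nat_lit 0) (XT.lf (nat_lit 228) (nat_lit 40700631863) (nat_lit 0) (nat_lit 14685911731) (nat_lit 152) (nat_lit 11055924400) (nat_lit 207) (nat_lit 1) (nat_lit 204) (nat_lit 1) (nat_lit 206) (nat_lit 1) (nat_lit 273) (nat_lit 390) (nat_lit 357)) (XT.lf (nat_lit 152) (nat_lit 10236509039) (nat_lit 0) (nat_lit 15235032769) (nat_lit 76) (nat_lit 39170876505) (nat_lit 205) (nat_lit 1) (nat_lit 203) (nat_lit 1) (nat_lit 204) (nat_lit 1) (nat_lit 274) (nat_lit 390) (nat_lit 356)))))) (XT.nd (nat_lit 546) (nat_lit 760)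 (nat_lit 0) (XT.nd (nat_lit 234) (nat_lit 532) (nat_lit 0) (XT.nd (nat_lit 78) (nat_lit 304) (nat_lit 0) (XT.lf (nat_lit 228) (nat_lit 44311330194) (nat_lit 0) (nat_lit 15969822907) (nat_lit 152) (nat_lit 2620784648) (nat_lit 203) (nat_lit 1) (nat_lit 200) (nat_lit 1) (nat_lit 202) (nat_lit 1) (nat_lit 275) (nat_lit 390) (nat_lit 355)) (XT.nd (nat_lit 78) (nat_lit 228) (nat_lit 0) (XT.lf (nat_lit 152) (nat_lit 14731740874) (nat_lit 0) (nat_lit 16648732277) (nat_lit 76) (nat_lit 29827641670) (nat_lit 201) (nat_lit 1) (nat_lit 199) (nat_lit 1) (nat_lit 200) (nat_lit 1) (nat_lit 276) (nat_lit 390) (nat_lit 354)) (XT.lf (nat_lit 76) (nat_lit 4252166685) (nat_lit 0) (nat_lit 13346417762) (nat_lit 228) (nat_lit 41976558151) (nat_lit 197) (nat_lit 1) (nat_lit 196) (nat_lit 1) (nat_lit 199) (nat_lit 1) (nat_lit 277) (nat_lit 390) (nat_lit 353)))) (XT.nd (nat_lit 156) (nat_lit 228) (nat_lit 0) (XT.nd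 (nat_lit 78) (nat_lit 228) (nat_lit 0) (XT.lf (nat_lit 152) (nat_lit 17679418187) (nat_lit 0) (nat_lit 18421115765) (nat_lit 76) (nat_lit 21882190283) (nat_lit 197) (nat_lit 1) (nat_lit 195) (nat_lit 1) (nat_lit 196) (nat_lit 1) (nat_lit 278) (nat_lit 390) (nat_lit 352)) (XT.lf (nat_lit 76) (nat_lit 9888956414) (nat_lit 0) (nat_lit 9578122977) (nat_lit 228) (nat_lit 36979187962) (nat_lit 193) (nat_lit 1) (nat_lit 192) (nat_lit 1) (nat_lit 195) (nat_lit 1) (nat_lit 279) (nat_lit 390) (nat_lit 351))) (XT.nd (nat_lit 78) (nat_lit 152) (nat_lit 0) (XT.lf (nat_lit 152) (nat_lit 19420880548) (nat_lit 0) (nat_lit 20412095676) (nat_lit 76) (nat_lit 15116090139) (nat_lit 193) (nat_lit 1) (nat_lit 191) (nat_lit 1) (nat_lit 192) (nat_lit 1) (nat_lit 280) (nat_lit 390) (nat_lit 350)) (XT.lf (nat_lit 76) (nat_lit 14558830565) (nat_lit 0) (nat_lit 6937022265) (nat_lit 152) (nat_lit 32005458188) (nat_lit 190)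 (nat_lit 1) (nat_lit 189) (nat_lit 1) (nat_lit 191) (nat_lit 1) (nat_lit 281) (nat_lit 390) (nat_lit 349))))) (XT.nd (nat_lit 234) (nat_lit 456) (nat_lit 0) (XT.nd (nat_lit 78) (nat_lit 228) (nat_lit 0) (XT.lf (nat_lit 152) (nat_lit 20230845398) (nat_lit 0) (nat_lit 22513282110) (nat_lit 76) (nat_lit 9347918662) (nat_lit 190) (nat_lit 1) (nat_lit 188) (nat_lit 1) (nat_lit 189) (nat_lit 1) (nat_lit 282) (nat_lit 390) (nat_lit 348)) (XT.nd (nat_lit 78) (nat_lit 76) (nat_lit 0) (XT.lf (nat_lit 76) (nat_lit 18415567010) (nat_lit 0) (nat_lit 5175109063) (nat_lit 152) (nat_lit 27135452763) (nat_lit 187) (nat_lit 1) (nat_lit 186) (nat_lit 1) (nat_lit 188) (nat_lit 1) (nat_lit 283) (nat_lit 390) (nat_lit 347)) (XT.lf (nat_lit 152) (nat_lit 20329891307) (nat_lit 0) (nat_lit 24641746744) (nat_lit 76) (nat_lit 4426687233) (nat_lit 187) (nat_lit 1) (nat_lit 185) (nat_lit 1) (nat_lit 186) (nat_lit 1) (nat_lit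 284) (nat_lit 390) (nat_lit 346)))) (XT.nd (nat_lit 156) (nat_lit 228) (nat_lit 0) (XT.nd (nat_lit 78) (nat_lit 76) (nat_lit 0) (XT.lf (nat_lit 76) (nat_lit 21586972320) (nat_lit 0) (nat_lit 4092963038) (nat_lit 152) (nat_lit 22428246680) (nat_lit 184) (nat_lit 1) (nat_lit 183) (nat_lit 1) (nat_lit 185) (nat_lit 1) (nat_lit 285) (nat_lit 390) (nat_lit 345)) (XT.lf (nat_lit 152) (nat_lit 19894634599) (nat_lit 0) (nat_lit 26734958350) (nat_lit 76) (nat_lit 226458058) (nat_lit 184) (nat_lit 1) (nat_lit 182) (nat_lit 1) (nat_lit 183) (nat_lit 1) (nat_lit 286) (nat_lit 390) (nat_lit 344))) (XT.nd (nat_lit 78) (nat_lit 76) (nat_lit 0) (XT.lf (nat_lit 76) (nat_lit 24179478940) (nat_lit 0) (nat_lit 3530627154) (nat_lit 152) (nat_lit 17926187249) (nat_lit 181) (nat_lit 1) (nat_lit 180) (nat_lit 1) (nat_lit 182) (nat_lit 1) (nat_lit 287) (nat_lit 390) (nat_lit 343)) (XT.lf (nat_lit 0) (nat_lit 3250585354)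 (nat_lit 0) (nat_lit 25441037661) (nat_lit 152) (nat_lit 15760387993) (nat_lit 179) (nat_lit 3) (nat_lit 179) (nat_lit 1) (nat_lit 181) (nat_lit 1) (nat_lit 288) (nat_lit 390) (nat_lit 342))))))))
noncomputable def ec146 : XT := (XT.nd (nat_lit 2028) (nat_lit 3344) (nat_lit 0) (XT.nd (nat_lit 1014) (nat_lit 1444) (nat_lit 0) (XT.nd (nat_lit 468) (nat_lit 912) (nat_lit 0) (XT.nd (nat_lit 234) (nat_lit 304) (nat_lit 0) (XT.nd (nat_lit 78) (nat_lit 228) (nat_lit 0) (XT.lf (nat_lit 76) (nat_lit 26281910206) (nat_lit 0) (nat_lit 3360171941) (nat_lit 152) (nat_lit 13658362618) (nat_lit 178) (nat_lit 1) (nat_lit 177) (nat_lit 1) (nat_lit 179) (nat_lit 1) (nat_lit 289) (nat_lit 390) (nat_lit 341)) (XT.nd (nat_lit 78) (nat_lit 152) (nat_lit 0) (XT.lf (nat_lit 0) (nat_lit 6209820595) (nat_lit 0) (nat_lit 24328616978) (nat_lit 152) (nat_lit 11641109755) (nat_lit 176) (nat_lit 3) (nat_lit 176) (nat_lit 1)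 (nat_lit 178) (nat_lit 1) (nat_lit 290) (nat_lit 390) (nat_lit 340)) (XT.lf (nat_lit 76) (nat_lit 27968565186) (nat_lit 0) (nat_lit 3479636575) (nat_lit 152) (nat_lit 9643408337) (nat_lit 175) (nat_lit 1) (nat_lit 174) (nat_lit 1) (nat_lit 176) (nat_lit 1) (nat_lit 291) (nat_lit 390) (nat_lit 339)))) (XT.nd (nat_lit 78) (nat_lit 228) (nat_lit 0) (XT.lf (nat_lit 0) (nat_lit 8730316672) (nat_lit 0) (nat_lit 23524552402) (nat_lit 152) (nat_lit 7775318291) (nat_lit 173) (nat_lit 3) (nat_lit 173) (nat_lit 1) (nat_lit 175) (nat_lit 1) (nat_lit 292) (nat_lit 390) (nat_lit 338)) (XT.nd (nat_lit 78) (nat_lit 76) (nat_lit 0) (XT.lf (nat_lit 76) (nat_lit 29301747443) (nat_lit 0) (nat_lit 3808093365) (nat_lit 152) (nat_lit 5891775017) (nat_lit 172) (nat_lit 1) (nat_lit 171) (nat_lit 1) (nat_lit 173) (nat_lit 1) (nat_lit 293) (nat_lit 390) (nat_lit 337)) (XT.lf (nat_lit 0) (nat_lit 10872625899) (nat_lit 0)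 (nat_lit 22952314097) (nat_lit 152) (nat_lit 4171146040) (nat_lit 170) (nat_lit 3) (nat_lit 170) (nat_lit 1) (nat_lit 172) (nat_lit 1) (nat_lit 294) (nat_lit 390) (nat_lit 336))))) (XT.nd (nat_lit 234) (nat_lit 456) (nat_lit 0) (XT.nd (nat_lit 78) (nat_lit 304) (nat_lit 0) (XT.lf (nat_lit 76) (nat_lit 30333839141) (nat_lit 0) (nat_lit 4281628805) (nat_lit 152) (nat_lit 2407557427) (nat_lit 169) (nat_lit 1) (nat_lit 168) (nat_lit 1) (nat_lit 170) (nat_lit 1) (nat_lit 295) (nat_lit 390) (nat_lit 335)) (XT.nd (nat_lit 78) (nat_lit 228) (nat_lit 0) (XT.lf (nat_lit 0) (nat_lit 12687961092) (nat_lit 0) (nat_lit 22551185501) (nat_lit 152) (nat_lit 830948049) (nat_lit 167) (nat_lit 3) (nat_lit 167) (nat_lit 1) (nat_lit 169) (nat_lit 1) (nat_lit 296) (nat_lit 390) (nat_lit 334)) (XT.lf (nat_lit 152) (nat_lit 30285251889) (nat_lit 0) (nat_lit 836816456) (nat_lit 76) (nat_lit 4026320933) (nat_lit 166) (nat_lit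 1) (nat_lit 164) (nat_lit 1) (nat_lit 165) (nat_lit 1) (nat_lit 297) (nat_lit 390) (nat_lit 333)))) (XT.nd (nat_lit 156) (nat_lit 228) (nat_lit 0) (XT.nd (nat_lit 78) (nat_lit 152) (nat_lit 0) (XT.lf (nat_lit 76) (nat_lit 11934378416) (nat_lit 0) (nat_lit 2321648958) (nat_lit 76) (nat_lit 19987830968) (nat_lit 164) (nat_lit 3) (nat_lit 163) (nat_lit 1) (nat_lit 164) (nat_lit 1) (nat_lit 298) (nat_lit 390) (nat_lit 332)) (XT.lf (nat_lit 152) (nat_lit 27835325293) (nat_lit 0) (nat_lit 3889990209) (nat_lit 76) (nat_lit 1645078434) (nat_lit 163) (nat_lit 1) (nat_lit 161) (nat_lit 1) (nat_lit 162) (nat_lit 1) (nat_lit 299) (nat_lit 390) (nat_lit 331))) (XT.nd (nat_lit 78) (nat_lit 152) (nat_lit 0) (XT.lf (nat_lit 76) (nat_lit 10350117244) (nat_lit 0) (nat_lit 5236730006) (nat_lit 76) (nat_lit 16925867254) (nat_lit 161) (nat_lit 3) (nat_lit 160) (nat_lit 1) (nat_lit 161) (nat_lit 1) (nat_lit 300) (nat_lit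 390) (nat_lit 330)) (XT.lf (nat_lit 0) (nat_lit 436861249) (nat_lit 0) (nat_lit 6235582597) (nat_lit 152) (nat_lit 25012433917) (nat_lit 158) (nat_lit 3) (nat_lit 158) (nat_lit 1) (nat_lit 160) (nat_lit 1) (nat_lit 301) (nat_lit 390) (nat_lit 329)))))) (XT.nd (nat_lit 468) (nat_lit 760) (nat_lit 0) (XT.nd (nat_lit 234) (nat_lit 380) (nat_lit 0) (XT.nd (nat_lit 78) (nat_lit 228) (nat_lit 0) (XT.lf (nat_lit 76) (nat_lit 8803827501) (nat_lit 0) (nat_lit 7894940967) (nat_lit 76) (nat_lit 14173013935) (nat_lit 158) (nat_lit 3) (nat_lit 157) (nat_lit 1) (nat_lit 158) (nat_lit 1) (nat_lit 302) (nat_lit 390) (nat_lit 328)) (XT.nd (nat_lit 78) (nat_lit 76) (nat_lit 0) (XT.lf (nat_lit 0) (nat_lit 2221780506) (nat_lit 0) (nat_lit 6956512812) (nat_lit 152) (nat_lit 20907494633) (nat_lit 155) (nat_lit 3) (nat_lit 155) (nat_lit 1) (nat_lit 157) (nat_lit 1) (nat_lit 303) (nat_lit 390) (nat_lit 327)) (XT.lf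 (nat_lit 76) (nat_lit 7312841469) (nat_lit 0) (nat_lit 10306229116) (nat_lit 76) (nat_lit 11696852863) (nat_lit 155) (nat_lit 3) (nat_lit 154) (nat_lit 1) (nat_lit 155) (nat_lit 1) (nat_lit 304) (nat_lit 390) (nat_lit 326)))) (XT.nd (nat_lit 78) (nat_lit 228) (nat_lit 0) (XT.lf (nat_lit 0) (nat_lit 3789533183) (nat_lit 0) (nat_lit 7655504430) (nat_lit 152) (nat_lit 17124416182) (nat_lit 152) (nat_lit 3) (nat_lit 152) (nat_lit 1) (nat_lit 154) (nat_lit 1) (nat_lit 305) (nat_lit 390) (nat_lit 325)) (XT.nd (nat_lit 78) (nat_lit 152) (nat_lit 0) (XT.lf (nat_lit 76) (nat_lit 5889482125) (nat_lit 0) (nat_lit 12481799135) (nat_lit 76) (nat_lit 9469085131) (nat_lit 152) (nat_lit 3) (nat_lit 151) (nat_lit 1) (nat_lit 152) (nat_lit 1) (nat_lit 306) (nat_lit 390) (nat_lit 324)) (XT.lf (nat_lit 0) (nat_lit 5163801535) (nat_lit 0) (nat_lit 8320417942) (nat_lit 152) (nat_lit 13647048021) (nat_lit 149) (nat_lit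 3) (nat_lit 149) (nat_lit 1) (nat_lit 151) (nat_lit 1) (nat_lit 307) (nat_lit 390) (nat_lit 323))))) (XT.nd (nat_lit 234) (nat_lit 456) (nat_lit 0) (XT.nd (nat_lit 78) (nat_lit 228) (nat_lit 0) (XT.lf (nat_lit 76) (nat_lit 4542106190) (nat_lit 0) (nat_lit 14433663730) (nat_lit 76) (nat_lit 7464899160) (nat_lit 149) (nat_lit 3) (nat_lit 148) (nat_lit 1) (nat_lit 149) (nat_lit 1) (nat_lit 308) (nat_lit 390) (nat_lit 322)) (XT.nd (nat_lit 78) (nat_lit 76) (nat_lit 0) (XT.lf (nat_lit 0) (nat_lit 6365289918) (nat_lit 0) (nat_lit 8942708763) (nat_lit 152) (nat_lit 10458934514) (nat_lit 146) (nat_lit 3) (nat_lit 146) (nat_lit 1) (nat_lit 148) (nat_lit 1) (nat_lit 309) (nat_lit 390) (nat_lit 321)) (XT.lf (nat_lit 76) (nat_lit 3275947878) (nat_lit 0) (nat_lit 16174291058) (nat_lit 76) (nat_lit 5662446808) (nat_lit 146) (nat_lit 3) (nat_lit 145) (nat_lit 1) (nat_lit 146) (nat_lit 1) (nat_lit 310) (nat_lit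 390) (nat_lit 320)))) (XT.nd (nat_lit 156) (nat_lit 228) (nat_lit 0) (XT.nd (nat_lit 78) (nat_lit 76) (nat_lit 0) (XT.lf (nat_lit 0) (nat_lit 7412173331) (nat_lit 0) (nat_lit 9516669742) (nat_lit 152) (nat_lit 7543593680) (nat_lit 143) (nat_lit 3) (nat_lit 143) (nat_lit 1) (nat_lit 145) (nat_lit 1) (nat_lit 311) (nat_lit 390) (nat_lit 319)) (XT.lf (nat_lit 76) (nat_lit 2093800397) (nat_lit 0) (nat_lit 17716330302) (nat_lit 76) (nat_lit 4042408185) (nat_lit 143) (nat_lit 3) (nat_lit 142) (nat_lit 1) (nat_lit 143) (nat_lit 1) (nat_lit 312) (nat_lit 390) (nat_lit 318))) (XT.nd (nat_lit 78) (nat_lit 76) (nat_lit 0) (XT.lf (nat_lit 0) (nat_lit 8320470107) (nat_lit 0) (nat_lit 10038819127) (nat_lit 152) (nat_lit 4884730518) (nat_lit 140) (nat_lit 3) (nat_lit 140) (nat_lit 1) (nat_lit 142) (nat_lit 1) (nat_lit 313) (nat_lit 390) (nat_lit 317)) (XT.lf (nat_lit 76) (nat_lit 996565435) (nat_lit 0) (nat_lit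 19072400198) (nat_lit 76) (nat_lit 2587629342) (nat_lit 140) (nat_lit 3) (nat_lit 139) (nat_lit 1) (nat_lit 140) (nat_lit 1) (nat_lit 314) (nat_lit 390) (nat_lit 316))))))) (XT.nd (nat_lit 1014) (nat_lit 1748) (nat_lit 0) (XT.nd (nat_lit 468) (nat_lit 760) (nat_lit 0) (XT.nd (nat_lit 234) (nat_lit 456) (nat_lit 0) (XT.nd (nat_lit 78) (nat_lit 228) (nat_lit 0) (XT.lf (nat_lit 0) (nat_lit 9104352275) (nat_lit 0) (nat_lit 10507406866) (nat_lit 152) (nat_lit 2466397776) (nat_lit 137) (nat_lit 3) (nat_lit 137) (nat_lit 1) (nat_lit 139) (nat_lit 1) (nat_lit 315) (nat_lit 390) (nat_lit 315)) (XT.nd (nat_lit 78) (nat_lit 76) (nat_lit 0) (XT.lf (nat_lit 76) (nat_lit 20238878021) (nat_lit 0) (nat_lit 15782868) (nat_lit 152) (nat_lit 1266769740) (nat_lit 136) (nat_lit 1) (nat_lit 135) (nat_lit 1) (nat_lit 137) (nat_lit 1) (nat_lit 316) (nat_lit 390) (nat_lit 314)) (XT.lf (nat_lit 0) (nat_lit 9776404635)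 (nat_lit 0) (nat_lit 10922017176) (nat_lit 152) (nat_lit 273114653) (nat_lit 134) (nat_lit 3) (nat_lit 134) (nat_lit 1) (nat_lit 136) (nat_lit 1) (nat_lit 317) (nat_lit 390) (nat_lit 313)))) (XT.nd (nat_lit 78) (nat_lit 228) (nat_lit 0) (XT.lf (nat_lit 152) (nat_lit 19513136373) (nat_lit 0) (nat_lit 844401660) (nat_lit 76) (nat_lit 84941760) (nat_lit 133) (nat_lit 1) (nat_lit 131) (nat_lit 1) (nat_lit 132) (nat_lit 1) (nat_lit 318) (nat_lit 390) (nat_lit 312)) (XT.nd (nat_lit 78) (nat_lit 152) (nat_lit 0) (XT.lf (nat_lit 76) (nat_lit 8608833043) (nat_lit 0) (nat_lit 1766589991) (nat_lit 76) (nat_lit 9544240762) (nat_lit 131) (nat_lit 3) (nat_lit 130) (nat_lit 1) (nat_lit 131) (nat_lit 1) (nat_lit 319) (nat_lit 390) (nat_lit 311)) (XT.lf (nat_lit 0) (nat_lit 973182503) (nat_lit 0) (nat_lit 1798057035) (nat_lit 152) (nat_lit 16645277478) (nat_lit 128) (nat_lit 3) (nat_lit 128) (nat_lit 1) (nat_lit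 130) (nat_lit 1) (nat_lit 320) (nat_lit 390) (nat_lit 310))))) (XT.nd (nat_lit 234) (nat_lit 456) (nat_lit 0) (XT.nd (nat_lit 78) (nat_lit 228) (nat_lit 0) (XT.lf (nat_lit 76) (nat_lit 7272049338) (nat_lit 0) (nat_lit 3613049794) (nat_lit 76) (nat_lit 8035822052) (nat_lit 128) (nat_lit 3) (nat_lit 127) (nat_lit 1) (nat_lit 128) (nat_lit 1) (nat_lit 321) (nat_lit 390) (nat_lit 309)) (XT.nd (nat_lit 78) (nat_lit 76) (nat_lit 0) (XT.lf (nat_lit 0) (nat_lit 1914933888) (nat_lit 0) (nat_lit 2588454800) (nat_lit 152) (nat_lit 13939127608) (nat_lit 125) (nat_lit 3) (nat_lit 125) (nat_lit 1) (nat_lit 127) (nat_lit 1) (nat_lit 322) (nat_lit 390) (nat_lit 308)) (XT.lf (nat_lit 76) (nat_lit 6038881138) (nat_lit 0) (nat_lit 5271358270) (nat_lit 76) (nat_lit 6662511613) (nat_lit 125) (nat_lit 3) (nat_lit 124) (nat_lit 1) (nat_lit 125) (nat_lit 1) (nat_lit 323) (nat_lit 390) (nat_lit 307)))) (XT.nd (nat_lit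 156) (nat_lit 228) (nat_lit 0) (XT.nd (nat_lit 78) (nat_lit 76) (nat_lit 0) (XT.lf (nat_lit 0) (nat_lit 2752979052) (nat_lit 0) (nat_lit 3302917742) (nat_lit 152) (nat_lit 11461942815) (nat_lit 122) (nat_lit 3) (nat_lit 122) (nat_lit 1) (nat_lit 124) (nat_lit 1) (nat_lit 324) (nat_lit 390) (nat_lit 306)) (XT.lf (nat_lit 76) (nat_lit 4904189990) (nat_lit 0) (nat_lit 6754949136) (nat_lit 76) (nat_lit 5413392481) (nat_lit 122) (nat_lit 3) (nat_lit 121) (nat_lit 1) (nat_lit 122) (nat_lit 1) (nat_lit 325) (nat_lit 390) (nat_lit 305))) (XT.nd (nat_lit 78) (nat_lit 76) (nat_lit 0) (XT.lf (nat_lit 0) (nat_lit 3496348777) (nat_lit 0) (nat_lit 3945380956) (nat_lit 152) (nat_lit 9198203840) (nat_lit 119) (nat_lit 3) (nat_lit 119) (nat_lit 1) (nat_lit 121) (nat_lit 1) (nat_lit 326) (nat_lit 390) (nat_lit 304)) (XT.lf (nat_lit 76) (nat_lit 3862729150) (nat_lit 0) (nat_lit 8076557827) (nat_lit 76) (nat_lit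 4278499686) (nat_lit 119) (nat_lit 3) (nat_lit 118) (nat_lit 1) (nat_lit 119) (nat_lit 1) (nat_lit 327) (nat_lit 390) (nat_lit 303)))))) (XT.nd (nat_lit 546) (nat_lit 912) (nat_lit 0) (XT.nd (nat_lit 234) (nat_lit 456) (nat_lit 0) (XT.nd (nat_lit 78) (nat_lit 228) (nat_lit 0) (XT.lf (nat_lit 0) (nat_lit 4153260387) (nat_lit 0) (nat_lit 4519901071) (nat_lit 152) (nat_lit 7133224105) (nat_lit 116) (nat_lit 3) (nat_lit 116) (nat_lit 1) (nat_lit 118) (nat_lit 1) (nat_lit 328) (nat_lit 390) (nat_lit 302)) (XT.nd (nat_lit 78) (nat_lit 152) (nat_lit 0) (XT.lf (nat_lit 76) (nat_lit 2909234904) (nat_lit 0) (nat_lit 9248223729) (nat_lit 76) (nat_lit 3248717019) (nat_lit 116) (nat_lit 3) (nat_lit 115) (nat_lit 1) (nat_lit 116) (nat_lit 1) (nat_lit 329) (nat_lit 390) (nat_lit 301)) (XT.lf (nat_lit 0) (nat_lit 4731206708) (nat_lit 0) (nat_lit 5030573652) (nat_lit 152) (nat_lit 5253134146) (nat_lit 113) (nat_lit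 3) (nat_lit 113) (nat_lit 1) (nat_lit 115) (nat_lit 1) (nat_lit 330) (nat_lit 390) (nat_lit 300)))) (XT.nd (nat_lit 156) (nat_lit 228) (nat_lit 0) (XT.nd (nat_lit 78) (nat_lit 152) (nat_lit 0) (XT.lf (nat_lit 76) (nat_lit 2038496548) (nat_lit 0) (nat_lit 10281300288) (nat_lit 76) (nat_lit 2315688163) (nat_lit 113) (nat_lit 3) (nat_lit 112) (nat_lit 1) (nat_lit 113) (nat_lit 1) (nat_lit 331) (nat_lit 390) (nat_lit 299)) (XT.lf (nat_lit 0) (nat_lit 5237032672) (nat_lit 0) (nat_lit 5481469722) (nat_lit 152) (nat_lit 3544860107) (nat_lit 110) (nat_lit 3) (nat_lit 110) (nat_lit 1) (nat_lit 112) (nat_lit 1) (nat_lit 332) (nat_lit 390) (nat_lit 298))) (XT.nd (nat_lit 78) (nat_lit 152) (nat_lit 0) (XT.lf (nat_lit 76) (nat_lit 1245409245) (nat_lit 0) (nat_lit 11186471028) (nat_lit 76) (nat_lit 1471739847) (nat_lit 110) (nat_lit 3) (nat_lit 109) (nat_lit 1) (nat_lit 110) (nat_lit 1) (nat_lit 333) (nat_lit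 390) (nat_lit 297)) (XT.lf (nat_lit 0) (nat_lit 5677001598) (nat_lit 0) (nat_lit 5876587667) (nat_lit 152) (nat_lit 1996097925) (nat_lit 107) (nat_lit 3) (nat_lit 107) (nat_lit 1) (nat_lit 109) (nat_lit 1) (nat_lit 334) (nat_lit 390) (nat_lit 296))))) (XT.nd (nat_lit 234) (nat_lit 456) (nat_lit 0) (XT.nd (nat_lit 78) (nat_lit 380) (nat_lit 0) (XT.lf (nat_lit 76) (nat_lit 525013151) (nat_lit 0) (nat_lit 11973769900) (nat_lit 76) (nat_lit 709815067) (nat_lit 107) (nat_lit 3) (nat_lit 106) (nat_lit 1) (nat_lit 107) (nat_lit 1) (nat_lit 335) (nat_lit 390) (nat_lit 295)) (XT.nd (nat_lit 78) (nat_lit 228) (nat_lit 0) (XT.lf (nat_lit 0) (nat_lit 6056852797) (nat_lit 0) (nat_lit 6219817449) (nat_lit 152) (nat_lit 595284515) (nat_lit 104) (nat_lit 3) (nat_lit 104) (nat_lit 1) (nat_lit 106) (nat_lit 1) (nat_lit 336) (nat_lit 390) (nat_lit 294)) (XT.lf (nat_lit 152) (nat_lit 12423314599) (nat_lit 0) (nat_lit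 105448345) (nat_lit 76) (nat_lit 19596309) (nat_lit 103) (nat_lit 1) (nat_lit 101) (nat_lit 1) (nat_lit 102) (nat_lit 1) (nat_lit 337) (nat_lit 390) (nat_lit 293)))) (XT.nd (nat_lit 156) (nat_lit 228) (nat_lit 0) (XT.nd (nat_lit 78) (nat_lit 152) (nat_lit 0) (XT.lf (nat_lit 76) (nat_lit 5702098608) (nat_lit 0) (nat_lit 690534443) (nat_lit 76) (nat_lit 5835161392) (nat_lit 101) (nat_lit 3) (nat_lit 100) (nat_lit 1) (nat_lit 101) (nat_lit 1) (nat_lit 338) (nat_lit 390) (nat_lit 292)) (XT.lf (nat_lit 0) (nat_lit 607125349) (nat_lit 0) (nat_lit 724464664) (nat_lit 152) (nat_lit 10587983334) (nat_lit 98) (nat_lit 3) (nat_lit 98) (nat_lit 1) (nat_lit 100) (nat_lit 1) (nat_lit 339) (nat_lit 390) (nat_lit 291))) (XT.nd (nat_lit 78) (nat_lit 152) (nat_lit 0) (XT.lf (nat_lit 76) (nat_lit 4821033052) (nat_lit 0) (nat_lit 1864918423) (nat_lit 76) (nat_lit 4929680566) (nat_lit 98) (nat_lit 3) (nat_lit 97)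 (nat_lit 1) (nat_lit 98) (nat_lit 1) (nat_lit 340) (nat_lit 390) (nat_lit 290)) (XT.lf (nat_lit 0) (nat_lit 1168331419) (nat_lit 0) (nat_lit 1264140515) (nat_lit 152) (nat_lit 8889996843) (nat_lit 95) (nat_lit 3) (nat_lit 95) (nat_lit 1) (nat_lit 97) (nat_lit 1) (nat_lit 341) (nat_lit 390) (nat_lit 289))))))))
noncomputable def ec147 : XT := (XT.nd (nat_lit 2106) (nat_lit 3192) (nat_lit 0) (XT.nd (nat_lit 1014) (nat_lit 1748) (nat_lit 0) (XT.nd (nat_lit 468) (nat_lit 760) (nat_lit 0) (XT.nd (nat_lit 234) (nat_lit 380) (nat_lit 0) (XT.nd (nat_lit 78) (nat_lit 228) (nat_lit 0) (XT.lf (nat_lit 76) (nat_lit 4013777147) (nat_lit 0) (nat_lit 2918028638) (nat_lit 76) (nat_lit 4102489273) (nat_lit 95) (nat_lit 3) (nat_lit 94) (nat_lit 1) (nat_lit 95) (nat_lit 1) (nat_lit 342) (nat_lit 390) (nat_lit 288)) (XT.nd (nat_lit 78) (nat_lit 76) (nat_lit 0) (XT.lf (nat_lit 0) (nat_lit 1669811719) (nat_lit 0)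 (nat_lit 1748041107) (nat_lit 152) (nat_lit 7337595014) (nat_lit 92) (nat_lit 3) (nat_lit 92) (nat_lit 1) (nat_lit 94) (nat_lit 1) (nat_lit 343) (nat_lit 390) (nat_lit 287)) (XT.lf (nat_lit 76) (nat_lit 3275353384) (nat_lit 0) (nat_lit 3859075591) (nat_lit 76) (nat_lit 3347788002) (nat_lit 92) (nat_lit 3) (nat_lit 91) (nat_lit 1) (nat_lit 92) (nat_lit 1) (nat_lit 344) (nat_lit 390) (nat_lit 286)))) (XT.nd (nat_lit 78) (nat_lit 228) (nat_lit 0) (XT.lf (nat_lit 0) (nat_lit 2116341734) (nat_lit 0) (nat_lit 2180217059) (nat_lit 152) (nat_lit 5920422621) (nat_lit 89) (nat_lit 3) (nat_lit 89) (nat_lit 1) (nat_lit 91) (nat_lit 1) (nat_lit 345) (nat_lit 390) (nat_lit 285)) (XT.nd (nat_lit 78) (nat_lit 152) (nat_lit 0) (XT.lf (nat_lit 76) (nat_lit 2601049608) (nat_lit 0) (nat_lit 4696669511) (nat_lit 76) (nat_lit 2660193427) (nat_lit 89) (nat_lit 3) (nat_lit 88) (nat_lit 1) (nat_lit 89) (nat_lit 1) (nat_lit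 346) (nat_lit 390) (nat_lit 284)) (XT.lf (nat_lit 0) (nat_lit 2512341087) (nat_lit 0) (nat_lit 2564496130) (nat_lit 152) (nat_lit 4628782395) (nat_lit 86) (nat_lit 3) (nat_lit 86) (nat_lit 1) (nat_lit 88) (nat_lit 1) (nat_lit 347) (nat_lit 390) (nat_lit 283))))) (XT.nd (nat_lit 234) (nat_lit 456) (nat_lit 0) (XT.nd (nat_lit 78) (nat_lit 228) (nat_lit 0) (XT.lf (nat_lit 76) (nat_lit 1986414338) (nat_lit 0) (nat_lit 5438852922) (nat_lit 76) (nat_lit 2034706044) (nat_lit 86) (nat_lit 3) (nat_lit 85) (nat_lit 1) (nat_lit 86) (nat_lit 1) (nat_lit 348) (nat_lit 390) (nat_lit 282)) (XT.nd (nat_lit 78) (nat_lit 76) (nat_lit 0) (XT.lf (nat_lit 0) (nat_lit 2861901676) (nat_lit 0) (nat_lit 2904486955) (nat_lit 152) (nat_lit 3453598826) (nat_lit 83) (nat_lit 3) (nat_lit 83) (nat_lit 1) (nat_lit 85) (nat_lit 1) (nat_lit 349) (nat_lit 390) (nat_lit 281)) (XT.lf (nat_lit 76) (nat_lit 1427250128) (nat_lit 0)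 (nat_lit 6093132347) (nat_lit 76) (nat_lit 1466680942) (nat_lit 83) (nat_lit 3) (nat_lit 82) (nat_lit 1) (nat_lit 83) (nat_lit 1) (nat_lit 350) (nat_lit 390) (nat_lit 280)))) (XT.nd (nat_lit 156) (nat_lit 228) (nat_lit 0) (XT.nd (nat_lit 78) (nat_lit 76) (nat_lit 0) (XT.lf (nat_lit 0) (nat_lit 3168813097) (nat_lit 0) (nat_lit 3203584538) (nat_lit 152) (nat_lit 2386383177) (nat_lit 80) (nat_lit 3) (nat_lit 80) (nat_lit 1) (nat_lit 82) (nat_lit 1) (nat_lit 351) (nat_lit 390) (nat_lit 279)) (XT.lf (nat_lit 76) (nat_lit 919605501) (nat_lit 0) (nat_lit 6666508963) (nat_lit 76) (nat_lit 951801280) (nat_lit 80) (nat_lit 3) (nat_lit 79) (nat_lit 1) (nat_lit 80) (nat_lit 1) (nat_lit 352) (nat_lit 390) (nat_lit 278))) (XT.nd (nat_lit 78) (nat_lit 76) (nat_lit 0) (XT.lf (nat_lit 0) (nat_lit 3436585701) (nat_lit 0) (nat_lit 3464977041) (nat_lit 152) (nat_lit 1419199846) (nat_lit 77) (nat_lit 3) (nat_lit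 77) (nat_lit 1) (nat_lit 79) (nat_lit 1) (nat_lit 353) (nat_lit 390) (nat_lit 277)) (XT.lf (nat_lit 76) (nat_lit 459765887) (nat_lit 0) (nat_lit 7165508121) (nat_lit 76) (nat_lit 486054164) (nat_lit 77) (nat_lit 3) (nat_lit 76) (nat_lit 1) (nat_lit 77) (nat_lit 1) (nat_lit 354) (nat_lit 390) (nat_lit 276)))))) (XT.nd (nat_lit 546) (nat_lit 836) (nat_lit 0) (XT.nd (nat_lit 234) (nat_lit 456) (nat_lit 0) (XT.nd (nat_lit 78) (nat_lit 304) (nat_lit 0) (XT.lf (nat_lit 0) (nat_lit 3668471561) (nat_lit 0) (nat_lit 3691653463) (nat_lit 152) (nat_lit 544634133) (nat_lit 74) (nat_lit 3) (nat_lit 74) (nat_lit 1) (nat_lit 76) (nat_lit 1) (nat_lit 355) (nat_lit 390) (nat_lit 275)) (XT.nd (nat_lit 78) (nat_lit 228) (nat_lit 0) (XT.lf (nat_lit 76) (nat_lit 44243897) (nat_lit 0) (nat_lit 7596207641) (nat_lit 76) (nat_lit 65708621) (nat_lit 74) (nat_lit 3) (nat_lit 73) (nat_lit 1) (nat_lit 74) (nat_lit 1) (nat_lit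 356) (nat_lit 390) (nat_lit 274)) (XT.lf (nat_lit 76) (nat_lit 3619108759) (nat_lit 0) (nat_lit 252314184) (nat_lit 76) (nat_lit 3638037087) (nat_lit 71) (nat_lit 3) (nat_lit 70) (nat_lit 1) (nat_lit 71) (nat_lit 1) (nat_lit 357) (nat_lit 390) (nat_lit 273)))) (XT.nd (nat_lit 156) (nat_lit 228) (nat_lit 0) (XT.nd (nat_lit 78) (nat_lit 76) (nat_lit 0) (XT.lf (nat_lit 0) (nat_lit 318391827) (nat_lit 0) (nat_lit 335083475) (nat_lit 152) (nat_lit 6666825276) (nat_lit 68) (nat_lit 3) (nat_lit 68) (nat_lit 1) (nat_lit 70) (nat_lit 1) (nat_lit 358) (nat_lit 390) (nat_lit 272)) (XT.lf (nat_lit 76) (nat_lit 3066376665) (nat_lit 0) (nat_lit 985421691) (nat_lit 76) (nat_lit 3081831894) (nat_lit 68) (nat_lit 3) (nat_lit 67) (nat_lit 1) (nat_lit 68) (nat_lit 1) (nat_lit 359) (nat_lit 390) (nat_lit 271))) (XT.nd (nat_lit 78) (nat_lit 76) (nat_lit 0) (XT.lf (nat_lit 0) (nat_lit 663564700) (nat_lit 0) (nat_lit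 677193650) (nat_lit 152) (nat_lit 5612939766) (nat_lit 65) (nat_lit 3) (nat_lit 65) (nat_lit 1) (nat_lit 67) (nat_lit 1) (nat_lit 360) (nat_lit 390) (nat_lit 270)) (XT.lf (nat_lit 76) (nat_lit 2560585729) (nat_lit 0) (nat_lit 1642910675) (nat_lit 76) (nat_lit 2573205127) (nat_lit 65) (nat_lit 3) (nat_lit 64) (nat_lit 1) (nat_lit 65) (nat_lit 1) (nat_lit 361) (nat_lit 390) (nat_lit 269))))) (XT.nd (nat_lit 234) (nat_lit 456) (nat_lit 0) (XT.nd (nat_lit 78) (nat_lit 228) (nat_lit 0) (XT.lf (nat_lit 0) (nat_lit 972464530) (nat_lit 0) (nat_lit 983592747) (nat_lit 152) (nat_lit 4649487450) (nat_lit 62) (nat_lit 3) (nat_lit 62) (nat_lit 1) (nat_lit 64) (nat_lit 1) (nat_lit 362) (nat_lit 390) (nat_lit 268)) (XT.nd (nat_lit 78) (nat_lit 152) (nat_lit 0) (XT.lf (nat_lit 76) (nat_lit 2098411142) (nat_lit 0) (nat_lit 2230591626) (nat_lit 76) (nat_lit 2108715047) (nat_lit 62) (nat_lit 3) (nat_lit 61) (nat_lit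 1) (nat_lit 62) (nat_lit 1) (nat_lit 363) (nat_lit 390) (nat_lit 267)) (XT.lf (nat_lit 0) (nat_lit 1247922871) (nat_lit 0) (nat_lit 1257009207) (nat_lit 152) (nat_lit 3769974591) (nat_lit 59) (nat_lit 3) (nat_lit 59) (nat_lit 1) (nat_lit 61) (nat_lit 1) (nat_lit 364) (nat_lit 390) (nat_lit 266)))) (XT.nd (nat_lit 156) (nat_lit 228) (nat_lit 0) (XT.nd (nat_lit 78) (nat_lit 152) (nat_lit 0) (XT.lf (nat_lit 76) (nat_lit 1676738739) (nat_lit 0) (nat_lit 2753881071) (nat_lit 76) (nat_lit 1685152013) (nat_lit 59) (nat_lit 3) (nat_lit 58) (nat_lit 1) (nat_lit 59) (nat_lit 1) (nat_lit 365) (nat_lit 390) (nat_lit 265)) (XT.lf (nat_lit 0) (nat_lit 1492572725) (nat_lit 0) (nat_lit 1499991838) (nat_lit 152) (nat_lit 2968333289) (nat_lit 56) (nat_lit 3) (nat_lit 56) (nat_lit 1) (nat_lit 58) (nat_lit 1) (nat_lit 366) (nat_lit 390) (nat_lit 264))) (XT.nd (nat_lit 78) (nat_lit 152) (nat_lit 0) (XT.lf (nat_lit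 76) (nat_lit 1292653453) (nat_lit 0) (nat_lit 3217826058) (nat_lit 76) (nat_lit 1299523002) (nat_lit 56) (nat_lit 3) (nat_lit 55) (nat_lit 1) (nat_lit 56) (nat_lit 1) (nat_lit 367) (nat_lit 390) (nat_lit 263)) (XT.lf (nat_lit 0) (nat_lit 1708862075) (nat_lit 0) (nat_lit 1714919878) (nat_lit 152) (nat_lit 2238895408) (nat_lit 53) (nat_lit 3) (nat_lit 53) (nat_lit 1) (nat_lit 55) (nat_lit 1) (nat_lit 368) (nat_lit 390) (nat_lit 262))))))) (XT.nd (nat_lit 1014) (nat_lit 1596) (nat_lit 0) (XT.nd (nat_lit 468) (nat_lit 912) (nat_lit 0) (XT.nd (nat_lit 234) (nat_lit 380) (nat_lit 0) (XT.nd (nat_lit 78) (nat_lit 228) (nat_lit 0) (XT.lf (nat_lit 76) (nat_lit 943428155) (nat_lit 0) (nat_lit 3627127305) (nat_lit 76) (nat_lit 949037232) (nat_lit 53) (nat_lit 3) (nat_lit 52) (nat_lit 1) (nat_lit 53) (nat_lit 1) (nat_lit 369) (nat_lit 390) (nat_lit 261)) (XT.nd (nat_lit 78) (nat_lit 76) (nat_lit 0) (XT.lf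 (nat_lit 0) (nat_lit 1899066447) (nat_lit 0) (nat_lit 1904012723) (nat_lit 152) (nat_lit 1576367950) (nat_lit 50) (nat_lit 3) (nat_lit 50) (nat_lit 1) (nat_lit 52) (nat_lit 1) (nat_lit 370) (nat_lit 390) (nat_lit 260)) (XT.lf (nat_lit 76) (nat_lit 626512915) (nat_lit 0) (nat_lit 3986161031) (nat_lit 76) (nat_lit 631092800) (nat_lit 50) (nat_lit 3) (nat_lit 49) (nat_lit 1) (nat_lit 50) (nat_lit 1) (nat_lit 371) (nat_lit 390) (nat_lit 259)))) (XT.nd (nat_lit 78) (nat_lit 228) (nat_lit 0) (XT.lf (nat_lit 0) (nat_lit 2065300580) (nat_lit 0) (nat_lit 2069339280) (nat_lit 152) (nat_lit 975809818) (nat_lit 47) (nat_lit 3) (nat_lit 47) (nat_lit 1) (nat_lit 49) (nat_lit 1) (nat_lit 372) (nat_lit 390) (nat_lit 258)) (XT.nd (nat_lit 78) (nat_lit 152) (nat_lit 0) (XT.lf (nat_lit 76) (nat_lit 339524707) (nat_lit 0) (nat_lit 4298999545) (nat_lit 76) (nat_lit 343264243) (nat_lit 47) (nat_lit 3) (nat_lit 46)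 (nat_lit 1) (nat_lit 47) (nat_lit 1) (nat_lit 373) (nat_lit 390) (nat_lit 257)) (XT.lf (nat_lit 0) (nat_lit 2209529273) (nat_lit 0) (nat_lit 2212826925) (nat_lit 152) (nat_lit 432609916) (nat_lit 44) (nat_lit 3) (nat_lit 44) (nat_lit 1) (nat_lit 46) (nat_lit 1) (nat_lit 374) (nat_lit 390) (nat_lit 256))))) (XT.nd (nat_lit 234) (nat_lit 456) (nat_lit 0) (XT.nd (nat_lit 78) (nat_lit 380) (nat_lit 0) (XT.lf (nat_lit 76) (nat_lit 80237570) (nat_lit 0) (nat_lit 4569430647) (nat_lit 76) (nat_lit 83290950) (nat_lit 44) (nat_lit 3) (nat_lit 43) (nat_lit 1) (nat_lit 44) (nat_lit 1) (nat_lit 375) (nat_lit 390) (nat_lit 255)) (XT.nd (nat_lit 78) (nat_lit 152) (nat_lit 0) (XT.lf (nat_lit 76) (nat_lit 2275069636) (nat_lit 0) (nat_lit 59435811) (nat_lit 76) (nat_lit 2277762212) (nat_lit 41) (nat_lit 3) (nat_lit 40) (nat_lit 1) (nat_lit 41) (nat_lit 1) (nat_lit 376) (nat_lit 390) (nat_lit 254)) (XT.lf (nat_lit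 0) (nat_lit 153487759) (nat_lit 0) (nat_lit 155862165) (nat_lit 152) (nat_lit 4186778480) (nat_lit 38) (nat_lit 3) (nat_lit 38) (nat_lit 1) (nat_lit 40) (nat_lit 1) (nat_lit 377) (nat_lit 390) (nat_lit 253)))) (XT.nd (nat_lit 156) (nat_lit 228) (nat_lit 0) (XT.nd (nat_lit 78) (nat_lit 152) (nat_lit 0) (XT.lf (nat_lit 76) (nat_lit 1932062946) (nat_lit 0) (nat_lit 515119266) (nat_lit 76) (nat_lit 1934261470) (nat_lit 38) (nat_lit 3) (nat_lit 37) (nat_lit 1) (nat_lit 38) (nat_lit 1) (nat_lit 378) (nat_lit 390) (nat_lit 252)) (XT.lf (nat_lit 0) (nat_lit 367361423) (nat_lit 0) (nat_lit 369300157) (nat_lit 152) (nat_lit 3534306341) (nat_lit 35) (nat_lit 3) (nat_lit 35) (nat_lit 1) (nat_lit 37) (nat_lit 1) (nat_lit 379) (nat_lit 390) (nat_lit 251))) (XT.nd (nat_lit 78) (nat_lit 152) (nat_lit 0) (XT.lf (nat_lit 76) (nat_lit 1618214924) (nat_lit 0) (nat_lit 924000262) (nat_lit 76) (nat_lit 1620010047)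 (nat_lit 35) (nat_lit 3) (nat_lit 34) (nat_lit 1) (nat_lit 35) (nat_lit 1) (nat_lit 380) (nat_lit 390) (nat_lit 250)) (XT.lf (nat_lit 0) (nat_lit 558919757) (nat_lit 0) (nat_lit 560502758) (nat_lit 152) (nat_lit 2937713394) (nat_lit 32) (nat_lit 3) (nat_lit 32) (nat_lit 1) (nat_lit 34) (nat_lit 1) (nat_lit 381) (nat_lit 390) (nat_lit 249)))))) (XT.nd (nat_lit 546) (nat_lit 836) (nat_lit 0) (XT.nd (nat_lit 234) (nat_lit 456) (nat_lit 0) (XT.nd (nat_lit 78) (nat_lit 228) (nat_lit 0) (XT.lf (nat_lit 76) (nat_lit 1331440169) (nat_lit 0) (nat_lit 1289679818) (nat_lit 76) (nat_lit 1332905911) (nat_lit 32) (nat_lit 3) (nat_lit 31) (nat_lit 1) (nat_lit 32) (nat_lit 1) (nat_lit 382) (nat_lit 390) (nat_lit 248)) (XT.nd (nat_lit 78) (nat_lit 76) (nat_lit 0) (XT.lf (nat_lit 0) (nat_lit 729892470) (nat_lit 0) (nat_lit 731185011) (nat_lit 152) (nat_lit 2392982083) (nat_lit 29) (nat_lit 3) (nat_lit 29) (nat_lit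 1) (nat_lit 31) (nat_lit 1) (nat_lit 383) (nat_lit 390) (nat_lit 247)) (XT.lf (nat_lit 76) (nat_lit 1069789717) (nat_lit 0) (nat_lit 1615512829) (nat_lit 76) (nat_lit 1070986514) (nat_lit 29) (nat_lit 3) (nat_lit 28) (nat_lit 1) (nat_lit 29) (nat_lit 1) (nat_lit 384) (nat_lit 390) (nat_lit 246)))) (XT.nd (nat_lit 156) (nat_lit 228) (nat_lit 0) (XT.nd (nat_lit 78) (nat_lit 76) (nat_lit 0) (XT.lf (nat_lit 0) (nat_lit 881889901) (nat_lit 0) (nat_lit 882945278) (nat_lit 152) (nat_lit 1896360028) (nat_lit 26) (nat_lit 3) (nat_lit 26) (nat_lit 1) (nat_lit 28) (nat_lit 1) (nat_lit 385) (nat_lit 390) (nat_lit 245)) (XT.lf (nat_lit 76) (nat_lit 831442699) (nat_lit 0) (nat_lit 1904623779) (nat_lit 76) (nat_lit 832419900) (nat_lit 26) (nat_lit 3) (nat_lit 25) (nat_lit 1) (nat_lit 26) (nat_lit 1) (nat_lit 386) (nat_lit 390) (nat_lit 244))) (XT.nd (nat_lit 78) (nat_lit 76) (nat_lit 0) (XT.lf (nat_lit 0) (nat_lit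 1016410816) (nat_lit 0) (nat_lit 1017272545) (nat_lit 152) (nat_lit 1444343435) (nat_lit 23) (nat_lit 3) (nat_lit 23) (nat_lit 1) (nat_lit 25) (nat_lit 1) (nat_lit 387) (nat_lit 390) (nat_lit 243)) (XT.lf (nat_lit 76) (nat_lit 614698467) (nat_lit 0) (nat_lit 2159921506) (nat_lit 76) (nat_lit 615496364) (nat_lit 23) (nat_lit 3) (nat_lit 22) (nat_lit 1) (nat_lit 23) (nat_lit 1) (nat_lit 388) (nat_lit 390) (nat_lit 242))))) (XT.nd (nat_lit 234) (nat_lit 456) (nat_lit 0) (XT.nd (nat_lit 78) (nat_lit 228) (nat_lit 0) (XT.lf (nat_lit 0) (nat_lit 1134849695) (nat_lit 0) (nat_lit 1135553309) (nat_lit 152) (nat_lit 1033661498) (nat_lit 20) (nat_lit 3) (nat_lit 20) (nat_lit 1) (nat_lit 22) (nat_lit 1) (nat_lit 389) (nat_lit 390) (nat_lit 241)) (XT.nd (nat_lit 78) (nat_lit 152) (nat_lit 0) (XT.lf (nat_lit 76) (nat_lit 417969160) (nat_lit 0) (nat_lit 2384113062) (nat_lit 76) (nat_lit 418620654) (nat_lit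 20) (nat_lit 3) (nat_lit 19) (nat_lit 1) (nat_lit 20) (nat_lit 1) (nat_lit 390) (nat_lit 390) (nat_lit 240)) (XT.lf (nat_lit 0) (nat_lit 1238503567) (nat_lit 0) (nat_lit 1239078076) (nat_lit 152) (nat_lit 661261737) (nat_lit 17) (nat_lit 3) (nat_lit 17) (nat_lit 1) (nat_lit 19) (nat_lit 1) (nat_lit 391) (nat_lit 390) (nat_lit 239)))) (XT.nd (nat_lit 156) (nat_lit 228) (nat_lit 0) (XT.nd (nat_lit 78) (nat_lit 152) (nat_lit 0) (XT.lf (nat_lit 76) (nat_lit 239772697) (nat_lit 0) (nat_lit 2579716740) (nat_lit 76) (nat_lit 240304650) (nat_lit 17) (nat_lit 3) (nat_lit 16) (nat_lit 1) (nat_lit 17) (nat_lit 1) (nat_lit 392) (nat_lit 390) (nat_lit 238)) (XT.lf (nat_lit 0) (nat_lit 1328578387) (nat_lit 0) (nat_lit 1329047482) (nat_lit 152) (nat_lit 324296220) (nat_lit 14) (nat_lit 3) (nat_lit 14) (nat_lit 1) (nat_lit 16) (nat_lit 1) (nat_lit 393) (nat_lit 390) (nat_lit 237))) (XT.nd (nat_lit 78) (nat_lit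 152) (nat_lit 0) (XT.lf (nat_lit 76) (nat_lit 78726171) (nat_lit 0) (nat_lit 2749074296) (nat_lit 76) (nat_lit 79160518) (nat_lit 14) (nat_lit 3) (nat_lit 13) (nat_lit 1) (nat_lit 14) (nat_lit 1) (nat_lit 394) (nat_lit 390) (nat_lit 236)) (XT.lf (nat_lit 0) (nat_lit 1406195024) (nat_lit 0) (nat_lit 1406578046) (nat_lit 152) (nat_lit 20108616) (nat_lit 11) (nat_lit 3) (nat_lit 11) (nat_lit 1) (nat_lit 13) (nat_lit 1) (nat_lit 395) (nat_lit 390) (nat_lit 235))))))))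
noncomputable def ec148 : XT := (XT.nd (nat_lit 41184) (nat_lit 0) (nat_lit 15808) (XT.nd (nat_lit 1014) (nat_lit 0) (nat_lit 0) (XT.nd (nat_lit 468) (nat_lit 76) (nat_lit 0) (XT.nd (nat_lit 234) (nat_lit 304) (nat_lit 0) (XT.nd (nat_lit 78) (nat_lit 228) (nat_lit 0) (XT.lf (nat_lit 0) (nat_lit 67200769) (nat_lit 0) (nat_lit 67538531) (nat_lit 152) (nat_lit 2626844886) (nat_lit 8) (nat_lit 3) (nat_lit 8) (nat_lit 1) (nat_lit 10) (nat_lit 1) (nat_lit 396) (nat_lit 390) (nat_lit 234)) (XT.nd (nat_lit 78) (nat_lit 152) (nat_lit 0) (XT.lf (nat_lit 76) (nat_lit 1214319034) (nat_lit 0) (nat_lit 262169011) (nat_lit 76) (nat_lit 1214631777) (nat_lit 8) (nat_lit 3) (nat_lit 7) (nat_lit 1) (nat_lit 8) (nat_lit 1) (nat_lit 397) (nat_lit 390) (nat_lit 233)) (XT.lf (nat_lit 0) (nat_lit 199934056) (nat_lit 0) (nat_lit 200209843) (nat_lit 152) (nat_lit 2223139612) (nat_lit 5) (nat_lit 3) (nat_lit 5) (nat_lit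 1) (nat_lit 7) (nat_lit 1) (nat_lit 398) (nat_lit 390) (nat_lit 232)))) (XT.nd (nat_lit 78) (nat_lit 228) (nat_lit 0) (XT.lf (nat_lit 76) (nat_lit 1020010412) (nat_lit 0) (nat_lit 516193821) (nat_lit 76) (nat_lit 1020265770) (nat_lit 5) (nat_lit 3) (nat_lit 4) (nat_lit 1) (nat_lit 5) (nat_lit 1) (nat_lit 399) (nat_lit 390) (nat_lit 231)) (XT.nd (nat_lit 78) (nat_lit 76) (nat_lit 0) (XT.lf (nat_lit 0) (nat_lit 318897809) (nat_lit 0) (nat_lit 319122993) (nat_lit 152) (nat_lit 1853920226) (nat_lit 2) (nat_lit 3) (nat_lit 2) (nat_lit 1) (nat_lit 4) (nat_lit 1) (nat_lit 400) (nat_lit 390) (nat_lit 230)) (XT.lf (nat_lit 76) (nat_lit 842428091) (nat_lit 0) (nat_lit 743523645) (nat_lit 76) (nat_lit 842636595) (nat_lit 2) (nat_lit 3) (nat_lit 1) (nat_lit 1) (nat_lit 2) (nat_lit 1) (nat_lit 401) (nat_lit 390) (nat_lit 229))))) (XT.nd (nat_lit 234) (nat_lit 0) (nat_lit 0) (XT.nd (nat_lit 78) (nat_lit 0)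 (nat_lit 0) (XT.lf (nat_lit 0) (nat_lit 50360416806) (nat_lit 0) (nat_lit 0) (nat_lit 0) (nat_lit 0) (nat_lit 0) (nat_lit 0) (nat_lit 1) (nat_lit 0) (nat_lit 1) (nat_lit 0) (nat_lit 402) (nat_lit 390) (nat_lit 228)) (XT.nd (nat_lit 78) (nat_lit 0) (nat_lit 0) (XT.lf (nat_lit 0) (nat_lit 50360402447) (nat_lit 0) (nat_lit 0) (nat_lit 0) (nat_lit 0) (nat_lit 0) (nat_lit 0) (nat_lit 1) (nat_lit 0) (nat_lit 1) (nat_lit 0) (nat_lit 403) (nat_lit 390) (nat_lit 227)) (XT.lf (nat_lit 0) (nat_lit 50360389152) (nat_lit 0) (nat_lit 0) (nat_lit 0) (nat_lit 0) (nat_lit 0) (nat_lit 0) (nat_lit 1) (nat_lit 0) (nat_lit 1) (nat_lit 0) (nat_lit 404) (nat_lit 390) (nat_lit 226)))) (XT.nd (nat_lit 156) (nat_lit 0) (nat_lit 0) (XT.nd (nat_lit 78) (nat_lit 0) (nat_lit 0) (XT.lf (nat_lit 0) (nat_lit 50360376842) (nat_lit 0) (nat_lit 0) (nat_lit 0) (nat_lit 0) (nat_lit 0) (nat_lit 0) (nat_lit 1) (nat_lit 0) (nat_lit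 1) (nat_lit 0) (nat_lit 405) (nat_lit 390) (nat_lit 225)) (XT.lf (nat_lit 0) (nat_lit 50360365444) (nat_lit 0) (nat_lit 0) (nat_lit 0) (nat_lit 0) (nat_lit 0) (nat_lit 0) (nat_lit 1) (nat_lit 0) (nat_lit 1) (nat_lit 0) (nat_lit 406) (nat_lit 390) (nat_lit 224))) (XT.nd (nat_lit 78) (nat_lit 0) (nat_lit 0) (XT.lf (nat_lit 0) (nat_lit 50360354890) (nat_lit 0) (nat_lit 0) (nat_lit 0) (nat_lit 0) (nat_lit 0) (nat_lit 0) (nat_lit 1) (nat_lit 0) (nat_lit 1) (nat_lit 0) (nat_lit 407) (nat_lit 390) (nat_lit 223)) (XT.lf (nat_lit 0) (nat_lit 50360345118) (nat_lit 0) (nat_lit 0) (nat_lit 0) (nat_lit 0) (nat_lit 0) (nat_lit 0) (nat_lit 1) (nat_lit 0) (nat_lit 1) (nat_lit 0) (nat_lit 408) (nat_lit 390) (nat_lit 222)))))) (XT.nd (nat_lit 468) (nat_lit 0) (nat_lit 0) (XT.nd (nat_lit 234) (nat_lit 0) (nat_lit 0) (XT.nd (nat_lit 78) (nat_lit 0) (nat_lit 0) (XT.lf (nat_lit 0) (nat_lit 50360336070) (nat_lit 0)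 (nat_lit 0) (nat_lit 0) (nat_lit 0) (nat_lit 0) (nat_lit 0) (nat_lit 1) (nat_lit 0) (nat_lit 1) (nat_lit 0) (nat_lit 409) (nat_lit 390) (nat_lit 221)) (XT.nd (nat_lit 78) (nat_lit 0) (nat_lit 0) (XT.lf (nat_lit 0) (nat_lit 50360327692) (nat_lit 0) (nat_lit 0) (nat_lit 0) (nat_lit 0) (nat_lit 0) (nat_lit 0) (nat_lit 1) (nat_lit 0) (nat_lit 1) (nat_lit 0) (nat_lit 410) (nat_lit 390) (nat_lit 220)) (XT.lf (nat_lit 0) (nat_lit 50360319935) (nat_lit 0) (nat_lit 0) (nat_lit 0) (nat_lit 0) (nat_lit 0) (nat_lit 0) (nat_lit 1) (nat_lit 0) (nat_lit 1) (nat_lit 0) (nat_lit 411) (nat_lit 390) (nat_lit 219)))) (XT.nd (nat_lit 78) (nat_lit 0) (nat_lit 0) (XT.lf (nat_lit 0) (nat_lit 50360312752) (nat_lit 0) (nat_lit 0) (nat_lit 0) (nat_lit 0) (nat_lit 0) (nat_lit 0) (nat_lit 1) (nat_lit 0) (nat_lit 1) (nat_lit 0) (nat_lit 412) (nat_lit 390) (nat_lit 218)) (XT.nd (nat_lit 78) (nat_lit 0) (nat_lit 0) (XT.lf (nat_lit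 0) (nat_lit 50360306101) (nat_lit 0) (nat_lit 0) (nat_lit 0) (nat_lit 0) (nat_lit 0) (nat_lit 0) (nat_lit 1) (nat_lit 0) (nat_lit 1) (nat_lit 0) (nat_lit 413) (nat_lit 390) (nat_lit 217)) (XT.lf (nat_lit 0) (nat_lit 50360299943) (nat_lit 0) (nat_lit 0) (nat_lit 0) (nat_lit 0) (nat_lit 0) (nat_lit 0) (nat_lit 1) (nat_lit 0) (nat_lit 1) (nat_lit 0) (nat_lit 414) (nat_lit 390) (nat_lit 216))))) (XT.nd (nat_lit 39390) (nat_lit 0) (nat_lit 22268) (XT.nd (nat_lit 78) (nat_lit 0) (nat_lit 0) (XT.lf (nat_lit 0) (nat_lit 50360294241) (nat_lit 0) (nat_lit 0) (nat_lit 0) (nat_lit 0) (nat_lit 0) (nat_lit 0) (nat_lit 1) (nat_lit 0) (nat_lit 1) (nat_lit 0) (nat_lit 415) (nat_lit 390) (nat_lit 215)) (XT.nd (nat_lit 39234) (nat_lit 0) (nat_lit 22192) (XT.lf (nat_lit 0) (nat_lit 50360288962) (nat_lit 0) (nat_lit 0) (nat_lit 0) (nat_lit 0) (nat_lit 0) (nat_lit 0) (nat_lit 1) (nat_lit 0) (nat_lit 1) (nat_lit 0)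 (nat_lit 416) (nat_lit 390) (nat_lit 214)) (XT.lf (nat_lit 836) (nat_lit 27218313302) (nat_lit 0) (nat_lit 48326052703) (nat_lit 836) (nat_lit 27218313302) (nat_lit 303) (nat_lit 1) (nat_lit 292) (nat_lit 0) (nat_lit 303) (nat_lit 0) (nat_lit 238) (nat_lit 391) (nat_lit 391)))) (XT.nd (nat_lit 156) (nat_lit 0) (nat_lit 76) (XT.nd (nat_lit 78) (nat_lit 0) (nat_lit 0) (XT.lf (nat_lit 836) (nat_lit 10153266032) (nat_lit 0) (nat_lit 94878687937) (nat_lit 760) (nat_lit 92791039820) (nat_lit 304) (nat_lit 1) (nat_lit 293) (nat_lit 1) (nat_lit 303) (nat_lit 1) (nat_lit 239) (nat_lit 391) (nat_lit 390)) (XT.lf (nat_lit 836) (nat_lit 93251887954) (nat_lit 76) (nat_lit 63540289293) (nat_lit 0) (nat_lit 33698870980) (nat_lit 304) (nat_lit 1) (nat_lit 294) (nat_lit 1) (nat_lit 293) (nat_lit 1) (nat_lit 240) (nat_lit 391) (nat_lit 389))) (XT.nd (nat_lit 78) (nat_lit 0) (nat_lit 76) (XT.lf (nat_lit 836) (nat_lit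 80577270497) (nat_lit 76) (nat_lit 26629294823) (nat_lit 0) (nat_lit 76319446500) (nat_lit 305) (nat_lit 1) (nat_lit 295) (nat_lit 1) (nat_lit 294) (nat_lit 1) (nat_lit 241) (nat_lit 391) (nat_lit 388)) (XT.lf (nat_lit 836) (nat_lit 59634030609) (nat_lit 0) (nat_lit 111572452492) (nat_lit 760) (nat_lit 5703567830) (nat_lit 306) (nat_lit 1) (nat_lit 295) (nat_lit 1) (nat_lit 305) (nat_lit 1) (nat_lit 242) (nat_lit 391) (nat_lit 387))))))) (XT.nd (nat_lit 1014) (nat_lit 2812) (nat_lit 0) (XT.nd (nat_lit 468) (nat_lit 1900) (nat_lit 0) (XT.nd (nat_lit 234) (nat_lit 1292) (nat_lit 0) (XT.nd (nat_lit 78) (nat_lit 684) (nat_lit 0) (XT.lf (nat_lit 836) (nat_lit 14308600949) (nat_lit 0) (nat_lit 123039624902) (nat_lit 760) (nat_lit 33261822637) (nat_lit 307) (nat_lit 1) (nat_lit 296) (nat_lit 1) (nat_lit 306) (nat_lit 1) (nat_lit 243) (nat_lit 391) (nat_lit 386)) (XT.nd (nat_lit 78) (nat_lit 684) (nat_lit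 0) (XT.lf (nat_lit 836) (nat_lit 27495311223) (nat_lit 76) (nat_lit 106931453586) (nat_lit 0) (nat_lit 30177375485) (nat_lit 307) (nat_lit 1) (nat_lit 297) (nat_lit 1) (nat_lit 296) (nat_lit 1) (nat_lit 244) (nat_lit 391) (nat_lit 385)) (XT.lf (nat_lit 836) (nat_lit 5646909948) (nat_lit 0) (nat_lit 79938334799) (nat_lit 760) (nat_lit 73302615430) (nat_lit 298) (nat_lit 1) (nat_lit 287) (nat_lit 1) (nat_lit 297) (nat_lit 1) (nat_lit 245) (nat_lit 391) (nat_lit 384)))) (XT.nd (nat_lit 78) (nat_lit 760) (nat_lit 0) (XT.lf (nat_lit 76) (nat_lit 39100380779) (nat_lit 0) (nat_lit 16944014576) (nat_lit 532) (nat_lit 97397845049) (nat_lit 281) (nat_lit 1) (nat_lit 280) (nat_lit 1) (nat_lit 287) (nat_lit 1) (nat_lit 246) (nat_lit 391) (nat_lit 383)) (XT.nd (nat_lit 78) (nat_lit 380) (nat_lit 0) (XT.lf (nat_lit 456) (nat_lit 107755727987) (nat_lit 0) (nat_lit 35076812486) (nat_lit 380) (nat_lit 5423091946)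 (nat_lit 281) (nat_lit 1) (nat_lit 275) (nat_lit 1) (nat_lit 280) (nat_lit 1) (nat_lit 247) (nat_lit 391) (nat_lit 382)) (XT.lf (nat_lit 456) (nat_lit 77757559443) (nat_lit 0) (nat_lit 16349453398) (nat_lit 380) (nat_lit 49185026462) (nat_lit 276) (nat_lit 1) (nat_lit 270) (nat_lit 1) (nat_lit 275) (nat_lit 1) (nat_lit 248) (nat_lit 391) (nat_lit 381))))) (XT.nd (nat_lit 234) (nat_lit 1216) (nat_lit 0) (XT.nd (nat_lit 78) (nat_lit 380) (nat_lit 0) (XT.lf (nat_lit 380) (nat_lit 47314483206) (nat_lit 0) (nat_lit 301020006) (nat_lit 304) (nat_lit 90953616813) (nat_lit 271) (nat_lit 1) (nat_lit 266) (nat_lit 1) (nat_lit 270) (nat_lit 1) (nat_lit 249) (nat_lit 391) (nat_lit 380)) (XT.nd (nat_lit 78) (nat_lit 380) (nat_lit 0) (XT.lf (nat_lit 76) (nat_lit 3490638963) (nat_lit 0) (nat_lit 117721260025) (nat_lit 380) (nat_lit 12851564479) (nat_lit 267) (nat_lit 1) (nat_lit 266) (nat_lit 1) (nat_lit 271)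 (nat_lit 1) (nat_lit 250) (nat_lit 391) (nat_lit 379)) (XT.lf (nat_lit 76) (nat_lit 90129203399) (nat_lit 0) (nat_lit 14948892760) (nat_lit 380) (nat_lit 24653439086) (nat_lit 262) (nat_lit 1) (nat_lit 261) (nat_lit 1) (nat_lit 266) (nat_lit 1) (nat_lit 251) (nat_lit 391) (nat_lit 378)))) (XT.nd (nat_lit 156) (nat_lit 608) (nat_lit 0) (XT.nd (nat_lit 78) (nat_lit 304) (nat_lit 0) (XT.lf (nat_lit 76) (nat_lit 45093924393) (nat_lit 0) (nat_lit 45791112196) (nat_lit 380) (nat_lit 34705977111) (nat_lit 258) (nat_lit 1) (nat_lit 257) (nat_lit 1) (nat_lit 262) (nat_lit 1) (nat_lit 252) (nat_lit 391) (nat_lit 377)) (XT.lf (nat_lit 76) (nat_lit 2225736114) (nat_lit 0) (nat_lit 76562028557) (nat_lit 380) (nat_lit 42858767495) (nat_lit 254) (nat_lit 1) (nat_lit 253) (nat_lit 1) (nat_lit 258) (nat_lit 1) (nat_lit 253) (nat_lit 391) (nat_lit 376))) (XT.nd (nat_lit 78) (nat_lit 380) (nat_lit 0) (XT.lf (nat_lit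 304) (nat_lit 10051298849) (nat_lit 0) (nat_lit 67972122867) (nat_lit 228) (nat_lit 39833226169) (nat_lit 254) (nat_lit 1) (nat_lit 250) (nat_lit 1) (nat_lit 253) (nat_lit 1) (nat_lit 254) (nat_lit 391) (nat_lit 375)) (XT.lf (nat_lit 76) (nat_lit 34729939912) (nat_lit 0) (nat_lit 23804116618) (nat_lit 380) (nat_lit 55689274065) (nat_lit 246) (nat_lit 1) (nat_lit 245) (nat_lit 1) (nat_lit 250) (nat_lit 1) (nat_lit 255) (nat_lit 391) (nat_lit 374)))))) (XT.nd (nat_lit 546) (nat_lit 1216) (nat_lit 0) (XT.nd (nat_lit 234) (nat_lit 836) (nat_lit 0) (XT.nd (nat_lit 78) (nat_lit 532) (nat_lit 0) (XT.lf (nat_lit 304) (nat_lit 53770300618) (nat_lit 0) (nat_lit 50510247783) (nat_lit 228) (nat_lit 6465251769) (nat_lit 246) (nat_lit 1) (nat_lit 242) (nat_lit 1) (nat_lit 245) (nat_lit 1) (nat_lit 256) (nat_lit 391) (nat_lit 373)) (XT.nd (nat_lit 78) (nat_lit 304) (nat_lit 0) (XT.lf (nat_lit 304) (nat_lit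 17233121580) (nat_lit 0) (nat_lit 43487254967) (nat_lit 228) (nat_lit 46681535664) (nat_lit 243) (nat_lit 1) (nat_lit 239) (nat_lit 1) (nat_lit 242) (nat_lit 1) (nat_lit 257) (nat_lit 391) (nat_lit 372)) (XT.lf (nat_lit 76) (nat_lit 19641594524) (nat_lit 0) (nat_lit 17983586679) (nat_lit 304) (nat_lit 66571721012) (nat_lit 236) (nat_lit 1) (nat_lit 235) (nat_lit 1) (nat_lit 239) (nat_lit 1) (nat_lit 258) (nat_lit 391) (nat_lit 371)))) (XT.nd (nat_lit 156) (nat_lit 456) (nat_lit 0) (XT.nd (nat_lit 78) (nat_lit 152) (nat_lit 0) (XT.lf (nat_lit 304) (nat_lit 48875530021) (nat_lit 0) (nat_lit 32519966489) (nat_lit 228) (nat_lit 19713710606) (nat_lit 236) (nat_lit 1) (nat_lit 232) (nat_lit 1) (nat_lit 235) (nat_lit 1) (nat_lit 259) (nat_lit 391) (nat_lit 370)) (XT.lf (nat_lit 228) (nat_lit 12116316060) (nat_lit 0) (nat_lit 28371298749) (nat_lit 152) (nat_lit 57658463443) (nat_lit 233) (nat_lit 1)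 (nat_lit 230) (nat_lit 1) (nat_lit 232) (nat_lit 1) (nat_lit 260) (nat_lit 391) (nat_lit 369))) (XT.nd (nat_lit 78) (nat_lit 152) (nat_lit 0) (XT.lf (nat_lit 76) (nat_lit 2052581349) (nat_lit 0) (nat_lit 22968830889) (nat_lit 304) (nat_lit 70276395830) (nat_lit 227) (nat_lit 1) (nat_lit 226) (nat_lit 1) (nat_lit 230) (nat_lit 1) (nat_lit 261) (nat_lit 391) (nat_lit 368)) (XT.lf (nat_lit 228) (nat_lit 35207791284) (nat_lit 0) (nat_lit 22001849081) (nat_lit 152) (nat_lit 35330314752) (nat_lit 227) (nat_lit 1) (nat_lit 224) (nat_lit 1) (nat_lit 226) (nat_lit 1) (nat_lit 262) (nat_lit 391) (nat_lit 367))))) (XT.nd (nat_lit 234) (nat_lit 684) (nat_lit 0) (XT.nd (nat_lit 78) (nat_lit 304) (nat_lit 0) (XT.lf (nat_lit 76) (nat_lit 19102276208) (nat_lit 0) (nat_lit 882346114) (nat_lit 228) (nat_lit 69917823045) (nat_lit 222) (nat_lit 1) (nat_lit 221) (nat_lit 1) (nat_lit 224) (nat_lit 1) (nat_lit 263)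 (nat_lit 391) (nat_lit 366)) (XT.nd (nat_lit 78) (nat_lit 152) (nat_lit 0) (XT.lf (nat_lit 228) (nat_lit 52221934415) (nat_lit 0) (nat_lit 18096071189) (nat_lit 152) (nat_lit 17023653292) (nat_lit 222) (nat_lit 1) (nat_lit 219) (nat_lit 1) (nat_lit 221) (nat_lit 1) (nat_lit 264) (nat_lit 391) (nat_lit 365)) (XT.lf (nat_lit 228) (nat_lit 16222225508) (nat_lit 0) (nat_lit 16822299264) (nat_lit 152) (nat_lit 51834257729) (nat_lit 220) (nat_lit 1) (nat_lit 217) (nat_lit 1) (nat_lit 219) (nat_lit 1) (nat_lit 265) (nat_lit 391) (nat_lit 364)))) (XT.nd (nat_lit 156) (nat_lit 304) (nat_lit 0) (XT.nd (nat_lit 78) (nat_lit 152) (nat_lit 0) (XT.lf (nat_lit 228) (nat_lit 64396273433) (nat_lit 0) (nat_lit 16072341564) (nat_lit 152) (nat_lit 2038962993) (nat_lit 217) (nat_lit 1) (nat_lit 214) (nat_lit 1) (nat_lit 216) (nat_lit 1) (nat_lit 266) (nat_lit 391) (nat_lit 363)) (XT.lf (nat_lit 228) (nat_lit 28820787473)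 (nat_lit 0) (nat_lit 15343667456) (nat_lit 152) (nat_lit 36037806838) (nat_lit 215) (nat_lit 1) (nat_lit 212) (nat_lit 1) (nat_lit 214) (nat_lit 1) (nat_lit 267) (nat_lit 391) (nat_lit 362))) (XT.nd (nat_lit 78) (nat_lit 152) (nat_lit 0) (XT.lf (nat_lit 76) (nat_lit 9872232449) (nat_lit 0) (nat_lit 5426223810) (nat_lit 152) (nat_lit 62694107846) (nat_lit 211) (nat_lit 1) (nat_lit 210) (nat_lit 1) (nat_lit 212) (nat_lit 1) (nat_lit 268) (nat_lit 391) (nat_lit 361)) (XT.lf (nat_lit 228) (nat_lit 37814530669) (nat_lit 0) (nat_lit 15136462636) (nat_lit 152) (nat_lit 22887632757) (nat_lit 211) (nat_lit 1) (nat_lit 208) (nat_lit 1) (nat_lit 210) (nat_lit 1) (nat_lit 269) (nat_lit 391) (nat_lit 360))))))))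
noncomputable def ec149 : XT := (XT.nd (nat_lit 2106) (nat_lit 3192) (nat_lit 0) (XT.nd (nat_lit 1014) (nat_lit 1672) (nat_lit 0) (XT.nd (nat_lit 468) (nat_lit 836) (nat_lit 0) (XT.nd (nat_lit 234) (nat_lit 532) (nat_lit 0) (XT.nd (nat_lit 78) (nat_lit 304) (nat_lit 0) (XT.lf (nat_lit 152) (nat_lit 4072087615) (nat_lit 0) (nat_lit 15508233719) (nat_lit 76) (nat_lit 54189401387) (nat_lit 209) (nat_lit 1) (nat_lit 207) (nat_lit 1) (nat_lit 208) (nat_lit 1) (nat_lit 270) (nat_lit 391) (nat_lit 359)) (XT.nd (nat_lit 78) (nat_lit 76) (nat_lit 0) (XT.lf (nat_lit 228) (nat_lit 43956682412) (nat_lit 0) (nat_lit 15860784669) (nat_lit 152) (nat_lit 11940398353) (nat_lit 207) (nat_lit 1) (nat_lit 204) (nat_lit 1) (nat_lit 206) (nat_lit 1) (nat_lit 271) (nat_lit 391) (nat_lit 358)) (XT.lf (nat_lit 152) (nat_lit 11055429762) (nat_lit 0) (nat_lit 16453835390) (nat_lit 76) (nat_lit 42304546626) (nat_lit 205)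 (nat_lit 1) (nat_lit 203) (nat_lit 1) (nat_lit 204) (nat_lit 1) (nat_lit 272) (nat_lit 391) (nat_lit 357)))) (XT.nd (nat_lit 78) (nat_lit 304) (nat_lit 0) (XT.lf (nat_lit 228) (nat_lit 47856236609) (nat_lit 0) (nat_lit 17247408739) (nat_lit 152) (nat_lit 2830447420) (nat_lit 203) (nat_lit 1) (nat_lit 200) (nat_lit 1) (nat_lit 202) (nat_lit 1) (nat_lit 273) (nat_lit 391) (nat_lit 356)) (XT.nd (nat_lit 78) (nat_lit 228) (nat_lit 0) (XT.lf (nat_lit 152) (nat_lit 15910280144) (nat_lit 0) (nat_lit 17980630860) (nat_lit 76) (nat_lit 32213853004) (nat_lit 201) (nat_lit 1) (nat_lit 199) (nat_lit 1) (nat_lit 200) (nat_lit 1) (nat_lit 274) (nat_lit 391) (nat_lit 355)) (XT.lf (nat_lit 76) (nat_lit 4592340020) (nat_lit 0) (nat_lit 14414131183) (nat_lit 228) (nat_lit 45334682803) (nat_lit 197) (nat_lit 1) (nat_lit 196) (nat_lit 1) (nat_lit 199) (nat_lit 1) (nat_lit 275) (nat_lit 391) (nat_lit 354))))) (XT.nd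 (nat_lit 234) (nat_lit 456) (nat_lit 0) (XT.nd (nat_lit 78) (nat_lit 304) (nat_lit 0) (XT.lf (nat_lit 152) (nat_lit 19093771642) (nat_lit 0) (nat_lit 19894805027) (nat_lit 76) (nat_lit 23632765505) (nat_lit 197) (nat_lit 1) (nat_lit 195) (nat_lit 1) (nat_lit 196) (nat_lit 1) (nat_lit 276) (nat_lit 391) (nat_lit 353)) (XT.nd (nat_lit 78) (nat_lit 76) (nat_lit 0) (XT.lf (nat_lit 76) (nat_lit 10680072927) (nat_lit 0) (nat_lit 10344372815) (nat_lit 228) (nat_lit 39937522999) (nat_lit 193) (nat_lit 1) (nat_lit 192) (nat_lit 1) (nat_lit 195) (nat_lit 1) (nat_lit 277) (nat_lit 391) (nat_lit 352)) (XT.lf (nat_lit 152) (nat_lit 20974550992) (nat_lit 0) (nat_lit 22045063330) (nat_lit 76) (nat_lit 16325377350) (nat_lit 193) (nat_lit 1) (nat_lit 191) (nat_lit 1) (nat_lit 192) (nat_lit 1) (nat_lit 278) (nat_lit 391) (nat_lit 351)))) (XT.nd (nat_lit 156) (nat_lit 228) (nat_lit 0) (XT.nd (nat_lit 78) (nat_lit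 76) (nat_lit 0) (XT.lf (nat_lit 76) (nat_lit 15723537010) (nat_lit 0) (nat_lit 7491984046) (nat_lit 152) (nat_lit 34565894843) (nat_lit 190) (nat_lit 1) (nat_lit 189) (nat_lit 1) (nat_lit 191) (nat_lit 1) (nat_lit 279) (nat_lit 391) (nat_lit 350)) (XT.lf (nat_lit 152) (nat_lit 21849313030) (nat_lit 0) (nat_lit 24314344679) (nat_lit 76) (nat_lit 10095752155) (nat_lit 190) (nat_lit 1) (nat_lit 188) (nat_lit 1) (nat_lit 189) (nat_lit 1) (nat_lit 280) (nat_lit 391) (nat_lit 349))) (XT.nd (nat_lit 78) (nat_lit 76) (nat_lit 0) (XT.lf (nat_lit 76) (nat_lit 19888812371) (nat_lit 0) (nat_lit 5589117788) (nat_lit 152) (nat_lit 29306288985) (nat_lit 187) (nat_lit 1) (nat_lit 186) (nat_lit 1) (nat_lit 188) (nat_lit 1) (nat_lit 281) (nat_lit 391) (nat_lit 348)) (XT.lf (nat_lit 152) (nat_lit 21956282611) (nat_lit 0) (nat_lit 26613086484) (nat_lit 76) (nat_lit 4780822212) (nat_lit 187) (nat_lit 1) (nat_lit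 185) (nat_lit 1) (nat_lit 186) (nat_lit 1) (nat_lit 282) (nat_lit 391) (nat_lit 347)))))) (XT.nd (nat_lit 546) (nat_lit 836) (nat_lit 0) (XT.nd (nat_lit 234) (nat_lit 456) (nat_lit 0) (XT.nd (nat_lit 78) (nat_lit 228) (nat_lit 0) (XT.lf (nat_lit 76) (nat_lit 23313930106) (nat_lit 0) (nat_lit 4420400081) (nat_lit 152) (nat_lit 24222506414) (nat_lit 184) (nat_lit 1) (nat_lit 183) (nat_lit 1) (nat_lit 185) (nat_lit 1) (nat_lit 283) (nat_lit 391) (nat_lit 346)) (XT.nd (nat_lit 78) (nat_lit 152) (nat_lit 0) (XT.lf (nat_lit 152) (nat_lit 21486205367) (nat_lit 0) (nat_lit 28873755018) (nat_lit 76) (nat_lit 244574702) (nat_lit 184) (nat_lit 1) (nat_lit 182) (nat_lit 1) (nat_lit 183) (nat_lit 1) (nat_lit 284) (nat_lit 391) (nat_lit 345)) (XT.lf (nat_lit 76) (nat_lit 26113837255) (nat_lit 0) (nat_lit 3813077326) (nat_lit 152) (nat_lit 19360282229) (nat_lit 181) (nat_lit 1) (nat_lit 180) (nat_lit 1) (nat_lit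 182) (nat_lit 1) (nat_lit 285) (nat_lit 391) (nat_lit 344)))) (XT.nd (nat_lit 156) (nat_lit 228) (nat_lit 0) (XT.nd (nat_lit 78) (nat_lit 152) (nat_lit 0) (XT.lf (nat_lit 0) (nat_lit 3510632183) (nat_lit 0) (nat_lit 27476320674) (nat_lit 152) (nat_lit 17021219032) (nat_lit 179) (nat_lit 3) (nat_lit 179) (nat_lit 1) (nat_lit 181) (nat_lit 1) (nat_lit 286) (nat_lit 391) (nat_lit 343)) (XT.lf (nat_lit 76) (nat_lit 28384463023) (nat_lit 0) (nat_lit 3628985697) (nat_lit 152) (nat_lit 14751031627) (nat_lit 178) (nat_lit 1) (nat_lit 177) (nat_lit 1) (nat_lit 179) (nat_lit 1) (nat_lit 287) (nat_lit 391) (nat_lit 342))) (XT.nd (nat_lit 78) (nat_lit 152) (nat_lit 0) (XT.lf (nat_lit 0) (nat_lit 6706606242) (nat_lit 0) (nat_lit 26274906336) (nat_lit 152) (nat_lit 12572398536) (nat_lit 176) (nat_lit 3) (nat_lit 176) (nat_lit 1) (nat_lit 178) (nat_lit 1) (nat_lit 288) (nat_lit 391) (nat_lit 341)) (XT.lf (nat_lit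 76) (nat_lit 30206050401) (nat_lit 0) (nat_lit 3758007501) (nat_lit 152) (nat_lit 10414881004) (nat_lit 175) (nat_lit 1) (nat_lit 174) (nat_lit 1) (nat_lit 176) (nat_lit 1) (nat_lit 289) (nat_lit 391) (nat_lit 340))))) (XT.nd (nat_lit 234) (nat_lit 532) (nat_lit 0) (XT.nd (nat_lit 78) (nat_lit 228) (nat_lit 0) (XT.lf (nat_lit 0) (nat_lit 9428742006) (nat_lit 0) (nat_lit 25406516594) (nat_lit 152) (nat_lit 8397343754) (nat_lit 173) (nat_lit 3) (nat_lit 173) (nat_lit 1) (nat_lit 175) (nat_lit 1) (nat_lit 290) (nat_lit 391) (nat_lit 339)) (XT.nd (nat_lit 78) (nat_lit 76) (nat_lit 0) (XT.lf (nat_lit 76) (nat_lit 31645887239) (nat_lit 0) (nat_lit 4112740834) (nat_lit 152) (nat_lit 6363117019) (nat_lit 172) (nat_lit 1) (nat_lit 171) (nat_lit 1) (nat_lit 173) (nat_lit 1) (nat_lit 291) (nat_lit 391) (nat_lit 338)) (XT.lf (nat_lit 0) (nat_lit 11742435971) (nat_lit 0) (nat_lit 24788499225) (nat_lit 152)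 (nat_lit 4504837723) (nat_lit 170) (nat_lit 3) (nat_lit 170) (nat_lit 1) (nat_lit 172) (nat_lit 1) (nat_lit 292) (nat_lit 391) (nat_lit 337)))) (XT.nd (nat_lit 156) (nat_lit 304) (nat_lit 0) (XT.nd (nat_lit 78) (nat_lit 76) (nat_lit 0) (XT.lf (nat_lit 76) (nat_lit 32760546273) (nat_lit 0) (nat_lit 4624159110) (nat_lit 152) (nat_lit 2600162021) (nat_lit 169) (nat_lit 1) (nat_lit 168) (nat_lit 1) (nat_lit 170) (nat_lit 1) (nat_lit 293) (nat_lit 391) (nat_lit 336)) (XT.lf (nat_lit 0) (nat_lit 13702997979) (nat_lit 0) (nat_lit 24355280341) (nat_lit 152) (nat_lit 897423893) (nat_lit 167) (nat_lit 3) (nat_lit 167) (nat_lit 1) (nat_lit 169) (nat_lit 1) (nat_lit 294) (nat_lit 391) (nat_lit 335))) (XT.nd (nat_lit 78) (nat_lit 76) (nat_lit 0) (XT.lf (nat_lit 152) (nat_lit 32708072041) (nat_lit 0) (nat_lit 903761773) (nat_lit 76) (nat_lit 4348426608) (nat_lit 166) (nat_lit 1) (nat_lit 164) (nat_lit 1) (nat_lit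 165) (nat_lit 1) (nat_lit 295) (nat_lit 391) (nat_lit 334)) (XT.lf (nat_lit 76) (nat_lit 12889128690) (nat_lit 0) (nat_lit 2507380874) (nat_lit 76) (nat_lit 21586857445) (nat_lit 164) (nat_lit 3) (nat_lit 163) (nat_lit 1) (nat_lit 164) (nat_lit 1) (nat_lit 296) (nat_lit 391) (nat_lit 333))))))) (XT.nd (nat_lit 1014) (nat_lit 1672) (nat_lit 0) (XT.nd (nat_lit 468) (nat_lit 836) (nat_lit 0) (XT.nd (nat_lit 234) (nat_lit 304) (nat_lit 0) (XT.nd (nat_lit 78) (nat_lit 228) (nat_lit 0) (XT.lf (nat_lit 152) (nat_lit 30062151316) (nat_lit 0) (nat_lit 4201189426) (nat_lit 76) (nat_lit 1776684709) (nat_lit 163) (nat_lit 1) (nat_lit 161) (nat_lit 1) (nat_lit 162) (nat_lit 1) (nat_lit 297) (nat_lit 391) (nat_lit 332)) (XT.nd (nat_lit 78) (nat_lit 152) (nat_lit 0) (XT.lf (nat_lit 76) (nat_lit 11178126624) (nat_lit 0) (nat_lit 5655668407) (nat_lit 76) (nat_lit 18279936634) (nat_lit 161) (nat_lit 3) (nat_lit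 160) (nat_lit 1) (nat_lit 161) (nat_lit 1) (nat_lit 298) (nat_lit 391) (nat_lit 331)) (XT.lf (nat_lit 0) (nat_lit 471810149) (nat_lit 0) (nat_lit 6734429205) (nat_lit 152) (nat_lit 27013428631) (nat_lit 158) (nat_lit 3) (nat_lit 158) (nat_lit 1) (nat_lit 160) (nat_lit 1) (nat_lit 299) (nat_lit 391) (nat_lit 330)))) (XT.nd (nat_lit 78) (nat_lit 228) (nat_lit 0) (XT.lf (nat_lit 76) (nat_lit 9508133701) (nat_lit 0) (nat_lit 8526536244) (nat_lit 76) (nat_lit 15306855050) (nat_lit 158) (nat_lit 3) (nat_lit 157) (nat_lit 1) (nat_lit 158) (nat_lit 1) (nat_lit 300) (nat_lit 391) (nat_lit 329)) (XT.nd (nat_lit 78) (nat_lit 76) (nat_lit 0) (XT.lf (nat_lit 0) (nat_lit 2399522947) (nat_lit 0) (nat_lit 7513033837) (nat_lit 152) (nat_lit 22580094204) (nat_lit 155) (nat_lit 3) (nat_lit 155) (nat_lit 1) (nat_lit 157) (nat_lit 1) (nat_lit 301) (nat_lit 391) (nat_lit 328)) (XT.lf (nat_lit 76) (nat_lit 7897868786)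 (nat_lit 0) (nat_lit 11130727445) (nat_lit 76) (nat_lit 12632601092) (nat_lit 155) (nat_lit 3) (nat_lit 154) (nat_lit 1) (nat_lit 155) (nat_lit 1) (nat_lit 302) (nat_lit 391) (nat_lit 327))))) (XT.nd (nat_lit 234) (nat_lit 456) (nat_lit 0) (XT.nd (nat_lit 78) (nat_lit 228) (nat_lit 0) (XT.lf (nat_lit 0) (nat_lit 4092695838) (nat_lit 0) (nat_lit 8267944784) (nat_lit 152) (nat_lit 18494369477) (nat_lit 152) (nat_lit 3) (nat_lit 152) (nat_lit 1) (nat_lit 154) (nat_lit 1) (nat_lit 303) (nat_lit 391) (nat_lit 326)) (XT.nd (nat_lit 78) (nat_lit 152) (nat_lit 0) (XT.lf (nat_lit 76) (nat_lit 6360640695) (nat_lit 0) (nat_lit 13480343066) (nat_lit 76) (nat_lit 10226611942) (nat_lit 152) (nat_lit 3) (nat_lit 151) (nat_lit 1) (nat_lit 152) (nat_lit 1) (nat_lit 304) (nat_lit 391) (nat_lit 325)) (XT.lf (nat_lit 0) (nat_lit 5576905658) (nat_lit 0) (nat_lit 8986051378) (nat_lit 152) (nat_lit 14738811863) (nat_lit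 149) (nat_lit 3) (nat_lit 149) (nat_lit 1) (nat_lit 151) (nat_lit 1) (nat_lit 305) (nat_lit 391) (nat_lit 324)))) (XT.nd (nat_lit 156) (nat_lit 228) (nat_lit 0) (XT.nd (nat_lit 78) (nat_lit 152) (nat_lit 0) (XT.lf (nat_lit 76) (nat_lit 4905474685) (nat_lit 0) (nat_lit 15588356828) (nat_lit 76) (nat_lit 8062091093) (nat_lit 149) (nat_lit 3) (nat_lit 148) (nat_lit 1) (nat_lit 149) (nat_lit 1) (nat_lit 306) (nat_lit 391) (nat_lit 323)) (XT.lf (nat_lit 0) (nat_lit 6874513112) (nat_lit 0) (nat_lit 9658125464) (nat_lit 152) (nat_lit 11295649275) (nat_lit 146) (nat_lit 3) (nat_lit 146) (nat_lit 1) (nat_lit 148) (nat_lit 1) (nat_lit 307) (nat_lit 391) (nat_lit 322))) (XT.nd (nat_lit 78) (nat_lit 152) (nat_lit 0) (XT.lf (nat_lit 76) (nat_lit 3538023708) (nat_lit 0) (nat_lit 17468234343) (nat_lit 76) (nat_lit 6115442553) (nat_lit 146) (nat_lit 3) (nat_lit 145) (nat_lit 1) (nat_lit 146) (nat_lit 1) (nat_lit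 308) (nat_lit 391) (nat_lit 321)) (XT.lf (nat_lit 0) (nat_lit 8005147197) (nat_lit 0) (nat_lit 10278003322) (nat_lit 152) (nat_lit 8147081174) (nat_lit 143) (nat_lit 3) (nat_lit 143) (nat_lit 1) (nat_lit 145) (nat_lit 1) (nat_lit 309) (nat_lit 391) (nat_lit 320)))))) (XT.nd (nat_lit 546) (nat_lit 760) (nat_lit 0) (XT.nd (nat_lit 234) (nat_lit 608) (nat_lit 0) (XT.nd (nat_lit 78) (nat_lit 228) (nat_lit 0) (XT.lf (nat_lit 76) (nat_lit 2261304429) (nat_lit 0) (nat_lit 19133636726) (nat_lit 76) (nat_lit 4365800840) (nat_lit 143) (nat_lit 3) (nat_lit 142) (nat_lit 1) (nat_lit 143) (nat_lit 1) (nat_lit 310) (nat_lit 391) (nat_lit 319)) (XT.nd (nat_lit 78) (nat_lit 76) (nat_lit 0) (XT.lf (nat_lit 0) (nat_lit 8986107716) (nat_lit 0) (nat_lit 10841924657) (nat_lit 152) (nat_lit 5275508959) (nat_lit 140) (nat_lit 3) (nat_lit 140) (nat_lit 1) (nat_lit 142) (nat_lit 1) (nat_lit 311) (nat_lit 391) (nat_lit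 318)) (XT.lf (nat_lit 76) (nat_lit 1076290670) (nat_lit 0) (nat_lit 20598192213) (nat_lit 76) (nat_lit 2794639690) (nat_lit 140) (nat_lit 3) (nat_lit 139) (nat_lit 1) (nat_lit 140) (nat_lit 1) (nat_lit 312) (nat_lit 391) (nat_lit 317)))) (XT.nd (nat_lit 156) (nat_lit 304) (nat_lit 0) (XT.nd (nat_lit 78) (nat_lit 152) (nat_lit 0) (XT.lf (nat_lit 0) (nat_lit 9832700457) (nat_lit 0) (nat_lit 11347999416) (nat_lit 152) (nat_lit 2663709598) (nat_lit 137) (nat_lit 3) (nat_lit 137) (nat_lit 1) (nat_lit 139) (nat_lit 1) (nat_lit 313) (nat_lit 391) (nat_lit 316)) (XT.lf (nat_lit 76) (nat_lit 21857988262) (nat_lit 0) (nat_lit 17045498) (nat_lit 152) (nat_lit 1368111319) (nat_lit 136) (nat_lit 1) (nat_lit 135) (nat_lit 1) (nat_lit 137) (nat_lit 1) (nat_lit 314) (nat_lit 391) (nat_lit 315))) (XT.nd (nat_lit 78) (nat_lit 228) (nat_lit 0) (XT.lf (nat_lit 0) (nat_lit 10558517006) (nat_lit 0) (nat_lit 11795778550)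 (nat_lit 152) (nat_lit 294963825) (nat_lit 134) (nat_lit 3) (nat_lit 134) (nat_lit 1) (nat_lit 136) (nat_lit 1) (nat_lit 315) (nat_lit 391) (nat_lit 314)) (XT.lf (nat_lit 152) (nat_lit 21074187283) (nat_lit 0) (nat_lit 911953793) (nat_lit 76) (nat_lit 91737101) (nat_lit 133) (nat_lit 1) (nat_lit 131) (nat_lit 1) (nat_lit 132) (nat_lit 1) (nat_lit 316) (nat_lit 391) (nat_lit 313))))) (XT.nd (nat_lit 234) (nat_lit 456) (nat_lit 0) (XT.nd (nat_lit 78) (nat_lit 228) (nat_lit 0) (XT.lf (nat_lit 76) (nat_lit 9297539687) (nat_lit 0) (nat_lit 1907917191) (nat_lit 76) (nat_lit 10307780023) (nat_lit 131) (nat_lit 3) (nat_lit 130) (nat_lit 1) (nat_lit 131) (nat_lit 1) (nat_lit 317) (nat_lit 391) (nat_lit 312)) (XT.nd (nat_lit 78) (nat_lit 76) (nat_lit 0) (XT.lf (nat_lit 0) (nat_lit 1051037103) (nat_lit 0) (nat_lit 1941901597) (nat_lit 152) (nat_lit 17976899676) (nat_lit 128) (nat_lit 3) (nat_lit 128) (nat_lit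 1) (nat_lit 130) (nat_lit 1) (nat_lit 318) (nat_lit 391) (nat_lit 311)) (XT.lf (nat_lit 76) (nat_lit 7853813285) (nat_lit 0) (nat_lit 3902093778) (nat_lit 76) (nat_lit 8678687816) (nat_lit 128) (nat_lit 3) (nat_lit 127) (nat_lit 1) (nat_lit 128) (nat_lit 1) (nat_lit 319) (nat_lit 391) (nat_lit 310)))) (XT.nd (nat_lit 156) (nat_lit 228) (nat_lit 0) (XT.nd (nat_lit 78) (nat_lit 76) (nat_lit 0) (XT.lf (nat_lit 0) (nat_lit 2068128599) (nat_lit 0) (nat_lit 2795531184) (nat_lit 152) (nat_lit 15054257817) (nat_lit 125) (nat_lit 3) (nat_lit 125) (nat_lit 1) (nat_lit 127) (nat_lit 1) (nat_lit 320) (nat_lit 391) (nat_lit 309)) (XT.lf (nat_lit 76) (nat_lit 6521991629) (nat_lit 0) (nat_lit 5693066931) (nat_lit 76) (nat_lit 7195512542) (nat_lit 125) (nat_lit 3) (nat_lit 124) (nat_lit 1) (nat_lit 125) (nat_lit 1) (nat_lit 321) (nat_lit 391) (nat_lit 308))) (XT.nd (nat_lit 78) (nat_lit 76) (nat_lit 0) (XT.lf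 (nat_lit 0) (nat_lit 2973217377) (nat_lit 0) (nat_lit 3567151162) (nat_lit 152) (nat_lit 12378898241) (nat_lit 122) (nat_lit 3) (nat_lit 122) (nat_lit 1) (nat_lit 124) (nat_lit 1) (nat_lit 322) (nat_lit 391) (nat_lit 307)) (XT.lf (nat_lit 76) (nat_lit 5296525189) (nat_lit 0) (nat_lit 7295345067) (nat_lit 76) (nat_lit 5846463879) (nat_lit 122) (nat_lit 3) (nat_lit 121) (nat_lit 1) (nat_lit 122) (nat_lit 1) (nat_lit 323) (nat_lit 391) (nat_lit 306))))))))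
noncomputable def ec150 : XT := (XT.nd (nat_lit 2028) (nat_lit 3268) (nat_lit 0) (XT.nd (nat_lit 1014) (nat_lit 1520) (nat_lit 0) (XT.nd (nat_lit 468) (nat_lit 912) (nat_lit 0) (XT.nd (nat_lit 234) (nat_lit 304) (nat_lit 0) (XT.nd (nat_lit 78) (nat_lit 228) (nat_lit 0) (XT.lf (nat_lit 0) (nat_lit 3776056679) (nat_lit 0) (nat_lit 4261011432) (nat_lit 152) (nat_lit 9934060148) (nat_lit 119) (nat_lit 3) (nat_lit 119) (nat_lit 1) (nat_lit 121) (nat_lit 1) (nat_lit 324) (nat_lit 391) (nat_lit 305)) (XT.nd (nat_lit 78) (nat_lit 152) (nat_lit 0) (XT.lf (nat_lit 76) (nat_lit 4171747482) (nat_lit 0) (nat_lit 8722682453) (nat_lit 76) (nat_lit 4620779661) (nat_lit 119) (nat_lit 3) (nat_lit 118) (nat_lit 1) (nat_lit 119) (nat_lit 1) (nat_lit 325) (nat_lit 391) (nat_lit 304)) (XT.lf (nat_lit 0) (nat_lit 4485521218) (nat_lit 0) (nat_lit 4881493157) (nat_lit 152) (nat_lit 7703882034) (nat_lit 116) (nat_lit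 3) (nat_lit 116) (nat_lit 1) (nat_lit 118) (nat_lit 1) (nat_lit 326) (nat_lit 391) (nat_lit 303)))) (XT.nd (nat_lit 78) (nat_lit 228) (nat_lit 0) (XT.lf (nat_lit 76) (nat_lit 3141973696) (nat_lit 0) (nat_lit 9988081627) (nat_lit 76) (nat_lit 3508614380) (nat_lit 116) (nat_lit 3) (nat_lit 115) (nat_lit 1) (nat_lit 116) (nat_lit 1) (nat_lit 327) (nat_lit 391) (nat_lit 302)) (XT.nd (nat_lit 78) (nat_lit 76) (nat_lit 0) (XT.lf (nat_lit 0) (nat_lit 5109703244) (nat_lit 0) (nat_lit 5433019544) (nat_lit 152) (nat_lit 5673384878) (nat_lit 113) (nat_lit 3) (nat_lit 113) (nat_lit 1) (nat_lit 115) (nat_lit 1) (nat_lit 328) (nat_lit 391) (nat_lit 301)) (XT.lf (nat_lit 76) (nat_lit 2201576272) (nat_lit 0) (nat_lit 11103804311) (nat_lit 76) (nat_lit 2500943216) (nat_lit 113) (nat_lit 3) (nat_lit 112) (nat_lit 1) (nat_lit 113) (nat_lit 1) (nat_lit 329) (nat_lit 391) (nat_lit 300))))) (XT.nd (nat_lit 234) (nat_lit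 532) (nat_lit 0) (XT.nd (nat_lit 78) (nat_lit 228) (nat_lit 0) (XT.lf (nat_lit 0) (nat_lit 5655995285) (nat_lit 0) (nat_lit 5919987300) (nat_lit 152) (nat_lit 3828448915) (nat_lit 110) (nat_lit 3) (nat_lit 110) (nat_lit 1) (nat_lit 112) (nat_lit 1) (nat_lit 330) (nat_lit 391) (nat_lit 299)) (XT.nd (nat_lit 78) (nat_lit 152) (nat_lit 0) (XT.lf (nat_lit 76) (nat_lit 1345041985) (nat_lit 0) (nat_lit 12081388710) (nat_lit 76) (nat_lit 1589479035) (nat_lit 110) (nat_lit 3) (nat_lit 109) (nat_lit 1) (nat_lit 110) (nat_lit 1) (nat_lit 331) (nat_lit 391) (nat_lit 298)) (XT.lf (nat_lit 0) (nat_lit 6131161726) (nat_lit 0) (nat_lit 6346714681) (nat_lit 152) (nat_lit 2155785759) (nat_lit 107) (nat_lit 3) (nat_lit 107) (nat_lit 1) (nat_lit 109) (nat_lit 1) (nat_lit 332) (nat_lit 391) (nat_lit 297)))) (XT.nd (nat_lit 156) (nat_lit 304) (nat_lit 0) (XT.nd (nat_lit 78) (nat_lit 152) (nat_lit 0) (XT.lf (nat_lit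 76) (nat_lit 567014203) (nat_lit 0) (nat_lit 12931671492) (nat_lit 76) (nat_lit 766600272) (nat_lit 107) (nat_lit 3) (nat_lit 106) (nat_lit 1) (nat_lit 107) (nat_lit 1) (nat_lit 333) (nat_lit 391) (nat_lit 296)) (XT.lf (nat_lit 0) (nat_lit 6541401020) (nat_lit 0) (nat_lit 6717402845) (nat_lit 152) (nat_lit 642907276) (nat_lit 104) (nat_lit 3) (nat_lit 104) (nat_lit 1) (nat_lit 106) (nat_lit 1) (nat_lit 334) (nat_lit 391) (nat_lit 295))) (XT.nd (nat_lit 78) (nat_lit 76) (nat_lit 0) (XT.lf (nat_lit 152) (nat_lit 13417179767) (nat_lit 0) (nat_lit 113884213) (nat_lit 76) (nat_lit 21164013) (nat_lit 103) (nat_lit 1) (nat_lit 101) (nat_lit 1) (nat_lit 102) (nat_lit 1) (nat_lit 335) (nat_lit 391) (nat_lit 294)) (XT.lf (nat_lit 76) (nat_lit 6158266497) (nat_lit 0) (nat_lit 745777198) (nat_lit 76) (nat_lit 6301974303) (nat_lit 101) (nat_lit 3) (nat_lit 100) (nat_lit 1) (nat_lit 101) (nat_lit 1) (nat_lit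 336) (nat_lit 391) (nat_lit 293)))))) (XT.nd (nat_lit 468) (nat_lit 836) (nat_lit 0) (XT.nd (nat_lit 234) (nat_lit 304) (nat_lit 0) (XT.nd (nat_lit 78) (nat_lit 228) (nat_lit 0) (XT.lf (nat_lit 0) (nat_lit 655695377) (nat_lit 0) (nat_lit 782421837) (nat_lit 152) (nat_lit 11435022001) (nat_lit 98) (nat_lit 3) (nat_lit 98) (nat_lit 1) (nat_lit 100) (nat_lit 1) (nat_lit 337) (nat_lit 391) (nat_lit 292)) (XT.nd (nat_lit 78) (nat_lit 152) (nat_lit 0) (XT.lf (nat_lit 76) (nat_lit 5206715696) (nat_lit 0) (nat_lit 2014111897) (nat_lit 76) (nat_lit 5324055011) (nat_lit 98) (nat_lit 3) (nat_lit 97) (nat_lit 1) (nat_lit 98) (nat_lit 1) (nat_lit 338) (nat_lit 391) (nat_lit 291)) (XT.lf (nat_lit 0) (nat_lit 1261797933) (nat_lit 0) (nat_lit 1365271756) (nat_lit 152) (nat_lit 9601196590) (nat_lit 95) (nat_lit 3) (nat_lit 95) (nat_lit 1) (nat_lit 97) (nat_lit 1) (nat_lit 339) (nat_lit 391) (nat_lit 290)))) (XT.nd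 (nat_lit 78) (nat_lit 228) (nat_lit 0) (XT.lf (nat_lit 76) (nat_lit 4334879319) (nat_lit 0) (nat_lit 3151470929) (nat_lit 76) (nat_lit 4430688415) (nat_lit 95) (nat_lit 3) (nat_lit 94) (nat_lit 1) (nat_lit 95) (nat_lit 1) (nat_lit 340) (nat_lit 391) (nat_lit 289)) (XT.nd (nat_lit 78) (nat_lit 76) (nat_lit 0) (XT.lf (nat_lit 0) (nat_lit 1803396657) (nat_lit 0) (nat_lit 1887884395) (nat_lit 152) (nat_lit 7924602615) (nat_lit 92) (nat_lit 3) (nat_lit 92) (nat_lit 1) (nat_lit 94) (nat_lit 1) (nat_lit 341) (nat_lit 391) (nat_lit 288)) (XT.lf (nat_lit 76) (nat_lit 3537381655) (nat_lit 0) (nat_lit 4167801639) (nat_lit 76) (nat_lit 3615611042) (nat_lit 92) (nat_lit 3) (nat_lit 91) (nat_lit 1) (nat_lit 92) (nat_lit 1) (nat_lit 342) (nat_lit 391) (nat_lit 287))))) (XT.nd (nat_lit 234) (nat_lit 456) (nat_lit 0) (XT.nd (nat_lit 78) (nat_lit 228) (nat_lit 0) (XT.lf (nat_lit 0) (nat_lit 2285649073) (nat_lit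 0) (nat_lit 2354634424) (nat_lit 152) (nat_lit 6394056430) (nat_lit 89) (nat_lit 3) (nat_lit 89) (nat_lit 1) (nat_lit 91) (nat_lit 1) (nat_lit 343) (nat_lit 391) (nat_lit 286)) (XT.nd (nat_lit 78) (nat_lit 152) (nat_lit 0) (XT.lf (nat_lit 76) (nat_lit 2809133576) (nat_lit 0) (nat_lit 5072403072) (nat_lit 76) (nat_lit 2873008901) (nat_lit 89) (nat_lit 3) (nat_lit 88) (nat_lit 1) (nat_lit 89) (nat_lit 1) (nat_lit 344) (nat_lit 391) (nat_lit 285)) (XT.lf (nat_lit 0) (nat_lit 2713328374) (nat_lit 0) (nat_lit 2769655821) (nat_lit 152) (nat_lit 4999084987) (nat_lit 86) (nat_lit 3) (nat_lit 86) (nat_lit 1) (nat_lit 88) (nat_lit 1) (nat_lit 345) (nat_lit 391) (nat_lit 284)))) (XT.nd (nat_lit 156) (nat_lit 228) (nat_lit 0) (XT.nd (nat_lit 78) (nat_lit 152) (nat_lit 0) (XT.lf (nat_lit 76) (nat_lit 2145327485) (nat_lit 0) (nat_lit 5873961156) (nat_lit 76) (nat_lit 2197482528) (nat_lit 86) (nat_lit 3) (nat_lit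 85) (nat_lit 1) (nat_lit 86) (nat_lit 1) (nat_lit 346) (nat_lit 391) (nat_lit 283)) (XT.lf (nat_lit 0) (nat_lit 3090853810) (nat_lit 0) (nat_lit 3136845911) (nat_lit 152) (nat_lit 3729886732) (nat_lit 83) (nat_lit 3) (nat_lit 83) (nat_lit 1) (nat_lit 85) (nat_lit 1) (nat_lit 347) (nat_lit 391) (nat_lit 282))) (XT.nd (nat_lit 78) (nat_lit 152) (nat_lit 0) (XT.lf (nat_lit 76) (nat_lit 1541430138) (nat_lit 0) (nat_lit 6580582935) (nat_lit 76) (nat_lit 1584015417) (nat_lit 83) (nat_lit 3) (nat_lit 82) (nat_lit 1) (nat_lit 83) (nat_lit 1) (nat_lit 348) (nat_lit 391) (nat_lit 281)) (XT.lf (nat_lit 0) (nat_lit 3422318145) (nat_lit 0) (nat_lit 3459871301) (nat_lit 152) (nat_lit 2577293831) (nat_lit 80) (nat_lit 3) (nat_lit 80) (nat_lit 1) (nat_lit 82) (nat_lit 1) (nat_lit 349) (nat_lit 391) (nat_lit 280))))))) (XT.nd (nat_lit 1014) (nat_lit 1672) (nat_lit 0) (XT.nd (nat_lit 468) (nat_lit 836) (nat_lit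 0) (XT.nd (nat_lit 234) (nat_lit 456) (nat_lit 0) (XT.nd (nat_lit 78) (nat_lit 228) (nat_lit 0) (XT.lf (nat_lit 76) (nat_lit 993173941) (nat_lit 0) (nat_lit 7199829680) (nat_lit 76) (nat_lit 1027945382) (nat_lit 80) (nat_lit 3) (nat_lit 79) (nat_lit 1) (nat_lit 80) (nat_lit 1) (nat_lit 350) (nat_lit 391) (nat_lit 279)) (XT.nd (nat_lit 78) (nat_lit 76) (nat_lit 0) (XT.lf (nat_lit 0) (nat_lit 3711512557) (nat_lit 0) (nat_lit 3742175204) (nat_lit 152) (nat_lit 1532735834) (nat_lit 77) (nat_lit 3) (nat_lit 77) (nat_lit 1) (nat_lit 79) (nat_lit 1) (nat_lit 351) (nat_lit 391) (nat_lit 278)) (XT.lf (nat_lit 76) (nat_lit 496547158) (nat_lit 0) (nat_lit 7738748770) (nat_lit 76) (nat_lit 524938498) (nat_lit 77) (nat_lit 3) (nat_lit 76) (nat_lit 1) (nat_lit 77) (nat_lit 1) (nat_lit 352) (nat_lit 391) (nat_lit 277)))) (XT.nd (nat_lit 78) (nat_lit 304) (nat_lit 0) (XT.lf (nat_lit 0) (nat_lit 3961949286) (nat_lit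 0) (nat_lit 3986985741) (nat_lit 152) (nat_lit 588204864) (nat_lit 74) (nat_lit 3) (nat_lit 74) (nat_lit 1) (nat_lit 76) (nat_lit 1) (nat_lit 353) (nat_lit 391) (nat_lit 276)) (XT.nd (nat_lit 78) (nat_lit 228) (nat_lit 0) (XT.lf (nat_lit 76) (nat_lit 47783409) (nat_lit 0) (nat_lit 8203904253) (nat_lit 76) (nat_lit 70965311) (nat_lit 74) (nat_lit 3) (nat_lit 73) (nat_lit 1) (nat_lit 74) (nat_lit 1) (nat_lit 354) (nat_lit 391) (nat_lit 275)) (XT.lf (nat_lit 76) (nat_lit 3908637460) (nat_lit 0) (nat_lit 272499319) (nat_lit 76) (nat_lit 3929080054) (nat_lit 71) (nat_lit 3) (nat_lit 70) (nat_lit 1) (nat_lit 71) (nat_lit 1) (nat_lit 355) (nat_lit 391) (nat_lit 274))))) (XT.nd (nat_lit 234) (nat_lit 456) (nat_lit 0) (XT.nd (nat_lit 78) (nat_lit 228) (nat_lit 0) (XT.lf (nat_lit 0) (nat_lit 343863173) (nat_lit 0) (nat_lit 361890153) (nat_lit 152) (nat_lit 7200171298) (nat_lit 68) (nat_lit 3) (nat_lit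 68) (nat_lit 1) (nat_lit 70) (nat_lit 1) (nat_lit 356) (nat_lit 391) (nat_lit 273)) (XT.nd (nat_lit 78) (nat_lit 152) (nat_lit 0) (XT.lf (nat_lit 76) (nat_lit 3311686798) (nat_lit 0) (nat_lit 1064255427) (nat_lit 76) (nat_lit 3328378446) (nat_lit 68) (nat_lit 3) (nat_lit 67) (nat_lit 1) (nat_lit 68) (nat_lit 1) (nat_lit 357) (nat_lit 391) (nat_lit 272)) (XT.lf (nat_lit 0) (nat_lit 716649876) (nat_lit 0) (nat_lit 731369142) (nat_lit 152) (nat_lit 6061974948) (nat_lit 65) (nat_lit 3) (nat_lit 65) (nat_lit 1) (nat_lit 67) (nat_lit 1) (nat_lit 358) (nat_lit 391) (nat_lit 271)))) (XT.nd (nat_lit 156) (nat_lit 228) (nat_lit 0) (XT.nd (nat_lit 78) (nat_lit 152) (nat_lit 0) (XT.lf (nat_lit 76) (nat_lit 2765432587) (nat_lit 0) (nat_lit 1774343529) (nat_lit 76) (nat_lit 2779061537) (nat_lit 65) (nat_lit 3) (nat_lit 64) (nat_lit 1) (nat_lit 65) (nat_lit 1) (nat_lit 359) (nat_lit 391) (nat_lit 270)) (XT.lf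 (nat_lit 0) (nat_lit 1050261692) (nat_lit 0) (nat_lit 1062280167) (nat_lit 152) (nat_lit 5021446446) (nat_lit 62) (nat_lit 3) (nat_lit 62) (nat_lit 1) (nat_lit 64) (nat_lit 1) (nat_lit 360) (nat_lit 391) (nat_lit 269))) (XT.nd (nat_lit 78) (nat_lit 152) (nat_lit 0) (XT.lf (nat_lit 76) (nat_lit 2266284033) (nat_lit 0) (nat_lit 2409038957) (nat_lit 76) (nat_lit 2277412250) (nat_lit 62) (nat_lit 3) (nat_lit 61) (nat_lit 1) (nat_lit 62) (nat_lit 1) (nat_lit 361) (nat_lit 391) (nat_lit 268)) (XT.lf (nat_lit 0) (nat_lit 1347756701) (nat_lit 0) (nat_lit 1357569943) (nat_lit 152) (nat_lit 4071572558) (nat_lit 59) (nat_lit 3) (nat_lit 59) (nat_lit 1) (nat_lit 61) (nat_lit 1) (nat_lit 362) (nat_lit 391) (nat_lit 267)))))) (XT.nd (nat_lit 546) (nat_lit 912) (nat_lit 0) (XT.nd (nat_lit 234) (nat_lit 456) (nat_lit 0) (XT.nd (nat_lit 78) (nat_lit 228) (nat_lit 0) (XT.lf (nat_lit 76) (nat_lit 1810877838) (nat_lit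 0) (nat_lit 2974191556) (nat_lit 76) (nat_lit 1819964174) (nat_lit 59) (nat_lit 3) (nat_lit 58) (nat_lit 1) (nat_lit 59) (nat_lit 1) (nat_lit 363) (nat_lit 391) (nat_lit 266)) (XT.nd (nat_lit 78) (nat_lit 76) (nat_lit 0) (XT.lf (nat_lit 0) (nat_lit 1611978543) (nat_lit 0) (nat_lit 1619991185) (nat_lit 152) (nat_lit 3205799953) (nat_lit 56) (nat_lit 3) (nat_lit 56) (nat_lit 1) (nat_lit 58) (nat_lit 1) (nat_lit 364) (nat_lit 391) (nat_lit 265)) (XT.lf (nat_lit 76) (nat_lit 1396065729) (nat_lit 0) (nat_lit 3475252143) (nat_lit 76) (nat_lit 1403484842) (nat_lit 56) (nat_lit 3) (nat_lit 55) (nat_lit 1) (nat_lit 56) (nat_lit 1) (nat_lit 365) (nat_lit 391) (nat_lit 264)))) (XT.nd (nat_lit 156) (nat_lit 228) (nat_lit 0) (XT.nd (nat_lit 78) (nat_lit 76) (nat_lit 0) (XT.lf (nat_lit 0) (nat_lit 1845571041) (nat_lit 0) (nat_lit 1852113468) (nat_lit 152) (nat_lit 2418007041) (nat_lit 53) (nat_lit 3) (nat_lit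 53) (nat_lit 1) (nat_lit 55) (nat_lit 1) (nat_lit 366) (nat_lit 391) (nat_lit 263)) (XT.lf (nat_lit 76) (nat_lit 1018902407) (nat_lit 0) (nat_lit 3917297490) (nat_lit 76) (nat_lit 1024960210) (nat_lit 53) (nat_lit 3) (nat_lit 52) (nat_lit 1) (nat_lit 53) (nat_lit 1) (nat_lit 367) (nat_lit 391) (nat_lit 262))) (XT.nd (nat_lit 78) (nat_lit 76) (nat_lit 0) (XT.lf (nat_lit 0) (nat_lit 2050991763) (nat_lit 0) (nat_lit 2056333741) (nat_lit 152) (nat_lit 1702477386) (nat_lit 50) (nat_lit 3) (nat_lit 50) (nat_lit 1) (nat_lit 52) (nat_lit 1) (nat_lit 368) (nat_lit 391) (nat_lit 261)) (XT.lf (nat_lit 76) (nat_lit 676633948) (nat_lit 0) (nat_lit 4305053913) (nat_lit 76) (nat_lit 681580224) (nat_lit 50) (nat_lit 3) (nat_lit 49) (nat_lit 1) (nat_lit 50) (nat_lit 1) (nat_lit 369) (nat_lit 391) (nat_lit 260))))) (XT.nd (nat_lit 234) (nat_lit 532) (nat_lit 0) (XT.nd (nat_lit 78) (nat_lit 228) (nat_lit 0) (XT.lf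 (nat_lit 0) (nat_lit 2230524627) (nat_lit 0) (nat_lit 2234886422) (nat_lit 152) (nat_lit 1053874604) (nat_lit 47) (nat_lit 3) (nat_lit 47) (nat_lit 1) (nat_lit 49) (nat_lit 1) (nat_lit 370) (nat_lit 391) (nat_lit 259)) (XT.nd (nat_lit 78) (nat_lit 152) (nat_lit 0) (XT.lf (nat_lit 76) (nat_lit 366686683) (nat_lit 0) (nat_lit 4642919508) (nat_lit 76) (nat_lit 370725383) (nat_lit 47) (nat_lit 3) (nat_lit 46) (nat_lit 1) (nat_lit 47) (nat_lit 1) (nat_lit 371) (nat_lit 391) (nat_lit 258)) (XT.lf (nat_lit 0) (nat_lit 2386291615) (nat_lit 0) (nat_lit 2389853079) (nat_lit 152) (nat_lit 467218710) (nat_lit 44) (nat_lit 3) (nat_lit 44) (nat_lit 1) (nat_lit 46) (nat_lit 1) (nat_lit 372) (nat_lit 391) (nat_lit 257)))) (XT.nd (nat_lit 156) (nat_lit 228) (nat_lit 0) (XT.nd (nat_lit 78) (nat_lit 228) (nat_lit 0) (XT.lf (nat_lit 76) (nat_lit 86656575) (nat_lit 0) (nat_lit 4934985099) (nat_lit 76) (nat_lit 89954226)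 (nat_lit 44) (nat_lit 3) (nat_lit 43) (nat_lit 1) (nat_lit 44) (nat_lit 1) (nat_lit 373) (nat_lit 391) (nat_lit 256)) (XT.lf (nat_lit 76) (nat_lit 2457075207) (nat_lit 0) (nat_lit 64190676) (nat_lit 76) (nat_lit 2459983189) (nat_lit 41) (nat_lit 3) (nat_lit 40) (nat_lit 1) (nat_lit 41) (nat_lit 1) (nat_lit 374) (nat_lit 391) (nat_lit 255))) (XT.nd (nat_lit 78) (nat_lit 76) (nat_lit 0) (XT.lf (nat_lit 0) (nat_lit 165766780) (nat_lit 0) (nat_lit 168331138) (nat_lit 152) (nat_lit 4521720758) (nat_lit 38) (nat_lit 3) (nat_lit 38) (nat_lit 1) (nat_lit 40) (nat_lit 1) (nat_lit 375) (nat_lit 391) (nat_lit 254)) (XT.lf (nat_lit 76) (nat_lit 2086627982) (nat_lit 0) (nat_lit 556328807) (nat_lit 76) (nat_lit 2089002387) (nat_lit 38) (nat_lit 3) (nat_lit 37) (nat_lit 1) (nat_lit 38) (nat_lit 1) (nat_lit 376) (nat_lit 391) (nat_lit 253))))))))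
noncomputable def ec151 : XT := (XT.nd (nat_lit 2106) (nat_lit 0) (nat_lit 0) (XT.nd (nat_lit 1014) (nat_lit 1292) (nat_lit 0) (XT.nd (nat_lit 468) (nat_lit 836) (nat_lit 0) (XT.nd (nat_lit 234) (nat_lit 304) (nat_lit 0) (XT.nd (nat_lit 78) (nat_lit 228) (nat_lit 0) (XT.lf (nat_lit 0) (nat_lit 396750337) (nat_lit 0) (nat_lit 398844169) (nat_lit 152) (nat_lit 3817050848) (nat_lit 35) (nat_lit 3) (nat_lit 35) (nat_lit 1) (nat_lit 37) (nat_lit 1) (nat_lit 377) (nat_lit 391) (nat_lit 252)) (XT.nd (nat_lit 78) (nat_lit 152) (nat_lit 0) (XT.lf (nat_lit 76) (nat_lit 1747672118) (nat_lit 0) (nat_lit 997920283) (nat_lit 76) (nat_lit 1749610851) (nat_lit 35) (nat_lit 3) (nat_lit 34) (nat_lit 1) (nat_lit 35) (nat_lit 1) (nat_lit 378) (nat_lit 391) (nat_lit 251)) (XT.lf (nat_lit 0) (nat_lit 603633338) (nat_lit 0) (nat_lit 605342979) (nat_lit 152) (nat_lit 3172730466) (nat_lit 32) (nat_lit 3) (nat_lit 32)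 (nat_lit 1) (nat_lit 34) (nat_lit 1) (nat_lit 379) (nat_lit 391) (nat_lit 250)))) (XT.nd (nat_lit 78) (nat_lit 228) (nat_lit 0) (XT.lf (nat_lit 76) (nat_lit 1437955382) (nat_lit 0) (nat_lit 1392854204) (nat_lit 76) (nat_lit 1439538384) (nat_lit 32) (nat_lit 3) (nat_lit 31) (nat_lit 1) (nat_lit 32) (nat_lit 1) (nat_lit 380) (nat_lit 391) (nat_lit 249)) (XT.nd (nat_lit 78) (nat_lit 76) (nat_lit 0) (XT.lf (nat_lit 0) (nat_lit 788283868) (nat_lit 0) (nat_lit 789679812) (nat_lit 152) (nat_lit 2584420650) (nat_lit 29) (nat_lit 3) (nat_lit 29) (nat_lit 1) (nat_lit 31) (nat_lit 1) (nat_lit 381) (nat_lit 391) (nat_lit 248)) (XT.lf (nat_lit 76) (nat_lit 1155372894) (nat_lit 0) (nat_lit 1744753855) (nat_lit 76) (nat_lit 1156665436) (nat_lit 29) (nat_lit 3) (nat_lit 28) (nat_lit 1) (nat_lit 29) (nat_lit 1) (nat_lit 382) (nat_lit 391) (nat_lit 247))))) (XT.nd (nat_lit 234) (nat_lit 456) (nat_lit 0) (XT.nd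 (nat_lit 78) (nat_lit 228) (nat_lit 0) (XT.lf (nat_lit 0) (nat_lit 952441094) (nat_lit 0) (nat_lit 953580901) (nat_lit 152) (nat_lit 2048068830) (nat_lit 26) (nat_lit 3) (nat_lit 26) (nat_lit 1) (nat_lit 28) (nat_lit 1) (nat_lit 383) (nat_lit 391) (nat_lit 246)) (XT.nd (nat_lit 78) (nat_lit 152) (nat_lit 0) (XT.lf (nat_lit 76) (nat_lit 897958115) (nat_lit 0) (nat_lit 2056993682) (nat_lit 76) (nat_lit 899013492) (nat_lit 26) (nat_lit 3) (nat_lit 25) (nat_lit 1) (nat_lit 26) (nat_lit 1) (nat_lit 384) (nat_lit 391) (nat_lit 245)) (XT.lf (nat_lit 0) (nat_lit 1097723681) (nat_lit 0) (nat_lit 1098654348) (nat_lit 152) (nat_lit 1559890909) (nat_lit 23) (nat_lit 3) (nat_lit 23) (nat_lit 1) (nat_lit 25) (nat_lit 1) (nat_lit 385) (nat_lit 391) (nat_lit 244)))) (XT.nd (nat_lit 156) (nat_lit 228) (nat_lit 0) (XT.nd (nat_lit 78) (nat_lit 152) (nat_lit 0) (XT.lf (nat_lit 76) (nat_lit 663874344) (nat_lit 0)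 (nat_lit 2332715226) (nat_lit 76) (nat_lit 664736074) (nat_lit 23) (nat_lit 3) (nat_lit 22) (nat_lit 1) (nat_lit 23) (nat_lit 1) (nat_lit 386) (nat_lit 391) (nat_lit 243)) (XT.lf (nat_lit 0) (nat_lit 1225637671) (nat_lit 0) (nat_lit 1226397573) (nat_lit 152) (nat_lit 1116354417) (nat_lit 20) (nat_lit 3) (nat_lit 20) (nat_lit 1) (nat_lit 22) (nat_lit 1) (nat_lit 387) (nat_lit 391) (nat_lit 242))) (XT.nd (nat_lit 78) (nat_lit 152) (nat_lit 0) (XT.lf (nat_lit 76) (nat_lit 451406693) (nat_lit 0) (nat_lit 2574842107) (nat_lit 76) (nat_lit 452110306) (nat_lit 20) (nat_lit 3) (nat_lit 19) (nat_lit 1) (nat_lit 20) (nat_lit 1) (nat_lit 388) (nat_lit 391) (nat_lit 241)) (XT.lf (nat_lit 0) (nat_lit 1337583852) (nat_lit 0) (nat_lit 1338204322) (nat_lit 152) (nat_lit 714162676) (nat_lit 17) (nat_lit 3) (nat_lit 17) (nat_lit 1) (nat_lit 19) (nat_lit 1) (nat_lit 389) (nat_lit 391) (nat_lit 240)))))) (XT.nd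 (nat_lit 546) (nat_lit 380) (nat_lit 0) (XT.nd (nat_lit 234) (nat_lit 608) (nat_lit 0) (XT.nd (nat_lit 78) (nat_lit 228) (nat_lit 0) (XT.lf (nat_lit 76) (nat_lit 258954512) (nat_lit 0) (nat_lit 2786094079) (nat_lit 76) (nat_lit 259529022) (nat_lit 17) (nat_lit 3) (nat_lit 16) (nat_lit 1) (nat_lit 17) (nat_lit 1) (nat_lit 390) (nat_lit 391) (nat_lit 239)) (XT.nd (nat_lit 78) (nat_lit 76) (nat_lit 0) (XT.lf (nat_lit 0) (nat_lit 1434864658) (nat_lit 0) (nat_lit 1435371280) (nat_lit 152) (nat_lit 350239918) (nat_lit 14) (nat_lit 3) (nat_lit 14) (nat_lit 1) (nat_lit 16) (nat_lit 1) (nat_lit 391) (nat_lit 391) (nat_lit 238)) (XT.lf (nat_lit 76) (nat_lit 85024264) (nat_lit 0) (nat_lit 2969000240) (nat_lit 76) (nat_lit 85493359) (nat_lit 14) (nat_lit 3) (nat_lit 13) (nat_lit 1) (nat_lit 14) (nat_lit 1) (nat_lit 392) (nat_lit 391) (nat_lit 237)))) (XT.nd (nat_lit 156) (nat_lit 228) (nat_lit 0) (XT.nd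 (nat_lit 78) (nat_lit 228) (nat_lit 0) (XT.lf (nat_lit 0) (nat_lit 1518690626) (nat_lit 0) (nat_lit 1519104289) (nat_lit 152) (nat_lit 21717305) (nat_lit 11) (nat_lit 3) (nat_lit 11) (nat_lit 1) (nat_lit 13) (nat_lit 1) (nat_lit 393) (nat_lit 391) (nat_lit 236)) (XT.lf (nat_lit 0) (nat_lit 72576831) (nat_lit 0) (nat_lit 72941613) (nat_lit 152) (nat_lit 2836992477) (nat_lit 8) (nat_lit 3) (nat_lit 8) (nat_lit 1) (nat_lit 10) (nat_lit 1) (nat_lit 394) (nat_lit 391) (nat_lit 235))) (XT.nd (nat_lit 78) (nat_lit 152) (nat_lit 0) (XT.lf (nat_lit 76) (nat_lit 1311464557) (nat_lit 0) (nat_lit 283142532) (nat_lit 76) (nat_lit 1311802319) (nat_lit 8) (nat_lit 3) (nat_lit 7) (nat_lit 1) (nat_lit 8) (nat_lit 1) (nat_lit 395) (nat_lit 391) (nat_lit 234)) (XT.lf (nat_lit 0) (nat_lit 215928780) (nat_lit 0) (nat_lit 216226630) (nat_lit 152) (nat_lit 2400990781) (nat_lit 5) (nat_lit 3) (nat_lit 5) (nat_lit 1)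 (nat_lit 7) (nat_lit 1) (nat_lit 396) (nat_lit 391) (nat_lit 233))))) (XT.nd (nat_lit 234) (nat_lit 76) (nat_lit 0) (XT.nd (nat_lit 78) (nat_lit 228) (nat_lit 0) (XT.lf (nat_lit 76) (nat_lit 1101611245) (nat_lit 0) (nat_lit 557489326) (nat_lit 76) (nat_lit 1101887032) (nat_lit 5) (nat_lit 3) (nat_lit 4) (nat_lit 1) (nat_lit 5) (nat_lit 1) (nat_lit 397) (nat_lit 391) (nat_lit 232)) (XT.nd (nat_lit 78) (nat_lit 76) (nat_lit 0) (XT.lf (nat_lit 0) (nat_lit 344409634) (nat_lit 0) (nat_lit 344652832) (nat_lit 152) (nat_lit 2002233844) (nat_lit 2) (nat_lit 3) (nat_lit 2) (nat_lit 1) (nat_lit 4) (nat_lit 1) (nat_lit 398) (nat_lit 391) (nat_lit 231)) (XT.lf (nat_lit 76) (nat_lit 909822339) (nat_lit 0) (nat_lit 803005536) (nat_lit 76) (nat_lit 910047523) (nat_lit 2) (nat_lit 3) (nat_lit 1) (nat_lit 1) (nat_lit 2) (nat_lit 1) (nat_lit 399) (nat_lit 391) (nat_lit 230)))) (XT.nd (nat_lit 156) (nat_lit 0)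 (nat_lit 0) (XT.nd (nat_lit 78) (nat_lit 0) (nat_lit 0) (XT.lf (nat_lit 0) (nat_lit 54389250150) (nat_lit 0) (nat_lit 0) (nat_lit 0) (nat_lit 0) (nat_lit 0) (nat_lit 0) (nat_lit 1) (nat_lit 0) (nat_lit 1) (nat_lit 0) (nat_lit 400) (nat_lit 391) (nat_lit 229)) (XT.lf (nat_lit 0) (nat_lit 54389234643) (nat_lit 0) (nat_lit 0) (nat_lit 0) (nat_lit 0) (nat_lit 0) (nat_lit 0) (nat_lit 1) (nat_lit 0) (nat_lit 1) (nat_lit 0) (nat_lit 401) (nat_lit 391) (nat_lit 228))) (XT.nd (nat_lit 78) (nat_lit 0) (nat_lit 0) (XT.lf (nat_lit 0) (nat_lit 54389220285) (nat_lit 0) (nat_lit 0) (nat_lit 0) (nat_lit 0) (nat_lit 0) (nat_lit 0) (nat_lit 1) (nat_lit 0) (nat_lit 1) (nat_lit 0) (nat_lit 402) (nat_lit 391) (nat_lit 227)) (XT.lf (nat_lit 0) (nat_lit 54389206990) (nat_lit 0) (nat_lit 0) (nat_lit 0) (nat_lit 0) (nat_lit 0) (nat_lit 0) (nat_lit 1) (nat_lit 0) (nat_lit 1) (nat_lit 0) (nat_lit 403) (nat_lit 391) (nat_lit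 226))))))) (XT.nd (nat_lit 40014) (nat_lit 0) (nat_lit 19836) (XT.nd (nat_lit 468) (nat_lit 0) (nat_lit 0) (XT.nd (nat_lit 234) (nat_lit 0) (nat_lit 0) (XT.nd (nat_lit 78) (nat_lit 0) (nat_lit 0) (XT.lf (nat_lit 0) (nat_lit 54389194680) (nat_lit 0) (nat_lit 0) (nat_lit 0) (nat_lit 0) (nat_lit 0) (nat_lit 0) (nat_lit 1) (nat_lit 0) (nat_lit 1) (nat_lit 0) (nat_lit 404) (nat_lit 391) (nat_lit 225)) (XT.nd (nat_lit 78) (nat_lit 0) (nat_lit 0) (XT.lf (nat_lit 0) (nat_lit 54389183282) (nat_lit 0) (nat_lit 0) (nat_lit 0) (nat_lit 0) (nat_lit 0) (nat_lit 0) (nat_lit 1) (nat_lit 0) (nat_lit 1) (nat_lit 0) (nat_lit 405) (nat_lit 391) (nat_lit 224)) (XT.lf (nat_lit 0) (nat_lit 54389172728) (nat_lit 0) (nat_lit 0) (nat_lit 0) (nat_lit 0) (nat_lit 0) (nat_lit 0) (nat_lit 1) (nat_lit 0) (nat_lit 1) (nat_lit 0) (nat_lit 406) (nat_lit 391) (nat_lit 223)))) (XT.nd (nat_lit 78) (nat_lit 0) (nat_lit 0) (XT.lf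 (nat_lit 0) (nat_lit 54389162956) (nat_lit 0) (nat_lit 0) (nat_lit 0) (nat_lit 0) (nat_lit 0) (nat_lit 0) (nat_lit 1) (nat_lit 0) (nat_lit 1) (nat_lit 0) (nat_lit 407) (nat_lit 391) (nat_lit 222)) (XT.nd (nat_lit 78) (nat_lit 0) (nat_lit 0) (XT.lf (nat_lit 0) (nat_lit 54389153908) (nat_lit 0) (nat_lit 0) (nat_lit 0) (nat_lit 0) (nat_lit 0) (nat_lit 0) (nat_lit 1) (nat_lit 0) (nat_lit 1) (nat_lit 0) (nat_lit 408) (nat_lit 391) (nat_lit 221)) (XT.lf (nat_lit 0) (nat_lit 54389145530) (nat_lit 0) (nat_lit 0) (nat_lit 0) (nat_lit 0) (nat_lit 0) (nat_lit 0) (nat_lit 1) (nat_lit 0) (nat_lit 1) (nat_lit 0) (nat_lit 409) (nat_lit 391) (nat_lit 220))))) (XT.nd (nat_lit 234) (nat_lit 0) (nat_lit 0) (XT.nd (nat_lit 78) (nat_lit 0) (nat_lit 0) (XT.lf (nat_lit 0) (nat_lit 54389137772) (nat_lit 0) (nat_lit 0) (nat_lit 0) (nat_lit 0) (nat_lit 0) (nat_lit 0) (nat_lit 1) (nat_lit 0) (nat_lit 1) (nat_lit 0) (nat_lit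 410) (nat_lit 391) (nat_lit 219)) (XT.nd (nat_lit 78) (nat_lit 0) (nat_lit 0) (XT.lf (nat_lit 0) (nat_lit 54389130590) (nat_lit 0) (nat_lit 0) (nat_lit 0) (nat_lit 0) (nat_lit 0) (nat_lit 0) (nat_lit 1) (nat_lit 0) (nat_lit 1) (nat_lit 0) (nat_lit 411) (nat_lit 391) (nat_lit 218)) (XT.lf (nat_lit 0) (nat_lit 54389123939) (nat_lit 0) (nat_lit 0) (nat_lit 0) (nat_lit 0) (nat_lit 0) (nat_lit 0) (nat_lit 1) (nat_lit 0) (nat_lit 1) (nat_lit 0) (nat_lit 412) (nat_lit 391) (nat_lit 217)))) (XT.nd (nat_lit 156) (nat_lit 0) (nat_lit 0) (XT.nd (nat_lit 78) (nat_lit 0) (nat_lit 0) (XT.lf (nat_lit 0) (nat_lit 54389117781) (nat_lit 0) (nat_lit 0) (nat_lit 0) (nat_lit 0) (nat_lit 0) (nat_lit 0) (nat_lit 1) (nat_lit 0) (nat_lit 1) (nat_lit 0) (nat_lit 413) (nat_lit 391) (nat_lit 216)) (XT.lf (nat_lit 0) (nat_lit 54389112079) (nat_lit 0) (nat_lit 0) (nat_lit 0) (nat_lit 0) (nat_lit 0) (nat_lit 0) (nat_lit 1)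 (nat_lit 0) (nat_lit 1) (nat_lit 0) (nat_lit 414) (nat_lit 391) (nat_lit 215))) (XT.nd (nat_lit 78) (nat_lit 0) (nat_lit 0) (XT.lf (nat_lit 0) (nat_lit 54389106799) (nat_lit 0) (nat_lit 0) (nat_lit 0) (nat_lit 0) (nat_lit 0) (nat_lit 0) (nat_lit 1) (nat_lit 0) (nat_lit 1) (nat_lit 0) (nat_lit 415) (nat_lit 391) (nat_lit 214)) (XT.lf (nat_lit 0) (nat_lit 54389101911) (nat_lit 0) (nat_lit 0) (nat_lit 0) (nat_lit 0) (nat_lit 0) (nat_lit 0) (nat_lit 1) (nat_lit 0) (nat_lit 1) (nat_lit 0) (nat_lit 416) (nat_lit 391) (nat_lit 213)))))) (XT.nd (nat_lit 546) (nat_lit 2356) (nat_lit 0) (XT.nd (nat_lit 234) (nat_lit 0) (nat_lit 152) (XT.nd (nat_lit 78) (nat_lit 0) (nat_lit 76) (XT.lf (nat_lit 836) (nat_lit 29395778366) (nat_lit 0) (nat_lit 52192136920) (nat_lit 836) (nat_lit 29395778366) (nat_lit 303) (nat_lit 1) (nat_lit 292) (nat_lit 0) (nat_lit 303) (nat_lit 0) (nat_lit 236) (nat_lit 392) (nat_lit 392))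 (XT.nd (nat_lit 78) (nat_lit 0) (nat_lit 0) (XT.lf (nat_lit 836) (nat_lit 10965527314) (nat_lit 0) (nat_lit 102468982972) (nat_lit 760) (nat_lit 100214323005) (nat_lit 304) (nat_lit 1) (nat_lit 293) (nat_lit 1) (nat_lit 303) (nat_lit 1) (nat_lit 237) (nat_lit 392) (nat_lit 391)) (XT.lf (nat_lit 836) (nat_lit 100712038991) (nat_lit 76) (nat_lit 68623512436) (nat_lit 0) (nat_lit 36394780659) (nat_lit 304) (nat_lit 1) (nat_lit 294) (nat_lit 1) (nat_lit 293) (nat_lit 1) (nat_lit 238) (nat_lit 392) (nat_lit 390)))) (XT.nd (nat_lit 156) (nat_lit 0) (nat_lit 152) (XT.nd (nat_lit 78) (nat_lit 0) (nat_lit 76) (XT.lf (nat_lit 836) (nat_lit 87023452137) (nat_lit 76) (nat_lit 28759638409) (nat_lit 0) (nat_lit 82425002220) (nat_lit 305) (nat_lit 1) (nat_lit 295) (nat_lit 1) (nat_lit 294) (nat_lit 1) (nat_lit 239) (nat_lit 392) (nat_lit 389)) (XT.lf (nat_lit 836) (nat_lit 64404753058) (nat_lit 0) (nat_lit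 120498248691) (nat_lit 760) (nat_lit 6159853257) (nat_lit 306) (nat_lit 1) (nat_lit 295) (nat_lit 1) (nat_lit 305) (nat_lit 1) (nat_lit 240) (nat_lit 392) (nat_lit 388))) (XT.nd (nat_lit 78) (nat_lit 0) (nat_lit 0) (XT.lf (nat_lit 836) (nat_lit 15453289025) (nat_lit 0) (nat_lit 132882794894) (nat_lit 760) (nat_lit 35922768448) (nat_lit 307) (nat_lit 1) (nat_lit 296) (nat_lit 1) (nat_lit 306) (nat_lit 1) (nat_lit 241) (nat_lit 392) (nat_lit 387)) (XT.lf (nat_lit 836) (nat_lit 29694936121) (nat_lit 76) (nat_lit 115485969873) (nat_lit 0) (nat_lit 32591565524) (nat_lit 307) (nat_lit 1) (nat_lit 297) (nat_lit 1) (nat_lit 296) (nat_lit 1) (nat_lit 242) (nat_lit 392) (nat_lit 386))))) (XT.nd (nat_lit 234) (nat_lit 1064) (nat_lit 0) (XT.nd (nat_lit 78) (nat_lit 912) (nat_lit 0) (XT.lf (nat_lit 836) (nat_lit 6098662744) (nat_lit 0) (nat_lit 86333401583) (nat_lit 760) (nat_lit 79166824665) (nat_lit 298)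 (nat_lit 1) (nat_lit 287) (nat_lit 1) (nat_lit 297) (nat_lit 1) (nat_lit 243) (nat_lit 392) (nat_lit 385)) (XT.nd (nat_lit 78) (nat_lit 380) (nat_lit 0) (XT.lf (nat_lit 76) (nat_lit 42228411241) (nat_lit 0) (nat_lit 18299535742) (nat_lit 532) (nat_lit 105189672653) (nat_lit 281) (nat_lit 1) (nat_lit 280) (nat_lit 1) (nat_lit 287) (nat_lit 1) (nat_lit 244) (nat_lit 392) (nat_lit 384)) (XT.lf (nat_lit 456) (nat_lit 116376186226) (nat_lit 0) (nat_lit 37882957484) (nat_lit 380) (nat_lit 5856939302) (nat_lit 281) (nat_lit 1) (nat_lit 275) (nat_lit 1) (nat_lit 280) (nat_lit 1) (nat_lit 245) (nat_lit 392) (nat_lit 383)))) (XT.nd (nat_lit 156) (nat_lit 380) (nat_lit 0) (XT.nd (nat_lit 78) (nat_lit 304) (nat_lit 0) (XT.lf (nat_lit 456) (nat_lit 83978164199) (nat_lit 0) (nat_lit 17657409669) (nat_lit 380) (nat_lit 53119828579) (nat_lit 276) (nat_lit 1) (nat_lit 270) (nat_lit 1) (nat_lit 275) (nat_lit 1)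 (nat_lit 246) (nat_lit 392) (nat_lit 382)) (XT.lf (nat_lit 380) (nat_lit 51099641862) (nat_lit 0) (nat_lit 325101606) (nat_lit 304) (nat_lit 98229906159) (nat_lit 271) (nat_lit 1) (nat_lit 266) (nat_lit 1) (nat_lit 270) (nat_lit 1) (nat_lit 247) (nat_lit 392) (nat_lit 381))) (XT.nd (nat_lit 78) (nat_lit 380) (nat_lit 0) (XT.lf (nat_lit 76) (nat_lit 3769890080) (nat_lit 0) (nat_lit 127138960827) (nat_lit 380) (nat_lit 13879689637) (nat_lit 267) (nat_lit 1) (nat_lit 266) (nat_lit 1) (nat_lit 271) (nat_lit 1) (nat_lit 248) (nat_lit 392) (nat_lit 380)) (XT.lf (nat_lit 76) (nat_lit 97339539671) (nat_lit 0) (nat_lit 16144804181) (nat_lit 380) (nat_lit 26625714213) (nat_lit 262) (nat_lit 1) (nat_lit 261) (nat_lit 1) (nat_lit 266) (nat_lit 1) (nat_lit 249) (nat_lit 392) (nat_lit 379))))))))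
noncomputable def ec152 : XT := (XT.nd (nat_lit 2028) (nat_lit 3116) (nat_lit 0) (XT.nd (nat_lit 1014) (nat_lit 2052) (nat_lit 0) (XT.nd (nat_lit 468) (nat_lit 1520) (nat_lit 0) (XT.nd (nat_lit 234) (nat_lit 836) (nat_lit 0) (XT.nd (nat_lit 78) (nat_lit 532) (nat_lit 0) (XT.lf (nat_lit 76) (nat_lit 48701438344) (nat_lit 0) (nat_lit 49454401171) (nat_lit 380) (nat_lit 37482455280) (nat_lit 258) (nat_lit 1) (nat_lit 257) (nat_lit 1) (nat_lit 262) (nat_lit 1) (nat_lit 250) (nat_lit 392) (nat_lit 378)) (XT.nd (nat_lit 78) (nat_lit 228) (nat_lit 0) (XT.lf (nat_lit 76) (nat_lit 2403795003) (nat_lit 0) (nat_lit 82686990841) (nat_lit 380) (nat_lit 46287468894) (nat_lit 254) (nat_lit 1) (nat_lit 253) (nat_lit 1) (nat_lit 258) (nat_lit 1) (nat_lit 251) (nat_lit 392) (nat_lit 377)) (XT.lf (nat_lit 304) (nat_lit 10855402756) (nat_lit 0) (nat_lit 73409892696) (nat_lit 228) (nat_lit 43019884263) (nat_lit 254)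 (nat_lit 1) (nat_lit 250) (nat_lit 1) (nat_lit 253) (nat_lit 1) (nat_lit 252) (nat_lit 392) (nat_lit 376)))) (XT.nd (nat_lit 78) (nat_lit 456) (nat_lit 0) (XT.lf (nat_lit 76) (nat_lit 37508335105) (nat_lit 0) (nat_lit 25708445948) (nat_lit 380) (nat_lit 60144415990) (nat_lit 246) (nat_lit 1) (nat_lit 245) (nat_lit 1) (nat_lit 250) (nat_lit 1) (nat_lit 253) (nat_lit 392) (nat_lit 375)) (XT.nd (nat_lit 78) (nat_lit 228) (nat_lit 0) (XT.lf (nat_lit 304) (nat_lit 58071924668) (nat_lit 0) (nat_lit 54551067606) (nat_lit 228) (nat_lit 6982471911) (nat_lit 246) (nat_lit 1) (nat_lit 242) (nat_lit 1) (nat_lit 245) (nat_lit 1) (nat_lit 254) (nat_lit 392) (nat_lit 374)) (XT.lf (nat_lit 304) (nat_lit 18611771307) (nat_lit 0) (nat_lit 46966235364) (nat_lit 228) (nat_lit 50416058517) (nat_lit 243) (nat_lit 1) (nat_lit 239) (nat_lit 1) (nat_lit 242) (nat_lit 1) (nat_lit 255) (nat_lit 392) (nat_lit 373))))) (XT.nd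 (nat_lit 234) (nat_lit 836) (nat_lit 0) (XT.nd (nat_lit 78) (nat_lit 380) (nat_lit 0) (XT.lf (nat_lit 76) (nat_lit 21212922086) (nat_lit 0) (nat_lit 19422273614) (nat_lit 304) (nat_lit 71897458693) (nat_lit 236) (nat_lit 1) (nat_lit 235) (nat_lit 1) (nat_lit 239) (nat_lit 1) (nat_lit 256) (nat_lit 392) (nat_lit 372)) (XT.nd (nat_lit 78) (nat_lit 152) (nat_lit 0) (XT.lf (nat_lit 304) (nat_lit 52785572423) (nat_lit 0) (nat_lit 35121563808) (nat_lit 228) (nat_lit 21290807454) (nat_lit 236) (nat_lit 1) (nat_lit 232) (nat_lit 1) (nat_lit 235) (nat_lit 1) (nat_lit 257) (nat_lit 392) (nat_lit 371)) (XT.lf (nat_lit 228) (nat_lit 13085621345) (nat_lit 0) (nat_lit 30641002649) (nat_lit 152) (nat_lit 62271140518) (nat_lit 233) (nat_lit 1) (nat_lit 230) (nat_lit 1) (nat_lit 232) (nat_lit 1) (nat_lit 258) (nat_lit 392) (nat_lit 370)))) (XT.nd (nat_lit 156) (nat_lit 380) (nat_lit 0) (XT.nd (nat_lit 78) (nat_lit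 152) (nat_lit 0) (XT.lf (nat_lit 76) (nat_lit 2216787857) (nat_lit 0) (nat_lit 24806337360) (nat_lit 304) (nat_lit 75898507497) (nat_lit 227) (nat_lit 1) (nat_lit 226) (nat_lit 1) (nat_lit 230) (nat_lit 1) (nat_lit 259) (nat_lit 392) (nat_lit 369)) (XT.lf (nat_lit 228) (nat_lit 38024414586) (nat_lit 0) (nat_lit 23761997008) (nat_lit 152) (nat_lit 38156739932) (nat_lit 227) (nat_lit 1) (nat_lit 224) (nat_lit 1) (nat_lit 226) (nat_lit 1) (nat_lit 260) (nat_lit 392) (nat_lit 368))) (XT.nd (nat_lit 78) (nat_lit 152) (nat_lit 0) (XT.lf (nat_lit 76) (nat_lit 20630458304) (nat_lit 0) (nat_lit 952933803) (nat_lit 228) (nat_lit 75511248888) (nat_lit 222) (nat_lit 1) (nat_lit 221) (nat_lit 1) (nat_lit 224) (nat_lit 1) (nat_lit 261) (nat_lit 392) (nat_lit 367)) (XT.lf (nat_lit 228) (nat_lit 56399689168) (nat_lit 0) (nat_lit 19543756884) (nat_lit 152) (nat_lit 18385545556) (nat_lit 222) (nat_lit 1) (nat_lit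 219) (nat_lit 1) (nat_lit 221) (nat_lit 1) (nat_lit 262) (nat_lit 392) (nat_lit 366)))))) (XT.nd (nat_lit 468) (nat_lit 1140) (nat_lit 0) (XT.nd (nat_lit 234) (nat_lit 380) (nat_lit 0) (XT.nd (nat_lit 78) (nat_lit 380) (nat_lit 0) (XT.lf (nat_lit 228) (nat_lit 17520003549) (nat_lit 0) (nat_lit 18168083205) (nat_lit 152) (nat_lit 55980998347) (nat_lit 220) (nat_lit 1) (nat_lit 217) (nat_lit 1) (nat_lit 219) (nat_lit 1) (nat_lit 263) (nat_lit 392) (nat_lit 365)) (XT.nd (nat_lit 78) (nat_lit 152) (nat_lit 0) (XT.lf (nat_lit 228) (nat_lit 69547975308) (nat_lit 0) (nat_lit 17358128889) (nat_lit 152) (nat_lit 2202080032) (nat_lit 217) (nat_lit 1) (nat_lit 214) (nat_lit 1) (nat_lit 216) (nat_lit 1) (nat_lit 264) (nat_lit 392) (nat_lit 364)) (XT.lf (nat_lit 228) (nat_lit 31126450471) (nat_lit 0) (nat_lit 16571160852) (nat_lit 152) (nat_lit 38920831385) (nat_lit 215) (nat_lit 1) (nat_lit 212) (nat_lit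 1) (nat_lit 214) (nat_lit 1) (nat_lit 265) (nat_lit 392) (nat_lit 363)))) (XT.nd (nat_lit 78) (nat_lit 228) (nat_lit 0) (XT.lf (nat_lit 76) (nat_lit 10662011045) (nat_lit 0) (nat_lit 5860321714) (nat_lit 152) (nat_lit 67709636474) (nat_lit 211) (nat_lit 1) (nat_lit 210) (nat_lit 1) (nat_lit 212) (nat_lit 1) (nat_lit 266) (nat_lit 392) (nat_lit 362)) (XT.nd (nat_lit 78) (nat_lit 76) (nat_lit 0) (XT.lf (nat_lit 228) (nat_lit 40839693122) (nat_lit 0) (nat_lit 16347379647) (nat_lit 152) (nat_lit 24718643377) (nat_lit 211) (nat_lit 1) (nat_lit 208) (nat_lit 1) (nat_lit 210) (nat_lit 1) (nat_lit 267) (nat_lit 392) (nat_lit 361)) (XT.lf (nat_lit 152) (nat_lit 4397854624) (nat_lit 0) (nat_lit 16748892416) (nat_lit 76) (nat_lit 58524553498) (nat_lit 209) (nat_lit 1) (nat_lit 207) (nat_lit 1) (nat_lit 208) (nat_lit 1) (nat_lit 268) (nat_lit 392) (nat_lit 360))))) (XT.nd (nat_lit 234) (nat_lit 608) (nat_lit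 0) (XT.nd (nat_lit 78) (nat_lit 304) (nat_lit 0) (XT.lf (nat_lit 228) (nat_lit 47473217005) (nat_lit 0) (nat_lit 17129647443) (nat_lit 152) (nat_lit 12895630221) (nat_lit 207) (nat_lit 1) (nat_lit 204) (nat_lit 1) (nat_lit 206) (nat_lit 1) (nat_lit 269) (nat_lit 392) (nat_lit 359)) (XT.nd (nat_lit 78) (nat_lit 228) (nat_lit 0) (XT.lf (nat_lit 152) (nat_lit 11939864143) (nat_lit 0) (nat_lit 17770142222) (nat_lit 76) (nat_lit 45688910356) (nat_lit 205) (nat_lit 1) (nat_lit 203) (nat_lit 1) (nat_lit 204) (nat_lit 1) (nat_lit 270) (nat_lit 392) (nat_lit 358)) (XT.lf (nat_lit 228) (nat_lit 51684735538) (nat_lit 0) (nat_lit 18627201439) (nat_lit 152) (nat_lit 3056883213) (nat_lit 203) (nat_lit 1) (nat_lit 200) (nat_lit 1) (nat_lit 202) (nat_lit 1) (nat_lit 271) (nat_lit 392) (nat_lit 357)))) (XT.nd (nat_lit 156) (nat_lit 304) (nat_lit 0) (XT.nd (nat_lit 78) (nat_lit 228) (nat_lit 0) (XT.lf (nat_lit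 152) (nat_lit 17183102555) (nat_lit 0) (nat_lit 19419081328) (nat_lit 76) (nat_lit 34790961244) (nat_lit 201) (nat_lit 1) (nat_lit 199) (nat_lit 1) (nat_lit 200) (nat_lit 1) (nat_lit 272) (nat_lit 392) (nat_lit 356)) (XT.lf (nat_lit 76) (nat_lit 4959727221) (nat_lit 0) (nat_lit 15567261678) (nat_lit 228) (nat_lit 48961457427) (nat_lit 197) (nat_lit 1) (nat_lit 196) (nat_lit 1) (nat_lit 199) (nat_lit 1) (nat_lit 273) (nat_lit 392) (nat_lit 355))) (XT.nd (nat_lit 78) (nat_lit 228) (nat_lit 0) (XT.lf (nat_lit 152) (nat_lit 20621273373) (nat_lit 0) (nat_lit 21486389429) (nat_lit 76) (nat_lit 25523386746) (nat_lit 197) (nat_lit 1) (nat_lit 195) (nat_lit 1) (nat_lit 196) (nat_lit 1) (nat_lit 274) (nat_lit 392) (nat_lit 354)) (XT.lf (nat_lit 76) (nat_lit 11534478762) (nat_lit 0) (nat_lit 11171922640) (nat_lit 228) (nat_lit 43132524839) (nat_lit 193) (nat_lit 1) (nat_lit 192) (nat_lit 1) (nat_lit 195)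 (nat_lit 1) (nat_lit 275) (nat_lit 392) (nat_lit 353))))))) (XT.nd (nat_lit 1014) (nat_lit 1672) (nat_lit 0) (XT.nd (nat_lit 468) (nat_lit 760) (nat_lit 0) (XT.nd (nat_lit 234) (nat_lit 380) (nat_lit 0) (XT.nd (nat_lit 78) (nat_lit 228) (nat_lit 0) (XT.lf (nat_lit 152) (nat_lit 22652515071) (nat_lit 0) (nat_lit 23808668396) (nat_lit 76) (nat_lit 17631407538) (nat_lit 193) (nat_lit 1) (nat_lit 191) (nat_lit 1) (nat_lit 192) (nat_lit 1) (nat_lit 276) (nat_lit 392) (nat_lit 352)) (XT.nd (nat_lit 78) (nat_lit 76) (nat_lit 0) (XT.lf (nat_lit 76) (nat_lit 16981419971) (nat_lit 0) (nat_lit 8091342770) (nat_lit 152) (nat_lit 37331166431) (nat_lit 190) (nat_lit 1) (nat_lit 189) (nat_lit 1) (nat_lit 191) (nat_lit 1) (nat_lit 277) (nat_lit 392) (nat_lit 351)) (XT.lf (nat_lit 152) (nat_lit 23597258073) (nat_lit 0) (nat_lit 26259492254) (nat_lit 76) (nat_lit 10903412327) (nat_lit 190) (nat_lit 1) (nat_lit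 188) (nat_lit 1) (nat_lit 189) (nat_lit 1) (nat_lit 278) (nat_lit 392) (nat_lit 350)))) (XT.nd (nat_lit 78) (nat_lit 228) (nat_lit 0) (XT.lf (nat_lit 76) (nat_lit 21479917360) (nat_lit 0) (nat_lit 6036247211) (nat_lit 152) (nat_lit 31650792103) (nat_lit 187) (nat_lit 1) (nat_lit 186) (nat_lit 1) (nat_lit 188) (nat_lit 1) (nat_lit 279) (nat_lit 392) (nat_lit 349)) (XT.nd (nat_lit 78) (nat_lit 152) (nat_lit 0) (XT.lf (nat_lit 152) (nat_lit 23712785220) (nat_lit 0) (nat_lit 28742133403) (nat_lit 76) (nat_lit 5163287989) (nat_lit 187) (nat_lit 1) (nat_lit 185) (nat_lit 1) (nat_lit 186) (nat_lit 1) (nat_lit 280) (nat_lit 392) (nat_lit 348)) (XT.lf (nat_lit 76) (nat_lit 25179044514) (nat_lit 0) (nat_lit 4774032088) (nat_lit 152) (nat_lit 26160306928) (nat_lit 184) (nat_lit 1) (nat_lit 183) (nat_lit 1) (nat_lit 185) (nat_lit 1) (nat_lit 281) (nat_lit 392) (nat_lit 347))))) (XT.nd (nat_lit 234) (nat_lit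 456) (nat_lit 0) (XT.nd (nat_lit 78) (nat_lit 228) (nat_lit 0) (XT.lf (nat_lit 152) (nat_lit 23205101797) (nat_lit 0) (nat_lit 31183655419) (nat_lit 76) (nat_lit 264140678) (nat_lit 184) (nat_lit 1) (nat_lit 182) (nat_lit 1) (nat_lit 183) (nat_lit 1) (nat_lit 282) (nat_lit 392) (nat_lit 346)) (XT.nd (nat_lit 78) (nat_lit 76) (nat_lit 0) (XT.lf (nat_lit 76) (nat_lit 28202944235) (nat_lit 0) (nat_lit 4118123512) (nat_lit 152) (nat_lit 20909104807) (nat_lit 181) (nat_lit 1) (nat_lit 180) (nat_lit 1) (nat_lit 182) (nat_lit 1) (nat_lit 283) (nat_lit 392) (nat_lit 345)) (XT.lf (nat_lit 0) (nat_lit 3791482757) (nat_lit 0) (nat_lit 29674426328) (nat_lit 152) (nat_lit 18382916555) (nat_lit 179) (nat_lit 3) (nat_lit 179) (nat_lit 1) (nat_lit 181) (nat_lit 1) (nat_lit 284) (nat_lit 392) (nat_lit 344)))) (XT.nd (nat_lit 156) (nat_lit 228) (nat_lit 0) (XT.nd (nat_lit 78) (nat_lit 76) (nat_lit 0) (XT.lf (nat_lit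 76) (nat_lit 30655220065) (nat_lit 0) (nat_lit 3919304552) (nat_lit 152) (nat_lit 15931114157) (nat_lit 178) (nat_lit 1) (nat_lit 177) (nat_lit 1) (nat_lit 179) (nat_lit 1) (nat_lit 285) (nat_lit 392) (nat_lit 343)) (XT.lf (nat_lit 0) (nat_lit 7243134742) (nat_lit 0) (nat_lit 28376898843) (nat_lit 152) (nat_lit 13578190419) (nat_lit 176) (nat_lit 3) (nat_lit 176) (nat_lit 1) (nat_lit 178) (nat_lit 1) (nat_lit 286) (nat_lit 392) (nat_lit 342))) (XT.nd (nat_lit 78) (nat_lit 76) (nat_lit 0) (XT.lf (nat_lit 76) (nat_lit 32622534433) (nat_lit 0) (nat_lit 4058648102) (nat_lit 152) (nat_lit 11248071484) (nat_lit 175) (nat_lit 1) (nat_lit 174) (nat_lit 1) (nat_lit 176) (nat_lit 1) (nat_lit 287) (nat_lit 392) (nat_lit 341)) (XT.lf (nat_lit 0) (nat_lit 10183041366) (nat_lit 0) (nat_lit 27439037922) (nat_lit 152) (nat_lit 9069131254) (nat_lit 173) (nat_lit 3) (nat_lit 173) (nat_lit 1) (nat_lit 175) (nat_lit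 1) (nat_lit 288) (nat_lit 392) (nat_lit 340)))))) (XT.nd (nat_lit 546) (nat_lit 760) (nat_lit 0) (XT.nd (nat_lit 234) (nat_lit 532) (nat_lit 0) (XT.nd (nat_lit 78) (nat_lit 228) (nat_lit 0) (XT.lf (nat_lit 76) (nat_lit 34177558218) (nat_lit 0) (nat_lit 4441760101) (nat_lit 152) (nat_lit 6872166380) (nat_lit 172) (nat_lit 1) (nat_lit 171) (nat_lit 1) (nat_lit 173) (nat_lit 1) (nat_lit 289) (nat_lit 392) (nat_lit 339)) (XT.nd (nat_lit 78) (nat_lit 152) (nat_lit 0) (XT.lf (nat_lit 0) (nat_lit 12681830849) (nat_lit 0) (nat_lit 26771579163) (nat_lit 152) (nat_lit 4865224741) (nat_lit 170) (nat_lit 3) (nat_lit 170) (nat_lit 1) (nat_lit 172) (nat_lit 1) (nat_lit 290) (nat_lit 392) (nat_lit 338)) (XT.lf (nat_lit 76) (nat_lit 35381389975) (nat_lit 0) (nat_lit 4994091839) (nat_lit 152) (nat_lit 2808174983) (nat_lit 169) (nat_lit 1) (nat_lit 168) (nat_lit 1) (nat_lit 170) (nat_lit 1) (nat_lit 291) (nat_lit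 392) (nat_lit 337)))) (XT.nd (nat_lit 156) (nat_lit 228) (nat_lit 0) (XT.nd (nat_lit 78) (nat_lit 228) (nat_lit 0) (XT.lf (nat_lit 0) (nat_lit 14799237817) (nat_lit 0) (nat_lit 26303702768) (nat_lit 152) (nat_lit 969217805) (nat_lit 167) (nat_lit 3) (nat_lit 167) (nat_lit 1) (nat_lit 169) (nat_lit 1) (nat_lit 292) (nat_lit 392) (nat_lit 336)) (XT.lf (nat_lit 152) (nat_lit 35324717804) (nat_lit 0) (nat_lit 976062715) (nat_lit 76) (nat_lit 4696300736) (nat_lit 166) (nat_lit 1) (nat_lit 164) (nat_lit 1) (nat_lit 165) (nat_lit 1) (nat_lit 293) (nat_lit 392) (nat_lit 335))) (XT.nd (nat_lit 78) (nat_lit 152) (nat_lit 0) (XT.lf (nat_lit 76) (nat_lit 13920258985) (nat_lit 0) (nat_lit 2707971344) (nat_lit 76) (nat_lit 23313806041) (nat_lit 164) (nat_lit 3) (nat_lit 163) (nat_lit 1) (nat_lit 164) (nat_lit 1) (nat_lit 294) (nat_lit 392) (nat_lit 334)) (XT.lf (nat_lit 152) (nat_lit 32467123421) (nat_lit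 0) (nat_lit 4537284580) (nat_lit 76) (nat_lit 1918819486) (nat_lit 163) (nat_lit 1) (nat_lit 161) (nat_lit 1) (nat_lit 162) (nat_lit 1) (nat_lit 295) (nat_lit 392) (nat_lit 333))))) (XT.nd (nat_lit 234) (nat_lit 456) (nat_lit 0) (XT.nd (nat_lit 78) (nat_lit 228) (nat_lit 0) (XT.lf (nat_lit 76) (nat_lit 12072376754) (nat_lit 0) (nat_lit 6108121879) (nat_lit 76) (nat_lit 19742331565) (nat_lit 161) (nat_lit 3) (nat_lit 160) (nat_lit 1) (nat_lit 161) (nat_lit 1) (nat_lit 296) (nat_lit 392) (nat_lit 332)) (XT.nd (nat_lit 78) (nat_lit 76) (nat_lit 0) (XT.lf (nat_lit 0) (nat_lit 509554960) (nat_lit 0) (nat_lit 7273183542) (nat_lit 152) (nat_lit 29174502921) (nat_lit 158) (nat_lit 3) (nat_lit 158) (nat_lit 1) (nat_lit 160) (nat_lit 1) (nat_lit 297) (nat_lit 392) (nat_lit 331)) (XT.lf (nat_lit 76) (nat_lit 10268784397) (nat_lit 0) (nat_lit 9208659144) (nat_lit 76) (nat_lit 16531403454) (nat_lit 158) (nat_lit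 3) (nat_lit 157) (nat_lit 1) (nat_lit 158) (nat_lit 1) (nat_lit 298) (nat_lit 392) (nat_lit 330)))) (XT.nd (nat_lit 156) (nat_lit 228) (nat_lit 0) (XT.nd (nat_lit 78) (nat_lit 76) (nat_lit 0) (XT.lf (nat_lit 0) (nat_lit 2591484783) (nat_lit 0) (nat_lit 8114076544) (nat_lit 152) (nat_lit 24386501741) (nat_lit 155) (nat_lit 3) (nat_lit 155) (nat_lit 1) (nat_lit 157) (nat_lit 1) (nat_lit 299) (nat_lit 392) (nat_lit 329)) (XT.lf (nat_lit 76) (nat_lit 8529698289) (nat_lit 0) (nat_lit 12021185641) (nat_lit 76) (nat_lit 13643209179) (nat_lit 155) (nat_lit 3) (nat_lit 154) (nat_lit 1) (nat_lit 155) (nat_lit 1) (nat_lit 300) (nat_lit 392) (nat_lit 328))) (XT.nd (nat_lit 78) (nat_lit 76) (nat_lit 0) (XT.lf (nat_lit 0) (nat_lit 4420111505) (nat_lit 0) (nat_lit 8929380367) (nat_lit 152) (nat_lit 19973919035) (nat_lit 152) (nat_lit 3) (nat_lit 152) (nat_lit 1) (nat_lit 154) (nat_lit 1) (nat_lit 301) (nat_lit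 392) (nat_lit 327)) (XT.lf (nat_lit 76) (nat_lit 6869491951) (nat_lit 0) (nat_lit 14558770511) (nat_lit 76) (nat_lit 11044740897) (nat_lit 152) (nat_lit 3) (nat_lit 151) (nat_lit 1) (nat_lit 152) (nat_lit 1) (nat_lit 302) (nat_lit 392) (nat_lit 326))))))))
noncomputable def ec153 : XT := (XT.nd (nat_lit 2106) (nat_lit 3344) (nat_lit 0) (XT.nd (nat_lit 1014) (nat_lit 1596) (nat_lit 0) (XT.nd (nat_lit 468) (nat_lit 912) (nat_lit 0) (XT.nd (nat_lit 234) (nat_lit 304) (nat_lit 0) (XT.nd (nat_lit 78) (nat_lit 228) (nat_lit 0) (XT.lf (nat_lit 0) (nat_lit 6023058110) (nat_lit 0) (nat_lit 9704935488) (nat_lit 152) (nat_lit 15917916812) (nat_lit 149) (nat_lit 3) (nat_lit 149) (nat_lit 1) (nat_lit 151) (nat_lit 1) (nat_lit 303) (nat_lit 392) (nat_lit 325)) (XT.nd (nat_lit 78) (nat_lit 152) (nat_lit 0) (XT.lf (nat_lit 76) (nat_lit 5297912660) (nat_lit 0) (nat_lit 16835425374) (nat_lit 76) (nat_lit 8707058380)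 (nat_lit 149) (nat_lit 3) (nat_lit 148) (nat_lit 1) (nat_lit 149) (nat_lit 1) (nat_lit 304) (nat_lit 392) (nat_lit 324)) (XT.lf (nat_lit 0) (nat_lit 7424474161) (nat_lit 0) (nat_lit 10430775501) (nat_lit 152) (nat_lit 12199301217) (nat_lit 146) (nat_lit 3) (nat_lit 146) (nat_lit 1) (nat_lit 148) (nat_lit 1) (nat_lit 305) (nat_lit 392) (nat_lit 323)))) (XT.nd (nat_lit 78) (nat_lit 228) (nat_lit 0) (XT.lf (nat_lit 76) (nat_lit 3821065605) (nat_lit 0) (nat_lit 18865693090) (nat_lit 76) (nat_lit 6604677957) (nat_lit 146) (nat_lit 3) (nat_lit 145) (nat_lit 1) (nat_lit 146) (nat_lit 1) (nat_lit 306) (nat_lit 392) (nat_lit 322)) (XT.nd (nat_lit 78) (nat_lit 76) (nat_lit 0) (XT.lf (nat_lit 0) (nat_lit 8645558973) (nat_lit 0) (nat_lit 11100243587) (nat_lit 152) (nat_lit 8798847668) (nat_lit 143) (nat_lit 3) (nat_lit 143) (nat_lit 1) (nat_lit 145) (nat_lit 1) (nat_lit 307) (nat_lit 392) (nat_lit 321))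 (XT.lf (nat_lit 76) (nat_lit 2442208783) (nat_lit 0) (nat_lit 20664327665) (nat_lit 76) (nat_lit 4715064907) (nat_lit 143) (nat_lit 3) (nat_lit 142) (nat_lit 1) (nat_lit 143) (nat_lit 1) (nat_lit 308) (nat_lit 392) (nat_lit 320))))) (XT.nd (nat_lit 234) (nat_lit 532) (nat_lit 0) (XT.nd (nat_lit 78) (nat_lit 228) (nat_lit 0) (XT.lf (nat_lit 0) (nat_lit 9704996333) (nat_lit 0) (nat_lit 11709278629) (nat_lit 152) (nat_lit 5697549676) (nat_lit 140) (nat_lit 3) (nat_lit 140) (nat_lit 1) (nat_lit 142) (nat_lit 1) (nat_lit 309) (nat_lit 392) (nat_lit 319)) (XT.nd (nat_lit 78) (nat_lit 152) (nat_lit 0) (XT.lf (nat_lit 76) (nat_lit 1162393924) (nat_lit 0) (nat_lit 22246047591) (nat_lit 76) (nat_lit 3018210865) (nat_lit 140) (nat_lit 3) (nat_lit 139) (nat_lit 1) (nat_lit 140) (nat_lit 1) (nat_lit 310) (nat_lit 392) (nat_lit 318)) (XT.lf (nat_lit 0) (nat_lit 10619316493) (nat_lit 0) (nat_lit 12255839369)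 (nat_lit 152) (nat_lit 2876806366) (nat_lit 137) (nat_lit 3) (nat_lit 137) (nat_lit 1) (nat_lit 139) (nat_lit 1) (nat_lit 311) (nat_lit 392) (nat_lit 317)))) (XT.nd (nat_lit 156) (nat_lit 304) (nat_lit 0) (XT.nd (nat_lit 78) (nat_lit 76) (nat_lit 0) (XT.lf (nat_lit 76) (nat_lit 23606627323) (nat_lit 0) (nat_lit 18409138) (nat_lit 152) (nat_lit 1477560225) (nat_lit 136) (nat_lit 1) (nat_lit 135) (nat_lit 1) (nat_lit 137) (nat_lit 1) (nat_lit 312) (nat_lit 392) (nat_lit 316)) (XT.lf (nat_lit 0) (nat_lit 11403198366) (nat_lit 0) (nat_lit 12739440834) (nat_lit 152) (nat_lit 318560931) (nat_lit 134) (nat_lit 3) (nat_lit 134) (nat_lit 1) (nat_lit 136) (nat_lit 1) (nat_lit 313) (nat_lit 392) (nat_lit 315))) (XT.nd (nat_lit 78) (nat_lit 76) (nat_lit 0) (XT.lf (nat_lit 152) (nat_lit 22760122266) (nat_lit 0) (nat_lit 984910096) (nat_lit 76) (nat_lit 99076069) (nat_lit 133) (nat_lit 1) (nat_lit 131) (nat_lit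 1) (nat_lit 132) (nat_lit 1) (nat_lit 314) (nat_lit 392) (nat_lit 314)) (XT.lf (nat_lit 76) (nat_lit 10041342861) (nat_lit 0) (nat_lit 2060550566) (nat_lit 76) (nat_lit 11132402425) (nat_lit 131) (nat_lit 3) (nat_lit 130) (nat_lit 1) (nat_lit 131) (nat_lit 1) (nat_lit 315) (nat_lit 392) (nat_lit 313)))))) (XT.nd (nat_lit 546) (nat_lit 760) (nat_lit 0) (XT.nd (nat_lit 234) (nat_lit 456) (nat_lit 0) (XT.nd (nat_lit 78) (nat_lit 228) (nat_lit 0) (XT.lf (nat_lit 0) (nat_lit 1135120072) (nat_lit 0) (nat_lit 2097253725) (nat_lit 152) (nat_lit 19415051651) (nat_lit 128) (nat_lit 3) (nat_lit 128) (nat_lit 1) (nat_lit 130) (nat_lit 1) (nat_lit 316) (nat_lit 392) (nat_lit 312)) (XT.nd (nat_lit 78) (nat_lit 152) (nat_lit 0) (XT.lf (nat_lit 76) (nat_lit 8482118348) (nat_lit 0) (nat_lit 4214261280) (nat_lit 76) (nat_lit 9372982842) (nat_lit 128) (nat_lit 3) (nat_lit 127) (nat_lit 1) (nat_lit 128) (nat_lit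 1) (nat_lit 317) (nat_lit 392) (nat_lit 311)) (XT.lf (nat_lit 0) (nat_lit 2233578887) (nat_lit 0) (nat_lit 3019173679) (nat_lit 152) (nat_lit 16258598442) (nat_lit 125) (nat_lit 3) (nat_lit 125) (nat_lit 1) (nat_lit 127) (nat_lit 1) (nat_lit 318) (nat_lit 392) (nat_lit 310)))) (XT.nd (nat_lit 156) (nat_lit 228) (nat_lit 0) (XT.nd (nat_lit 78) (nat_lit 152) (nat_lit 0) (XT.lf (nat_lit 76) (nat_lit 7043750960) (nat_lit 0) (nat_lit 6148512286) (nat_lit 76) (nat_lit 7771153545) (nat_lit 125) (nat_lit 3) (nat_lit 124) (nat_lit 1) (nat_lit 125) (nat_lit 1) (nat_lit 319) (nat_lit 392) (nat_lit 309)) (XT.lf (nat_lit 0) (nat_lit 3211074767) (nat_lit 0) (nat_lit 3852523255) (nat_lit 152) (nat_lit 13369210100) (nat_lit 122) (nat_lit 3) (nat_lit 122) (nat_lit 1) (nat_lit 124) (nat_lit 1) (nat_lit 320) (nat_lit 392) (nat_lit 308))) (XT.nd (nat_lit 78) (nat_lit 152) (nat_lit 0) (XT.lf (nat_lit 76) (nat_lit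 5720247205) (nat_lit 0) (nat_lit 7878972672) (nat_lit 76) (nat_lit 6314180990) (nat_lit 122) (nat_lit 3) (nat_lit 121) (nat_lit 1) (nat_lit 122) (nat_lit 1) (nat_lit 321) (nat_lit 392) (nat_lit 307)) (XT.lf (nat_lit 0) (nat_lit 4078141214) (nat_lit 0) (nat_lit 4601892347) (nat_lit 152) (nat_lit 10728784960) (nat_lit 119) (nat_lit 3) (nat_lit 119) (nat_lit 1) (nat_lit 121) (nat_lit 1) (nat_lit 322) (nat_lit 392) (nat_lit 306))))) (XT.nd (nat_lit 234) (nat_lit 456) (nat_lit 0) (XT.nd (nat_lit 78) (nat_lit 228) (nat_lit 0) (XT.lf (nat_lit 76) (nat_lit 4505487281) (nat_lit 0) (nat_lit 9420497049) (nat_lit 76) (nat_lit 4990442034) (nat_lit 119) (nat_lit 3) (nat_lit 118) (nat_lit 1) (nat_lit 119) (nat_lit 1) (nat_lit 323) (nat_lit 392) (nat_lit 305)) (XT.nd (nat_lit 78) (nat_lit 76) (nat_lit 0) (XT.lf (nat_lit 0) (nat_lit 4844362916) (nat_lit 0) (nat_lit 5272012610) (nat_lit 152) (nat_lit 8320192596)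 (nat_lit 116) (nat_lit 3) (nat_lit 116) (nat_lit 1) (nat_lit 118) (nat_lit 1) (nat_lit 324) (nat_lit 392) (nat_lit 304)) (XT.lf (nat_lit 76) (nat_lit 3393331592) (nat_lit 0) (nat_lit 10787128157) (nat_lit 76) (nat_lit 3789303531) (nat_lit 116) (nat_lit 3) (nat_lit 115) (nat_lit 1) (nat_lit 116) (nat_lit 1) (nat_lit 325) (nat_lit 392) (nat_lit 303)))) (XT.nd (nat_lit 156) (nat_lit 228) (nat_lit 0) (XT.nd (nat_lit 78) (nat_lit 76) (nat_lit 0) (XT.lf (nat_lit 0) (nat_lit 5518479504) (nat_lit 0) (nat_lit 5867661108) (nat_lit 152) (nat_lit 6127255668) (nat_lit 113) (nat_lit 3) (nat_lit 113) (nat_lit 1) (nat_lit 115) (nat_lit 1) (nat_lit 326) (nat_lit 392) (nat_lit 302)) (XT.lf (nat_lit 76) (nat_lit 2377702374) (nat_lit 0) (nat_lit 11992108656) (nat_lit 76) (nat_lit 2701018673) (nat_lit 113) (nat_lit 3) (nat_lit 112) (nat_lit 1) (nat_lit 113) (nat_lit 1) (nat_lit 327) (nat_lit 392) (nat_lit 301)))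 (XT.nd (nat_lit 78) (nat_lit 76) (nat_lit 0) (XT.lf (nat_lit 0) (nat_lit 6108474908) (nat_lit 0) (nat_lit 6393586284) (nat_lit 152) (nat_lit 4134724829) (nat_lit 110) (nat_lit 3) (nat_lit 110) (nat_lit 1) (nat_lit 112) (nat_lit 1) (nat_lit 328) (nat_lit 392) (nat_lit 300)) (XT.lf (nat_lit 76) (nat_lit 1452645344) (nat_lit 0) (nat_lit 13047899807) (nat_lit 76) (nat_lit 1716637358) (nat_lit 110) (nat_lit 3) (nat_lit 109) (nat_lit 1) (nat_lit 110) (nat_lit 1) (nat_lit 329) (nat_lit 392) (nat_lit 299))))))) (XT.nd (nat_lit 1014) (nat_lit 1748) (nat_lit 0) (XT.nd (nat_lit 468) (nat_lit 760) (nat_lit 0) (XT.nd (nat_lit 234) (nat_lit 456) (nat_lit 0) (XT.nd (nat_lit 78) (nat_lit 228) (nat_lit 0) (XT.lf (nat_lit 0) (nat_lit 6621654664) (nat_lit 0) (nat_lit 6854451855) (nat_lit 152) (nat_lit 2328248620) (nat_lit 107) (nat_lit 3) (nat_lit 107) (nat_lit 1) (nat_lit 109) (nat_lit 1) (nat_lit 330) (nat_lit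 392) (nat_lit 298)) (XT.nd (nat_lit 78) (nat_lit 152) (nat_lit 0) (XT.lf (nat_lit 76) (nat_lit 612375340) (nat_lit 0) (nat_lit 13966205211) (nat_lit 76) (nat_lit 827928294) (nat_lit 107) (nat_lit 3) (nat_lit 106) (nat_lit 1) (nat_lit 107) (nat_lit 1) (nat_lit 331) (nat_lit 392) (nat_lit 297)) (XT.lf (nat_lit 0) (nat_lit 7064713102) (nat_lit 0) (nat_lit 7254795072) (nat_lit 152) (nat_lit 694339858) (nat_lit 104) (nat_lit 3) (nat_lit 104) (nat_lit 1) (nat_lit 106) (nat_lit 1) (nat_lit 332) (nat_lit 392) (nat_lit 296)))) (XT.nd (nat_lit 78) (nat_lit 228) (nat_lit 0) (XT.lf (nat_lit 152) (nat_lit 14490554149) (nat_lit 0) (nat_lit 122994950) (nat_lit 76) (nat_lit 22857134) (nat_lit 103) (nat_lit 1) (nat_lit 101) (nat_lit 1) (nat_lit 102) (nat_lit 1) (nat_lit 333) (nat_lit 392) (nat_lit 295)) (XT.nd (nat_lit 78) (nat_lit 152) (nat_lit 0) (XT.lf (nat_lit 76) (nat_lit 6650927817) (nat_lit 0) (nat_lit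 805439374) (nat_lit 76) (nat_lit 6806132248) (nat_lit 101) (nat_lit 3) (nat_lit 100) (nat_lit 1) (nat_lit 101) (nat_lit 1) (nat_lit 334) (nat_lit 392) (nat_lit 294)) (XT.lf (nat_lit 0) (nat_lit 708151007) (nat_lit 0) (nat_lit 845015584) (nat_lit 152) (nat_lit 12349823761) (nat_lit 98) (nat_lit 3) (nat_lit 98) (nat_lit 1) (nat_lit 100) (nat_lit 1) (nat_lit 335) (nat_lit 392) (nat_lit 293))))) (XT.nd (nat_lit 234) (nat_lit 456) (nat_lit 0) (XT.nd (nat_lit 78) (nat_lit 228) (nat_lit 0) (XT.lf (nat_lit 76) (nat_lit 5623252952) (nat_lit 0) (nat_lit 2175240848) (nat_lit 76) (nat_lit 5749979412) (nat_lit 98) (nat_lit 3) (nat_lit 97) (nat_lit 1) (nat_lit 98) (nat_lit 1) (nat_lit 336) (nat_lit 392) (nat_lit 292)) (XT.nd (nat_lit 78) (nat_lit 76) (nat_lit 0) (XT.lf (nat_lit 0) (nat_lit 1362741767) (nat_lit 0) (nat_lit 1474493496) (nat_lit 152) (nat_lit 10369292317) (nat_lit 95) (nat_lit 3) (nat_lit 95)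 (nat_lit 1) (nat_lit 97) (nat_lit 1) (nat_lit 337) (nat_lit 392) (nat_lit 291)) (XT.lf (nat_lit 76) (nat_lit 4681669665) (nat_lit 0) (nat_lit 3403588603) (nat_lit 76) (nat_lit 4785143488) (nat_lit 95) (nat_lit 3) (nat_lit 94) (nat_lit 1) (nat_lit 95) (nat_lit 1) (nat_lit 338) (nat_lit 392) (nat_lit 290)))) (XT.nd (nat_lit 156) (nat_lit 228) (nat_lit 0) (XT.nd (nat_lit 78) (nat_lit 76) (nat_lit 0) (XT.lf (nat_lit 0) (nat_lit 1947668389) (nat_lit 0) (nat_lit 2038915147) (nat_lit 152) (nat_lit 8558570825) (nat_lit 92) (nat_lit 3) (nat_lit 92) (nat_lit 1) (nat_lit 94) (nat_lit 1) (nat_lit 339) (nat_lit 392) (nat_lit 289)) (XT.lf (nat_lit 76) (nat_lit 3820372187) (nat_lit 0) (nat_lit 4501225770) (nat_lit 76) (nat_lit 3904859926) (nat_lit 92) (nat_lit 3) (nat_lit 91) (nat_lit 1) (nat_lit 92) (nat_lit 1) (nat_lit 340) (nat_lit 392) (nat_lit 288))) (XT.nd (nat_lit 78) (nat_lit 76) (nat_lit 0) (XT.lf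 (nat_lit 0) (nat_lit 2468500999) (nat_lit 0) (nat_lit 2543005178) (nat_lit 152) (nat_lit 6905580945) (nat_lit 89) (nat_lit 3) (nat_lit 89) (nat_lit 1) (nat_lit 91) (nat_lit 1) (nat_lit 341) (nat_lit 392) (nat_lit 287)) (XT.lf (nat_lit 76) (nat_lit 3033864262) (nat_lit 0) (nat_lit 5478195317) (nat_lit 76) (nat_lit 3102849613) (nat_lit 89) (nat_lit 3) (nat_lit 88) (nat_lit 1) (nat_lit 89) (nat_lit 1) (nat_lit 342) (nat_lit 392) (nat_lit 286)))))) (XT.nd (nat_lit 546) (nat_lit 912) (nat_lit 0) (XT.nd (nat_lit 234) (nat_lit 456) (nat_lit 0) (XT.nd (nat_lit 78) (nat_lit 228) (nat_lit 0) (XT.lf (nat_lit 0) (nat_lit 2930394644) (nat_lit 0) (nat_lit 2991228287) (nat_lit 152) (nat_lit 5399011786) (nat_lit 86) (nat_lit 3) (nat_lit 86) (nat_lit 1) (nat_lit 88) (nat_lit 1) (nat_lit 343) (nat_lit 392) (nat_lit 285)) (XT.nd (nat_lit 78) (nat_lit 152) (nat_lit 0) (XT.lf (nat_lit 76) (nat_lit 2316953684) (nat_lit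 0) (nat_lit 6343878048) (nat_lit 76) (nat_lit 2373281130) (nat_lit 86) (nat_lit 3) (nat_lit 85) (nat_lit 1) (nat_lit 86) (nat_lit 1) (nat_lit 344) (nat_lit 392) (nat_lit 284)) (XT.lf (nat_lit 0) (nat_lit 3338122115) (nat_lit 0) (nat_lit 3387793584) (nat_lit 152) (nat_lit 4028277671) (nat_lit 83) (nat_lit 3) (nat_lit 83) (nat_lit 1) (nat_lit 85) (nat_lit 1) (nat_lit 345) (nat_lit 392) (nat_lit 283)))) (XT.nd (nat_lit 156) (nat_lit 228) (nat_lit 0) (XT.nd (nat_lit 78) (nat_lit 152) (nat_lit 0) (XT.lf (nat_lit 76) (nat_lit 1664744549) (nat_lit 0) (nat_lit 7107029569) (nat_lit 76) (nat_lit 1710736651) (nat_lit 83) (nat_lit 3) (nat_lit 82) (nat_lit 1) (nat_lit 83) (nat_lit 1) (nat_lit 346) (nat_lit 392) (nat_lit 282)) (XT.lf (nat_lit 0) (nat_lit 3696103597) (nat_lit 0) (nat_lit 3736661006) (nat_lit 152) (nat_lit 2783477337) (nat_lit 80) (nat_lit 3) (nat_lit 80) (nat_lit 1) (nat_lit 82) (nat_lit 1)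 (nat_lit 347) (nat_lit 392) (nat_lit 281))) (XT.nd (nat_lit 78) (nat_lit 152) (nat_lit 0) (XT.lf (nat_lit 76) (nat_lit 1072627856) (nat_lit 0) (nat_lit 7775816054) (nat_lit 76) (nat_lit 1110181013) (nat_lit 80) (nat_lit 3) (nat_lit 79) (nat_lit 1) (nat_lit 80) (nat_lit 1) (nat_lit 348) (nat_lit 392) (nat_lit 280)) (XT.lf (nat_lit 0) (nat_lit 4008433562) (nat_lit 0) (nat_lit 4041549220) (nat_lit 152) (nat_lit 1655354701) (nat_lit 77) (nat_lit 3) (nat_lit 77) (nat_lit 1) (nat_lit 79) (nat_lit 1) (nat_lit 349) (nat_lit 392) (nat_lit 279))))) (XT.nd (nat_lit 234) (nat_lit 608) (nat_lit 0) (XT.nd (nat_lit 78) (nat_lit 228) (nat_lit 0) (XT.lf (nat_lit 76) (nat_lit 536270931) (nat_lit 0) (nat_lit 8357848672) (nat_lit 76) (nat_lit 566933578) (nat_lit 77) (nat_lit 3) (nat_lit 76) (nat_lit 1) (nat_lit 77) (nat_lit 1) (nat_lit 350) (nat_lit 392) (nat_lit 278)) (XT.nd (nat_lit 78) (nat_lit 76) (nat_lit 0)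 (XT.lf (nat_lit 0) (nat_lit 4278905229) (nat_lit 0) (nat_lit 4305944600) (nat_lit 152) (nat_lit 635261253) (nat_lit 74) (nat_lit 3) (nat_lit 74) (nat_lit 1) (nat_lit 76) (nat_lit 1) (nat_lit 351) (nat_lit 392) (nat_lit 277)) (XT.lf (nat_lit 76) (nat_lit 51606081) (nat_lit 0) (nat_lit 8860216593) (nat_lit 76) (nat_lit 76642536) (nat_lit 74) (nat_lit 3) (nat_lit 73) (nat_lit 1) (nat_lit 74) (nat_lit 1) (nat_lit 352) (nat_lit 392) (nat_lit 276)))) (XT.nd (nat_lit 156) (nat_lit 228) (nat_lit 0) (XT.nd (nat_lit 78) (nat_lit 152) (nat_lit 0) (XT.lf (nat_lit 76) (nat_lit 4221328456) (nat_lit 0) (nat_lit 294299264) (nat_lit 76) (nat_lit 4243406458) (nat_lit 71) (nat_lit 3) (nat_lit 70) (nat_lit 1) (nat_lit 71) (nat_lit 1) (nat_lit 353) (nat_lit 392) (nat_lit 275)) (XT.lf (nat_lit 0) (nat_lit 371372227) (nat_lit 0) (nat_lit 390841365) (nat_lit 152) (nat_lit 7776185002) (nat_lit 68) (nat_lit 3) (nat_lit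 68) (nat_lit 1) (nat_lit 70) (nat_lit 1) (nat_lit 354) (nat_lit 392) (nat_lit 274))) (XT.nd (nat_lit 78) (nat_lit 152) (nat_lit 0) (XT.lf (nat_lit 76) (nat_lit 3576621742) (nat_lit 0) (nat_lit 1149395861) (nat_lit 76) (nat_lit 3594648722) (nat_lit 68) (nat_lit 3) (nat_lit 67) (nat_lit 1) (nat_lit 68) (nat_lit 1) (nat_lit 355) (nat_lit 392) (nat_lit 273)) (XT.lf (nat_lit 0) (nat_lit 773981866) (nat_lit 0) (nat_lit 789878673) (nat_lit 152) (nat_lit 6546932944) (nat_lit 65) (nat_lit 3) (nat_lit 65) (nat_lit 1) (nat_lit 67) (nat_lit 1) (nat_lit 356) (nat_lit 392) (nat_lit 272))))))))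
noncomputable def ec154 : XT := (XT.nd (nat_lit 2028) (nat_lit 1900) (nat_lit 0) (XT.nd (nat_lit 1014) (nat_lit 1596) (nat_lit 0) (XT.nd (nat_lit 468) (nat_lit 760) (nat_lit 0) (XT.nd (nat_lit 234) (nat_lit 380) (nat_lit 0) (XT.nd (nat_lit 78) (nat_lit 228) (nat_lit 0) (XT.lf (nat_lit 76) (nat_lit 2986667194) (nat_lit 0) (nat_lit 1916291011) (nat_lit 76) (nat_lit 3001386460) (nat_lit 65) (nat_lit 3) (nat_lit 64) (nat_lit 1) (nat_lit 65) (nat_lit 1) (nat_lit 357) (nat_lit 392) (nat_lit 271)) (XT.nd (nat_lit 78) (nat_lit 76) (nat_lit 0) (XT.lf (nat_lit 0) (nat_lit 1134282628) (nat_lit 0) (nat_lit 1147262580) (nat_lit 152) (nat_lit 5423162162) (nat_lit 62) (nat_lit 3) (nat_lit 62) (nat_lit 1) (nat_lit 64) (nat_lit 1) (nat_lit 358) (nat_lit 392) (nat_lit 270)) (XT.lf (nat_lit 76) (nat_lit 2447586756) (nat_lit 0) (nat_lit 2601762073) (nat_lit 76) (nat_lit 2459605230) (nat_lit 62) (nat_lit 3) (nat_lit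 61) (nat_lit 1) (nat_lit 62) (nat_lit 1) (nat_lit 359) (nat_lit 392) (nat_lit 269)))) (XT.nd (nat_lit 78) (nat_lit 228) (nat_lit 0) (XT.lf (nat_lit 0) (nat_lit 1455577237) (nat_lit 0) (nat_lit 1466175539) (nat_lit 152) (nat_lit 4397298363) (nat_lit 59) (nat_lit 3) (nat_lit 59) (nat_lit 1) (nat_lit 61) (nat_lit 1) (nat_lit 360) (nat_lit 392) (nat_lit 268)) (XT.nd (nat_lit 78) (nat_lit 152) (nat_lit 0) (XT.lf (nat_lit 76) (nat_lit 1955748065) (nat_lit 0) (nat_lit 3212126881) (nat_lit 76) (nat_lit 1965561308) (nat_lit 59) (nat_lit 3) (nat_lit 58) (nat_lit 1) (nat_lit 59) (nat_lit 1) (nat_lit 361) (nat_lit 392) (nat_lit 267)) (XT.lf (nat_lit 0) (nat_lit 1740936827) (nat_lit 0) (nat_lit 1749590479) (nat_lit 152) (nat_lit 3462263949) (nat_lit 56) (nat_lit 3) (nat_lit 56) (nat_lit 1) (nat_lit 58) (nat_lit 1) (nat_lit 362) (nat_lit 392) (nat_lit 266))))) (XT.nd (nat_lit 234) (nat_lit 456) (nat_lit 0)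 (XT.nd (nat_lit 78) (nat_lit 228) (nat_lit 0) (XT.lf (nat_lit 76) (nat_lit 1507750987) (nat_lit 0) (nat_lit 3753272314) (nat_lit 76) (nat_lit 1515763629) (nat_lit 56) (nat_lit 3) (nat_lit 55) (nat_lit 1) (nat_lit 56) (nat_lit 1) (nat_lit 363) (nat_lit 392) (nat_lit 265)) (XT.nd (nat_lit 78) (nat_lit 76) (nat_lit 0) (XT.lf (nat_lit 0) (nat_lit 1993216724) (nat_lit 0) (nat_lit 2000282546) (nat_lit 152) (nat_lit 2611447604) (nat_lit 53) (nat_lit 3) (nat_lit 53) (nat_lit 1) (nat_lit 55) (nat_lit 1) (nat_lit 364) (nat_lit 392) (nat_lit 264)) (XT.lf (nat_lit 76) (nat_lit 1100414600) (nat_lit 0) (nat_lit 4230681289) (nat_lit 76) (nat_lit 1106957027) (nat_lit 53) (nat_lit 3) (nat_lit 52) (nat_lit 1) (nat_lit 53) (nat_lit 1) (nat_lit 365) (nat_lit 392) (nat_lit 263)))) (XT.nd (nat_lit 156) (nat_lit 228) (nat_lit 0) (XT.nd (nat_lit 78) (nat_lit 76) (nat_lit 0) (XT.lf (nat_lit 0) (nat_lit 2215071104) (nat_lit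 0) (nat_lit 2220840441) (nat_lit 152) (nat_lit 1838675577) (nat_lit 50) (nat_lit 3) (nat_lit 50) (nat_lit 1) (nat_lit 52) (nat_lit 1) (nat_lit 366) (nat_lit 392) (nat_lit 262)) (XT.lf (nat_lit 76) (nat_lit 730764664) (nat_lit 0) (nat_lit 4649458226) (nat_lit 76) (nat_lit 736106642) (nat_lit 50) (nat_lit 3) (nat_lit 49) (nat_lit 1) (nat_lit 50) (nat_lit 1) (nat_lit 367) (nat_lit 392) (nat_lit 261))) (XT.nd (nat_lit 78) (nat_lit 76) (nat_lit 0) (XT.lf (nat_lit 0) (nat_lit 2408966597) (nat_lit 0) (nat_lit 2413677336) (nat_lit 152) (nat_lit 1138184572) (nat_lit 47) (nat_lit 3) (nat_lit 47) (nat_lit 1) (nat_lit 49) (nat_lit 1) (nat_lit 368) (nat_lit 392) (nat_lit 260)) (XT.lf (nat_lit 76) (nat_lit 396021618) (nat_lit 0) (nat_lit 5014353069) (nat_lit 76) (nat_lit 400383413) (nat_lit 47) (nat_lit 3) (nat_lit 46) (nat_lit 1) (nat_lit 47) (nat_lit 1) (nat_lit 369) (nat_lit 392) (nat_lit 259)))))) (XT.nd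 (nat_lit 468) (nat_lit 760) (nat_lit 0) (XT.nd (nat_lit 234) (nat_lit 380) (nat_lit 0) (XT.nd (nat_lit 78) (nat_lit 304) (nat_lit 0) (XT.lf (nat_lit 0) (nat_lit 2577194945) (nat_lit 0) (nat_lit 2581041325) (nat_lit 152) (nat_lit 504596207) (nat_lit 44) (nat_lit 3) (nat_lit 44) (nat_lit 1) (nat_lit 46) (nat_lit 1) (nat_lit 370) (nat_lit 392) (nat_lit 258)) (XT.nd (nat_lit 78) (nat_lit 228) (nat_lit 0) (XT.lf (nat_lit 76) (nat_lit 93589101) (nat_lit 0) (nat_lit 5329783907) (nat_lit 76) (nat_lit 97150565) (nat_lit 44) (nat_lit 3) (nat_lit 43) (nat_lit 1) (nat_lit 44) (nat_lit 1) (nat_lit 371) (nat_lit 392) (nat_lit 257)) (XT.lf (nat_lit 76) (nat_lit 2653641224) (nat_lit 0) (nat_lit 69325930) (nat_lit 76) (nat_lit 2656781844) (nat_lit 41) (nat_lit 3) (nat_lit 40) (nat_lit 1) (nat_lit 41) (nat_lit 1) (nat_lit 372) (nat_lit 392) (nat_lit 256)))) (XT.nd (nat_lit 78) (nat_lit 228) (nat_lit 0) (XT.lf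 (nat_lit 0) (nat_lit 179028123) (nat_lit 0) (nat_lit 181797629) (nat_lit 152) (nat_lit 4883458419) (nat_lit 38) (nat_lit 3) (nat_lit 38) (nat_lit 1) (nat_lit 40) (nat_lit 1) (nat_lit 373) (nat_lit 392) (nat_lit 255)) (XT.nd (nat_lit 78) (nat_lit 152) (nat_lit 0) (XT.lf (nat_lit 76) (nat_lit 2253558220) (nat_lit 0) (nat_lit 600835112) (nat_lit 76) (nat_lit 2256122578) (nat_lit 38) (nat_lit 3) (nat_lit 37) (nat_lit 1) (nat_lit 38) (nat_lit 1) (nat_lit 374) (nat_lit 392) (nat_lit 254)) (XT.lf (nat_lit 0) (nat_lit 428490364) (nat_lit 0) (nat_lit 430751703) (nat_lit 152) (nat_lit 4122414916) (nat_lit 35) (nat_lit 3) (nat_lit 35) (nat_lit 1) (nat_lit 37) (nat_lit 1) (nat_lit 375) (nat_lit 392) (nat_lit 253))))) (XT.nd (nat_lit 234) (nat_lit 456) (nat_lit 0) (XT.nd (nat_lit 78) (nat_lit 228) (nat_lit 0) (XT.lf (nat_lit 76) (nat_lit 1887485887) (nat_lit 0) (nat_lit 1077753906) (nat_lit 76) (nat_lit 1889579719)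 (nat_lit 35) (nat_lit 3) (nat_lit 34) (nat_lit 1) (nat_lit 35) (nat_lit 1) (nat_lit 376) (nat_lit 392) (nat_lit 252)) (XT.nd (nat_lit 78) (nat_lit 76) (nat_lit 0) (XT.lf (nat_lit 0) (nat_lit 651924005) (nat_lit 0) (nat_lit 653770417) (nat_lit 152) (nat_lit 3426548903) (nat_lit 32) (nat_lit 3) (nat_lit 32) (nat_lit 1) (nat_lit 34) (nat_lit 1) (nat_lit 377) (nat_lit 392) (nat_lit 251)) (XT.lf (nat_lit 76) (nat_lit 1552991813) (nat_lit 0) (nat_lit 1504282540) (nat_lit 76) (nat_lit 1554701454) (nat_lit 32) (nat_lit 3) (nat_lit 31) (nat_lit 1) (nat_lit 32) (nat_lit 1) (nat_lit 378) (nat_lit 392) (nat_lit 250)))) (XT.nd (nat_lit 156) (nat_lit 228) (nat_lit 0) (XT.nd (nat_lit 78) (nat_lit 76) (nat_lit 0) (XT.lf (nat_lit 0) (nat_lit 851346577) (nat_lit 0) (nat_lit 852854197) (nat_lit 152) (nat_lit 2791174302) (nat_lit 29) (nat_lit 3) (nat_lit 29) (nat_lit 1) (nat_lit 31) (nat_lit 1) (nat_lit 379) (nat_lit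 392) (nat_lit 249)) (XT.lf (nat_lit 76) (nat_lit 1247802726) (nat_lit 0) (nat_lit 1884334164) (nat_lit 76) (nat_lit 1249198671) (nat_lit 29) (nat_lit 3) (nat_lit 28) (nat_lit 1) (nat_lit 29) (nat_lit 1) (nat_lit 380) (nat_lit 392) (nat_lit 248))) (XT.nd (nat_lit 78) (nat_lit 76) (nat_lit 0) (XT.lf (nat_lit 0) (nat_lit 1028636381) (nat_lit 0) (nat_lit 1029867373) (nat_lit 152) (nat_lit 2211914337) (nat_lit 26) (nat_lit 3) (nat_lit 26) (nat_lit 1) (nat_lit 28) (nat_lit 1) (nat_lit 381) (nat_lit 392) (nat_lit 247)) (XT.lf (nat_lit 76) (nat_lit 969794764) (nat_lit 0) (nat_lit 2221553176) (nat_lit 76) (nat_lit 970934572) (nat_lit 26) (nat_lit 3) (nat_lit 25) (nat_lit 1) (nat_lit 26) (nat_lit 1) (nat_lit 382) (nat_lit 392) (nat_lit 246))))))) (XT.nd (nat_lit 1014) (nat_lit 304) (nat_lit 0) (XT.nd (nat_lit 468) (nat_lit 912) (nat_lit 0) (XT.nd (nat_lit 234) (nat_lit 304) (nat_lit 0) (XT.nd (nat_lit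 78) (nat_lit 228) (nat_lit 0) (XT.lf (nat_lit 0) (nat_lit 1185541575) (nat_lit 0) (nat_lit 1186546696) (nat_lit 152) (nat_lit 1684682182) (nat_lit 23) (nat_lit 3) (nat_lit 23) (nat_lit 1) (nat_lit 25) (nat_lit 1) (nat_lit 383) (nat_lit 392) (nat_lit 245)) (XT.nd (nat_lit 78) (nat_lit 152) (nat_lit 0) (XT.lf (nat_lit 76) (nat_lit 716984292) (nat_lit 0) (nat_lit 2519332444) (nat_lit 76) (nat_lit 717914960) (nat_lit 23) (nat_lit 3) (nat_lit 22) (nat_lit 1) (nat_lit 23) (nat_lit 1) (nat_lit 384) (nat_lit 392) (nat_lit 244)) (XT.lf (nat_lit 0) (nat_lit 1323688685) (nat_lit 0) (nat_lit 1324509379) (nat_lit 152) (nat_lit 1205662771) (nat_lit 20) (nat_lit 3) (nat_lit 20) (nat_lit 1) (nat_lit 22) (nat_lit 1) (nat_lit 385) (nat_lit 392) (nat_lit 243)))) (XT.nd (nat_lit 78) (nat_lit 228) (nat_lit 0) (XT.lf (nat_lit 76) (nat_lit 487519228) (nat_lit 0) (nat_lit 2780829475) (nat_lit 76) (nat_lit 488279131)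 (nat_lit 20) (nat_lit 3) (nat_lit 19) (nat_lit 1) (nat_lit 20) (nat_lit 1) (nat_lit 386) (nat_lit 392) (nat_lit 242)) (XT.nd (nat_lit 78) (nat_lit 76) (nat_lit 0) (XT.lf (nat_lit 0) (nat_lit 1444590560) (nat_lit 0) (nat_lit 1445260668) (nat_lit 152) (nat_lit 771295690) (nat_lit 17) (nat_lit 3) (nat_lit 17) (nat_lit 1) (nat_lit 19) (nat_lit 1) (nat_lit 387) (nat_lit 392) (nat_lit 241)) (XT.lf (nat_lit 76) (nat_lit 279670873) (nat_lit 0) (nat_lit 3008981606) (nat_lit 76) (nat_lit 280291344) (nat_lit 17) (nat_lit 3) (nat_lit 16) (nat_lit 1) (nat_lit 17) (nat_lit 1) (nat_lit 388) (nat_lit 392) (nat_lit 240))))) (XT.nd (nat_lit 234) (nat_lit 532) (nat_lit 0) (XT.nd (nat_lit 78) (nat_lit 228) (nat_lit 0) (XT.lf (nat_lit 0) (nat_lit 1549653831) (nat_lit 0) (nat_lit 1550200983) (nat_lit 152) (nat_lit 378259111) (nat_lit 14) (nat_lit 3) (nat_lit 14) (nat_lit 1) (nat_lit 16) (nat_lit 1) (nat_lit 389) (nat_lit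 392) (nat_lit 239)) (XT.nd (nat_lit 78) (nat_lit 152) (nat_lit 0) (XT.lf (nat_lit 76) (nat_lit 91826206) (nat_lit 0) (nat_lit 3206520259) (nat_lit 76) (nat_lit 92332828) (nat_lit 14) (nat_lit 3) (nat_lit 13) (nat_lit 1) (nat_lit 14) (nat_lit 1) (nat_lit 390) (nat_lit 392) (nat_lit 238)) (XT.lf (nat_lit 0) (nat_lit 1640185876) (nat_lit 0) (nat_lit 1640632632) (nat_lit 152) (nat_lit 23454689) (nat_lit 11) (nat_lit 3) (nat_lit 11) (nat_lit 1) (nat_lit 13) (nat_lit 1) (nat_lit 391) (nat_lit 392) (nat_lit 237)))) (XT.nd (nat_lit 156) (nat_lit 228) (nat_lit 0) (XT.nd (nat_lit 78) (nat_lit 76) (nat_lit 0) (XT.lf (nat_lit 0) (nat_lit 78382977) (nat_lit 0) (nat_lit 78776943) (nat_lit 152) (nat_lit 3063951875) (nat_lit 8) (nat_lit 3) (nat_lit 8) (nat_lit 1) (nat_lit 10) (nat_lit 1) (nat_lit 392) (nat_lit 392) (nat_lit 236)) (XT.lf (nat_lit 76) (nat_lit 1416381722) (nat_lit 0) (nat_lit 305793935) (nat_lit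 76) (nat_lit 1416746505) (nat_lit 8) (nat_lit 3) (nat_lit 7) (nat_lit 1) (nat_lit 8) (nat_lit 1) (nat_lit 393) (nat_lit 392) (nat_lit 235))) (XT.nd (nat_lit 78) (nat_lit 76) (nat_lit 0) (XT.lf (nat_lit 0) (nat_lit 233203083) (nat_lit 0) (nat_lit 233524761) (nat_lit 152) (nat_lit 2593070044) (nat_lit 5) (nat_lit 3) (nat_lit 5) (nat_lit 1) (nat_lit 7) (nat_lit 1) (nat_lit 394) (nat_lit 392) (nat_lit 234)) (XT.lf (nat_lit 76) (nat_lit 1189740144) (nat_lit 0) (nat_lit 602088473) (nat_lit 76) (nat_lit 1190037994) (nat_lit 5) (nat_lit 3) (nat_lit 4) (nat_lit 1) (nat_lit 5) (nat_lit 1) (nat_lit 395) (nat_lit 392) (nat_lit 233)))))) (XT.nd (nat_lit 546) (nat_lit 0) (nat_lit 0) (XT.nd (nat_lit 234) (nat_lit 0) (nat_lit 0) (XT.nd (nat_lit 78) (nat_lit 152) (nat_lit 0) (XT.lf (nat_lit 0) (nat_lit 371962404) (nat_lit 0) (nat_lit 372225059) (nat_lit 152) (nat_lit 2162412552) (nat_lit 2) (nat_lit 3) (nat_lit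 2) (nat_lit 1) (nat_lit 4) (nat_lit 1) (nat_lit 396) (nat_lit 392) (nat_lit 232)) (XT.nd (nat_lit 78) (nat_lit 76) (nat_lit 0) (XT.lf (nat_lit 76) (nat_lit 982608126) (nat_lit 0) (nat_lit 867245979) (nat_lit 76) (nat_lit 982851324) (nat_lit 2) (nat_lit 3) (nat_lit 1) (nat_lit 1) (nat_lit 2) (nat_lit 1) (nat_lit 397) (nat_lit 392) (nat_lit 231)) (XT.lf (nat_lit 0) (nat_lit 58740390162) (nat_lit 0) (nat_lit 0) (nat_lit 0) (nat_lit 0) (nat_lit 0) (nat_lit 0) (nat_lit 1) (nat_lit 0) (nat_lit 1) (nat_lit 0) (nat_lit 398) (nat_lit 392) (nat_lit 230)))) (XT.nd (nat_lit 156) (nat_lit 0) (nat_lit 0) (XT.nd (nat_lit 78) (nat_lit 0) (nat_lit 0) (XT.lf (nat_lit 0) (nat_lit 58740373415) (nat_lit 0) (nat_lit 0) (nat_lit 0) (nat_lit 0) (nat_lit 0) (nat_lit 0) (nat_lit 1) (nat_lit 0) (nat_lit 1) (nat_lit 0) (nat_lit 399) (nat_lit 392) (nat_lit 229)) (XT.lf (nat_lit 0) (nat_lit 58740357908) (nat_lit 0) (nat_lit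 0) (nat_lit 0) (nat_lit 0) (nat_lit 0) (nat_lit 0) (nat_lit 1) (nat_lit 0) (nat_lit 1) (nat_lit 0) (nat_lit 400) (nat_lit 392) (nat_lit 228))) (XT.nd (nat_lit 78) (nat_lit 0) (nat_lit 0) (XT.lf (nat_lit 0) (nat_lit 58740343549) (nat_lit 0) (nat_lit 0) (nat_lit 0) (nat_lit 0) (nat_lit 0) (nat_lit 0) (nat_lit 1) (nat_lit 0) (nat_lit 1) (nat_lit 0) (nat_lit 401) (nat_lit 392) (nat_lit 227)) (XT.lf (nat_lit 0) (nat_lit 58740330254) (nat_lit 0) (nat_lit 0) (nat_lit 0) (nat_lit 0) (nat_lit 0) (nat_lit 0) (nat_lit 1) (nat_lit 0) (nat_lit 1) (nat_lit 0) (nat_lit 402) (nat_lit 392) (nat_lit 226))))) (XT.nd (nat_lit 234) (nat_lit 0) (nat_lit 0) (XT.nd (nat_lit 78) (nat_lit 0) (nat_lit 0) (XT.lf (nat_lit 0) (nat_lit 58740317944) (nat_lit 0) (nat_lit 0) (nat_lit 0) (nat_lit 0) (nat_lit 0) (nat_lit 0) (nat_lit 1) (nat_lit 0) (nat_lit 1) (nat_lit 0) (nat_lit 403) (nat_lit 392) (nat_lit 225)) (XT.nd (nat_lit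 78) (nat_lit 0) (nat_lit 0) (XT.lf (nat_lit 0) (nat_lit 58740306546) (nat_lit 0) (nat_lit 0) (nat_lit 0) (nat_lit 0) (nat_lit 0) (nat_lit 0) (nat_lit 1) (nat_lit 0) (nat_lit 1) (nat_lit 0) (nat_lit 404) (nat_lit 392) (nat_lit 224)) (XT.lf (nat_lit 0) (nat_lit 58740295992) (nat_lit 0) (nat_lit 0) (nat_lit 0) (nat_lit 0) (nat_lit 0) (nat_lit 0) (nat_lit 1) (nat_lit 0) (nat_lit 1) (nat_lit 0) (nat_lit 405) (nat_lit 392) (nat_lit 223)))) (XT.nd (nat_lit 156) (nat_lit 0) (nat_lit 0) (XT.nd (nat_lit 78) (nat_lit 0) (nat_lit 0) (XT.lf (nat_lit 0) (nat_lit 58740286220) (nat_lit 0) (nat_lit 0) (nat_lit 0) (nat_lit 0) (nat_lit 0) (nat_lit 0) (nat_lit 1) (nat_lit 0) (nat_lit 1) (nat_lit 0) (nat_lit 406) (nat_lit 392) (nat_lit 222)) (XT.lf (nat_lit 0) (nat_lit 58740277172) (nat_lit 0) (nat_lit 0) (nat_lit 0) (nat_lit 0) (nat_lit 0) (nat_lit 0) (nat_lit 1) (nat_lit 0) (nat_lit 1) (nat_lit 0) (nat_lit 407)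 (nat_lit 392) (nat_lit 221))) (XT.nd (nat_lit 78) (nat_lit 0) (nat_lit 0) (XT.lf (nat_lit 0) (nat_lit 58740268794) (nat_lit 0) (nat_lit 0) (nat_lit 0) (nat_lit 0) (nat_lit 0) (nat_lit 0) (nat_lit 1) (nat_lit 0) (nat_lit 1) (nat_lit 0) (nat_lit 408) (nat_lit 392) (nat_lit 220)) (XT.lf (nat_lit 0) (nat_lit 58740261037) (nat_lit 0) (nat_lit 0) (nat_lit 0) (nat_lit 0) (nat_lit 0) (nat_lit 0) (nat_lit 1) (nat_lit 0) (nat_lit 1) (nat_lit 0) (nat_lit 409) (nat_lit 392) (nat_lit 219))))))))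
noncomputable def ec155 : XT := (XT.nd (nat_lit 40950) (nat_lit 0) (nat_lit 13832) (XT.nd (nat_lit 39858) (nat_lit 0) (nat_lit 18164) (XT.nd (nat_lit 468) (nat_lit 0) (nat_lit 0) (XT.nd (nat_lit 234) (nat_lit 0) (nat_lit 0) (XT.nd (nat_lit 78) (nat_lit 0) (nat_lit 0) (XT.lf (nat_lit 0) (nat_lit 58740253854) (nat_lit 0) (nat_lit 0) (nat_lit 0) (nat_lit 0) (nat_lit 0) (nat_lit 0) (nat_lit 1) (nat_lit 0) (nat_lit 1) (nat_lit 0) (nat_lit 410) (nat_lit 392) (nat_lit 218)) (XT.nd (nat_lit 78) (nat_lit 0) (nat_lit 0) (XT.lf (nat_lit 0) (nat_lit 58740247203) (nat_lit 0) (nat_lit 0) (nat_lit 0) (nat_lit 0) (nat_lit 0) (nat_lit 0) (nat_lit 1) (nat_lit 0) (nat_lit 1) (nat_lit 0) (nat_lit 411) (nat_lit 392) (nat_lit 217)) (XT.lf (nat_lit 0) (nat_lit 58740241045) (nat_lit 0) (nat_lit 0) (nat_lit 0) (nat_lit 0) (nat_lit 0) (nat_lit 0) (nat_lit 1) (nat_lit 0) (nat_lit 1) (nat_lit 0) (nat_lit 412) (nat_lit 392)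 (nat_lit 216)))) (XT.nd (nat_lit 78) (nat_lit 0) (nat_lit 0) (XT.lf (nat_lit 0) (nat_lit 58740235343) (nat_lit 0) (nat_lit 0) (nat_lit 0) (nat_lit 0) (nat_lit 0) (nat_lit 0) (nat_lit 1) (nat_lit 0) (nat_lit 1) (nat_lit 0) (nat_lit 413) (nat_lit 392) (nat_lit 215)) (XT.nd (nat_lit 78) (nat_lit 0) (nat_lit 0) (XT.lf (nat_lit 0) (nat_lit 58740230064) (nat_lit 0) (nat_lit 0) (nat_lit 0) (nat_lit 0) (nat_lit 0) (nat_lit 0) (nat_lit 1) (nat_lit 0) (nat_lit 1) (nat_lit 0) (nat_lit 414) (nat_lit 392) (nat_lit 214)) (XT.lf (nat_lit 0) (nat_lit 58740225175) (nat_lit 0) (nat_lit 0) (nat_lit 0) (nat_lit 0) (nat_lit 0) (nat_lit 0) (nat_lit 1) (nat_lit 0) (nat_lit 1) (nat_lit 0) (nat_lit 415) (nat_lit 392) (nat_lit 213))))) (XT.nd (nat_lit 39078) (nat_lit 0) (nat_lit 22268) (XT.nd (nat_lit 38922) (nat_lit 0) (nat_lit 22192) (XT.lf (nat_lit 0) (nat_lit 58740220649) (nat_lit 0) (nat_lit 0) (nat_lit 0) (nat_lit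 0) (nat_lit 0) (nat_lit 0) (nat_lit 1) (nat_lit 0) (nat_lit 1) (nat_lit 0) (nat_lit 416) (nat_lit 392) (nat_lit 212)) (XT.nd (nat_lit 78) (nat_lit 0) (nat_lit 76) (XT.lf (nat_lit 836) (nat_lit 31747440635) (nat_lit 0) (nat_lit 56367507873) (nat_lit 836) (nat_lit 31747440635) (nat_lit 303) (nat_lit 1) (nat_lit 292) (nat_lit 0) (nat_lit 303) (nat_lit 0) (nat_lit 234) (nat_lit 393) (nat_lit 393)) (XT.lf (nat_lit 836) (nat_lit 11842769499) (nat_lit 0) (nat_lit 110666501610) (nat_lit 760) (nat_lit 108231468846) (nat_lit 304) (nat_lit 1) (nat_lit 293) (nat_lit 1) (nat_lit 303) (nat_lit 1) (nat_lit 235) (nat_lit 393) (nat_lit 392)))) (XT.nd (nat_lit 156) (nat_lit 0) (nat_lit 152) (XT.nd (nat_lit 78) (nat_lit 0) (nat_lit 76) (XT.lf (nat_lit 836) (nat_lit 108769002110) (nat_lit 76) (nat_lit 74113393431) (nat_lit 0) (nat_lit 39306363112) (nat_lit 304) (nat_lit 1) (nat_lit 294) (nat_lit 1) (nat_lit 293)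 (nat_lit 1) (nat_lit 236) (nat_lit 393) (nat_lit 391)) (XT.lf (nat_lit 836) (nat_lit 93985328308) (nat_lit 76) (nat_lit 31060409481) (nat_lit 0) (nat_lit 89019002397) (nat_lit 305) (nat_lit 1) (nat_lit 295) (nat_lit 1) (nat_lit 294) (nat_lit 1) (nat_lit 237) (nat_lit 393) (nat_lit 390))) (XT.nd (nat_lit 78) (nat_lit 0) (nat_lit 76) (XT.lf (nat_lit 836) (nat_lit 69557133303) (nat_lit 0) (nat_lit 130138108587) (nat_lit 760) (nat_lit 6652641518) (nat_lit 306) (nat_lit 1) (nat_lit 295) (nat_lit 1) (nat_lit 305) (nat_lit 1) (nat_lit 238) (nat_lit 393) (nat_lit 389)) (XT.lf (nat_lit 836) (nat_lit 16689552147) (nat_lit 0) (nat_lit 143513418486) (nat_lit 760) (nat_lit 38796589924) (nat_lit 307) (nat_lit 1) (nat_lit 296) (nat_lit 1) (nat_lit 306) (nat_lit 1) (nat_lit 239) (nat_lit 393) (nat_lit 388)))))) (XT.nd (nat_lit 546) (nat_lit 2052) (nat_lit 0) (XT.nd (nat_lit 234) (nat_lit 1064) (nat_lit 0) (XT.nd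 (nat_lit 78) (nat_lit 1216) (nat_lit 0) (XT.lf (nat_lit 836) (nat_lit 32070531011) (nat_lit 76) (nat_lit 124724847463) (nat_lit 0) (nat_lit 35198890766) (nat_lit 307) (nat_lit 1) (nat_lit 297) (nat_lit 1) (nat_lit 296) (nat_lit 1) (nat_lit 240) (nat_lit 393) (nat_lit 387)) (XT.nd (nat_lit 78) (nat_lit 532) (nat_lit 0) (XT.lf (nat_lit 836) (nat_lit 6586555763) (nat_lit 0) (nat_lit 93240073710) (nat_lit 760) (nat_lit 85500170638) (nat_lit 298) (nat_lit 1) (nat_lit 287) (nat_lit 1) (nat_lit 297) (nat_lit 1) (nat_lit 241) (nat_lit 393) (nat_lit 386)) (XT.lf (nat_lit 76) (nat_lit 45606684141) (nat_lit 0) (nat_lit 19763498601) (nat_lit 532) (nat_lit 113604846466) (nat_lit 281) (nat_lit 1) (nat_lit 280) (nat_lit 1) (nat_lit 287) (nat_lit 1) (nat_lit 242) (nat_lit 393) (nat_lit 385)))) (XT.nd (nat_lit 156) (nat_lit 304) (nat_lit 0) (XT.nd (nat_lit 78) (nat_lit 380) (nat_lit 0) (XT.lf (nat_lit 456) (nat_lit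 125686281124) (nat_lit 0) (nat_lit 40913594083) (nat_lit 380) (nat_lit 6325494446) (nat_lit 281) (nat_lit 1) (nat_lit 275) (nat_lit 1) (nat_lit 280) (nat_lit 1) (nat_lit 243) (nat_lit 393) (nat_lit 384)) (XT.lf (nat_lit 456) (nat_lit 90696417335) (nat_lit 0) (nat_lit 19070002443) (nat_lit 380) (nat_lit 57369414866) (nat_lit 276) (nat_lit 1) (nat_lit 270) (nat_lit 1) (nat_lit 275) (nat_lit 1) (nat_lit 244) (nat_lit 393) (nat_lit 383))) (XT.nd (nat_lit 78) (nat_lit 0) (nat_lit 0) (XT.lf (nat_lit 380) (nat_lit 55187613211) (nat_lit 0) (nat_lit 351109735) (nat_lit 304) (nat_lit 106088298651) (nat_lit 271) (nat_lit 1) (nat_lit 266) (nat_lit 1) (nat_lit 270) (nat_lit 1) (nat_lit 245) (nat_lit 393) (nat_lit 382)) (XT.lf (nat_lit 76) (nat_lit 4071481286) (nat_lit 0) (nat_lit 137310077693) (nat_lit 380) (nat_lit 14990064809) (nat_lit 267) (nat_lit 1) (nat_lit 266) (nat_lit 1) (nat_lit 271) (nat_lit 1)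 (nat_lit 246) (nat_lit 393) (nat_lit 381))))) (XT.nd (nat_lit 234) (nat_lit 1064) (nat_lit 0) (XT.nd (nat_lit 78) (nat_lit 608) (nat_lit 0) (XT.lf (nat_lit 76) (nat_lit 105126702845) (nat_lit 0) (nat_lit 17436388515) (nat_lit 380) (nat_lit 28755771350) (nat_lit 262) (nat_lit 1) (nat_lit 261) (nat_lit 1) (nat_lit 266) (nat_lit 1) (nat_lit 247) (nat_lit 393) (nat_lit 380)) (XT.nd (nat_lit 78) (nat_lit 304) (nat_lit 0) (XT.lf (nat_lit 76) (nat_lit 52597553412) (nat_lit 0) (nat_lit 53410753265) (nat_lit 380) (nat_lit 40481051702) (nat_lit 258) (nat_lit 1) (nat_lit 257) (nat_lit 1) (nat_lit 262) (nat_lit 1) (nat_lit 248) (nat_lit 393) (nat_lit 379)) (XT.lf (nat_lit 76) (nat_lit 2596098603) (nat_lit 0) (nat_lit 89301950108) (nat_lit 380) (nat_lit 49990466406) (nat_lit 254) (nat_lit 1) (nat_lit 253) (nat_lit 1) (nat_lit 258) (nat_lit 1) (nat_lit 249) (nat_lit 393) (nat_lit 378)))) (XT.nd (nat_lit 156)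 (nat_lit 456) (nat_lit 0) (XT.nd (nat_lit 78) (nat_lit 380) (nat_lit 0) (XT.lf (nat_lit 304) (nat_lit 11723834977) (nat_lit 0) (nat_lit 79282684112) (nat_lit 228) (nat_lit 46461475004) (nat_lit 254) (nat_lit 1) (nat_lit 250) (nat_lit 1) (nat_lit 253) (nat_lit 1) (nat_lit 250) (nat_lit 393) (nat_lit 377)) (XT.lf (nat_lit 76) (nat_lit 40509001914) (nat_lit 0) (nat_lit 27765121624) (nat_lit 380) (nat_lit 64955969269) (nat_lit 246) (nat_lit 1) (nat_lit 245) (nat_lit 1) (nat_lit 250) (nat_lit 1) (nat_lit 251) (nat_lit 393) (nat_lit 376))) (XT.nd (nat_lit 78) (nat_lit 228) (nat_lit 0) (XT.lf (nat_lit 304) (nat_lit 62717678641) (nat_lit 0) (nat_lit 58915153014) (nat_lit 228) (nat_lit 7541069663) (nat_lit 246) (nat_lit 1) (nat_lit 242) (nat_lit 1) (nat_lit 245) (nat_lit 1) (nat_lit 252) (nat_lit 393) (nat_lit 375)) (XT.lf (nat_lit 304) (nat_lit 20100713011) (nat_lit 0) (nat_lit 50723534194) (nat_lit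 228) (nat_lit 54449343199) (nat_lit 243) (nat_lit 1) (nat_lit 239) (nat_lit 1) (nat_lit 242) (nat_lit 1) (nat_lit 253) (nat_lit 393) (nat_lit 374))))))) (XT.nd (nat_lit 1014) (nat_lit 1900) (nat_lit 0) (XT.nd (nat_lit 468) (nat_lit 1064) (nat_lit 0) (XT.nd (nat_lit 234) (nat_lit 684) (nat_lit 0) (XT.nd (nat_lit 78) (nat_lit 380) (nat_lit 0) (XT.lf (nat_lit 76) (nat_lit 22909955853) (nat_lit 0) (nat_lit 20976055503) (nat_lit 304) (nat_lit 77649255388) (nat_lit 236) (nat_lit 1) (nat_lit 235) (nat_lit 1) (nat_lit 239) (nat_lit 1) (nat_lit 254) (nat_lit 393) (nat_lit 373)) (XT.nd (nat_lit 78) (nat_lit 152) (nat_lit 0) (XT.lf (nat_lit 304) (nat_lit 57008418217) (nat_lit 0) (nat_lit 37931288913) (nat_lit 228) (nat_lit 22994072051) (nat_lit 236) (nat_lit 1) (nat_lit 232) (nat_lit 1) (nat_lit 235) (nat_lit 1) (nat_lit 255) (nat_lit 393) (nat_lit 372)) (XT.lf (nat_lit 228) (nat_lit 14132471052) (nat_lit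 0) (nat_lit 33092282861) (nat_lit 152) (nat_lit 67252831760) (nat_lit 233) (nat_lit 1) (nat_lit 230) (nat_lit 1) (nat_lit 232) (nat_lit 1) (nat_lit 256) (nat_lit 393) (nat_lit 371)))) (XT.nd (nat_lit 78) (nat_lit 380) (nat_lit 0) (XT.lf (nat_lit 76) (nat_lit 2394130885) (nat_lit 0) (nat_lit 26790844349) (nat_lit 304) (nat_lit 81970388097) (nat_lit 227) (nat_lit 1) (nat_lit 226) (nat_lit 1) (nat_lit 230) (nat_lit 1) (nat_lit 257) (nat_lit 393) (nat_lit 370)) (XT.nd (nat_lit 78) (nat_lit 228) (nat_lit 0) (XT.lf (nat_lit 228) (nat_lit 41066367753) (nat_lit 0) (nat_lit 25662956769) (nat_lit 152) (nat_lit 41209279126) (nat_lit 227) (nat_lit 1) (nat_lit 224) (nat_lit 1) (nat_lit 226) (nat_lit 1) (nat_lit 258) (nat_lit 393) (nat_lit 369)) (XT.lf (nat_lit 76) (nat_lit 22280894969) (nat_lit 0) (nat_lit 1029168507) (nat_lit 228) (nat_lit 81552148799) (nat_lit 222) (nat_lit 1) (nat_lit 221) (nat_lit 1)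 (nat_lit 224) (nat_lit 1) (nat_lit 259) (nat_lit 393) (nat_lit 368))))) (XT.nd (nat_lit 234) (nat_lit 532) (nat_lit 0) (XT.nd (nat_lit 78) (nat_lit 380) (nat_lit 0) (XT.lf (nat_lit 228) (nat_lit 60911664302) (nat_lit 0) (nat_lit 21107257434) (nat_lit 152) (nat_lit 19856389200) (nat_lit 222) (nat_lit 1) (nat_lit 219) (nat_lit 1) (nat_lit 221) (nat_lit 1) (nat_lit 260) (nat_lit 393) (nat_lit 367)) (XT.nd (nat_lit 78) (nat_lit 228) (nat_lit 0) (XT.lf (nat_lit 228) (nat_lit 18921603833) (nat_lit 0) (nat_lit 19621529861) (nat_lit 152) (nat_lit 60459478215) (nat_lit 220) (nat_lit 1) (nat_lit 217) (nat_lit 1) (nat_lit 219) (nat_lit 1) (nat_lit 261) (nat_lit 393) (nat_lit 366)) (XT.lf (nat_lit 228) (nat_lit 75111813332) (nat_lit 0) (nat_lit 18746779200) (nat_lit 152) (nat_lit 2378246435) (nat_lit 217) (nat_lit 1) (nat_lit 214) (nat_lit 1) (nat_lit 216) (nat_lit 1) (nat_lit 262) (nat_lit 393) (nat_lit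 365)))) (XT.nd (nat_lit 156) (nat_lit 228) (nat_lit 0) (XT.nd (nat_lit 78) (nat_lit 152) (nat_lit 0) (XT.lf (nat_lit 228) (nat_lit 33616566509) (nat_lit 0) (nat_lit 17896853720) (nat_lit 152) (nat_lit 42034497896) (nat_lit 215) (nat_lit 1) (nat_lit 212) (nat_lit 1) (nat_lit 214) (nat_lit 1) (nat_lit 263) (nat_lit 393) (nat_lit 364)) (XT.lf (nat_lit 76) (nat_lit 11514971928) (nat_lit 0) (nat_lit 6329147452) (nat_lit 152) (nat_lit 73126407392) (nat_lit 211) (nat_lit 1) (nat_lit 210) (nat_lit 1) (nat_lit 212) (nat_lit 1) (nat_lit 264) (nat_lit 393) (nat_lit 363))) (XT.nd (nat_lit 78) (nat_lit 76) (nat_lit 0) (XT.lf (nat_lit 228) (nat_lit 44106868572) (nat_lit 0) (nat_lit 17655170019) (nat_lit 152) (nat_lit 26696134847) (nat_lit 211) (nat_lit 1) (nat_lit 208) (nat_lit 1) (nat_lit 210) (nat_lit 1) (nat_lit 265) (nat_lit 393) (nat_lit 362)) (XT.lf (nat_lit 152) (nat_lit 4749682994) (nat_lit 0) (nat_lit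 18088803810) (nat_lit 76) (nat_lit 63206517778) (nat_lit 209) (nat_lit 1) (nat_lit 207) (nat_lit 1) (nat_lit 208) (nat_lit 1) (nat_lit 266) (nat_lit 393) (nat_lit 361)))))) (XT.nd (nat_lit 546) (nat_lit 760) (nat_lit 0) (XT.nd (nat_lit 234) (nat_lit 608) (nat_lit 0) (XT.nd (nat_lit 78) (nat_lit 304) (nat_lit 0) (XT.lf (nat_lit 228) (nat_lit 51271074365) (nat_lit 0) (nat_lit 18500019238) (nat_lit 152) (nat_lit 13927280638) (nat_lit 207) (nat_lit 1) (nat_lit 204) (nat_lit 1) (nat_lit 206) (nat_lit 1) (nat_lit 267) (nat_lit 393) (nat_lit 360)) (XT.nd (nat_lit 78) (nat_lit 228) (nat_lit 0) (XT.lf (nat_lit 152) (nat_lit 12895053274) (nat_lit 0) (nat_lit 19191753599) (nat_lit 76) (nat_lit 49344023184) (nat_lit 205) (nat_lit 1) (nat_lit 203) (nat_lit 1) (nat_lit 204) (nat_lit 1) (nat_lit 268) (nat_lit 393) (nat_lit 359)) (XT.lf (nat_lit 228) (nat_lit 55819514381) (nat_lit 0) (nat_lit 20117377554) (nat_lit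 152) (nat_lit 3301433870) (nat_lit 203) (nat_lit 1) (nat_lit 200) (nat_lit 1) (nat_lit 202) (nat_lit 1) (nat_lit 269) (nat_lit 393) (nat_lit 358)))) (XT.nd (nat_lit 156) (nat_lit 304) (nat_lit 0) (XT.nd (nat_lit 78) (nat_lit 228) (nat_lit 0) (XT.lf (nat_lit 152) (nat_lit 18557750760) (nat_lit 0) (nat_lit 20972607835) (nat_lit 76) (nat_lit 37574238144) (nat_lit 201) (nat_lit 1) (nat_lit 199) (nat_lit 1) (nat_lit 200) (nat_lit 1) (nat_lit 270) (nat_lit 393) (nat_lit 357)) (XT.lf (nat_lit 76) (nat_lit 5356505399) (nat_lit 0) (nat_lit 16812642613) (nat_lit 228) (nat_lit 52878374021) (nat_lit 197) (nat_lit 1) (nat_lit 196) (nat_lit 1) (nat_lit 199) (nat_lit 1) (nat_lit 271) (nat_lit 393) (nat_lit 356))) (XT.nd (nat_lit 78) (nat_lit 228) (nat_lit 0) (XT.lf (nat_lit 152) (nat_lit 22270975243) (nat_lit 0) (nat_lit 23205300583) (nat_lit 76) (nat_lit 27565257685) (nat_lit 197) (nat_lit 1) (nat_lit 195)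 (nat_lit 1) (nat_lit 196) (nat_lit 1) (nat_lit 272) (nat_lit 393) (nat_lit 355)) (XT.lf (nat_lit 76) (nat_lit 12457237063) (nat_lit 0) (nat_lit 12065676451) (nat_lit 228) (nat_lit 46583126827) (nat_lit 193) (nat_lit 1) (nat_lit 192) (nat_lit 1) (nat_lit 195) (nat_lit 1) (nat_lit 273) (nat_lit 393) (nat_lit 354))))) (XT.nd (nat_lit 234) (nat_lit 456) (nat_lit 0) (XT.nd (nat_lit 78) (nat_lit 228) (nat_lit 0) (XT.lf (nat_lit 152) (nat_lit 24464716277) (nat_lit 0) (nat_lit 25713361868) (nat_lit 76) (nat_lit 19041920141) (nat_lit 193) (nat_lit 1) (nat_lit 191) (nat_lit 1) (nat_lit 192) (nat_lit 1) (nat_lit 274) (nat_lit 393) (nat_lit 353)) (XT.nd (nat_lit 78) (nat_lit 76) (nat_lit 0) (XT.lf (nat_lit 76) (nat_lit 18339933569) (nat_lit 0) (nat_lit 8738650191) (nat_lit 152) (nat_lit 40317659745) (nat_lit 190) (nat_lit 1) (nat_lit 189) (nat_lit 1) (nat_lit 191) (nat_lit 1) (nat_lit 275) (nat_lit 393)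 (nat_lit 352)) (XT.lf (nat_lit 152) (nat_lit 25485038719) (nat_lit 0) (nat_lit 28360251634) (nat_lit 76) (nat_lit 11775685314) (nat_lit 190) (nat_lit 1) (nat_lit 188) (nat_lit 1) (nat_lit 189) (nat_lit 1) (nat_lit 276) (nat_lit 393) (nat_lit 351)))) (XT.nd (nat_lit 156) (nat_lit 228) (nat_lit 0) (XT.nd (nat_lit 78) (nat_lit 76) (nat_lit 0) (XT.lf (nat_lit 76) (nat_lit 23198310749) (nat_lit 0) (nat_lit 6519146988) (nat_lit 152) (nat_lit 34182855472) (nat_lit 187) (nat_lit 1) (nat_lit 186) (nat_lit 1) (nat_lit 188) (nat_lit 1) (nat_lit 277) (nat_lit 393) (nat_lit 350)) (XT.lf (nat_lit 152) (nat_lit 25609808038) (nat_lit 0) (nat_lit 31041504075) (nat_lit 76) (nat_lit 5576351028) (nat_lit 187) (nat_lit 1) (nat_lit 185) (nat_lit 1) (nat_lit 186) (nat_lit 1) (nat_lit 278) (nat_lit 393) (nat_lit 349))) (XT.nd (nat_lit 78) (nat_lit 76) (nat_lit 0) (XT.lf (nat_lit 76) (nat_lit 27193368075) (nat_lit 0)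 (nat_lit 5155954655) (nat_lit 152) (nat_lit 28253131482) (nat_lit 184) (nat_lit 1) (nat_lit 183) (nat_lit 1) (nat_lit 185) (nat_lit 1) (nat_lit 279) (nat_lit 393) (nat_lit 348)) (XT.lf (nat_lit 152) (nat_lit 25061509941) (nat_lit 0) (nat_lit 33678347853) (nat_lit 76) (nat_lit 285271933) (nat_lit 184) (nat_lit 1) (nat_lit 182) (nat_lit 1) (nat_lit 183) (nat_lit 1) (nat_lit 280) (nat_lit 393) (nat_lit 347))))))))
noncomputable def ec156 : XT := (XT.nd (nat_lit 2028) (nat_lit 3344) (nat_lit 0) (XT.nd (nat_lit 1014) (nat_lit 1444) (nat_lit 0) (XT.nd (nat_lit 468) (nat_lit 912) (nat_lit 0) (XT.nd (nat_lit 234) (nat_lit 304) (nat_lit 0) (XT.nd (nat_lit 78) (nat_lit 228) (nat_lit 0) (XT.lf (nat_lit 76) (nat_lit 30459179774) (nat_lit 0) (nat_lit 4447573393) (nat_lit 152) (nat_lit 22581833192) (nat_lit 181) (nat_lit 1) (nat_lit 180) (nat_lit 1) (nat_lit 182) (nat_lit 1) (nat_lit 281) (nat_lit 393) (nat_lit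 346)) (XT.nd (nat_lit 78) (nat_lit 152) (nat_lit 0) (XT.lf (nat_lit 0) (nat_lit 4094801378) (nat_lit 0) (nat_lit 32048380434) (nat_lit 152) (nat_lit 19853549879) (nat_lit 179) (nat_lit 3) (nat_lit 179) (nat_lit 1) (nat_lit 181) (nat_lit 1) (nat_lit 282) (nat_lit 393) (nat_lit 345)) (XT.lf (nat_lit 76) (nat_lit 33107637670) (nat_lit 0) (nat_lit 4232848917) (nat_lit 152) (nat_lit 17205603290) (nat_lit 178) (nat_lit 1) (nat_lit 177) (nat_lit 1) (nat_lit 179) (nat_lit 1) (nat_lit 283) (nat_lit 393) (nat_lit 344)))) (XT.nd (nat_lit 78) (nat_lit 228) (nat_lit 0) (XT.lf (nat_lit 0) (nat_lit 7822585521) (nat_lit 0) (nat_lit 30647050751) (nat_lit 152) (nat_lit 14664445652) (nat_lit 176) (nat_lit 3) (nat_lit 176) (nat_lit 1) (nat_lit 178) (nat_lit 1) (nat_lit 284) (nat_lit 393) (nat_lit 343)) (XT.nd (nat_lit 78) (nat_lit 76) (nat_lit 0) (XT.lf (nat_lit 76) (nat_lit 35232337188) (nat_lit 0) (nat_lit 4383339950)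 (nat_lit 152) (nat_lit 12147917203) (nat_lit 175) (nat_lit 1) (nat_lit 174) (nat_lit 1) (nat_lit 176) (nat_lit 1) (nat_lit 285) (nat_lit 393) (nat_lit 342)) (XT.lf (nat_lit 0) (nat_lit 10997684675) (nat_lit 0) (nat_lit 29634160956) (nat_lit 152) (nat_lit 9794661754) (nat_lit 173) (nat_lit 3) (nat_lit 173) (nat_lit 1) (nat_lit 175) (nat_lit 1) (nat_lit 286) (nat_lit 393) (nat_lit 341))))) (XT.nd (nat_lit 234) (nat_lit 532) (nat_lit 0) (XT.nd (nat_lit 78) (nat_lit 228) (nat_lit 0) (XT.lf (nat_lit 76) (nat_lit 36911762876) (nat_lit 0) (nat_lit 4797100909) (nat_lit 152) (nat_lit 7421939691) (nat_lit 172) (nat_lit 1) (nat_lit 171) (nat_lit 1) (nat_lit 173) (nat_lit 1) (nat_lit 287) (nat_lit 393) (nat_lit 340)) (XT.nd (nat_lit 78) (nat_lit 152) (nat_lit 0) (XT.lf (nat_lit 0) (nat_lit 13696377316) (nat_lit 0) (nat_lit 28913305496) (nat_lit 152) (nat_lit 5254442721) (nat_lit 170) (nat_lit 3) (nat_lit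 170) (nat_lit 1) (nat_lit 172) (nat_lit 1) (nat_lit 288) (nat_lit 393) (nat_lit 339)) (XT.lf (nat_lit 76) (nat_lit 38211901173) (nat_lit 0) (nat_lit 5393619186) (nat_lit 152) (nat_lit 3032828982) (nat_lit 169) (nat_lit 1) (nat_lit 168) (nat_lit 1) (nat_lit 170) (nat_lit 1) (nat_lit 289) (nat_lit 393) (nat_lit 338)))) (XT.nd (nat_lit 156) (nat_lit 228) (nat_lit 0) (XT.nd (nat_lit 78) (nat_lit 228) (nat_lit 0) (XT.lf (nat_lit 0) (nat_lit 15983176843) (nat_lit 0) (nat_lit 28407998990) (nat_lit 152) (nat_lit 1046755229) (nat_lit 167) (nat_lit 3) (nat_lit 167) (nat_lit 1) (nat_lit 169) (nat_lit 1) (nat_lit 290) (nat_lit 393) (nat_lit 337)) (XT.lf (nat_lit 152) (nat_lit 38150695228) (nat_lit 0) (nat_lit 1054147732) (nat_lit 76) (nat_lit 5072004795) (nat_lit 166) (nat_lit 1) (nat_lit 164) (nat_lit 1) (nat_lit 165) (nat_lit 1) (nat_lit 291) (nat_lit 393) (nat_lit 336))) (XT.nd (nat_lit 78) (nat_lit 152)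 (nat_lit 0) (XT.lf (nat_lit 76) (nat_lit 15033879704) (nat_lit 0) (nat_lit 2924609052) (nat_lit 76) (nat_lit 25178910524) (nat_lit 164) (nat_lit 3) (nat_lit 163) (nat_lit 1) (nat_lit 164) (nat_lit 1) (nat_lit 292) (nat_lit 393) (nat_lit 335)) (XT.lf (nat_lit 152) (nat_lit 35064493295) (nat_lit 0) (nat_lit 4900267346) (nat_lit 76) (nat_lit 2072325045) (nat_lit 163) (nat_lit 1) (nat_lit 161) (nat_lit 1) (nat_lit 162) (nat_lit 1) (nat_lit 293) (nat_lit 393) (nat_lit 334)))))) (XT.nd (nat_lit 468) (nat_lit 760) (nat_lit 0) (XT.nd (nat_lit 234) (nat_lit 380) (nat_lit 0) (XT.nd (nat_lit 78) (nat_lit 228) (nat_lit 0) (XT.lf (nat_lit 76) (nat_lit 13038166894) (nat_lit 0) (nat_lit 6596771630) (nat_lit 76) (nat_lit 21321718090) (nat_lit 161) (nat_lit 3) (nat_lit 160) (nat_lit 1) (nat_lit 161) (nat_lit 1) (nat_lit 294) (nat_lit 393) (nat_lit 333)) (XT.nd (nat_lit 78) (nat_lit 76) (nat_lit 0) (XT.lf (nat_lit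 0) (nat_lit 550319357) (nat_lit 0) (nat_lit 7855038225) (nat_lit 152) (nat_lit 31508463155) (nat_lit 158) (nat_lit 3) (nat_lit 158) (nat_lit 1) (nat_lit 160) (nat_lit 1) (nat_lit 295) (nat_lit 393) (nat_lit 332)) (XT.lf (nat_lit 76) (nat_lit 11090287149) (nat_lit 0) (nat_lit 9945351875) (nat_lit 76) (nat_lit 17853915730) (nat_lit 158) (nat_lit 3) (nat_lit 157) (nat_lit 1) (nat_lit 158) (nat_lit 1) (nat_lit 296) (nat_lit 393) (nat_lit 331)))) (XT.nd (nat_lit 78) (nat_lit 228) (nat_lit 0) (XT.lf (nat_lit 0) (nat_lit 2798803566) (nat_lit 0) (nat_lit 8763202667) (nat_lit 152) (nat_lit 26337421880) (nat_lit 155) (nat_lit 3) (nat_lit 155) (nat_lit 1) (nat_lit 157) (nat_lit 1) (nat_lit 297) (nat_lit 393) (nat_lit 330)) (XT.nd (nat_lit 78) (nat_lit 152) (nat_lit 0) (XT.lf (nat_lit 76) (nat_lit 9212074153) (nat_lit 0) (nat_lit 12982880492) (nat_lit 76) (nat_lit 14734665913) (nat_lit 155) (nat_lit 3) (nat_lit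 154) (nat_lit 1) (nat_lit 155) (nat_lit 1) (nat_lit 298) (nat_lit 393) (nat_lit 329)) (XT.lf (nat_lit 0) (nat_lit 4773720425) (nat_lit 0) (nat_lit 9643730796) (nat_lit 152) (nat_lit 21571832558) (nat_lit 152) (nat_lit 3) (nat_lit 152) (nat_lit 1) (nat_lit 154) (nat_lit 1) (nat_lit 299) (nat_lit 393) (nat_lit 328))))) (XT.nd (nat_lit 234) (nat_lit 456) (nat_lit 0) (XT.nd (nat_lit 78) (nat_lit 228) (nat_lit 0) (XT.lf (nat_lit 76) (nat_lit 7419051307) (nat_lit 0) (nat_lit 15723472152) (nat_lit 76) (nat_lit 11928320169) (nat_lit 152) (nat_lit 3) (nat_lit 151) (nat_lit 1) (nat_lit 152) (nat_lit 1) (nat_lit 300) (nat_lit 393) (nat_lit 327)) (XT.nd (nat_lit 78) (nat_lit 76) (nat_lit 0) (XT.lf (nat_lit 0) (nat_lit 6504902759) (nat_lit 0) (nat_lit 10481330327) (nat_lit 152) (nat_lit 17191350157) (nat_lit 149) (nat_lit 3) (nat_lit 149) (nat_lit 1) (nat_lit 151) (nat_lit 1) (nat_lit 301) (nat_lit 393) (nat_lit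 326)) (XT.lf (nat_lit 76) (nat_lit 5721745673) (nat_lit 0) (nat_lit 18182259404) (nat_lit 76) (nat_lit 9403623051) (nat_lit 149) (nat_lit 3) (nat_lit 148) (nat_lit 1) (nat_lit 149) (nat_lit 1) (nat_lit 302) (nat_lit 393) (nat_lit 325)))) (XT.nd (nat_lit 156) (nat_lit 228) (nat_lit 0) (XT.nd (nat_lit 78) (nat_lit 76) (nat_lit 0) (XT.lf (nat_lit 0) (nat_lit 8018432094) (nat_lit 0) (nat_lit 11265237541) (nat_lit 152) (nat_lit 13175245314) (nat_lit 146) (nat_lit 3) (nat_lit 146) (nat_lit 1) (nat_lit 148) (nat_lit 1) (nat_lit 303) (nat_lit 393) (nat_lit 324)) (XT.lf (nat_lit 76) (nat_lit 4126750853) (nat_lit 0) (nat_lit 20374948538) (nat_lit 76) (nat_lit 7133052194) (nat_lit 146) (nat_lit 3) (nat_lit 145) (nat_lit 1) (nat_lit 146) (nat_lit 1) (nat_lit 304) (nat_lit 393) (nat_lit 323))) (XT.nd (nat_lit 78) (nat_lit 76) (nat_lit 0) (XT.lf (nat_lit 0) (nat_lit 9337203691) (nat_lit 0) (nat_lit 11988263074)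 (nat_lit 152) (nat_lit 9502755482) (nat_lit 143) (nat_lit 3) (nat_lit 143) (nat_lit 1) (nat_lit 145) (nat_lit 1) (nat_lit 305) (nat_lit 393) (nat_lit 322)) (XT.lf (nat_lit 76) (nat_lit 2637585486) (nat_lit 0) (nat_lit 22317473878) (nat_lit 76) (nat_lit 5092270100) (nat_lit 143) (nat_lit 3) (nat_lit 142) (nat_lit 1) (nat_lit 143) (nat_lit 1) (nat_lit 306) (nat_lit 393) (nat_lit 321))))))) (XT.nd (nat_lit 1014) (nat_lit 1748) (nat_lit 0) (XT.nd (nat_lit 468) (nat_lit 760) (nat_lit 0) (XT.nd (nat_lit 234) (nat_lit 456) (nat_lit 0) (XT.nd (nat_lit 78) (nat_lit 228) (nat_lit 0) (XT.lf (nat_lit 0) (nat_lit 10481396040) (nat_lit 0) (nat_lit 12646020920) (nat_lit 152) (nat_lit 6153353650) (nat_lit 140) (nat_lit 3) (nat_lit 140) (nat_lit 1) (nat_lit 142) (nat_lit 1) (nat_lit 307) (nat_lit 393) (nat_lit 320)) (XT.nd (nat_lit 78) (nat_lit 152) (nat_lit 0) (XT.lf (nat_lit 76) (nat_lit 1255385438) (nat_lit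 0) (nat_lit 24025731398) (nat_lit 76) (nat_lit 3259667734) (nat_lit 140) (nat_lit 3) (nat_lit 139) (nat_lit 1) (nat_lit 140) (nat_lit 1) (nat_lit 308) (nat_lit 393) (nat_lit 319)) (XT.lf (nat_lit 0) (nat_lit 11468861813) (nat_lit 0) (nat_lit 13236306518) (nat_lit 152) (nat_lit 3106950875) (nat_lit 137) (nat_lit 3) (nat_lit 137) (nat_lit 1) (nat_lit 139) (nat_lit 1) (nat_lit 309) (nat_lit 393) (nat_lit 318)))) (XT.nd (nat_lit 78) (nat_lit 304) (nat_lit 0) (XT.lf (nat_lit 76) (nat_lit 25495157509) (nat_lit 0) (nat_lit 19881869) (nat_lit 152) (nat_lit 1595765043) (nat_lit 136) (nat_lit 1) (nat_lit 135) (nat_lit 1) (nat_lit 137) (nat_lit 1) (nat_lit 310) (nat_lit 393) (nat_lit 317)) (XT.nd (nat_lit 78) (nat_lit 228) (nat_lit 0) (XT.lf (nat_lit 0) (nat_lit 12315454235) (nat_lit 0) (nat_lit 13758596101) (nat_lit 152) (nat_lit 344045805) (nat_lit 134) (nat_lit 3) (nat_lit 134) (nat_lit 1) (nat_lit 136)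 (nat_lit 1) (nat_lit 311) (nat_lit 393) (nat_lit 316)) (XT.lf (nat_lit 152) (nat_lit 24580932047) (nat_lit 0) (nat_lit 1063702904) (nat_lit 76) (nat_lit 107002155) (nat_lit 133) (nat_lit 1) (nat_lit 131) (nat_lit 1) (nat_lit 132) (nat_lit 1) (nat_lit 312) (nat_lit 393) (nat_lit 315))))) (XT.nd (nat_lit 234) (nat_lit 456) (nat_lit 0) (XT.nd (nat_lit 78) (nat_lit 228) (nat_lit 0) (XT.lf (nat_lit 76) (nat_lit 10844650290) (nat_lit 0) (nat_lit 2225394611) (nat_lit 76) (nat_lit 12022994619) (nat_lit 131) (nat_lit 3) (nat_lit 130) (nat_lit 1) (nat_lit 131) (nat_lit 1) (nat_lit 313) (nat_lit 393) (nat_lit 314)) (XT.nd (nat_lit 78) (nat_lit 76) (nat_lit 0) (XT.lf (nat_lit 0) (nat_lit 1225929677) (nat_lit 0) (nat_lit 2265034023) (nat_lit 152) (nat_lit 20968255783) (nat_lit 128) (nat_lit 3) (nat_lit 128) (nat_lit 1) (nat_lit 130) (nat_lit 1) (nat_lit 314) (nat_lit 393) (nat_lit 313)) (XT.lf (nat_lit 76)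 (nat_lit 9160687815) (nat_lit 0) (nat_lit 4551402183) (nat_lit 76) (nat_lit 10122821469) (nat_lit 128) (nat_lit 3) (nat_lit 127) (nat_lit 1) (nat_lit 128) (nat_lit 1) (nat_lit 315) (nat_lit 393) (nat_lit 312)))) (XT.nd (nat_lit 156) (nat_lit 228) (nat_lit 0) (XT.nd (nat_lit 78) (nat_lit 76) (nat_lit 0) (XT.lf (nat_lit 0) (nat_lit 2412265198) (nat_lit 0) (nat_lit 3260707574) (nat_lit 152) (nat_lit 17559286318) (nat_lit 125) (nat_lit 3) (nat_lit 125) (nat_lit 1) (nat_lit 127) (nat_lit 1) (nat_lit 316) (nat_lit 393) (nat_lit 311)) (XT.lf (nat_lit 76) (nat_lit 7607251037) (nat_lit 0) (nat_lit 6640393269) (nat_lit 76) (nat_lit 8392845829) (nat_lit 125) (nat_lit 3) (nat_lit 124) (nat_lit 1) (nat_lit 125) (nat_lit 1) (nat_lit 317) (nat_lit 393) (nat_lit 310))) (XT.nd (nat_lit 78) (nat_lit 76) (nat_lit 0) (XT.lf (nat_lit 0) (nat_lit 3467960748) (nat_lit 0) (nat_lit 4160725115) (nat_lit 152) (nat_lit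 14438746908) (nat_lit 122) (nat_lit 3) (nat_lit 122) (nat_lit 1) (nat_lit 124) (nat_lit 1) (nat_lit 318) (nat_lit 393) (nat_lit 309)) (XT.lf (nat_lit 76) (nat_lit 6177866981) (nat_lit 0) (nat_lit 8509290486) (nat_lit 76) (nat_lit 6819315469) (nat_lit 122) (nat_lit 3) (nat_lit 121) (nat_lit 1) (nat_lit 122) (nat_lit 1) (nat_lit 319) (nat_lit 393) (nat_lit 308)))))) (XT.nd (nat_lit 546) (nat_lit 912) (nat_lit 0) (XT.nd (nat_lit 234) (nat_lit 456) (nat_lit 0) (XT.nd (nat_lit 78) (nat_lit 228) (nat_lit 0) (XT.lf (nat_lit 0) (nat_lit 4404392511) (nat_lit 0) (nat_lit 4970043735) (nat_lit 152) (nat_lit 11587087756) (nat_lit 119) (nat_lit 3) (nat_lit 119) (nat_lit 1) (nat_lit 121) (nat_lit 1) (nat_lit 320) (nat_lit 393) (nat_lit 307)) (XT.nd (nat_lit 78) (nat_lit 152) (nat_lit 0) (XT.lf (nat_lit 76) (nat_lit 4865926264) (nat_lit 0) (nat_lit 10174136813) (nat_lit 76) (nat_lit 5389677397) (nat_lit 119)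 (nat_lit 3) (nat_lit 118) (nat_lit 1) (nat_lit 119) (nat_lit 1) (nat_lit 321) (nat_lit 393) (nat_lit 306)) (XT.lf (nat_lit 0) (nat_lit 5231911949) (nat_lit 0) (nat_lit 5693773618) (nat_lit 152) (nat_lit 8985808004) (nat_lit 116) (nat_lit 3) (nat_lit 116) (nat_lit 1) (nat_lit 118) (nat_lit 1) (nat_lit 322) (nat_lit 393) (nat_lit 305)))) (XT.nd (nat_lit 156) (nat_lit 228) (nat_lit 0) (XT.nd (nat_lit 78) (nat_lit 152) (nat_lit 0) (XT.lf (nat_lit 76) (nat_lit 3664798119) (nat_lit 0) (nat_lit 11650098410) (nat_lit 76) (nat_lit 4092447813) (nat_lit 116) (nat_lit 3) (nat_lit 115) (nat_lit 1) (nat_lit 116) (nat_lit 1) (nat_lit 323) (nat_lit 393) (nat_lit 304)) (XT.lf (nat_lit 0) (nat_lit 5959957864) (nat_lit 0) (nat_lit 6337073996) (nat_lit 152) (nat_lit 6617436121) (nat_lit 113) (nat_lit 3) (nat_lit 113) (nat_lit 1) (nat_lit 115) (nat_lit 1) (nat_lit 324) (nat_lit 393) (nat_lit 303))) (XT.nd (nat_lit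 78) (nat_lit 152) (nat_lit 0) (XT.lf (nat_lit 76) (nat_lit 2567918563) (nat_lit 0) (nat_lit 12951477349) (nat_lit 76) (nat_lit 2917100167) (nat_lit 113) (nat_lit 3) (nat_lit 112) (nat_lit 1) (nat_lit 113) (nat_lit 1) (nat_lit 325) (nat_lit 393) (nat_lit 302)) (XT.lf (nat_lit 0) (nat_lit 6597152901) (nat_lit 0) (nat_lit 6905073187) (nat_lit 152) (nat_lit 4465502815) (nat_lit 110) (nat_lit 3) (nat_lit 110) (nat_lit 1) (nat_lit 112) (nat_lit 1) (nat_lit 326) (nat_lit 393) (nat_lit 301))))) (XT.nd (nat_lit 234) (nat_lit 608) (nat_lit 0) (XT.nd (nat_lit 78) (nat_lit 228) (nat_lit 0) (XT.lf (nat_lit 76) (nat_lit 1568856971) (nat_lit 0) (nat_lit 14091731791) (nat_lit 76) (nat_lit 1853968347) (nat_lit 110) (nat_lit 3) (nat_lit 109) (nat_lit 1) (nat_lit 110) (nat_lit 1) (nat_lit 327) (nat_lit 393) (nat_lit 300)) (XT.nd (nat_lit 78) (nat_lit 76) (nat_lit 0) (XT.lf (nat_lit 0) (nat_lit 7151387037) (nat_lit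 0) (nat_lit 7402808004) (nat_lit 152) (nat_lit 2514508510) (nat_lit 107) (nat_lit 3) (nat_lit 107) (nat_lit 1) (nat_lit 109) (nat_lit 1) (nat_lit 328) (nat_lit 393) (nat_lit 299)) (XT.lf (nat_lit 76) (nat_lit 661365367) (nat_lit 0) (nat_lit 15083501628) (nat_lit 76) (nat_lit 894162558) (nat_lit 107) (nat_lit 3) (nat_lit 106) (nat_lit 1) (nat_lit 107) (nat_lit 1) (nat_lit 329) (nat_lit 393) (nat_lit 298)))) (XT.nd (nat_lit 156) (nat_lit 228) (nat_lit 0) (XT.nd (nat_lit 78) (nat_lit 228) (nat_lit 0) (XT.lf (nat_lit 0) (nat_lit 7629890150) (nat_lit 0) (nat_lit 7835178678) (nat_lit 152) (nat_lit 749887047) (nat_lit 104) (nat_lit 3) (nat_lit 104) (nat_lit 1) (nat_lit 106) (nat_lit 1) (nat_lit 330) (nat_lit 393) (nat_lit 297)) (XT.lf (nat_lit 152) (nat_lit 15649798481) (nat_lit 0) (nat_lit 132834546) (nat_lit 76) (nat_lit 24685705) (nat_lit 103) (nat_lit 1) (nat_lit 101) (nat_lit 1) (nat_lit 102) (nat_lit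 1) (nat_lit 331) (nat_lit 393) (nat_lit 296))) (XT.nd (nat_lit 78) (nat_lit 152) (nat_lit 0) (XT.lf (nat_lit 76) (nat_lit 7183002042) (nat_lit 0) (nat_lit 869874524) (nat_lit 76) (nat_lit 7350622828) (nat_lit 101) (nat_lit 3) (nat_lit 100) (nat_lit 1) (nat_lit 101) (nat_lit 1) (nat_lit 332) (nat_lit 393) (nat_lit 295)) (XT.lf (nat_lit 0) (nat_lit 764803088) (nat_lit 0) (nat_lit 912616831) (nat_lit 152) (nat_lit 13337809662) (nat_lit 98) (nat_lit 3) (nat_lit 98) (nat_lit 1) (nat_lit 100) (nat_lit 1) (nat_lit 333) (nat_lit 393) (nat_lit 294))))))))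
noncomputable def ec157 : XT := (XT.nd (nat_lit 2106) (nat_lit 3192) (nat_lit 0) (XT.nd (nat_lit 1014) (nat_lit 1748) (nat_lit 0) (XT.nd (nat_lit 468) (nat_lit 760) (nat_lit 0) (XT.nd (nat_lit 234) (nat_lit 380) (nat_lit 0) (XT.nd (nat_lit 78) (nat_lit 228) (nat_lit 0) (XT.lf (nat_lit 76) (nat_lit 6073113188) (nat_lit 0) (nat_lit 2349260116) (nat_lit 76) (nat_lit 6209977765) (nat_lit 98) (nat_lit 3) (nat_lit 97) (nat_lit 1) (nat_lit 98) (nat_lit 1) (nat_lit 334) (nat_lit 393) (nat_lit 293)) (XT.nd (nat_lit 78) (nat_lit 76) (nat_lit 0) (XT.lf (nat_lit 0) (nat_lit 1471761109) (nat_lit 0) (nat_lit 1592452976) (nat_lit 152) (nat_lit 11198835703) (nat_lit 95) (nat_lit 3) (nat_lit 95) (nat_lit 1) (nat_lit 97) (nat_lit 1) (nat_lit 335) (nat_lit 393) (nat_lit 292)) (XT.lf (nat_lit 76) (nat_lit 5056203238) (nat_lit 0) (nat_lit 3675875692) (nat_lit 76) (nat_lit 5167954967) (nat_lit 95) (nat_lit 3) (nat_lit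 94) (nat_lit 1) (nat_lit 95) (nat_lit 1) (nat_lit 336) (nat_lit 393) (nat_lit 291)))) (XT.nd (nat_lit 78) (nat_lit 228) (nat_lit 0) (XT.lf (nat_lit 0) (nat_lit 2103481860) (nat_lit 0) (nat_lit 2202028359) (nat_lit 152) (nat_lit 9243256491) (nat_lit 92) (nat_lit 3) (nat_lit 92) (nat_lit 1) (nat_lit 94) (nat_lit 1) (nat_lit 337) (nat_lit 393) (nat_lit 290)) (XT.nd (nat_lit 78) (nat_lit 152) (nat_lit 0) (XT.lf (nat_lit 76) (nat_lit 4126001962) (nat_lit 0) (nat_lit 4861323831) (nat_lit 76) (nat_lit 4217248720) (nat_lit 92) (nat_lit 3) (nat_lit 91) (nat_lit 1) (nat_lit 92) (nat_lit 1) (nat_lit 338) (nat_lit 393) (nat_lit 289)) (XT.lf (nat_lit 0) (nat_lit 2665981079) (nat_lit 0) (nat_lit 2746445592) (nat_lit 152) (nat_lit 7458027421) (nat_lit 89) (nat_lit 3) (nat_lit 89) (nat_lit 1) (nat_lit 91) (nat_lit 1) (nat_lit 339) (nat_lit 393) (nat_lit 288))))) (XT.nd (nat_lit 234) (nat_lit 456) (nat_lit 0)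 (XT.nd (nat_lit 78) (nat_lit 228) (nat_lit 0) (XT.lf (nat_lit 76) (nat_lit 3276573403) (nat_lit 0) (nat_lit 5916450943) (nat_lit 76) (nat_lit 3351077582) (nat_lit 89) (nat_lit 3) (nat_lit 88) (nat_lit 1) (nat_lit 89) (nat_lit 1) (nat_lit 340) (nat_lit 393) (nat_lit 287)) (XT.nd (nat_lit 78) (nat_lit 76) (nat_lit 0) (XT.lf (nat_lit 0) (nat_lit 3164826216) (nat_lit 0) (nat_lit 3230526550) (nat_lit 152) (nat_lit 5830932729) (nat_lit 86) (nat_lit 3) (nat_lit 86) (nat_lit 1) (nat_lit 88) (nat_lit 1) (nat_lit 341) (nat_lit 393) (nat_lit 286)) (XT.lf (nat_lit 76) (nat_lit 2502309978) (nat_lit 0) (nat_lit 6851388292) (nat_lit 76) (nat_lit 2563143621) (nat_lit 86) (nat_lit 3) (nat_lit 85) (nat_lit 1) (nat_lit 86) (nat_lit 1) (nat_lit 342) (nat_lit 393) (nat_lit 285)))) (XT.nd (nat_lit 156) (nat_lit 228) (nat_lit 0) (XT.nd (nat_lit 78) (nat_lit 76) (nat_lit 0) (XT.lf (nat_lit 0) (nat_lit 3605171884) (nat_lit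 0) (nat_lit 3658817071) (nat_lit 152) (nat_lit 4350539884) (nat_lit 83) (nat_lit 3) (nat_lit 83) (nat_lit 1) (nat_lit 85) (nat_lit 1) (nat_lit 343) (nat_lit 393) (nat_lit 284)) (XT.lf (nat_lit 76) (nat_lit 1797924113) (nat_lit 0) (nat_lit 7675591935) (nat_lit 76) (nat_lit 1847595583) (nat_lit 83) (nat_lit 3) (nat_lit 82) (nat_lit 1) (nat_lit 83) (nat_lit 1) (nat_lit 344) (nat_lit 393) (nat_lit 283))) (XT.nd (nat_lit 78) (nat_lit 76) (nat_lit 0) (XT.lf (nat_lit 0) (nat_lit 3991791884) (nat_lit 0) (nat_lit 4035593886) (nat_lit 152) (nat_lit 3006155524) (nat_lit 80) (nat_lit 3) (nat_lit 80) (nat_lit 1) (nat_lit 82) (nat_lit 1) (nat_lit 345) (nat_lit 393) (nat_lit 282)) (XT.lf (nat_lit 76) (nat_lit 1158438085) (nat_lit 0) (nat_lit 8397881339) (nat_lit 76) (nat_lit 1198995494) (nat_lit 80) (nat_lit 3) (nat_lit 79) (nat_lit 1) (nat_lit 80) (nat_lit 1) (nat_lit 346) (nat_lit 393) (nat_lit 281))))))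 (XT.nd (nat_lit 546) (nat_lit 836) (nat_lit 0) (XT.nd (nat_lit 234) (nat_lit 532) (nat_lit 0) (XT.nd (nat_lit 78) (nat_lit 228) (nat_lit 0) (XT.lf (nat_lit 0) (nat_lit 4329108247) (nat_lit 0) (nat_lit 4364873158) (nat_lit 152) (nat_lit 1787783077) (nat_lit 77) (nat_lit 3) (nat_lit 77) (nat_lit 1) (nat_lit 79) (nat_lit 1) (nat_lit 347) (nat_lit 393) (nat_lit 280)) (XT.nd (nat_lit 78) (nat_lit 152) (nat_lit 0) (XT.lf (nat_lit 76) (nat_lit 579172606) (nat_lit 0) (nat_lit 9026476566) (nat_lit 76) (nat_lit 612288264) (nat_lit 77) (nat_lit 3) (nat_lit 76) (nat_lit 1) (nat_lit 77) (nat_lit 1) (nat_lit 348) (nat_lit 393) (nat_lit 279)) (XT.lf (nat_lit 0) (nat_lit 4621217648) (nat_lit 0) (nat_lit 4650420168) (nat_lit 152) (nat_lit 686082154) (nat_lit 74) (nat_lit 3) (nat_lit 74) (nat_lit 1) (nat_lit 76) (nat_lit 1) (nat_lit 349) (nat_lit 393) (nat_lit 278)))) (XT.nd (nat_lit 156) (nat_lit 228) (nat_lit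 0) (XT.nd (nat_lit 78) (nat_lit 228) (nat_lit 0) (XT.lf (nat_lit 76) (nat_lit 55734568) (nat_lit 0) (nat_lit 9569033920) (nat_lit 76) (nat_lit 82773939) (nat_lit 74) (nat_lit 3) (nat_lit 73) (nat_lit 1) (nat_lit 74) (nat_lit 1) (nat_lit 350) (nat_lit 393) (nat_lit 277)) (XT.lf (nat_lit 76) (nat_lit 4559034733) (nat_lit 0) (nat_lit 317843206) (nat_lit 76) (nat_lit 4582878975) (nat_lit 71) (nat_lit 3) (nat_lit 70) (nat_lit 1) (nat_lit 71) (nat_lit 1) (nat_lit 351) (nat_lit 393) (nat_lit 276))) (XT.nd (nat_lit 78) (nat_lit 76) (nat_lit 0) (XT.lf (nat_lit 0) (nat_lit 401082005) (nat_lit 0) (nat_lit 422108674) (nat_lit 152) (nat_lit 8398279802) (nat_lit 68) (nat_lit 3) (nat_lit 68) (nat_lit 1) (nat_lit 70) (nat_lit 1) (nat_lit 352) (nat_lit 393) (nat_lit 275)) (XT.lf (nat_lit 76) (nat_lit 3862751482) (nat_lit 0) (nat_lit 1241347530) (nat_lit 76) (nat_lit 3882220619) (nat_lit 68) (nat_lit 3) (nat_lit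 67) (nat_lit 1) (nat_lit 68) (nat_lit 1) (nat_lit 353) (nat_lit 393) (nat_lit 274))))) (XT.nd (nat_lit 234) (nat_lit 456) (nat_lit 0) (XT.nd (nat_lit 78) (nat_lit 228) (nat_lit 0) (XT.lf (nat_lit 0) (nat_lit 835900415) (nat_lit 0) (nat_lit 853068967) (nat_lit 152) (nat_lit 7070687579) (nat_lit 65) (nat_lit 3) (nat_lit 65) (nat_lit 1) (nat_lit 67) (nat_lit 1) (nat_lit 354) (nat_lit 393) (nat_lit 273)) (XT.nd (nat_lit 78) (nat_lit 152) (nat_lit 0) (XT.lf (nat_lit 76) (nat_lit 3225600570) (nat_lit 0) (nat_lit 2069594292) (nat_lit 76) (nat_lit 3241497377) (nat_lit 65) (nat_lit 3) (nat_lit 64) (nat_lit 1) (nat_lit 65) (nat_lit 1) (nat_lit 355) (nat_lit 393) (nat_lit 272)) (XT.lf (nat_lit 0) (nat_lit 1225025238) (nat_lit 0) (nat_lit 1239043586) (nat_lit 152) (nat_lit 5857015135) (nat_lit 62) (nat_lit 3) (nat_lit 62) (nat_lit 1) (nat_lit 64) (nat_lit 1) (nat_lit 356) (nat_lit 393) (nat_lit 271)))) (XT.nd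 (nat_lit 156) (nat_lit 228) (nat_lit 0) (XT.nd (nat_lit 78) (nat_lit 152) (nat_lit 0) (XT.lf (nat_lit 76) (nat_lit 2643393697) (nat_lit 0) (nat_lit 2809903039) (nat_lit 76) (nat_lit 2656373649) (nat_lit 62) (nat_lit 3) (nat_lit 61) (nat_lit 1) (nat_lit 62) (nat_lit 1) (nat_lit 357) (nat_lit 393) (nat_lit 270)) (XT.lf (nat_lit 0) (nat_lit 1572023416) (nat_lit 0) (nat_lit 1583469582) (nat_lit 152) (nat_lit 4749082232) (nat_lit 59) (nat_lit 3) (nat_lit 59) (nat_lit 1) (nat_lit 61) (nat_lit 1) (nat_lit 358) (nat_lit 393) (nat_lit 269))) (XT.nd (nat_lit 78) (nat_lit 152) (nat_lit 0) (XT.lf (nat_lit 76) (nat_lit 2112207910) (nat_lit 0) (nat_lit 3469097031) (nat_lit 76) (nat_lit 2122806212) (nat_lit 59) (nat_lit 3) (nat_lit 58) (nat_lit 1) (nat_lit 59) (nat_lit 1) (nat_lit 359) (nat_lit 393) (nat_lit 268)) (XT.lf (nat_lit 0) (nat_lit 1880211773) (nat_lit 0) (nat_lit 1889557718) (nat_lit 152) (nat_lit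 3739245065) (nat_lit 56) (nat_lit 3) (nat_lit 56) (nat_lit 1) (nat_lit 58) (nat_lit 1) (nat_lit 360) (nat_lit 393) (nat_lit 267))))))) (XT.nd (nat_lit 1014) (nat_lit 1596) (nat_lit 0) (XT.nd (nat_lit 468) (nat_lit 912) (nat_lit 0) (XT.nd (nat_lit 234) (nat_lit 380) (nat_lit 0) (XT.nd (nat_lit 78) (nat_lit 228) (nat_lit 0) (XT.lf (nat_lit 76) (nat_lit 1628371066) (nat_lit 0) (nat_lit 4053534100) (nat_lit 76) (nat_lit 1637024719) (nat_lit 56) (nat_lit 3) (nat_lit 55) (nat_lit 1) (nat_lit 56) (nat_lit 1) (nat_lit 361) (nat_lit 393) (nat_lit 266)) (XT.nd (nat_lit 78) (nat_lit 76) (nat_lit 0) (XT.lf (nat_lit 0) (nat_lit 2152674062) (nat_lit 0) (nat_lit 2160305149) (nat_lit 152) (nat_lit 2820363413) (nat_lit 53) (nat_lit 3) (nat_lit 53) (nat_lit 1) (nat_lit 55) (nat_lit 1) (nat_lit 362) (nat_lit 393) (nat_lit 265)) (XT.lf (nat_lit 76) (nat_lit 1188447768) (nat_lit 0) (nat_lit 4569135792) (nat_lit 76)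 (nat_lit 1195513589) (nat_lit 53) (nat_lit 3) (nat_lit 52) (nat_lit 1) (nat_lit 53) (nat_lit 1) (nat_lit 363) (nat_lit 393) (nat_lit 264)))) (XT.nd (nat_lit 78) (nat_lit 228) (nat_lit 0) (XT.lf (nat_lit 0) (nat_lit 2392276793) (nat_lit 0) (nat_lit 2398507676) (nat_lit 152) (nat_lit 1985769623) (nat_lit 50) (nat_lit 3) (nat_lit 50) (nat_lit 1) (nat_lit 52) (nat_lit 1) (nat_lit 364) (nat_lit 393) (nat_lit 263)) (XT.nd (nat_lit 78) (nat_lit 152) (nat_lit 0) (XT.lf (nat_lit 76) (nat_lit 789225837) (nat_lit 0) (nat_lit 5021414884) (nat_lit 76) (nat_lit 794995173) (nat_lit 50) (nat_lit 3) (nat_lit 49) (nat_lit 1) (nat_lit 50) (nat_lit 1) (nat_lit 365) (nat_lit 393) (nat_lit 262)) (XT.lf (nat_lit 0) (nat_lit 2601683925) (nat_lit 0) (nat_lit 2606771523) (nat_lit 152) (nat_lit 1229239338) (nat_lit 47) (nat_lit 3) (nat_lit 47) (nat_lit 1) (nat_lit 49) (nat_lit 1) (nat_lit 366) (nat_lit 393) (nat_lit 261)))))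 (XT.nd (nat_lit 234) (nat_lit 608) (nat_lit 0) (XT.nd (nat_lit 78) (nat_lit 228) (nat_lit 0) (XT.lf (nat_lit 76) (nat_lit 427703347) (nat_lit 0) (nat_lit 5415501315) (nat_lit 76) (nat_lit 432414087) (nat_lit 47) (nat_lit 3) (nat_lit 46) (nat_lit 1) (nat_lit 47) (nat_lit 1) (nat_lit 367) (nat_lit 393) (nat_lit 260)) (XT.nd (nat_lit 78) (nat_lit 76) (nat_lit 0) (XT.lf (nat_lit 0) (nat_lit 2783370540) (nat_lit 0) (nat_lit 2787524631) (nat_lit 152) (nat_lit 544963903) (nat_lit 44) (nat_lit 3) (nat_lit 44) (nat_lit 1) (nat_lit 46) (nat_lit 1) (nat_lit 368) (nat_lit 393) (nat_lit 259)) (XT.lf (nat_lit 76) (nat_lit 101076229) (nat_lit 0) (nat_lit 5756166620) (nat_lit 76) (nat_lit 104922610) (nat_lit 44) (nat_lit 3) (nat_lit 43) (nat_lit 1) (nat_lit 44) (nat_lit 1) (nat_lit 369) (nat_lit 393) (nat_lit 258)))) (XT.nd (nat_lit 156) (nat_lit 228) (nat_lit 0) (XT.nd (nat_lit 78) (nat_lit 152) (nat_lit 0)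 (XT.lf (nat_lit 76) (nat_lit 2865932522) (nat_lit 0) (nat_lit 74872005) (nat_lit 76) (nat_lit 2869324392) (nat_lit 41) (nat_lit 3) (nat_lit 40) (nat_lit 1) (nat_lit 41) (nat_lit 1) (nat_lit 370) (nat_lit 393) (nat_lit 257)) (XT.lf (nat_lit 0) (nat_lit 193350373) (nat_lit 0) (nat_lit 196341440) (nat_lit 152) (nat_lit 5274135092) (nat_lit 38) (nat_lit 3) (nat_lit 38) (nat_lit 1) (nat_lit 40) (nat_lit 1) (nat_lit 371) (nat_lit 393) (nat_lit 256))) (XT.nd (nat_lit 78) (nat_lit 152) (nat_lit 0) (XT.lf (nat_lit 76) (nat_lit 2433842878) (nat_lit 0) (nat_lit 648901921) (nat_lit 76) (nat_lit 2436612384) (nat_lit 38) (nat_lit 3) (nat_lit 37) (nat_lit 1) (nat_lit 38) (nat_lit 1) (nat_lit 372) (nat_lit 393) (nat_lit 255)) (XT.lf (nat_lit 0) (nat_lit 462769593) (nat_lit 0) (nat_lit 465211839) (nat_lit 152) (nat_lit 4452208110) (nat_lit 35) (nat_lit 3) (nat_lit 35) (nat_lit 1) (nat_lit 37) (nat_lit 1) (nat_lit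 373) (nat_lit 393) (nat_lit 254)))))) (XT.nd (nat_lit 546) (nat_lit 836) (nat_lit 0) (XT.nd (nat_lit 234) (nat_lit 456) (nat_lit 0) (XT.nd (nat_lit 78) (nat_lit 228) (nat_lit 0) (XT.lf (nat_lit 76) (nat_lit 2038484758) (nat_lit 0) (nat_lit 1163974219) (nat_lit 76) (nat_lit 2040746096) (nat_lit 35) (nat_lit 3) (nat_lit 34) (nat_lit 1) (nat_lit 35) (nat_lit 1) (nat_lit 374) (nat_lit 393) (nat_lit 253)) (XT.nd (nat_lit 78) (nat_lit 76) (nat_lit 0) (XT.lf (nat_lit 0) (nat_lit 704077925) (nat_lit 0) (nat_lit 706072051) (nat_lit 152) (nat_lit 3700672815) (nat_lit 32) (nat_lit 3) (nat_lit 32) (nat_lit 1) (nat_lit 34) (nat_lit 1) (nat_lit 375) (nat_lit 393) (nat_lit 252)) (XT.lf (nat_lit 76) (nat_lit 1677231158) (nat_lit 0) (nat_lit 1624625143) (nat_lit 76) (nat_lit 1679077571) (nat_lit 32) (nat_lit 3) (nat_lit 31) (nat_lit 1) (nat_lit 32) (nat_lit 1) (nat_lit 376) (nat_lit 393) (nat_lit 251)))) (XT.nd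 (nat_lit 156) (nat_lit 228) (nat_lit 0) (XT.nd (nat_lit 78) (nat_lit 76) (nat_lit 0) (XT.lf (nat_lit 0) (nat_lit 919454303) (nat_lit 0) (nat_lit 921082533) (nat_lit 152) (nat_lit 3014468246) (nat_lit 29) (nat_lit 3) (nat_lit 29) (nat_lit 1) (nat_lit 31) (nat_lit 1) (nat_lit 377) (nat_lit 393) (nat_lit 250)) (XT.lf (nat_lit 76) (nat_lit 1347626944) (nat_lit 0) (nat_lit 2035080897) (nat_lit 76) (nat_lit 1349134564) (nat_lit 29) (nat_lit 3) (nat_lit 28) (nat_lit 1) (nat_lit 29) (nat_lit 1) (nat_lit 378) (nat_lit 393) (nat_lit 249))) (XT.nd (nat_lit 78) (nat_lit 76) (nat_lit 0) (XT.lf (nat_lit 0) (nat_lit 1110927292) (nat_lit 0) (nat_lit 1112256763) (nat_lit 152) (nat_lit 2388867484) (nat_lit 26) (nat_lit 3) (nat_lit 26) (nat_lit 1) (nat_lit 28) (nat_lit 1) (nat_lit 379) (nat_lit 393) (nat_lit 248)) (XT.lf (nat_lit 76) (nat_lit 1047378346) (nat_lit 0) (nat_lit 2399277431) (nat_lit 76) (nat_lit 1048609337)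 (nat_lit 26) (nat_lit 3) (nat_lit 25) (nat_lit 1) (nat_lit 26) (nat_lit 1) (nat_lit 380) (nat_lit 393) (nat_lit 247))))) (XT.nd (nat_lit 234) (nat_lit 456) (nat_lit 0) (XT.nd (nat_lit 78) (nat_lit 228) (nat_lit 0) (XT.lf (nat_lit 0) (nat_lit 1280384901) (nat_lit 0) (nat_lit 1281470432) (nat_lit 152) (nat_lit 1819456757) (nat_lit 23) (nat_lit 3) (nat_lit 23) (nat_lit 1) (nat_lit 25) (nat_lit 1) (nat_lit 381) (nat_lit 393) (nat_lit 246)) (XT.nd (nat_lit 78) (nat_lit 152) (nat_lit 0) (XT.lf (nat_lit 76) (nat_lit 774343035) (nat_lit 0) (nat_lit 2720879040) (nat_lit 76) (nat_lit 775348156) (nat_lit 23) (nat_lit 3) (nat_lit 22) (nat_lit 1) (nat_lit 23) (nat_lit 1) (nat_lit 382) (nat_lit 393) (nat_lit 245)) (XT.lf (nat_lit 0) (nat_lit 1429583780) (nat_lit 0) (nat_lit 1430470130) (nat_lit 152) (nat_lit 1302115793) (nat_lit 20) (nat_lit 3) (nat_lit 20) (nat_lit 1) (nat_lit 22) (nat_lit 1) (nat_lit 383)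 (nat_lit 393) (nat_lit 244)))) (XT.nd (nat_lit 156) (nat_lit 228) (nat_lit 0) (XT.nd (nat_lit 78) (nat_lit 152) (nat_lit 0) (XT.lf (nat_lit 76) (nat_lit 526520767) (nat_lit 0) (nat_lit 3003295833) (nat_lit 76) (nat_lit 527341461) (nat_lit 20) (nat_lit 3) (nat_lit 19) (nat_lit 1) (nat_lit 20) (nat_lit 1) (nat_lit 384) (nat_lit 393) (nat_lit 243)) (XT.lf (nat_lit 0) (nat_lit 1560157805) (nat_lit 0) (nat_lit 1560881522) (nat_lit 152) (nat_lit 832999345) (nat_lit 17) (nat_lit 3) (nat_lit 17) (nat_lit 1) (nat_lit 19) (nat_lit 1) (nat_lit 385) (nat_lit 393) (nat_lit 242))) (XT.nd (nat_lit 78) (nat_lit 152) (nat_lit 0) (XT.lf (nat_lit 76) (nat_lit 302044543) (nat_lit 0) (nat_lit 3249700134) (nat_lit 76) (nat_lit 302714651) (nat_lit 17) (nat_lit 3) (nat_lit 16) (nat_lit 1) (nat_lit 17) (nat_lit 1) (nat_lit 386) (nat_lit 393) (nat_lit 241)) (XT.lf (nat_lit 0) (nat_lit 1673626137) (nat_lit 0) (nat_lit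 1674217061) (nat_lit 152) (nat_lit 408519840) (nat_lit 14) (nat_lit 3) (nat_lit 14) (nat_lit 1) (nat_lit 16) (nat_lit 1) (nat_lit 387) (nat_lit 393) (nat_lit 240))))))))
noncomputable def ec158 : XT := (XT.nd (nat_lit 2028) (nat_lit 0) (nat_lit 0) (XT.nd (nat_lit 1014) (nat_lit 0) (nat_lit 0) (XT.nd (nat_lit 468) (nat_lit 304) (nat_lit 0) (XT.nd (nat_lit 234) (nat_lit 304) (nat_lit 0) (XT.nd (nat_lit 78) (nat_lit 380) (nat_lit 0) (XT.lf (nat_lit 76) (nat_lit 99172302) (nat_lit 0) (nat_lit 3463041880) (nat_lit 76) (nat_lit 99719454) (nat_lit 14) (nat_lit 3) (nat_lit 13) (nat_lit 1) (nat_lit 14) (nat_lit 1) (nat_lit 388) (nat_lit 393) (nat_lit 239)) (XT.nd (nat_lit 78) (nat_lit 228) (nat_lit 0) (XT.lf (nat_lit 0) (nat_lit 1771400746) (nat_lit 0) (nat_lit 1771883243) (nat_lit 152) (nat_lit 25331064) (nat_lit 11) (nat_lit 3) (nat_lit 11) (nat_lit 1) (nat_lit 13) (nat_lit 1) (nat_lit 389) (nat_lit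 393) (nat_lit 238)) (XT.lf (nat_lit 0) (nat_lit 84653615) (nat_lit 0) (nat_lit 85079098) (nat_lit 152) (nat_lit 3309068025) (nat_lit 8) (nat_lit 3) (nat_lit 8) (nat_lit 1) (nat_lit 10) (nat_lit 1) (nat_lit 390) (nat_lit 393) (nat_lit 237)))) (XT.nd (nat_lit 78) (nat_lit 228) (nat_lit 0) (XT.lf (nat_lit 76) (nat_lit 1529692260) (nat_lit 0) (nat_lit 330257449) (nat_lit 76) (nat_lit 1530086225) (nat_lit 8) (nat_lit 3) (nat_lit 7) (nat_lit 1) (nat_lit 8) (nat_lit 1) (nat_lit 391) (nat_lit 393) (nat_lit 236)) (XT.nd (nat_lit 78) (nat_lit 76) (nat_lit 0) (XT.lf (nat_lit 0) (nat_lit 251859330) (nat_lit 0) (nat_lit 252206742) (nat_lit 152) (nat_lit 2800515648) (nat_lit 5) (nat_lit 3) (nat_lit 5) (nat_lit 1) (nat_lit 7) (nat_lit 1) (nat_lit 392) (nat_lit 393) (nat_lit 235)) (XT.lf (nat_lit 76) (nat_lit 1284919356) (nat_lit 0) (nat_lit 650255550) (nat_lit 76) (nat_lit 1285241034) (nat_lit 5) (nat_lit 3)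 (nat_lit 4) (nat_lit 1) (nat_lit 5) (nat_lit 1) (nat_lit 393) (nat_lit 393) (nat_lit 234))))) (XT.nd (nat_lit 234) (nat_lit 0) (nat_lit 0) (XT.nd (nat_lit 78) (nat_lit 152) (nat_lit 0) (XT.lf (nat_lit 0) (nat_lit 401719397) (nat_lit 0) (nat_lit 402003063) (nat_lit 152) (nat_lit 2335405556) (nat_lit 2) (nat_lit 3) (nat_lit 2) (nat_lit 1) (nat_lit 4) (nat_lit 1) (nat_lit 394) (nat_lit 393) (nat_lit 233)) (XT.nd (nat_lit 78) (nat_lit 76) (nat_lit 0) (XT.lf (nat_lit 76) (nat_lit 1061216776) (nat_lit 0) (nat_lit 936625658) (nat_lit 76) (nat_lit 1061479430) (nat_lit 2) (nat_lit 3) (nat_lit 1) (nat_lit 1) (nat_lit 2) (nat_lit 1) (nat_lit 395) (nat_lit 393) (nat_lit 232)) (XT.lf (nat_lit 0) (nat_lit 63439621375) (nat_lit 0) (nat_lit 0) (nat_lit 0) (nat_lit 0) (nat_lit 0) (nat_lit 0) (nat_lit 1) (nat_lit 0) (nat_lit 1) (nat_lit 0) (nat_lit 396) (nat_lit 393) (nat_lit 231)))) (XT.nd (nat_lit 156) (nat_lit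 0) (nat_lit 0) (XT.nd (nat_lit 78) (nat_lit 0) (nat_lit 0) (XT.lf (nat_lit 0) (nat_lit 63439603288) (nat_lit 0) (nat_lit 0) (nat_lit 0) (nat_lit 0) (nat_lit 0) (nat_lit 0) (nat_lit 1) (nat_lit 0) (nat_lit 1) (nat_lit 0) (nat_lit 397) (nat_lit 393) (nat_lit 230)) (XT.lf (nat_lit 0) (nat_lit 63439586540) (nat_lit 0) (nat_lit 0) (nat_lit 0) (nat_lit 0) (nat_lit 0) (nat_lit 0) (nat_lit 1) (nat_lit 0) (nat_lit 1) (nat_lit 0) (nat_lit 398) (nat_lit 393) (nat_lit 229))) (XT.nd (nat_lit 78) (nat_lit 0) (nat_lit 0) (XT.lf (nat_lit 0) (nat_lit 63439571033) (nat_lit 0) (nat_lit 0) (nat_lit 0) (nat_lit 0) (nat_lit 0) (nat_lit 0) (nat_lit 1) (nat_lit 0) (nat_lit 1) (nat_lit 0) (nat_lit 399) (nat_lit 393) (nat_lit 228)) (XT.lf (nat_lit 0) (nat_lit 63439556675) (nat_lit 0) (nat_lit 0) (nat_lit 0) (nat_lit 0) (nat_lit 0) (nat_lit 0) (nat_lit 1) (nat_lit 0) (nat_lit 1) (nat_lit 0) (nat_lit 400) (nat_lit 393)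 (nat_lit 227)))))) (XT.nd (nat_lit 468) (nat_lit 0) (nat_lit 0) (XT.nd (nat_lit 234) (nat_lit 0) (nat_lit 0) (XT.nd (nat_lit 78) (nat_lit 0) (nat_lit 0) (XT.lf (nat_lit 0) (nat_lit 63439543380) (nat_lit 0) (nat_lit 0) (nat_lit 0) (nat_lit 0) (nat_lit 0) (nat_lit 0) (nat_lit 1) (nat_lit 0) (nat_lit 1) (nat_lit 0) (nat_lit 401) (nat_lit 393) (nat_lit 226)) (XT.nd (nat_lit 78) (nat_lit 0) (nat_lit 0) (XT.lf (nat_lit 0) (nat_lit 63439531070) (nat_lit 0) (nat_lit 0) (nat_lit 0) (nat_lit 0) (nat_lit 0) (nat_lit 0) (nat_lit 1) (nat_lit 0) (nat_lit 1) (nat_lit 0) (nat_lit 402) (nat_lit 393) (nat_lit 225)) (XT.lf (nat_lit 0) (nat_lit 63439519672) (nat_lit 0) (nat_lit 0) (nat_lit 0) (nat_lit 0) (nat_lit 0) (nat_lit 0) (nat_lit 1) (nat_lit 0) (nat_lit 1) (nat_lit 0) (nat_lit 403) (nat_lit 393) (nat_lit 224)))) (XT.nd (nat_lit 78) (nat_lit 0) (nat_lit 0) (XT.lf (nat_lit 0) (nat_lit 63439509118) (nat_lit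 0) (nat_lit 0) (nat_lit 0) (nat_lit 0) (nat_lit 0) (nat_lit 0) (nat_lit 1) (nat_lit 0) (nat_lit 1) (nat_lit 0) (nat_lit 404) (nat_lit 393) (nat_lit 223)) (XT.nd (nat_lit 78) (nat_lit 0) (nat_lit 0) (XT.lf (nat_lit 0) (nat_lit 63439499346) (nat_lit 0) (nat_lit 0) (nat_lit 0) (nat_lit 0) (nat_lit 0) (nat_lit 0) (nat_lit 1) (nat_lit 0) (nat_lit 1) (nat_lit 0) (nat_lit 405) (nat_lit 393) (nat_lit 222)) (XT.lf (nat_lit 0) (nat_lit 63439490298) (nat_lit 0) (nat_lit 0) (nat_lit 0) (nat_lit 0) (nat_lit 0) (nat_lit 0) (nat_lit 1) (nat_lit 0) (nat_lit 1) (nat_lit 0) (nat_lit 406) (nat_lit 393) (nat_lit 221))))) (XT.nd (nat_lit 234) (nat_lit 0) (nat_lit 0) (XT.nd (nat_lit 78) (nat_lit 0) (nat_lit 0) (XT.lf (nat_lit 0) (nat_lit 63439481920) (nat_lit 0) (nat_lit 0) (nat_lit 0) (nat_lit 0) (nat_lit 0) (nat_lit 0) (nat_lit 1) (nat_lit 0) (nat_lit 1) (nat_lit 0) (nat_lit 407) (nat_lit 393) (nat_lit 220)) (XT.nd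 (nat_lit 78) (nat_lit 0) (nat_lit 0) (XT.lf (nat_lit 0) (nat_lit 63439474162) (nat_lit 0) (nat_lit 0) (nat_lit 0) (nat_lit 0) (nat_lit 0) (nat_lit 0) (nat_lit 1) (nat_lit 0) (nat_lit 1) (nat_lit 0) (nat_lit 408) (nat_lit 393) (nat_lit 219)) (XT.lf (nat_lit 0) (nat_lit 63439466980) (nat_lit 0) (nat_lit 0) (nat_lit 0) (nat_lit 0) (nat_lit 0) (nat_lit 0) (nat_lit 1) (nat_lit 0) (nat_lit 1) (nat_lit 0) (nat_lit 409) (nat_lit 393) (nat_lit 218)))) (XT.nd (nat_lit 156) (nat_lit 0) (nat_lit 0) (XT.nd (nat_lit 78) (nat_lit 0) (nat_lit 0) (XT.lf (nat_lit 0) (nat_lit 63439460329) (nat_lit 0) (nat_lit 0) (nat_lit 0) (nat_lit 0) (nat_lit 0) (nat_lit 0) (nat_lit 1) (nat_lit 0) (nat_lit 1) (nat_lit 0) (nat_lit 410) (nat_lit 393) (nat_lit 217)) (XT.lf (nat_lit 0) (nat_lit 63439454171) (nat_lit 0) (nat_lit 0) (nat_lit 0) (nat_lit 0) (nat_lit 0) (nat_lit 0) (nat_lit 1) (nat_lit 0) (nat_lit 1) (nat_lit 0) (nat_lit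 411) (nat_lit 393) (nat_lit 216))) (XT.nd (nat_lit 78) (nat_lit 0) (nat_lit 0) (XT.lf (nat_lit 0) (nat_lit 63439448469) (nat_lit 0) (nat_lit 0) (nat_lit 0) (nat_lit 0) (nat_lit 0) (nat_lit 0) (nat_lit 1) (nat_lit 0) (nat_lit 1) (nat_lit 0) (nat_lit 412) (nat_lit 393) (nat_lit 215)) (XT.lf (nat_lit 0) (nat_lit 63439443189) (nat_lit 0) (nat_lit 0) (nat_lit 0) (nat_lit 0) (nat_lit 0) (nat_lit 0) (nat_lit 1) (nat_lit 0) (nat_lit 1) (nat_lit 0) (nat_lit 413) (nat_lit 393) (nat_lit 214))))))) (XT.nd (nat_lit 39702) (nat_lit 0) (nat_lit 17176) (XT.nd (nat_lit 39156) (nat_lit 0) (nat_lit 20900) (XT.nd (nat_lit 38922) (nat_lit 0) (nat_lit 22192) (XT.nd (nat_lit 78) (nat_lit 0) (nat_lit 0) (XT.lf (nat_lit 0) (nat_lit 63439438301) (nat_lit 0) (nat_lit 0) (nat_lit 0) (nat_lit 0) (nat_lit 0) (nat_lit 0) (nat_lit 1) (nat_lit 0) (nat_lit 1) (nat_lit 0) (nat_lit 414) (nat_lit 393) (nat_lit 213)) (XT.nd (nat_lit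 78) (nat_lit 0) (nat_lit 0) (XT.lf (nat_lit 0) (nat_lit 63439433774) (nat_lit 0) (nat_lit 0) (nat_lit 0) (nat_lit 0) (nat_lit 0) (nat_lit 0) (nat_lit 1) (nat_lit 0) (nat_lit 1) (nat_lit 0) (nat_lit 415) (nat_lit 393) (nat_lit 212)) (XT.lf (nat_lit 0) (nat_lit 63439429583) (nat_lit 0) (nat_lit 0) (nat_lit 0) (nat_lit 0) (nat_lit 0) (nat_lit 0) (nat_lit 1) (nat_lit 0) (nat_lit 1) (nat_lit 0) (nat_lit 416) (nat_lit 393) (nat_lit 211)))) (XT.nd (nat_lit 78) (nat_lit 0) (nat_lit 76) (XT.lf (nat_lit 836) (nat_lit 34287235886) (nat_lit 0) (nat_lit 60876908503) (nat_lit 836) (nat_lit 34287235886) (nat_lit 303) (nat_lit 1) (nat_lit 292) (nat_lit 0) (nat_lit 303) (nat_lit 0) (nat_lit 232) (nat_lit 394) (nat_lit 394)) (XT.nd (nat_lit 78) (nat_lit 0) (nat_lit 0) (XT.lf (nat_lit 836) (nat_lit 12790191059) (nat_lit 0) (nat_lit 119519821739) (nat_lit 760) (nat_lit 116889986354) (nat_lit 304) (nat_lit 1) (nat_lit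 293) (nat_lit 1) (nat_lit 303) (nat_lit 1) (nat_lit 233) (nat_lit 394) (nat_lit 393)) (XT.lf (nat_lit 836) (nat_lit 117470522279) (nat_lit 76) (nat_lit 80042464906) (nat_lit 0) (nat_lit 42450872161) (nat_lit 304) (nat_lit 1) (nat_lit 294) (nat_lit 1) (nat_lit 293) (nat_lit 1) (nat_lit 234) (nat_lit 394) (nat_lit 392))))) (XT.nd (nat_lit 234) (nat_lit 1444) (nat_lit 0) (XT.nd (nat_lit 78) (nat_lit 0) (nat_lit 76) (XT.lf (nat_lit 836) (nat_lit 101504154573) (nat_lit 76) (nat_lit 33545242240) (nat_lit 0) (nat_lit 96140522589) (nat_lit 305) (nat_lit 1) (nat_lit 295) (nat_lit 1) (nat_lit 294) (nat_lit 1) (nat_lit 235) (nat_lit 394) (nat_lit 391)) (XT.nd (nat_lit 78) (nat_lit 0) (nat_lit 76) (XT.lf (nat_lit 836) (nat_lit 75121703967) (nat_lit 0) (nat_lit 140549157274) (nat_lit 760) (nat_lit 7184852839) (nat_lit 306) (nat_lit 1) (nat_lit 295) (nat_lit 1) (nat_lit 305) (nat_lit 1) (nat_lit 236) (nat_lit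 394) (nat_lit 390)) (XT.lf (nat_lit 836) (nat_lit 18024716319) (nat_lit 0) (nat_lit 154994491965) (nat_lit 760) (nat_lit 41900317118) (nat_lit 307) (nat_lit 1) (nat_lit 296) (nat_lit 1) (nat_lit 306) (nat_lit 1) (nat_lit 237) (nat_lit 394) (nat_lit 389)))) (XT.nd (nat_lit 156) (nat_lit 912) (nat_lit 0) (XT.nd (nat_lit 78) (nat_lit 684) (nat_lit 0) (XT.lf (nat_lit 836) (nat_lit 34636173492) (nat_lit 76) (nat_lit 134702835260) (nat_lit 0) (nat_lit 38014802027) (nat_lit 307) (nat_lit 1) (nat_lit 297) (nat_lit 1) (nat_lit 296) (nat_lit 1) (nat_lit 238) (nat_lit 394) (nat_lit 388)) (XT.lf (nat_lit 836) (nat_lit 7113480224) (nat_lit 0) (nat_lit 100699279607) (nat_lit 760) (nat_lit 92340184289) (nat_lit 298) (nat_lit 1) (nat_lit 287) (nat_lit 1) (nat_lit 297) (nat_lit 1) (nat_lit 239) (nat_lit 394) (nat_lit 387))) (XT.nd (nat_lit 78) (nat_lit 380) (nat_lit 0) (XT.lf (nat_lit 76) (nat_lit 49255218872)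 (nat_lit 0) (nat_lit 21344578489) (nat_lit 532) (nat_lit 122693234183) (nat_lit 281) (nat_lit 1) (nat_lit 280) (nat_lit 1) (nat_lit 287) (nat_lit 1) (nat_lit 240) (nat_lit 394) (nat_lit 386)) (XT.lf (nat_lit 456) (nat_lit 135741183614) (nat_lit 0) (nat_lit 44186681610) (nat_lit 380) (nat_lit 6831534002) (nat_lit 281) (nat_lit 1) (nat_lit 275) (nat_lit 1) (nat_lit 280) (nat_lit 1) (nat_lit 241) (nat_lit 394) (nat_lit 385)))))) (XT.nd (nat_lit 546) (nat_lit 1824) (nat_lit 0) (XT.nd (nat_lit 234) (nat_lit 1216) (nat_lit 0) (XT.nd (nat_lit 78) (nat_lit 304) (nat_lit 0) (XT.lf (nat_lit 456) (nat_lit 97952130722) (nat_lit 0) (nat_lit 20595602639) (nat_lit 380) (nat_lit 61958968055) (nat_lit 276) (nat_lit 1) (nat_lit 270) (nat_lit 1) (nat_lit 275) (nat_lit 1) (nat_lit 242) (nat_lit 394) (nat_lit 384)) (XT.nd (nat_lit 78) (nat_lit 0) (nat_lit 0) (XT.lf (nat_lit 380) (nat_lit 59602622268) (nat_lit 0)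 (nat_lit 379198514) (nat_lit 304) (nat_lit 114575362543) (nat_lit 271) (nat_lit 1) (nat_lit 266) (nat_lit 1) (nat_lit 270) (nat_lit 1) (nat_lit 243) (nat_lit 394) (nat_lit 383)) (XT.lf (nat_lit 76) (nat_lit 4397199789) (nat_lit 0) (nat_lit 148294883909) (nat_lit 380) (nat_lit 16189269993) (nat_lit 267) (nat_lit 1) (nat_lit 266) (nat_lit 1) (nat_lit 271) (nat_lit 1) (nat_lit 244) (nat_lit 394) (nat_lit 382)))) (XT.nd (nat_lit 156) (nat_lit 532) (nat_lit 0) (XT.nd (nat_lit 78) (nat_lit 304) (nat_lit 0) (XT.lf (nat_lit 76) (nat_lit 113536839072) (nat_lit 0) (nat_lit 18831299597) (nat_lit 380) (nat_lit 31056233058) (nat_lit 262) (nat_lit 1) (nat_lit 261) (nat_lit 1) (nat_lit 266) (nat_lit 1) (nat_lit 245) (nat_lit 394) (nat_lit 381)) (XT.lf (nat_lit 76) (nat_lit 56805357685) (nat_lit 0) (nat_lit 57683613526) (nat_lit 380) (nat_lit 43719535839) (nat_lit 258) (nat_lit 1) (nat_lit 257) (nat_lit 1) (nat_lit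 262) (nat_lit 1) (nat_lit 246) (nat_lit 394) (nat_lit 380))) (XT.nd (nat_lit 78) (nat_lit 228) (nat_lit 0) (XT.lf (nat_lit 76) (nat_lit 2803786491) (nat_lit 0) (nat_lit 96446106117) (nat_lit 380) (nat_lit 53989703718) (nat_lit 254) (nat_lit 1) (nat_lit 253) (nat_lit 1) (nat_lit 258) (nat_lit 1) (nat_lit 247) (nat_lit 394) (nat_lit 379)) (XT.lf (nat_lit 304) (nat_lit 12661741775) (nat_lit 0) (nat_lit 85625298841) (nat_lit 228) (nat_lit 50178393004) (nat_lit 254) (nat_lit 1) (nat_lit 250) (nat_lit 1) (nat_lit 253) (nat_lit 1) (nat_lit 248) (nat_lit 394) (nat_lit 378))))) (XT.nd (nat_lit 234) (nat_lit 988) (nat_lit 0) (XT.nd (nat_lit 78) (nat_lit 456) (nat_lit 0) (XT.lf (nat_lit 76) (nat_lit 43749722067) (nat_lit 0) (nat_lit 29986331353) (nat_lit 380) (nat_lit 70152446811) (nat_lit 246) (nat_lit 1) (nat_lit 245) (nat_lit 1) (nat_lit 250) (nat_lit 1) (nat_lit 249) (nat_lit 394) (nat_lit 377)) (XT.nd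 (nat_lit 78) (nat_lit 228) (nat_lit 0) (XT.lf (nat_lit 304) (nat_lit 67735092933) (nat_lit 0) (nat_lit 63628365256) (nat_lit 228) (nat_lit 8144355236) (nat_lit 246) (nat_lit 1) (nat_lit 242) (nat_lit 1) (nat_lit 245) (nat_lit 1) (nat_lit 250) (nat_lit 394) (nat_lit 376)) (XT.lf (nat_lit 304) (nat_lit 21708770052) (nat_lit 0) (nat_lit 54781416929) (nat_lit 228) (nat_lit 58805290655) (nat_lit 243) (nat_lit 1) (nat_lit 239) (nat_lit 1) (nat_lit 242) (nat_lit 1) (nat_lit 251) (nat_lit 394) (nat_lit 375)))) (XT.nd (nat_lit 156) (nat_lit 456) (nat_lit 0) (XT.nd (nat_lit 78) (nat_lit 228) (nat_lit 0) (XT.lf (nat_lit 76) (nat_lit 24742752321) (nat_lit 0) (nat_lit 22654139943) (nat_lit 304) (nat_lit 83861195819) (nat_lit 236) (nat_lit 1) (nat_lit 235) (nat_lit 1) (nat_lit 239) (nat_lit 1) (nat_lit 252) (nat_lit 394) (nat_lit 374)) (XT.lf (nat_lit 304) (nat_lit 61569091674) (nat_lit 0) (nat_lit 40965792026)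 (nat_lit 228) (nat_lit 24833597815) (nat_lit 236) (nat_lit 1) (nat_lit 232) (nat_lit 1) (nat_lit 235) (nat_lit 1) (nat_lit 253) (nat_lit 394) (nat_lit 373))) (XT.nd (nat_lit 78) (nat_lit 304) (nat_lit 0) (XT.lf (nat_lit 228) (nat_lit 15263068737) (nat_lit 0) (nat_lit 35739665489) (nat_lit 152) (nat_lit 72633058301) (nat_lit 233) (nat_lit 1) (nat_lit 230) (nat_lit 1) (nat_lit 232) (nat_lit 1) (nat_lit 254) (nat_lit 394) (nat_lit 372)) (XT.lf (nat_lit 76) (nat_lit 2585661356) (nat_lit 0) (nat_lit 28934111897) (nat_lit 304) (nat_lit 88528019144) (nat_lit 227) (nat_lit 1) (nat_lit 226) (nat_lit 1) (nat_lit 230) (nat_lit 1) (nat_lit 255) (nat_lit 394) (nat_lit 371))))))))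
noncomputable def ec159 : XT := (XT.nd (nat_lit 2106) (nat_lit 3192) (nat_lit 0) (XT.nd (nat_lit 1014) (nat_lit 1748) (nat_lit 0) (XT.nd (nat_lit 468) (nat_lit 988) (nat_lit 0) (XT.nd (nat_lit 234) (nat_lit 532) (nat_lit 0) (XT.nd (nat_lit 78) (nat_lit 380) (nat_lit 0) (XT.lf (nat_lit 228) (nat_lit 44351677174) (nat_lit 0) (nat_lit 27715993310) (nat_lit 152) (nat_lit 44506021457) (nat_lit 227) (nat_lit 1) (nat_lit 224) (nat_lit 1) (nat_lit 226) (nat_lit 1) (nat_lit 256) (nat_lit 394) (nat_lit 370)) (XT.nd (nat_lit 78) (nat_lit 152) (nat_lit 0) (XT.lf (nat_lit 76) (nat_lit 24063366566) (nat_lit 0) (nat_lit 1111501988) (nat_lit 228) (nat_lit 88076320703) (nat_lit 222) (nat_lit 1) (nat_lit 221) (nat_lit 1) (nat_lit 224) (nat_lit 1) (nat_lit 257) (nat_lit 394) (nat_lit 369)) (XT.lf (nat_lit 228) (nat_lit 65784597446) (nat_lit 0) (nat_lit 22795838029) (nat_lit 152) (nat_lit 21444900336) (nat_lit 222)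 (nat_lit 1) (nat_lit 219) (nat_lit 1) (nat_lit 221) (nat_lit 1) (nat_lit 258) (nat_lit 394) (nat_lit 368)))) (XT.nd (nat_lit 78) (nat_lit 380) (nat_lit 0) (XT.lf (nat_lit 228) (nat_lit 20435332139) (nat_lit 0) (nat_lit 21191252250) (nat_lit 152) (nat_lit 65296236472) (nat_lit 220) (nat_lit 1) (nat_lit 217) (nat_lit 1) (nat_lit 219) (nat_lit 1) (nat_lit 259) (nat_lit 394) (nat_lit 367)) (XT.nd (nat_lit 78) (nat_lit 152) (nat_lit 0) (XT.lf (nat_lit 228) (nat_lit 81120758399) (nat_lit 0) (nat_lit 20246521536) (nat_lit 152) (nat_lit 2568506150) (nat_lit 217) (nat_lit 1) (nat_lit 214) (nat_lit 1) (nat_lit 216) (nat_lit 1) (nat_lit 260) (nat_lit 394) (nat_lit 366)) (XT.lf (nat_lit 228) (nat_lit 36305891830) (nat_lit 0) (nat_lit 19328602018) (nat_lit 152) (nat_lit 45397257727) (nat_lit 215) (nat_lit 1) (nat_lit 212) (nat_lit 1) (nat_lit 214) (nat_lit 1) (nat_lit 261) (nat_lit 394) (nat_lit 365)))))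 (XT.nd (nat_lit 234) (nat_lit 608) (nat_lit 0) (XT.nd (nat_lit 78) (nat_lit 228) (nat_lit 0) (XT.lf (nat_lit 76) (nat_lit 12436169683) (nat_lit 0) (nat_lit 6835479248) (nat_lit 152) (nat_lit 78976519983) (nat_lit 211) (nat_lit 1) (nat_lit 210) (nat_lit 1) (nat_lit 212) (nat_lit 1) (nat_lit 262) (nat_lit 394) (nat_lit 364)) (XT.nd (nat_lit 78) (nat_lit 76) (nat_lit 0) (XT.lf (nat_lit 228) (nat_lit 47635418058) (nat_lit 0) (nat_lit 19067583621) (nat_lit 152) (nat_lit 28831825635) (nat_lit 211) (nat_lit 1) (nat_lit 208) (nat_lit 1) (nat_lit 210) (nat_lit 1) (nat_lit 263) (nat_lit 394) (nat_lit 363)) (XT.lf (nat_lit 152) (nat_lit 5129657634) (nat_lit 0) (nat_lit 19535908115) (nat_lit 76) (nat_lit 68263039200) (nat_lit 209) (nat_lit 1) (nat_lit 207) (nat_lit 1) (nat_lit 208) (nat_lit 1) (nat_lit 264) (nat_lit 394) (nat_lit 362)))) (XT.nd (nat_lit 156) (nat_lit 304) (nat_lit 0) (XT.nd (nat_lit 78)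 (nat_lit 76) (nat_lit 0) (XT.lf (nat_lit 228) (nat_lit 55372760314) (nat_lit 0) (nat_lit 19980020777) (nat_lit 152) (nat_lit 15041463090) (nat_lit 207) (nat_lit 1) (nat_lit 204) (nat_lit 1) (nat_lit 206) (nat_lit 1) (nat_lit 265) (nat_lit 394) (nat_lit 361)) (XT.lf (nat_lit 152) (nat_lit 13926657536) (nat_lit 0) (nat_lit 20727093887) (nat_lit 76) (nat_lit 53291545039) (nat_lit 205) (nat_lit 1) (nat_lit 203) (nat_lit 1) (nat_lit 204) (nat_lit 1) (nat_lit 266) (nat_lit 394) (nat_lit 360))) (XT.nd (nat_lit 78) (nat_lit 76) (nat_lit 0) (XT.lf (nat_lit 228) (nat_lit 60285075532) (nat_lit 0) (nat_lit 21726767758) (nat_lit 152) (nat_lit 3565548580) (nat_lit 203) (nat_lit 1) (nat_lit 200) (nat_lit 1) (nat_lit 202) (nat_lit 1) (nat_lit 267) (nat_lit 394) (nat_lit 359)) (XT.lf (nat_lit 152) (nat_lit 20042370821) (nat_lit 0) (nat_lit 22650416462) (nat_lit 76) (nat_lit 40580177196) (nat_lit 201) (nat_lit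 1) (nat_lit 199) (nat_lit 1) (nat_lit 200) (nat_lit 1) (nat_lit 268) (nat_lit 394) (nat_lit 358)))))) (XT.nd (nat_lit 546) (nat_lit 760) (nat_lit 0) (XT.nd (nat_lit 234) (nat_lit 456) (nat_lit 0) (XT.nd (nat_lit 78) (nat_lit 304) (nat_lit 0) (XT.lf (nat_lit 76) (nat_lit 5785025831) (nat_lit 0) (nat_lit 18157654022) (nat_lit 228) (nat_lit 57108643943) (nat_lit 197) (nat_lit 1) (nat_lit 196) (nat_lit 1) (nat_lit 199) (nat_lit 1) (nat_lit 269) (nat_lit 394) (nat_lit 357)) (XT.nd (nat_lit 78) (nat_lit 228) (nat_lit 0) (XT.lf (nat_lit 152) (nat_lit 24052653263) (nat_lit 0) (nat_lit 25061724630) (nat_lit 76) (nat_lit 29770478300) (nat_lit 197) (nat_lit 1) (nat_lit 195) (nat_lit 1) (nat_lit 196) (nat_lit 1) (nat_lit 270) (nat_lit 394) (nat_lit 356)) (XT.lf (nat_lit 76) (nat_lit 13453816028) (nat_lit 0) (nat_lit 13030930567) (nat_lit 228) (nat_lit 50309776973) (nat_lit 193) (nat_lit 1) (nat_lit 192)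 (nat_lit 1) (nat_lit 195) (nat_lit 1) (nat_lit 271) (nat_lit 394) (nat_lit 355)))) (XT.nd (nat_lit 156) (nat_lit 228) (nat_lit 0) (XT.nd (nat_lit 78) (nat_lit 152) (nat_lit 0) (XT.lf (nat_lit 152) (nat_lit 26421893579) (nat_lit 0) (nat_lit 27770430817) (nat_lit 76) (nat_lit 20565273753) (nat_lit 193) (nat_lit 1) (nat_lit 191) (nat_lit 1) (nat_lit 192) (nat_lit 1) (nat_lit 272) (nat_lit 394) (nat_lit 354)) (XT.lf (nat_lit 76) (nat_lit 19807128255) (nat_lit 0) (nat_lit 9437742207) (nat_lit 152) (nat_lit 43543072525) (nat_lit 190) (nat_lit 1) (nat_lit 189) (nat_lit 1) (nat_lit 191) (nat_lit 1) (nat_lit 273) (nat_lit 394) (nat_lit 353))) (XT.nd (nat_lit 78) (nat_lit 152) (nat_lit 0) (XT.lf (nat_lit 152) (nat_lit 27523841816) (nat_lit 0) (nat_lit 30629071765) (nat_lit 76) (nat_lit 12717740139) (nat_lit 190) (nat_lit 1) (nat_lit 188) (nat_lit 1) (nat_lit 189) (nat_lit 1) (nat_lit 274) (nat_lit 394)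 (nat_lit 352)) (XT.lf (nat_lit 76) (nat_lit 25054175609) (nat_lit 0) (nat_lit 7040678747) (nat_lit 152) (nat_lit 36917483909) (nat_lit 187) (nat_lit 1) (nat_lit 186) (nat_lit 1) (nat_lit 188) (nat_lit 1) (nat_lit 275) (nat_lit 394) (nat_lit 351))))) (XT.nd (nat_lit 234) (nat_lit 456) (nat_lit 0) (XT.nd (nat_lit 78) (nat_lit 228) (nat_lit 0) (XT.lf (nat_lit 152) (nat_lit 27658592681) (nat_lit 0) (nat_lit 33524824401) (nat_lit 76) (nat_lit 6022459111) (nat_lit 187) (nat_lit 1) (nat_lit 185) (nat_lit 1) (nat_lit 186) (nat_lit 1) (nat_lit 276) (nat_lit 394) (nat_lit 350)) (XT.nd (nat_lit 78) (nat_lit 76) (nat_lit 0) (XT.lf (nat_lit 76) (nat_lit 29368837522) (nat_lit 0) (nat_lit 5568431027) (nat_lit 152) (nat_lit 30513382000) (nat_lit 184) (nat_lit 1) (nat_lit 183) (nat_lit 1) (nat_lit 185) (nat_lit 1) (nat_lit 277) (nat_lit 394) (nat_lit 349)) (XT.lf (nat_lit 152) (nat_lit 27066430736) (nat_lit 0)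 (nat_lit 36372615681) (nat_lit 76) (nat_lit 308093687) (nat_lit 184) (nat_lit 1) (nat_lit 182) (nat_lit 1) (nat_lit 183) (nat_lit 1) (nat_lit 278) (nat_lit 394) (nat_lit 348)))) (XT.nd (nat_lit 156) (nat_lit 228) (nat_lit 0) (XT.nd (nat_lit 78) (nat_lit 76) (nat_lit 0) (XT.lf (nat_lit 76) (nat_lit 32895914156) (nat_lit 0) (nat_lit 4803379265) (nat_lit 152) (nat_lit 24388379847) (nat_lit 181) (nat_lit 1) (nat_lit 180) (nat_lit 1) (nat_lit 182) (nat_lit 1) (nat_lit 279) (nat_lit 394) (nat_lit 347)) (XT.lf (nat_lit 0) (nat_lit 4422385488) (nat_lit 0) (nat_lit 34612250869) (nat_lit 152) (nat_lit 21441833870) (nat_lit 179) (nat_lit 3) (nat_lit 179) (nat_lit 1) (nat_lit 181) (nat_lit 1) (nat_lit 280) (nat_lit 394) (nat_lit 346))) (XT.nd (nat_lit 78) (nat_lit 76) (nat_lit 0) (XT.lf (nat_lit 76) (nat_lit 35756248684) (nat_lit 0) (nat_lit 4571476830) (nat_lit 152) (nat_lit 18582051553) (nat_lit 178) (nat_lit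 1) (nat_lit 177) (nat_lit 1) (nat_lit 179) (nat_lit 1) (nat_lit 281) (nat_lit 394) (nat_lit 345)) (XT.lf (nat_lit 0) (nat_lit 8448392363) (nat_lit 0) (nat_lit 33098814811) (nat_lit 152) (nat_lit 15837601304) (nat_lit 176) (nat_lit 3) (nat_lit 176) (nat_lit 1) (nat_lit 178) (nat_lit 1) (nat_lit 282) (nat_lit 394) (nat_lit 344))))))) (XT.nd (nat_lit 1014) (nat_lit 1596) (nat_lit 0) (XT.nd (nat_lit 468) (nat_lit 912) (nat_lit 0) (XT.nd (nat_lit 234) (nat_lit 304) (nat_lit 0) (XT.nd (nat_lit 78) (nat_lit 228) (nat_lit 0) (XT.lf (nat_lit 76) (nat_lit 38050924163) (nat_lit 0) (nat_lit 4734007146) (nat_lit 152) (nat_lit 13119750580) (nat_lit 175) (nat_lit 1) (nat_lit 174) (nat_lit 1) (nat_lit 176) (nat_lit 1) (nat_lit 283) (nat_lit 394) (nat_lit 343)) (XT.nd (nat_lit 78) (nat_lit 152) (nat_lit 0) (XT.lf (nat_lit 0) (nat_lit 11877499449) (nat_lit 0) (nat_lit 32004893832) (nat_lit 152) (nat_lit 10578234695)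 (nat_lit 173) (nat_lit 3) (nat_lit 173) (nat_lit 1) (nat_lit 175) (nat_lit 1) (nat_lit 284) (nat_lit 394) (nat_lit 342)) (XT.lf (nat_lit 76) (nat_lit 39864703906) (nat_lit 0) (nat_lit 5180868982) (nat_lit 152) (nat_lit 8015694866) (nat_lit 172) (nat_lit 1) (nat_lit 171) (nat_lit 1) (nat_lit 173) (nat_lit 1) (nat_lit 285) (nat_lit 394) (nat_lit 341)))) (XT.nd (nat_lit 78) (nat_lit 228) (nat_lit 0) (XT.lf (nat_lit 0) (nat_lit 14792087502) (nat_lit 0) (nat_lit 31226369936) (nat_lit 152) (nat_lit 5674798138) (nat_lit 170) (nat_lit 3) (nat_lit 170) (nat_lit 1) (nat_lit 172) (nat_lit 1) (nat_lit 286) (nat_lit 394) (nat_lit 340)) (XT.nd (nat_lit 78) (nat_lit 76) (nat_lit 0) (XT.lf (nat_lit 76) (nat_lit 41268853267) (nat_lit 0) (nat_lit 5825108721) (nat_lit 152) (nat_lit 3275455301) (nat_lit 169) (nat_lit 1) (nat_lit 168) (nat_lit 1) (nat_lit 170) (nat_lit 1) (nat_lit 287) (nat_lit 394) (nat_lit 339))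 (XT.lf (nat_lit 0) (nat_lit 17261830990) (nat_lit 0) (nat_lit 30680638909) (nat_lit 152) (nat_lit 1130495647) (nat_lit 167) (nat_lit 3) (nat_lit 167) (nat_lit 1) (nat_lit 169) (nat_lit 1) (nat_lit 288) (nat_lit 394) (nat_lit 338))))) (XT.nd (nat_lit 234) (nat_lit 456) (nat_lit 0) (XT.nd (nat_lit 78) (nat_lit 228) (nat_lit 0) (XT.lf (nat_lit 152) (nat_lit 41202750847) (nat_lit 0) (nat_lit 1138479551) (nat_lit 76) (nat_lit 5477765179) (nat_lit 166) (nat_lit 1) (nat_lit 164) (nat_lit 1) (nat_lit 165) (nat_lit 1) (nat_lit 289) (nat_lit 394) (nat_lit 337)) (XT.nd (nat_lit 78) (nat_lit 152) (nat_lit 0) (XT.lf (nat_lit 76) (nat_lit 16236590080) (nat_lit 0) (nat_lit 3158577776) (nat_lit 76) (nat_lit 27193223366) (nat_lit 164) (nat_lit 3) (nat_lit 163) (nat_lit 1) (nat_lit 164) (nat_lit 1) (nat_lit 290) (nat_lit 394) (nat_lit 336)) (XT.lf (nat_lit 152) (nat_lit 37869652759) (nat_lit 0) (nat_lit 5292288734)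 (nat_lit 76) (nat_lit 2238111048) (nat_lit 163) (nat_lit 1) (nat_lit 161) (nat_lit 1) (nat_lit 162) (nat_lit 1) (nat_lit 291) (nat_lit 394) (nat_lit 335)))) (XT.nd (nat_lit 156) (nat_lit 228) (nat_lit 0) (XT.nd (nat_lit 78) (nat_lit 152) (nat_lit 0) (XT.lf (nat_lit 76) (nat_lit 14081220246) (nat_lit 0) (nat_lit 7124513360) (nat_lit 76) (nat_lit 23027455538) (nat_lit 161) (nat_lit 3) (nat_lit 160) (nat_lit 1) (nat_lit 161) (nat_lit 1) (nat_lit 292) (nat_lit 394) (nat_lit 334)) (XT.lf (nat_lit 0) (nat_lit 594344906) (nat_lit 0) (nat_lit 8483441283) (nat_lit 152) (nat_lit 34029140208) (nat_lit 158) (nat_lit 3) (nat_lit 158) (nat_lit 1) (nat_lit 160) (nat_lit 1) (nat_lit 293) (nat_lit 394) (nat_lit 333))) (XT.nd (nat_lit 78) (nat_lit 152) (nat_lit 0) (XT.lf (nat_lit 76) (nat_lit 11977510121) (nat_lit 0) (nat_lit 10740980025) (nat_lit 76) (nat_lit 19282228989) (nat_lit 158) (nat_lit 3) (nat_lit 157)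 (nat_lit 1) (nat_lit 158) (nat_lit 1) (nat_lit 294) (nat_lit 394) (nat_lit 332)) (XT.lf (nat_lit 0) (nat_lit 3022707851) (nat_lit 0) (nat_lit 9464258881) (nat_lit 152) (nat_lit 28444415630) (nat_lit 155) (nat_lit 3) (nat_lit 155) (nat_lit 1) (nat_lit 157) (nat_lit 1) (nat_lit 295) (nat_lit 394) (nat_lit 331)))))) (XT.nd (nat_lit 546) (nat_lit 836) (nat_lit 0) (XT.nd (nat_lit 234) (nat_lit 456) (nat_lit 0) (XT.nd (nat_lit 78) (nat_lit 228) (nat_lit 0) (XT.lf (nat_lit 76) (nat_lit 9949040085) (nat_lit 0) (nat_lit 14021510932) (nat_lit 76) (nat_lit 15913439187) (nat_lit 155) (nat_lit 3) (nat_lit 154) (nat_lit 1) (nat_lit 155) (nat_lit 1) (nat_lit 296) (nat_lit 394) (nat_lit 330)) (XT.nd (nat_lit 78) (nat_lit 76) (nat_lit 0) (XT.lf (nat_lit 0) (nat_lit 5155618059) (nat_lit 0) (nat_lit 10415229260) (nat_lit 152) (nat_lit 23297579162) (nat_lit 152) (nat_lit 3) (nat_lit 152) (nat_lit 1) (nat_lit 154)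 (nat_lit 1) (nat_lit 297) (nat_lit 394) (nat_lit 329)) (XT.lf (nat_lit 76) (nat_lit 8012575411) (nat_lit 0) (nat_lit 16981349925) (nat_lit 76) (nat_lit 12882585782) (nat_lit 152) (nat_lit 3) (nat_lit 151) (nat_lit 1) (nat_lit 152) (nat_lit 1) (nat_lit 298) (nat_lit 394) (nat_lit 328)))) (XT.nd (nat_lit 156) (nat_lit 228) (nat_lit 0) (XT.nd (nat_lit 78) (nat_lit 76) (nat_lit 0) (XT.lf (nat_lit 0) (nat_lit 7025294980) (nat_lit 0) (nat_lit 11319836753) (nat_lit 152) (nat_lit 18566658170) (nat_lit 149) (nat_lit 3) (nat_lit 149) (nat_lit 1) (nat_lit 151) (nat_lit 1) (nat_lit 299) (nat_lit 394) (nat_lit 327)) (XT.lf (nat_lit 76) (nat_lit 6179485327) (nat_lit 0) (nat_lit 19636840157) (nat_lit 76) (nat_lit 10155912895) (nat_lit 149) (nat_lit 3) (nat_lit 148) (nat_lit 1) (nat_lit 149) (nat_lit 1) (nat_lit 300) (nat_lit 394) (nat_lit 326))) (XT.nd (nat_lit 78) (nat_lit 76) (nat_lit 0) (XT.lf (nat_lit 0)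 (nat_lit 8659906661) (nat_lit 0) (nat_lit 12166456545) (nat_lit 152) (nat_lit 14229264939) (nat_lit 146) (nat_lit 3) (nat_lit 146) (nat_lit 1) (nat_lit 148) (nat_lit 1) (nat_lit 301) (nat_lit 394) (nat_lit 325)) (XT.lf (nat_lit 76) (nat_lit 4456890921) (nat_lit 0) (nat_lit 22004944421) (nat_lit 76) (nat_lit 7703696369) (nat_lit 146) (nat_lit 3) (nat_lit 145) (nat_lit 1) (nat_lit 146) (nat_lit 1) (nat_lit 302) (nat_lit 394) (nat_lit 324))))) (XT.nd (nat_lit 234) (nat_lit 456) (nat_lit 0) (XT.nd (nat_lit 78) (nat_lit 228) (nat_lit 0) (XT.lf (nat_lit 0) (nat_lit 10084179987) (nat_lit 0) (nat_lit 12947324120) (nat_lit 152) (nat_lit 10262975921) (nat_lit 143) (nat_lit 3) (nat_lit 143) (nat_lit 1) (nat_lit 145) (nat_lit 1) (nat_lit 303) (nat_lit 394) (nat_lit 323)) (XT.nd (nat_lit 78) (nat_lit 152) (nat_lit 0) (XT.lf (nat_lit 76) (nat_lit 2848592325) (nat_lit 0) (nat_lit 24102871788) (nat_lit 76) (nat_lit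 5499651708) (nat_lit 143) (nat_lit 3) (nat_lit 142) (nat_lit 1) (nat_lit 143) (nat_lit 1) (nat_lit 304) (nat_lit 394) (nat_lit 322)) (XT.lf (nat_lit 0) (nat_lit 11319907723) (nat_lit 0) (nat_lit 13657702593) (nat_lit 152) (nat_lit 6645621942) (nat_lit 140) (nat_lit 3) (nat_lit 140) (nat_lit 1) (nat_lit 142) (nat_lit 1) (nat_lit 305) (nat_lit 394) (nat_lit 321)))) (XT.nd (nat_lit 156) (nat_lit 228) (nat_lit 0) (XT.nd (nat_lit 78) (nat_lit 152) (nat_lit 0) (XT.lf (nat_lit 76) (nat_lit 1355816273) (nat_lit 0) (nat_lit 25947789910) (nat_lit 76) (nat_lit 3520441153) (nat_lit 140) (nat_lit 3) (nat_lit 139) (nat_lit 1) (nat_lit 140) (nat_lit 1) (nat_lit 306) (nat_lit 394) (nat_lit 320)) (XT.lf (nat_lit 0) (nat_lit 12386370758) (nat_lit 0) (nat_lit 14295211040) (nat_lit 152) (nat_lit 3355506945) (nat_lit 137) (nat_lit 3) (nat_lit 137) (nat_lit 1) (nat_lit 139) (nat_lit 1) (nat_lit 307) (nat_lit 394)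 (nat_lit 319))) (XT.nd (nat_lit 78) (nat_lit 76) (nat_lit 0) (XT.lf (nat_lit 76) (nat_lit 27534770110) (nat_lit 0) (nat_lit 21472418) (nat_lit 152) (nat_lit 1723426246) (nat_lit 136) (nat_lit 1) (nat_lit 135) (nat_lit 1) (nat_lit 137) (nat_lit 1) (nat_lit 308) (nat_lit 394) (nat_lit 318)) (XT.lf (nat_lit 0) (nat_lit 13300690574) (nat_lit 0) (nat_lit 14859283789) (nat_lit 152) (nat_lit 371569470) (nat_lit 134) (nat_lit 3) (nat_lit 134) (nat_lit 1) (nat_lit 136) (nat_lit 1) (nat_lit 309) (nat_lit 394) (nat_lit 317))))))))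
noncomputable def ec160 : XT := (XT.nd (nat_lit 2028) (nat_lit 3192) (nat_lit 0) (XT.nd (nat_lit 1014) (nat_lit 1596) (nat_lit 0) (XT.nd (nat_lit 468) (nat_lit 836) (nat_lit 0) (XT.nd (nat_lit 234) (nat_lit 304) (nat_lit 0) (XT.nd (nat_lit 78) (nat_lit 228) (nat_lit 0) (XT.lf (nat_lit 152) (nat_lit 26547406611) (nat_lit 0) (nat_lit 1148799137) (nat_lit 76) (nat_lit 115562327) (nat_lit 133) (nat_lit 1) (nat_lit 131) (nat_lit 1) (nat_lit 132) (nat_lit 1) (nat_lit 310) (nat_lit 394) (nat_lit 316)) (XT.nd (nat_lit 78) (nat_lit 152) (nat_lit 0) (XT.lf (nat_lit 76) (nat_lit 11712222314) (nat_lit 0) (nat_lit 2403426180) (nat_lit 76) (nat_lit 12984834188) (nat_lit 131) (nat_lit 3) (nat_lit 130) (nat_lit 1) (nat_lit 131) (nat_lit 1) (nat_lit 311) (nat_lit 394) (nat_lit 315)) (XT.lf (nat_lit 0) (nat_lit 1324004052) (nat_lit 0) (nat_lit 2446236745) (nat_lit 152) (nat_lit 22645716245) (nat_lit 128) (nat_lit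 3) (nat_lit 128) (nat_lit 1) (nat_lit 130) (nat_lit 1) (nat_lit 312) (nat_lit 394) (nat_lit 314)))) (XT.nd (nat_lit 78) (nat_lit 228) (nat_lit 0) (XT.lf (nat_lit 76) (nat_lit 9893542841) (nat_lit 0) (nat_lit 4915514357) (nat_lit 76) (nat_lit 10932647187) (nat_lit 128) (nat_lit 3) (nat_lit 127) (nat_lit 1) (nat_lit 128) (nat_lit 1) (nat_lit 313) (nat_lit 394) (nat_lit 313)) (XT.nd (nat_lit 78) (nat_lit 76) (nat_lit 0) (XT.lf (nat_lit 0) (nat_lit 2605246414) (nat_lit 0) (nat_lit 3521564180) (nat_lit 152) (nat_lit 18964029223) (nat_lit 125) (nat_lit 3) (nat_lit 125) (nat_lit 1) (nat_lit 127) (nat_lit 1) (nat_lit 314) (nat_lit 394) (nat_lit 312)) (XT.lf (nat_lit 76) (nat_lit 8215831120) (nat_lit 0) (nat_lit 7171624730) (nat_lit 76) (nat_lit 9064273495) (nat_lit 125) (nat_lit 3) (nat_lit 124) (nat_lit 1) (nat_lit 125) (nat_lit 1) (nat_lit 315) (nat_lit 394) (nat_lit 311))))) (XT.nd (nat_lit 234) (nat_lit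 456) (nat_lit 0) (XT.nd (nat_lit 78) (nat_lit 228) (nat_lit 0) (XT.lf (nat_lit 0) (nat_lit 3745397608) (nat_lit 0) (nat_lit 4493583124) (nat_lit 152) (nat_lit 15593846661) (nat_lit 122) (nat_lit 3) (nat_lit 122) (nat_lit 1) (nat_lit 124) (nat_lit 1) (nat_lit 316) (nat_lit 394) (nat_lit 310)) (XT.nd (nat_lit 78) (nat_lit 152) (nat_lit 0) (XT.lf (nat_lit 76) (nat_lit 6672096339) (nat_lit 0) (nat_lit 9190033725) (nat_lit 76) (nat_lit 7364860706) (nat_lit 122) (nat_lit 3) (nat_lit 121) (nat_lit 1) (nat_lit 122) (nat_lit 1) (nat_lit 317) (nat_lit 394) (nat_lit 309)) (XT.lf (nat_lit 0) (nat_lit 4756743912) (nat_lit 0) (nat_lit 5367647234) (nat_lit 152) (nat_lit 12514054777) (nat_lit 119) (nat_lit 3) (nat_lit 119) (nat_lit 1) (nat_lit 121) (nat_lit 1) (nat_lit 318) (nat_lit 394) (nat_lit 308)))) (XT.nd (nat_lit 156) (nat_lit 228) (nat_lit 0) (XT.nd (nat_lit 78) (nat_lit 152) (nat_lit 0) (XT.lf (nat_lit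 76) (nat_lit 5255200365) (nat_lit 0) (nat_lit 10988067758) (nat_lit 76) (nat_lit 5820851589) (nat_lit 119) (nat_lit 3) (nat_lit 118) (nat_lit 1) (nat_lit 119) (nat_lit 1) (nat_lit 319) (nat_lit 394) (nat_lit 307)) (XT.lf (nat_lit 0) (nat_lit 5650464905) (nat_lit 0) (nat_lit 6149275508) (nat_lit 152) (nat_lit 9704672644) (nat_lit 116) (nat_lit 3) (nat_lit 116) (nat_lit 1) (nat_lit 118) (nat_lit 1) (nat_lit 320) (nat_lit 394) (nat_lit 306))) (XT.nd (nat_lit 78) (nat_lit 152) (nat_lit 0) (XT.lf (nat_lit 76) (nat_lit 3957981969) (nat_lit 0) (nat_lit 12582106283) (nat_lit 76) (nat_lit 4419843638) (nat_lit 116) (nat_lit 3) (nat_lit 115) (nat_lit 1) (nat_lit 116) (nat_lit 1) (nat_lit 321) (nat_lit 394) (nat_lit 305)) (XT.lf (nat_lit 0) (nat_lit 6436754493) (nat_lit 0) (nat_lit 6844039916) (nat_lit 152) (nat_lit 7146831011) (nat_lit 113) (nat_lit 3) (nat_lit 113) (nat_lit 1) (nat_lit 115) (nat_lit 1)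 (nat_lit 322) (nat_lit 394) (nat_lit 304)))))) (XT.nd (nat_lit 468) (nat_lit 912) (nat_lit 0) (XT.nd (nat_lit 234) (nat_lit 380) (nat_lit 0) (XT.nd (nat_lit 78) (nat_lit 228) (nat_lit 0) (XT.lf (nat_lit 76) (nat_lit 2773352049) (nat_lit 0) (nat_lit 13987595537) (nat_lit 76) (nat_lit 3150468181) (nat_lit 113) (nat_lit 3) (nat_lit 112) (nat_lit 1) (nat_lit 113) (nat_lit 1) (nat_lit 323) (nat_lit 394) (nat_lit 303)) (XT.nd (nat_lit 78) (nat_lit 76) (nat_lit 0) (XT.lf (nat_lit 0) (nat_lit 7124925133) (nat_lit 0) (nat_lit 7457479042) (nat_lit 152) (nat_lit 4822743040) (nat_lit 110) (nat_lit 3) (nat_lit 110) (nat_lit 1) (nat_lit 112) (nat_lit 1) (nat_lit 324) (nat_lit 394) (nat_lit 302)) (XT.lf (nat_lit 76) (nat_lit 1694365529) (nat_lit 0) (nat_lit 15219070335) (nat_lit 76) (nat_lit 2002285815) (nat_lit 110) (nat_lit 3) (nat_lit 109) (nat_lit 1) (nat_lit 110) (nat_lit 1) (nat_lit 325) (nat_lit 394)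 (nat_lit 301)))) (XT.nd (nat_lit 78) (nat_lit 228) (nat_lit 0) (XT.lf (nat_lit 0) (nat_lit 7723498000) (nat_lit 0) (nat_lit 7995032644) (nat_lit 152) (nat_lit 2715669190) (nat_lit 107) (nat_lit 3) (nat_lit 107) (nat_lit 1) (nat_lit 109) (nat_lit 1) (nat_lit 326) (nat_lit 394) (nat_lit 300)) (XT.nd (nat_lit 78) (nat_lit 152) (nat_lit 0) (XT.lf (nat_lit 76) (nat_lit 714274596) (nat_lit 0) (nat_lit 16290181759) (nat_lit 76) (nat_lit 965695562) (nat_lit 107) (nat_lit 3) (nat_lit 106) (nat_lit 1) (nat_lit 107) (nat_lit 1) (nat_lit 327) (nat_lit 394) (nat_lit 299)) (XT.lf (nat_lit 0) (nat_lit 8240281362) (nat_lit 0) (nat_lit 8461992973) (nat_lit 152) (nat_lit 809878011) (nat_lit 104) (nat_lit 3) (nat_lit 104) (nat_lit 1) (nat_lit 106) (nat_lit 1) (nat_lit 328) (nat_lit 394) (nat_lit 298))))) (XT.nd (nat_lit 234) (nat_lit 456) (nat_lit 0) (XT.nd (nat_lit 78) (nat_lit 228) (nat_lit 0) (XT.lf (nat_lit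 152) (nat_lit 16901782359) (nat_lit 0) (nat_lit 143461310) (nat_lit 76) (nat_lit 26660562) (nat_lit 103) (nat_lit 1) (nat_lit 101) (nat_lit 1) (nat_lit 102) (nat_lit 1) (nat_lit 329) (nat_lit 394) (nat_lit 297)) (XT.nd (nat_lit 78) (nat_lit 152) (nat_lit 0) (XT.lf (nat_lit 76) (nat_lit 7757642206) (nat_lit 0) (nat_lit 939464486) (nat_lit 76) (nat_lit 7938672654) (nat_lit 101) (nat_lit 3) (nat_lit 100) (nat_lit 1) (nat_lit 101) (nat_lit 1) (nat_lit 330) (nat_lit 394) (nat_lit 296)) (XT.lf (nat_lit 0) (nat_lit 825987335) (nat_lit 0) (nat_lit 985626178) (nat_lit 152) (nat_lit 14404834435) (nat_lit 98) (nat_lit 3) (nat_lit 98) (nat_lit 1) (nat_lit 100) (nat_lit 1) (nat_lit 331) (nat_lit 394) (nat_lit 295)))) (XT.nd (nat_lit 156) (nat_lit 228) (nat_lit 0) (XT.nd (nat_lit 78) (nat_lit 152) (nat_lit 0) (XT.lf (nat_lit 76) (nat_lit 6558962243) (nat_lit 0) (nat_lit 2537200926) (nat_lit 76) (nat_lit 6706775987)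 (nat_lit 98) (nat_lit 3) (nat_lit 97) (nat_lit 1) (nat_lit 98) (nat_lit 1) (nat_lit 332) (nat_lit 394) (nat_lit 294)) (XT.lf (nat_lit 0) (nat_lit 1589501997) (nat_lit 0) (nat_lit 1719849214) (nat_lit 152) (nat_lit 12094742559) (nat_lit 95) (nat_lit 3) (nat_lit 95) (nat_lit 1) (nat_lit 97) (nat_lit 1) (nat_lit 333) (nat_lit 394) (nat_lit 293))) (XT.nd (nat_lit 78) (nat_lit 152) (nat_lit 0) (XT.lf (nat_lit 76) (nat_lit 5460699497) (nat_lit 0) (nat_lit 3969945747) (nat_lit 76) (nat_lit 5581391364) (nat_lit 95) (nat_lit 3) (nat_lit 94) (nat_lit 1) (nat_lit 95) (nat_lit 1) (nat_lit 334) (nat_lit 394) (nat_lit 292)) (XT.lf (nat_lit 0) (nat_lit 2271760409) (nat_lit 0) (nat_lit 2378190627) (nat_lit 152) (nat_lit 9982717010) (nat_lit 92) (nat_lit 3) (nat_lit 92) (nat_lit 1) (nat_lit 94) (nat_lit 1) (nat_lit 335) (nat_lit 394) (nat_lit 291))))))) (XT.nd (nat_lit 1014) (nat_lit 1748) (nat_lit 0) (XT.nd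 (nat_lit 468) (nat_lit 760) (nat_lit 0) (XT.nd (nat_lit 234) (nat_lit 380) (nat_lit 0) (XT.nd (nat_lit 78) (nat_lit 228) (nat_lit 0) (XT.lf (nat_lit 76) (nat_lit 4456082119) (nat_lit 0) (nat_lit 5250229738) (nat_lit 76) (nat_lit 4554628617) (nat_lit 92) (nat_lit 3) (nat_lit 91) (nat_lit 1) (nat_lit 92) (nat_lit 1) (nat_lit 336) (nat_lit 394) (nat_lit 290)) (XT.nd (nat_lit 78) (nat_lit 76) (nat_lit 0) (XT.lf (nat_lit 0) (nat_lit 2879259565) (nat_lit 0) (nat_lit 2966161239) (nat_lit 152) (nat_lit 8054669614) (nat_lit 89) (nat_lit 3) (nat_lit 89) (nat_lit 1) (nat_lit 91) (nat_lit 1) (nat_lit 337) (nat_lit 394) (nat_lit 289)) (XT.lf (nat_lit 76) (nat_lit 3538699276) (nat_lit 0) (nat_lit 6389767018) (nat_lit 76) (nat_lit 3619163789) (nat_lit 89) (nat_lit 3) (nat_lit 88) (nat_lit 1) (nat_lit 89) (nat_lit 1) (nat_lit 338) (nat_lit 394) (nat_lit 288)))) (XT.nd (nat_lit 78) (nat_lit 228) (nat_lit 0) (XT.lf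 (nat_lit 0) (nat_lit 3418012313) (nat_lit 0) (nat_lit 3488968674) (nat_lit 152) (nat_lit 6297407347) (nat_lit 86) (nat_lit 3) (nat_lit 86) (nat_lit 1) (nat_lit 88) (nat_lit 1) (nat_lit 339) (nat_lit 394) (nat_lit 287)) (XT.nd (nat_lit 78) (nat_lit 152) (nat_lit 0) (XT.lf (nat_lit 76) (nat_lit 2702494777) (nat_lit 0) (nat_lit 7399499356) (nat_lit 76) (nat_lit 2768195111) (nat_lit 86) (nat_lit 3) (nat_lit 85) (nat_lit 1) (nat_lit 86) (nat_lit 1) (nat_lit 340) (nat_lit 394) (nat_lit 286)) (XT.lf (nat_lit 0) (nat_lit 3893585635) (nat_lit 0) (nat_lit 3951522437) (nat_lit 152) (nat_lit 4698583075) (nat_lit 83) (nat_lit 3) (nat_lit 83) (nat_lit 1) (nat_lit 85) (nat_lit 1) (nat_lit 341) (nat_lit 394) (nat_lit 285))))) (XT.nd (nat_lit 234) (nat_lit 456) (nat_lit 0) (XT.nd (nat_lit 78) (nat_lit 228) (nat_lit 0) (XT.lf (nat_lit 76) (nat_lit 1941758042) (nat_lit 0) (nat_lit 8289639290) (nat_lit 76) (nat_lit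 1995403230) (nat_lit 83) (nat_lit 3) (nat_lit 82) (nat_lit 1) (nat_lit 83) (nat_lit 1) (nat_lit 342) (nat_lit 394) (nat_lit 284)) (XT.nd (nat_lit 78) (nat_lit 76) (nat_lit 0) (XT.lf (nat_lit 0) (nat_lit 4311135235) (nat_lit 0) (nat_lit 4358441397) (nat_lit 152) (nat_lit 3246647966) (nat_lit 80) (nat_lit 3) (nat_lit 80) (nat_lit 1) (nat_lit 82) (nat_lit 1) (nat_lit 343) (nat_lit 394) (nat_lit 283)) (XT.lf (nat_lit 76) (nat_lit 1251113132) (nat_lit 0) (nat_lit 9069711846) (nat_lit 76) (nat_lit 1294915133) (nat_lit 80) (nat_lit 3) (nat_lit 79) (nat_lit 1) (nat_lit 80) (nat_lit 1) (nat_lit 344) (nat_lit 394) (nat_lit 282)))) (XT.nd (nat_lit 156) (nat_lit 228) (nat_lit 0) (XT.nd (nat_lit 78) (nat_lit 76) (nat_lit 0) (XT.lf (nat_lit 0) (nat_lit 4675436907) (nat_lit 0) (nat_lit 4714063011) (nat_lit 152) (nat_lit 1930805723) (nat_lit 77) (nat_lit 3) (nat_lit 77) (nat_lit 1) (nat_lit 79) (nat_lit 1) (nat_lit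 345) (nat_lit 394) (nat_lit 281)) (XT.lf (nat_lit 76) (nat_lit 625506414) (nat_lit 0) (nat_lit 9748594691) (nat_lit 76) (nat_lit 661271325) (nat_lit 77) (nat_lit 3) (nat_lit 76) (nat_lit 1) (nat_lit 77) (nat_lit 1) (nat_lit 346) (nat_lit 394) (nat_lit 280))) (XT.nd (nat_lit 78) (nat_lit 76) (nat_lit 0) (XT.lf (nat_lit 0) (nat_lit 4990915059) (nat_lit 0) (nat_lit 5022453781) (nat_lit 152) (nat_lit 740968726) (nat_lit 74) (nat_lit 3) (nat_lit 74) (nat_lit 1) (nat_lit 76) (nat_lit 1) (nat_lit 347) (nat_lit 394) (nat_lit 279)) (XT.lf (nat_lit 76) (nat_lit 60193333) (nat_lit 0) (nat_lit 10334556634) (nat_lit 76) (nat_lit 89395854) (nat_lit 74) (nat_lit 3) (nat_lit 73) (nat_lit 1) (nat_lit 74) (nat_lit 1) (nat_lit 348) (nat_lit 394) (nat_lit 278)))))) (XT.nd (nat_lit 546) (nat_lit 836) (nat_lit 0) (XT.nd (nat_lit 234) (nat_lit 456) (nat_lit 0) (XT.nd (nat_lit 78) (nat_lit 228) (nat_lit 0) (XT.lf (nat_lit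 76) (nat_lit 4923757512) (nat_lit 0) (nat_lit 343270662) (nat_lit 76) (nat_lit 4949509293) (nat_lit 71) (nat_lit 3) (nat_lit 70) (nat_lit 1) (nat_lit 71) (nat_lit 1) (nat_lit 349) (nat_lit 394) (nat_lit 277)) (XT.nd (nat_lit 78) (nat_lit 76) (nat_lit 0) (XT.lf (nat_lit 0) (nat_lit 433168566) (nat_lit 0) (nat_lit 455877368) (nat_lit 152) (nat_lit 9070142186) (nat_lit 68) (nat_lit 3) (nat_lit 68) (nat_lit 1) (nat_lit 70) (nat_lit 1) (nat_lit 350) (nat_lit 394) (nat_lit 276)) (XT.lf (nat_lit 76) (nat_lit 4171771600) (nat_lit 0) (nat_lit 1340655332) (nat_lit 76) (nat_lit 4192798269) (nat_lit 68) (nat_lit 3) (nat_lit 67) (nat_lit 1) (nat_lit 68) (nat_lit 1) (nat_lit 351) (nat_lit 394) (nat_lit 275)))) (XT.nd (nat_lit 156) (nat_lit 228) (nat_lit 0) (XT.nd (nat_lit 78) (nat_lit 76) (nat_lit 0) (XT.lf (nat_lit 0) (nat_lit 902772449) (nat_lit 0) (nat_lit 921314485) (nat_lit 152) (nat_lit 7636342585) (nat_lit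 65) (nat_lit 3) (nat_lit 65) (nat_lit 1) (nat_lit 67) (nat_lit 1) (nat_lit 352) (nat_lit 394) (nat_lit 274)) (XT.lf (nat_lit 76) (nat_lit 3483648616) (nat_lit 0) (nat_lit 2235161836) (nat_lit 76) (nat_lit 3500817167) (nat_lit 65) (nat_lit 3) (nat_lit 64) (nat_lit 1) (nat_lit 65) (nat_lit 1) (nat_lit 353) (nat_lit 394) (nat_lit 273))) (XT.nd (nat_lit 78) (nat_lit 76) (nat_lit 0) (XT.lf (nat_lit 0) (nat_lit 1323027257) (nat_lit 0) (nat_lit 1338167073) (nat_lit 152) (nat_lit 6325576346) (nat_lit 62) (nat_lit 3) (nat_lit 62) (nat_lit 1) (nat_lit 64) (nat_lit 1) (nat_lit 354) (nat_lit 394) (nat_lit 272)) (XT.lf (nat_lit 76) (nat_lit 2854865192) (nat_lit 0) (nat_lit 3034695282) (nat_lit 76) (nat_lit 2868883541) (nat_lit 62) (nat_lit 3) (nat_lit 61) (nat_lit 1) (nat_lit 62) (nat_lit 1) (nat_lit 355) (nat_lit 394) (nat_lit 271))))) (XT.nd (nat_lit 234) (nat_lit 456) (nat_lit 0) (XT.nd (nat_lit 78) (nat_lit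 228) (nat_lit 0) (XT.lf (nat_lit 0) (nat_lit 1697785289) (nat_lit 0) (nat_lit 1710147149) (nat_lit 152) (nat_lit 5129008811) (nat_lit 59) (nat_lit 3) (nat_lit 59) (nat_lit 1) (nat_lit 61) (nat_lit 1) (nat_lit 356) (nat_lit 394) (nat_lit 270)) (XT.nd (nat_lit 78) (nat_lit 152) (nat_lit 0) (XT.lf (nat_lit 76) (nat_lit 2281184543) (nat_lit 0) (nat_lit 3746624794) (nat_lit 76) (nat_lit 2292630709) (nat_lit 59) (nat_lit 3) (nat_lit 58) (nat_lit 1) (nat_lit 59) (nat_lit 1) (nat_lit 357) (nat_lit 394) (nat_lit 269)) (XT.lf (nat_lit 0) (nat_lit 2030628715) (nat_lit 0) (nat_lit 2040722335) (nat_lit 152) (nat_lit 4038384670) (nat_lit 56) (nat_lit 3) (nat_lit 56) (nat_lit 1) (nat_lit 58) (nat_lit 1) (nat_lit 358) (nat_lit 394) (nat_lit 268)))) (XT.nd (nat_lit 156) (nat_lit 228) (nat_lit 0) (XT.nd (nat_lit 78) (nat_lit 152) (nat_lit 0) (XT.lf (nat_lit 76) (nat_lit 1758640752) (nat_lit 0) (nat_lit 4377816828)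 (nat_lit 76) (nat_lit 1767986697) (nat_lit 56) (nat_lit 3) (nat_lit 55) (nat_lit 1) (nat_lit 56) (nat_lit 1) (nat_lit 359) (nat_lit 394) (nat_lit 267)) (XT.lf (nat_lit 0) (nat_lit 2324887987) (nat_lit 0) (nat_lit 2333129561) (nat_lit 152) (nat_lit 3045992486) (nat_lit 53) (nat_lit 3) (nat_lit 53) (nat_lit 1) (nat_lit 55) (nat_lit 1) (nat_lit 360) (nat_lit 394) (nat_lit 266))) (XT.nd (nat_lit 78) (nat_lit 152) (nat_lit 0) (XT.lf (nat_lit 76) (nat_lit 1283523589) (nat_lit 0) (nat_lit 4934666656) (nat_lit 76) (nat_lit 1291154677) (nat_lit 53) (nat_lit 3) (nat_lit 52) (nat_lit 1) (nat_lit 53) (nat_lit 1) (nat_lit 361) (nat_lit 394) (nat_lit 265)) (XT.lf (nat_lit 0) (nat_lit 2583658936) (nat_lit 0) (nat_lit 2590388290) (nat_lit 152) (nat_lit 2144631193) (nat_lit 50) (nat_lit 3) (nat_lit 50) (nat_lit 1) (nat_lit 52) (nat_lit 1) (nat_lit 362) (nat_lit 394) (nat_lit 264))))))))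
noncomputable def ec161 : XT := (XT.nd (nat_lit 2028) (nat_lit 608) (nat_lit 0) (XT.nd (nat_lit 1014) (nat_lit 1596) (nat_lit 0) (XT.nd (nat_lit 468) (nat_lit 836) (nat_lit 0) (XT.nd (nat_lit 234) (nat_lit 456) (nat_lit 0) (XT.nd (nat_lit 78) (nat_lit 228) (nat_lit 0) (XT.lf (nat_lit 76) (nat_lit 852363904) (nat_lit 0) (nat_lit 5423128075) (nat_lit 76) (nat_lit 858594787) (nat_lit 50) (nat_lit 3) (nat_lit 49) (nat_lit 1) (nat_lit 50) (nat_lit 1) (nat_lit 363) (nat_lit 394) (nat_lit 263)) (XT.nd (nat_lit 78) (nat_lit 76) (nat_lit 0) (XT.lf (nat_lit 0) (nat_lit 2809818639) (nat_lit 0) (nat_lit 2815313245) (nat_lit 152) (nat_lit 1327578485) (nat_lit 47) (nat_lit 3) (nat_lit 47) (nat_lit 1) (nat_lit 49) (nat_lit 1) (nat_lit 364) (nat_lit 394) (nat_lit 262)) (XT.lf (nat_lit 76) (nat_lit 461919615) (nat_lit 0) (nat_lit 5848741420) (nat_lit 76) (nat_lit 467007213) (nat_lit 47) (nat_lit 3) (nat_lit 46)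 (nat_lit 1) (nat_lit 47) (nat_lit 1) (nat_lit 365) (nat_lit 394) (nat_lit 261)))) (XT.nd (nat_lit 78) (nat_lit 304) (nat_lit 0) (XT.lf (nat_lit 0) (nat_lit 3006040184) (nat_lit 0) (nat_lit 3010526602) (nat_lit 152) (nat_lit 588561015) (nat_lit 44) (nat_lit 3) (nat_lit 44) (nat_lit 1) (nat_lit 46) (nat_lit 1) (nat_lit 366) (nat_lit 394) (nat_lit 260)) (XT.nd (nat_lit 78) (nat_lit 228) (nat_lit 0) (XT.lf (nat_lit 76) (nat_lit 109162328) (nat_lit 0) (nat_lit 6216659949) (nat_lit 76) (nat_lit 113316419) (nat_lit 44) (nat_lit 3) (nat_lit 43) (nat_lit 1) (nat_lit 44) (nat_lit 1) (nat_lit 367) (nat_lit 394) (nat_lit 259)) (XT.lf (nat_lit 76) (nat_lit 3095207123) (nat_lit 0) (nat_lit 80861765) (nat_lit 76) (nat_lit 3098870343) (nat_lit 41) (nat_lit 3) (nat_lit 40) (nat_lit 1) (nat_lit 41) (nat_lit 1) (nat_lit 368) (nat_lit 394) (nat_lit 258))))) (XT.nd (nat_lit 234) (nat_lit 456) (nat_lit 0) (XT.nd (nat_lit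 78) (nat_lit 228) (nat_lit 0) (XT.lf (nat_lit 0) (nat_lit 208818402) (nat_lit 0) (nat_lit 212048755) (nat_lit 152) (nat_lit 5696065900) (nat_lit 38) (nat_lit 3) (nat_lit 38) (nat_lit 1) (nat_lit 40) (nat_lit 1) (nat_lit 369) (nat_lit 394) (nat_lit 257)) (XT.nd (nat_lit 78) (nat_lit 152) (nat_lit 0) (XT.lf (nat_lit 76) (nat_lit 2628550308) (nat_lit 0) (nat_lit 700814074) (nat_lit 76) (nat_lit 2631541375) (nat_lit 38) (nat_lit 3) (nat_lit 37) (nat_lit 1) (nat_lit 38) (nat_lit 1) (nat_lit 370) (nat_lit 394) (nat_lit 256)) (XT.lf (nat_lit 0) (nat_lit 499791161) (nat_lit 0) (nat_lit 502428786) (nat_lit 152) (nat_lit 4808384758) (nat_lit 35) (nat_lit 3) (nat_lit 35) (nat_lit 1) (nat_lit 37) (nat_lit 1) (nat_lit 371) (nat_lit 394) (nat_lit 255)))) (XT.nd (nat_lit 156) (nat_lit 228) (nat_lit 0) (XT.nd (nat_lit 78) (nat_lit 152) (nat_lit 0) (XT.lf (nat_lit 76) (nat_lit 2201563539) (nat_lit 0) (nat_lit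 1257092156) (nat_lit 76) (nat_lit 2204005784) (nat_lit 35) (nat_lit 3) (nat_lit 34) (nat_lit 1) (nat_lit 35) (nat_lit 1) (nat_lit 372) (nat_lit 394) (nat_lit 254)) (XT.lf (nat_lit 0) (nat_lit 760404159) (nat_lit 0) (nat_lit 762557815) (nat_lit 152) (nat_lit 3996726641) (nat_lit 32) (nat_lit 3) (nat_lit 32) (nat_lit 1) (nat_lit 34) (nat_lit 1) (nat_lit 373) (nat_lit 394) (nat_lit 253))) (XT.nd (nat_lit 78) (nat_lit 152) (nat_lit 0) (XT.lf (nat_lit 76) (nat_lit 1811409651) (nat_lit 0) (nat_lit 1754595155) (nat_lit 76) (nat_lit 1813403776) (nat_lit 32) (nat_lit 3) (nat_lit 31) (nat_lit 1) (nat_lit 32) (nat_lit 1) (nat_lit 374) (nat_lit 394) (nat_lit 252)) (XT.lf (nat_lit 0) (nat_lit 993010647) (nat_lit 0) (nat_lit 994769136) (nat_lit 152) (nat_lit 3255625706) (nat_lit 29) (nat_lit 3) (nat_lit 29) (nat_lit 1) (nat_lit 31) (nat_lit 1) (nat_lit 375) (nat_lit 394) (nat_lit 251)))))) (XT.nd (nat_lit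 468) (nat_lit 912) (nat_lit 0) (XT.nd (nat_lit 234) (nat_lit 380) (nat_lit 0) (XT.nd (nat_lit 78) (nat_lit 228) (nat_lit 0) (XT.lf (nat_lit 76) (nat_lit 1455437100) (nat_lit 0) (nat_lit 2197887369) (nat_lit 76) (nat_lit 1457065329) (nat_lit 29) (nat_lit 3) (nat_lit 28) (nat_lit 1) (nat_lit 29) (nat_lit 1) (nat_lit 376) (nat_lit 394) (nat_lit 250)) (XT.nd (nat_lit 78) (nat_lit 76) (nat_lit 0) (XT.lf (nat_lit 0) (nat_lit 1199801475) (nat_lit 0) (nat_lit 1201237304) (nat_lit 152) (nat_lit 2579976882) (nat_lit 26) (nat_lit 3) (nat_lit 26) (nat_lit 1) (nat_lit 28) (nat_lit 1) (nat_lit 377) (nat_lit 394) (nat_lit 249)) (XT.lf (nat_lit 76) (nat_lit 1131168613) (nat_lit 0) (nat_lit 2591219625) (nat_lit 76) (nat_lit 1132498084) (nat_lit 26) (nat_lit 3) (nat_lit 25) (nat_lit 1) (nat_lit 26) (nat_lit 1) (nat_lit 378) (nat_lit 394) (nat_lit 248)))) (XT.nd (nat_lit 78) (nat_lit 228) (nat_lit 0) (XT.lf (nat_lit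 0) (nat_lit 1382815694) (nat_lit 0) (nat_lit 1383988067) (nat_lit 152) (nat_lit 1965013297) (nat_lit 23) (nat_lit 3) (nat_lit 23) (nat_lit 1) (nat_lit 25) (nat_lit 1) (nat_lit 379) (nat_lit 394) (nat_lit 247)) (XT.nd (nat_lit 78) (nat_lit 152) (nat_lit 0) (XT.lf (nat_lit 76) (nat_lit 836290478) (nat_lit 0) (nat_lit 2938549363) (nat_lit 76) (nat_lit 837376009) (nat_lit 23) (nat_lit 3) (nat_lit 22) (nat_lit 1) (nat_lit 23) (nat_lit 1) (nat_lit 380) (nat_lit 394) (nat_lit 246)) (XT.lf (nat_lit 0) (nat_lit 1543950482) (nat_lit 0) (nat_lit 1544907740) (nat_lit 152) (nat_lit 1406285056) (nat_lit 20) (nat_lit 3) (nat_lit 20) (nat_lit 1) (nat_lit 22) (nat_lit 1) (nat_lit 381) (nat_lit 394) (nat_lit 245))))) (XT.nd (nat_lit 234) (nat_lit 608) (nat_lit 0) (XT.nd (nat_lit 78) (nat_lit 228) (nat_lit 0) (XT.lf (nat_lit 76) (nat_lit 568642428) (nat_lit 0) (nat_lit 3243559500) (nat_lit 76) (nat_lit 569528778)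 (nat_lit 20) (nat_lit 3) (nat_lit 19) (nat_lit 1) (nat_lit 20) (nat_lit 1) (nat_lit 382) (nat_lit 394) (nat_lit 244)) (XT.nd (nat_lit 78) (nat_lit 76) (nat_lit 0) (XT.lf (nat_lit 0) (nat_lit 1684970430) (nat_lit 0) (nat_lit 1685752044) (nat_lit 152) (nat_lit 899639293) (nat_lit 17) (nat_lit 3) (nat_lit 17) (nat_lit 1) (nat_lit 19) (nat_lit 1) (nat_lit 383) (nat_lit 394) (nat_lit 243)) (XT.lf (nat_lit 76) (nat_lit 326208107) (nat_lit 0) (nat_lit 3509676145) (nat_lit 76) (nat_lit 326931823) (nat_lit 17) (nat_lit 3) (nat_lit 16) (nat_lit 1) (nat_lit 17) (nat_lit 1) (nat_lit 384) (nat_lit 394) (nat_lit 242)))) (XT.nd (nat_lit 156) (nat_lit 380) (nat_lit 0) (XT.nd (nat_lit 78) (nat_lit 76) (nat_lit 0) (XT.lf (nat_lit 0) (nat_lit 1807516228) (nat_lit 0) (nat_lit 1808154426) (nat_lit 152) (nat_lit 441201427) (nat_lit 14) (nat_lit 3) (nat_lit 14) (nat_lit 1) (nat_lit 16) (nat_lit 1) (nat_lit 385) (nat_lit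 394) (nat_lit 241)) (XT.lf (nat_lit 76) (nat_lit 107106086) (nat_lit 0) (nat_lit 3740085230) (nat_lit 76) (nat_lit 107697010) (nat_lit 14) (nat_lit 3) (nat_lit 13) (nat_lit 1) (nat_lit 14) (nat_lit 1) (nat_lit 386) (nat_lit 394) (nat_lit 240))) (XT.nd (nat_lit 78) (nat_lit 228) (nat_lit 0) (XT.lf (nat_lit 0) (nat_lit 1913112806) (nat_lit 0) (nat_lit 1913633903) (nat_lit 152) (nat_lit 27357550) (nat_lit 11) (nat_lit 3) (nat_lit 11) (nat_lit 1) (nat_lit 13) (nat_lit 1) (nat_lit 387) (nat_lit 394) (nat_lit 239)) (XT.lf (nat_lit 0) (nat_lit 91425905) (nat_lit 0) (nat_lit 91885426) (nat_lit 152) (nat_lit 3573793467) (nat_lit 8) (nat_lit 3) (nat_lit 8) (nat_lit 1) (nat_lit 10) (nat_lit 1) (nat_lit 388) (nat_lit 394) (nat_lit 238))))))) (XT.nd (nat_lit 1014) (nat_lit 0) (nat_lit 0) (XT.nd (nat_lit 468) (nat_lit 0) (nat_lit 0) (XT.nd (nat_lit 234) (nat_lit 304) (nat_lit 0) (XT.nd (nat_lit 78) (nat_lit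 228) (nat_lit 0) (XT.lf (nat_lit 76) (nat_lit 1652067640) (nat_lit 0) (nat_lit 356678045) (nat_lit 76) (nat_lit 1652493123) (nat_lit 8) (nat_lit 3) (nat_lit 7) (nat_lit 1) (nat_lit 8) (nat_lit 1) (nat_lit 389) (nat_lit 394) (nat_lit 237)) (XT.nd (nat_lit 78) (nat_lit 76) (nat_lit 0) (XT.lf (nat_lit 0) (nat_lit 272008076) (nat_lit 0) (nat_lit 272383281) (nat_lit 152) (nat_lit 3024556899) (nat_lit 5) (nat_lit 3) (nat_lit 5) (nat_lit 1) (nat_lit 7) (nat_lit 1) (nat_lit 390) (nat_lit 394) (nat_lit 236)) (XT.lf (nat_lit 76) (nat_lit 1387712904) (nat_lit 0) (nat_lit 702275995) (nat_lit 76) (nat_lit 1388060316) (nat_lit 5) (nat_lit 3) (nat_lit 4) (nat_lit 1) (nat_lit 5) (nat_lit 1) (nat_lit 391) (nat_lit 394) (nat_lit 235)))) (XT.nd (nat_lit 78) (nat_lit 152) (nat_lit 0) (XT.lf (nat_lit 0) (nat_lit 433856949) (nat_lit 0) (nat_lit 434163309) (nat_lit 152) (nat_lit 2522238000) (nat_lit 2) (nat_lit 3)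 (nat_lit 2) (nat_lit 1) (nat_lit 4) (nat_lit 1) (nat_lit 392) (nat_lit 394) (nat_lit 234)) (XT.nd (nat_lit 78) (nat_lit 76) (nat_lit 0) (XT.lf (nat_lit 76) (nat_lit 1146114118) (nat_lit 0) (nat_lit 1011555710) (nat_lit 76) (nat_lit 1146397785) (nat_lit 2) (nat_lit 3) (nat_lit 1) (nat_lit 1) (nat_lit 2) (nat_lit 1) (nat_lit 393) (nat_lit 394) (nat_lit 233)) (XT.lf (nat_lit 0) (nat_lit 68514791085) (nat_lit 0) (nat_lit 0) (nat_lit 0) (nat_lit 0) (nat_lit 0) (nat_lit 0) (nat_lit 1) (nat_lit 0) (nat_lit 1) (nat_lit 0) (nat_lit 394) (nat_lit 394) (nat_lit 232))))) (XT.nd (nat_lit 234) (nat_lit 0) (nat_lit 0) (XT.nd (nat_lit 78) (nat_lit 0) (nat_lit 0) (XT.lf (nat_lit 0) (nat_lit 68514771551) (nat_lit 0) (nat_lit 0) (nat_lit 0) (nat_lit 0) (nat_lit 0) (nat_lit 0) (nat_lit 1) (nat_lit 0) (nat_lit 1) (nat_lit 0) (nat_lit 395) (nat_lit 394) (nat_lit 231)) (XT.nd (nat_lit 78) (nat_lit 0) (nat_lit 0) (XT.lf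 (nat_lit 0) (nat_lit 68514753463) (nat_lit 0) (nat_lit 0) (nat_lit 0) (nat_lit 0) (nat_lit 0) (nat_lit 0) (nat_lit 1) (nat_lit 0) (nat_lit 1) (nat_lit 0) (nat_lit 396) (nat_lit 394) (nat_lit 230)) (XT.lf (nat_lit 0) (nat_lit 68514736716) (nat_lit 0) (nat_lit 0) (nat_lit 0) (nat_lit 0) (nat_lit 0) (nat_lit 0) (nat_lit 1) (nat_lit 0) (nat_lit 1) (nat_lit 0) (nat_lit 397) (nat_lit 394) (nat_lit 229)))) (XT.nd (nat_lit 156) (nat_lit 0) (nat_lit 0) (XT.nd (nat_lit 78) (nat_lit 0) (nat_lit 0) (XT.lf (nat_lit 0) (nat_lit 68514721209) (nat_lit 0) (nat_lit 0) (nat_lit 0) (nat_lit 0) (nat_lit 0) (nat_lit 0) (nat_lit 1) (nat_lit 0) (nat_lit 1) (nat_lit 0) (nat_lit 398) (nat_lit 394) (nat_lit 228)) (XT.lf (nat_lit 0) (nat_lit 68514706850) (nat_lit 0) (nat_lit 0) (nat_lit 0) (nat_lit 0) (nat_lit 0) (nat_lit 0) (nat_lit 1) (nat_lit 0) (nat_lit 1) (nat_lit 0) (nat_lit 399) (nat_lit 394) (nat_lit 227))) (XT.nd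 (nat_lit 78) (nat_lit 0) (nat_lit 0) (XT.lf (nat_lit 0) (nat_lit 68514693556) (nat_lit 0) (nat_lit 0) (nat_lit 0) (nat_lit 0) (nat_lit 0) (nat_lit 0) (nat_lit 1) (nat_lit 0) (nat_lit 1) (nat_lit 0) (nat_lit 400) (nat_lit 394) (nat_lit 226)) (XT.lf (nat_lit 0) (nat_lit 68514681246) (nat_lit 0) (nat_lit 0) (nat_lit 0) (nat_lit 0) (nat_lit 0) (nat_lit 0) (nat_lit 1) (nat_lit 0) (nat_lit 1) (nat_lit 0) (nat_lit 401) (nat_lit 394) (nat_lit 225)))))) (XT.nd (nat_lit 546) (nat_lit 0) (nat_lit 0) (XT.nd (nat_lit 234) (nat_lit 0) (nat_lit 0) (XT.nd (nat_lit 78) (nat_lit 0) (nat_lit 0) (XT.lf (nat_lit 0) (nat_lit 68514669847) (nat_lit 0) (nat_lit 0) (nat_lit 0) (nat_lit 0) (nat_lit 0) (nat_lit 0) (nat_lit 1) (nat_lit 0) (nat_lit 1) (nat_lit 0) (nat_lit 402) (nat_lit 394) (nat_lit 224)) (XT.nd (nat_lit 78) (nat_lit 0) (nat_lit 0) (XT.lf (nat_lit 0) (nat_lit 68514659294) (nat_lit 0) (nat_lit 0) (nat_lit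 0) (nat_lit 0) (nat_lit 0) (nat_lit 0) (nat_lit 1) (nat_lit 0) (nat_lit 1) (nat_lit 0) (nat_lit 403) (nat_lit 394) (nat_lit 223)) (XT.lf (nat_lit 0) (nat_lit 68514649522) (nat_lit 0) (nat_lit 0) (nat_lit 0) (nat_lit 0) (nat_lit 0) (nat_lit 0) (nat_lit 1) (nat_lit 0) (nat_lit 1) (nat_lit 0) (nat_lit 404) (nat_lit 394) (nat_lit 222)))) (XT.nd (nat_lit 156) (nat_lit 0) (nat_lit 0) (XT.nd (nat_lit 78) (nat_lit 0) (nat_lit 0) (XT.lf (nat_lit 0) (nat_lit 68514640473) (nat_lit 0) (nat_lit 0) (nat_lit 0) (nat_lit 0) (nat_lit 0) (nat_lit 0) (nat_lit 1) (nat_lit 0) (nat_lit 1) (nat_lit 0) (nat_lit 405) (nat_lit 394) (nat_lit 221)) (XT.lf (nat_lit 0) (nat_lit 68514632095) (nat_lit 0) (nat_lit 0) (nat_lit 0) (nat_lit 0) (nat_lit 0) (nat_lit 0) (nat_lit 1) (nat_lit 0) (nat_lit 1) (nat_lit 0) (nat_lit 406) (nat_lit 394) (nat_lit 220))) (XT.nd (nat_lit 78) (nat_lit 0) (nat_lit 0) (XT.lf (nat_lit 0) (nat_lit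 68514624338) (nat_lit 0) (nat_lit 0) (nat_lit 0) (nat_lit 0) (nat_lit 0) (nat_lit 0) (nat_lit 1) (nat_lit 0) (nat_lit 1) (nat_lit 0) (nat_lit 407) (nat_lit 394) (nat_lit 219)) (XT.lf (nat_lit 0) (nat_lit 68514617155) (nat_lit 0) (nat_lit 0) (nat_lit 0) (nat_lit 0) (nat_lit 0) (nat_lit 0) (nat_lit 1) (nat_lit 0) (nat_lit 1) (nat_lit 0) (nat_lit 408) (nat_lit 394) (nat_lit 218))))) (XT.nd (nat_lit 234) (nat_lit 0) (nat_lit 0) (XT.nd (nat_lit 78) (nat_lit 0) (nat_lit 0) (XT.lf (nat_lit 0) (nat_lit 68514610504) (nat_lit 0) (nat_lit 0) (nat_lit 0) (nat_lit 0) (nat_lit 0) (nat_lit 0) (nat_lit 1) (nat_lit 0) (nat_lit 1) (nat_lit 0) (nat_lit 409) (nat_lit 394) (nat_lit 217)) (XT.nd (nat_lit 78) (nat_lit 0) (nat_lit 0) (XT.lf (nat_lit 0) (nat_lit 68514604346) (nat_lit 0) (nat_lit 0) (nat_lit 0) (nat_lit 0) (nat_lit 0) (nat_lit 0) (nat_lit 1) (nat_lit 0) (nat_lit 1) (nat_lit 0) (nat_lit 410) (nat_lit 394)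 (nat_lit 216)) (XT.lf (nat_lit 0) (nat_lit 68514598644) (nat_lit 0) (nat_lit 0) (nat_lit 0) (nat_lit 0) (nat_lit 0) (nat_lit 0) (nat_lit 1) (nat_lit 0) (nat_lit 1) (nat_lit 0) (nat_lit 411) (nat_lit 394) (nat_lit 215)))) (XT.nd (nat_lit 156) (nat_lit 0) (nat_lit 0) (XT.nd (nat_lit 78) (nat_lit 0) (nat_lit 0) (XT.lf (nat_lit 0) (nat_lit 68514593365) (nat_lit 0) (nat_lit 0) (nat_lit 0) (nat_lit 0) (nat_lit 0) (nat_lit 0) (nat_lit 1) (nat_lit 0) (nat_lit 1) (nat_lit 0) (nat_lit 412) (nat_lit 394) (nat_lit 214)) (XT.lf (nat_lit 0) (nat_lit 68514588476) (nat_lit 0) (nat_lit 0) (nat_lit 0) (nat_lit 0) (nat_lit 0) (nat_lit 0) (nat_lit 1) (nat_lit 0) (nat_lit 1) (nat_lit 0) (nat_lit 413) (nat_lit 394) (nat_lit 213))) (XT.nd (nat_lit 78) (nat_lit 0) (nat_lit 0) (XT.lf (nat_lit 0) (nat_lit 68514583950) (nat_lit 0) (nat_lit 0) (nat_lit 0) (nat_lit 0) (nat_lit 0) (nat_lit 0) (nat_lit 1) (nat_lit 0) (nat_lit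 1) (nat_lit 0) (nat_lit 414) (nat_lit 394) (nat_lit 212)) (XT.lf (nat_lit 0) (nat_lit 68514579759) (nat_lit 0) (nat_lit 0) (nat_lit 0) (nat_lit 0) (nat_lit 0) (nat_lit 0) (nat_lit 1) (nat_lit 0) (nat_lit 1) (nat_lit 0) (nat_lit 415) (nat_lit 394) (nat_lit 211))))))))
noncomputable def ec162 : XT := (XT.nd (nat_lit 40560) (nat_lit 0) (nat_lit 13224) (XT.nd (nat_lit 39546) (nat_lit 0) (nat_lit 17024) (XT.nd (nat_lit 39000) (nat_lit 0) (nat_lit 20216) (XT.nd (nat_lit 38766) (nat_lit 0) (nat_lit 22268) (XT.nd (nat_lit 38610) (nat_lit 0) (nat_lit 22192) (XT.lf (nat_lit 0) (nat_lit 68514575878) (nat_lit 0) (nat_lit 0) (nat_lit 0) (nat_lit 0) (nat_lit 0) (nat_lit 0) (nat_lit 1) (nat_lit 0) (nat_lit 1) (nat_lit 0) (nat_lit 416) (nat_lit 394) (nat_lit 210)) (XT.nd (nat_lit 78) (nat_lit 0) (nat_lit 76) (XT.lf (nat_lit 836) (nat_lit 37030214757) (nat_lit 0) (nat_lit 65747061184) (nat_lit 836) (nat_lit 37030214757)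 (nat_lit 303) (nat_lit 1) (nat_lit 292) (nat_lit 0) (nat_lit 303) (nat_lit 0) (nat_lit 230) (nat_lit 395) (nat_lit 395)) (XT.lf (nat_lit 836) (nat_lit 13813406344) (nat_lit 0) (nat_lit 129081407478) (nat_lit 760) (nat_lit 126241185262) (nat_lit 304) (nat_lit 1) (nat_lit 293) (nat_lit 1) (nat_lit 303) (nat_lit 1) (nat_lit 231) (nat_lit 395) (nat_lit 394)))) (XT.nd (nat_lit 78) (nat_lit 0) (nat_lit 76) (XT.lf (nat_lit 836) (nat_lit 126868164061) (nat_lit 76) (nat_lit 86445862098) (nat_lit 0) (nat_lit 45846941934) (nat_lit 304) (nat_lit 1) (nat_lit 294) (nat_lit 1) (nat_lit 293) (nat_lit 1) (nat_lit 232) (nat_lit 395) (nat_lit 393)) (XT.nd (nat_lit 78) (nat_lit 0) (nat_lit 76) (XT.lf (nat_lit 836) (nat_lit 109624486939) (nat_lit 76) (nat_lit 36228861619) (nat_lit 0) (nat_lit 103831764396) (nat_lit 305) (nat_lit 1) (nat_lit 295) (nat_lit 1) (nat_lit 294) (nat_lit 1) (nat_lit 233) (nat_lit 395) (nat_lit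 392)) (XT.lf (nat_lit 836) (nat_lit 81131440285) (nat_lit 0) (nat_lit 151793089856) (nat_lit 760) (nat_lit 7759641066) (nat_lit 306) (nat_lit 1) (nat_lit 295) (nat_lit 1) (nat_lit 305) (nat_lit 1) (nat_lit 234) (nat_lit 395) (nat_lit 391))))) (XT.nd (nat_lit 234) (nat_lit 1596) (nat_lit 0) (XT.nd (nat_lit 78) (nat_lit 684) (nat_lit 0) (XT.lf (nat_lit 836) (nat_lit 19466693624) (nat_lit 0) (nat_lit 167394051322) (nat_lit 760) (nat_lit 45252342488) (nat_lit 307) (nat_lit 1) (nat_lit 296) (nat_lit 1) (nat_lit 306) (nat_lit 1) (nat_lit 235) (nat_lit 395) (nat_lit 390)) (XT.nd (nat_lit 78) (nat_lit 684) (nat_lit 0) (XT.lf (nat_lit 836) (nat_lit 37407067371) (nat_lit 76) (nat_lit 145479062081) (nat_lit 0) (nat_lit 41055986190) (nat_lit 307) (nat_lit 1) (nat_lit 297) (nat_lit 1) (nat_lit 296) (nat_lit 1) (nat_lit 236) (nat_lit 395) (nat_lit 389)) (XT.lf (nat_lit 836) (nat_lit 7682558642) (nat_lit 0)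 (nat_lit 108755221976) (nat_lit 760) (nat_lit 99727399032) (nat_lit 298) (nat_lit 1) (nat_lit 287) (nat_lit 1) (nat_lit 297) (nat_lit 1) (nat_lit 237) (nat_lit 395) (nat_lit 388)))) (XT.nd (nat_lit 156) (nat_lit 684) (nat_lit 0) (XT.nd (nat_lit 78) (nat_lit 380) (nat_lit 0) (XT.lf (nat_lit 76) (nat_lit 53195636382) (nat_lit 0) (nat_lit 23052144768) (nat_lit 532) (nat_lit 132508692918) (nat_lit 281) (nat_lit 1) (nat_lit 280) (nat_lit 1) (nat_lit 287) (nat_lit 1) (nat_lit 238) (nat_lit 395) (nat_lit 387)) (XT.lf (nat_lit 456) (nat_lit 146600478304) (nat_lit 0) (nat_lit 47721616139) (nat_lit 380) (nat_lit 7378056722) (nat_lit 281) (nat_lit 1) (nat_lit 275) (nat_lit 1) (nat_lit 280) (nat_lit 1) (nat_lit 239) (nat_lit 395) (nat_lit 386))) (XT.nd (nat_lit 78) (nat_lit 304) (nat_lit 0) (XT.lf (nat_lit 456) (nat_lit 105788301179) (nat_lit 0) (nat_lit 22243250850) (nat_lit 380) (nat_lit 66915685499) (nat_lit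 276) (nat_lit 1) (nat_lit 270) (nat_lit 1) (nat_lit 275) (nat_lit 1) (nat_lit 240) (nat_lit 395) (nat_lit 385)) (XT.lf (nat_lit 380) (nat_lit 64370832050) (nat_lit 0) (nat_lit 409534395) (nat_lit 304) (nat_lit 123741391547) (nat_lit 271) (nat_lit 1) (nat_lit 266) (nat_lit 1) (nat_lit 270) (nat_lit 1) (nat_lit 241) (nat_lit 395) (nat_lit 384)))))) (XT.nd (nat_lit 468) (nat_lit 1596) (nat_lit 0) (XT.nd (nat_lit 234) (nat_lit 912) (nat_lit 0) (XT.nd (nat_lit 78) (nat_lit 684) (nat_lit 0) (XT.lf (nat_lit 76) (nat_lit 4748975772) (nat_lit 0) (nat_lit 160158474621) (nat_lit 380) (nat_lit 17484411593) (nat_lit 267) (nat_lit 1) (nat_lit 266) (nat_lit 1) (nat_lit 271) (nat_lit 1) (nat_lit 242) (nat_lit 395) (nat_lit 383)) (XT.nd (nat_lit 78) (nat_lit 304) (nat_lit 0) (XT.lf (nat_lit 76) (nat_lit 122619786198) (nat_lit 0) (nat_lit 20337803564) (nat_lit 380) (nat_lit 33540731703) (nat_lit 262) (nat_lit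 1) (nat_lit 261) (nat_lit 1) (nat_lit 266) (nat_lit 1) (nat_lit 243) (nat_lit 395) (nat_lit 382)) (XT.lf (nat_lit 76) (nat_lit 61349786299) (nat_lit 0) (nat_lit 62298302609) (nat_lit 380) (nat_lit 47217098706) (nat_lit 258) (nat_lit 1) (nat_lit 257) (nat_lit 1) (nat_lit 262) (nat_lit 1) (nat_lit 244) (nat_lit 395) (nat_lit 381)))) (XT.nd (nat_lit 78) (nat_lit 608) (nat_lit 0) (XT.lf (nat_lit 76) (nat_lit 3028089411) (nat_lit 0) (nat_lit 104161794607) (nat_lit 380) (nat_lit 58308880016) (nat_lit 254) (nat_lit 1) (nat_lit 253) (nat_lit 1) (nat_lit 258) (nat_lit 1) (nat_lit 245) (nat_lit 395) (nat_lit 380)) (XT.nd (nat_lit 78) (nat_lit 380) (nat_lit 0) (XT.lf (nat_lit 304) (nat_lit 13674681117) (nat_lit 0) (nat_lit 92475322748) (nat_lit 228) (nat_lit 54192664445) (nat_lit 254) (nat_lit 1) (nat_lit 250) (nat_lit 1) (nat_lit 253) (nat_lit 1) (nat_lit 246) (nat_lit 395) (nat_lit 379)) (XT.lf (nat_lit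 76) (nat_lit 47249699832) (nat_lit 0) (nat_lit 32385237862) (nat_lit 380) (nat_lit 75764642556) (nat_lit 246) (nat_lit 1) (nat_lit 245) (nat_lit 1) (nat_lit 250) (nat_lit 1) (nat_lit 247) (nat_lit 395) (nat_lit 378))))) (XT.nd (nat_lit 234) (nat_lit 836) (nat_lit 0) (XT.nd (nat_lit 78) (nat_lit 532) (nat_lit 0) (XT.lf (nat_lit 304) (nat_lit 73153900367) (nat_lit 0) (nat_lit 68718634476) (nat_lit 228) (nat_lit 8795903655) (nat_lit 246) (nat_lit 1) (nat_lit 242) (nat_lit 1) (nat_lit 245) (nat_lit 1) (nat_lit 248) (nat_lit 395) (nat_lit 377)) (XT.nd (nat_lit 78) (nat_lit 304) (nat_lit 0) (XT.lf (nat_lit 304) (nat_lit 23445471656) (nat_lit 0) (nat_lit 59163930283) (nat_lit 228) (nat_lit 63509713907) (nat_lit 243) (nat_lit 1) (nat_lit 239) (nat_lit 1) (nat_lit 242) (nat_lit 1) (nat_lit 249) (nat_lit 395) (nat_lit 376)) (XT.lf (nat_lit 76) (nat_lit 26722172507) (nat_lit 0) (nat_lit 24466471139) (nat_lit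 304) (nat_lit 90570091485) (nat_lit 236) (nat_lit 1) (nat_lit 235) (nat_lit 1) (nat_lit 239) (nat_lit 1) (nat_lit 250) (nat_lit 395) (nat_lit 375)))) (XT.nd (nat_lit 156) (nat_lit 456) (nat_lit 0) (XT.nd (nat_lit 78) (nat_lit 152) (nat_lit 0) (XT.lf (nat_lit 304) (nat_lit 66494619008) (nat_lit 0) (nat_lit 44243055388) (nat_lit 228) (nat_lit 26820285640) (nat_lit 236) (nat_lit 1) (nat_lit 232) (nat_lit 1) (nat_lit 235) (nat_lit 1) (nat_lit 251) (nat_lit 395) (nat_lit 374)) (XT.lf (nat_lit 228) (nat_lit 16484114236) (nat_lit 0) (nat_lit 38598838729) (nat_lit 152) (nat_lit 78443702965) (nat_lit 233) (nat_lit 1) (nat_lit 230) (nat_lit 1) (nat_lit 232) (nat_lit 1) (nat_lit 252) (nat_lit 395) (nat_lit 373))) (XT.nd (nat_lit 78) (nat_lit 152) (nat_lit 0) (XT.lf (nat_lit 76) (nat_lit 2792514264) (nat_lit 0) (nat_lit 31248840848) (nat_lit 304) (nat_lit 95610260676) (nat_lit 227) (nat_lit 1) (nat_lit 226)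 (nat_lit 1) (nat_lit 230) (nat_lit 1) (nat_lit 253) (nat_lit 395) (nat_lit 372)) (XT.lf (nat_lit 228) (nat_lit 47899811348) (nat_lit 0) (nat_lit 29933272775) (nat_lit 152) (nat_lit 48066503173) (nat_lit 227) (nat_lit 1) (nat_lit 224) (nat_lit 1) (nat_lit 226) (nat_lit 1) (nat_lit 254) (nat_lit 395) (nat_lit 371))))))) (XT.nd (nat_lit 1014) (nat_lit 1672) (nat_lit 0) (XT.nd (nat_lit 468) (nat_lit 1064) (nat_lit 0) (XT.nd (nat_lit 234) (nat_lit 532) (nat_lit 0) (XT.nd (nat_lit 78) (nat_lit 304) (nat_lit 0) (XT.lf (nat_lit 76) (nat_lit 25988435892) (nat_lit 0) (nat_lit 1200422147) (nat_lit 228) (nat_lit 95122426359) (nat_lit 222) (nat_lit 1) (nat_lit 221) (nat_lit 1) (nat_lit 224) (nat_lit 1) (nat_lit 255) (nat_lit 395) (nat_lit 370)) (XT.nd (nat_lit 78) (nat_lit 152) (nat_lit 0) (XT.lf (nat_lit 228) (nat_lit 71047365242) (nat_lit 0) (nat_lit 24619505072) (nat_lit 152) (nat_lit 23160492363) (nat_lit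 222) (nat_lit 1) (nat_lit 219) (nat_lit 1) (nat_lit 221) (nat_lit 1) (nat_lit 256) (nat_lit 395) (nat_lit 369)) (XT.lf (nat_lit 228) (nat_lit 22070158711) (nat_lit 0) (nat_lit 22886552430) (nat_lit 152) (nat_lit 70519935390) (nat_lit 220) (nat_lit 1) (nat_lit 217) (nat_lit 1) (nat_lit 219) (nat_lit 1) (nat_lit 257) (nat_lit 395) (nat_lit 368)))) (XT.nd (nat_lit 78) (nat_lit 304) (nat_lit 0) (XT.lf (nat_lit 228) (nat_lit 87610419071) (nat_lit 0) (nat_lit 21866243259) (nat_lit 152) (nat_lit 2773986642) (nat_lit 217) (nat_lit 1) (nat_lit 214) (nat_lit 1) (nat_lit 216) (nat_lit 1) (nat_lit 258) (nat_lit 395) (nat_lit 367)) (XT.nd (nat_lit 78) (nat_lit 152) (nat_lit 0) (XT.lf (nat_lit 228) (nat_lit 39210363176) (nat_lit 0) (nat_lit 20874890180) (nat_lit 152) (nat_lit 49029038346) (nat_lit 215) (nat_lit 1) (nat_lit 212) (nat_lit 1) (nat_lit 214) (nat_lit 1) (nat_lit 259) (nat_lit 395) (nat_lit 366))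 (XT.lf (nat_lit 76) (nat_lit 13431063257) (nat_lit 0) (nat_lit 7382317588) (nat_lit 152) (nat_lit 85294641582) (nat_lit 211) (nat_lit 1) (nat_lit 210) (nat_lit 1) (nat_lit 212) (nat_lit 1) (nat_lit 260) (nat_lit 395) (nat_lit 365))))) (XT.nd (nat_lit 234) (nat_lit 608) (nat_lit 0) (XT.nd (nat_lit 78) (nat_lit 304) (nat_lit 0) (XT.lf (nat_lit 228) (nat_lit 51446251503) (nat_lit 0) (nat_lit 20592990310) (nat_lit 152) (nat_lit 31138371686) (nat_lit 211) (nat_lit 1) (nat_lit 208) (nat_lit 1) (nat_lit 210) (nat_lit 1) (nat_lit 261) (nat_lit 395) (nat_lit 364)) (XT.nd (nat_lit 78) (nat_lit 228) (nat_lit 0) (XT.lf (nat_lit 152) (nat_lit 5540030244) (nat_lit 0) (nat_lit 21098780764) (nat_lit 76) (nat_lit 73724082336) (nat_lit 209) (nat_lit 1) (nat_lit 207) (nat_lit 1) (nat_lit 208) (nat_lit 1) (nat_lit 262) (nat_lit 395) (nat_lit 363)) (XT.lf (nat_lit 228) (nat_lit 59802581140) (nat_lit 0) (nat_lit 21578422440)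 (nat_lit 152) (nat_lit 16244780137) (nat_lit 207) (nat_lit 1) (nat_lit 204) (nat_lit 1) (nat_lit 206) (nat_lit 1) (nat_lit 263) (nat_lit 395) (nat_lit 362)))) (XT.nd (nat_lit 156) (nat_lit 304) (nat_lit 0) (XT.nd (nat_lit 78) (nat_lit 228) (nat_lit 0) (XT.lf (nat_lit 152) (nat_lit 15040790139) (nat_lit 0) (nat_lit 22385261399) (nat_lit 76) (nat_lit 57554868642) (nat_lit 205) (nat_lit 1) (nat_lit 203) (nat_lit 1) (nat_lit 204) (nat_lit 1) (nat_lit 264) (nat_lit 395) (nat_lit 361)) (XT.lf (nat_lit 228) (nat_lit 65107881574) (nat_lit 0) (nat_lit 23464909179) (nat_lit 152) (nat_lit 3850792467) (nat_lit 203) (nat_lit 1) (nat_lit 200) (nat_lit 1) (nat_lit 202) (nat_lit 1) (nat_lit 265) (nat_lit 395) (nat_lit 360))) (XT.nd (nat_lit 78) (nat_lit 228) (nat_lit 0) (XT.lf (nat_lit 152) (nat_lit 21645760486) (nat_lit 0) (nat_lit 24462449778) (nat_lit 76) (nat_lit 43826591371) (nat_lit 201) (nat_lit 1) (nat_lit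 199) (nat_lit 1) (nat_lit 200) (nat_lit 1) (nat_lit 266) (nat_lit 395) (nat_lit 359)) (XT.lf (nat_lit 76) (nat_lit 6247827898) (nat_lit 0) (nat_lit 19610266343) (nat_lit 228) (nat_lit 61677335459) (nat_lit 197) (nat_lit 1) (nat_lit 196) (nat_lit 1) (nat_lit 199) (nat_lit 1) (nat_lit 267) (nat_lit 395) (nat_lit 358)))))) (XT.nd (nat_lit 546) (nat_lit 836) (nat_lit 0) (XT.nd (nat_lit 234) (nat_lit 456) (nat_lit 0) (XT.nd (nat_lit 78) (nat_lit 304) (nat_lit 0) (XT.lf (nat_lit 152) (nat_lit 25976865524) (nat_lit 0) (nat_lit 27066662600) (nat_lit 76) (nat_lit 32152116564) (nat_lit 197) (nat_lit 1) (nat_lit 195) (nat_lit 1) (nat_lit 196) (nat_lit 1) (nat_lit 268) (nat_lit 395) (nat_lit 357)) (XT.nd (nat_lit 78) (nat_lit 76) (nat_lit 0) (XT.lf (nat_lit 76) (nat_lit 14530121310) (nat_lit 0) (nat_lit 14073405013) (nat_lit 228) (nat_lit 54334559131) (nat_lit 193) (nat_lit 1) (nat_lit 192) (nat_lit 1) (nat_lit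 195) (nat_lit 1) (nat_lit 269) (nat_lit 395) (nat_lit 356)) (XT.lf (nat_lit 152) (nat_lit 28535645065) (nat_lit 0) (nat_lit 29992065283) (nat_lit 76) (nat_lit 22210495653) (nat_lit 193) (nat_lit 1) (nat_lit 191) (nat_lit 1) (nat_lit 192) (nat_lit 1) (nat_lit 270) (nat_lit 395) (nat_lit 355)))) (XT.nd (nat_lit 156) (nat_lit 228) (nat_lit 0) (XT.nd (nat_lit 78) (nat_lit 76) (nat_lit 0) (XT.lf (nat_lit 76) (nat_lit 21391698515) (nat_lit 0) (nat_lit 10192761583) (nat_lit 152) (nat_lit 47026518327) (nat_lit 190) (nat_lit 1) (nat_lit 189) (nat_lit 1) (nat_lit 191) (nat_lit 1) (nat_lit 271) (nat_lit 395) (nat_lit 354)) (XT.lf (nat_lit 152) (nat_lit 29725749162) (nat_lit 0) (nat_lit 33079397506) (nat_lit 76) (nat_lit 13735159350) (nat_lit 190) (nat_lit 1) (nat_lit 188) (nat_lit 1) (nat_lit 189) (nat_lit 1) (nat_lit 272) (nat_lit 395) (nat_lit 353))) (XT.nd (nat_lit 78) (nat_lit 76) (nat_lit 0) (XT.lf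 (nat_lit 76) (nat_lit 27058509658) (nat_lit 0) (nat_lit 7603933047) (nat_lit 152) (nat_lit 39870882622) (nat_lit 187) (nat_lit 1) (nat_lit 186) (nat_lit 1) (nat_lit 188) (nat_lit 1) (nat_lit 273) (nat_lit 395) (nat_lit 352)) (XT.lf (nat_lit 152) (nat_lit 29871280095) (nat_lit 0) (nat_lit 36206810353) (nat_lit 76) (nat_lit 6504255839) (nat_lit 187) (nat_lit 1) (nat_lit 185) (nat_lit 1) (nat_lit 186) (nat_lit 1) (nat_lit 274) (nat_lit 395) (nat_lit 351))))) (XT.nd (nat_lit 234) (nat_lit 456) (nat_lit 0) (XT.nd (nat_lit 78) (nat_lit 228) (nat_lit 0) (XT.lf (nat_lit 76) (nat_lit 31718344523) (nat_lit 0) (nat_lit 6013905509) (nat_lit 152) (nat_lit 32954452560) (nat_lit 184) (nat_lit 1) (nat_lit 183) (nat_lit 1) (nat_lit 185) (nat_lit 1) (nat_lit 275) (nat_lit 395) (nat_lit 350)) (XT.nd (nat_lit 78) (nat_lit 152) (nat_lit 0) (XT.lf (nat_lit 152) (nat_lit 29231745195) (nat_lit 0) (nat_lit 39282424936)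 (nat_lit 76) (nat_lit 332741182) (nat_lit 184) (nat_lit 1) (nat_lit 182) (nat_lit 1) (nat_lit 183) (nat_lit 1) (nat_lit 276) (nat_lit 395) (nat_lit 349)) (XT.lf (nat_lit 76) (nat_lit 35527587289) (nat_lit 0) (nat_lit 5187649606) (nat_lit 152) (nat_lit 26339450235) (nat_lit 181) (nat_lit 1) (nat_lit 180) (nat_lit 1) (nat_lit 182) (nat_lit 1) (nat_lit 277) (nat_lit 395) (nat_lit 348)))) (XT.nd (nat_lit 156) (nat_lit 228) (nat_lit 0) (XT.nd (nat_lit 78) (nat_lit 152) (nat_lit 0) (XT.lf (nat_lit 0) (nat_lit 4776176327) (nat_lit 0) (nat_lit 37381230939) (nat_lit 152) (nat_lit 23157180579) (nat_lit 179) (nat_lit 3) (nat_lit 179) (nat_lit 1) (nat_lit 181) (nat_lit 1) (nat_lit 278) (nat_lit 395) (nat_lit 347)) (XT.lf (nat_lit 76) (nat_lit 38616748579) (nat_lit 0) (nat_lit 4937194977) (nat_lit 152) (nat_lit 20068615677) (nat_lit 178) (nat_lit 1) (nat_lit 177) (nat_lit 1) (nat_lit 179) (nat_lit 1) (nat_lit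 279) (nat_lit 395) (nat_lit 346))) (XT.nd (nat_lit 78) (nat_lit 152) (nat_lit 0) (XT.lf (nat_lit 0) (nat_lit 9124263752) (nat_lit 0) (nat_lit 35746719996) (nat_lit 152) (nat_lit 17104609409) (nat_lit 176) (nat_lit 3) (nat_lit 176) (nat_lit 1) (nat_lit 178) (nat_lit 1) (nat_lit 280) (nat_lit 395) (nat_lit 345)) (XT.lf (nat_lit 76) (nat_lit 41094998096) (nat_lit 0) (nat_lit 5112727717) (nat_lit 152) (nat_lit 14169330626) (nat_lit 175) (nat_lit 1) (nat_lit 174) (nat_lit 1) (nat_lit 176) (nat_lit 1) (nat_lit 281) (nat_lit 395) (nat_lit 344))))))))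
noncomputable def ec163 : XT := (XT.nd (nat_lit 2106) (nat_lit 3192) (nat_lit 0) (XT.nd (nat_lit 1014) (nat_lit 1748) (nat_lit 0) (XT.nd (nat_lit 468) (nat_lit 760) (nat_lit 0) (XT.nd (nat_lit 234) (nat_lit 456) (nat_lit 0) (XT.nd (nat_lit 78) (nat_lit 228) (nat_lit 0) (XT.lf (nat_lit 0) (nat_lit 12827699405) (nat_lit 0) (nat_lit 34565285339) (nat_lit 152) (nat_lit 11424493471) (nat_lit 173) (nat_lit 3) (nat_lit 173) (nat_lit 1) (nat_lit 175) (nat_lit 1) (nat_lit 282) (nat_lit 395) (nat_lit 343)) (XT.nd (nat_lit 78) (nat_lit 76) (nat_lit 0) (XT.lf (nat_lit 76) (nat_lit 43053880218) (nat_lit 0) (nat_lit 5595338500) (nat_lit 152) (nat_lit 8656950456) (nat_lit 172) (nat_lit 1) (nat_lit 171) (nat_lit 1) (nat_lit 173) (nat_lit 1) (nat_lit 283) (nat_lit 395) (nat_lit 342)) (XT.lf (nat_lit 0) (nat_lit 15975454502) (nat_lit 0) (nat_lit 33724479531) (nat_lit 152) (nat_lit 6128781989) (nat_lit 170) (nat_lit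 3) (nat_lit 170) (nat_lit 1) (nat_lit 172) (nat_lit 1) (nat_lit 284) (nat_lit 395) (nat_lit 341)))) (XT.nd (nat_lit 78) (nat_lit 304) (nat_lit 0) (XT.lf (nat_lit 76) (nat_lit 44570361528) (nat_lit 0) (nat_lit 6291117418) (nat_lit 152) (nat_lit 3537491725) (nat_lit 169) (nat_lit 1) (nat_lit 168) (nat_lit 1) (nat_lit 170) (nat_lit 1) (nat_lit 285) (nat_lit 395) (nat_lit 340)) (XT.nd (nat_lit 78) (nat_lit 228) (nat_lit 0) (XT.lf (nat_lit 0) (nat_lit 18642777470) (nat_lit 0) (nat_lit 33135090022) (nat_lit 152) (nat_lit 1220935299) (nat_lit 167) (nat_lit 3) (nat_lit 167) (nat_lit 1) (nat_lit 169) (nat_lit 1) (nat_lit 286) (nat_lit 395) (nat_lit 339)) (XT.lf (nat_lit 152) (nat_lit 44498970914) (nat_lit 0) (nat_lit 1229557915) (nat_lit 76) (nat_lit 5915986393) (nat_lit 166) (nat_lit 1) (nat_lit 164) (nat_lit 1) (nat_lit 165) (nat_lit 1) (nat_lit 287) (nat_lit 395) (nat_lit 338))))) (XT.nd (nat_lit 234)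 (nat_lit 456) (nat_lit 0) (XT.nd (nat_lit 78) (nat_lit 228) (nat_lit 0) (XT.lf (nat_lit 76) (nat_lit 17535517286) (nat_lit 0) (nat_lit 3411263998) (nat_lit 76) (nat_lit 29368681236) (nat_lit 164) (nat_lit 3) (nat_lit 163) (nat_lit 1) (nat_lit 164) (nat_lit 1) (nat_lit 288) (nat_lit 395) (nat_lit 337)) (XT.nd (nat_lit 78) (nat_lit 76) (nat_lit 0) (XT.lf (nat_lit 152) (nat_lit 40899224980) (nat_lit 0) (nat_lit 5715671833) (nat_lit 76) (nat_lit 2417159932) (nat_lit 163) (nat_lit 1) (nat_lit 161) (nat_lit 1) (nat_lit 162) (nat_lit 1) (nat_lit 289) (nat_lit 395) (nat_lit 336)) (XT.lf (nat_lit 76) (nat_lit 15207717866) (nat_lit 0) (nat_lit 7694474429) (nat_lit 76) (nat_lit 24869651981) (nat_lit 161) (nat_lit 3) (nat_lit 160) (nat_lit 1) (nat_lit 161) (nat_lit 1) (nat_lit 290) (nat_lit 395) (nat_lit 335)))) (XT.nd (nat_lit 156) (nat_lit 228) (nat_lit 0) (XT.nd (nat_lit 78) (nat_lit 76) (nat_lit 0) (XT.lf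 (nat_lit 0) (nat_lit 641892498) (nat_lit 0) (nat_lit 9162116586) (nat_lit 152) (nat_lit 36751471424) (nat_lit 158) (nat_lit 3) (nat_lit 158) (nat_lit 1) (nat_lit 160) (nat_lit 1) (nat_lit 291) (nat_lit 395) (nat_lit 334)) (XT.lf (nat_lit 76) (nat_lit 12935710931) (nat_lit 0) (nat_lit 11600258427) (nat_lit 76) (nat_lit 20824807308) (nat_lit 158) (nat_lit 3) (nat_lit 157) (nat_lit 1) (nat_lit 158) (nat_lit 1) (nat_lit 292) (nat_lit 395) (nat_lit 333))) (XT.nd (nat_lit 78) (nat_lit 76) (nat_lit 0) (XT.lf (nat_lit 0) (nat_lit 3264524479) (nat_lit 0) (nat_lit 10221399591) (nat_lit 152) (nat_lit 30719968881) (nat_lit 155) (nat_lit 3) (nat_lit 155) (nat_lit 1) (nat_lit 157) (nat_lit 1) (nat_lit 293) (nat_lit 395) (nat_lit 332)) (XT.lf (nat_lit 76) (nat_lit 10744963292) (nat_lit 0) (nat_lit 15143231806) (nat_lit 76) (nat_lit 17186514321) (nat_lit 155) (nat_lit 3) (nat_lit 154) (nat_lit 1) (nat_lit 155)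 (nat_lit 1) (nat_lit 294) (nat_lit 395) (nat_lit 331)))))) (XT.nd (nat_lit 546) (nat_lit 912) (nat_lit 0) (XT.nd (nat_lit 234) (nat_lit 456) (nat_lit 0) (XT.nd (nat_lit 78) (nat_lit 228) (nat_lit 0) (XT.lf (nat_lit 0) (nat_lit 5568067504) (nat_lit 0) (nat_lit 11248447601) (nat_lit 152) (nat_lit 25161385495) (nat_lit 152) (nat_lit 3) (nat_lit 152) (nat_lit 1) (nat_lit 154) (nat_lit 1) (nat_lit 295) (nat_lit 395) (nat_lit 330)) (XT.nd (nat_lit 78) (nat_lit 152) (nat_lit 0) (XT.lf (nat_lit 76) (nat_lit 8653581444) (nat_lit 0) (nat_lit 18339857919) (nat_lit 76) (nat_lit 13913192645) (nat_lit 152) (nat_lit 3) (nat_lit 151) (nat_lit 1) (nat_lit 152) (nat_lit 1) (nat_lit 296) (nat_lit 395) (nat_lit 329)) (XT.lf (nat_lit 0) (nat_lit 7587318579) (nat_lit 0) (nat_lit 12225423694) (nat_lit 152) (nat_lit 20051990823) (nat_lit 149) (nat_lit 3) (nat_lit 149) (nat_lit 1) (nat_lit 151) (nat_lit 1) (nat_lit 297)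 (nat_lit 395) (nat_lit 328)))) (XT.nd (nat_lit 156) (nat_lit 228) (nat_lit 0) (XT.nd (nat_lit 78) (nat_lit 152) (nat_lit 0) (XT.lf (nat_lit 76) (nat_lit 6673844153) (nat_lit 0) (nat_lit 21207787369) (nat_lit 76) (nat_lit 10968385926) (nat_lit 149) (nat_lit 3) (nat_lit 148) (nat_lit 1) (nat_lit 149) (nat_lit 1) (nat_lit 298) (nat_lit 395) (nat_lit 327)) (XT.lf (nat_lit 0) (nat_lit 9352699194) (nat_lit 0) (nat_lit 13139773068) (nat_lit 152) (nat_lit 15367606135) (nat_lit 146) (nat_lit 3) (nat_lit 146) (nat_lit 1) (nat_lit 148) (nat_lit 1) (nat_lit 299) (nat_lit 395) (nat_lit 326))) (XT.nd (nat_lit 78) (nat_lit 152) (nat_lit 0) (XT.lf (nat_lit 76) (nat_lit 4813442195) (nat_lit 0) (nat_lit 23765339974) (nat_lit 76) (nat_lit 8319992079) (nat_lit 146) (nat_lit 3) (nat_lit 145) (nat_lit 1) (nat_lit 146) (nat_lit 1) (nat_lit 300) (nat_lit 395) (nat_lit 325)) (XT.lf (nat_lit 0) (nat_lit 10890914386) (nat_lit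 0) (nat_lit 13983110050) (nat_lit 152) (nat_lit 11084013994) (nat_lit 143) (nat_lit 3) (nat_lit 143) (nat_lit 1) (nat_lit 145) (nat_lit 1) (nat_lit 301) (nat_lit 395) (nat_lit 324))))) (XT.nd (nat_lit 234) (nat_lit 608) (nat_lit 0) (XT.nd (nat_lit 78) (nat_lit 228) (nat_lit 0) (XT.lf (nat_lit 76) (nat_lit 3076479711) (nat_lit 0) (nat_lit 26031101531) (nat_lit 76) (nat_lit 5939623845) (nat_lit 143) (nat_lit 3) (nat_lit 142) (nat_lit 1) (nat_lit 143) (nat_lit 1) (nat_lit 302) (nat_lit 395) (nat_lit 323)) (XT.nd (nat_lit 78) (nat_lit 76) (nat_lit 0) (XT.lf (nat_lit 0) (nat_lit 12225500341) (nat_lit 0) (nat_lit 14750318801) (nat_lit 152) (nat_lit 7177271698) (nat_lit 140) (nat_lit 3) (nat_lit 140) (nat_lit 1) (nat_lit 142) (nat_lit 1) (nat_lit 303) (nat_lit 395) (nat_lit 322)) (XT.lf (nat_lit 76) (nat_lit 1464281575) (nat_lit 0) (nat_lit 28023613103) (nat_lit 76) (nat_lit 3802076445) (nat_lit 140)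 (nat_lit 3) (nat_lit 139) (nat_lit 1) (nat_lit 140) (nat_lit 1) (nat_lit 304) (nat_lit 395) (nat_lit 321)))) (XT.nd (nat_lit 156) (nat_lit 304) (nat_lit 0) (XT.nd (nat_lit 78) (nat_lit 152) (nat_lit 0) (XT.lf (nat_lit 0) (nat_lit 13377280418) (nat_lit 0) (nat_lit 15438827923) (nat_lit 152) (nat_lit 3623947501) (nat_lit 137) (nat_lit 3) (nat_lit 137) (nat_lit 1) (nat_lit 139) (nat_lit 1) (nat_lit 305) (nat_lit 395) (nat_lit 320)) (XT.lf (nat_lit 76) (nat_lit 29737551719) (nat_lit 0) (nat_lit 23190212) (nat_lit 152) (nat_lit 1861300346) (nat_lit 136) (nat_lit 1) (nat_lit 135) (nat_lit 1) (nat_lit 137) (nat_lit 1) (nat_lit 306) (nat_lit 395) (nat_lit 319))) (XT.nd (nat_lit 78) (nat_lit 228) (nat_lit 0) (XT.lf (nat_lit 0) (nat_lit 14364745820) (nat_lit 0) (nat_lit 16048026493) (nat_lit 152) (nat_lit 401295027) (nat_lit 134) (nat_lit 3) (nat_lit 134) (nat_lit 1) (nat_lit 136) (nat_lit 1) (nat_lit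 307) (nat_lit 395) (nat_lit 318)) (XT.lf (nat_lit 152) (nat_lit 28671199140) (nat_lit 0) (nat_lit 1240703068) (nat_lit 76) (nat_lit 124807313) (nat_lit 133) (nat_lit 1) (nat_lit 131) (nat_lit 1) (nat_lit 132) (nat_lit 1) (nat_lit 308) (nat_lit 395) (nat_lit 317))))))) (XT.nd (nat_lit 1014) (nat_lit 1748) (nat_lit 0) (XT.nd (nat_lit 468) (nat_lit 760) (nat_lit 0) (XT.nd (nat_lit 234) (nat_lit 380) (nat_lit 0) (XT.nd (nat_lit 78) (nat_lit 228) (nat_lit 0) (XT.lf (nat_lit 76) (nat_lit 12649200099) (nat_lit 0) (nat_lit 2595700275) (nat_lit 76) (nat_lit 14023620923) (nat_lit 131) (nat_lit 3) (nat_lit 130) (nat_lit 1) (nat_lit 131) (nat_lit 1) (nat_lit 309) (nat_lit 395) (nat_lit 316)) (XT.nd (nat_lit 78) (nat_lit 76) (nat_lit 0) (XT.lf (nat_lit 0) (nat_lit 1429924376) (nat_lit 0) (nat_lit 2641935685) (nat_lit 152) (nat_lit 24457373545) (nat_lit 128) (nat_lit 3) (nat_lit 128) (nat_lit 1) (nat_lit 130)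 (nat_lit 1) (nat_lit 310) (nat_lit 395) (nat_lit 315)) (XT.lf (nat_lit 76) (nat_lit 10685026268) (nat_lit 0) (nat_lit 5308755506) (nat_lit 76) (nat_lit 11807258962) (nat_lit 128) (nat_lit 3) (nat_lit 127) (nat_lit 1) (nat_lit 128) (nat_lit 1) (nat_lit 311) (nat_lit 395) (nat_lit 314)))) (XT.nd (nat_lit 78) (nat_lit 228) (nat_lit 0) (XT.lf (nat_lit 0) (nat_lit 2813666127) (nat_lit 0) (nat_lit 3803289314) (nat_lit 152) (nat_lit 20481151561) (nat_lit 125) (nat_lit 3) (nat_lit 125) (nat_lit 1) (nat_lit 127) (nat_lit 1) (nat_lit 312) (nat_lit 395) (nat_lit 313)) (XT.nd (nat_lit 78) (nat_lit 152) (nat_lit 0) (XT.lf (nat_lit 76) (nat_lit 8873097609) (nat_lit 0) (nat_lit 7745354709) (nat_lit 76) (nat_lit 9789415375) (nat_lit 125) (nat_lit 3) (nat_lit 124) (nat_lit 1) (nat_lit 125) (nat_lit 1) (nat_lit 313) (nat_lit 395) (nat_lit 312)) (XT.lf (nat_lit 0) (nat_lit 4045029417) (nat_lit 0) (nat_lit 4853069774)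 (nat_lit 152) (nat_lit 16841354394) (nat_lit 122) (nat_lit 3) (nat_lit 122) (nat_lit 1) (nat_lit 124) (nat_lit 1) (nat_lit 314) (nat_lit 395) (nat_lit 311))))) (XT.nd (nat_lit 234) (nat_lit 456) (nat_lit 0) (XT.nd (nat_lit 78) (nat_lit 228) (nat_lit 0) (XT.lf (nat_lit 76) (nat_lit 7205864047) (nat_lit 0) (nat_lit 9925236423) (nat_lit 76) (nat_lit 7954049563) (nat_lit 122) (nat_lit 3) (nat_lit 121) (nat_lit 1) (nat_lit 122) (nat_lit 1) (nat_lit 315) (nat_lit 395) (nat_lit 310)) (XT.nd (nat_lit 78) (nat_lit 76) (nat_lit 0) (XT.lf (nat_lit 0) (nat_lit 5137283425) (nat_lit 0) (nat_lit 5797059012) (nat_lit 152) (nat_lit 13515179159) (nat_lit 119) (nat_lit 3) (nat_lit 119) (nat_lit 1) (nat_lit 121) (nat_lit 1) (nat_lit 316) (nat_lit 395) (nat_lit 309)) (XT.lf (nat_lit 76) (nat_lit 5675616394) (nat_lit 0) (nat_lit 11867113179) (nat_lit 76) (nat_lit 6286519716) (nat_lit 119) (nat_lit 3) (nat_lit 118)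 (nat_lit 1) (nat_lit 119) (nat_lit 1) (nat_lit 317) (nat_lit 395) (nat_lit 308)))) (XT.nd (nat_lit 156) (nat_lit 228) (nat_lit 0) (XT.nd (nat_lit 78) (nat_lit 76) (nat_lit 0) (XT.lf (nat_lit 0) (nat_lit 6102502097) (nat_lit 0) (nat_lit 6641217549) (nat_lit 152) (nat_lit 10481046456) (nat_lit 116) (nat_lit 3) (nat_lit 116) (nat_lit 1) (nat_lit 118) (nat_lit 1) (nat_lit 318) (nat_lit 395) (nat_lit 307)) (XT.lf (nat_lit 76) (nat_lit 4274620526) (nat_lit 0) (nat_lit 13588674785) (nat_lit 76) (nat_lit 4773431129) (nat_lit 116) (nat_lit 3) (nat_lit 115) (nat_lit 1) (nat_lit 116) (nat_lit 1) (nat_lit 319) (nat_lit 395) (nat_lit 306))) (XT.nd (nat_lit 78) (nat_lit 76) (nat_lit 0) (XT.lf (nat_lit 0) (nat_lit 6951694853) (nat_lit 0) (nat_lit 7391563109) (nat_lit 152) (nat_lit 7718577492) (nat_lit 113) (nat_lit 3) (nat_lit 113) (nat_lit 1) (nat_lit 115) (nat_lit 1) (nat_lit 320) (nat_lit 395) (nat_lit 305))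 (XT.lf (nat_lit 76) (nat_lit 2995220213) (nat_lit 0) (nat_lit 15106603180) (nat_lit 76) (nat_lit 3402505635) (nat_lit 113) (nat_lit 3) (nat_lit 112) (nat_lit 1) (nat_lit 113) (nat_lit 1) (nat_lit 321) (nat_lit 395) (nat_lit 304)))))) (XT.nd (nat_lit 546) (nat_lit 836) (nat_lit 0) (XT.nd (nat_lit 234) (nat_lit 532) (nat_lit 0) (XT.nd (nat_lit 78) (nat_lit 228) (nat_lit 0) (XT.lf (nat_lit 0) (nat_lit 7694919144) (nat_lit 0) (nat_lit 8054077365) (nat_lit 152) (nat_lit 5208562483) (nat_lit 110) (nat_lit 3) (nat_lit 110) (nat_lit 1) (nat_lit 112) (nat_lit 1) (nat_lit 322) (nat_lit 395) (nat_lit 303)) (XT.nd (nat_lit 78) (nat_lit 152) (nat_lit 0) (XT.lf (nat_lit 76) (nat_lit 1829914771) (nat_lit 0) (nat_lit 16436595962) (nat_lit 76) (nat_lit 2162468680) (nat_lit 110) (nat_lit 3) (nat_lit 109) (nat_lit 1) (nat_lit 110) (nat_lit 1) (nat_lit 323) (nat_lit 395) (nat_lit 302)) (XT.lf (nat_lit 0) (nat_lit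 8341377841) (nat_lit 0) (nat_lit 8634635255) (nat_lit 152) (nat_lit 2932922726) (nat_lit 107) (nat_lit 3) (nat_lit 107) (nat_lit 1) (nat_lit 109) (nat_lit 1) (nat_lit 324) (nat_lit 395) (nat_lit 301)))) (XT.nd (nat_lit 156) (nat_lit 304) (nat_lit 0) (XT.nd (nat_lit 78) (nat_lit 152) (nat_lit 0) (XT.lf (nat_lit 76) (nat_lit 771416564) (nat_lit 0) (nat_lit 17593396299) (nat_lit 76) (nat_lit 1042951207) (nat_lit 107) (nat_lit 3) (nat_lit 106) (nat_lit 1) (nat_lit 107) (nat_lit 1) (nat_lit 325) (nat_lit 395) (nat_lit 300)) (XT.lf (nat_lit 0) (nat_lit 8899503871) (nat_lit 0) (nat_lit 9138952410) (nat_lit 152) (nat_lit 874668252) (nat_lit 104) (nat_lit 3) (nat_lit 104) (nat_lit 1) (nat_lit 106) (nat_lit 1) (nat_lit 326) (nat_lit 395) (nat_lit 299))) (XT.nd (nat_lit 78) (nat_lit 76) (nat_lit 0) (XT.lf (nat_lit 152) (nat_lit 18253924948) (nat_lit 0) (nat_lit 154938214) (nat_lit 76) (nat_lit 28793407)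 (nat_lit 103) (nat_lit 1) (nat_lit 101) (nat_lit 1) (nat_lit 102) (nat_lit 1) (nat_lit 327) (nat_lit 395) (nat_lit 298)) (XT.lf (nat_lit 76) (nat_lit 8378253582) (nat_lit 0) (nat_lit 1014621645) (nat_lit 76) (nat_lit 8573766466) (nat_lit 101) (nat_lit 3) (nat_lit 100) (nat_lit 1) (nat_lit 101) (nat_lit 1) (nat_lit 328) (nat_lit 395) (nat_lit 297))))) (XT.nd (nat_lit 234) (nat_lit 456) (nat_lit 0) (XT.nd (nat_lit 78) (nat_lit 228) (nat_lit 0) (XT.lf (nat_lit 0) (nat_lit 892066321) (nat_lit 0) (nat_lit 1064476272) (nat_lit 152) (nat_lit 15557221190) (nat_lit 98) (nat_lit 3) (nat_lit 98) (nat_lit 1) (nat_lit 100) (nat_lit 1) (nat_lit 329) (nat_lit 395) (nat_lit 296)) (XT.nd (nat_lit 78) (nat_lit 152) (nat_lit 0) (XT.lf (nat_lit 76) (nat_lit 7083679223) (nat_lit 0) (nat_lit 2740177000) (nat_lit 76) (nat_lit 7243318066) (nat_lit 98) (nat_lit 3) (nat_lit 97) (nat_lit 1) (nat_lit 98) (nat_lit 1) (nat_lit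 330) (nat_lit 395) (nat_lit 295)) (XT.lf (nat_lit 0) (nat_lit 1716662157) (nat_lit 0) (nat_lit 1857437151) (nat_lit 152) (nat_lit 13062321964) (nat_lit 95) (nat_lit 3) (nat_lit 95) (nat_lit 1) (nat_lit 97) (nat_lit 1) (nat_lit 331) (nat_lit 395) (nat_lit 294)))) (XT.nd (nat_lit 156) (nat_lit 228) (nat_lit 0) (XT.nd (nat_lit 78) (nat_lit 152) (nat_lit 0) (XT.lf (nat_lit 76) (nat_lit 5897555457) (nat_lit 0) (nat_lit 4287541407) (nat_lit 76) (nat_lit 6027902673) (nat_lit 95) (nat_lit 3) (nat_lit 94) (nat_lit 1) (nat_lit 95) (nat_lit 1) (nat_lit 332) (nat_lit 395) (nat_lit 293)) (XT.lf (nat_lit 0) (nat_lit 2453501242) (nat_lit 0) (nat_lit 2568445878) (nat_lit 152) (nat_lit 10781334371) (nat_lit 92) (nat_lit 3) (nat_lit 92) (nat_lit 1) (nat_lit 94) (nat_lit 1) (nat_lit 333) (nat_lit 395) (nat_lit 292))) (XT.nd (nat_lit 78) (nat_lit 152) (nat_lit 0) (XT.lf (nat_lit 76) (nat_lit 4812568689) (nat_lit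 0) (nat_lit 5670248117) (nat_lit 76) (nat_lit 4918998907) (nat_lit 92) (nat_lit 3) (nat_lit 91) (nat_lit 1) (nat_lit 92) (nat_lit 1) (nat_lit 334) (nat_lit 395) (nat_lit 291)) (XT.lf (nat_lit 0) (nat_lit 3109600331) (nat_lit 0) (nat_lit 3203454138) (nat_lit 152) (nat_lit 8699043183) (nat_lit 89) (nat_lit 3) (nat_lit 89) (nat_lit 1) (nat_lit 91) (nat_lit 1) (nat_lit 335) (nat_lit 395) (nat_lit 290))))))))
noncomputable def ec164 : XT := (XT.nd (nat_lit 2028) (nat_lit 3344) (nat_lit 0) (XT.nd (nat_lit 1014) (nat_lit 1444) (nat_lit 0) (XT.nd (nat_lit 468) (nat_lit 912) (nat_lit 0) (XT.nd (nat_lit 234) (nat_lit 380) (nat_lit 0) (XT.nd (nat_lit 78) (nat_lit 228) (nat_lit 0) (XT.lf (nat_lit 76) (nat_lit 3821795218) (nat_lit 0) (nat_lit 6900948380) (nat_lit 76) (nat_lit 3908696892) (nat_lit 89) (nat_lit 3) (nat_lit 88) (nat_lit 1) (nat_lit 89) (nat_lit 1) (nat_lit 336) (nat_lit 395) (nat_lit 289)) (XT.nd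 (nat_lit 78) (nat_lit 76) (nat_lit 0) (XT.lf (nat_lit 0) (nat_lit 3691453298) (nat_lit 0) (nat_lit 3768086168) (nat_lit 152) (nat_lit 6801199935) (nat_lit 86) (nat_lit 3) (nat_lit 86) (nat_lit 1) (nat_lit 88) (nat_lit 1) (nat_lit 337) (nat_lit 395) (nat_lit 288)) (XT.lf (nat_lit 76) (nat_lit 2918694359) (nat_lit 0) (nat_lit 7991459304) (nat_lit 76) (nat_lit 2989650719) (nat_lit 86) (nat_lit 3) (nat_lit 85) (nat_lit 1) (nat_lit 86) (nat_lit 1) (nat_lit 338) (nat_lit 395) (nat_lit 287)))) (XT.nd (nat_lit 78) (nat_lit 228) (nat_lit 0) (XT.lf (nat_lit 0) (nat_lit 4205072485) (nat_lit 0) (nat_lit 4267644232) (nat_lit 152) (nat_lit 5074469721) (nat_lit 83) (nat_lit 3) (nat_lit 83) (nat_lit 1) (nat_lit 85) (nat_lit 1) (nat_lit 339) (nat_lit 395) (nat_lit 286)) (XT.nd (nat_lit 78) (nat_lit 152) (nat_lit 0) (XT.lf (nat_lit 76) (nat_lit 2097098686) (nat_lit 0) (nat_lit 8952810433) (nat_lit 76) (nat_lit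 2155035488) (nat_lit 83) (nat_lit 3) (nat_lit 82) (nat_lit 1) (nat_lit 83) (nat_lit 1) (nat_lit 340) (nat_lit 395) (nat_lit 285)) (XT.lf (nat_lit 0) (nat_lit 4656026054) (nat_lit 0) (nat_lit 4707116709) (nat_lit 152) (nat_lit 3506379803) (nat_lit 80) (nat_lit 3) (nat_lit 80) (nat_lit 1) (nat_lit 82) (nat_lit 1) (nat_lit 341) (nat_lit 395) (nat_lit 284))))) (XT.nd (nat_lit 234) (nat_lit 608) (nat_lit 0) (XT.nd (nat_lit 78) (nat_lit 228) (nat_lit 0) (XT.lf (nat_lit 76) (nat_lit 1351202182) (nat_lit 0) (nat_lit 9795288794) (nat_lit 76) (nat_lit 1398508344) (nat_lit 80) (nat_lit 3) (nat_lit 79) (nat_lit 1) (nat_lit 80) (nat_lit 1) (nat_lit 342) (nat_lit 395) (nat_lit 283)) (XT.nd (nat_lit 78) (nat_lit 76) (nat_lit 0) (XT.lf (nat_lit 0) (nat_lit 5049471860) (nat_lit 0) (nat_lit 5091188051) (nat_lit 152) (nat_lit 2085270181) (nat_lit 77) (nat_lit 3) (nat_lit 77) (nat_lit 1) (nat_lit 79) (nat_lit 1)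 (nat_lit 343) (nat_lit 395) (nat_lit 282)) (XT.lf (nat_lit 76) (nat_lit 675546927) (nat_lit 0) (nat_lit 10528482267) (nat_lit 76) (nat_lit 714173031) (nat_lit 77) (nat_lit 3) (nat_lit 76) (nat_lit 1) (nat_lit 77) (nat_lit 1) (nat_lit 344) (nat_lit 395) (nat_lit 281)))) (XT.nd (nat_lit 156) (nat_lit 380) (nat_lit 0) (XT.nd (nat_lit 78) (nat_lit 76) (nat_lit 0) (XT.lf (nat_lit 0) (nat_lit 5390188264) (nat_lit 0) (nat_lit 5424250084) (nat_lit 152) (nat_lit 800246224) (nat_lit 74) (nat_lit 3) (nat_lit 74) (nat_lit 1) (nat_lit 76) (nat_lit 1) (nat_lit 345) (nat_lit 395) (nat_lit 280)) (XT.lf (nat_lit 76) (nat_lit 65008800) (nat_lit 0) (nat_lit 11161321165) (nat_lit 76) (nat_lit 96547522) (nat_lit 74) (nat_lit 3) (nat_lit 73) (nat_lit 1) (nat_lit 74) (nat_lit 1) (nat_lit 346) (nat_lit 395) (nat_lit 279))) (XT.nd (nat_lit 78) (nat_lit 152) (nat_lit 0) (XT.lf (nat_lit 76) (nat_lit 5317658113) (nat_lit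 0) (nat_lit 370732315) (nat_lit 76) (nat_lit 5345470037) (nat_lit 71) (nat_lit 3) (nat_lit 70) (nat_lit 1) (nat_lit 71) (nat_lit 1) (nat_lit 347) (nat_lit 395) (nat_lit 278)) (XT.lf (nat_lit 0) (nat_lit 467822051) (nat_lit 0) (nat_lit 492347557) (nat_lit 152) (nat_lit 9795753561) (nat_lit 68) (nat_lit 3) (nat_lit 68) (nat_lit 1) (nat_lit 70) (nat_lit 1) (nat_lit 348) (nat_lit 395) (nat_lit 277)))))) (XT.nd (nat_lit 468) (nat_lit 760) (nat_lit 0) (XT.nd (nat_lit 234) (nat_lit 380) (nat_lit 0) (XT.nd (nat_lit 78) (nat_lit 228) (nat_lit 0) (XT.lf (nat_lit 76) (nat_lit 4505513328) (nat_lit 0) (nat_lit 1447907759) (nat_lit 76) (nat_lit 4528222131) (nat_lit 68) (nat_lit 3) (nat_lit 67) (nat_lit 1) (nat_lit 68) (nat_lit 1) (nat_lit 349) (nat_lit 395) (nat_lit 276)) (XT.nd (nat_lit 78) (nat_lit 76) (nat_lit 0) (XT.lf (nat_lit 0) (nat_lit 974994245) (nat_lit 0) (nat_lit 995019643) (nat_lit 152) (nat_lit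 8247249992) (nat_lit 65) (nat_lit 3) (nat_lit 65) (nat_lit 1) (nat_lit 67) (nat_lit 1) (nat_lit 350) (nat_lit 395) (nat_lit 275)) (XT.lf (nat_lit 76) (nat_lit 3762340505) (nat_lit 0) (nat_lit 2413974783) (nat_lit 76) (nat_lit 3780882541) (nat_lit 65) (nat_lit 3) (nat_lit 64) (nat_lit 1) (nat_lit 65) (nat_lit 1) (nat_lit 351) (nat_lit 395) (nat_lit 274)))) (XT.nd (nat_lit 78) (nat_lit 228) (nat_lit 0) (XT.lf (nat_lit 0) (nat_lit 1428869438) (nat_lit 0) (nat_lit 1445220439) (nat_lit 152) (nat_lit 6831622454) (nat_lit 62) (nat_lit 3) (nat_lit 62) (nat_lit 1) (nat_lit 64) (nat_lit 1) (nat_lit 352) (nat_lit 395) (nat_lit 273)) (XT.nd (nat_lit 78) (nat_lit 152) (nat_lit 0) (XT.lf (nat_lit 76) (nat_lit 3083254408) (nat_lit 0) (nat_lit 3277470905) (nat_lit 76) (nat_lit 3098394224) (nat_lit 62) (nat_lit 3) (nat_lit 61) (nat_lit 1) (nat_lit 62) (nat_lit 1) (nat_lit 353) (nat_lit 395) (nat_lit 272)) (XT.lf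 (nat_lit 0) (nat_lit 1833608113) (nat_lit 0) (nat_lit 1846958921) (nat_lit 152) (nat_lit 5539329516) (nat_lit 59) (nat_lit 3) (nat_lit 59) (nat_lit 1) (nat_lit 61) (nat_lit 1) (nat_lit 354) (nat_lit 395) (nat_lit 271))))) (XT.nd (nat_lit 234) (nat_lit 456) (nat_lit 0) (XT.nd (nat_lit 78) (nat_lit 228) (nat_lit 0) (XT.lf (nat_lit 76) (nat_lit 2463679307) (nat_lit 0) (nat_lit 4046354777) (nat_lit 76) (nat_lit 2476041166) (nat_lit 59) (nat_lit 3) (nat_lit 58) (nat_lit 1) (nat_lit 59) (nat_lit 1) (nat_lit 355) (nat_lit 395) (nat_lit 270)) (XT.nd (nat_lit 78) (nat_lit 76) (nat_lit 0) (XT.lf (nat_lit 0) (nat_lit 2193079012) (nat_lit 0) (nat_lit 2203980122) (nat_lit 152) (nat_lit 4361455444) (nat_lit 56) (nat_lit 3) (nat_lit 56) (nat_lit 1) (nat_lit 58) (nat_lit 1) (nat_lit 356) (nat_lit 395) (nat_lit 269)) (XT.lf (nat_lit 76) (nat_lit 1899332012) (nat_lit 0) (nat_lit 4728042174) (nat_lit 76) (nat_lit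 1909425633) (nat_lit 56) (nat_lit 3) (nat_lit 55) (nat_lit 1) (nat_lit 56) (nat_lit 1) (nat_lit 357) (nat_lit 395) (nat_lit 268)))) (XT.nd (nat_lit 156) (nat_lit 228) (nat_lit 0) (XT.nd (nat_lit 78) (nat_lit 76) (nat_lit 0) (XT.lf (nat_lit 0) (nat_lit 2510879026) (nat_lit 0) (nat_lit 2519779926) (nat_lit 152) (nat_lit 3289671885) (nat_lit 53) (nat_lit 3) (nat_lit 53) (nat_lit 1) (nat_lit 55) (nat_lit 1) (nat_lit 358) (nat_lit 395) (nat_lit 267)) (XT.lf (nat_lit 76) (nat_lit 1386205476) (nat_lit 0) (nat_lit 5329439988) (nat_lit 76) (nat_lit 1394447051) (nat_lit 53) (nat_lit 3) (nat_lit 52) (nat_lit 1) (nat_lit 53) (nat_lit 1) (nat_lit 359) (nat_lit 395) (nat_lit 266))) (XT.nd (nat_lit 78) (nat_lit 76) (nat_lit 0) (XT.lf (nat_lit 0) (nat_lit 2790351651) (nat_lit 0) (nat_lit 2797619353) (nat_lit 152) (nat_lit 2316201688) (nat_lit 50) (nat_lit 3) (nat_lit 50) (nat_lit 1) (nat_lit 52) (nat_lit 1)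 (nat_lit 360) (nat_lit 395) (nat_lit 265)) (XT.lf (nat_lit 76) (nat_lit 920553016) (nat_lit 0) (nat_lit 5856978321) (nat_lit 76) (nat_lit 927282370) (nat_lit 50) (nat_lit 3) (nat_lit 49) (nat_lit 1) (nat_lit 50) (nat_lit 1) (nat_lit 361) (nat_lit 395) (nat_lit 264))))))) (XT.nd (nat_lit 1014) (nat_lit 1748) (nat_lit 0) (XT.nd (nat_lit 468) (nat_lit 760) (nat_lit 0) (XT.nd (nat_lit 234) (nat_lit 456) (nat_lit 0) (XT.nd (nat_lit 78) (nat_lit 228) (nat_lit 0) (XT.lf (nat_lit 0) (nat_lit 3034604130) (nat_lit 0) (nat_lit 3040538304) (nat_lit 152) (nat_lit 1433784764) (nat_lit 47) (nat_lit 3) (nat_lit 47) (nat_lit 1) (nat_lit 49) (nat_lit 1) (nat_lit 362) (nat_lit 395) (nat_lit 263)) (XT.nd (nat_lit 78) (nat_lit 152) (nat_lit 0) (XT.lf (nat_lit 76) (nat_lit 498873185) (nat_lit 0) (nat_lit 6316640733) (nat_lit 76) (nat_lit 504367791) (nat_lit 47) (nat_lit 3) (nat_lit 46) (nat_lit 1) (nat_lit 47) (nat_lit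 1) (nat_lit 363) (nat_lit 395) (nat_lit 262)) (XT.lf (nat_lit 0) (nat_lit 3246523398) (nat_lit 0) (nat_lit 3251368730) (nat_lit 152) (nat_lit 635645897) (nat_lit 44) (nat_lit 3) (nat_lit 44) (nat_lit 1) (nat_lit 46) (nat_lit 1) (nat_lit 364) (nat_lit 395) (nat_lit 261)))) (XT.nd (nat_lit 78) (nat_lit 380) (nat_lit 0) (XT.lf (nat_lit 76) (nat_lit 117895314) (nat_lit 0) (nat_lit 6713992745) (nat_lit 76) (nat_lit 122381732) (nat_lit 44) (nat_lit 3) (nat_lit 43) (nat_lit 1) (nat_lit 44) (nat_lit 1) (nat_lit 365) (nat_lit 395) (nat_lit 260)) (XT.nd (nat_lit 78) (nat_lit 152) (nat_lit 0) (XT.lf (nat_lit 76) (nat_lit 3342823693) (nat_lit 0) (nat_lit 87330706) (nat_lit 76) (nat_lit 3346779970) (nat_lit 41) (nat_lit 3) (nat_lit 40) (nat_lit 1) (nat_lit 41) (nat_lit 1) (nat_lit 366) (nat_lit 395) (nat_lit 259)) (XT.lf (nat_lit 0) (nat_lit 225523875) (nat_lit 0) (nat_lit 229012655) (nat_lit 152) (nat_lit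 6151751172) (nat_lit 38) (nat_lit 3) (nat_lit 38) (nat_lit 1) (nat_lit 40) (nat_lit 1) (nat_lit 367) (nat_lit 395) (nat_lit 258))))) (XT.nd (nat_lit 234) (nat_lit 456) (nat_lit 0) (XT.nd (nat_lit 78) (nat_lit 228) (nat_lit 0) (XT.lf (nat_lit 76) (nat_lit 2838834333) (nat_lit 0) (nat_lit 756879200) (nat_lit 76) (nat_lit 2842064685) (nat_lit 38) (nat_lit 3) (nat_lit 37) (nat_lit 1) (nat_lit 38) (nat_lit 1) (nat_lit 368) (nat_lit 395) (nat_lit 257)) (XT.nd (nat_lit 78) (nat_lit 76) (nat_lit 0) (XT.lf (nat_lit 0) (nat_lit 539774454) (nat_lit 0) (nat_lit 542623089) (nat_lit 152) (nat_lit 5193055539) (nat_lit 35) (nat_lit 3) (nat_lit 35) (nat_lit 1) (nat_lit 37) (nat_lit 1) (nat_lit 369) (nat_lit 395) (nat_lit 256)) (XT.lf (nat_lit 76) (nat_lit 2377688622) (nat_lit 0) (nat_lit 1357659529) (nat_lit 76) (nat_lit 2380326247) (nat_lit 35) (nat_lit 3) (nat_lit 34) (nat_lit 1) (nat_lit 35) (nat_lit 1) (nat_lit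 370) (nat_lit 395) (nat_lit 255)))) (XT.nd (nat_lit 156) (nat_lit 228) (nat_lit 0) (XT.nd (nat_lit 78) (nat_lit 76) (nat_lit 0) (XT.lf (nat_lit 0) (nat_lit 821236492) (nat_lit 0) (nat_lit 823562440) (nat_lit 152) (nat_lit 4316464772) (nat_lit 32) (nat_lit 3) (nat_lit 32) (nat_lit 1) (nat_lit 34) (nat_lit 1) (nat_lit 371) (nat_lit 395) (nat_lit 254)) (XT.lf (nat_lit 76) (nat_lit 1956322423) (nat_lit 0) (nat_lit 1894962767) (nat_lit 76) (nat_lit 1958476079) (nat_lit 32) (nat_lit 3) (nat_lit 31) (nat_lit 1) (nat_lit 32) (nat_lit 1) (nat_lit 372) (nat_lit 395) (nat_lit 253))) (XT.nd (nat_lit 78) (nat_lit 76) (nat_lit 0) (XT.lf (nat_lit 0) (nat_lit 1072451499) (nat_lit 0) (nat_lit 1074350667) (nat_lit 152) (nat_lit 3516075762) (nat_lit 29) (nat_lit 3) (nat_lit 29) (nat_lit 1) (nat_lit 31) (nat_lit 1) (nat_lit 373) (nat_lit 395) (nat_lit 252)) (XT.lf (nat_lit 76) (nat_lit 1571872068) (nat_lit 0) (nat_lit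 2373718358) (nat_lit 76) (nat_lit 1573630556) (nat_lit 29) (nat_lit 3) (nat_lit 28) (nat_lit 1) (nat_lit 29) (nat_lit 1) (nat_lit 374) (nat_lit 395) (nat_lit 251)))))) (XT.nd (nat_lit 546) (nat_lit 912) (nat_lit 0) (XT.nd (nat_lit 234) (nat_lit 456) (nat_lit 0) (XT.nd (nat_lit 78) (nat_lit 228) (nat_lit 0) (XT.lf (nat_lit 0) (nat_lit 1295785593) (nat_lit 0) (nat_lit 1297336288) (nat_lit 152) (nat_lit 2786375033) (nat_lit 26) (nat_lit 3) (nat_lit 26) (nat_lit 1) (nat_lit 28) (nat_lit 1) (nat_lit 375) (nat_lit 395) (nat_lit 250)) (XT.nd (nat_lit 78) (nat_lit 152) (nat_lit 0) (XT.lf (nat_lit 76) (nat_lit 1221662102) (nat_lit 0) (nat_lit 2798517195) (nat_lit 76) (nat_lit 1223097931) (nat_lit 26) (nat_lit 3) (nat_lit 25) (nat_lit 1) (nat_lit 26) (nat_lit 1) (nat_lit 376) (nat_lit 395) (nat_lit 249)) (XT.lf (nat_lit 0) (nat_lit 1493440949) (nat_lit 0) (nat_lit 1494707112) (nat_lit 152) (nat_lit 2122214361)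 (nat_lit 23) (nat_lit 3) (nat_lit 23) (nat_lit 1) (nat_lit 25) (nat_lit 1) (nat_lit 377) (nat_lit 395) (nat_lit 248)))) (XT.nd (nat_lit 156) (nat_lit 228) (nat_lit 0) (XT.nd (nat_lit 78) (nat_lit 152) (nat_lit 0) (XT.lf (nat_lit 76) (nat_lit 903193717) (nat_lit 0) (nat_lit 3173633312) (nat_lit 76) (nat_lit 904366090) (nat_lit 23) (nat_lit 3) (nat_lit 22) (nat_lit 1) (nat_lit 23) (nat_lit 1) (nat_lit 378) (nat_lit 395) (nat_lit 247)) (XT.lf (nat_lit 0) (nat_lit 1667466521) (nat_lit 0) (nat_lit 1668500359) (nat_lit 152) (nat_lit 1518787860) (nat_lit 20) (nat_lit 3) (nat_lit 20) (nat_lit 1) (nat_lit 22) (nat_lit 1) (nat_lit 379) (nat_lit 395) (nat_lit 246))) (XT.nd (nat_lit 78) (nat_lit 152) (nat_lit 0) (XT.lf (nat_lit 76) (nat_lit 614133822) (nat_lit 0) (nat_lit 3503044260) (nat_lit 76) (nat_lit 615091080) (nat_lit 20) (nat_lit 3) (nat_lit 19) (nat_lit 1) (nat_lit 20) (nat_lit 1) (nat_lit 380)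 (nat_lit 395) (nat_lit 245)) (XT.lf (nat_lit 0) (nat_lit 1819768064) (nat_lit 0) (nat_lit 1820612207) (nat_lit 152) (nat_lit 971610436) (nat_lit 17) (nat_lit 3) (nat_lit 17) (nat_lit 1) (nat_lit 19) (nat_lit 1) (nat_lit 381) (nat_lit 395) (nat_lit 244))))) (XT.nd (nat_lit 234) (nat_lit 608) (nat_lit 0) (XT.nd (nat_lit 78) (nat_lit 228) (nat_lit 0) (XT.lf (nat_lit 76) (nat_lit 352304755) (nat_lit 0) (nat_lit 3790450236) (nat_lit 76) (nat_lit 353086369) (nat_lit 17) (nat_lit 3) (nat_lit 16) (nat_lit 1) (nat_lit 17) (nat_lit 1) (nat_lit 382) (nat_lit 395) (nat_lit 243)) (XT.nd (nat_lit 78) (nat_lit 76) (nat_lit 0) (XT.lf (nat_lit 0) (nat_lit 1952117526) (nat_lit 0) (nat_lit 1952806780) (nat_lit 152) (nat_lit 476497541) (nat_lit 14) (nat_lit 3) (nat_lit 14) (nat_lit 1) (nat_lit 16) (nat_lit 1) (nat_lit 383) (nat_lit 395) (nat_lit 242)) (XT.lf (nat_lit 76) (nat_lit 115674573) (nat_lit 0) (nat_lit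 4039292049) (nat_lit 76) (nat_lit 116312771) (nat_lit 14) (nat_lit 3) (nat_lit 13) (nat_lit 1) (nat_lit 14) (nat_lit 1) (nat_lit 384) (nat_lit 395) (nat_lit 241)))) (XT.nd (nat_lit 156) (nat_lit 228) (nat_lit 0) (XT.nd (nat_lit 78) (nat_lit 228) (nat_lit 0) (XT.lf (nat_lit 0) (nat_lit 2066161830) (nat_lit 0) (nat_lit 2066724615) (nat_lit 152) (nat_lit 29546154) (nat_lit 11) (nat_lit 3) (nat_lit 11) (nat_lit 1) (nat_lit 13) (nat_lit 1) (nat_lit 385) (nat_lit 395) (nat_lit 240)) (XT.lf (nat_lit 0) (nat_lit 98739977) (nat_lit 0) (nat_lit 99236260) (nat_lit 152) (nat_lit 3859696945) (nat_lit 8) (nat_lit 3) (nat_lit 8) (nat_lit 1) (nat_lit 10) (nat_lit 1) (nat_lit 386) (nat_lit 395) (nat_lit 239))) (XT.nd (nat_lit 78) (nat_lit 152) (nat_lit 0) (XT.lf (nat_lit 76) (nat_lit 1784233052) (nat_lit 0) (nat_lit 385212289) (nat_lit 76) (nat_lit 1784692573) (nat_lit 8) (nat_lit 3) (nat_lit 7) (nat_lit 1) (nat_lit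 8) (nat_lit 1) (nat_lit 387) (nat_lit 395) (nat_lit 238)) (XT.lf (nat_lit 0) (nat_lit 293768722) (nat_lit 0) (nat_lit 294173944) (nat_lit 152) (nat_lit 3266521451) (nat_lit 5) (nat_lit 3) (nat_lit 5) (nat_lit 1) (nat_lit 7) (nat_lit 1) (nat_lit 388) (nat_lit 395) (nat_lit 237))))))))
noncomputable def ec165 : XT := (XT.nd (nat_lit 2106) (nat_lit 0) (nat_lit 0) (XT.nd (nat_lit 1014) (nat_lit 0) (nat_lit 0) (XT.nd (nat_lit 468) (nat_lit 0) (nat_lit 0) (XT.nd (nat_lit 234) (nat_lit 76) (nat_lit 0) (XT.nd (nat_lit 78) (nat_lit 228) (nat_lit 0) (XT.lf (nat_lit 76) (nat_lit 1498729937) (nat_lit 0) (nat_lit 758458074) (nat_lit 76) (nat_lit 1499105142) (nat_lit 5) (nat_lit 3) (nat_lit 4) (nat_lit 1) (nat_lit 5) (nat_lit 1) (nat_lit 389) (nat_lit 395) (nat_lit 236)) (XT.nd (nat_lit 78) (nat_lit 76) (nat_lit 0) (XT.lf (nat_lit 0) (nat_lit 468565505) (nat_lit 0) (nat_lit 468896373) (nat_lit 152) (nat_lit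 2724017040) (nat_lit 2) (nat_lit 3) (nat_lit 2) (nat_lit 1) (nat_lit 4) (nat_lit 1) (nat_lit 390) (nat_lit 395) (nat_lit 235)) (XT.lf (nat_lit 76) (nat_lit 1237803248) (nat_lit 0) (nat_lit 1092480167) (nat_lit 76) (nat_lit 1238109608) (nat_lit 2) (nat_lit 3) (nat_lit 1) (nat_lit 1) (nat_lit 2) (nat_lit 1) (nat_lit 391) (nat_lit 395) (nat_lit 234)))) (XT.nd (nat_lit 78) (nat_lit 0) (nat_lit 0) (XT.lf (nat_lit 0) (nat_lit 73995974372) (nat_lit 0) (nat_lit 0) (nat_lit 0) (nat_lit 0) (nat_lit 0) (nat_lit 0) (nat_lit 1) (nat_lit 0) (nat_lit 1) (nat_lit 0) (nat_lit 392) (nat_lit 395) (nat_lit 233)) (XT.nd (nat_lit 78) (nat_lit 0) (nat_lit 0) (XT.lf (nat_lit 0) (nat_lit 73995953275) (nat_lit 0) (nat_lit 0) (nat_lit 0) (nat_lit 0) (nat_lit 0) (nat_lit 0) (nat_lit 1) (nat_lit 0) (nat_lit 1) (nat_lit 0) (nat_lit 393) (nat_lit 395) (nat_lit 232)) (XT.lf (nat_lit 0) (nat_lit 73995933741) (nat_lit 0) (nat_lit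 0) (nat_lit 0) (nat_lit 0) (nat_lit 0) (nat_lit 0) (nat_lit 1) (nat_lit 0) (nat_lit 1) (nat_lit 0) (nat_lit 394) (nat_lit 395) (nat_lit 231))))) (XT.nd (nat_lit 234) (nat_lit 0) (nat_lit 0) (XT.nd (nat_lit 78) (nat_lit 0) (nat_lit 0) (XT.lf (nat_lit 0) (nat_lit 73995915653) (nat_lit 0) (nat_lit 0) (nat_lit 0) (nat_lit 0) (nat_lit 0) (nat_lit 0) (nat_lit 1) (nat_lit 0) (nat_lit 1) (nat_lit 0) (nat_lit 395) (nat_lit 395) (nat_lit 230)) (XT.nd (nat_lit 78) (nat_lit 0) (nat_lit 0) (XT.lf (nat_lit 0) (nat_lit 73995898905) (nat_lit 0) (nat_lit 0) (nat_lit 0) (nat_lit 0) (nat_lit 0) (nat_lit 0) (nat_lit 1) (nat_lit 0) (nat_lit 1) (nat_lit 0) (nat_lit 396) (nat_lit 395) (nat_lit 229)) (XT.lf (nat_lit 0) (nat_lit 73995883398) (nat_lit 0) (nat_lit 0) (nat_lit 0) (nat_lit 0) (nat_lit 0) (nat_lit 0) (nat_lit 1) (nat_lit 0) (nat_lit 1) (nat_lit 0) (nat_lit 397) (nat_lit 395) (nat_lit 228)))) (XT.nd (nat_lit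 156) (nat_lit 0) (nat_lit 0) (XT.nd (nat_lit 78) (nat_lit 0) (nat_lit 0) (XT.lf (nat_lit 0) (nat_lit 73995869040) (nat_lit 0) (nat_lit 0) (nat_lit 0) (nat_lit 0) (nat_lit 0) (nat_lit 0) (nat_lit 1) (nat_lit 0) (nat_lit 1) (nat_lit 0) (nat_lit 398) (nat_lit 395) (nat_lit 227)) (XT.lf (nat_lit 0) (nat_lit 73995855745) (nat_lit 0) (nat_lit 0) (nat_lit 0) (nat_lit 0) (nat_lit 0) (nat_lit 0) (nat_lit 1) (nat_lit 0) (nat_lit 1) (nat_lit 0) (nat_lit 399) (nat_lit 395) (nat_lit 226))) (XT.nd (nat_lit 78) (nat_lit 0) (nat_lit 0) (XT.lf (nat_lit 0) (nat_lit 73995843435) (nat_lit 0) (nat_lit 0) (nat_lit 0) (nat_lit 0) (nat_lit 0) (nat_lit 0) (nat_lit 1) (nat_lit 0) (nat_lit 1) (nat_lit 0) (nat_lit 400) (nat_lit 395) (nat_lit 225)) (XT.lf (nat_lit 0) (nat_lit 73995832037) (nat_lit 0) (nat_lit 0) (nat_lit 0) (nat_lit 0) (nat_lit 0) (nat_lit 0) (nat_lit 1) (nat_lit 0) (nat_lit 1) (nat_lit 0) (nat_lit 401)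 (nat_lit 395) (nat_lit 224)))))) (XT.nd (nat_lit 546) (nat_lit 0) (nat_lit 0) (XT.nd (nat_lit 234) (nat_lit 0) (nat_lit 0) (XT.nd (nat_lit 78) (nat_lit 0) (nat_lit 0) (XT.lf (nat_lit 0) (nat_lit 73995821483) (nat_lit 0) (nat_lit 0) (nat_lit 0) (nat_lit 0) (nat_lit 0) (nat_lit 0) (nat_lit 1) (nat_lit 0) (nat_lit 1) (nat_lit 0) (nat_lit 402) (nat_lit 395) (nat_lit 223)) (XT.nd (nat_lit 78) (nat_lit 0) (nat_lit 0) (XT.lf (nat_lit 0) (nat_lit 73995811711) (nat_lit 0) (nat_lit 0) (nat_lit 0) (nat_lit 0) (nat_lit 0) (nat_lit 0) (nat_lit 1) (nat_lit 0) (nat_lit 1) (nat_lit 0) (nat_lit 403) (nat_lit 395) (nat_lit 222)) (XT.lf (nat_lit 0) (nat_lit 73995802663) (nat_lit 0) (nat_lit 0) (nat_lit 0) (nat_lit 0) (nat_lit 0) (nat_lit 0) (nat_lit 1) (nat_lit 0) (nat_lit 1) (nat_lit 0) (nat_lit 404) (nat_lit 395) (nat_lit 221)))) (XT.nd (nat_lit 156) (nat_lit 0) (nat_lit 0) (XT.nd (nat_lit 78) (nat_lit 0) (nat_lit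 0) (XT.lf (nat_lit 0) (nat_lit 73995794285) (nat_lit 0) (nat_lit 0) (nat_lit 0) (nat_lit 0) (nat_lit 0) (nat_lit 0) (nat_lit 1) (nat_lit 0) (nat_lit 1) (nat_lit 0) (nat_lit 405) (nat_lit 395) (nat_lit 220)) (XT.lf (nat_lit 0) (nat_lit 73995786528) (nat_lit 0) (nat_lit 0) (nat_lit 0) (nat_lit 0) (nat_lit 0) (nat_lit 0) (nat_lit 1) (nat_lit 0) (nat_lit 1) (nat_lit 0) (nat_lit 406) (nat_lit 395) (nat_lit 219))) (XT.nd (nat_lit 78) (nat_lit 0) (nat_lit 0) (XT.lf (nat_lit 0) (nat_lit 73995779345) (nat_lit 0) (nat_lit 0) (nat_lit 0) (nat_lit 0) (nat_lit 0) (nat_lit 0) (nat_lit 1) (nat_lit 0) (nat_lit 1) (nat_lit 0) (nat_lit 407) (nat_lit 395) (nat_lit 218)) (XT.lf (nat_lit 0) (nat_lit 73995772694) (nat_lit 0) (nat_lit 0) (nat_lit 0) (nat_lit 0) (nat_lit 0) (nat_lit 0) (nat_lit 1) (nat_lit 0) (nat_lit 1) (nat_lit 0) (nat_lit 408) (nat_lit 395) (nat_lit 217))))) (XT.nd (nat_lit 234) (nat_lit 0) (nat_lit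 0) (XT.nd (nat_lit 78) (nat_lit 0) (nat_lit 0) (XT.lf (nat_lit 0) (nat_lit 73995766536) (nat_lit 0) (nat_lit 0) (nat_lit 0) (nat_lit 0) (nat_lit 0) (nat_lit 0) (nat_lit 1) (nat_lit 0) (nat_lit 1) (nat_lit 0) (nat_lit 409) (nat_lit 395) (nat_lit 216)) (XT.nd (nat_lit 78) (nat_lit 0) (nat_lit 0) (XT.lf (nat_lit 0) (nat_lit 73995760834) (nat_lit 0) (nat_lit 0) (nat_lit 0) (nat_lit 0) (nat_lit 0) (nat_lit 0) (nat_lit 1) (nat_lit 0) (nat_lit 1) (nat_lit 0) (nat_lit 410) (nat_lit 395) (nat_lit 215)) (XT.lf (nat_lit 0) (nat_lit 73995755555) (nat_lit 0) (nat_lit 0) (nat_lit 0) (nat_lit 0) (nat_lit 0) (nat_lit 0) (nat_lit 1) (nat_lit 0) (nat_lit 1) (nat_lit 0) (nat_lit 411) (nat_lit 395) (nat_lit 214)))) (XT.nd (nat_lit 156) (nat_lit 0) (nat_lit 0) (XT.nd (nat_lit 78) (nat_lit 0) (nat_lit 0) (XT.lf (nat_lit 0) (nat_lit 73995750666) (nat_lit 0) (nat_lit 0) (nat_lit 0) (nat_lit 0) (nat_lit 0) (nat_lit 0)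 (nat_lit 1) (nat_lit 0) (nat_lit 1) (nat_lit 0) (nat_lit 412) (nat_lit 395) (nat_lit 213)) (XT.lf (nat_lit 0) (nat_lit 73995746140) (nat_lit 0) (nat_lit 0) (nat_lit 0) (nat_lit 0) (nat_lit 0) (nat_lit 0) (nat_lit 1) (nat_lit 0) (nat_lit 1) (nat_lit 0) (nat_lit 413) (nat_lit 395) (nat_lit 212))) (XT.nd (nat_lit 78) (nat_lit 0) (nat_lit 0) (XT.lf (nat_lit 0) (nat_lit 73995741949) (nat_lit 0) (nat_lit 0) (nat_lit 0) (nat_lit 0) (nat_lit 0) (nat_lit 0) (nat_lit 1) (nat_lit 0) (nat_lit 1) (nat_lit 0) (nat_lit 414) (nat_lit 395) (nat_lit 211)) (XT.lf (nat_lit 0) (nat_lit 73995738068) (nat_lit 0) (nat_lit 0) (nat_lit 0) (nat_lit 0) (nat_lit 0) (nat_lit 0) (nat_lit 1) (nat_lit 0) (nat_lit 1) (nat_lit 0) (nat_lit 415) (nat_lit 395) (nat_lit 210))))))) (XT.nd (nat_lit 39390) (nat_lit 0) (nat_lit 16796) (XT.nd (nat_lit 38844) (nat_lit 0) (nat_lit 20216) (XT.nd (nat_lit 38610) (nat_lit 0) (nat_lit 22268)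 (XT.nd (nat_lit 38454) (nat_lit 0) (nat_lit 22192) (XT.lf (nat_lit 0) (nat_lit 73995734475) (nat_lit 0) (nat_lit 0) (nat_lit 0) (nat_lit 0) (nat_lit 0) (nat_lit 0) (nat_lit 1) (nat_lit 0) (nat_lit 1) (nat_lit 0) (nat_lit 416) (nat_lit 395) (nat_lit 209)) (XT.nd (nat_lit 78) (nat_lit 0) (nat_lit 76) (XT.lf (nat_lit 836) (nat_lit 39992631937) (nat_lit 0) (nat_lit 71006826078) (nat_lit 836) (nat_lit 39992631937) (nat_lit 303) (nat_lit 1) (nat_lit 292) (nat_lit 0) (nat_lit 303) (nat_lit 0) (nat_lit 228) (nat_lit 396) (nat_lit 396)) (XT.lf (nat_lit 836) (nat_lit 14918478852) (nat_lit 0) (nat_lit 139407920076) (nat_lit 760) (nat_lit 136340480083) (nat_lit 304) (nat_lit 1) (nat_lit 293) (nat_lit 1) (nat_lit 303) (nat_lit 1) (nat_lit 229) (nat_lit 396) (nat_lit 395)))) (XT.nd (nat_lit 78) (nat_lit 0) (nat_lit 76) (XT.lf (nat_lit 836) (nat_lit 137017617186) (nat_lit 76) (nat_lit 93361531066) (nat_lit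 0) (nat_lit 49514697288) (nat_lit 304) (nat_lit 1) (nat_lit 294) (nat_lit 1) (nat_lit 293) (nat_lit 1) (nat_lit 230) (nat_lit 396) (nat_lit 394)) (XT.nd (nat_lit 78) (nat_lit 0) (nat_lit 76) (XT.lf (nat_lit 836) (nat_lit 118394445894) (nat_lit 76) (nat_lit 39127170549) (nat_lit 0) (nat_lit 112138305548) (nat_lit 305) (nat_lit 1) (nat_lit 295) (nat_lit 1) (nat_lit 294) (nat_lit 1) (nat_lit 231) (nat_lit 396) (nat_lit 393)) (XT.lf (nat_lit 836) (nat_lit 87621955507) (nat_lit 0) (nat_lit 163936537044) (nat_lit 760) (nat_lit 8380412351) (nat_lit 306) (nat_lit 1) (nat_lit 295) (nat_lit 1) (nat_lit 305) (nat_lit 1) (nat_lit 232) (nat_lit 396) (nat_lit 392))))) (XT.nd (nat_lit 234) (nat_lit 1596) (nat_lit 0) (XT.nd (nat_lit 78) (nat_lit 684) (nat_lit 0) (XT.lf (nat_lit 836) (nat_lit 21024029114) (nat_lit 0) (nat_lit 180785575428) (nat_lit 760) (nat_lit 48872529887) (nat_lit 307) (nat_lit 1) (nat_lit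 296) (nat_lit 1) (nat_lit 306) (nat_lit 1) (nat_lit 233) (nat_lit 396) (nat_lit 391)) (XT.nd (nat_lit 78) (nat_lit 684) (nat_lit 0) (XT.lf (nat_lit 836) (nat_lit 40399632761) (nat_lit 76) (nat_lit 157117387048) (nat_lit 0) (nat_lit 44340465085) (nat_lit 307) (nat_lit 1) (nat_lit 297) (nat_lit 1) (nat_lit 296) (nat_lit 1) (nat_lit 234) (nat_lit 396) (nat_lit 390)) (XT.lf (nat_lit 836) (nat_lit 8297163334) (nat_lit 0) (nat_lit 117455639734) (nat_lit 760) (nat_lit 107705590955) (nat_lit 298) (nat_lit 1) (nat_lit 287) (nat_lit 1) (nat_lit 297) (nat_lit 1) (nat_lit 235) (nat_lit 396) (nat_lit 389)))) (XT.nd (nat_lit 156) (nat_lit 684) (nat_lit 0) (XT.nd (nat_lit 78) (nat_lit 380) (nat_lit 0) (XT.lf (nat_lit 76) (nat_lit 57451287292) (nat_lit 0) (nat_lit 24896316350) (nat_lit 532) (nat_lit 143109388351) (nat_lit 281) (nat_lit 1) (nat_lit 280) (nat_lit 1) (nat_lit 287) (nat_lit 1) (nat_lit 236) (nat_lit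 396) (nat_lit 388)) (XT.lf (nat_lit 456) (nat_lit 158328516568) (nat_lit 0) (nat_lit 51539345430) (nat_lit 380) (nat_lit 7968301260) (nat_lit 281) (nat_lit 1) (nat_lit 275) (nat_lit 1) (nat_lit 280) (nat_lit 1) (nat_lit 237) (nat_lit 396) (nat_lit 387))) (XT.nd (nat_lit 78) (nat_lit 304) (nat_lit 0) (XT.lf (nat_lit 456) (nat_lit 114251365274) (nat_lit 0) (nat_lit 24022710918) (nat_lit 380) (nat_lit 72268940339) (nat_lit 276) (nat_lit 1) (nat_lit 270) (nat_lit 1) (nat_lit 275) (nat_lit 1) (nat_lit 238) (nat_lit 396) (nat_lit 386)) (XT.lf (nat_lit 380) (nat_lit 69520498614) (nat_lit 0) (nat_lit 442297147) (nat_lit 304) (nat_lit 133640702871) (nat_lit 271) (nat_lit 1) (nat_lit 266) (nat_lit 1) (nat_lit 270) (nat_lit 1) (nat_lit 239) (nat_lit 396) (nat_lit 385)))))) (XT.nd (nat_lit 546) (nat_lit 1596) (nat_lit 0) (XT.nd (nat_lit 234) (nat_lit 1140) (nat_lit 0) (XT.nd (nat_lit 78) (nat_lit 684) (nat_lit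 0) (XT.lf (nat_lit 76) (nat_lit 5128893834) (nat_lit 0) (nat_lit 172971152591) (nat_lit 380) (nat_lit 18883164520) (nat_lit 267) (nat_lit 1) (nat_lit 266) (nat_lit 1) (nat_lit 271) (nat_lit 1) (nat_lit 240) (nat_lit 396) (nat_lit 384)) (XT.nd (nat_lit 78) (nat_lit 304) (nat_lit 0) (XT.lf (nat_lit 76) (nat_lit 132429369094) (nat_lit 0) (nat_lit 21964827849) (nat_lit 380) (nat_lit 36223990239) (nat_lit 262) (nat_lit 1) (nat_lit 261) (nat_lit 1) (nat_lit 266) (nat_lit 1) (nat_lit 241) (nat_lit 396) (nat_lit 383)) (XT.lf (nat_lit 76) (nat_lit 66257769203) (nat_lit 0) (nat_lit 67282166817) (nat_lit 380) (nat_lit 50994466602) (nat_lit 258) (nat_lit 1) (nat_lit 257) (nat_lit 1) (nat_lit 262) (nat_lit 1) (nat_lit 242) (nat_lit 396) (nat_lit 382)))) (XT.nd (nat_lit 156) (nat_lit 608) (nat_lit 0) (XT.nd (nat_lit 78) (nat_lit 228) (nat_lit 0) (XT.lf (nat_lit 76) (nat_lit 3270336563) (nat_lit 0) (nat_lit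 112494738175) (nat_lit 380) (nat_lit 62973590417) (nat_lit 254) (nat_lit 1) (nat_lit 253) (nat_lit 1) (nat_lit 258) (nat_lit 1) (nat_lit 243) (nat_lit 396) (nat_lit 381)) (XT.lf (nat_lit 304) (nat_lit 14768655607) (nat_lit 0) (nat_lit 99873348568) (nat_lit 228) (nat_lit 58528077601) (nat_lit 254) (nat_lit 1) (nat_lit 250) (nat_lit 1) (nat_lit 253) (nat_lit 1) (nat_lit 244) (nat_lit 396) (nat_lit 380))) (XT.nd (nat_lit 78) (nat_lit 228) (nat_lit 0) (XT.lf (nat_lit 76) (nat_lit 51029675819) (nat_lit 0) (nat_lit 34976056891) (nat_lit 380) (nat_lit 81825813960) (nat_lit 246) (nat_lit 1) (nat_lit 245) (nat_lit 1) (nat_lit 250) (nat_lit 1) (nat_lit 245) (nat_lit 396) (nat_lit 379)) (XT.lf (nat_lit 304) (nat_lit 79006212397) (nat_lit 0) (nat_lit 74216125234) (nat_lit 228) (nat_lit 9499575948) (nat_lit 246) (nat_lit 1) (nat_lit 242) (nat_lit 1) (nat_lit 245) (nat_lit 1) (nat_lit 246) (nat_lit 396) (nat_lit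 378))))) (XT.nd (nat_lit 234) (nat_lit 836) (nat_lit 0) (XT.nd (nat_lit 78) (nat_lit 532) (nat_lit 0) (XT.lf (nat_lit 304) (nat_lit 25321109389) (nat_lit 0) (nat_lit 63897044706) (nat_lit 228) (nat_lit 68590491020) (nat_lit 243) (nat_lit 1) (nat_lit 239) (nat_lit 1) (nat_lit 242) (nat_lit 1) (nat_lit 247) (nat_lit 396) (nat_lit 377)) (XT.nd (nat_lit 78) (nat_lit 228) (nat_lit 0) (XT.lf (nat_lit 76) (nat_lit 28859946308) (nat_lit 0) (nat_lit 26423788830) (nat_lit 304) (nat_lit 97815698804) (nat_lit 236) (nat_lit 1) (nat_lit 235) (nat_lit 1) (nat_lit 239) (nat_lit 1) (nat_lit 248) (nat_lit 396) (nat_lit 376)) (XT.lf (nat_lit 304) (nat_lit 71814188529) (nat_lit 0) (nat_lit 47782499819) (nat_lit 228) (nat_lit 28965908491) (nat_lit 236) (nat_lit 1) (nat_lit 232) (nat_lit 1) (nat_lit 235) (nat_lit 1) (nat_lit 249) (nat_lit 396) (nat_lit 375)))) (XT.nd (nat_lit 156) (nat_lit 380) (nat_lit 0) (XT.nd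 (nat_lit 78) (nat_lit 304) (nat_lit 0) (XT.lf (nat_lit 228) (nat_lit 17802843374) (nat_lit 0) (nat_lit 41686745827) (nat_lit 152) (nat_lit 84719199202) (nat_lit 233) (nat_lit 1) (nat_lit 230) (nat_lit 1) (nat_lit 232) (nat_lit 1) (nat_lit 250) (nat_lit 396) (nat_lit 374)) (XT.lf (nat_lit 76) (nat_lit 3015915406) (nat_lit 0) (nat_lit 33748748116) (nat_lit 304) (nat_lit 103259081530) (nat_lit 227) (nat_lit 1) (nat_lit 226) (nat_lit 1) (nat_lit 230) (nat_lit 1) (nat_lit 251) (nat_lit 396) (nat_lit 373))) (XT.nd (nat_lit 78) (nat_lit 228) (nat_lit 0) (XT.lf (nat_lit 228) (nat_lit 51731796255) (nat_lit 0) (nat_lit 32327934597) (nat_lit 152) (nat_lit 51911823427) (nat_lit 227) (nat_lit 1) (nat_lit 224) (nat_lit 1) (nat_lit 226) (nat_lit 1) (nat_lit 252) (nat_lit 396) (nat_lit 372)) (XT.lf (nat_lit 76) (nat_lit 28067510763) (nat_lit 0) (nat_lit 1296455918) (nat_lit 228) (nat_lit 102732220468) (nat_lit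 222) (nat_lit 1) (nat_lit 221) (nat_lit 1) (nat_lit 224) (nat_lit 1) (nat_lit 253) (nat_lit 396) (nat_lit 371))))))))
noncomputable def ec166 : XT := (XT.nd (nat_lit 2028) (nat_lit 3268) (nat_lit 0) (XT.nd (nat_lit 1014) (nat_lit 1596) (nat_lit 0) (XT.nd (nat_lit 468) (nat_lit 988) (nat_lit 0) (XT.nd (nat_lit 234) (nat_lit 456) (nat_lit 0) (XT.nd (nat_lit 78) (nat_lit 380) (nat_lit 0) (XT.lf (nat_lit 228) (nat_lit 76731154461) (nat_lit 0) (nat_lit 26589065477) (nat_lit 152) (nat_lit 25013331752) (nat_lit 222) (nat_lit 1) (nat_lit 219) (nat_lit 1) (nat_lit 221) (nat_lit 1) (nat_lit 254) (nat_lit 396) (nat_lit 370)) (XT.nd (nat_lit 78) (nat_lit 228) (nat_lit 0) (XT.lf (nat_lit 228) (nat_lit 23835771407) (nat_lit 0) (nat_lit 24717476625) (nat_lit 152) (nat_lit 76161530221) (nat_lit 220) (nat_lit 1) (nat_lit 217) (nat_lit 1) (nat_lit 219) (nat_lit 1) (nat_lit 255) (nat_lit 396) (nat_lit 369)) (XT.lf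 (nat_lit 228) (nat_lit 94619252596) (nat_lit 0) (nat_lit 23615542719) (nat_lit 152) (nat_lit 2995905573) (nat_lit 217) (nat_lit 1) (nat_lit 214) (nat_lit 1) (nat_lit 216) (nat_lit 1) (nat_lit 256) (nat_lit 396) (nat_lit 368)))) (XT.nd (nat_lit 78) (nat_lit 304) (nat_lit 0) (XT.lf (nat_lit 228) (nat_lit 42347192230) (nat_lit 0) (nat_lit 22544881394) (nat_lit 152) (nat_lit 52951361413) (nat_lit 215) (nat_lit 1) (nat_lit 212) (nat_lit 1) (nat_lit 214) (nat_lit 1) (nat_lit 257) (nat_lit 396) (nat_lit 367)) (XT.nd (nat_lit 78) (nat_lit 152) (nat_lit 0) (XT.lf (nat_lit 76) (nat_lit 14505548318) (nat_lit 0) (nat_lit 7972902995) (nat_lit 152) (nat_lit 92118212908) (nat_lit 211) (nat_lit 1) (nat_lit 210) (nat_lit 1) (nat_lit 212) (nat_lit 1) (nat_lit 258) (nat_lit 396) (nat_lit 366)) (XT.lf (nat_lit 228) (nat_lit 55561951623) (nat_lit 0) (nat_lit 22240429535) (nat_lit 152) (nat_lit 33629441421) (nat_lit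 211) (nat_lit 1) (nat_lit 208) (nat_lit 1) (nat_lit 210) (nat_lit 1) (nat_lit 259) (nat_lit 396) (nat_lit 365))))) (XT.nd (nat_lit 234) (nat_lit 608) (nat_lit 0) (XT.nd (nat_lit 78) (nat_lit 304) (nat_lit 0) (XT.lf (nat_lit 152) (nat_lit 5983232664) (nat_lit 0) (nat_lit 22786683225) (nat_lit 76) (nat_lit 79622008923) (nat_lit 209) (nat_lit 1) (nat_lit 207) (nat_lit 1) (nat_lit 208) (nat_lit 1) (nat_lit 260) (nat_lit 396) (nat_lit 364)) (XT.nd (nat_lit 78) (nat_lit 76) (nat_lit 0) (XT.lf (nat_lit 228) (nat_lit 64586787631) (nat_lit 0) (nat_lit 23304696235) (nat_lit 152) (nat_lit 17544362548) (nat_lit 207) (nat_lit 1) (nat_lit 204) (nat_lit 1) (nat_lit 206) (nat_lit 1) (nat_lit 261) (nat_lit 396) (nat_lit 363)) (XT.lf (nat_lit 152) (nat_lit 16244053350) (nat_lit 0) (nat_lit 24176082310) (nat_lit 76) (nat_lit 62159258134) (nat_lit 205) (nat_lit 1) (nat_lit 203) (nat_lit 1) (nat_lit 204) (nat_lit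 1) (nat_lit 262) (nat_lit 396) (nat_lit 362)))) (XT.nd (nat_lit 156) (nat_lit 304) (nat_lit 0) (XT.nd (nat_lit 78) (nat_lit 76) (nat_lit 0) (XT.lf (nat_lit 228) (nat_lit 70316512100) (nat_lit 0) (nat_lit 25342101913) (nat_lit 152) (nat_lit 4158855864) (nat_lit 203) (nat_lit 1) (nat_lit 200) (nat_lit 1) (nat_lit 202) (nat_lit 1) (nat_lit 263) (nat_lit 396) (nat_lit 361)) (XT.lf (nat_lit 152) (nat_lit 23377421325) (nat_lit 0) (nat_lit 26419445761) (nat_lit 76) (nat_lit 47332718681) (nat_lit 201) (nat_lit 1) (nat_lit 199) (nat_lit 1) (nat_lit 200) (nat_lit 1) (nat_lit 264) (nat_lit 396) (nat_lit 360))) (XT.nd (nat_lit 78) (nat_lit 76) (nat_lit 0) (XT.lf (nat_lit 76) (nat_lit 6747654130) (nat_lit 0) (nat_lit 21179087651) (nat_lit 228) (nat_lit 66611522295) (nat_lit 197) (nat_lit 1) (nat_lit 196) (nat_lit 1) (nat_lit 199) (nat_lit 1) (nat_lit 265) (nat_lit 396) (nat_lit 359)) (XT.lf (nat_lit 152)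 (nat_lit 28055014766) (nat_lit 0) (nat_lit 29231995608) (nat_lit 76) (nat_lit 34724285890) (nat_lit 197) (nat_lit 1) (nat_lit 195) (nat_lit 1) (nat_lit 196) (nat_lit 1) (nat_lit 266) (nat_lit 396) (nat_lit 358)))))) (XT.nd (nat_lit 468) (nat_lit 836) (nat_lit 0) (XT.nd (nat_lit 234) (nat_lit 304) (nat_lit 0) (XT.nd (nat_lit 78) (nat_lit 228) (nat_lit 0) (XT.lf (nat_lit 76) (nat_lit 15692531015) (nat_lit 0) (nat_lit 15199277414) (nat_lit 228) (nat_lit 58681323861) (nat_lit 193) (nat_lit 1) (nat_lit 192) (nat_lit 1) (nat_lit 195) (nat_lit 1) (nat_lit 267) (nat_lit 396) (nat_lit 357)) (XT.nd (nat_lit 78) (nat_lit 152) (nat_lit 0) (XT.lf (nat_lit 152) (nat_lit 30818496671) (nat_lit 0) (nat_lit 32391430506) (nat_lit 76) (nat_lit 23987335305) (nat_lit 193) (nat_lit 1) (nat_lit 191) (nat_lit 1) (nat_lit 192) (nat_lit 1) (nat_lit 268) (nat_lit 396) (nat_lit 356)) (XT.lf (nat_lit 76) (nat_lit 23103034396)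 (nat_lit 0) (nat_lit 11008182510) (nat_lit 152) (nat_lit 50788639793) (nat_lit 190) (nat_lit 1) (nat_lit 189) (nat_lit 1) (nat_lit 191) (nat_lit 1) (nat_lit 269) (nat_lit 396) (nat_lit 355)))) (XT.nd (nat_lit 78) (nat_lit 228) (nat_lit 0) (XT.lf (nat_lit 152) (nat_lit 32103809095) (nat_lit 0) (nat_lit 35725749307) (nat_lit 76) (nat_lit 14833972098) (nat_lit 190) (nat_lit 1) (nat_lit 188) (nat_lit 1) (nat_lit 189) (nat_lit 1) (nat_lit 270) (nat_lit 396) (nat_lit 354)) (XT.nd (nat_lit 78) (nat_lit 76) (nat_lit 0) (XT.lf (nat_lit 76) (nat_lit 29223190431) (nat_lit 0) (nat_lit 8212247691) (nat_lit 152) (nat_lit 43060553232) (nat_lit 187) (nat_lit 1) (nat_lit 186) (nat_lit 1) (nat_lit 188) (nat_lit 1) (nat_lit 271) (nat_lit 396) (nat_lit 353)) (XT.lf (nat_lit 152) (nat_lit 32260982503) (nat_lit 0) (nat_lit 39103355181) (nat_lit 76) (nat_lit 7024596307) (nat_lit 187) (nat_lit 1) (nat_lit 185) (nat_lit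 1) (nat_lit 186) (nat_lit 1) (nat_lit 272) (nat_lit 396) (nat_lit 352))))) (XT.nd (nat_lit 234) (nat_lit 456) (nat_lit 0) (XT.nd (nat_lit 78) (nat_lit 228) (nat_lit 0) (XT.lf (nat_lit 76) (nat_lit 34255812085) (nat_lit 0) (nat_lit 6495017950) (nat_lit 152) (nat_lit 35590808765) (nat_lit 184) (nat_lit 1) (nat_lit 183) (nat_lit 1) (nat_lit 185) (nat_lit 1) (nat_lit 273) (nat_lit 396) (nat_lit 351)) (XT.nd (nat_lit 78) (nat_lit 152) (nat_lit 0) (XT.lf (nat_lit 152) (nat_lit 31570284810) (nat_lit 0) (nat_lit 42425018931) (nat_lit 76) (nat_lit 359360477) (nat_lit 184) (nat_lit 1) (nat_lit 182) (nat_lit 1) (nat_lit 183) (nat_lit 1) (nat_lit 274) (nat_lit 396) (nat_lit 350)) (XT.lf (nat_lit 76) (nat_lit 38369794272) (nat_lit 0) (nat_lit 5602661575) (nat_lit 152) (nat_lit 28446606254) (nat_lit 181) (nat_lit 1) (nat_lit 180) (nat_lit 1) (nat_lit 182) (nat_lit 1) (nat_lit 275) (nat_lit 396) (nat_lit 349))))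 (XT.nd (nat_lit 156) (nat_lit 228) (nat_lit 0) (XT.nd (nat_lit 78) (nat_lit 152) (nat_lit 0) (XT.lf (nat_lit 0) (nat_lit 5158270433) (nat_lit 0) (nat_lit 40371729414) (nat_lit 152) (nat_lit 25009755026) (nat_lit 179) (nat_lit 3) (nat_lit 179) (nat_lit 1) (nat_lit 181) (nat_lit 1) (nat_lit 276) (nat_lit 396) (nat_lit 348)) (XT.lf (nat_lit 76) (nat_lit 41706088465) (nat_lit 0) (nat_lit 5332170575) (nat_lit 152) (nat_lit 21674104932) (nat_lit 178) (nat_lit 1) (nat_lit 177) (nat_lit 1) (nat_lit 179) (nat_lit 1) (nat_lit 277) (nat_lit 396) (nat_lit 347))) (XT.nd (nat_lit 78) (nat_lit 152) (nat_lit 0) (XT.lf (nat_lit 0) (nat_lit 9854204852) (nat_lit 0) (nat_lit 38606457596) (nat_lit 152) (nat_lit 18472978161) (nat_lit 176) (nat_lit 3) (nat_lit 176) (nat_lit 1) (nat_lit 178) (nat_lit 1) (nat_lit 278) (nat_lit 396) (nat_lit 346)) (XT.lf (nat_lit 76) (nat_lit 44382597944) (nat_lit 0) (nat_lit 5521745935)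 (nat_lit 152) (nat_lit 15302877076) (nat_lit 175) (nat_lit 1) (nat_lit 174) (nat_lit 1) (nat_lit 176) (nat_lit 1) (nat_lit 279) (nat_lit 396) (nat_lit 345))))))) (XT.nd (nat_lit 1014) (nat_lit 1748) (nat_lit 0) (XT.nd (nat_lit 468) (nat_lit 760) (nat_lit 0) (XT.nd (nat_lit 234) (nat_lit 456) (nat_lit 0) (XT.nd (nat_lit 78) (nat_lit 228) (nat_lit 0) (XT.lf (nat_lit 0) (nat_lit 13853915358) (nat_lit 0) (nat_lit 37330508166) (nat_lit 152) (nat_lit 12338452948) (nat_lit 173) (nat_lit 3) (nat_lit 173) (nat_lit 1) (nat_lit 175) (nat_lit 1) (nat_lit 280) (nat_lit 396) (nat_lit 344)) (XT.nd (nat_lit 78) (nat_lit 76) (nat_lit 0) (XT.lf (nat_lit 76) (nat_lit 46498190636) (nat_lit 0) (nat_lit 6042965580) (nat_lit 152) (nat_lit 9349506492) (nat_lit 172) (nat_lit 1) (nat_lit 171) (nat_lit 1) (nat_lit 173) (nat_lit 1) (nat_lit 281) (nat_lit 396) (nat_lit 343)) (XT.lf (nat_lit 0) (nat_lit 17253490862) (nat_lit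 0) (nat_lit 36422437893) (nat_lit 152) (nat_lit 6619084549) (nat_lit 170) (nat_lit 3) (nat_lit 170) (nat_lit 1) (nat_lit 172) (nat_lit 1) (nat_lit 282) (nat_lit 396) (nat_lit 342)))) (XT.nd (nat_lit 78) (nat_lit 304) (nat_lit 0) (XT.lf (nat_lit 76) (nat_lit 48135990450) (nat_lit 0) (nat_lit 6794406812) (nat_lit 152) (nat_lit 3820491063) (nat_lit 169) (nat_lit 1) (nat_lit 168) (nat_lit 1) (nat_lit 170) (nat_lit 1) (nat_lit 283) (nat_lit 396) (nat_lit 341)) (XT.nd (nat_lit 78) (nat_lit 228) (nat_lit 0) (XT.lf (nat_lit 0) (nat_lit 20134199667) (nat_lit 0) (nat_lit 35785897223) (nat_lit 152) (nat_lit 1318610123) (nat_lit 167) (nat_lit 3) (nat_lit 167) (nat_lit 1) (nat_lit 169) (nat_lit 1) (nat_lit 284) (nat_lit 396) (nat_lit 340)) (XT.lf (nat_lit 152) (nat_lit 48058888588) (nat_lit 0) (nat_lit 1327922548) (nat_lit 76) (nat_lit 6389265305) (nat_lit 166) (nat_lit 1) (nat_lit 164) (nat_lit 1) (nat_lit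 165) (nat_lit 1) (nat_lit 285) (nat_lit 396) (nat_lit 339))))) (XT.nd (nat_lit 234) (nat_lit 456) (nat_lit 0) (XT.nd (nat_lit 78) (nat_lit 228) (nat_lit 0) (XT.lf (nat_lit 76) (nat_lit 18938358669) (nat_lit 0) (nat_lit 3684165118) (nat_lit 76) (nat_lit 31718175735) (nat_lit 164) (nat_lit 3) (nat_lit 163) (nat_lit 1) (nat_lit 164) (nat_lit 1) (nat_lit 286) (nat_lit 396) (nat_lit 338)) (XT.nd (nat_lit 78) (nat_lit 76) (nat_lit 0) (XT.lf (nat_lit 152) (nat_lit 44171162978) (nat_lit 0) (nat_lit 6172925579) (nat_lit 76) (nat_lit 2610532727) (nat_lit 163) (nat_lit 1) (nat_lit 161) (nat_lit 1) (nat_lit 162) (nat_lit 1) (nat_lit 287) (nat_lit 396) (nat_lit 337)) (XT.lf (nat_lit 76) (nat_lit 16424335295) (nat_lit 0) (nat_lit 8310032383) (nat_lit 76) (nat_lit 26859224139) (nat_lit 161) (nat_lit 3) (nat_lit 160) (nat_lit 1) (nat_lit 161) (nat_lit 1) (nat_lit 288) (nat_lit 396) (nat_lit 336)))) (XT.nd (nat_lit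 156) (nat_lit 228) (nat_lit 0) (XT.nd (nat_lit 78) (nat_lit 76) (nat_lit 0) (XT.lf (nat_lit 0) (nat_lit 693243898) (nat_lit 0) (nat_lit 9895085913) (nat_lit 152) (nat_lit 39691589138) (nat_lit 158) (nat_lit 3) (nat_lit 158) (nat_lit 1) (nat_lit 160) (nat_lit 1) (nat_lit 289) (nat_lit 396) (nat_lit 335)) (XT.lf (nat_lit 76) (nat_lit 13970567805) (nat_lit 0) (nat_lit 12528279101) (nat_lit 76) (nat_lit 22490791892) (nat_lit 158) (nat_lit 3) (nat_lit 157) (nat_lit 1) (nat_lit 158) (nat_lit 1) (nat_lit 290) (nat_lit 396) (nat_lit 334))) (XT.nd (nat_lit 78) (nat_lit 76) (nat_lit 0) (XT.lf (nat_lit 0) (nat_lit 3525686437) (nat_lit 0) (nat_lit 11039111558) (nat_lit 152) (nat_lit 33177566391) (nat_lit 155) (nat_lit 3) (nat_lit 155) (nat_lit 1) (nat_lit 157) (nat_lit 1) (nat_lit 291) (nat_lit 396) (nat_lit 333)) (XT.lf (nat_lit 76) (nat_lit 11604560355) (nat_lit 0) (nat_lit 16354690351) (nat_lit 76) (nat_lit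 18561435467) (nat_lit 155) (nat_lit 3) (nat_lit 154) (nat_lit 1) (nat_lit 155) (nat_lit 1) (nat_lit 292) (nat_lit 396) (nat_lit 332)))))) (XT.nd (nat_lit 546) (nat_lit 912) (nat_lit 0) (XT.nd (nat_lit 234) (nat_lit 456) (nat_lit 0) (XT.nd (nat_lit 78) (nat_lit 228) (nat_lit 0) (XT.lf (nat_lit 0) (nat_lit 6013512905) (nat_lit 0) (nat_lit 12148323409) (nat_lit 152) (nat_lit 27174296335) (nat_lit 152) (nat_lit 3) (nat_lit 152) (nat_lit 1) (nat_lit 154) (nat_lit 1) (nat_lit 293) (nat_lit 396) (nat_lit 331)) (XT.nd (nat_lit 78) (nat_lit 152) (nat_lit 0) (XT.lf (nat_lit 76) (nat_lit 9345867960) (nat_lit 0) (nat_lit 19807046552) (nat_lit 76) (nat_lit 15026248057) (nat_lit 152) (nat_lit 3) (nat_lit 151) (nat_lit 1) (nat_lit 152) (nat_lit 1) (nat_lit 294) (nat_lit 396) (nat_lit 330)) (XT.lf (nat_lit 0) (nat_lit 8194304065) (nat_lit 0) (nat_lit 13203457589) (nat_lit 152) (nat_lit 21656150089) (nat_lit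 149) (nat_lit 3) (nat_lit 149) (nat_lit 1) (nat_lit 151) (nat_lit 1) (nat_lit 295) (nat_lit 396) (nat_lit 329)))) (XT.nd (nat_lit 156) (nat_lit 228) (nat_lit 0) (XT.nd (nat_lit 78) (nat_lit 152) (nat_lit 0) (XT.lf (nat_lit 76) (nat_lit 7207751685) (nat_lit 0) (nat_lit 22904410359) (nat_lit 76) (nat_lit 11845856800) (nat_lit 149) (nat_lit 3) (nat_lit 148) (nat_lit 1) (nat_lit 149) (nat_lit 1) (nat_lit 296) (nat_lit 396) (nat_lit 328)) (XT.lf (nat_lit 0) (nat_lit 10100915130) (nat_lit 0) (nat_lit 14190954914) (nat_lit 152) (nat_lit 16597014625) (nat_lit 146) (nat_lit 3) (nat_lit 146) (nat_lit 1) (nat_lit 148) (nat_lit 1) (nat_lit 297) (nat_lit 396) (nat_lit 327))) (XT.nd (nat_lit 78) (nat_lit 152) (nat_lit 0) (XT.lf (nat_lit 76) (nat_lit 5198517571) (nat_lit 0) (nat_lit 25666567172) (nat_lit 76) (nat_lit 8985591445) (nat_lit 146) (nat_lit 3) (nat_lit 145) (nat_lit 1) (nat_lit 146) (nat_lit 1) (nat_lit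 298) (nat_lit 396) (nat_lit 326)) (XT.lf (nat_lit 0) (nat_lit 11762187536) (nat_lit 0) (nat_lit 15101758854) (nat_lit 152) (nat_lit 11970735114) (nat_lit 143) (nat_lit 3) (nat_lit 143) (nat_lit 1) (nat_lit 145) (nat_lit 1) (nat_lit 299) (nat_lit 396) (nat_lit 325))))) (XT.nd (nat_lit 234) (nat_lit 608) (nat_lit 0) (XT.nd (nat_lit 78) (nat_lit 228) (nat_lit 0) (XT.lf (nat_lit 76) (nat_lit 3322598088) (nat_lit 0) (nat_lit 28113589654) (nat_lit 76) (nat_lit 6414793752) (nat_lit 143) (nat_lit 3) (nat_lit 142) (nat_lit 1) (nat_lit 143) (nat_lit 1) (nat_lit 300) (nat_lit 396) (nat_lit 324)) (XT.nd (nat_lit 78) (nat_lit 76) (nat_lit 0) (XT.lf (nat_lit 0) (nat_lit 13203540368) (nat_lit 0) (nat_lit 15930344305) (nat_lit 152) (nat_lit 7751453433) (nat_lit 140) (nat_lit 3) (nat_lit 140) (nat_lit 1) (nat_lit 142) (nat_lit 1) (nat_lit 301) (nat_lit 396) (nat_lit 323)) (XT.lf (nat_lit 76) (nat_lit 1581424101)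 (nat_lit 0) (nat_lit 30265502151) (nat_lit 76) (nat_lit 4106242561) (nat_lit 140) (nat_lit 3) (nat_lit 139) (nat_lit 1) (nat_lit 140) (nat_lit 1) (nat_lit 302) (nat_lit 396) (nat_lit 322)))) (XT.nd (nat_lit 156) (nat_lit 304) (nat_lit 0) (XT.nd (nat_lit 78) (nat_lit 152) (nat_lit 0) (XT.lf (nat_lit 0) (nat_lit 14447462852) (nat_lit 0) (nat_lit 16673934157) (nat_lit 152) (nat_lit 3913863301) (nat_lit 137) (nat_lit 3) (nat_lit 137) (nat_lit 1) (nat_lit 139) (nat_lit 1) (nat_lit 303) (nat_lit 396) (nat_lit 321)) (XT.lf (nat_lit 76) (nat_lit 32116555856) (nat_lit 0) (nat_lit 25045429) (nat_lit 152) (nat_lit 2010204374) (nat_lit 136) (nat_lit 1) (nat_lit 135) (nat_lit 1) (nat_lit 137) (nat_lit 1) (nat_lit 304) (nat_lit 396) (nat_lit 320))) (XT.nd (nat_lit 78) (nat_lit 228) (nat_lit 0) (XT.lf (nat_lit 0) (nat_lit 15513925486) (nat_lit 0) (nat_lit 17331868612) (nat_lit 152) (nat_lit 433398630) (nat_lit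 134) (nat_lit 3) (nat_lit 134) (nat_lit 1) (nat_lit 136) (nat_lit 1) (nat_lit 305) (nat_lit 396) (nat_lit 319)) (XT.lf (nat_lit 152) (nat_lit 30964895071) (nat_lit 0) (nat_lit 1339959313) (nat_lit 76) (nat_lit 134791899) (nat_lit 133) (nat_lit 1) (nat_lit 131) (nat_lit 1) (nat_lit 132) (nat_lit 1) (nat_lit 306) (nat_lit 396) (nat_lit 318))))))))
noncomputable def ec167 : XT := (XT.nd (nat_lit 2106) (nat_lit 3192) (nat_lit 0) (XT.nd (nat_lit 1014) (nat_lit 1748) (nat_lit 0) (XT.nd (nat_lit 468) (nat_lit 760) (nat_lit 0) (XT.nd (nat_lit 234) (nat_lit 380) (nat_lit 0) (XT.nd (nat_lit 78) (nat_lit 228) (nat_lit 0) (XT.lf (nat_lit 76) (nat_lit 13661136107) (nat_lit 0) (nat_lit 2803356297) (nat_lit 76) (nat_lit 15145510597) (nat_lit 131) (nat_lit 3) (nat_lit 130) (nat_lit 1) (nat_lit 131) (nat_lit 1) (nat_lit 307) (nat_lit 396) (nat_lit 317)) (XT.nd (nat_lit 78) (nat_lit 76) (nat_lit 0) (XT.lf (nat_lit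 0) (nat_lit 1544318326) (nat_lit 0) (nat_lit 2853290540) (nat_lit 152) (nat_lit 26413963429) (nat_lit 128) (nat_lit 3) (nat_lit 128) (nat_lit 1) (nat_lit 130) (nat_lit 1) (nat_lit 308) (nat_lit 396) (nat_lit 316)) (XT.lf (nat_lit 76) (nat_lit 11539828370) (nat_lit 0) (nat_lit 5733455946) (nat_lit 76) (nat_lit 12751839679) (nat_lit 128) (nat_lit 3) (nat_lit 127) (nat_lit 1) (nat_lit 128) (nat_lit 1) (nat_lit 309) (nat_lit 396) (nat_lit 315)))) (XT.nd (nat_lit 78) (nat_lit 228) (nat_lit 0) (XT.lf (nat_lit 0) (nat_lit 3038759418) (nat_lit 0) (nat_lit 4107552459) (nat_lit 152) (nat_lit 22119643686) (nat_lit 125) (nat_lit 3) (nat_lit 125) (nat_lit 1) (nat_lit 127) (nat_lit 1) (nat_lit 310) (nat_lit 396) (nat_lit 314)) (XT.nd (nat_lit 78) (nat_lit 152) (nat_lit 0) (XT.lf (nat_lit 76) (nat_lit 9582945418) (nat_lit 0) (nat_lit 8364983086) (nat_lit 76) (nat_lit 10572568605) (nat_lit 125) (nat_lit 3) (nat_lit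 124) (nat_lit 1) (nat_lit 125) (nat_lit 1) (nat_lit 311) (nat_lit 396) (nat_lit 313)) (XT.lf (nat_lit 0) (nat_lit 4368631770) (nat_lit 0) (nat_lit 5241315356) (nat_lit 152) (nat_lit 18188662745) (nat_lit 122) (nat_lit 3) (nat_lit 122) (nat_lit 1) (nat_lit 124) (nat_lit 1) (nat_lit 312) (nat_lit 396) (nat_lit 312))))) (XT.nd (nat_lit 234) (nat_lit 456) (nat_lit 0) (XT.nd (nat_lit 78) (nat_lit 228) (nat_lit 0) (XT.lf (nat_lit 76) (nat_lit 7782333170) (nat_lit 0) (nat_lit 10719255337) (nat_lit 76) (nat_lit 8590373528) (nat_lit 122) (nat_lit 3) (nat_lit 121) (nat_lit 1) (nat_lit 122) (nat_lit 1) (nat_lit 313) (nat_lit 396) (nat_lit 311)) (XT.nd (nat_lit 78) (nat_lit 76) (nat_lit 0) (XT.lf (nat_lit 0) (nat_lit 5548266099) (nat_lit 0) (nat_lit 6260823733) (nat_lit 152) (nat_lit 14596393492) (nat_lit 119) (nat_lit 3) (nat_lit 119) (nat_lit 1) (nat_lit 121) (nat_lit 1) (nat_lit 314) (nat_lit 396) (nat_lit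 310)) (XT.lf (nat_lit 76) (nat_lit 6129665706) (nat_lit 0) (nat_lit 12816482233) (nat_lit 76) (nat_lit 6789441293) (nat_lit 119) (nat_lit 3) (nat_lit 118) (nat_lit 1) (nat_lit 119) (nat_lit 1) (nat_lit 315) (nat_lit 396) (nat_lit 309)))) (XT.nd (nat_lit 156) (nat_lit 228) (nat_lit 0) (XT.nd (nat_lit 78) (nat_lit 76) (nat_lit 0) (XT.lf (nat_lit 0) (nat_lit 6590702265) (nat_lit 0) (nat_lit 7172514953) (nat_lit 152) (nat_lit 11319530173) (nat_lit 116) (nat_lit 3) (nat_lit 116) (nat_lit 1) (nat_lit 118) (nat_lit 1) (nat_lit 316) (nat_lit 396) (nat_lit 308)) (XT.lf (nat_lit 76) (nat_lit 4616590169) (nat_lit 0) (nat_lit 14675768768) (nat_lit 76) (nat_lit 5155305620) (nat_lit 116) (nat_lit 3) (nat_lit 115) (nat_lit 1) (nat_lit 116) (nat_lit 1) (nat_lit 317) (nat_lit 396) (nat_lit 307))) (XT.nd (nat_lit 78) (nat_lit 76) (nat_lit 0) (XT.lf (nat_lit 0) (nat_lit 7507830441) (nat_lit 0) (nat_lit 7982888158)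 (nat_lit 152) (nat_lit 8336063692) (nat_lit 113) (nat_lit 3) (nat_lit 113) (nat_lit 1) (nat_lit 115) (nat_lit 1) (nat_lit 318) (nat_lit 396) (nat_lit 306)) (XT.lf (nat_lit 76) (nat_lit 3234837830) (nat_lit 0) (nat_lit 16315131434) (nat_lit 76) (nat_lit 3674706086) (nat_lit 113) (nat_lit 3) (nat_lit 112) (nat_lit 1) (nat_lit 113) (nat_lit 1) (nat_lit 319) (nat_lit 396) (nat_lit 305)))))) (XT.nd (nat_lit 546) (nat_lit 836) (nat_lit 0) (XT.nd (nat_lit 234) (nat_lit 532) (nat_lit 0) (XT.nd (nat_lit 78) (nat_lit 228) (nat_lit 0) (XT.lf (nat_lit 0) (nat_lit 8310512675) (nat_lit 0) (nat_lit 8698403554) (nat_lit 152) (nat_lit 5625247482) (nat_lit 110) (nat_lit 3) (nat_lit 110) (nat_lit 1) (nat_lit 112) (nat_lit 1) (nat_lit 320) (nat_lit 396) (nat_lit 304)) (XT.nd (nat_lit 78) (nat_lit 152) (nat_lit 0) (XT.lf (nat_lit 76) (nat_lit 1976307953) (nat_lit 0) (nat_lit 17751523639) (nat_lit 76) (nat_lit 2335466174)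 (nat_lit 110) (nat_lit 3) (nat_lit 109) (nat_lit 1) (nat_lit 110) (nat_lit 1) (nat_lit 321) (nat_lit 396) (nat_lit 303)) (XT.lf (nat_lit 0) (nat_lit 9008688068) (nat_lit 0) (nat_lit 9325406076) (nat_lit 152) (nat_lit 3167556544) (nat_lit 107) (nat_lit 3) (nat_lit 107) (nat_lit 1) (nat_lit 109) (nat_lit 1) (nat_lit 322) (nat_lit 396) (nat_lit 302)))) (XT.nd (nat_lit 156) (nat_lit 304) (nat_lit 0) (XT.nd (nat_lit 78) (nat_lit 152) (nat_lit 0) (XT.lf (nat_lit 76) (nat_lit 833129889) (nat_lit 0) (nat_lit 19000868003) (nat_lit 76) (nat_lit 1126387304) (nat_lit 107) (nat_lit 3) (nat_lit 106) (nat_lit 1) (nat_lit 107) (nat_lit 1) (nat_lit 323) (nat_lit 396) (nat_lit 301)) (XT.lf (nat_lit 0) (nat_lit 9611464181) (nat_lit 0) (nat_lit 9870068603) (nat_lit 152) (nat_lit 944641712) (nat_lit 104) (nat_lit 3) (nat_lit 104) (nat_lit 1) (nat_lit 106) (nat_lit 1) (nat_lit 324) (nat_lit 396) (nat_lit 300))) (XT.nd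 (nat_lit 78) (nat_lit 76) (nat_lit 0) (XT.lf (nat_lit 152) (nat_lit 19714238944) (nat_lit 0) (nat_lit 167333272) (nat_lit 76) (nat_lit 31096879) (nat_lit 103) (nat_lit 1) (nat_lit 101) (nat_lit 1) (nat_lit 102) (nat_lit 1) (nat_lit 325) (nat_lit 396) (nat_lit 299)) (XT.lf (nat_lit 76) (nat_lit 9048513869) (nat_lit 0) (nat_lit 1095791376) (nat_lit 76) (nat_lit 9259667783) (nat_lit 101) (nat_lit 3) (nat_lit 100) (nat_lit 1) (nat_lit 101) (nat_lit 1) (nat_lit 326) (nat_lit 396) (nat_lit 298))))) (XT.nd (nat_lit 234) (nat_lit 456) (nat_lit 0) (XT.nd (nat_lit 78) (nat_lit 228) (nat_lit 0) (XT.lf (nat_lit 0) (nat_lit 963431627) (nat_lit 0) (nat_lit 1149634374) (nat_lit 152) (nat_lit 16801798885) (nat_lit 98) (nat_lit 3) (nat_lit 98) (nat_lit 1) (nat_lit 100) (nat_lit 1) (nat_lit 327) (nat_lit 396) (nat_lit 297)) (XT.nd (nat_lit 78) (nat_lit 152) (nat_lit 0) (XT.lf (nat_lit 76) (nat_lit 7650373561)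 (nat_lit 0) (nat_lit 2959391160) (nat_lit 76) (nat_lit 7822783511) (nat_lit 98) (nat_lit 3) (nat_lit 97) (nat_lit 1) (nat_lit 98) (nat_lit 1) (nat_lit 328) (nat_lit 396) (nat_lit 296)) (XT.lf (nat_lit 0) (nat_lit 1853995130) (nat_lit 0) (nat_lit 2006032123) (nat_lit 152) (nat_lit 14107307721) (nat_lit 95) (nat_lit 3) (nat_lit 95) (nat_lit 1) (nat_lit 97) (nat_lit 1) (nat_lit 329) (nat_lit 396) (nat_lit 295)))) (XT.nd (nat_lit 156) (nat_lit 228) (nat_lit 0) (XT.nd (nat_lit 78) (nat_lit 152) (nat_lit 0) (XT.lf (nat_lit 76) (nat_lit 6369359893) (nat_lit 0) (nat_lit 4630544720) (nat_lit 76) (nat_lit 6510134887) (nat_lit 95) (nat_lit 3) (nat_lit 94) (nat_lit 1) (nat_lit 95) (nat_lit 1) (nat_lit 330) (nat_lit 396) (nat_lit 294)) (XT.lf (nat_lit 0) (nat_lit 2649781341) (nat_lit 0) (nat_lit 2773921548) (nat_lit 152) (nat_lit 11643841121) (nat_lit 92) (nat_lit 3) (nat_lit 92) (nat_lit 1) (nat_lit 94)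 (nat_lit 1) (nat_lit 331) (nat_lit 396) (nat_lit 293))) (XT.nd (nat_lit 78) (nat_lit 152) (nat_lit 0) (XT.lf (nat_lit 76) (nat_lit 5197574184) (nat_lit 0) (nat_lit 6123867966) (nat_lit 76) (nat_lit 5312518819) (nat_lit 92) (nat_lit 3) (nat_lit 91) (nat_lit 1) (nat_lit 92) (nat_lit 1) (nat_lit 332) (nat_lit 396) (nat_lit 292)) (XT.lf (nat_lit 0) (nat_lit 3358368357) (nat_lit 0) (nat_lit 3459730470) (nat_lit 152) (nat_lit 9394966638) (nat_lit 89) (nat_lit 3) (nat_lit 89) (nat_lit 1) (nat_lit 91) (nat_lit 1) (nat_lit 333) (nat_lit 396) (nat_lit 291))))))) (XT.nd (nat_lit 1014) (nat_lit 1596) (nat_lit 0) (XT.nd (nat_lit 468) (nat_lit 912) (nat_lit 0) (XT.nd (nat_lit 234) (nat_lit 380) (nat_lit 0) (XT.nd (nat_lit 78) (nat_lit 228) (nat_lit 0) (XT.lf (nat_lit 76) (nat_lit 4127538835) (nat_lit 0) (nat_lit 7453024250) (nat_lit 76) (nat_lit 4221392643) (nat_lit 89) (nat_lit 3) (nat_lit 88) (nat_lit 1)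 (nat_lit 89) (nat_lit 1) (nat_lit 334) (nat_lit 396) (nat_lit 290)) (XT.nd (nat_lit 78) (nat_lit 76) (nat_lit 0) (XT.lf (nat_lit 0) (nat_lit 3986769562) (nat_lit 0) (nat_lit 4069533061) (nat_lit 152) (nat_lit 7345295930) (nat_lit 86) (nat_lit 3) (nat_lit 86) (nat_lit 1) (nat_lit 88) (nat_lit 1) (nat_lit 335) (nat_lit 396) (nat_lit 289)) (XT.lf (nat_lit 76) (nat_lit 3152189908) (nat_lit 0) (nat_lit 8630776049) (nat_lit 76) (nat_lit 3228822777) (nat_lit 86) (nat_lit 3) (nat_lit 85) (nat_lit 1) (nat_lit 86) (nat_lit 1) (nat_lit 336) (nat_lit 396) (nat_lit 288)))) (XT.nd (nat_lit 78) (nat_lit 228) (nat_lit 0) (XT.lf (nat_lit 0) (nat_lit 4541478284) (nat_lit 0) (nat_lit 4609055770) (nat_lit 152) (nat_lit 5480427299) (nat_lit 83) (nat_lit 3) (nat_lit 83) (nat_lit 1) (nat_lit 85) (nat_lit 1) (nat_lit 337) (nat_lit 396) (nat_lit 287)) (XT.nd (nat_lit 78) (nat_lit 152) (nat_lit 0) (XT.lf (nat_lit 76)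 (nat_lit 2264866580) (nat_lit 0) (nat_lit 9669035268) (nat_lit 76) (nat_lit 2327438327) (nat_lit 83) (nat_lit 3) (nat_lit 82) (nat_lit 1) (nat_lit 83) (nat_lit 1) (nat_lit 338) (nat_lit 396) (nat_lit 286)) (XT.lf (nat_lit 0) (nat_lit 5028508138) (nat_lit 0) (nat_lit 5083686045) (nat_lit 152) (nat_lit 3786890188) (nat_lit 80) (nat_lit 3) (nat_lit 80) (nat_lit 1) (nat_lit 82) (nat_lit 1) (nat_lit 339) (nat_lit 396) (nat_lit 285))))) (XT.nd (nat_lit 234) (nat_lit 608) (nat_lit 0) (XT.nd (nat_lit 78) (nat_lit 228) (nat_lit 0) (XT.lf (nat_lit 76) (nat_lit 1459298357) (nat_lit 0) (nat_lit 10578911897) (nat_lit 76) (nat_lit 1510389012) (nat_lit 80) (nat_lit 3) (nat_lit 79) (nat_lit 1) (nat_lit 80) (nat_lit 1) (nat_lit 340) (nat_lit 396) (nat_lit 284)) (XT.nd (nat_lit 78) (nat_lit 76) (nat_lit 0) (XT.lf (nat_lit 0) (nat_lit 5453429608) (nat_lit 0) (nat_lit 5498483096) (nat_lit 152) (nat_lit 2252091795)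 (nat_lit 77) (nat_lit 3) (nat_lit 77) (nat_lit 1) (nat_lit 79) (nat_lit 1) (nat_lit 341) (nat_lit 396) (nat_lit 283)) (XT.lf (nat_lit 76) (nat_lit 729590682) (nat_lit 0) (nat_lit 11370760848) (nat_lit 76) (nat_lit 771306873) (nat_lit 77) (nat_lit 3) (nat_lit 76) (nat_lit 1) (nat_lit 77) (nat_lit 1) (nat_lit 342) (nat_lit 396) (nat_lit 282)))) (XT.nd (nat_lit 156) (nat_lit 380) (nat_lit 0) (XT.nd (nat_lit 78) (nat_lit 76) (nat_lit 0) (XT.lf (nat_lit 0) (nat_lit 5821403325) (nat_lit 0) (nat_lit 5858190091) (nat_lit 152) (nat_lit 864265922) (nat_lit 74) (nat_lit 3) (nat_lit 74) (nat_lit 1) (nat_lit 76) (nat_lit 1) (nat_lit 343) (nat_lit 396) (nat_lit 281)) (XT.lf (nat_lit 76) (nat_lit 70209504) (nat_lit 0) (nat_lit 12054226858) (nat_lit 76) (nat_lit 104271324) (nat_lit 74) (nat_lit 3) (nat_lit 73) (nat_lit 1) (nat_lit 74) (nat_lit 1) (nat_lit 344) (nat_lit 396) (nat_lit 280))) (XT.nd (nat_lit 78)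 (nat_lit 152) (nat_lit 0) (XT.lf (nat_lit 76) (nat_lit 5743070762) (nat_lit 0) (nat_lit 400390900) (nat_lit 76) (nat_lit 5773107640) (nat_lit 71) (nat_lit 3) (nat_lit 70) (nat_lit 1) (nat_lit 71) (nat_lit 1) (nat_lit 345) (nat_lit 396) (nat_lit 279)) (XT.lf (nat_lit 0) (nat_lit 505247815) (nat_lit 0) (nat_lit 531735362) (nat_lit 152) (nat_lit 10579413846) (nat_lit 68) (nat_lit 3) (nat_lit 68) (nat_lit 1) (nat_lit 70) (nat_lit 1) (nat_lit 346) (nat_lit 396) (nat_lit 278)))))) (XT.nd (nat_lit 546) (nat_lit 836) (nat_lit 0) (XT.nd (nat_lit 234) (nat_lit 456) (nat_lit 0) (XT.nd (nat_lit 78) (nat_lit 228) (nat_lit 0) (XT.lf (nat_lit 76) (nat_lit 4865954395) (nat_lit 0) (nat_lit 1563740380) (nat_lit 76) (nat_lit 4890479901) (nat_lit 68) (nat_lit 3) (nat_lit 67) (nat_lit 1) (nat_lit 68) (nat_lit 1) (nat_lit 347) (nat_lit 396) (nat_lit 277)) (XT.nd (nat_lit 78) (nat_lit 76) (nat_lit 0) (XT.lf (nat_lit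 0) (nat_lit 1052993784) (nat_lit 0) (nat_lit 1074621215) (nat_lit 152) (nat_lit 8907029992) (nat_lit 65) (nat_lit 3) (nat_lit 65) (nat_lit 1) (nat_lit 67) (nat_lit 1) (nat_lit 348) (nat_lit 396) (nat_lit 276)) (XT.lf (nat_lit 76) (nat_lit 4063327745) (nat_lit 0) (nat_lit 2607092765) (nat_lit 76) (nat_lit 4083353144) (nat_lit 65) (nat_lit 3) (nat_lit 64) (nat_lit 1) (nat_lit 65) (nat_lit 1) (nat_lit 349) (nat_lit 396) (nat_lit 275)))) (XT.nd (nat_lit 156) (nat_lit 228) (nat_lit 0) (XT.nd (nat_lit 78) (nat_lit 76) (nat_lit 0) (XT.lf (nat_lit 0) (nat_lit 1543178993) (nat_lit 0) (nat_lit 1560838074) (nat_lit 152) (nat_lit 7378152250) (nat_lit 62) (nat_lit 3) (nat_lit 62) (nat_lit 1) (nat_lit 64) (nat_lit 1) (nat_lit 350) (nat_lit 396) (nat_lit 274)) (XT.lf (nat_lit 76) (nat_lit 3329914760) (nat_lit 0) (nat_lit 3539668577) (nat_lit 76) (nat_lit 3346265762) (nat_lit 62) (nat_lit 3) (nat_lit 61) (nat_lit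 1) (nat_lit 62) (nat_lit 1) (nat_lit 351) (nat_lit 396) (nat_lit 273))) (XT.nd (nat_lit 78) (nat_lit 76) (nat_lit 0) (XT.lf (nat_lit 0) (nat_lit 1980296762) (nat_lit 0) (nat_lit 1994715634) (nat_lit 152) (nat_lit 5982475877) (nat_lit 59) (nat_lit 3) (nat_lit 59) (nat_lit 1) (nat_lit 61) (nat_lit 1) (nat_lit 352) (nat_lit 396) (nat_lit 272)) (XT.lf (nat_lit 76) (nat_lit 2660773651) (nat_lit 0) (nat_lit 4370063160) (nat_lit 76) (nat_lit 2674124459) (nat_lit 59) (nat_lit 3) (nat_lit 58) (nat_lit 1) (nat_lit 59) (nat_lit 1) (nat_lit 353) (nat_lit 396) (nat_lit 271))))) (XT.nd (nat_lit 234) (nat_lit 456) (nat_lit 0) (XT.nd (nat_lit 78) (nat_lit 228) (nat_lit 0) (XT.lf (nat_lit 0) (nat_lit 2368525333) (nat_lit 0) (nat_lit 2380298532) (nat_lit 152) (nat_lit 4710371879) (nat_lit 56) (nat_lit 3) (nat_lit 56) (nat_lit 1) (nat_lit 58) (nat_lit 1) (nat_lit 354) (nat_lit 396) (nat_lit 270)) (XT.nd (nat_lit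 78) (nat_lit 152) (nat_lit 0) (XT.lf (nat_lit 76) (nat_lit 2051278573) (nat_lit 0) (nat_lit 5106285548) (nat_lit 76) (nat_lit 2062179684) (nat_lit 56) (nat_lit 3) (nat_lit 55) (nat_lit 1) (nat_lit 56) (nat_lit 1) (nat_lit 355) (nat_lit 396) (nat_lit 269)) (XT.lf (nat_lit 0) (nat_lit 2711749348) (nat_lit 0) (nat_lit 2721362320) (nat_lit 152) (nat_lit 3552845636) (nat_lit 53) (nat_lit 3) (nat_lit 53) (nat_lit 1) (nat_lit 55) (nat_lit 1) (nat_lit 356) (nat_lit 396) (nat_lit 268)))) (XT.nd (nat_lit 156) (nat_lit 228) (nat_lit 0) (XT.nd (nat_lit 78) (nat_lit 152) (nat_lit 0) (XT.lf (nat_lit 76) (nat_lit 1497101915) (nat_lit 0) (nat_lit 5755795187) (nat_lit 76) (nat_lit 1506002815) (nat_lit 53) (nat_lit 3) (nat_lit 52) (nat_lit 1) (nat_lit 53) (nat_lit 1) (nat_lit 357) (nat_lit 396) (nat_lit 267)) (XT.lf (nat_lit 0) (nat_lit 3013579783) (nat_lit 0) (nat_lit 3021428901) (nat_lit 152) (nat_lit 2501497823)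 (nat_lit 50) (nat_lit 3) (nat_lit 50) (nat_lit 1) (nat_lit 52) (nat_lit 1) (nat_lit 358) (nat_lit 396) (nat_lit 266))) (XT.nd (nat_lit 78) (nat_lit 152) (nat_lit 0) (XT.lf (nat_lit 76) (nat_lit 994197258) (nat_lit 0) (nat_lit 6325536587) (nat_lit 76) (nat_lit 1001464960) (nat_lit 50) (nat_lit 3) (nat_lit 49) (nat_lit 1) (nat_lit 50) (nat_lit 1) (nat_lit 359) (nat_lit 396) (nat_lit 265)) (XT.lf (nat_lit 0) (nat_lit 3277372460) (nat_lit 0) (nat_lit 3283781369) (nat_lit 152) (nat_lit 1548487545) (nat_lit 47) (nat_lit 3) (nat_lit 47) (nat_lit 1) (nat_lit 49) (nat_lit 1) (nat_lit 360) (nat_lit 396) (nat_lit 264))))))))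
noncomputable def ec168 : XT := (XT.nd (nat_lit 2028) (nat_lit 380) (nat_lit 0) (XT.nd (nat_lit 1014) (nat_lit 1596) (nat_lit 0) (XT.nd (nat_lit 468) (nat_lit 836) (nat_lit 0) (XT.nd (nat_lit 234) (nat_lit 456) (nat_lit 0) (XT.nd (nat_lit 78) (nat_lit 228) (nat_lit 0) (XT.lf (nat_lit 76) (nat_lit 538783039) (nat_lit 0) (nat_lit 6821971992) (nat_lit 76) (nat_lit 544717214) (nat_lit 47) (nat_lit 3) (nat_lit 46) (nat_lit 1) (nat_lit 47) (nat_lit 1) (nat_lit 361) (nat_lit 396) (nat_lit 263)) (XT.nd (nat_lit 78) (nat_lit 76) (nat_lit 0) (XT.lf (nat_lit 0) (nat_lit 3506245270) (nat_lit 0) (nat_lit 3511478228) (nat_lit 152) (nat_lit 686497568) (nat_lit 44) (nat_lit 3) (nat_lit 44) (nat_lit 1) (nat_lit 46) (nat_lit 1) (nat_lit 362) (nat_lit 396) (nat_lit 262)) (XT.lf (nat_lit 76) (nat_lit 127326939) (nat_lit 0) (nat_lit 7251112165) (nat_lit 76) (nat_lit 132172271) (nat_lit 44) (nat_lit 3) (nat_lit 43)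 (nat_lit 1) (nat_lit 44) (nat_lit 1) (nat_lit 363) (nat_lit 396) (nat_lit 261)))) (XT.nd (nat_lit 78) (nat_lit 228) (nat_lit 0) (XT.lf (nat_lit 76) (nat_lit 3610249589) (nat_lit 0) (nat_lit 94317163) (nat_lit 76) (nat_lit 3614522368) (nat_lit 41) (nat_lit 3) (nat_lit 40) (nat_lit 1) (nat_lit 41) (nat_lit 1) (nat_lit 364) (nat_lit 396) (nat_lit 260)) (XT.nd (nat_lit 78) (nat_lit 76) (nat_lit 0) (XT.lf (nat_lit 0) (nat_lit 243565785) (nat_lit 0) (nat_lit 247333668) (nat_lit 152) (nat_lit 6643891265) (nat_lit 38) (nat_lit 3) (nat_lit 38) (nat_lit 1) (nat_lit 40) (nat_lit 1) (nat_lit 365) (nat_lit 396) (nat_lit 259)) (XT.lf (nat_lit 76) (nat_lit 3065941080) (nat_lit 0) (nat_lit 817429536) (nat_lit 76) (nat_lit 3069429860) (nat_lit 38) (nat_lit 3) (nat_lit 37) (nat_lit 1) (nat_lit 38) (nat_lit 1) (nat_lit 366) (nat_lit 396) (nat_lit 258))))) (XT.nd (nat_lit 234) (nat_lit 456) (nat_lit 0) (XT.nd (nat_lit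 78) (nat_lit 228) (nat_lit 0) (XT.lf (nat_lit 0) (nat_lit 582956410) (nat_lit 0) (nat_lit 586032936) (nat_lit 152) (nat_lit 5608499982) (nat_lit 35) (nat_lit 3) (nat_lit 35) (nat_lit 1) (nat_lit 37) (nat_lit 1) (nat_lit 367) (nat_lit 396) (nat_lit 257)) (XT.nd (nat_lit 78) (nat_lit 152) (nat_lit 0) (XT.lf (nat_lit 76) (nat_lit 2567903712) (nat_lit 0) (nat_lit 1466272291) (nat_lit 76) (nat_lit 2570752347) (nat_lit 35) (nat_lit 3) (nat_lit 34) (nat_lit 1) (nat_lit 35) (nat_lit 1) (nat_lit 368) (nat_lit 396) (nat_lit 256)) (XT.lf (nat_lit 0) (nat_lit 886935411) (nat_lit 0) (nat_lit 889447435) (nat_lit 152) (nat_lit 4661781954) (nat_lit 32) (nat_lit 3) (nat_lit 32) (nat_lit 1) (nat_lit 34) (nat_lit 1) (nat_lit 369) (nat_lit 396) (nat_lit 255)))) (XT.nd (nat_lit 156) (nat_lit 228) (nat_lit 0) (XT.nd (nat_lit 78) (nat_lit 152) (nat_lit 0) (XT.lf (nat_lit 76) (nat_lit 2112828217) (nat_lit 0) (nat_lit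 2046559789) (nat_lit 76) (nat_lit 2115154165) (nat_lit 32) (nat_lit 3) (nat_lit 31) (nat_lit 1) (nat_lit 32) (nat_lit 1) (nat_lit 370) (nat_lit 396) (nat_lit 254)) (XT.lf (nat_lit 0) (nat_lit 1158247619) (nat_lit 0) (nat_lit 1160298720) (nat_lit 152) (nat_lit 3797361823) (nat_lit 29) (nat_lit 3) (nat_lit 29) (nat_lit 1) (nat_lit 31) (nat_lit 1) (nat_lit 371) (nat_lit 396) (nat_lit 253))) (XT.nd (nat_lit 78) (nat_lit 152) (nat_lit 0) (XT.lf (nat_lit 76) (nat_lit 1697621833) (nat_lit 0) (nat_lit 2563615827) (nat_lit 76) (nat_lit 1699521000) (nat_lit 29) (nat_lit 3) (nat_lit 28) (nat_lit 1) (nat_lit 29) (nat_lit 1) (nat_lit 372) (nat_lit 396) (nat_lit 252)) (XT.lf (nat_lit 0) (nat_lit 1399448440) (nat_lit 0) (nat_lit 1401123191) (nat_lit 152) (nat_lit 3009285036) (nat_lit 26) (nat_lit 3) (nat_lit 26) (nat_lit 1) (nat_lit 28) (nat_lit 1) (nat_lit 373) (nat_lit 396) (nat_lit 251)))))) (XT.nd (nat_lit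 468) (nat_lit 912) (nat_lit 0) (XT.nd (nat_lit 234) (nat_lit 380) (nat_lit 0) (XT.nd (nat_lit 78) (nat_lit 228) (nat_lit 0) (XT.lf (nat_lit 76) (nat_lit 1319395071) (nat_lit 0) (nat_lit 3022398571) (nat_lit 76) (nat_lit 1320945766) (nat_lit 26) (nat_lit 3) (nat_lit 25) (nat_lit 1) (nat_lit 26) (nat_lit 1) (nat_lit 374) (nat_lit 396) (nat_lit 250)) (XT.nd (nat_lit 78) (nat_lit 76) (nat_lit 0) (XT.lf (nat_lit 0) (nat_lit 1612916225) (nat_lit 0) (nat_lit 1614283681) (nat_lit 152) (nat_lit 2291991510) (nat_lit 23) (nat_lit 3) (nat_lit 23) (nat_lit 1) (nat_lit 25) (nat_lit 1) (nat_lit 375) (nat_lit 396) (nat_lit 249)) (XT.lf (nat_lit 76) (nat_lit 975449214) (nat_lit 0) (nat_lit 3427523977) (nat_lit 76) (nat_lit 976715377) (nat_lit 23) (nat_lit 3) (nat_lit 22) (nat_lit 1) (nat_lit 23) (nat_lit 1) (nat_lit 376) (nat_lit 396) (nat_lit 248)))) (XT.nd (nat_lit 78) (nat_lit 228) (nat_lit 0) (XT.lf (nat_lit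 0) (nat_lit 1800863842) (nat_lit 0) (nat_lit 1801980388) (nat_lit 152) (nat_lit 1640290889) (nat_lit 20) (nat_lit 3) (nat_lit 20) (nat_lit 1) (nat_lit 22) (nat_lit 1) (nat_lit 377) (nat_lit 396) (nat_lit 247)) (XT.nd (nat_lit 78) (nat_lit 152) (nat_lit 0) (XT.lf (nat_lit 76) (nat_lit 663264528) (nat_lit 0) (nat_lit 3783287801) (nat_lit 76) (nat_lit 664298367) (nat_lit 20) (nat_lit 3) (nat_lit 19) (nat_lit 1) (nat_lit 20) (nat_lit 1) (nat_lit 378) (nat_lit 396) (nat_lit 246)) (XT.lf (nat_lit 0) (nat_lit 1965349509) (nat_lit 0) (nat_lit 1966261184) (nat_lit 152) (nat_lit 1049339271) (nat_lit 17) (nat_lit 3) (nat_lit 17) (nat_lit 1) (nat_lit 19) (nat_lit 1) (nat_lit 379) (nat_lit 396) (nat_lit 245))))) (XT.nd (nat_lit 234) (nat_lit 608) (nat_lit 0) (XT.nd (nat_lit 78) (nat_lit 228) (nat_lit 0) (XT.lf (nat_lit 76) (nat_lit 380489136) (nat_lit 0) (nat_lit 4093686255) (nat_lit 76) (nat_lit 381333279)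 (nat_lit 17) (nat_lit 3) (nat_lit 16) (nat_lit 1) (nat_lit 17) (nat_lit 1) (nat_lit 380) (nat_lit 396) (nat_lit 244)) (XT.nd (nat_lit 78) (nat_lit 76) (nat_lit 0) (XT.lf (nat_lit 0) (nat_lit 2108286929) (nat_lit 0) (nat_lit 2109031323) (nat_lit 152) (nat_lit 514617345) (nat_lit 14) (nat_lit 3) (nat_lit 14) (nat_lit 1) (nat_lit 16) (nat_lit 1) (nat_lit 381) (nat_lit 396) (nat_lit 243)) (XT.lf (nat_lit 76) (nat_lit 124928539) (nat_lit 0) (nat_lit 4362435413) (nat_lit 76) (nat_lit 125617793) (nat_lit 14) (nat_lit 3) (nat_lit 13) (nat_lit 1) (nat_lit 14) (nat_lit 1) (nat_lit 382) (nat_lit 396) (nat_lit 242)))) (XT.nd (nat_lit 156) (nat_lit 228) (nat_lit 0) (XT.nd (nat_lit 78) (nat_lit 228) (nat_lit 0) (XT.lf (nat_lit 0) (nat_lit 2231454776) (nat_lit 0) (nat_lit 2232062584) (nat_lit 152) (nat_lit 31909846) (nat_lit 11) (nat_lit 3) (nat_lit 11) (nat_lit 1) (nat_lit 13) (nat_lit 1) (nat_lit 383) (nat_lit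 396) (nat_lit 241)) (XT.lf (nat_lit 0) (nat_lit 106639175) (nat_lit 0) (nat_lit 107175161) (nat_lit 152) (nat_lit 4168472700) (nat_lit 8) (nat_lit 3) (nat_lit 8) (nat_lit 1) (nat_lit 10) (nat_lit 1) (nat_lit 384) (nat_lit 396) (nat_lit 240))) (XT.nd (nat_lit 78) (nat_lit 152) (nat_lit 0) (XT.lf (nat_lit 76) (nat_lit 1926971696) (nat_lit 0) (nat_lit 416029272) (nat_lit 76) (nat_lit 1927467979) (nat_lit 8) (nat_lit 3) (nat_lit 7) (nat_lit 1) (nat_lit 8) (nat_lit 1) (nat_lit 385) (nat_lit 396) (nat_lit 239)) (XT.lf (nat_lit 0) (nat_lit 317270220) (nat_lit 0) (nat_lit 317707859) (nat_lit 152) (nat_lit 3527843168) (nat_lit 5) (nat_lit 3) (nat_lit 5) (nat_lit 1) (nat_lit 7) (nat_lit 1) (nat_lit 386) (nat_lit 396) (nat_lit 238))))))) (XT.nd (nat_lit 1014) (nat_lit 0) (nat_lit 0) (XT.nd (nat_lit 468) (nat_lit 0) (nat_lit 0) (XT.nd (nat_lit 234) (nat_lit 76) (nat_lit 0) (XT.nd (nat_lit 78) (nat_lit 228)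 (nat_lit 0) (XT.lf (nat_lit 76) (nat_lit 1618628332) (nat_lit 0) (nat_lit 819134720) (nat_lit 76) (nat_lit 1619033553) (nat_lit 5) (nat_lit 3) (nat_lit 4) (nat_lit 1) (nat_lit 5) (nat_lit 1) (nat_lit 387) (nat_lit 396) (nat_lit 237)) (XT.nd (nat_lit 78) (nat_lit 76) (nat_lit 0) (XT.lf (nat_lit 0) (nat_lit 506050745) (nat_lit 0) (nat_lit 506408083) (nat_lit 152) (nat_lit 2941938404) (nat_lit 2) (nat_lit 3) (nat_lit 2) (nat_lit 1) (nat_lit 4) (nat_lit 1) (nat_lit 388) (nat_lit 396) (nat_lit 236)) (XT.lf (nat_lit 76) (nat_lit 1336827508) (nat_lit 0) (nat_lit 1179878581) (nat_lit 76) (nat_lit 1337158376) (nat_lit 2) (nat_lit 3) (nat_lit 1) (nat_lit 1) (nat_lit 2) (nat_lit 1) (nat_lit 389) (nat_lit 396) (nat_lit 235)))) (XT.nd (nat_lit 78) (nat_lit 0) (nat_lit 0) (XT.lf (nat_lit 0) (nat_lit 79915652322) (nat_lit 0) (nat_lit 0) (nat_lit 0) (nat_lit 0) (nat_lit 0) (nat_lit 0) (nat_lit 1) (nat_lit 0)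 (nat_lit 1) (nat_lit 0) (nat_lit 390) (nat_lit 396) (nat_lit 234)) (XT.nd (nat_lit 78) (nat_lit 0) (nat_lit 0) (XT.lf (nat_lit 0) (nat_lit 79915629537) (nat_lit 0) (nat_lit 0) (nat_lit 0) (nat_lit 0) (nat_lit 0) (nat_lit 0) (nat_lit 1) (nat_lit 0) (nat_lit 1) (nat_lit 0) (nat_lit 391) (nat_lit 396) (nat_lit 233)) (XT.lf (nat_lit 0) (nat_lit 79915608440) (nat_lit 0) (nat_lit 0) (nat_lit 0) (nat_lit 0) (nat_lit 0) (nat_lit 0) (nat_lit 1) (nat_lit 0) (nat_lit 1) (nat_lit 0) (nat_lit 392) (nat_lit 396) (nat_lit 232))))) (XT.nd (nat_lit 234) (nat_lit 0) (nat_lit 0) (XT.nd (nat_lit 78) (nat_lit 0) (nat_lit 0) (XT.lf (nat_lit 0) (nat_lit 79915588905) (nat_lit 0) (nat_lit 0) (nat_lit 0) (nat_lit 0) (nat_lit 0) (nat_lit 0) (nat_lit 1) (nat_lit 0) (nat_lit 1) (nat_lit 0) (nat_lit 393) (nat_lit 396) (nat_lit 231)) (XT.nd (nat_lit 78) (nat_lit 0) (nat_lit 0) (XT.lf (nat_lit 0) (nat_lit 79915570818) (nat_lit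 0) (nat_lit 0) (nat_lit 0) (nat_lit 0) (nat_lit 0) (nat_lit 0) (nat_lit 1) (nat_lit 0) (nat_lit 1) (nat_lit 0) (nat_lit 394) (nat_lit 396) (nat_lit 230)) (XT.lf (nat_lit 0) (nat_lit 79915554070) (nat_lit 0) (nat_lit 0) (nat_lit 0) (nat_lit 0) (nat_lit 0) (nat_lit 0) (nat_lit 1) (nat_lit 0) (nat_lit 1) (nat_lit 0) (nat_lit 395) (nat_lit 396) (nat_lit 229)))) (XT.nd (nat_lit 156) (nat_lit 0) (nat_lit 0) (XT.nd (nat_lit 78) (nat_lit 0) (nat_lit 0) (XT.lf (nat_lit 0) (nat_lit 79915538563) (nat_lit 0) (nat_lit 0) (nat_lit 0) (nat_lit 0) (nat_lit 0) (nat_lit 0) (nat_lit 1) (nat_lit 0) (nat_lit 1) (nat_lit 0) (nat_lit 396) (nat_lit 396) (nat_lit 228)) (XT.lf (nat_lit 0) (nat_lit 79915524205) (nat_lit 0) (nat_lit 0) (nat_lit 0) (nat_lit 0) (nat_lit 0) (nat_lit 0) (nat_lit 1) (nat_lit 0) (nat_lit 1) (nat_lit 0) (nat_lit 397) (nat_lit 396) (nat_lit 227))) (XT.nd (nat_lit 78) (nat_lit 0) (nat_lit 0) (XT.lf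 (nat_lit 0) (nat_lit 79915510910) (nat_lit 0) (nat_lit 0) (nat_lit 0) (nat_lit 0) (nat_lit 0) (nat_lit 0) (nat_lit 1) (nat_lit 0) (nat_lit 1) (nat_lit 0) (nat_lit 398) (nat_lit 396) (nat_lit 226)) (XT.lf (nat_lit 0) (nat_lit 79915498600) (nat_lit 0) (nat_lit 0) (nat_lit 0) (nat_lit 0) (nat_lit 0) (nat_lit 0) (nat_lit 1) (nat_lit 0) (nat_lit 1) (nat_lit 0) (nat_lit 399) (nat_lit 396) (nat_lit 225)))))) (XT.nd (nat_lit 546) (nat_lit 0) (nat_lit 0) (XT.nd (nat_lit 234) (nat_lit 0) (nat_lit 0) (XT.nd (nat_lit 78) (nat_lit 0) (nat_lit 0) (XT.lf (nat_lit 0) (nat_lit 79915487202) (nat_lit 0) (nat_lit 0) (nat_lit 0) (nat_lit 0) (nat_lit 0) (nat_lit 0) (nat_lit 1) (nat_lit 0) (nat_lit 1) (nat_lit 0) (nat_lit 400) (nat_lit 396) (nat_lit 224)) (XT.nd (nat_lit 78) (nat_lit 0) (nat_lit 0) (XT.lf (nat_lit 0) (nat_lit 79915476648) (nat_lit 0) (nat_lit 0) (nat_lit 0) (nat_lit 0) (nat_lit 0) (nat_lit 0) (nat_lit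 1) (nat_lit 0) (nat_lit 1) (nat_lit 0) (nat_lit 401) (nat_lit 396) (nat_lit 223)) (XT.lf (nat_lit 0) (nat_lit 79915466876) (nat_lit 0) (nat_lit 0) (nat_lit 0) (nat_lit 0) (nat_lit 0) (nat_lit 0) (nat_lit 1) (nat_lit 0) (nat_lit 1) (nat_lit 0) (nat_lit 402) (nat_lit 396) (nat_lit 222)))) (XT.nd (nat_lit 156) (nat_lit 0) (nat_lit 0) (XT.nd (nat_lit 78) (nat_lit 0) (nat_lit 0) (XT.lf (nat_lit 0) (nat_lit 79915457828) (nat_lit 0) (nat_lit 0) (nat_lit 0) (nat_lit 0) (nat_lit 0) (nat_lit 0) (nat_lit 1) (nat_lit 0) (nat_lit 1) (nat_lit 0) (nat_lit 403) (nat_lit 396) (nat_lit 221)) (XT.lf (nat_lit 0) (nat_lit 79915449450) (nat_lit 0) (nat_lit 0) (nat_lit 0) (nat_lit 0) (nat_lit 0) (nat_lit 0) (nat_lit 1) (nat_lit 0) (nat_lit 1) (nat_lit 0) (nat_lit 404) (nat_lit 396) (nat_lit 220))) (XT.nd (nat_lit 78) (nat_lit 0) (nat_lit 0) (XT.lf (nat_lit 0) (nat_lit 79915441692) (nat_lit 0) (nat_lit 0) (nat_lit 0)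 (nat_lit 0) (nat_lit 0) (nat_lit 0) (nat_lit 1) (nat_lit 0) (nat_lit 1) (nat_lit 0) (nat_lit 405) (nat_lit 396) (nat_lit 219)) (XT.lf (nat_lit 0) (nat_lit 79915434510) (nat_lit 0) (nat_lit 0) (nat_lit 0) (nat_lit 0) (nat_lit 0) (nat_lit 0) (nat_lit 1) (nat_lit 0) (nat_lit 1) (nat_lit 0) (nat_lit 406) (nat_lit 396) (nat_lit 218))))) (XT.nd (nat_lit 234) (nat_lit 0) (nat_lit 0) (XT.nd (nat_lit 78) (nat_lit 0) (nat_lit 0) (XT.lf (nat_lit 0) (nat_lit 79915427859) (nat_lit 0) (nat_lit 0) (nat_lit 0) (nat_lit 0) (nat_lit 0) (nat_lit 0) (nat_lit 1) (nat_lit 0) (nat_lit 1) (nat_lit 0) (nat_lit 407) (nat_lit 396) (nat_lit 217)) (XT.nd (nat_lit 78) (nat_lit 0) (nat_lit 0) (XT.lf (nat_lit 0) (nat_lit 79915421701) (nat_lit 0) (nat_lit 0) (nat_lit 0) (nat_lit 0) (nat_lit 0) (nat_lit 0) (nat_lit 1) (nat_lit 0) (nat_lit 1) (nat_lit 0) (nat_lit 408) (nat_lit 396) (nat_lit 216)) (XT.lf (nat_lit 0) (nat_lit 79915415999)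 (nat_lit 0) (nat_lit 0) (nat_lit 0) (nat_lit 0) (nat_lit 0) (nat_lit 0) (nat_lit 1) (nat_lit 0) (nat_lit 1) (nat_lit 0) (nat_lit 409) (nat_lit 396) (nat_lit 215)))) (XT.nd (nat_lit 156) (nat_lit 0) (nat_lit 0) (XT.nd (nat_lit 78) (nat_lit 0) (nat_lit 0) (XT.lf (nat_lit 0) (nat_lit 79915410719) (nat_lit 0) (nat_lit 0) (nat_lit 0) (nat_lit 0) (nat_lit 0) (nat_lit 0) (nat_lit 1) (nat_lit 0) (nat_lit 1) (nat_lit 0) (nat_lit 410) (nat_lit 396) (nat_lit 214)) (XT.lf (nat_lit 0) (nat_lit 79915405831) (nat_lit 0) (nat_lit 0) (nat_lit 0) (nat_lit 0) (nat_lit 0) (nat_lit 0) (nat_lit 1) (nat_lit 0) (nat_lit 1) (nat_lit 0) (nat_lit 411) (nat_lit 396) (nat_lit 213))) (XT.nd (nat_lit 78) (nat_lit 0) (nat_lit 0) (XT.lf (nat_lit 0) (nat_lit 79915401305) (nat_lit 0) (nat_lit 0) (nat_lit 0) (nat_lit 0) (nat_lit 0) (nat_lit 0) (nat_lit 1) (nat_lit 0) (nat_lit 1) (nat_lit 0) (nat_lit 412) (nat_lit 396) (nat_lit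 212)) (XT.lf (nat_lit 0) (nat_lit 79915397114) (nat_lit 0) (nat_lit 0) (nat_lit 0) (nat_lit 0) (nat_lit 0) (nat_lit 0) (nat_lit 1) (nat_lit 0) (nat_lit 1) (nat_lit 0) (nat_lit 413) (nat_lit 396) (nat_lit 211))))))))
noncomputable def ec169 : XT := (XT.nd (nat_lit 40326) (nat_lit 0) (nat_lit 13376) (XT.nd (nat_lit 39234) (nat_lit 0) (nat_lit 17176) (XT.nd (nat_lit 38688) (nat_lit 0) (nat_lit 20900) (XT.nd (nat_lit 38454) (nat_lit 0) (nat_lit 22192) (XT.nd (nat_lit 78) (nat_lit 0) (nat_lit 0) (XT.lf (nat_lit 0) (nat_lit 79915393233) (nat_lit 0) (nat_lit 0) (nat_lit 0) (nat_lit 0) (nat_lit 0) (nat_lit 0) (nat_lit 1) (nat_lit 0) (nat_lit 1) (nat_lit 0) (nat_lit 414) (nat_lit 396) (nat_lit 210)) (XT.nd (nat_lit 78) (nat_lit 0) (nat_lit 0) (XT.lf (nat_lit 0) (nat_lit 79915389640) (nat_lit 0) (nat_lit 0) (nat_lit 0) (nat_lit 0) (nat_lit 0) (nat_lit 0) (nat_lit 1) (nat_lit 0) (nat_lit 1) (nat_lit 0)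 (nat_lit 415) (nat_lit 396) (nat_lit 209)) (XT.lf (nat_lit 0) (nat_lit 79915386313) (nat_lit 0) (nat_lit 0) (nat_lit 0) (nat_lit 0) (nat_lit 0) (nat_lit 0) (nat_lit 1) (nat_lit 0) (nat_lit 1) (nat_lit 0) (nat_lit 416) (nat_lit 396) (nat_lit 208)))) (XT.nd (nat_lit 78) (nat_lit 0) (nat_lit 76) (XT.lf (nat_lit 836) (nat_lit 43192042492) (nat_lit 0) (nat_lit 76687372165) (nat_lit 836) (nat_lit 43192042492) (nat_lit 303) (nat_lit 1) (nat_lit 292) (nat_lit 0) (nat_lit 303) (nat_lit 0) (nat_lit 226) (nat_lit 397) (nat_lit 397)) (XT.nd (nat_lit 78) (nat_lit 0) (nat_lit 0) (XT.lf (nat_lit 836) (nat_lit 16111957160) (nat_lit 0) (nat_lit 150560553682) (nat_lit 760) (nat_lit 147247718490) (nat_lit 304) (nat_lit 1) (nat_lit 293) (nat_lit 1) (nat_lit 303) (nat_lit 1) (nat_lit 227) (nat_lit 397) (nat_lit 396)) (XT.lf (nat_lit 836) (nat_lit 147979026561) (nat_lit 76) (nat_lit 100830453551) (nat_lit 0) (nat_lit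 53475873071) (nat_lit 304) (nat_lit 1) (nat_lit 294) (nat_lit 1) (nat_lit 293) (nat_lit 1) (nat_lit 228) (nat_lit 397) (nat_lit 395))))) (XT.nd (nat_lit 234) (nat_lit 1444) (nat_lit 0) (XT.nd (nat_lit 78) (nat_lit 0) (nat_lit 76) (XT.lf (nat_lit 836) (nat_lit 127866001565) (nat_lit 76) (nat_lit 42257344193) (nat_lit 0) (nat_lit 121109369992) (nat_lit 305) (nat_lit 1) (nat_lit 295) (nat_lit 1) (nat_lit 294) (nat_lit 1) (nat_lit 229) (nat_lit 397) (nat_lit 394)) (XT.nd (nat_lit 78) (nat_lit 0) (nat_lit 76) (XT.lf (nat_lit 836) (nat_lit 94631711948) (nat_lit 0) (nat_lit 177051460008) (nat_lit 760) (nat_lit 9050845340) (nat_lit 306) (nat_lit 1) (nat_lit 295) (nat_lit 1) (nat_lit 305) (nat_lit 1) (nat_lit 230) (nat_lit 397) (nat_lit 393)) (XT.lf (nat_lit 836) (nat_lit 22705951443) (nat_lit 0) (nat_lit 195248421462) (nat_lit 760) (nat_lit 52782332278) (nat_lit 307) (nat_lit 1) (nat_lit 296) (nat_lit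 1) (nat_lit 306) (nat_lit 1) (nat_lit 231) (nat_lit 397) (nat_lit 392)))) (XT.nd (nat_lit 156) (nat_lit 912) (nat_lit 0) (XT.nd (nat_lit 78) (nat_lit 684) (nat_lit 0) (XT.lf (nat_lit 836) (nat_lit 43631603382) (nat_lit 76) (nat_lit 169686778012) (nat_lit 0) (nat_lit 47887702292) (nat_lit 307) (nat_lit 1) (nat_lit 297) (nat_lit 1) (nat_lit 296) (nat_lit 1) (nat_lit 232) (nat_lit 397) (nat_lit 391)) (XT.lf (nat_lit 836) (nat_lit 8960936400) (nat_lit 0) (nat_lit 126852090912) (nat_lit 760) (nat_lit 116322038231) (nat_lit 298) (nat_lit 1) (nat_lit 287) (nat_lit 1) (nat_lit 297) (nat_lit 1) (nat_lit 233) (nat_lit 397) (nat_lit 390))) (XT.nd (nat_lit 78) (nat_lit 380) (nat_lit 0) (XT.lf (nat_lit 76) (nat_lit 62047390276) (nat_lit 0) (nat_lit 26888021658) (nat_lit 532) (nat_lit 154558139419) (nat_lit 281) (nat_lit 1) (nat_lit 280) (nat_lit 1) (nat_lit 287) (nat_lit 1) (nat_lit 234) (nat_lit 397) (nat_lit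 389)) (XT.lf (nat_lit 456) (nat_lit 170994797893) (nat_lit 0) (nat_lit 55662493064) (nat_lit 380) (nat_lit 8605765361) (nat_lit 281) (nat_lit 1) (nat_lit 275) (nat_lit 1) (nat_lit 280) (nat_lit 1) (nat_lit 235) (nat_lit 397) (nat_lit 388)))))) (XT.nd (nat_lit 546) (nat_lit 1824) (nat_lit 0) (XT.nd (nat_lit 234) (nat_lit 1216) (nat_lit 0) (XT.nd (nat_lit 78) (nat_lit 304) (nat_lit 0) (XT.lf (nat_lit 456) (nat_lit 123391474496) (nat_lit 0) (nat_lit 25944527791) (nat_lit 380) (nat_lit 78050455567) (nat_lit 276) (nat_lit 1) (nat_lit 270) (nat_lit 1) (nat_lit 275) (nat_lit 1) (nat_lit 236) (nat_lit 397) (nat_lit 387)) (XT.nd (nat_lit 78) (nat_lit 0) (nat_lit 0) (XT.lf (nat_lit 380) (nat_lit 75082138503) (nat_lit 0) (nat_lit 477680918) (nat_lit 304) (nat_lit 144331959100) (nat_lit 271) (nat_lit 1) (nat_lit 266) (nat_lit 1) (nat_lit 270) (nat_lit 1) (nat_lit 237) (nat_lit 397) (nat_lit 386)) (XT.lf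 (nat_lit 76) (nat_lit 5539205341) (nat_lit 0) (nat_lit 186808844799) (nat_lit 380) (nat_lit 20393817682) (nat_lit 267) (nat_lit 1) (nat_lit 266) (nat_lit 1) (nat_lit 271) (nat_lit 1) (nat_lit 238) (nat_lit 397) (nat_lit 385)))) (XT.nd (nat_lit 156) (nat_lit 532) (nat_lit 0) (XT.nd (nat_lit 78) (nat_lit 304) (nat_lit 0) (XT.lf (nat_lit 76) (nat_lit 143023718622) (nat_lit 0) (nat_lit 23722014077) (nat_lit 380) (nat_lit 39121909458) (nat_lit 262) (nat_lit 1) (nat_lit 261) (nat_lit 1) (nat_lit 266) (nat_lit 1) (nat_lit 239) (nat_lit 397) (nat_lit 384)) (XT.lf (nat_lit 76) (nat_lit 71558390740) (nat_lit 0) (nat_lit 72664740163) (nat_lit 380) (nat_lit 55074023930) (nat_lit 258) (nat_lit 1) (nat_lit 257) (nat_lit 1) (nat_lit 262) (nat_lit 1) (nat_lit 240) (nat_lit 397) (nat_lit 383))) (XT.nd (nat_lit 78) (nat_lit 228) (nat_lit 0) (XT.lf (nat_lit 76) (nat_lit 3531963488) (nat_lit 0) (nat_lit 121494317229)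 (nat_lit 380) (nat_lit 68011477651) (nat_lit 254) (nat_lit 1) (nat_lit 253) (nat_lit 1) (nat_lit 258) (nat_lit 1) (nat_lit 241) (nat_lit 397) (nat_lit 382)) (XT.lf (nat_lit 304) (nat_lit 15950148055) (nat_lit 0) (nat_lit 107863216453) (nat_lit 228) (nat_lit 63210323809) (nat_lit 254) (nat_lit 1) (nat_lit 250) (nat_lit 1) (nat_lit 253) (nat_lit 1) (nat_lit 242) (nat_lit 397) (nat_lit 381))))) (XT.nd (nat_lit 234) (nat_lit 988) (nat_lit 0) (XT.nd (nat_lit 78) (nat_lit 456) (nat_lit 0) (XT.lf (nat_lit 76) (nat_lit 55112049885) (nat_lit 0) (nat_lit 37774141442) (nat_lit 380) (nat_lit 88371879077) (nat_lit 246) (nat_lit 1) (nat_lit 245) (nat_lit 1) (nat_lit 250) (nat_lit 1) (nat_lit 243) (nat_lit 397) (nat_lit 380)) (XT.nd (nat_lit 78) (nat_lit 228) (nat_lit 0) (XT.lf (nat_lit 304) (nat_lit 85326709389) (nat_lit 0) (nat_lit 80153415253) (nat_lit 228) (nat_lit 10259542024) (nat_lit 246) (nat_lit 1)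 (nat_lit 242) (nat_lit 1) (nat_lit 245) (nat_lit 1) (nat_lit 244) (nat_lit 397) (nat_lit 379)) (XT.lf (nat_lit 304) (nat_lit 27346798140) (nat_lit 0) (nat_lit 69008808283) (nat_lit 228) (nat_lit 74077730301) (nat_lit 243) (nat_lit 1) (nat_lit 239) (nat_lit 1) (nat_lit 242) (nat_lit 1) (nat_lit 245) (nat_lit 397) (nat_lit 378)))) (XT.nd (nat_lit 156) (nat_lit 456) (nat_lit 0) (XT.nd (nat_lit 78) (nat_lit 228) (nat_lit 0) (XT.lf (nat_lit 76) (nat_lit 31168742012) (nat_lit 0) (nat_lit 28537691936) (nat_lit 304) (nat_lit 105640954708) (nat_lit 236) (nat_lit 1) (nat_lit 235) (nat_lit 1) (nat_lit 239) (nat_lit 1) (nat_lit 246) (nat_lit 397) (nat_lit 377)) (XT.lf (nat_lit 304) (nat_lit 77559323611) (nat_lit 0) (nat_lit 51605099805) (nat_lit 228) (nat_lit 31283181171) (nat_lit 236) (nat_lit 1) (nat_lit 232) (nat_lit 1) (nat_lit 235) (nat_lit 1) (nat_lit 247) (nat_lit 397) (nat_lit 376))) (XT.nd (nat_lit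 78) (nat_lit 304) (nat_lit 0) (XT.lf (nat_lit 228) (nat_lit 19227070844) (nat_lit 0) (nat_lit 45021685493) (nat_lit 152) (nat_lit 91496735138) (nat_lit 233) (nat_lit 1) (nat_lit 230) (nat_lit 1) (nat_lit 232) (nat_lit 1) (nat_lit 248) (nat_lit 397) (nat_lit 375)) (XT.lf (nat_lit 76) (nat_lit 3257188638) (nat_lit 0) (nat_lit 36448647966) (nat_lit 304) (nat_lit 111519808053) (nat_lit 227) (nat_lit 1) (nat_lit 226) (nat_lit 1) (nat_lit 230) (nat_lit 1) (nat_lit 249) (nat_lit 397) (nat_lit 374))))))) (XT.nd (nat_lit 1014) (nat_lit 1748) (nat_lit 0) (XT.nd (nat_lit 468) (nat_lit 988) (nat_lit 0) (XT.nd (nat_lit 234) (nat_lit 532) (nat_lit 0) (XT.nd (nat_lit 78) (nat_lit 380) (nat_lit 0) (XT.lf (nat_lit 228) (nat_lit 55870339956) (nat_lit 0) (nat_lit 34914169365) (nat_lit 152) (nat_lit 56064769301) (nat_lit 227) (nat_lit 1) (nat_lit 224) (nat_lit 1) (nat_lit 226) (nat_lit 1) (nat_lit 250) (nat_lit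 397) (nat_lit 373)) (XT.nd (nat_lit 78) (nat_lit 152) (nat_lit 0) (XT.lf (nat_lit 76) (nat_lit 30312911624) (nat_lit 0) (nat_lit 1400172392) (nat_lit 228) (nat_lit 110950798106) (nat_lit 222) (nat_lit 1) (nat_lit 221) (nat_lit 1) (nat_lit 224) (nat_lit 1) (nat_lit 251) (nat_lit 397) (nat_lit 372)) (XT.lf (nat_lit 228) (nat_lit 82869646818) (nat_lit 0) (nat_lit 28716190716) (nat_lit 152) (nat_lit 27014398292) (nat_lit 222) (nat_lit 1) (nat_lit 219) (nat_lit 1) (nat_lit 221) (nat_lit 1) (nat_lit 252) (nat_lit 397) (nat_lit 371)))) (XT.nd (nat_lit 78) (nat_lit 380) (nat_lit 0) (XT.lf (nat_lit 228) (nat_lit 25742633120) (nat_lit 0) (nat_lit 26694874755) (nat_lit 152) (nat_lit 82254452639) (nat_lit 220) (nat_lit 1) (nat_lit 217) (nat_lit 1) (nat_lit 219) (nat_lit 1) (nat_lit 253) (nat_lit 397) (nat_lit 370)) (XT.nd (nat_lit 78) (nat_lit 152) (nat_lit 0) (XT.lf (nat_lit 228) (nat_lit 102188792804)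 (nat_lit 0) (nat_lit 25504786137) (nat_lit 152) (nat_lit 3235578019) (nat_lit 217) (nat_lit 1) (nat_lit 214) (nat_lit 1) (nat_lit 216) (nat_lit 1) (nat_lit 254) (nat_lit 397) (nat_lit 369)) (XT.lf (nat_lit 228) (nat_lit 45734967609) (nat_lit 0) (nat_lit 24348471906) (nat_lit 152) (nat_lit 57187470327) (nat_lit 215) (nat_lit 1) (nat_lit 212) (nat_lit 1) (nat_lit 214) (nat_lit 1) (nat_lit 255) (nat_lit 397) (nat_lit 368))))) (XT.nd (nat_lit 234) (nat_lit 608) (nat_lit 0) (XT.nd (nat_lit 78) (nat_lit 228) (nat_lit 0) (XT.lf (nat_lit 76) (nat_lit 15665992184) (nat_lit 0) (nat_lit 8610735234) (nat_lit 152) (nat_lit 99487669941) (nat_lit 211) (nat_lit 1) (nat_lit 210) (nat_lit 1) (nat_lit 212) (nat_lit 1) (nat_lit 256) (nat_lit 397) (nat_lit 367)) (XT.nd (nat_lit 78) (nat_lit 76) (nat_lit 0) (XT.lf (nat_lit 228) (nat_lit 60006907753) (nat_lit 0) (nat_lit 24019663898) (nat_lit 152) (nat_lit 36319796735)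 (nat_lit 211) (nat_lit 1) (nat_lit 208) (nat_lit 1) (nat_lit 210) (nat_lit 1) (nat_lit 257) (nat_lit 397) (nat_lit 366)) (XT.lf (nat_lit 152) (nat_lit 6461891277) (nat_lit 0) (nat_lit 24609617883) (nat_lit 76) (nat_lit 85991769637) (nat_lit 209) (nat_lit 1) (nat_lit 207) (nat_lit 1) (nat_lit 208) (nat_lit 1) (nat_lit 258) (nat_lit 397) (nat_lit 365)))) (XT.nd (nat_lit 156) (nat_lit 304) (nat_lit 0) (XT.nd (nat_lit 78) (nat_lit 76) (nat_lit 0) (XT.lf (nat_lit 228) (nat_lit 69753730641) (nat_lit 0) (nat_lit 25169071934) (nat_lit 152) (nat_lit 18947911552) (nat_lit 207) (nat_lit 1) (nat_lit 204) (nat_lit 1) (nat_lit 206) (nat_lit 1) (nat_lit 259) (nat_lit 397) (nat_lit 364)) (XT.lf (nat_lit 152) (nat_lit 17543577618) (nat_lit 0) (nat_lit 26110168895) (nat_lit 76) (nat_lit 67131998785) (nat_lit 205) (nat_lit 1) (nat_lit 203) (nat_lit 1) (nat_lit 204) (nat_lit 1) (nat_lit 260) (nat_lit 397) (nat_lit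 363))) (XT.nd (nat_lit 78) (nat_lit 76) (nat_lit 0) (XT.lf (nat_lit 228) (nat_lit 75941833068) (nat_lit 0) (nat_lit 27369470066) (nat_lit 152) (nat_lit 4491564333) (nat_lit 203) (nat_lit 1) (nat_lit 200) (nat_lit 1) (nat_lit 202) (nat_lit 1) (nat_lit 261) (nat_lit 397) (nat_lit 362)) (XT.lf (nat_lit 152) (nat_lit 25247615031) (nat_lit 0) (nat_lit 28533001422) (nat_lit 76) (nat_lit 51119336176) (nat_lit 201) (nat_lit 1) (nat_lit 199) (nat_lit 1) (nat_lit 200) (nat_lit 1) (nat_lit 262) (nat_lit 397) (nat_lit 361)))))) (XT.nd (nat_lit 546) (nat_lit 760) (nat_lit 0) (XT.nd (nat_lit 234) (nat_lit 456) (nat_lit 0) (XT.nd (nat_lit 78) (nat_lit 304) (nat_lit 0) (XT.lf (nat_lit 76) (nat_lit 7287466460) (nat_lit 0) (nat_lit 22873414663) (nat_lit 228) (nat_lit 71940444079) (nat_lit 197) (nat_lit 1) (nat_lit 196) (nat_lit 1) (nat_lit 199) (nat_lit 1) (nat_lit 263) (nat_lit 397) (nat_lit 360)) (XT.nd (nat_lit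 78) (nat_lit 228) (nat_lit 0) (XT.lf (nat_lit 152) (nat_lit 30299415947) (nat_lit 0) (nat_lit 31570555257) (nat_lit 76) (nat_lit 37502228761) (nat_lit 197) (nat_lit 1) (nat_lit 195) (nat_lit 1) (nat_lit 196) (nat_lit 1) (nat_lit 264) (nat_lit 397) (nat_lit 359)) (XT.lf (nat_lit 76) (nat_lit 16947933496) (nat_lit 0) (nat_lit 16415219607) (nat_lit 228) (nat_lit 63375829770) (nat_lit 193) (nat_lit 1) (nat_lit 192) (nat_lit 1) (nat_lit 195) (nat_lit 1) (nat_lit 265) (nat_lit 397) (nat_lit 358)))) (XT.nd (nat_lit 156) (nat_lit 228) (nat_lit 0) (XT.nd (nat_lit 78) (nat_lit 152) (nat_lit 0) (XT.lf (nat_lit 152) (nat_lit 33283976404) (nat_lit 0) (nat_lit 34982744946) (nat_lit 76) (nat_lit 25906322130) (nat_lit 193) (nat_lit 1) (nat_lit 191) (nat_lit 1) (nat_lit 192) (nat_lit 1) (nat_lit 266) (nat_lit 397) (nat_lit 357)) (XT.lf (nat_lit 76) (nat_lit 24951277148) (nat_lit 0) (nat_lit 11888837111) (nat_lit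 152) (nat_lit 54851730977) (nat_lit 190) (nat_lit 1) (nat_lit 189) (nat_lit 1) (nat_lit 191) (nat_lit 1) (nat_lit 267) (nat_lit 397) (nat_lit 356))) (XT.nd (nat_lit 78) (nat_lit 152) (nat_lit 0) (XT.lf (nat_lit 152) (nat_lit 34672113822) (nat_lit 0) (nat_lit 38583809251) (nat_lit 76) (nat_lit 16020689866) (nat_lit 190) (nat_lit 1) (nat_lit 188) (nat_lit 1) (nat_lit 189) (nat_lit 1) (nat_lit 268) (nat_lit 397) (nat_lit 355)) (XT.lf (nat_lit 76) (nat_lit 31561045665) (nat_lit 0) (nat_lit 8869227506) (nat_lit 152) (nat_lit 46505397491) (nat_lit 187) (nat_lit 1) (nat_lit 186) (nat_lit 1) (nat_lit 188) (nat_lit 1) (nat_lit 269) (nat_lit 397) (nat_lit 354))))) (XT.nd (nat_lit 234) (nat_lit 456) (nat_lit 0) (XT.nd (nat_lit 78) (nat_lit 228) (nat_lit 0) (XT.lf (nat_lit 152) (nat_lit 34841861103) (nat_lit 0) (nat_lit 42231623596) (nat_lit 76) (nat_lit 7586564011) (nat_lit 187) (nat_lit 1) (nat_lit 185)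 (nat_lit 1) (nat_lit 186) (nat_lit 1) (nat_lit 270) (nat_lit 397) (nat_lit 353)) (XT.nd (nat_lit 78) (nat_lit 76) (nat_lit 0) (XT.lf (nat_lit 76) (nat_lit 36996277052) (nat_lit 0) (nat_lit 7014619386) (nat_lit 152) (nat_lit 38438073467) (nat_lit 184) (nat_lit 1) (nat_lit 183) (nat_lit 1) (nat_lit 185) (nat_lit 1) (nat_lit 271) (nat_lit 397) (nat_lit 352)) (XT.lf (nat_lit 152) (nat_lit 34095907595) (nat_lit 0) (nat_lit 45819020445) (nat_lit 76) (nat_lit 388109315) (nat_lit 184) (nat_lit 1) (nat_lit 182) (nat_lit 1) (nat_lit 183) (nat_lit 1) (nat_lit 272) (nat_lit 397) (nat_lit 351)))) (XT.nd (nat_lit 156) (nat_lit 228) (nat_lit 0) (XT.nd (nat_lit 78) (nat_lit 76) (nat_lit 0) (XT.lf (nat_lit 76) (nat_lit 41439377814) (nat_lit 0) (nat_lit 6050874501) (nat_lit 152) (nat_lit 30722334755) (nat_lit 181) (nat_lit 1) (nat_lit 180) (nat_lit 1) (nat_lit 182) (nat_lit 1) (nat_lit 273) (nat_lit 397) (nat_lit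 350)) (XT.lf (nat_lit 0) (nat_lit 5570932068) (nat_lit 0) (nat_lit 43601467767) (nat_lit 152) (nat_lit 27010535428) (nat_lit 179) (nat_lit 3) (nat_lit 179) (nat_lit 1) (nat_lit 181) (nat_lit 1) (nat_lit 274) (nat_lit 397) (nat_lit 349))) (XT.nd (nat_lit 78) (nat_lit 76) (nat_lit 0) (XT.lf (nat_lit 76) (nat_lit 45042575542) (nat_lit 0) (nat_lit 5758744221) (nat_lit 152) (nat_lit 23408033326) (nat_lit 178) (nat_lit 1) (nat_lit 177) (nat_lit 1) (nat_lit 179) (nat_lit 1) (nat_lit 275) (nat_lit 397) (nat_lit 348)) (XT.lf (nat_lit 0) (nat_lit 10642541240) (nat_lit 0) (nat_lit 41694974203) (nat_lit 152) (nat_lit 19950816414) (nat_lit 176) (nat_lit 3) (nat_lit 176) (nat_lit 1) (nat_lit 178) (nat_lit 1) (nat_lit 276) (nat_lit 397) (nat_lit 347))))))))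
noncomputable def ec170 : XT := (XT.nd (nat_lit 2028) (nat_lit 3268) (nat_lit 0) (XT.nd (nat_lit 1014) (nat_lit 1520) (nat_lit 0) (XT.nd (nat_lit 468) (nat_lit 912) (nat_lit 0) (XT.nd (nat_lit 234) (nat_lit 304) (nat_lit 0) (XT.nd (nat_lit 78) (nat_lit 228) (nat_lit 0) (XT.lf (nat_lit 76) (nat_lit 47933205779) (nat_lit 0) (nat_lit 5963485610) (nat_lit 152) (nat_lit 16527107242) (nat_lit 175) (nat_lit 1) (nat_lit 174) (nat_lit 1) (nat_lit 176) (nat_lit 1) (nat_lit 277) (nat_lit 397) (nat_lit 346)) (XT.nd (nat_lit 78) (nat_lit 152) (nat_lit 0) (XT.lf (nat_lit 0) (nat_lit 14962228587) (nat_lit 0) (nat_lit 40316948819) (nat_lit 152) (nat_lit 13325529184) (nat_lit 173) (nat_lit 3) (nat_lit 173) (nat_lit 1) (nat_lit 175) (nat_lit 1) (nat_lit 278) (nat_lit 397) (nat_lit 345)) (XT.lf (nat_lit 76) (nat_lit 50218045886) (nat_lit 0) (nat_lit 6526402827) (nat_lit 152) (nat_lit 10097467012) (nat_lit 172)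 (nat_lit 1) (nat_lit 171) (nat_lit 1) (nat_lit 173) (nat_lit 1) (nat_lit 279) (nat_lit 397) (nat_lit 344)))) (XT.nd (nat_lit 78) (nat_lit 228) (nat_lit 0) (XT.lf (nat_lit 0) (nat_lit 18633770131) (nat_lit 0) (nat_lit 39336232925) (nat_lit 152) (nat_lit 7148611313) (nat_lit 170) (nat_lit 3) (nat_lit 170) (nat_lit 1) (nat_lit 172) (nat_lit 1) (nat_lit 280) (nat_lit 397) (nat_lit 343)) (XT.nd (nat_lit 78) (nat_lit 76) (nat_lit 0) (XT.lf (nat_lit 76) (nat_lit 51986869686) (nat_lit 0) (nat_lit 7337959357) (nat_lit 152) (nat_lit 4126130348) (nat_lit 169) (nat_lit 1) (nat_lit 168) (nat_lit 1) (nat_lit 170) (nat_lit 1) (nat_lit 281) (nat_lit 397) (nat_lit 342)) (XT.lf (nat_lit 0) (nat_lit 21744935641) (nat_lit 0) (nat_lit 38648769001) (nat_lit 152) (nat_lit 1424098933) (nat_lit 167) (nat_lit 3) (nat_lit 167) (nat_lit 1) (nat_lit 169) (nat_lit 1) (nat_lit 282) (nat_lit 397) (nat_lit 341))))) (XT.nd (nat_lit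 234) (nat_lit 456) (nat_lit 0) (XT.nd (nat_lit 78) (nat_lit 228) (nat_lit 0) (XT.lf (nat_lit 152) (nat_lit 51903599675) (nat_lit 0) (nat_lit 1434156352) (nat_lit 76) (nat_lit 6900406529) (nat_lit 166) (nat_lit 1) (nat_lit 164) (nat_lit 1) (nat_lit 165) (nat_lit 1) (nat_lit 283) (nat_lit 397) (nat_lit 340)) (XT.nd (nat_lit 78) (nat_lit 152) (nat_lit 0) (XT.lf (nat_lit 76) (nat_lit 20453427363) (nat_lit 0) (nat_lit 3978898328) (nat_lit 76) (nat_lit 34255629793) (nat_lit 164) (nat_lit 3) (nat_lit 163) (nat_lit 1) (nat_lit 164) (nat_lit 1) (nat_lit 284) (nat_lit 397) (nat_lit 339)) (XT.lf (nat_lit 152) (nat_lit 47704856016) (nat_lit 0) (nat_lit 6666759626) (nat_lit 76) (nat_lit 2819375345) (nat_lit 163) (nat_lit 1) (nat_lit 161) (nat_lit 1) (nat_lit 162) (nat_lit 1) (nat_lit 285) (nat_lit 397) (nat_lit 338)))) (XT.nd (nat_lit 156) (nat_lit 228) (nat_lit 0) (XT.nd (nat_lit 78) (nat_lit 152) (nat_lit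 0) (XT.lf (nat_lit 76) (nat_lit 17738282119) (nat_lit 0) (nat_lit 8974834974) (nat_lit 76) (nat_lit 29007962070) (nat_lit 161) (nat_lit 3) (nat_lit 160) (nat_lit 1) (nat_lit 161) (nat_lit 1) (nat_lit 286) (nat_lit 397) (nat_lit 337)) (XT.lf (nat_lit 0) (nat_lit 748703410) (nat_lit 0) (nat_lit 10686692786) (nat_lit 152) (nat_lit 42866916269) (nat_lit 158) (nat_lit 3) (nat_lit 158) (nat_lit 1) (nat_lit 160) (nat_lit 1) (nat_lit 287) (nat_lit 397) (nat_lit 336))) (XT.nd (nat_lit 78) (nat_lit 152) (nat_lit 0) (XT.lf (nat_lit 76) (nat_lit 15088213230) (nat_lit 0) (nat_lit 13530541429) (nat_lit 76) (nat_lit 24290055244) (nat_lit 158) (nat_lit 3) (nat_lit 157) (nat_lit 1) (nat_lit 158) (nat_lit 1) (nat_lit 288) (nat_lit 397) (nat_lit 335)) (XT.lf (nat_lit 0) (nat_lit 3807741352) (nat_lit 0) (nat_lit 11922240483) (nat_lit 152) (nat_lit 35831771703) (nat_lit 155) (nat_lit 3) (nat_lit 155) (nat_lit 1)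 (nat_lit 157) (nat_lit 1) (nat_lit 289) (nat_lit 397) (nat_lit 334)))))) (XT.nd (nat_lit 468) (nat_lit 836) (nat_lit 0) (XT.nd (nat_lit 234) (nat_lit 380) (nat_lit 0) (XT.nd (nat_lit 78) (nat_lit 228) (nat_lit 0) (XT.lf (nat_lit 76) (nat_lit 12532925184) (nat_lit 0) (nat_lit 17663065579) (nat_lit 76) (nat_lit 20046350305) (nat_lit 155) (nat_lit 3) (nat_lit 154) (nat_lit 1) (nat_lit 155) (nat_lit 1) (nat_lit 290) (nat_lit 397) (nat_lit 333)) (XT.nd (nat_lit 78) (nat_lit 76) (nat_lit 0) (XT.lf (nat_lit 0) (nat_lit 6494593937) (nat_lit 0) (nat_lit 13120189282) (nat_lit 152) (nat_lit 29348240042) (nat_lit 152) (nat_lit 3) (nat_lit 152) (nat_lit 1) (nat_lit 154) (nat_lit 1) (nat_lit 291) (nat_lit 397) (nat_lit 332)) (XT.lf (nat_lit 76) (nat_lit 10093537397) (nat_lit 0) (nat_lit 21391610276) (nat_lit 76) (nat_lit 16228347901) (nat_lit 152) (nat_lit 3) (nat_lit 151) (nat_lit 1) (nat_lit 152) (nat_lit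 1) (nat_lit 292) (nat_lit 397) (nat_lit 331)))) (XT.nd (nat_lit 78) (nat_lit 228) (nat_lit 0) (XT.lf (nat_lit 0) (nat_lit 8849848390) (nat_lit 0) (nat_lit 14259734197) (nat_lit 152) (nat_lit 23388642096) (nat_lit 149) (nat_lit 3) (nat_lit 149) (nat_lit 1) (nat_lit 151) (nat_lit 1) (nat_lit 293) (nat_lit 397) (nat_lit 330)) (XT.nd (nat_lit 78) (nat_lit 152) (nat_lit 0) (XT.lf (nat_lit 76) (nat_lit 7784371820) (nat_lit 0) (nat_lit 24736763188) (nat_lit 76) (nat_lit 12793525344) (nat_lit 149) (nat_lit 3) (nat_lit 148) (nat_lit 1) (nat_lit 149) (nat_lit 1) (nat_lit 294) (nat_lit 397) (nat_lit 329)) (XT.lf (nat_lit 0) (nat_lit 10908988340) (nat_lit 0) (nat_lit 15326231307) (nat_lit 152) (nat_lit 17924775795) (nat_lit 146) (nat_lit 3) (nat_lit 146) (nat_lit 1) (nat_lit 148) (nat_lit 1) (nat_lit 295) (nat_lit 397) (nat_lit 328))))) (XT.nd (nat_lit 234) (nat_lit 532) (nat_lit 0) (XT.nd (nat_lit 78) (nat_lit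 228) (nat_lit 0) (XT.lf (nat_lit 76) (nat_lit 5614398976) (nat_lit 0) (nat_lit 27719892546) (nat_lit 76) (nat_lit 9704438761) (nat_lit 146) (nat_lit 3) (nat_lit 145) (nat_lit 1) (nat_lit 146) (nat_lit 1) (nat_lit 296) (nat_lit 397) (nat_lit 327)) (XT.nd (nat_lit 78) (nat_lit 76) (nat_lit 0) (XT.lf (nat_lit 0) (nat_lit 12703162539) (nat_lit 0) (nat_lit 16309899562) (nat_lit 152) (nat_lit 12928393923) (nat_lit 143) (nat_lit 3) (nat_lit 143) (nat_lit 1) (nat_lit 145) (nat_lit 1) (nat_lit 297) (nat_lit 397) (nat_lit 326)) (XT.lf (nat_lit 76) (nat_lit 3588405935) (nat_lit 0) (nat_lit 30362676826) (nat_lit 76) (nat_lit 6927977253) (nat_lit 143) (nat_lit 3) (nat_lit 142) (nat_lit 1) (nat_lit 143) (nat_lit 1) (nat_lit 298) (nat_lit 397) (nat_lit 325)))) (XT.nd (nat_lit 156) (nat_lit 304) (nat_lit 0) (XT.nd (nat_lit 78) (nat_lit 76) (nat_lit 0) (XT.lf (nat_lit 0) (nat_lit 14259823598) (nat_lit 0) (nat_lit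 17204771849) (nat_lit 152) (nat_lit 8371569708) (nat_lit 140) (nat_lit 3) (nat_lit 140) (nat_lit 1) (nat_lit 142) (nat_lit 1) (nat_lit 299) (nat_lit 397) (nat_lit 324)) (XT.lf (nat_lit 76) (nat_lit 1707938029) (nat_lit 0) (nat_lit 32686742323) (nat_lit 76) (nat_lit 4434741966) (nat_lit 140) (nat_lit 3) (nat_lit 139) (nat_lit 1) (nat_lit 140) (nat_lit 1) (nat_lit 300) (nat_lit 397) (nat_lit 323))) (XT.nd (nat_lit 78) (nat_lit 152) (nat_lit 0) (XT.lf (nat_lit 0) (nat_lit 15603259880) (nat_lit 0) (nat_lit 18007848890) (nat_lit 152) (nat_lit 4226972365) (nat_lit 137) (nat_lit 3) (nat_lit 137) (nat_lit 1) (nat_lit 139) (nat_lit 1) (nat_lit 301) (nat_lit 397) (nat_lit 322)) (XT.lf (nat_lit 76) (nat_lit 34685880325) (nat_lit 0) (nat_lit 27049063) (nat_lit 152) (nat_lit 2171020724) (nat_lit 136) (nat_lit 1) (nat_lit 135) (nat_lit 1) (nat_lit 137) (nat_lit 1) (nat_lit 302) (nat_lit 397) (nat_lit 321)))))))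 (XT.nd (nat_lit 1014) (nat_lit 1748) (nat_lit 0) (XT.nd (nat_lit 468) (nat_lit 760) (nat_lit 0) (XT.nd (nat_lit 234) (nat_lit 380) (nat_lit 0) (XT.nd (nat_lit 78) (nat_lit 304) (nat_lit 0) (XT.lf (nat_lit 0) (nat_lit 16755039525) (nat_lit 0) (nat_lit 18718418101) (nat_lit 152) (nat_lit 468070520) (nat_lit 134) (nat_lit 3) (nat_lit 134) (nat_lit 1) (nat_lit 136) (nat_lit 1) (nat_lit 303) (nat_lit 397) (nat_lit 320)) (XT.nd (nat_lit 78) (nat_lit 76) (nat_lit 0) (XT.lf (nat_lit 152) (nat_lit 33442086677) (nat_lit 0) (nat_lit 1447156058) (nat_lit 76) (nat_lit 145575250) (nat_lit 133) (nat_lit 1) (nat_lit 131) (nat_lit 1) (nat_lit 132) (nat_lit 1) (nat_lit 304) (nat_lit 397) (nat_lit 319)) (XT.lf (nat_lit 76) (nat_lit 14754026995) (nat_lit 0) (nat_lit 3027624800) (nat_lit 76) (nat_lit 16357151445) (nat_lit 131) (nat_lit 3) (nat_lit 130) (nat_lit 1) (nat_lit 131) (nat_lit 1) (nat_lit 305) (nat_lit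 397) (nat_lit 318)))) (XT.nd (nat_lit 78) (nat_lit 228) (nat_lit 0) (XT.lf (nat_lit 0) (nat_lit 1667863792) (nat_lit 0) (nat_lit 3081553783) (nat_lit 152) (nat_lit 28527080503) (nat_lit 128) (nat_lit 3) (nat_lit 128) (nat_lit 1) (nat_lit 130) (nat_lit 1) (nat_lit 306) (nat_lit 397) (nat_lit 317)) (XT.nd (nat_lit 78) (nat_lit 152) (nat_lit 0) (XT.lf (nat_lit 76) (nat_lit 12463014639) (nat_lit 0) (nat_lit 6192132422) (nat_lit 76) (nat_lit 13771986853) (nat_lit 128) (nat_lit 3) (nat_lit 127) (nat_lit 1) (nat_lit 128) (nat_lit 1) (nat_lit 307) (nat_lit 397) (nat_lit 316)) (XT.lf (nat_lit 0) (nat_lit 3281860171) (nat_lit 0) (nat_lit 4436156656) (nat_lit 152) (nat_lit 23889215181) (nat_lit 125) (nat_lit 3) (nat_lit 125) (nat_lit 1) (nat_lit 127) (nat_lit 1) (nat_lit 308) (nat_lit 397) (nat_lit 315))))) (XT.nd (nat_lit 234) (nat_lit 456) (nat_lit 0) (XT.nd (nat_lit 78) (nat_lit 228) (nat_lit 0) (XT.lf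 (nat_lit 76) (nat_lit 10349581052) (nat_lit 0) (nat_lit 9034181732) (nat_lit 76) (nat_lit 11418374093) (nat_lit 125) (nat_lit 3) (nat_lit 124) (nat_lit 1) (nat_lit 125) (nat_lit 1) (nat_lit 309) (nat_lit 397) (nat_lit 314)) (XT.nd (nat_lit 78) (nat_lit 76) (nat_lit 0) (XT.lf (nat_lit 0) (nat_lit 4718122312) (nat_lit 0) (nat_lit 5660620585) (nat_lit 152) (nat_lit 19643755765) (nat_lit 122) (nat_lit 3) (nat_lit 122) (nat_lit 1) (nat_lit 124) (nat_lit 1) (nat_lit 310) (nat_lit 397) (nat_lit 313)) (XT.lf (nat_lit 76) (nat_lit 8404919824) (nat_lit 0) (nat_lit 11576795764) (nat_lit 76) (nat_lit 9277603410) (nat_lit 122) (nat_lit 3) (nat_lit 121) (nat_lit 1) (nat_lit 122) (nat_lit 1) (nat_lit 311) (nat_lit 397) (nat_lit 312)))) (XT.nd (nat_lit 156) (nat_lit 228) (nat_lit 0) (XT.nd (nat_lit 78) (nat_lit 76) (nat_lit 0) (XT.lf (nat_lit 0) (nat_lit 5992127387) (nat_lit 0) (nat_lit 6761689632) (nat_lit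 152) (nat_lit 15764104971) (nat_lit 119) (nat_lit 3) (nat_lit 119) (nat_lit 1) (nat_lit 121) (nat_lit 1) (nat_lit 312) (nat_lit 397) (nat_lit 311)) (XT.lf (nat_lit 76) (nat_lit 6620038962) (nat_lit 0) (nat_lit 13841800812) (nat_lit 76) (nat_lit 7332596596) (nat_lit 119) (nat_lit 3) (nat_lit 118) (nat_lit 1) (nat_lit 119) (nat_lit 1) (nat_lit 313) (nat_lit 397) (nat_lit 310))) (XT.nd (nat_lit 78) (nat_lit 76) (nat_lit 0) (XT.lf (nat_lit 0) (nat_lit 7117958446) (nat_lit 0) (nat_lit 7746316149) (nat_lit 152) (nat_lit 12225092586) (nat_lit 116) (nat_lit 3) (nat_lit 116) (nat_lit 1) (nat_lit 118) (nat_lit 1) (nat_lit 314) (nat_lit 397) (nat_lit 309)) (XT.lf (nat_lit 76) (nat_lit 4985917382) (nat_lit 0) (nat_lit 15849830270) (nat_lit 76) (nat_lit 5567730069) (nat_lit 116) (nat_lit 3) (nat_lit 115) (nat_lit 1) (nat_lit 116) (nat_lit 1) (nat_lit 315) (nat_lit 397) (nat_lit 308)))))) (XT.nd (nat_lit 546)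 (nat_lit 912) (nat_lit 0) (XT.nd (nat_lit 234) (nat_lit 456) (nat_lit 0) (XT.nd (nat_lit 78) (nat_lit 228) (nat_lit 0) (XT.lf (nat_lit 0) (nat_lit 8108456876) (nat_lit 0) (nat_lit 8621519211) (nat_lit 152) (nat_lit 9002948787) (nat_lit 113) (nat_lit 3) (nat_lit 113) (nat_lit 1) (nat_lit 115) (nat_lit 1) (nat_lit 316) (nat_lit 397) (nat_lit 307)) (XT.nd (nat_lit 78) (nat_lit 152) (nat_lit 0) (XT.lf (nat_lit 76) (nat_lit 3493624856) (nat_lit 0) (nat_lit 17620341949) (nat_lit 76) (nat_lit 3968682573) (nat_lit 113) (nat_lit 3) (nat_lit 112) (nat_lit 1) (nat_lit 113) (nat_lit 1) (nat_lit 317) (nat_lit 397) (nat_lit 306)) (XT.lf (nat_lit 0) (nat_lit 8975353690) (nat_lit 0) (nat_lit 9394275839) (nat_lit 152) (nat_lit 6075267281) (nat_lit 110) (nat_lit 3) (nat_lit 110) (nat_lit 1) (nat_lit 112) (nat_lit 1) (nat_lit 318) (nat_lit 397) (nat_lit 305)))) (XT.nd (nat_lit 156) (nat_lit 228) (nat_lit 0) (XT.nd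 (nat_lit 78) (nat_lit 152) (nat_lit 0) (XT.lf (nat_lit 76) (nat_lit 2134412589) (nat_lit 0) (nat_lit 19171645530) (nat_lit 76) (nat_lit 2522303468) (nat_lit 110) (nat_lit 3) (nat_lit 109) (nat_lit 1) (nat_lit 110) (nat_lit 1) (nat_lit 319) (nat_lit 397) (nat_lit 304)) (XT.lf (nat_lit 0) (nat_lit 9729383113) (nat_lit 0) (nat_lit 10071438562) (nat_lit 152) (nat_lit 3420961067) (nat_lit 107) (nat_lit 3) (nat_lit 107) (nat_lit 1) (nat_lit 109) (nat_lit 1) (nat_lit 320) (nat_lit 397) (nat_lit 303))) (XT.nd (nat_lit 78) (nat_lit 152) (nat_lit 0) (XT.lf (nat_lit 76) (nat_lit 899780280) (nat_lit 0) (nat_lit 20520937444) (nat_lit 76) (nat_lit 1216498288) (nat_lit 107) (nat_lit 3) (nat_lit 106) (nat_lit 1) (nat_lit 107) (nat_lit 1) (nat_lit 321) (nat_lit 397) (nat_lit 302)) (XT.lf (nat_lit 0) (nat_lit 10380381316) (nat_lit 0) (nat_lit 10659674092) (nat_lit 152) (nat_lit 1020213049) (nat_lit 104) (nat_lit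 3) (nat_lit 104) (nat_lit 1) (nat_lit 106) (nat_lit 1) (nat_lit 322) (nat_lit 397) (nat_lit 301))))) (XT.nd (nat_lit 234) (nat_lit 456) (nat_lit 0) (XT.nd (nat_lit 78) (nat_lit 228) (nat_lit 0) (XT.lf (nat_lit 152) (nat_lit 21291378059) (nat_lit 0) (nat_lit 180719933) (nat_lit 76) (nat_lit 33584630) (nat_lit 103) (nat_lit 1) (nat_lit 101) (nat_lit 1) (nat_lit 102) (nat_lit 1) (nat_lit 323) (nat_lit 397) (nat_lit 300)) (XT.nd (nat_lit 78) (nat_lit 152) (nat_lit 0) (XT.lf (nat_lit 76) (nat_lit 9772394978) (nat_lit 0) (nat_lit 1183454687) (nat_lit 76) (nat_lit 10000441206) (nat_lit 101) (nat_lit 3) (nat_lit 100) (nat_lit 1) (nat_lit 101) (nat_lit 1) (nat_lit 324) (nat_lit 397) (nat_lit 299)) (XT.lf (nat_lit 0) (nat_lit 1040506157) (nat_lit 0) (nat_lit 1241605124) (nat_lit 152) (nat_lit 18145942796) (nat_lit 98) (nat_lit 3) (nat_lit 98) (nat_lit 1) (nat_lit 100) (nat_lit 1) (nat_lit 325) (nat_lit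 397) (nat_lit 298)))) (XT.nd (nat_lit 156) (nat_lit 228) (nat_lit 0) (XT.nd (nat_lit 78) (nat_lit 152) (nat_lit 0) (XT.lf (nat_lit 76) (nat_lit 8262403445) (nat_lit 0) (nat_lit 3196142453) (nat_lit 76) (nat_lit 8448606192) (nat_lit 98) (nat_lit 3) (nat_lit 97) (nat_lit 1) (nat_lit 98) (nat_lit 1) (nat_lit 326) (nat_lit 397) (nat_lit 297)) (XT.lf (nat_lit 0) (nat_lit 2002314740) (nat_lit 0) (nat_lit 2166514693) (nat_lit 152) (nat_lit 15235892339) (nat_lit 95) (nat_lit 3) (nat_lit 95) (nat_lit 1) (nat_lit 97) (nat_lit 1) (nat_lit 327) (nat_lit 397) (nat_lit 296))) (XT.nd (nat_lit 78) (nat_lit 152) (nat_lit 0) (XT.lf (nat_lit 76) (nat_lit 6878908685) (nat_lit 0) (nat_lit 5000988297) (nat_lit 76) (nat_lit 7030945678) (nat_lit 95) (nat_lit 3) (nat_lit 94) (nat_lit 1) (nat_lit 95) (nat_lit 1) (nat_lit 328) (nat_lit 397) (nat_lit 295)) (XT.lf (nat_lit 0) (nat_lit 2861763849) (nat_lit 0) (nat_lit 2995835272)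 (nat_lit 152) (nat_lit 12575348410) (nat_lit 92) (nat_lit 3) (nat_lit 92) (nat_lit 1) (nat_lit 94) (nat_lit 1) (nat_lit 329) (nat_lit 397) (nat_lit 294))))))))
noncomputable def ec171 : XT := (XT.nd (nat_lit 2106) (nat_lit 3268) (nat_lit 0) (XT.nd (nat_lit 1014) (nat_lit 1748) (nat_lit 0) (XT.nd (nat_lit 468) (nat_lit 760) (nat_lit 0) (XT.nd (nat_lit 234) (nat_lit 380) (nat_lit 0) (XT.nd (nat_lit 78) (nat_lit 228) (nat_lit 0) (XT.lf (nat_lit 76) (nat_lit 5613380119) (nat_lit 0) (nat_lit 6613777404) (nat_lit 76) (nat_lit 5737520325) (nat_lit 92) (nat_lit 3) (nat_lit 91) (nat_lit 1) (nat_lit 92) (nat_lit 1) (nat_lit 330) (nat_lit 397) (nat_lit 293)) (XT.nd (nat_lit 78) (nat_lit 76) (nat_lit 0) (XT.lf (nat_lit 0) (nat_lit 3627037826) (nat_lit 0) (nat_lit 3736508907) (nat_lit 152) (nat_lit 10146563969) (nat_lit 89) (nat_lit 3) (nat_lit 89) (nat_lit 1) (nat_lit 91) (nat_lit 1) (nat_lit 331) (nat_lit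 397) (nat_lit 292)) (XT.lf (nat_lit 76) (nat_lit 4457741942) (nat_lit 0) (nat_lit 8049266190) (nat_lit 76) (nat_lit 4559104055) (nat_lit 89) (nat_lit 3) (nat_lit 88) (nat_lit 1) (nat_lit 89) (nat_lit 1) (nat_lit 332) (nat_lit 397) (nat_lit 291)))) (XT.nd (nat_lit 78) (nat_lit 228) (nat_lit 0) (XT.lf (nat_lit 0) (nat_lit 4305711127) (nat_lit 0) (nat_lit 4395095706) (nat_lit 152) (nat_lit 7932919604) (nat_lit 86) (nat_lit 3) (nat_lit 86) (nat_lit 1) (nat_lit 88) (nat_lit 1) (nat_lit 333) (nat_lit 397) (nat_lit 290)) (XT.nd (nat_lit 78) (nat_lit 152) (nat_lit 0) (XT.lf (nat_lit 76) (nat_lit 3404365100) (nat_lit 0) (nat_lit 9321238133) (nat_lit 76) (nat_lit 3487128599) (nat_lit 86) (nat_lit 3) (nat_lit 85) (nat_lit 1) (nat_lit 86) (nat_lit 1) (nat_lit 334) (nat_lit 397) (nat_lit 289)) (XT.lf (nat_lit 0) (nat_lit 4904796547) (nat_lit 0) (nat_lit 4977780232) (nat_lit 152) (nat_lit 5918861483) (nat_lit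 83) (nat_lit 3) (nat_lit 83) (nat_lit 1) (nat_lit 85) (nat_lit 1) (nat_lit 335) (nat_lit 397) (nat_lit 288))))) (XT.nd (nat_lit 234) (nat_lit 456) (nat_lit 0) (XT.nd (nat_lit 78) (nat_lit 228) (nat_lit 0) (XT.lf (nat_lit 76) (nat_lit 2446055907) (nat_lit 0) (nat_lit 10442558089) (nat_lit 76) (nat_lit 2513633393) (nat_lit 83) (nat_lit 3) (nat_lit 82) (nat_lit 1) (nat_lit 83) (nat_lit 1) (nat_lit 336) (nat_lit 397) (nat_lit 287)) (XT.nd (nat_lit 78) (nat_lit 76) (nat_lit 0) (XT.lf (nat_lit 0) (nat_lit 5430788790) (nat_lit 0) (nat_lit 5490380929) (nat_lit 152) (nat_lit 4089841403) (nat_lit 80) (nat_lit 3) (nat_lit 80) (nat_lit 1) (nat_lit 82) (nat_lit 1) (nat_lit 337) (nat_lit 397) (nat_lit 286)) (XT.lf (nat_lit 76) (nat_lit 1576042226) (nat_lit 0) (nat_lit 11425224849) (nat_lit 76) (nat_lit 1631220133) (nat_lit 80) (nat_lit 3) (nat_lit 79) (nat_lit 1) (nat_lit 80) (nat_lit 1) (nat_lit 338) (nat_lit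 397) (nat_lit 285)))) (XT.nd (nat_lit 156) (nat_lit 228) (nat_lit 0) (XT.nd (nat_lit 78) (nat_lit 76) (nat_lit 0) (XT.lf (nat_lit 0) (nat_lit 5889703977) (nat_lit 0) (nat_lit 5938361743) (nat_lit 152) (nat_lit 2432259139) (nat_lit 77) (nat_lit 3) (nat_lit 77) (nat_lit 1) (nat_lit 79) (nat_lit 1) (nat_lit 339) (nat_lit 397) (nat_lit 284)) (XT.lf (nat_lit 76) (nat_lit 787957936) (nat_lit 0) (nat_lit 12280421716) (nat_lit 76) (nat_lit 833011423) (nat_lit 77) (nat_lit 3) (nat_lit 76) (nat_lit 1) (nat_lit 77) (nat_lit 1) (nat_lit 340) (nat_lit 397) (nat_lit 283))) (XT.nd (nat_lit 78) (nat_lit 76) (nat_lit 0) (XT.lf (nat_lit 0) (nat_lit 6287115591) (nat_lit 0) (nat_lit 6326845298) (nat_lit 152) (nat_lit 933407196) (nat_lit 74) (nat_lit 3) (nat_lit 74) (nat_lit 1) (nat_lit 76) (nat_lit 1) (nat_lit 341) (nat_lit 397) (nat_lit 282)) (XT.lf (nat_lit 76) (nat_lit 75826264) (nat_lit 0) (nat_lit 13018565007)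 (nat_lit 76) (nat_lit 112613030) (nat_lit 74) (nat_lit 3) (nat_lit 73) (nat_lit 1) (nat_lit 74) (nat_lit 1) (nat_lit 342) (nat_lit 397) (nat_lit 281)))))) (XT.nd (nat_lit 546) (nat_lit 836) (nat_lit 0) (XT.nd (nat_lit 234) (nat_lit 456) (nat_lit 0) (XT.nd (nat_lit 78) (nat_lit 228) (nat_lit 0) (XT.lf (nat_lit 76) (nat_lit 6202516423) (nat_lit 0) (nat_lit 432422173) (nat_lit 76) (nat_lit 6234956251) (nat_lit 71) (nat_lit 3) (nat_lit 70) (nat_lit 1) (nat_lit 71) (nat_lit 1) (nat_lit 343) (nat_lit 397) (nat_lit 280)) (XT.nd (nat_lit 78) (nat_lit 76) (nat_lit 0) (XT.lf (nat_lit 0) (nat_lit 545667640) (nat_lit 0) (nat_lit 574274191) (nat_lit 152) (nat_lit 11425766954) (nat_lit 68) (nat_lit 3) (nat_lit 68) (nat_lit 1) (nat_lit 70) (nat_lit 1) (nat_lit 344) (nat_lit 397) (nat_lit 279)) (XT.lf (nat_lit 76) (nat_lit 5255230746) (nat_lit 0) (nat_lit 1688839610) (nat_lit 76) (nat_lit 5281718293) (nat_lit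 68) (nat_lit 3) (nat_lit 67) (nat_lit 1) (nat_lit 68) (nat_lit 1) (nat_lit 345) (nat_lit 397) (nat_lit 278)))) (XT.nd (nat_lit 156) (nat_lit 228) (nat_lit 0) (XT.nd (nat_lit 78) (nat_lit 76) (nat_lit 0) (XT.lf (nat_lit 0) (nat_lit 1137233287) (nat_lit 0) (nat_lit 1160590912) (nat_lit 152) (nat_lit 9619592391) (nat_lit 65) (nat_lit 3) (nat_lit 65) (nat_lit 1) (nat_lit 67) (nat_lit 1) (nat_lit 346) (nat_lit 397) (nat_lit 277)) (XT.lf (nat_lit 76) (nat_lit 4388393965) (nat_lit 0) (nat_lit 2815660187) (nat_lit 76) (nat_lit 4410021396) (nat_lit 65) (nat_lit 3) (nat_lit 64) (nat_lit 1) (nat_lit 65) (nat_lit 1) (nat_lit 347) (nat_lit 397) (nat_lit 276))) (XT.nd (nat_lit 78) (nat_lit 76) (nat_lit 0) (XT.lf (nat_lit 0) (nat_lit 1666633312) (nat_lit 0) (nat_lit 1685705120) (nat_lit 152) (nat_lit 7968404430) (nat_lit 62) (nat_lit 3) (nat_lit 62) (nat_lit 1) (nat_lit 64) (nat_lit 1) (nat_lit 348) (nat_lit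 397) (nat_lit 275)) (XT.lf (nat_lit 76) (nat_lit 3596307941) (nat_lit 0) (nat_lit 3822842064) (nat_lit 76) (nat_lit 3613967023) (nat_lit 62) (nat_lit 3) (nat_lit 61) (nat_lit 1) (nat_lit 62) (nat_lit 1) (nat_lit 349) (nat_lit 397) (nat_lit 274))))) (XT.nd (nat_lit 234) (nat_lit 456) (nat_lit 0) (XT.nd (nat_lit 78) (nat_lit 228) (nat_lit 0) (XT.lf (nat_lit 0) (nat_lit 2138720503) (nat_lit 0) (nat_lit 2154292885) (nat_lit 152) (nat_lit 6461073947) (nat_lit 59) (nat_lit 3) (nat_lit 59) (nat_lit 1) (nat_lit 61) (nat_lit 1) (nat_lit 350) (nat_lit 397) (nat_lit 273)) (XT.nd (nat_lit 78) (nat_lit 152) (nat_lit 0) (XT.lf (nat_lit 76) (nat_lit 2873635544) (nat_lit 0) (nat_lit 4719668213) (nat_lit 76) (nat_lit 2888054416) (nat_lit 59) (nat_lit 3) (nat_lit 58) (nat_lit 1) (nat_lit 59) (nat_lit 1) (nat_lit 351) (nat_lit 397) (nat_lit 272)) (XT.lf (nat_lit 0) (nat_lit 2558007359) (nat_lit 0) (nat_lit 2570722415)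 (nat_lit 152) (nat_lit 5087201629) (nat_lit 56) (nat_lit 3) (nat_lit 56) (nat_lit 1) (nat_lit 58) (nat_lit 1) (nat_lit 352) (nat_lit 397) (nat_lit 271)))) (XT.nd (nat_lit 156) (nat_lit 228) (nat_lit 0) (XT.nd (nat_lit 78) (nat_lit 152) (nat_lit 0) (XT.lf (nat_lit 76) (nat_lit 2215380859) (nat_lit 0) (nat_lit 5514788392) (nat_lit 76) (nat_lit 2227154058) (nat_lit 56) (nat_lit 3) (nat_lit 55) (nat_lit 1) (nat_lit 56) (nat_lit 1) (nat_lit 353) (nat_lit 397) (nat_lit 270)) (XT.lf (nat_lit 0) (nat_lit 2928689296) (nat_lit 0) (nat_lit 2939071306) (nat_lit 152) (nat_lit 3837073287) (nat_lit 53) (nat_lit 3) (nat_lit 53) (nat_lit 1) (nat_lit 55) (nat_lit 1) (nat_lit 354) (nat_lit 397) (nat_lit 269))) (XT.nd (nat_lit 78) (nat_lit 152) (nat_lit 0) (XT.lf (nat_lit 76) (nat_lit 1616870068) (nat_lit 0) (nat_lit 6216258802) (nat_lit 76) (nat_lit 1626483040) (nat_lit 53) (nat_lit 3) (nat_lit 52) (nat_lit 1)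 (nat_lit 53) (nat_lit 1) (nat_lit 355) (nat_lit 397) (nat_lit 268)) (XT.lf (nat_lit 0) (nat_lit 3254666166) (nat_lit 0) (nat_lit 3263143214) (nat_lit 152) (nat_lit 2701617649) (nat_lit 50) (nat_lit 3) (nat_lit 50) (nat_lit 1) (nat_lit 52) (nat_lit 1) (nat_lit 356) (nat_lit 397) (nat_lit 267))))))) (XT.nd (nat_lit 1014) (nat_lit 1672) (nat_lit 0) (XT.nd (nat_lit 468) (nat_lit 836) (nat_lit 0) (XT.nd (nat_lit 234) (nat_lit 456) (nat_lit 0) (XT.nd (nat_lit 78) (nat_lit 228) (nat_lit 0) (XT.lf (nat_lit 76) (nat_lit 1073733038) (nat_lit 0) (nat_lit 6831579514) (nat_lit 76) (nat_lit 1081582157) (nat_lit 50) (nat_lit 3) (nat_lit 49) (nat_lit 1) (nat_lit 50) (nat_lit 1) (nat_lit 357) (nat_lit 397) (nat_lit 266)) (XT.nd (nat_lit 78) (nat_lit 76) (nat_lit 0) (XT.lf (nat_lit 0) (nat_lit 3539562257) (nat_lit 0) (nat_lit 3546483878) (nat_lit 152) (nat_lit 1672366548) (nat_lit 47) (nat_lit 3) (nat_lit 47)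 (nat_lit 1) (nat_lit 49) (nat_lit 1) (nat_lit 358) (nat_lit 397) (nat_lit 265)) (XT.lf (nat_lit 76) (nat_lit 581885683) (nat_lit 0) (nat_lit 7367729751) (nat_lit 76) (nat_lit 588294591) (nat_lit 47) (nat_lit 3) (nat_lit 46) (nat_lit 1) (nat_lit 47) (nat_lit 1) (nat_lit 359) (nat_lit 397) (nat_lit 264)))) (XT.nd (nat_lit 78) (nat_lit 304) (nat_lit 0) (XT.lf (nat_lit 0) (nat_lit 3786744892) (nat_lit 0) (nat_lit 3792396487) (nat_lit 152) (nat_lit 741417374) (nat_lit 44) (nat_lit 3) (nat_lit 44) (nat_lit 1) (nat_lit 46) (nat_lit 1) (nat_lit 360) (nat_lit 397) (nat_lit 263)) (XT.nd (nat_lit 78) (nat_lit 228) (nat_lit 0) (XT.lf (nat_lit 76) (nat_lit 137513094) (nat_lit 0) (nat_lit 7831201138) (nat_lit 76) (nat_lit 142746052) (nat_lit 44) (nat_lit 3) (nat_lit 43) (nat_lit 1) (nat_lit 44) (nat_lit 1) (nat_lit 361) (nat_lit 397) (nat_lit 262)) (XT.lf (nat_lit 76) (nat_lit 3899069556) (nat_lit 0) (nat_lit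 101862536) (nat_lit 76) (nat_lit 3903684157) (nat_lit 41) (nat_lit 3) (nat_lit 40) (nat_lit 1) (nat_lit 41) (nat_lit 1) (nat_lit 362) (nat_lit 397) (nat_lit 261))))) (XT.nd (nat_lit 234) (nat_lit 456) (nat_lit 0) (XT.nd (nat_lit 78) (nat_lit 228) (nat_lit 0) (XT.lf (nat_lit 0) (nat_lit 263051048) (nat_lit 0) (nat_lit 267120361) (nat_lit 152) (nat_lit 7175402567) (nat_lit 38) (nat_lit 3) (nat_lit 38) (nat_lit 1) (nat_lit 40) (nat_lit 1) (nat_lit 363) (nat_lit 397) (nat_lit 260)) (XT.nd (nat_lit 78) (nat_lit 152) (nat_lit 0) (XT.lf (nat_lit 76) (nat_lit 3311216366) (nat_lit 0) (nat_lit 882823899) (nat_lit 76) (nat_lit 3314984249) (nat_lit 38) (nat_lit 3) (nat_lit 37) (nat_lit 1) (nat_lit 38) (nat_lit 1) (nat_lit 364) (nat_lit 397) (nat_lit 259)) (XT.lf (nat_lit 0) (nat_lit 629592923) (nat_lit 0) (nat_lit 632915571) (nat_lit 152) (nat_lit 6057179981) (nat_lit 35) (nat_lit 3) (nat_lit 35) (nat_lit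 1) (nat_lit 37) (nat_lit 1) (nat_lit 365) (nat_lit 397) (nat_lit 258)))) (XT.nd (nat_lit 156) (nat_lit 228) (nat_lit 0) (XT.nd (nat_lit 78) (nat_lit 152) (nat_lit 0) (XT.lf (nat_lit 76) (nat_lit 2773336009) (nat_lit 0) (nat_lit 1583574074) (nat_lit 76) (nat_lit 2776412534) (nat_lit 35) (nat_lit 3) (nat_lit 34) (nat_lit 1) (nat_lit 35) (nat_lit 1) (nat_lit 366) (nat_lit 397) (nat_lit 257)) (XT.lf (nat_lit 0) (nat_lit 957890244) (nat_lit 0) (nat_lit 960603230) (nat_lit 152) (nat_lit 5034724510) (nat_lit 32) (nat_lit 3) (nat_lit 32) (nat_lit 1) (nat_lit 34) (nat_lit 1) (nat_lit 367) (nat_lit 397) (nat_lit 256))) (XT.nd (nat_lit 78) (nat_lit 152) (nat_lit 0) (XT.lf (nat_lit 76) (nat_lit 2281854474) (nat_lit 0) (nat_lit 2210284572) (nat_lit 76) (nat_lit 2284366498) (nat_lit 32) (nat_lit 3) (nat_lit 31) (nat_lit 1) (nat_lit 32) (nat_lit 1) (nat_lit 368) (nat_lit 397) (nat_lit 255)) (XT.lf (nat_lit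 0) (nat_lit 1250907429) (nat_lit 0) (nat_lit 1253122618) (nat_lit 152) (nat_lit 4101150769) (nat_lit 29) (nat_lit 3) (nat_lit 29) (nat_lit 1) (nat_lit 31) (nat_lit 1) (nat_lit 369) (nat_lit 397) (nat_lit 254)))))) (XT.nd (nat_lit 546) (nat_lit 912) (nat_lit 0) (XT.nd (nat_lit 234) (nat_lit 456) (nat_lit 0) (XT.nd (nat_lit 78) (nat_lit 228) (nat_lit 0) (XT.lf (nat_lit 76) (nat_lit 1833431580) (nat_lit 0) (nat_lit 2768705093) (nat_lit 76) (nat_lit 1835482680) (nat_lit 29) (nat_lit 3) (nat_lit 28) (nat_lit 1) (nat_lit 29) (nat_lit 1) (nat_lit 370) (nat_lit 397) (nat_lit 253)) (XT.nd (nat_lit 78) (nat_lit 76) (nat_lit 0) (XT.lf (nat_lit 0) (nat_lit 1511404316) (nat_lit 0) (nat_lit 1513213046) (nat_lit 152) (nat_lit 3250027838) (nat_lit 26) (nat_lit 3) (nat_lit 26) (nat_lit 1) (nat_lit 28) (nat_lit 1) (nat_lit 371) (nat_lit 397) (nat_lit 252)) (XT.lf (nat_lit 76) (nat_lit 1424946676) (nat_lit 0) (nat_lit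 3264190456) (nat_lit 76) (nat_lit 1426621427) (nat_lit 26) (nat_lit 3) (nat_lit 25) (nat_lit 1) (nat_lit 26) (nat_lit 1) (nat_lit 372) (nat_lit 397) (nat_lit 251)))) (XT.nd (nat_lit 156) (nat_lit 228) (nat_lit 0) (XT.nd (nat_lit 78) (nat_lit 76) (nat_lit 0) (XT.lf (nat_lit 0) (nat_lit 1741949523) (nat_lit 0) (nat_lit 1743426376) (nat_lit 152) (nat_lit 2475350831) (nat_lit 23) (nat_lit 3) (nat_lit 23) (nat_lit 1) (nat_lit 25) (nat_lit 1) (nat_lit 373) (nat_lit 397) (nat_lit 250)) (XT.lf (nat_lit 76) (nat_lit 1053485151) (nat_lit 0) (nat_lit 3701725895) (nat_lit 76) (nat_lit 1054852607) (nat_lit 23) (nat_lit 3) (nat_lit 22) (nat_lit 1) (nat_lit 23) (nat_lit 1) (nat_lit 374) (nat_lit 397) (nat_lit 249))) (XT.nd (nat_lit 78) (nat_lit 76) (nat_lit 0) (XT.lf (nat_lit 0) (nat_lit 1944932950) (nat_lit 0) (nat_lit 1946138819) (nat_lit 152) (nat_lit 1771514161) (nat_lit 20) (nat_lit 3) (nat_lit 20) (nat_lit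 1) (nat_lit 22) (nat_lit 1) (nat_lit 375) (nat_lit 397) (nat_lit 248)) (XT.lf (nat_lit 76) (nat_lit 716325690) (nat_lit 0) (nat_lit 4085950825) (nat_lit 76) (nat_lit 717442236) (nat_lit 20) (nat_lit 3) (nat_lit 19) (nat_lit 1) (nat_lit 20) (nat_lit 1) (nat_lit 376) (nat_lit 397) (nat_lit 247))))) (XT.nd (nat_lit 234) (nat_lit 532) (nat_lit 0) (XT.nd (nat_lit 78) (nat_lit 228) (nat_lit 0) (XT.lf (nat_lit 0) (nat_lit 2122577470) (nat_lit 0) (nat_lit 2123562078) (nat_lit 152) (nat_lit 1133286413) (nat_lit 17) (nat_lit 3) (nat_lit 17) (nat_lit 1) (nat_lit 19) (nat_lit 1) (nat_lit 377) (nat_lit 397) (nat_lit 246)) (XT.nd (nat_lit 78) (nat_lit 152) (nat_lit 0) (XT.lf (nat_lit 76) (nat_lit 410928267) (nat_lit 0) (nat_lit 4421181156) (nat_lit 76) (nat_lit 411839941) (nat_lit 17) (nat_lit 3) (nat_lit 16) (nat_lit 1) (nat_lit 17) (nat_lit 1) (nat_lit 378) (nat_lit 397) (nat_lit 245)) (XT.lf (nat_lit 0)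 (nat_lit 2276949883) (nat_lit 0) (nat_lit 2277753829) (nat_lit 152) (nat_lit 555786732) (nat_lit 14) (nat_lit 3) (nat_lit 14) (nat_lit 1) (nat_lit 16) (nat_lit 1) (nat_lit 379) (nat_lit 397) (nat_lit 244)))) (XT.nd (nat_lit 156) (nat_lit 304) (nat_lit 0) (XT.nd (nat_lit 78) (nat_lit 152) (nat_lit 0) (XT.lf (nat_lit 76) (nat_lit 134922822) (nat_lit 0) (nat_lit 4711430246) (nat_lit 76) (nat_lit 135667216) (nat_lit 14) (nat_lit 3) (nat_lit 13) (nat_lit 1) (nat_lit 14) (nat_lit 1) (nat_lit 380) (nat_lit 397) (nat_lit 243)) (XT.lf (nat_lit 0) (nat_lit 2409971159) (nat_lit 0) (nat_lit 2410627591) (nat_lit 152) (nat_lit 34462634) (nat_lit 11) (nat_lit 3) (nat_lit 11) (nat_lit 1) (nat_lit 13) (nat_lit 1) (nat_lit 381) (nat_lit 397) (nat_lit 242))) (XT.nd (nat_lit 78) (nat_lit 76) (nat_lit 0) (XT.lf (nat_lit 0) (nat_lit 115170309) (nat_lit 0) (nat_lit 115749174) (nat_lit 152) (nat_lit 4501950516) (nat_lit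 8) (nat_lit 3) (nat_lit 8) (nat_lit 1) (nat_lit 10) (nat_lit 1) (nat_lit 382) (nat_lit 397) (nat_lit 241)) (XT.lf (nat_lit 76) (nat_lit 2081129432) (nat_lit 0) (nat_lit 449311614) (nat_lit 76) (nat_lit 2081665417) (nat_lit 8) (nat_lit 3) (nat_lit 7) (nat_lit 1) (nat_lit 8) (nat_lit 1) (nat_lit 383) (nat_lit 397) (nat_lit 240))))))))
noncomputable def ec172 : XT := (XT.nd (nat_lit 2028) (nat_lit 0) (nat_lit 0) (XT.nd (nat_lit 1014) (nat_lit 0) (nat_lit 0) (XT.nd (nat_lit 468) (nat_lit 0) (nat_lit 0) (XT.nd (nat_lit 234) (nat_lit 152) (nat_lit 0) (XT.nd (nat_lit 78) (nat_lit 228) (nat_lit 0) (XT.lf (nat_lit 0) (nat_lit 342651838) (nat_lit 0) (nat_lit 343124488) (nat_lit 152) (nat_lit 3810070621) (nat_lit 5) (nat_lit 3) (nat_lit 5) (nat_lit 1) (nat_lit 7) (nat_lit 1) (nat_lit 384) (nat_lit 397) (nat_lit 239)) (XT.nd (nat_lit 78) (nat_lit 152) (nat_lit 0) (XT.lf (nat_lit 76) (nat_lit 1748118598)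 (nat_lit 0) (nat_lit 884665498) (nat_lit 76) (nat_lit 1748556237) (nat_lit 5) (nat_lit 3) (nat_lit 4) (nat_lit 1) (nat_lit 5) (nat_lit 1) (nat_lit 385) (nat_lit 397) (nat_lit 238)) (XT.lf (nat_lit 0) (nat_lit 546534805) (nat_lit 0) (nat_lit 546920730) (nat_lit 152) (nat_lit 3177293476) (nat_lit 2) (nat_lit 3) (nat_lit 2) (nat_lit 1) (nat_lit 4) (nat_lit 1) (nat_lit 386) (nat_lit 397) (nat_lit 237)))) (XT.nd (nat_lit 78) (nat_lit 76) (nat_lit 0) (XT.lf (nat_lit 76) (nat_lit 1443773708) (nat_lit 0) (nat_lit 1274268867) (nat_lit 76) (nat_lit 1444131046) (nat_lit 2) (nat_lit 3) (nat_lit 1) (nat_lit 1) (nat_lit 2) (nat_lit 1) (nat_lit 387) (nat_lit 397) (nat_lit 236)) (XT.nd (nat_lit 78) (nat_lit 0) (nat_lit 0) (XT.lf (nat_lit 0) (nat_lit 86308904508) (nat_lit 0) (nat_lit 0) (nat_lit 0) (nat_lit 0) (nat_lit 0) (nat_lit 0) (nat_lit 1) (nat_lit 0) (nat_lit 1) (nat_lit 0) (nat_lit 388) (nat_lit 397)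 (nat_lit 235)) (XT.lf (nat_lit 0) (nat_lit 86308879900) (nat_lit 0) (nat_lit 0) (nat_lit 0) (nat_lit 0) (nat_lit 0) (nat_lit 0) (nat_lit 1) (nat_lit 0) (nat_lit 1) (nat_lit 0) (nat_lit 389) (nat_lit 397) (nat_lit 234))))) (XT.nd (nat_lit 234) (nat_lit 0) (nat_lit 0) (XT.nd (nat_lit 78) (nat_lit 0) (nat_lit 0) (XT.lf (nat_lit 0) (nat_lit 86308857115) (nat_lit 0) (nat_lit 0) (nat_lit 0) (nat_lit 0) (nat_lit 0) (nat_lit 0) (nat_lit 1) (nat_lit 0) (nat_lit 1) (nat_lit 0) (nat_lit 390) (nat_lit 397) (nat_lit 233)) (XT.nd (nat_lit 78) (nat_lit 0) (nat_lit 0) (XT.lf (nat_lit 0) (nat_lit 86308836018) (nat_lit 0) (nat_lit 0) (nat_lit 0) (nat_lit 0) (nat_lit 0) (nat_lit 0) (nat_lit 1) (nat_lit 0) (nat_lit 1) (nat_lit 0) (nat_lit 391) (nat_lit 397) (nat_lit 232)) (XT.lf (nat_lit 0) (nat_lit 86308816483) (nat_lit 0) (nat_lit 0) (nat_lit 0) (nat_lit 0) (nat_lit 0) (nat_lit 0) (nat_lit 1) (nat_lit 0) (nat_lit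 1) (nat_lit 0) (nat_lit 392) (nat_lit 397) (nat_lit 231)))) (XT.nd (nat_lit 156) (nat_lit 0) (nat_lit 0) (XT.nd (nat_lit 78) (nat_lit 0) (nat_lit 0) (XT.lf (nat_lit 0) (nat_lit 86308798396) (nat_lit 0) (nat_lit 0) (nat_lit 0) (nat_lit 0) (nat_lit 0) (nat_lit 0) (nat_lit 1) (nat_lit 0) (nat_lit 1) (nat_lit 0) (nat_lit 393) (nat_lit 397) (nat_lit 230)) (XT.lf (nat_lit 0) (nat_lit 86308781648) (nat_lit 0) (nat_lit 0) (nat_lit 0) (nat_lit 0) (nat_lit 0) (nat_lit 0) (nat_lit 1) (nat_lit 0) (nat_lit 1) (nat_lit 0) (nat_lit 394) (nat_lit 397) (nat_lit 229))) (XT.nd (nat_lit 78) (nat_lit 0) (nat_lit 0) (XT.lf (nat_lit 0) (nat_lit 86308766141) (nat_lit 0) (nat_lit 0) (nat_lit 0) (nat_lit 0) (nat_lit 0) (nat_lit 0) (nat_lit 1) (nat_lit 0) (nat_lit 1) (nat_lit 0) (nat_lit 395) (nat_lit 397) (nat_lit 228)) (XT.lf (nat_lit 0) (nat_lit 86308751783) (nat_lit 0) (nat_lit 0) (nat_lit 0) (nat_lit 0) (nat_lit 0)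 (nat_lit 0) (nat_lit 1) (nat_lit 0) (nat_lit 1) (nat_lit 0) (nat_lit 396) (nat_lit 397) (nat_lit 227)))))) (XT.nd (nat_lit 468) (nat_lit 0) (nat_lit 0) (XT.nd (nat_lit 234) (nat_lit 0) (nat_lit 0) (XT.nd (nat_lit 78) (nat_lit 0) (nat_lit 0) (XT.lf (nat_lit 0) (nat_lit 86308738488) (nat_lit 0) (nat_lit 0) (nat_lit 0) (nat_lit 0) (nat_lit 0) (nat_lit 0) (nat_lit 1) (nat_lit 0) (nat_lit 1) (nat_lit 0) (nat_lit 397) (nat_lit 397) (nat_lit 226)) (XT.nd (nat_lit 78) (nat_lit 0) (nat_lit 0) (XT.lf (nat_lit 0) (nat_lit 86308726178) (nat_lit 0) (nat_lit 0) (nat_lit 0) (nat_lit 0) (nat_lit 0) (nat_lit 0) (nat_lit 1) (nat_lit 0) (nat_lit 1) (nat_lit 0) (nat_lit 398) (nat_lit 397) (nat_lit 225)) (XT.lf (nat_lit 0) (nat_lit 86308714780) (nat_lit 0) (nat_lit 0) (nat_lit 0) (nat_lit 0) (nat_lit 0) (nat_lit 0) (nat_lit 1) (nat_lit 0) (nat_lit 1) (nat_lit 0) (nat_lit 399) (nat_lit 397) (nat_lit 224)))) (XT.nd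 (nat_lit 78) (nat_lit 0) (nat_lit 0) (XT.lf (nat_lit 0) (nat_lit 86308704226) (nat_lit 0) (nat_lit 0) (nat_lit 0) (nat_lit 0) (nat_lit 0) (nat_lit 0) (nat_lit 1) (nat_lit 0) (nat_lit 1) (nat_lit 0) (nat_lit 400) (nat_lit 397) (nat_lit 223)) (XT.nd (nat_lit 78) (nat_lit 0) (nat_lit 0) (XT.lf (nat_lit 0) (nat_lit 86308694454) (nat_lit 0) (nat_lit 0) (nat_lit 0) (nat_lit 0) (nat_lit 0) (nat_lit 0) (nat_lit 1) (nat_lit 0) (nat_lit 1) (nat_lit 0) (nat_lit 401) (nat_lit 397) (nat_lit 222)) (XT.lf (nat_lit 0) (nat_lit 86308685406) (nat_lit 0) (nat_lit 0) (nat_lit 0) (nat_lit 0) (nat_lit 0) (nat_lit 0) (nat_lit 1) (nat_lit 0) (nat_lit 1) (nat_lit 0) (nat_lit 402) (nat_lit 397) (nat_lit 221))))) (XT.nd (nat_lit 234) (nat_lit 0) (nat_lit 0) (XT.nd (nat_lit 78) (nat_lit 0) (nat_lit 0) (XT.lf (nat_lit 0) (nat_lit 86308677028) (nat_lit 0) (nat_lit 0) (nat_lit 0) (nat_lit 0) (nat_lit 0) (nat_lit 0) (nat_lit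 1) (nat_lit 0) (nat_lit 1) (nat_lit 0) (nat_lit 403) (nat_lit 397) (nat_lit 220)) (XT.nd (nat_lit 78) (nat_lit 0) (nat_lit 0) (XT.lf (nat_lit 0) (nat_lit 86308669271) (nat_lit 0) (nat_lit 0) (nat_lit 0) (nat_lit 0) (nat_lit 0) (nat_lit 0) (nat_lit 1) (nat_lit 0) (nat_lit 1) (nat_lit 0) (nat_lit 404) (nat_lit 397) (nat_lit 219)) (XT.lf (nat_lit 0) (nat_lit 86308662088) (nat_lit 0) (nat_lit 0) (nat_lit 0) (nat_lit 0) (nat_lit 0) (nat_lit 0) (nat_lit 1) (nat_lit 0) (nat_lit 1) (nat_lit 0) (nat_lit 405) (nat_lit 397) (nat_lit 218)))) (XT.nd (nat_lit 156) (nat_lit 0) (nat_lit 0) (XT.nd (nat_lit 78) (nat_lit 0) (nat_lit 0) (XT.lf (nat_lit 0) (nat_lit 86308655437) (nat_lit 0) (nat_lit 0) (nat_lit 0) (nat_lit 0) (nat_lit 0) (nat_lit 0) (nat_lit 1) (nat_lit 0) (nat_lit 1) (nat_lit 0) (nat_lit 406) (nat_lit 397) (nat_lit 217)) (XT.lf (nat_lit 0) (nat_lit 86308649279) (nat_lit 0) (nat_lit 0) (nat_lit 0)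 (nat_lit 0) (nat_lit 0) (nat_lit 0) (nat_lit 1) (nat_lit 0) (nat_lit 1) (nat_lit 0) (nat_lit 407) (nat_lit 397) (nat_lit 216))) (XT.nd (nat_lit 78) (nat_lit 0) (nat_lit 0) (XT.lf (nat_lit 0) (nat_lit 86308643577) (nat_lit 0) (nat_lit 0) (nat_lit 0) (nat_lit 0) (nat_lit 0) (nat_lit 0) (nat_lit 1) (nat_lit 0) (nat_lit 1) (nat_lit 0) (nat_lit 408) (nat_lit 397) (nat_lit 215)) (XT.lf (nat_lit 0) (nat_lit 86308638298) (nat_lit 0) (nat_lit 0) (nat_lit 0) (nat_lit 0) (nat_lit 0) (nat_lit 0) (nat_lit 1) (nat_lit 0) (nat_lit 1) (nat_lit 0) (nat_lit 409) (nat_lit 397) (nat_lit 214))))))) (XT.nd (nat_lit 39078) (nat_lit 0) (nat_lit 18164) (XT.nd (nat_lit 468) (nat_lit 0) (nat_lit 0) (XT.nd (nat_lit 234) (nat_lit 0) (nat_lit 0) (XT.nd (nat_lit 78) (nat_lit 0) (nat_lit 0) (XT.lf (nat_lit 0) (nat_lit 86308633409) (nat_lit 0) (nat_lit 0) (nat_lit 0) (nat_lit 0) (nat_lit 0) (nat_lit 0) (nat_lit 1) (nat_lit 0)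 (nat_lit 1) (nat_lit 0) (nat_lit 410) (nat_lit 397) (nat_lit 213)) (XT.nd (nat_lit 78) (nat_lit 0) (nat_lit 0) (XT.lf (nat_lit 0) (nat_lit 86308628883) (nat_lit 0) (nat_lit 0) (nat_lit 0) (nat_lit 0) (nat_lit 0) (nat_lit 0) (nat_lit 1) (nat_lit 0) (nat_lit 1) (nat_lit 0) (nat_lit 411) (nat_lit 397) (nat_lit 212)) (XT.lf (nat_lit 0) (nat_lit 86308624692) (nat_lit 0) (nat_lit 0) (nat_lit 0) (nat_lit 0) (nat_lit 0) (nat_lit 0) (nat_lit 1) (nat_lit 0) (nat_lit 1) (nat_lit 0) (nat_lit 412) (nat_lit 397) (nat_lit 211)))) (XT.nd (nat_lit 78) (nat_lit 0) (nat_lit 0) (XT.lf (nat_lit 0) (nat_lit 86308620811) (nat_lit 0) (nat_lit 0) (nat_lit 0) (nat_lit 0) (nat_lit 0) (nat_lit 0) (nat_lit 1) (nat_lit 0) (nat_lit 1) (nat_lit 0) (nat_lit 413) (nat_lit 397) (nat_lit 210)) (XT.nd (nat_lit 78) (nat_lit 0) (nat_lit 0) (XT.lf (nat_lit 0) (nat_lit 86308617218) (nat_lit 0) (nat_lit 0) (nat_lit 0) (nat_lit 0) (nat_lit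 0) (nat_lit 0) (nat_lit 1) (nat_lit 0) (nat_lit 1) (nat_lit 0) (nat_lit 414) (nat_lit 397) (nat_lit 209)) (XT.lf (nat_lit 0) (nat_lit 86308613891) (nat_lit 0) (nat_lit 0) (nat_lit 0) (nat_lit 0) (nat_lit 0) (nat_lit 0) (nat_lit 1) (nat_lit 0) (nat_lit 1) (nat_lit 0) (nat_lit 415) (nat_lit 397) (nat_lit 208))))) (XT.nd (nat_lit 38298) (nat_lit 0) (nat_lit 22268) (XT.nd (nat_lit 38142) (nat_lit 0) (nat_lit 22192) (XT.lf (nat_lit 0) (nat_lit 86308610810) (nat_lit 0) (nat_lit 0) (nat_lit 0) (nat_lit 0) (nat_lit 0) (nat_lit 0) (nat_lit 1) (nat_lit 0) (nat_lit 1) (nat_lit 0) (nat_lit 416) (nat_lit 397) (nat_lit 207)) (XT.nd (nat_lit 78) (nat_lit 0) (nat_lit 76) (XT.lf (nat_lit 836) (nat_lit 46647405892) (nat_lit 0) (nat_lit 82822361938) (nat_lit 836) (nat_lit 46647405892) (nat_lit 303) (nat_lit 1) (nat_lit 292) (nat_lit 0) (nat_lit 303) (nat_lit 0) (nat_lit 224) (nat_lit 398) (nat_lit 398)) (XT.lf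 (nat_lit 836) (nat_lit 17400913733) (nat_lit 0) (nat_lit 162605397977) (nat_lit 760) (nat_lit 159027535969) (nat_lit 304) (nat_lit 1) (nat_lit 293) (nat_lit 1) (nat_lit 303) (nat_lit 1) (nat_lit 225) (nat_lit 398) (nat_lit 397)))) (XT.nd (nat_lit 156) (nat_lit 0) (nat_lit 152) (XT.nd (nat_lit 78) (nat_lit 0) (nat_lit 76) (XT.lf (nat_lit 836) (nat_lit 159817348686) (nat_lit 76) (nat_lit 108896889836) (nat_lit 0) (nat_lit 57753942917) (nat_lit 304) (nat_lit 1) (nat_lit 294) (nat_lit 1) (nat_lit 293) (nat_lit 1) (nat_lit 226) (nat_lit 398) (nat_lit 396)) (XT.lf (nat_lit 836) (nat_lit 138095281690) (nat_lit 76) (nat_lit 45637931728) (nat_lit 0) (nat_lit 130798119591) (nat_lit 305) (nat_lit 1) (nat_lit 295) (nat_lit 1) (nat_lit 294) (nat_lit 1) (nat_lit 227) (nat_lit 398) (nat_lit 395))) (XT.nd (nat_lit 78) (nat_lit 0) (nat_lit 76) (XT.lf (nat_lit 836) (nat_lit 102202248904) (nat_lit 0) (nat_lit 191215576808)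 (nat_lit 760) (nat_lit 9774912967) (nat_lit 306) (nat_lit 1) (nat_lit 295) (nat_lit 1) (nat_lit 305) (nat_lit 1) (nat_lit 228) (nat_lit 398) (nat_lit 394)) (XT.lf (nat_lit 836) (nat_lit 24522427559) (nat_lit 0) (nat_lit 210868295179) (nat_lit 760) (nat_lit 57004918860) (nat_lit 307) (nat_lit 1) (nat_lit 296) (nat_lit 1) (nat_lit 306) (nat_lit 1) (nat_lit 229) (nat_lit 398) (nat_lit 393)))))) (XT.nd (nat_lit 546) (nat_lit 2052) (nat_lit 0) (XT.nd (nat_lit 234) (nat_lit 1064) (nat_lit 0) (XT.nd (nat_lit 78) (nat_lit 1216) (nat_lit 0) (XT.lf (nat_lit 836) (nat_lit 47122131653) (nat_lit 76) (nat_lit 183261720253) (nat_lit 0) (nat_lit 51718718475) (nat_lit 307) (nat_lit 1) (nat_lit 297) (nat_lit 1) (nat_lit 296) (nat_lit 1) (nat_lit 230) (nat_lit 398) (nat_lit 392)) (XT.nd (nat_lit 78) (nat_lit 532) (nat_lit 0) (XT.lf (nat_lit 836) (nat_lit 9677811312) (nat_lit 0) (nat_lit 137000258186) (nat_lit 760)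 (nat_lit 125627801290) (nat_lit 298) (nat_lit 1) (nat_lit 287) (nat_lit 1) (nat_lit 297) (nat_lit 1) (nat_lit 231) (nat_lit 398) (nat_lit 391)) (XT.lf (nat_lit 76) (nat_lit 67011181498) (nat_lit 0) (nat_lit 29039063390) (nat_lit 532) (nat_lit 166922790573) (nat_lit 281) (nat_lit 1) (nat_lit 280) (nat_lit 1) (nat_lit 287) (nat_lit 1) (nat_lit 232) (nat_lit 398) (nat_lit 390)))) (XT.nd (nat_lit 156) (nat_lit 304) (nat_lit 0) (XT.nd (nat_lit 78) (nat_lit 380) (nat_lit 0) (XT.lf (nat_lit 456) (nat_lit 184674381725) (nat_lit 0) (nat_lit 60115492509) (nat_lit 380) (nat_lit 9294226590) (nat_lit 281) (nat_lit 1) (nat_lit 275) (nat_lit 1) (nat_lit 280) (nat_lit 1) (nat_lit 233) (nat_lit 398) (nat_lit 389)) (XT.lf (nat_lit 456) (nat_lit 133262792455) (nat_lit 0) (nat_lit 28020090015) (nat_lit 380) (nat_lit 84294492012) (nat_lit 276) (nat_lit 1) (nat_lit 270) (nat_lit 1) (nat_lit 275) (nat_lit 1) (nat_lit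 234) (nat_lit 398) (nat_lit 388))) (XT.nd (nat_lit 78) (nat_lit 0) (nat_lit 0) (XT.lf (nat_lit 380) (nat_lit 81088709583) (nat_lit 0) (nat_lit 515895392) (nat_lit 304) (nat_lit 155878515828) (nat_lit 271) (nat_lit 1) (nat_lit 266) (nat_lit 1) (nat_lit 270) (nat_lit 1) (nat_lit 235) (nat_lit 398) (nat_lit 387)) (XT.lf (nat_lit 76) (nat_lit 5982341768) (nat_lit 0) (nat_lit 201753552382) (nat_lit 380) (nat_lit 22025323096) (nat_lit 267) (nat_lit 1) (nat_lit 266) (nat_lit 1) (nat_lit 271) (nat_lit 1) (nat_lit 236) (nat_lit 398) (nat_lit 386))))) (XT.nd (nat_lit 234) (nat_lit 1064) (nat_lit 0) (XT.nd (nat_lit 78) (nat_lit 608) (nat_lit 0) (XT.lf (nat_lit 76) (nat_lit 154465616111) (nat_lit 0) (nat_lit 25619775204) (nat_lit 380) (nat_lit 42251662215) (nat_lit 262) (nat_lit 1) (nat_lit 261) (nat_lit 1) (nat_lit 266) (nat_lit 1) (nat_lit 237) (nat_lit 398) (nat_lit 385)) (XT.nd (nat_lit 78) (nat_lit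 304) (nat_lit 0) (XT.lf (nat_lit 76) (nat_lit 77283061999) (nat_lit 0) (nat_lit 78477919376) (nat_lit 380) (nat_lit 59479945845) (nat_lit 258) (nat_lit 1) (nat_lit 257) (nat_lit 1) (nat_lit 262) (nat_lit 1) (nat_lit 238) (nat_lit 398) (nat_lit 384)) (XT.lf (nat_lit 76) (nat_lit 3814520568) (nat_lit 0) (nat_lit 131213862608) (nat_lit 380) (nat_lit 73452395863) (nat_lit 254) (nat_lit 1) (nat_lit 253) (nat_lit 1) (nat_lit 258) (nat_lit 1) (nat_lit 239) (nat_lit 398) (nat_lit 383)))) (XT.nd (nat_lit 156) (nat_lit 456) (nat_lit 0) (XT.nd (nat_lit 78) (nat_lit 380) (nat_lit 0) (XT.lf (nat_lit 304) (nat_lit 17226159900) (nat_lit 0) (nat_lit 116492273770) (nat_lit 228) (nat_lit 68267149713) (nat_lit 254) (nat_lit 1) (nat_lit 250) (nat_lit 1) (nat_lit 253) (nat_lit 1) (nat_lit 240) (nat_lit 398) (nat_lit 382)) (XT.lf (nat_lit 76) (nat_lit 59521013875) (nat_lit 0) (nat_lit 40796072757) (nat_lit 380) (nat_lit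 95441629403) (nat_lit 246) (nat_lit 1) (nat_lit 245) (nat_lit 1) (nat_lit 250) (nat_lit 1) (nat_lit 241) (nat_lit 398) (nat_lit 381))) (XT.nd (nat_lit 78) (nat_lit 228) (nat_lit 0) (XT.lf (nat_lit 304) (nat_lit 92152846140) (nat_lit 0) (nat_lit 86565688473) (nat_lit 228) (nat_lit 11080305386) (nat_lit 246) (nat_lit 1) (nat_lit 242) (nat_lit 1) (nat_lit 245) (nat_lit 1) (nat_lit 242) (nat_lit 398) (nat_lit 380)) (XT.lf (nat_lit 304) (nat_lit 29534541991) (nat_lit 0) (nat_lit 74529512945) (nat_lit 228) (nat_lit 80003948726) (nat_lit 243) (nat_lit 1) (nat_lit 239) (nat_lit 1) (nat_lit 242) (nat_lit 1) (nat_lit 243) (nat_lit 398) (nat_lit 379))))))))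
noncomputable def ec173 : XT := (XT.nd (nat_lit 2106) (nat_lit 3192) (nat_lit 0) (XT.nd (nat_lit 1014) (nat_lit 1900) (nat_lit 0) (XT.nd (nat_lit 468) (nat_lit 1064) (nat_lit 0) (XT.nd (nat_lit 234) (nat_lit 684) (nat_lit 0) (XT.nd (nat_lit 78) (nat_lit 380) (nat_lit 0) (XT.lf (nat_lit 76) (nat_lit 33662241374) (nat_lit 0) (nat_lit 30820707291) (nat_lit 304) (nat_lit 114092231085) (nat_lit 236) (nat_lit 1) (nat_lit 235) (nat_lit 1) (nat_lit 239) (nat_lit 1) (nat_lit 244) (nat_lit 398) (nat_lit 378)) (XT.nd (nat_lit 78) (nat_lit 152) (nat_lit 0) (XT.lf (nat_lit 304) (nat_lit 83764069500) (nat_lit 0) (nat_lit 55733507789) (nat_lit 228) (nat_lit 33785835664) (nat_lit 236) (nat_lit 1) (nat_lit 232) (nat_lit 1) (nat_lit 235) (nat_lit 1) (nat_lit 245) (nat_lit 398) (nat_lit 377)) (XT.lf (nat_lit 228) (nat_lit 20765236512) (nat_lit 0) (nat_lit 48623420333) (nat_lit 152) (nat_lit 98816473949) (nat_lit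 233) (nat_lit 1) (nat_lit 230) (nat_lit 1) (nat_lit 232) (nat_lit 1) (nat_lit 246) (nat_lit 398) (nat_lit 376)))) (XT.nd (nat_lit 78) (nat_lit 380) (nat_lit 0) (XT.lf (nat_lit 76) (nat_lit 3517763729) (nat_lit 0) (nat_lit 39364539803) (nat_lit 304) (nat_lit 120441392697) (nat_lit 227) (nat_lit 1) (nat_lit 226) (nat_lit 1) (nat_lit 230) (nat_lit 1) (nat_lit 247) (nat_lit 398) (nat_lit 375)) (XT.nd (nat_lit 78) (nat_lit 228) (nat_lit 0) (XT.lf (nat_lit 228) (nat_lit 60339967152) (nat_lit 0) (nat_lit 37707302914) (nat_lit 152) (nat_lit 60549950845) (nat_lit 227) (nat_lit 1) (nat_lit 224) (nat_lit 1) (nat_lit 226) (nat_lit 1) (nat_lit 248) (nat_lit 398) (nat_lit 374)) (XT.lf (nat_lit 76) (nat_lit 32737944554) (nat_lit 0) (nat_lit 1512186183) (nat_lit 228) (nat_lit 119826861954) (nat_lit 222) (nat_lit 1) (nat_lit 221) (nat_lit 1) (nat_lit 224) (nat_lit 1) (nat_lit 249) (nat_lit 398) (nat_lit 373)))))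 (XT.nd (nat_lit 234) (nat_lit 532) (nat_lit 0) (XT.nd (nat_lit 78) (nat_lit 380) (nat_lit 0) (XT.lf (nat_lit 228) (nat_lit 89499218564) (nat_lit 0) (nat_lit 31013485973) (nat_lit 152) (nat_lit 29175550156) (nat_lit 222) (nat_lit 1) (nat_lit 219) (nat_lit 1) (nat_lit 221) (nat_lit 1) (nat_lit 250) (nat_lit 398) (nat_lit 372)) (XT.nd (nat_lit 78) (nat_lit 228) (nat_lit 0) (XT.lf (nat_lit 228) (nat_lit 27802043770) (nat_lit 0) (nat_lit 28830464735) (nat_lit 152) (nat_lit 88834808850) (nat_lit 220) (nat_lit 1) (nat_lit 217) (nat_lit 1) (nat_lit 219) (nat_lit 1) (nat_lit 251) (nat_lit 398) (nat_lit 371)) (XT.lf (nat_lit 228) (nat_lit 110363896229) (nat_lit 0) (nat_lit 27545169028) (nat_lit 152) (nat_lit 3494424261) (nat_lit 217) (nat_lit 1) (nat_lit 214) (nat_lit 1) (nat_lit 216) (nat_lit 1) (nat_lit 252) (nat_lit 398) (nat_lit 370)))) (XT.nd (nat_lit 156) (nat_lit 228) (nat_lit 0) (XT.nd (nat_lit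 78) (nat_lit 152) (nat_lit 0) (XT.lf (nat_lit 228) (nat_lit 49393765018) (nat_lit 0) (nat_lit 26296349658) (nat_lit 152) (nat_lit 61762467953) (nat_lit 215) (nat_lit 1) (nat_lit 212) (nat_lit 1) (nat_lit 214) (nat_lit 1) (nat_lit 253) (nat_lit 398) (nat_lit 369)) (XT.lf (nat_lit 76) (nat_lit 16919271558) (nat_lit 0) (nat_lit 9299594053) (nat_lit 152) (nat_lit 107446683537) (nat_lit 211) (nat_lit 1) (nat_lit 210) (nat_lit 1) (nat_lit 212) (nat_lit 1) (nat_lit 254) (nat_lit 398) (nat_lit 368))) (XT.nd (nat_lit 78) (nat_lit 76) (nat_lit 0) (XT.lf (nat_lit 228) (nat_lit 64807460373) (nat_lit 0) (nat_lit 25941237010) (nat_lit 152) (nat_lit 39225380474) (nat_lit 211) (nat_lit 1) (nat_lit 208) (nat_lit 1) (nat_lit 210) (nat_lit 1) (nat_lit 255) (nat_lit 398) (nat_lit 367)) (XT.lf (nat_lit 152) (nat_lit 6978842579) (nat_lit 0) (nat_lit 26578387314) (nat_lit 76) (nat_lit 92871111208) (nat_lit 209) (nat_lit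 1) (nat_lit 207) (nat_lit 1) (nat_lit 208) (nat_lit 1) (nat_lit 256) (nat_lit 398) (nat_lit 366)))))) (XT.nd (nat_lit 546) (nat_lit 760) (nat_lit 0) (XT.nd (nat_lit 234) (nat_lit 608) (nat_lit 0) (XT.nd (nat_lit 78) (nat_lit 304) (nat_lit 0) (XT.lf (nat_lit 228) (nat_lit 75334029093) (nat_lit 0) (nat_lit 27182597688) (nat_lit 152) (nat_lit 20463744476) (nat_lit 207) (nat_lit 1) (nat_lit 204) (nat_lit 1) (nat_lit 206) (nat_lit 1) (nat_lit 257) (nat_lit 398) (nat_lit 365)) (XT.nd (nat_lit 78) (nat_lit 228) (nat_lit 0) (XT.lf (nat_lit 152) (nat_lit 18947063828) (nat_lit 0) (nat_lit 28198982407) (nat_lit 76) (nat_lit 72502558687) (nat_lit 205) (nat_lit 1) (nat_lit 203) (nat_lit 1) (nat_lit 204) (nat_lit 1) (nat_lit 258) (nat_lit 398) (nat_lit 364)) (XT.lf (nat_lit 228) (nat_lit 82017179714) (nat_lit 0) (nat_lit 29559027671) (nat_lit 152) (nat_lit 4850889480) (nat_lit 203) (nat_lit 1) (nat_lit 200)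 (nat_lit 1) (nat_lit 202) (nat_lit 1) (nat_lit 259) (nat_lit 398) (nat_lit 363)))) (XT.nd (nat_lit 156) (nat_lit 304) (nat_lit 0) (XT.nd (nat_lit 78) (nat_lit 228) (nat_lit 0) (XT.lf (nat_lit 152) (nat_lit 27267424234) (nat_lit 0) (nat_lit 30815641535) (nat_lit 76) (nat_lit 55208883070) (nat_lit 201) (nat_lit 1) (nat_lit 199) (nat_lit 1) (nat_lit 200) (nat_lit 1) (nat_lit 260) (nat_lit 398) (nat_lit 362)) (XT.lf (nat_lit 76) (nat_lit 7870463777) (nat_lit 0) (nat_lit 24703287836) (nat_lit 228) (nat_lit 77695679605) (nat_lit 197) (nat_lit 1) (nat_lit 196) (nat_lit 1) (nat_lit 199) (nat_lit 1) (nat_lit 261) (nat_lit 398) (nat_lit 361))) (XT.nd (nat_lit 78) (nat_lit 228) (nat_lit 0) (XT.lf (nat_lit 152) (nat_lit 32723369223) (nat_lit 0) (nat_lit 34096199678) (nat_lit 76) (nat_lit 40502407062) (nat_lit 197) (nat_lit 1) (nat_lit 195) (nat_lit 1) (nat_lit 196) (nat_lit 1) (nat_lit 262) (nat_lit 398)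 (nat_lit 360)) (XT.lf (nat_lit 76) (nat_lit 18303768176) (nat_lit 0) (nat_lit 17728437176) (nat_lit 228) (nat_lit 68445896152) (nat_lit 193) (nat_lit 1) (nat_lit 192) (nat_lit 1) (nat_lit 195) (nat_lit 1) (nat_lit 263) (nat_lit 398) (nat_lit 359))))) (XT.nd (nat_lit 234) (nat_lit 456) (nat_lit 0) (XT.nd (nat_lit 78) (nat_lit 228) (nat_lit 0) (XT.lf (nat_lit 152) (nat_lit 35946694517) (nat_lit 0) (nat_lit 37781364542) (nat_lit 76) (nat_lit 27978827900) (nat_lit 193) (nat_lit 1) (nat_lit 191) (nat_lit 1) (nat_lit 192) (nat_lit 1) (nat_lit 264) (nat_lit 398) (nat_lit 358)) (XT.nd (nat_lit 78) (nat_lit 76) (nat_lit 0) (XT.lf (nat_lit 76) (nat_lit 26947379320) (nat_lit 0) (nat_lit 12839944080) (nat_lit 152) (nat_lit 59239869455) (nat_lit 190) (nat_lit 1) (nat_lit 189) (nat_lit 1) (nat_lit 191) (nat_lit 1) (nat_lit 265) (nat_lit 398) (nat_lit 357)) (XT.lf (nat_lit 152) (nat_lit 37445882928) (nat_lit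 0) (nat_lit 41670513991) (nat_lit 76) (nat_lit 17302345055) (nat_lit 190) (nat_lit 1) (nat_lit 188) (nat_lit 1) (nat_lit 189) (nat_lit 1) (nat_lit 266) (nat_lit 398) (nat_lit 356)))) (XT.nd (nat_lit 156) (nat_lit 228) (nat_lit 0) (XT.nd (nat_lit 78) (nat_lit 76) (nat_lit 0) (XT.lf (nat_lit 76) (nat_lit 34085929318) (nat_lit 0) (nat_lit 9578765707) (nat_lit 152) (nat_lit 50225829290) (nat_lit 187) (nat_lit 1) (nat_lit 186) (nat_lit 1) (nat_lit 188) (nat_lit 1) (nat_lit 267) (nat_lit 398) (nat_lit 355)) (XT.lf (nat_lit 152) (nat_lit 37629209992) (nat_lit 0) (nat_lit 45610153484) (nat_lit 76) (nat_lit 8193489132) (nat_lit 187) (nat_lit 1) (nat_lit 185) (nat_lit 1) (nat_lit 186) (nat_lit 1) (nat_lit 268) (nat_lit 398) (nat_lit 354))) (XT.nd (nat_lit 78) (nat_lit 76) (nat_lit 0) (XT.lf (nat_lit 76) (nat_lit 39955979216) (nat_lit 0) (nat_lit 7575788937) (nat_lit 152) (nat_lit 41513119344) (nat_lit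 184) (nat_lit 1) (nat_lit 183) (nat_lit 1) (nat_lit 185) (nat_lit 1) (nat_lit 269) (nat_lit 398) (nat_lit 353)) (XT.lf (nat_lit 152) (nat_lit 36823580203) (nat_lit 0) (nat_lit 49484542081) (nat_lit 76) (nat_lit 419158060) (nat_lit 184) (nat_lit 1) (nat_lit 182) (nat_lit 1) (nat_lit 183) (nat_lit 1) (nat_lit 270) (nat_lit 398) (nat_lit 352))))))) (XT.nd (nat_lit 1014) (nat_lit 1596) (nat_lit 0) (XT.nd (nat_lit 468) (nat_lit 912) (nat_lit 0) (XT.nd (nat_lit 234) (nat_lit 304) (nat_lit 0) (XT.nd (nat_lit 78) (nat_lit 228) (nat_lit 0) (XT.lf (nat_lit 76) (nat_lit 44754528039) (nat_lit 0) (nat_lit 6534944461) (nat_lit 152) (nat_lit 33180121535) (nat_lit 181) (nat_lit 1) (nat_lit 180) (nat_lit 1) (nat_lit 182) (nat_lit 1) (nat_lit 271) (nat_lit 398) (nat_lit 351)) (XT.nd (nat_lit 78) (nat_lit 152) (nat_lit 0) (XT.lf (nat_lit 0) (nat_lit 6016606634) (nat_lit 0) (nat_lit 47089585188) (nat_lit 152) (nat_lit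 29171378262) (nat_lit 179) (nat_lit 3) (nat_lit 179) (nat_lit 1) (nat_lit 181) (nat_lit 1) (nat_lit 272) (nat_lit 398) (nat_lit 350)) (XT.lf (nat_lit 76) (nat_lit 48645981585) (nat_lit 0) (nat_lit 6219443758) (nat_lit 152) (nat_lit 25280675992) (nat_lit 178) (nat_lit 1) (nat_lit 177) (nat_lit 1) (nat_lit 179) (nat_lit 1) (nat_lit 273) (nat_lit 398) (nat_lit 349)))) (XT.nd (nat_lit 78) (nat_lit 228) (nat_lit 0) (XT.lf (nat_lit 0) (nat_lit 11493944539) (nat_lit 0) (nat_lit 45030572140) (nat_lit 152) (nat_lit 21546881728) (nat_lit 176) (nat_lit 3) (nat_lit 176) (nat_lit 1) (nat_lit 178) (nat_lit 1) (nat_lit 274) (nat_lit 398) (nat_lit 348)) (XT.nd (nat_lit 78) (nat_lit 76) (nat_lit 0) (XT.lf (nat_lit 76) (nat_lit 51767862242) (nat_lit 0) (nat_lit 6440564459) (nat_lit 152) (nat_lit 17849275822) (nat_lit 175) (nat_lit 1) (nat_lit 174) (nat_lit 1) (nat_lit 176) (nat_lit 1) (nat_lit 275) (nat_lit 398)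 (nat_lit 347)) (XT.lf (nat_lit 0) (nat_lit 16159206874) (nat_lit 0) (nat_lit 43542304725) (nat_lit 152) (nat_lit 14391571519) (nat_lit 173) (nat_lit 3) (nat_lit 173) (nat_lit 1) (nat_lit 175) (nat_lit 1) (nat_lit 276) (nat_lit 398) (nat_lit 346))))) (XT.nd (nat_lit 234) (nat_lit 532) (nat_lit 0) (XT.nd (nat_lit 78) (nat_lit 228) (nat_lit 0) (XT.lf (nat_lit 76) (nat_lit 54235489557) (nat_lit 0) (nat_lit 7048515053) (nat_lit 152) (nat_lit 10905264372) (nat_lit 172) (nat_lit 1) (nat_lit 171) (nat_lit 1) (nat_lit 173) (nat_lit 1) (nat_lit 277) (nat_lit 398) (nat_lit 345)) (XT.nd (nat_lit 78) (nat_lit 152) (nat_lit 0) (XT.lf (nat_lit 0) (nat_lit 20124471742) (nat_lit 0) (nat_lit 42483131559) (nat_lit 152) (nat_lit 7720500218) (nat_lit 170) (nat_lit 3) (nat_lit 170) (nat_lit 1) (nat_lit 172) (nat_lit 1) (nat_lit 278) (nat_lit 398) (nat_lit 344)) (XT.lf (nat_lit 76) (nat_lit 56145819261) (nat_lit 0)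 (nat_lit 7924996106) (nat_lit 152) (nat_lit 4456220776) (nat_lit 169) (nat_lit 1) (nat_lit 168) (nat_lit 1) (nat_lit 170) (nat_lit 1) (nat_lit 279) (nat_lit 398) (nat_lit 343)))) (XT.nd (nat_lit 156) (nat_lit 228) (nat_lit 0) (XT.nd (nat_lit 78) (nat_lit 228) (nat_lit 0) (XT.lf (nat_lit 0) (nat_lit 23484530492) (nat_lit 0) (nat_lit 41740670522) (nat_lit 152) (nat_lit 1538026848) (nat_lit 167) (nat_lit 3) (nat_lit 167) (nat_lit 1) (nat_lit 169) (nat_lit 1) (nat_lit 280) (nat_lit 398) (nat_lit 342)) (XT.lf (nat_lit 152) (nat_lit 56055887649) (nat_lit 0) (nat_lit 1548888860) (nat_lit 76) (nat_lit 7452439052) (nat_lit 166) (nat_lit 1) (nat_lit 164) (nat_lit 1) (nat_lit 165) (nat_lit 1) (nat_lit 281) (nat_lit 398) (nat_lit 341))) (XT.nd (nat_lit 78) (nat_lit 152) (nat_lit 0) (XT.lf (nat_lit 76) (nat_lit 22089701552) (nat_lit 0) (nat_lit 4297210194) (nat_lit 76) (nat_lit 36996080177) (nat_lit 164)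 (nat_lit 3) (nat_lit 163) (nat_lit 1) (nat_lit 164) (nat_lit 1) (nat_lit 282) (nat_lit 398) (nat_lit 340)) (XT.lf (nat_lit 152) (nat_lit 51521244498) (nat_lit 0) (nat_lit 7200100396) (nat_lit 76) (nat_lit 3044925372) (nat_lit 163) (nat_lit 1) (nat_lit 161) (nat_lit 1) (nat_lit 162) (nat_lit 1) (nat_lit 283) (nat_lit 398) (nat_lit 339)))))) (XT.nd (nat_lit 546) (nat_lit 836) (nat_lit 0) (XT.nd (nat_lit 234) (nat_lit 456) (nat_lit 0) (XT.nd (nat_lit 78) (nat_lit 228) (nat_lit 0) (XT.lf (nat_lit 76) (nat_lit 19157344688) (nat_lit 0) (nat_lit 9692821772) (nat_lit 76) (nat_lit 31328599036) (nat_lit 161) (nat_lit 3) (nat_lit 160) (nat_lit 1) (nat_lit 161) (nat_lit 1) (nat_lit 284) (nat_lit 398) (nat_lit 338)) (XT.nd (nat_lit 78) (nat_lit 76) (nat_lit 0) (XT.lf (nat_lit 0) (nat_lit 808599683) (nat_lit 0) (nat_lit 11541628209) (nat_lit 152) (nat_lit 46296269571) (nat_lit 158) (nat_lit 3) (nat_lit 158)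 (nat_lit 1) (nat_lit 160) (nat_lit 1) (nat_lit 285) (nat_lit 398) (nat_lit 337)) (XT.lf (nat_lit 76) (nat_lit 16295270288) (nat_lit 0) (nat_lit 14612984744) (nat_lit 76) (nat_lit 26233259663) (nat_lit 158) (nat_lit 3) (nat_lit 157) (nat_lit 1) (nat_lit 158) (nat_lit 1) (nat_lit 286) (nat_lit 398) (nat_lit 336)))) (XT.nd (nat_lit 156) (nat_lit 228) (nat_lit 0) (XT.nd (nat_lit 78) (nat_lit 76) (nat_lit 0) (XT.lf (nat_lit 0) (nat_lit 4112360661) (nat_lit 0) (nat_lit 12876019722) (nat_lit 152) (nat_lit 38698313439) (nat_lit 155) (nat_lit 3) (nat_lit 155) (nat_lit 1) (nat_lit 157) (nat_lit 1) (nat_lit 287) (nat_lit 398) (nat_lit 335)) (XT.lf (nat_lit 76) (nat_lit 13535559198) (nat_lit 0) (nat_lit 19076110826) (nat_lit 76) (nat_lit 21650058329) (nat_lit 155) (nat_lit 3) (nat_lit 154) (nat_lit 1) (nat_lit 155) (nat_lit 1) (nat_lit 288) (nat_lit 398) (nat_lit 334))) (XT.nd (nat_lit 78) (nat_lit 76) (nat_lit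 0) (XT.lf (nat_lit 0) (nat_lit 7014161452) (nat_lit 0) (nat_lit 14169804424) (nat_lit 152) (nat_lit 31696099245) (nat_lit 152) (nat_lit 3) (nat_lit 152) (nat_lit 1) (nat_lit 154) (nat_lit 1) (nat_lit 289) (nat_lit 398) (nat_lit 333)) (XT.lf (nat_lit 76) (nat_lit 10901020388) (nat_lit 0) (nat_lit 23102939098) (nat_lit 76) (nat_lit 17526615733) (nat_lit 152) (nat_lit 3) (nat_lit 151) (nat_lit 1) (nat_lit 152) (nat_lit 1) (nat_lit 290) (nat_lit 398) (nat_lit 332))))) (XT.nd (nat_lit 234) (nat_lit 456) (nat_lit 0) (XT.nd (nat_lit 78) (nat_lit 228) (nat_lit 0) (XT.lf (nat_lit 0) (nat_lit 9557836261) (nat_lit 0) (nat_lit 15400512932) (nat_lit 152) (nat_lit 25259733464) (nat_lit 149) (nat_lit 3) (nat_lit 149) (nat_lit 1) (nat_lit 151) (nat_lit 1) (nat_lit 291) (nat_lit 398) (nat_lit 331)) (XT.nd (nat_lit 78) (nat_lit 152) (nat_lit 0) (XT.lf (nat_lit 76) (nat_lit 8407121566) (nat_lit 0) (nat_lit 26715704243)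 (nat_lit 76) (nat_lit 13817007372) (nat_lit 149) (nat_lit 3) (nat_lit 148) (nat_lit 1) (nat_lit 149) (nat_lit 1) (nat_lit 292) (nat_lit 398) (nat_lit 330)) (XT.lf (nat_lit 0) (nat_lit 11781707407) (nat_lit 0) (nat_lit 16552329812) (nat_lit 152) (nat_lit 19358757859) (nat_lit 146) (nat_lit 3) (nat_lit 146) (nat_lit 1) (nat_lit 148) (nat_lit 1) (nat_lit 293) (nat_lit 398) (nat_lit 329)))) (XT.nd (nat_lit 156) (nat_lit 228) (nat_lit 0) (XT.nd (nat_lit 78) (nat_lit 152) (nat_lit 0) (XT.lf (nat_lit 76) (nat_lit 6063550895) (nat_lit 0) (nat_lit 29937483950) (nat_lit 76) (nat_lit 10480793862) (nat_lit 146) (nat_lit 3) (nat_lit 145) (nat_lit 1) (nat_lit 146) (nat_lit 1) (nat_lit 294) (nat_lit 398) (nat_lit 328)) (XT.lf (nat_lit 0) (nat_lit 13719415543) (nat_lit 0) (nat_lit 17614691527) (nat_lit 152) (nat_lit 13962665437) (nat_lit 143) (nat_lit 3) (nat_lit 143) (nat_lit 1) (nat_lit 145) (nat_lit 1) (nat_lit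 295) (nat_lit 398) (nat_lit 327))) (XT.nd (nat_lit 78) (nat_lit 152) (nat_lit 0) (XT.lf (nat_lit 76) (nat_lit 3875478410) (nat_lit 0) (nat_lit 32791690972) (nat_lit 76) (nat_lit 7482215433) (nat_lit 143) (nat_lit 3) (nat_lit 142) (nat_lit 1) (nat_lit 143) (nat_lit 1) (nat_lit 296) (nat_lit 398) (nat_lit 326)) (XT.lf (nat_lit 0) (nat_lit 15400609485) (nat_lit 0) (nat_lit 18581153597) (nat_lit 152) (nat_lit 9041295285) (nat_lit 140) (nat_lit 3) (nat_lit 140) (nat_lit 1) (nat_lit 142) (nat_lit 1) (nat_lit 297) (nat_lit 398) (nat_lit 325))))))))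
noncomputable def ec174 : XT := (XT.nd (nat_lit 2028) (nat_lit 3192) (nat_lit 0) (XT.nd (nat_lit 1014) (nat_lit 1596) (nat_lit 0) (XT.nd (nat_lit 468) (nat_lit 836) (nat_lit 0) (XT.nd (nat_lit 234) (nat_lit 380) (nat_lit 0) (XT.nd (nat_lit 78) (nat_lit 304) (nat_lit 0) (XT.lf (nat_lit 76) (nat_lit 1844573071) (nat_lit 0) (nat_lit 35301681709) (nat_lit 76) (nat_lit 4789521323) (nat_lit 140) (nat_lit 3) (nat_lit 139) (nat_lit 1) (nat_lit 140) (nat_lit 1) (nat_lit 298) (nat_lit 398) (nat_lit 324)) (XT.nd (nat_lit 78) (nat_lit 152) (nat_lit 0) (XT.lf (nat_lit 0) (nat_lit 16851520670) (nat_lit 0) (nat_lit 19448476801) (nat_lit 152) (nat_lit 4565130154) (nat_lit 137) (nat_lit 3) (nat_lit 137) (nat_lit 1) (nat_lit 139) (nat_lit 1) (nat_lit 299) (nat_lit 398) (nat_lit 323)) (XT.lf (nat_lit 76) (nat_lit 37460750751) (nat_lit 0) (nat_lit 29212988) (nat_lit 152) (nat_lit 2344702382) (nat_lit 136) (nat_lit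 1) (nat_lit 135) (nat_lit 1) (nat_lit 137) (nat_lit 1) (nat_lit 300) (nat_lit 398) (nat_lit 322)))) (XT.nd (nat_lit 78) (nat_lit 304) (nat_lit 0) (XT.lf (nat_lit 0) (nat_lit 18095442687) (nat_lit 0) (nat_lit 20215891549) (nat_lit 152) (nat_lit 505516162) (nat_lit 134) (nat_lit 3) (nat_lit 134) (nat_lit 1) (nat_lit 136) (nat_lit 1) (nat_lit 301) (nat_lit 398) (nat_lit 321)) (XT.nd (nat_lit 78) (nat_lit 76) (nat_lit 0) (XT.lf (nat_lit 152) (nat_lit 36117453611) (nat_lit 0) (nat_lit 1562928543) (nat_lit 76) (nat_lit 157221271) (nat_lit 133) (nat_lit 1) (nat_lit 131) (nat_lit 1) (nat_lit 132) (nat_lit 1) (nat_lit 302) (nat_lit 398) (nat_lit 320)) (XT.lf (nat_lit 76) (nat_lit 15934349155) (nat_lit 0) (nat_lit 3269834784) (nat_lit 76) (nat_lit 17665723561) (nat_lit 131) (nat_lit 3) (nat_lit 130) (nat_lit 1) (nat_lit 131) (nat_lit 1) (nat_lit 303) (nat_lit 398) (nat_lit 319))))) (XT.nd (nat_lit 234)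 (nat_lit 456) (nat_lit 0) (XT.nd (nat_lit 78) (nat_lit 228) (nat_lit 0) (XT.lf (nat_lit 0) (nat_lit 1801292895) (nat_lit 0) (nat_lit 3328078085) (nat_lit 152) (nat_lit 30809246943) (nat_lit 128) (nat_lit 3) (nat_lit 128) (nat_lit 1) (nat_lit 130) (nat_lit 1) (nat_lit 304) (nat_lit 398) (nat_lit 318)) (XT.nd (nat_lit 78) (nat_lit 152) (nat_lit 0) (XT.lf (nat_lit 76) (nat_lit 13460055810) (nat_lit 0) (nat_lit 6687503016) (nat_lit 76) (nat_lit 14873745801) (nat_lit 128) (nat_lit 3) (nat_lit 127) (nat_lit 1) (nat_lit 128) (nat_lit 1) (nat_lit 305) (nat_lit 398) (nat_lit 317)) (XT.lf (nat_lit 0) (nat_lit 3544408985) (nat_lit 0) (nat_lit 4791049188) (nat_lit 152) (nat_lit 25800352395) (nat_lit 125) (nat_lit 3) (nat_lit 125) (nat_lit 1) (nat_lit 127) (nat_lit 1) (nat_lit 306) (nat_lit 398) (nat_lit 316)))) (XT.nd (nat_lit 156) (nat_lit 228) (nat_lit 0) (XT.nd (nat_lit 78) (nat_lit 152) (nat_lit 0) (XT.lf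 (nat_lit 76) (nat_lit 11177547536) (nat_lit 0) (nat_lit 9756916271) (nat_lit 76) (nat_lit 12331844021) (nat_lit 125) (nat_lit 3) (nat_lit 124) (nat_lit 1) (nat_lit 125) (nat_lit 1) (nat_lit 307) (nat_lit 398) (nat_lit 315)) (XT.lf (nat_lit 0) (nat_lit 5095572097) (nat_lit 0) (nat_lit 6113470232) (nat_lit 152) (nat_lit 21215256226) (nat_lit 122) (nat_lit 3) (nat_lit 122) (nat_lit 1) (nat_lit 124) (nat_lit 1) (nat_lit 308) (nat_lit 398) (nat_lit 314))) (XT.nd (nat_lit 78) (nat_lit 152) (nat_lit 0) (XT.lf (nat_lit 76) (nat_lit 9077313410) (nat_lit 0) (nat_lit 12502939425) (nat_lit 76) (nat_lit 10019811683) (nat_lit 122) (nat_lit 3) (nat_lit 121) (nat_lit 1) (nat_lit 122) (nat_lit 1) (nat_lit 309) (nat_lit 398) (nat_lit 313)) (XT.lf (nat_lit 0) (nat_lit 6471497578) (nat_lit 0) (nat_lit 7302624803) (nat_lit 152) (nat_lit 17025233369) (nat_lit 119) (nat_lit 3) (nat_lit 119) (nat_lit 1) (nat_lit 121)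 (nat_lit 1) (nat_lit 310) (nat_lit 398) (nat_lit 312)))))) (XT.nd (nat_lit 468) (nat_lit 912) (nat_lit 0) (XT.nd (nat_lit 234) (nat_lit 380) (nat_lit 0) (XT.nd (nat_lit 78) (nat_lit 228) (nat_lit 0) (XT.lf (nat_lit 76) (nat_lit 7149642079) (nat_lit 0) (nat_lit 14949144877) (nat_lit 76) (nat_lit 7919204324) (nat_lit 119) (nat_lit 3) (nat_lit 118) (nat_lit 1) (nat_lit 119) (nat_lit 1) (nat_lit 311) (nat_lit 398) (nat_lit 311)) (XT.nd (nat_lit 78) (nat_lit 76) (nat_lit 0) (XT.lf (nat_lit 0) (nat_lit 7687395122) (nat_lit 0) (nat_lit 8366021441) (nat_lit 152) (nat_lit 13203099993) (nat_lit 116) (nat_lit 3) (nat_lit 116) (nat_lit 1) (nat_lit 118) (nat_lit 1) (nat_lit 312) (nat_lit 398) (nat_lit 310)) (XT.lf (nat_lit 76) (nat_lit 5384790773) (nat_lit 0) (nat_lit 17117816691) (nat_lit 76) (nat_lit 6013148475) (nat_lit 116) (nat_lit 3) (nat_lit 115) (nat_lit 1) (nat_lit 116) (nat_lit 1) (nat_lit 313)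 (nat_lit 398) (nat_lit 309)))) (XT.nd (nat_lit 78) (nat_lit 228) (nat_lit 0) (XT.lf (nat_lit 0) (nat_lit 8757133427) (nat_lit 0) (nat_lit 9311240748) (nat_lit 152) (nat_lit 9723184690) (nat_lit 113) (nat_lit 3) (nat_lit 113) (nat_lit 1) (nat_lit 115) (nat_lit 1) (nat_lit 314) (nat_lit 398) (nat_lit 308)) (XT.nd (nat_lit 78) (nat_lit 152) (nat_lit 0) (XT.lf (nat_lit 76) (nat_lit 3773114844) (nat_lit 0) (nat_lit 19029969305) (nat_lit 76) (nat_lit 4286177179) (nat_lit 113) (nat_lit 3) (nat_lit 112) (nat_lit 1) (nat_lit 113) (nat_lit 1) (nat_lit 315) (nat_lit 398) (nat_lit 307)) (XT.lf (nat_lit 0) (nat_lit 9693381985) (nat_lit 0) (nat_lit 10145817906) (nat_lit 152) (nat_lit 6561288663) (nat_lit 110) (nat_lit 3) (nat_lit 110) (nat_lit 1) (nat_lit 112) (nat_lit 1) (nat_lit 316) (nat_lit 398) (nat_lit 306))))) (XT.nd (nat_lit 234) (nat_lit 608) (nat_lit 0) (XT.nd (nat_lit 78) (nat_lit 228) (nat_lit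 0) (XT.lf (nat_lit 76) (nat_lit 2305165597) (nat_lit 0) (nat_lit 20705377172) (nat_lit 76) (nat_lit 2724087746) (nat_lit 110) (nat_lit 3) (nat_lit 109) (nat_lit 1) (nat_lit 110) (nat_lit 1) (nat_lit 317) (nat_lit 398) (nat_lit 305)) (XT.nd (nat_lit 78) (nat_lit 76) (nat_lit 0) (XT.lf (nat_lit 0) (nat_lit 10507733762) (nat_lit 0) (nat_lit 10877153647) (nat_lit 152) (nat_lit 3694637953) (nat_lit 107) (nat_lit 3) (nat_lit 107) (nat_lit 1) (nat_lit 109) (nat_lit 1) (nat_lit 318) (nat_lit 398) (nat_lit 304)) (XT.lf (nat_lit 76) (nat_lit 971762703) (nat_lit 0) (nat_lit 22162612439) (nat_lit 76) (nat_lit 1313818151) (nat_lit 107) (nat_lit 3) (nat_lit 106) (nat_lit 1) (nat_lit 107) (nat_lit 1) (nat_lit 319) (nat_lit 398) (nat_lit 303)))) (XT.nd (nat_lit 156) (nat_lit 228) (nat_lit 0) (XT.nd (nat_lit 78) (nat_lit 228) (nat_lit 0) (XT.lf (nat_lit 0) (nat_lit 11210811821) (nat_lit 0) (nat_lit 11512448019)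 (nat_lit 152) (nat_lit 1101830093) (nat_lit 104) (nat_lit 3) (nat_lit 104) (nat_lit 1) (nat_lit 106) (nat_lit 1) (nat_lit 320) (nat_lit 398) (nat_lit 302)) (XT.lf (nat_lit 152) (nat_lit 22994688304) (nat_lit 0) (nat_lit 195177528) (nat_lit 76) (nat_lit 36271400) (nat_lit 103) (nat_lit 1) (nat_lit 101) (nat_lit 1) (nat_lit 102) (nat_lit 1) (nat_lit 321) (nat_lit 398) (nat_lit 301))) (XT.nd (nat_lit 78) (nat_lit 152) (nat_lit 0) (XT.lf (nat_lit 76) (nat_lit 10554186577) (nat_lit 0) (nat_lit 1278131062) (nat_lit 76) (nat_lit 10800476503) (nat_lit 101) (nat_lit 3) (nat_lit 100) (nat_lit 1) (nat_lit 101) (nat_lit 1) (nat_lit 322) (nat_lit 398) (nat_lit 300)) (XT.lf (nat_lit 0) (nat_lit 1123746650) (nat_lit 0) (nat_lit 1340933534) (nat_lit 152) (nat_lit 19597618220) (nat_lit 98) (nat_lit 3) (nat_lit 98) (nat_lit 1) (nat_lit 100) (nat_lit 1) (nat_lit 323) (nat_lit 398) (nat_lit 299))))))) (XT.nd (nat_lit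 1014) (nat_lit 1748) (nat_lit 0) (XT.nd (nat_lit 468) (nat_lit 760) (nat_lit 0) (XT.nd (nat_lit 234) (nat_lit 380) (nat_lit 0) (XT.nd (nat_lit 78) (nat_lit 228) (nat_lit 0) (XT.lf (nat_lit 76) (nat_lit 8923395721) (nat_lit 0) (nat_lit 3451833849) (nat_lit 76) (nat_lit 9124494687) (nat_lit 98) (nat_lit 3) (nat_lit 97) (nat_lit 1) (nat_lit 98) (nat_lit 1) (nat_lit 324) (nat_lit 398) (nat_lit 298)) (XT.nd (nat_lit 78) (nat_lit 76) (nat_lit 0) (XT.lf (nat_lit 0) (nat_lit 2162499920) (nat_lit 0) (nat_lit 2339835869) (nat_lit 152) (nat_lit 16454763726) (nat_lit 95) (nat_lit 3) (nat_lit 95) (nat_lit 1) (nat_lit 97) (nat_lit 1) (nat_lit 325) (nat_lit 398) (nat_lit 297)) (XT.lf (nat_lit 76) (nat_lit 7429221380) (nat_lit 0) (nat_lit 5401067361) (nat_lit 76) (nat_lit 7593421333) (nat_lit 95) (nat_lit 3) (nat_lit 94) (nat_lit 1) (nat_lit 95) (nat_lit 1) (nat_lit 326) (nat_lit 398) (nat_lit 296)))) (XT.nd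 (nat_lit 78) (nat_lit 228) (nat_lit 0) (XT.lf (nat_lit 0) (nat_lit 3090704957) (nat_lit 0) (nat_lit 3235502093) (nat_lit 152) (nat_lit 13581376283) (nat_lit 92) (nat_lit 3) (nat_lit 92) (nat_lit 1) (nat_lit 94) (nat_lit 1) (nat_lit 327) (nat_lit 398) (nat_lit 295)) (XT.nd (nat_lit 78) (nat_lit 152) (nat_lit 0) (XT.lf (nat_lit 76) (nat_lit 6062450528) (nat_lit 0) (nat_lit 7142879596) (nat_lit 76) (nat_lit 6196521951) (nat_lit 92) (nat_lit 3) (nat_lit 91) (nat_lit 1) (nat_lit 92) (nat_lit 1) (nat_lit 328) (nat_lit 398) (nat_lit 294)) (XT.lf (nat_lit 0) (nat_lit 3917200852) (nat_lit 0) (nat_lit 4035429620) (nat_lit 152) (nat_lit 10958289087) (nat_lit 89) (nat_lit 3) (nat_lit 89) (nat_lit 1) (nat_lit 91) (nat_lit 1) (nat_lit 329) (nat_lit 398) (nat_lit 293))))) (XT.nd (nat_lit 234) (nat_lit 456) (nat_lit 0) (XT.nd (nat_lit 78) (nat_lit 228) (nat_lit 0) (XT.lf (nat_lit 76) (nat_lit 4814361298) (nat_lit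 0) (nat_lit 8693207485) (nat_lit 76) (nat_lit 4923832379) (nat_lit 89) (nat_lit 3) (nat_lit 88) (nat_lit 1) (nat_lit 89) (nat_lit 1) (nat_lit 330) (nat_lit 398) (nat_lit 292)) (XT.nd (nat_lit 78) (nat_lit 76) (nat_lit 0) (XT.lf (nat_lit 0) (nat_lit 4650168017) (nat_lit 0) (nat_lit 4746703362) (nat_lit 152) (nat_lit 8567553173) (nat_lit 86) (nat_lit 3) (nat_lit 86) (nat_lit 1) (nat_lit 88) (nat_lit 1) (nat_lit 331) (nat_lit 398) (nat_lit 291)) (XT.lf (nat_lit 76) (nat_lit 3676714308) (nat_lit 0) (nat_lit 10066937183) (nat_lit 76) (nat_lit 3766098887) (nat_lit 86) (nat_lit 3) (nat_lit 85) (nat_lit 1) (nat_lit 86) (nat_lit 1) (nat_lit 332) (nat_lit 398) (nat_lit 290)))) (XT.nd (nat_lit 156) (nat_lit 228) (nat_lit 0) (XT.nd (nat_lit 78) (nat_lit 76) (nat_lit 0) (XT.lf (nat_lit 0) (nat_lit 5297180271) (nat_lit 0) (nat_lit 5376002651) (nat_lit 152) (nat_lit 6392370402) (nat_lit 83) (nat_lit 3) (nat_lit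 83) (nat_lit 1) (nat_lit 85) (nat_lit 1) (nat_lit 333) (nat_lit 398) (nat_lit 289)) (XT.lf (nat_lit 76) (nat_lit 2641740380) (nat_lit 0) (nat_lit 11277962736) (nat_lit 76) (nat_lit 2714724065) (nat_lit 83) (nat_lit 3) (nat_lit 82) (nat_lit 1) (nat_lit 83) (nat_lit 1) (nat_lit 334) (nat_lit 398) (nat_lit 288))) (XT.nd (nat_lit 78) (nat_lit 76) (nat_lit 0) (XT.lf (nat_lit 0) (nat_lit 5865251893) (nat_lit 0) (nat_lit 5929611403) (nat_lit 152) (nat_lit 4417028715) (nat_lit 80) (nat_lit 3) (nat_lit 80) (nat_lit 1) (nat_lit 82) (nat_lit 1) (nat_lit 335) (nat_lit 398) (nat_lit 287)) (XT.lf (nat_lit 76) (nat_lit 1702125604) (nat_lit 0) (nat_lit 12339242837) (nat_lit 76) (nat_lit 1761717743) (nat_lit 80) (nat_lit 3) (nat_lit 79) (nat_lit 1) (nat_lit 80) (nat_lit 1) (nat_lit 336) (nat_lit 398) (nat_lit 286)))))) (XT.nd (nat_lit 546) (nat_lit 836) (nat_lit 0) (XT.nd (nat_lit 234) (nat_lit 532) (nat_lit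 0) (XT.nd (nat_lit 78) (nat_lit 228) (nat_lit 0) (XT.lf (nat_lit 0) (nat_lit 6360880295) (nat_lit 0) (nat_lit 6413430683) (nat_lit 152) (nat_lit 2626839870) (nat_lit 77) (nat_lit 3) (nat_lit 77) (nat_lit 1) (nat_lit 79) (nat_lit 1) (nat_lit 337) (nat_lit 398) (nat_lit 285)) (XT.nd (nat_lit 78) (nat_lit 152) (nat_lit 0) (XT.lf (nat_lit 76) (nat_lit 850994571) (nat_lit 0) (nat_lit 13262855453) (nat_lit 76) (nat_lit 899652337) (nat_lit 77) (nat_lit 3) (nat_lit 76) (nat_lit 1) (nat_lit 77) (nat_lit 1) (nat_lit 338) (nat_lit 398) (nat_lit 284)) (XT.lf (nat_lit 0) (nat_lit 6790084839) (nat_lit 0) (nat_lit 6832992922) (nat_lit 152) (nat_lit 1008079771) (nat_lit 74) (nat_lit 3) (nat_lit 74) (nat_lit 1) (nat_lit 76) (nat_lit 1) (nat_lit 339) (nat_lit 398) (nat_lit 283)))) (XT.nd (nat_lit 156) (nat_lit 228) (nat_lit 0) (XT.nd (nat_lit 78) (nat_lit 228) (nat_lit 0) (XT.lf (nat_lit 76) (nat_lit 81892366)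 (nat_lit 0) (nat_lit 14060050207) (nat_lit 76) (nat_lit 121622072) (nat_lit 74) (nat_lit 3) (nat_lit 73) (nat_lit 1) (nat_lit 74) (nat_lit 1) (nat_lit 340) (nat_lit 398) (nat_lit 282)) (XT.lf (nat_lit 76) (nat_lit 6698717736) (nat_lit 0) (nat_lit 467015946) (nat_lit 76) (nat_lit 6733752751) (nat_lit 71) (nat_lit 3) (nat_lit 70) (nat_lit 1) (nat_lit 71) (nat_lit 1) (nat_lit 341) (nat_lit 398) (nat_lit 281))) (XT.nd (nat_lit 78) (nat_lit 76) (nat_lit 0) (XT.lf (nat_lit 0) (nat_lit 589321052) (nat_lit 0) (nat_lit 620216126) (nat_lit 152) (nat_lit 12339828310) (nat_lit 68) (nat_lit 3) (nat_lit 68) (nat_lit 1) (nat_lit 70) (nat_lit 1) (nat_lit 342) (nat_lit 398) (nat_lit 280)) (XT.lf (nat_lit 76) (nat_lit 5675649206) (nat_lit 0) (nat_lit 1823946779) (nat_lit 76) (nat_lit 5704255757) (nat_lit 68) (nat_lit 3) (nat_lit 67) (nat_lit 1) (nat_lit 68) (nat_lit 1) (nat_lit 343) (nat_lit 398) (nat_lit 279)))))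 (XT.nd (nat_lit 234) (nat_lit 456) (nat_lit 0) (XT.nd (nat_lit 78) (nat_lit 228) (nat_lit 0) (XT.lf (nat_lit 0) (nat_lit 1228211950) (nat_lit 0) (nat_lit 1253438185) (nat_lit 152) (nat_lit 10389159782) (nat_lit 65) (nat_lit 3) (nat_lit 65) (nat_lit 1) (nat_lit 67) (nat_lit 1) (nat_lit 344) (nat_lit 398) (nat_lit 278)) (XT.nd (nat_lit 78) (nat_lit 152) (nat_lit 0) (XT.lf (nat_lit 76) (nat_lit 4739465482) (nat_lit 0) (nat_lit 3040913002) (nat_lit 76) (nat_lit 4762823107) (nat_lit 65) (nat_lit 3) (nat_lit 64) (nat_lit 1) (nat_lit 65) (nat_lit 1) (nat_lit 345) (nat_lit 398) (nat_lit 277)) (XT.lf (nat_lit 0) (nat_lit 1799963977) (nat_lit 0) (nat_lit 1820561530) (nat_lit 152) (nat_lit 8605876785) (nat_lit 62) (nat_lit 3) (nat_lit 62) (nat_lit 1) (nat_lit 64) (nat_lit 1) (nat_lit 346) (nat_lit 398) (nat_lit 276)))) (XT.nd (nat_lit 156) (nat_lit 228) (nat_lit 0) (XT.nd (nat_lit 78) (nat_lit 152) (nat_lit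 0) (XT.lf (nat_lit 76) (nat_lit 3884012577) (nat_lit 0) (nat_lit 4128669429) (nat_lit 76) (nat_lit 3903084385) (nat_lit 62) (nat_lit 3) (nat_lit 61) (nat_lit 1) (nat_lit 62) (nat_lit 1) (nat_lit 347) (nat_lit 398) (nat_lit 275)) (XT.lf (nat_lit 0) (nat_lit 2309818143) (nat_lit 0) (nat_lit 2326636316) (nat_lit 152) (nat_lit 6977959863) (nat_lit 59) (nat_lit 3) (nat_lit 59) (nat_lit 1) (nat_lit 61) (nat_lit 1) (nat_lit 348) (nat_lit 398) (nat_lit 274))) (XT.nd (nat_lit 78) (nat_lit 152) (nat_lit 0) (XT.lf (nat_lit 76) (nat_lit 3103526387) (nat_lit 0) (nat_lit 5097241670) (nat_lit 76) (nat_lit 3119098770) (nat_lit 59) (nat_lit 3) (nat_lit 58) (nat_lit 1) (nat_lit 59) (nat_lit 1) (nat_lit 349) (nat_lit 398) (nat_lit 273)) (XT.lf (nat_lit 0) (nat_lit 2762647948) (nat_lit 0) (nat_lit 2776380208) (nat_lit 152) (nat_lit 5494177760) (nat_lit 56) (nat_lit 3) (nat_lit 56) (nat_lit 1) (nat_lit 58) (nat_lit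 1) (nat_lit 350) (nat_lit 398) (nat_lit 272))))))))
noncomputable def ec175 : XT := (XT.nd (nat_lit 2106) (nat_lit 1064) (nat_lit 0) (XT.nd (nat_lit 1014) (nat_lit 1596) (nat_lit 0) (XT.nd (nat_lit 468) (nat_lit 912) (nat_lit 0) (XT.nd (nat_lit 234) (nat_lit 380) (nat_lit 0) (XT.nd (nat_lit 78) (nat_lit 228) (nat_lit 0) (XT.lf (nat_lit 76) (nat_lit 2392611328) (nat_lit 0) (nat_lit 5955971463) (nat_lit 76) (nat_lit 2405326383) (nat_lit 56) (nat_lit 3) (nat_lit 55) (nat_lit 1) (nat_lit 56) (nat_lit 1) (nat_lit 351) (nat_lit 398) (nat_lit 271)) (XT.nd (nat_lit 78) (nat_lit 76) (nat_lit 0) (XT.lf (nat_lit 0) (nat_lit 3162984440) (nat_lit 0) (nat_lit 3174197011) (nat_lit 152) (nat_lit 4144039150) (nat_lit 53) (nat_lit 3) (nat_lit 53) (nat_lit 1) (nat_lit 55) (nat_lit 1) (nat_lit 352) (nat_lit 398) (nat_lit 270)) (XT.lf (nat_lit 76) (nat_lit 1746219673) (nat_lit 0) (nat_lit 6713559506) (nat_lit 76)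 (nat_lit 1756601683) (nat_lit 53) (nat_lit 3) (nat_lit 52) (nat_lit 1) (nat_lit 53) (nat_lit 1) (nat_lit 353) (nat_lit 398) (nat_lit 269)))) (XT.nd (nat_lit 78) (nat_lit 228) (nat_lit 0) (XT.lf (nat_lit 0) (nat_lit 3515039459) (nat_lit 0) (nat_lit 3524194671) (nat_lit 152) (nat_lit 2917747061) (nat_lit 50) (nat_lit 3) (nat_lit 50) (nat_lit 1) (nat_lit 52) (nat_lit 1) (nat_lit 354) (nat_lit 398) (nat_lit 268)) (XT.nd (nat_lit 78) (nat_lit 152) (nat_lit 0) (XT.lf (nat_lit 76) (nat_lit 1159631682) (nat_lit 0) (nat_lit 7378105875) (nat_lit 76) (nat_lit 1168108729) (nat_lit 50) (nat_lit 3) (nat_lit 49) (nat_lit 1) (nat_lit 50) (nat_lit 1) (nat_lit 355) (nat_lit 398) (nat_lit 267)) (XT.lf (nat_lit 0) (nat_lit 3822727238) (nat_lit 0) (nat_lit 3830202589) (nat_lit 152) (nat_lit 1806155872) (nat_lit 47) (nat_lit 3) (nat_lit 47) (nat_lit 1) (nat_lit 49) (nat_lit 1) (nat_lit 356) (nat_lit 398) (nat_lit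 266))))) (XT.nd (nat_lit 234) (nat_lit 608) (nat_lit 0) (XT.nd (nat_lit 78) (nat_lit 228) (nat_lit 0) (XT.lf (nat_lit 76) (nat_lit 628436537) (nat_lit 0) (nat_lit 7957148132) (nat_lit 76) (nat_lit 635358158) (nat_lit 47) (nat_lit 3) (nat_lit 46) (nat_lit 1) (nat_lit 47) (nat_lit 1) (nat_lit 357) (nat_lit 398) (nat_lit 265)) (XT.nd (nat_lit 78) (nat_lit 76) (nat_lit 0) (XT.lf (nat_lit 0) (nat_lit 4089684483) (nat_lit 0) (nat_lit 4095788205) (nat_lit 152) (nat_lit 800730764) (nat_lit 44) (nat_lit 3) (nat_lit 44) (nat_lit 1) (nat_lit 46) (nat_lit 1) (nat_lit 358) (nat_lit 398) (nat_lit 264)) (XT.lf (nat_lit 76) (nat_lit 148514142) (nat_lit 0) (nat_lit 8457697229) (nat_lit 76) (nat_lit 154165737) (nat_lit 44) (nat_lit 3) (nat_lit 43) (nat_lit 1) (nat_lit 44) (nat_lit 1) (nat_lit 359) (nat_lit 398) (nat_lit 263)))) (XT.nd (nat_lit 156) (nat_lit 228) (nat_lit 0) (XT.nd (nat_lit 78) (nat_lit 152) (nat_lit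 0) (XT.lf (nat_lit 76) (nat_lit 4210995121) (nat_lit 0) (nat_lit 110011539) (nat_lit 76) (nat_lit 4215978890) (nat_lit 41) (nat_lit 3) (nat_lit 40) (nat_lit 1) (nat_lit 41) (nat_lit 1) (nat_lit 360) (nat_lit 398) (nat_lit 262)) (XT.lf (nat_lit 0) (nat_lit 284095131) (nat_lit 0) (nat_lit 288489990) (nat_lit 152) (nat_lit 7749434772) (nat_lit 38) (nat_lit 3) (nat_lit 38) (nat_lit 1) (nat_lit 40) (nat_lit 1) (nat_lit 361) (nat_lit 398) (nat_lit 261))) (XT.nd (nat_lit 78) (nat_lit 152) (nat_lit 0) (XT.lf (nat_lit 76) (nat_lit 3576113675) (nat_lit 0) (nat_lit 953449811) (nat_lit 76) (nat_lit 3580182989) (nat_lit 38) (nat_lit 3) (nat_lit 37) (nat_lit 1) (nat_lit 38) (nat_lit 1) (nat_lit 362) (nat_lit 398) (nat_lit 260)) (XT.lf (nat_lit 0) (nat_lit 679960357) (nat_lit 0) (nat_lit 683548817) (nat_lit 152) (nat_lit 6541754380) (nat_lit 35) (nat_lit 3) (nat_lit 35) (nat_lit 1) (nat_lit 37) (nat_lit 1)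 (nat_lit 363) (nat_lit 398) (nat_lit 259)))))) (XT.nd (nat_lit 546) (nat_lit 836) (nat_lit 0) (XT.nd (nat_lit 234) (nat_lit 456) (nat_lit 0) (XT.nd (nat_lit 78) (nat_lit 228) (nat_lit 0) (XT.lf (nat_lit 76) (nat_lit 2995202889) (nat_lit 0) (nat_lit 1710260000) (nat_lit 76) (nat_lit 2998525537) (nat_lit 35) (nat_lit 3) (nat_lit 34) (nat_lit 1) (nat_lit 35) (nat_lit 1) (nat_lit 364) (nat_lit 398) (nat_lit 258)) (XT.nd (nat_lit 78) (nat_lit 76) (nat_lit 0) (XT.lf (nat_lit 0) (nat_lit 1034521464) (nat_lit 0) (nat_lit 1037451488) (nat_lit 152) (nat_lit 5437502471) (nat_lit 32) (nat_lit 3) (nat_lit 32) (nat_lit 1) (nat_lit 34) (nat_lit 1) (nat_lit 365) (nat_lit 398) (nat_lit 257)) (XT.lf (nat_lit 76) (nat_lit 2464402832) (nat_lit 0) (nat_lit 2387107338) (nat_lit 76) (nat_lit 2467115818) (nat_lit 32) (nat_lit 3) (nat_lit 31) (nat_lit 1) (nat_lit 32) (nat_lit 1) (nat_lit 366) (nat_lit 398) (nat_lit 256))))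 (XT.nd (nat_lit 156) (nat_lit 228) (nat_lit 0) (XT.nd (nat_lit 78) (nat_lit 76) (nat_lit 0) (XT.lf (nat_lit 0) (nat_lit 1350980023) (nat_lit 0) (nat_lit 1353372427) (nat_lit 152) (nat_lit 4429242831) (nat_lit 29) (nat_lit 3) (nat_lit 29) (nat_lit 1) (nat_lit 31) (nat_lit 1) (nat_lit 367) (nat_lit 398) (nat_lit 255)) (XT.lf (nat_lit 76) (nat_lit 1980106106) (nat_lit 0) (nat_lit 2990201501) (nat_lit 76) (nat_lit 1982321295) (nat_lit 29) (nat_lit 3) (nat_lit 28) (nat_lit 1) (nat_lit 29) (nat_lit 1) (nat_lit 368) (nat_lit 398) (nat_lit 254))) (XT.nd (nat_lit 78) (nat_lit 76) (nat_lit 0) (XT.lf (nat_lit 0) (nat_lit 1632316661) (nat_lit 0) (nat_lit 1634270090) (nat_lit 152) (nat_lit 3510030066) (nat_lit 26) (nat_lit 3) (nat_lit 26) (nat_lit 1) (nat_lit 28) (nat_lit 1) (nat_lit 369) (nat_lit 398) (nat_lit 253)) (XT.lf (nat_lit 76) (nat_lit 1538942410) (nat_lit 0) (nat_lit 3525325693) (nat_lit 76) (nat_lit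 1540751141) (nat_lit 26) (nat_lit 3) (nat_lit 25) (nat_lit 1) (nat_lit 26) (nat_lit 1) (nat_lit 370) (nat_lit 398) (nat_lit 252))))) (XT.nd (nat_lit 234) (nat_lit 456) (nat_lit 0) (XT.nd (nat_lit 78) (nat_lit 228) (nat_lit 0) (XT.lf (nat_lit 0) (nat_lit 1881305485) (nat_lit 0) (nat_lit 1882900486) (nat_lit 152) (nat_lit 2673378897) (nat_lit 23) (nat_lit 3) (nat_lit 23) (nat_lit 1) (nat_lit 25) (nat_lit 1) (nat_lit 371) (nat_lit 398) (nat_lit 251)) (XT.nd (nat_lit 78) (nat_lit 152) (nat_lit 0) (XT.lf (nat_lit 76) (nat_lit 1137763963) (nat_lit 0) (nat_lit 3997863967) (nat_lit 76) (nat_lit 1139240816) (nat_lit 23) (nat_lit 3) (nat_lit 22) (nat_lit 1) (nat_lit 23) (nat_lit 1) (nat_lit 372) (nat_lit 398) (nat_lit 250)) (XT.lf (nat_lit 0) (nat_lit 2100527586) (nat_lit 0) (nat_lit 2101829925) (nat_lit 152) (nat_lit 1913235293) (nat_lit 20) (nat_lit 3) (nat_lit 20) (nat_lit 1) (nat_lit 22) (nat_lit 1)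 (nat_lit 373) (nat_lit 398) (nat_lit 249)))) (XT.nd (nat_lit 156) (nat_lit 228) (nat_lit 0) (XT.nd (nat_lit 78) (nat_lit 152) (nat_lit 0) (XT.lf (nat_lit 76) (nat_lit 773631746) (nat_lit 0) (nat_lit 4412826891) (nat_lit 76) (nat_lit 774837615) (nat_lit 20) (nat_lit 3) (nat_lit 19) (nat_lit 1) (nat_lit 20) (nat_lit 1) (nat_lit 374) (nat_lit 398) (nat_lit 248)) (XT.lf (nat_lit 0) (nat_lit 2292383668) (nat_lit 0) (nat_lit 2293447045) (nat_lit 152) (nat_lit 1223949326) (nat_lit 17) (nat_lit 3) (nat_lit 17) (nat_lit 1) (nat_lit 19) (nat_lit 1) (nat_lit 375) (nat_lit 398) (nat_lit 247))) (XT.nd (nat_lit 78) (nat_lit 152) (nat_lit 0) (XT.lf (nat_lit 76) (nat_lit 443802528) (nat_lit 0) (nat_lit 4774875648) (nat_lit 76) (nat_lit 444787137) (nat_lit 17) (nat_lit 3) (nat_lit 16) (nat_lit 1) (nat_lit 17) (nat_lit 1) (nat_lit 376) (nat_lit 398) (nat_lit 246)) (XT.lf (nat_lit 0) (nat_lit 2459105874) (nat_lit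 0) (nat_lit 2459974135) (nat_lit 152) (nat_lit 600249671) (nat_lit 14) (nat_lit 3) (nat_lit 14) (nat_lit 1) (nat_lit 16) (nat_lit 1) (nat_lit 377) (nat_lit 398) (nat_lit 245))))))) (XT.nd (nat_lit 1014) (nat_lit 0) (nat_lit 0) (XT.nd (nat_lit 468) (nat_lit 304) (nat_lit 0) (XT.nd (nat_lit 234) (nat_lit 304) (nat_lit 0) (XT.nd (nat_lit 78) (nat_lit 380) (nat_lit 0) (XT.lf (nat_lit 76) (nat_lit 145716648) (nat_lit 0) (nat_lit 5088344666) (nat_lit 76) (nat_lit 146520594) (nat_lit 14) (nat_lit 3) (nat_lit 13) (nat_lit 1) (nat_lit 14) (nat_lit 1) (nat_lit 378) (nat_lit 398) (nat_lit 244)) (XT.nd (nat_lit 78) (nat_lit 228) (nat_lit 0) (XT.lf (nat_lit 0) (nat_lit 2602768851) (nat_lit 0) (nat_lit 2603477798) (nat_lit 152) (nat_lit 37219644) (nat_lit 11) (nat_lit 3) (nat_lit 11) (nat_lit 1) (nat_lit 13) (nat_lit 1) (nat_lit 379) (nat_lit 398) (nat_lit 243)) (XT.lf (nat_lit 0) (nat_lit 124383934) (nat_lit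 0) (nat_lit 125009108) (nat_lit 152) (nat_lit 4862106558) (nat_lit 8) (nat_lit 3) (nat_lit 8) (nat_lit 1) (nat_lit 10) (nat_lit 1) (nat_lit 380) (nat_lit 398) (nat_lit 242)))) (XT.nd (nat_lit 78) (nat_lit 228) (nat_lit 0) (XT.lf (nat_lit 76) (nat_lit 2247619786) (nat_lit 0) (nat_lit 485256543) (nat_lit 76) (nat_lit 2248198651) (nat_lit 8) (nat_lit 3) (nat_lit 7) (nat_lit 1) (nat_lit 8) (nat_lit 1) (nat_lit 381) (nat_lit 398) (nat_lit 241)) (XT.nd (nat_lit 78) (nat_lit 76) (nat_lit 0) (XT.lf (nat_lit 0) (nat_lit 370063985) (nat_lit 0) (nat_lit 370574447) (nat_lit 152) (nat_lit 4114876271) (nat_lit 5) (nat_lit 3) (nat_lit 5) (nat_lit 1) (nat_lit 7) (nat_lit 1) (nat_lit 382) (nat_lit 398) (nat_lit 240)) (XT.lf (nat_lit 76) (nat_lit 1887968086) (nat_lit 0) (nat_lit 955438738) (nat_lit 76) (nat_lit 1888440736) (nat_lit 5) (nat_lit 3) (nat_lit 4) (nat_lit 1) (nat_lit 5) (nat_lit 1) (nat_lit 383) (nat_lit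 398) (nat_lit 239))))) (XT.nd (nat_lit 234) (nat_lit 0) (nat_lit 0) (XT.nd (nat_lit 78) (nat_lit 152) (nat_lit 0) (XT.lf (nat_lit 0) (nat_lit 590257589) (nat_lit 0) (nat_lit 590674388) (nat_lit 152) (nat_lit 3431476954) (nat_lit 2) (nat_lit 3) (nat_lit 2) (nat_lit 1) (nat_lit 4) (nat_lit 1) (nat_lit 384) (nat_lit 398) (nat_lit 238)) (XT.nd (nat_lit 78) (nat_lit 76) (nat_lit 0) (XT.lf (nat_lit 76) (nat_lit 1559275605) (nat_lit 0) (nat_lit 1376210377) (nat_lit 76) (nat_lit 1559661530) (nat_lit 2) (nat_lit 3) (nat_lit 1) (nat_lit 1) (nat_lit 2) (nat_lit 1) (nat_lit 385) (nat_lit 398) (nat_lit 237)) (XT.lf (nat_lit 0) (nat_lit 93213616868) (nat_lit 0) (nat_lit 0) (nat_lit 0) (nat_lit 0) (nat_lit 0) (nat_lit 0) (nat_lit 1) (nat_lit 0) (nat_lit 1) (nat_lit 0) (nat_lit 386) (nat_lit 398) (nat_lit 236)))) (XT.nd (nat_lit 156) (nat_lit 0) (nat_lit 0) (XT.nd (nat_lit 78) (nat_lit 0) (nat_lit 0) (XT.lf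 (nat_lit 0) (nat_lit 93213590292) (nat_lit 0) (nat_lit 0) (nat_lit 0) (nat_lit 0) (nat_lit 0) (nat_lit 0) (nat_lit 1) (nat_lit 0) (nat_lit 1) (nat_lit 0) (nat_lit 387) (nat_lit 398) (nat_lit 235)) (XT.lf (nat_lit 0) (nat_lit 93213565684) (nat_lit 0) (nat_lit 0) (nat_lit 0) (nat_lit 0) (nat_lit 0) (nat_lit 0) (nat_lit 1) (nat_lit 0) (nat_lit 1) (nat_lit 0) (nat_lit 388) (nat_lit 398) (nat_lit 234))) (XT.nd (nat_lit 78) (nat_lit 0) (nat_lit 0) (XT.lf (nat_lit 0) (nat_lit 93213542899) (nat_lit 0) (nat_lit 0) (nat_lit 0) (nat_lit 0) (nat_lit 0) (nat_lit 0) (nat_lit 1) (nat_lit 0) (nat_lit 1) (nat_lit 0) (nat_lit 389) (nat_lit 398) (nat_lit 233)) (XT.lf (nat_lit 0) (nat_lit 93213521802) (nat_lit 0) (nat_lit 0) (nat_lit 0) (nat_lit 0) (nat_lit 0) (nat_lit 0) (nat_lit 1) (nat_lit 0) (nat_lit 1) (nat_lit 0) (nat_lit 390) (nat_lit 398) (nat_lit 232)))))) (XT.nd (nat_lit 546) (nat_lit 0) (nat_lit 0) (XT.nd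 (nat_lit 234) (nat_lit 0) (nat_lit 0) (XT.nd (nat_lit 78) (nat_lit 0) (nat_lit 0) (XT.lf (nat_lit 0) (nat_lit 93213502268) (nat_lit 0) (nat_lit 0) (nat_lit 0) (nat_lit 0) (nat_lit 0) (nat_lit 0) (nat_lit 1) (nat_lit 0) (nat_lit 1) (nat_lit 0) (nat_lit 391) (nat_lit 398) (nat_lit 231)) (XT.nd (nat_lit 78) (nat_lit 0) (nat_lit 0) (XT.lf (nat_lit 0) (nat_lit 93213484180) (nat_lit 0) (nat_lit 0) (nat_lit 0) (nat_lit 0) (nat_lit 0) (nat_lit 0) (nat_lit 1) (nat_lit 0) (nat_lit 1) (nat_lit 0) (nat_lit 392) (nat_lit 398) (nat_lit 230)) (XT.lf (nat_lit 0) (nat_lit 93213467433) (nat_lit 0) (nat_lit 0) (nat_lit 0) (nat_lit 0) (nat_lit 0) (nat_lit 0) (nat_lit 1) (nat_lit 0) (nat_lit 1) (nat_lit 0) (nat_lit 393) (nat_lit 398) (nat_lit 229)))) (XT.nd (nat_lit 156) (nat_lit 0) (nat_lit 0) (XT.nd (nat_lit 78) (nat_lit 0) (nat_lit 0) (XT.lf (nat_lit 0) (nat_lit 93213451926) (nat_lit 0) (nat_lit 0) (nat_lit 0)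 (nat_lit 0) (nat_lit 0) (nat_lit 0) (nat_lit 1) (nat_lit 0) (nat_lit 1) (nat_lit 0) (nat_lit 394) (nat_lit 398) (nat_lit 228)) (XT.lf (nat_lit 0) (nat_lit 93213437567) (nat_lit 0) (nat_lit 0) (nat_lit 0) (nat_lit 0) (nat_lit 0) (nat_lit 0) (nat_lit 1) (nat_lit 0) (nat_lit 1) (nat_lit 0) (nat_lit 395) (nat_lit 398) (nat_lit 227))) (XT.nd (nat_lit 78) (nat_lit 0) (nat_lit 0) (XT.lf (nat_lit 0) (nat_lit 93213424272) (nat_lit 0) (nat_lit 0) (nat_lit 0) (nat_lit 0) (nat_lit 0) (nat_lit 0) (nat_lit 1) (nat_lit 0) (nat_lit 1) (nat_lit 0) (nat_lit 396) (nat_lit 398) (nat_lit 226)) (XT.lf (nat_lit 0) (nat_lit 93213411962) (nat_lit 0) (nat_lit 0) (nat_lit 0) (nat_lit 0) (nat_lit 0) (nat_lit 0) (nat_lit 1) (nat_lit 0) (nat_lit 1) (nat_lit 0) (nat_lit 397) (nat_lit 398) (nat_lit 225))))) (XT.nd (nat_lit 234) (nat_lit 0) (nat_lit 0) (XT.nd (nat_lit 78) (nat_lit 0) (nat_lit 0) (XT.lf (nat_lit 0) (nat_lit 93213400564)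 (nat_lit 0) (nat_lit 0) (nat_lit 0) (nat_lit 0) (nat_lit 0) (nat_lit 0) (nat_lit 1) (nat_lit 0) (nat_lit 1) (nat_lit 0) (nat_lit 398) (nat_lit 398) (nat_lit 224)) (XT.nd (nat_lit 78) (nat_lit 0) (nat_lit 0) (XT.lf (nat_lit 0) (nat_lit 93213390010) (nat_lit 0) (nat_lit 0) (nat_lit 0) (nat_lit 0) (nat_lit 0) (nat_lit 0) (nat_lit 1) (nat_lit 0) (nat_lit 1) (nat_lit 0) (nat_lit 399) (nat_lit 398) (nat_lit 223)) (XT.lf (nat_lit 0) (nat_lit 93213380238) (nat_lit 0) (nat_lit 0) (nat_lit 0) (nat_lit 0) (nat_lit 0) (nat_lit 0) (nat_lit 1) (nat_lit 0) (nat_lit 1) (nat_lit 0) (nat_lit 400) (nat_lit 398) (nat_lit 222)))) (XT.nd (nat_lit 156) (nat_lit 0) (nat_lit 0) (XT.nd (nat_lit 78) (nat_lit 0) (nat_lit 0) (XT.lf (nat_lit 0) (nat_lit 93213371190) (nat_lit 0) (nat_lit 0) (nat_lit 0) (nat_lit 0) (nat_lit 0) (nat_lit 0) (nat_lit 1) (nat_lit 0) (nat_lit 1) (nat_lit 0) (nat_lit 401) (nat_lit 398) (nat_lit 221))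 (XT.lf (nat_lit 0) (nat_lit 93213362812) (nat_lit 0) (nat_lit 0) (nat_lit 0) (nat_lit 0) (nat_lit 0) (nat_lit 0) (nat_lit 1) (nat_lit 0) (nat_lit 1) (nat_lit 0) (nat_lit 402) (nat_lit 398) (nat_lit 220))) (XT.nd (nat_lit 78) (nat_lit 0) (nat_lit 0) (XT.lf (nat_lit 0) (nat_lit 93213355055) (nat_lit 0) (nat_lit 0) (nat_lit 0) (nat_lit 0) (nat_lit 0) (nat_lit 0) (nat_lit 1) (nat_lit 0) (nat_lit 1) (nat_lit 0) (nat_lit 403) (nat_lit 398) (nat_lit 219)) (XT.lf (nat_lit 0) (nat_lit 93213347872) (nat_lit 0) (nat_lit 0) (nat_lit 0) (nat_lit 0) (nat_lit 0) (nat_lit 0) (nat_lit 1) (nat_lit 0) (nat_lit 1) (nat_lit 0) (nat_lit 404) (nat_lit 398) (nat_lit 218))))))))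
noncomputable def ec176 : XT := (XT.nd (nat_lit 39936) (nat_lit 0) (nat_lit 14516) (XT.nd (nat_lit 38922) (nat_lit 0) (nat_lit 19836) (XT.nd (nat_lit 468) (nat_lit 0) (nat_lit 0) (XT.nd (nat_lit 234) (nat_lit 0) (nat_lit 0) (XT.nd (nat_lit 78) (nat_lit 0) (nat_lit 0) (XT.lf (nat_lit 0) (nat_lit 93213341221) (nat_lit 0) (nat_lit 0) (nat_lit 0) (nat_lit 0) (nat_lit 0) (nat_lit 0) (nat_lit 1) (nat_lit 0) (nat_lit 1) (nat_lit 0) (nat_lit 405) (nat_lit 398) (nat_lit 217)) (XT.nd (nat_lit 78) (nat_lit 0) (nat_lit 0) (XT.lf (nat_lit 0) (nat_lit 93213335063) (nat_lit 0) (nat_lit 0) (nat_lit 0) (nat_lit 0) (nat_lit 0) (nat_lit 0) (nat_lit 1) (nat_lit 0) (nat_lit 1) (nat_lit 0) (nat_lit 406) (nat_lit 398) (nat_lit 216)) (XT.lf (nat_lit 0) (nat_lit 93213329361) (nat_lit 0) (nat_lit 0) (nat_lit 0) (nat_lit 0) (nat_lit 0) (nat_lit 0) (nat_lit 1) (nat_lit 0) (nat_lit 1) (nat_lit 0) (nat_lit 407) (nat_lit 398)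 (nat_lit 215)))) (XT.nd (nat_lit 78) (nat_lit 0) (nat_lit 0) (XT.lf (nat_lit 0) (nat_lit 93213324082) (nat_lit 0) (nat_lit 0) (nat_lit 0) (nat_lit 0) (nat_lit 0) (nat_lit 0) (nat_lit 1) (nat_lit 0) (nat_lit 1) (nat_lit 0) (nat_lit 408) (nat_lit 398) (nat_lit 214)) (XT.nd (nat_lit 78) (nat_lit 0) (nat_lit 0) (XT.lf (nat_lit 0) (nat_lit 93213319193) (nat_lit 0) (nat_lit 0) (nat_lit 0) (nat_lit 0) (nat_lit 0) (nat_lit 0) (nat_lit 1) (nat_lit 0) (nat_lit 1) (nat_lit 0) (nat_lit 409) (nat_lit 398) (nat_lit 213)) (XT.lf (nat_lit 0) (nat_lit 93213314667) (nat_lit 0) (nat_lit 0) (nat_lit 0) (nat_lit 0) (nat_lit 0) (nat_lit 0) (nat_lit 1) (nat_lit 0) (nat_lit 1) (nat_lit 0) (nat_lit 410) (nat_lit 398) (nat_lit 212))))) (XT.nd (nat_lit 234) (nat_lit 0) (nat_lit 0) (XT.nd (nat_lit 78) (nat_lit 0) (nat_lit 0) (XT.lf (nat_lit 0) (nat_lit 93213310476) (nat_lit 0) (nat_lit 0) (nat_lit 0) (nat_lit 0) (nat_lit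 0) (nat_lit 0) (nat_lit 1) (nat_lit 0) (nat_lit 1) (nat_lit 0) (nat_lit 411) (nat_lit 398) (nat_lit 211)) (XT.nd (nat_lit 78) (nat_lit 0) (nat_lit 0) (XT.lf (nat_lit 0) (nat_lit 93213306595) (nat_lit 0) (nat_lit 0) (nat_lit 0) (nat_lit 0) (nat_lit 0) (nat_lit 0) (nat_lit 1) (nat_lit 0) (nat_lit 1) (nat_lit 0) (nat_lit 412) (nat_lit 398) (nat_lit 210)) (XT.lf (nat_lit 0) (nat_lit 93213303002) (nat_lit 0) (nat_lit 0) (nat_lit 0) (nat_lit 0) (nat_lit 0) (nat_lit 0) (nat_lit 1) (nat_lit 0) (nat_lit 1) (nat_lit 0) (nat_lit 413) (nat_lit 398) (nat_lit 209)))) (XT.nd (nat_lit 156) (nat_lit 0) (nat_lit 0) (XT.nd (nat_lit 78) (nat_lit 0) (nat_lit 0) (XT.lf (nat_lit 0) (nat_lit 93213299675) (nat_lit 0) (nat_lit 0) (nat_lit 0) (nat_lit 0) (nat_lit 0) (nat_lit 0) (nat_lit 1) (nat_lit 0) (nat_lit 1) (nat_lit 0) (nat_lit 414) (nat_lit 398) (nat_lit 208)) (XT.lf (nat_lit 0) (nat_lit 93213296595) (nat_lit 0)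 (nat_lit 0) (nat_lit 0) (nat_lit 0) (nat_lit 0) (nat_lit 0) (nat_lit 1) (nat_lit 0) (nat_lit 1) (nat_lit 0) (nat_lit 415) (nat_lit 398) (nat_lit 207))) (XT.nd (nat_lit 37986) (nat_lit 0) (nat_lit 22192) (XT.lf (nat_lit 0) (nat_lit 93213293742) (nat_lit 0) (nat_lit 0) (nat_lit 0) (nat_lit 0) (nat_lit 0) (nat_lit 0) (nat_lit 1) (nat_lit 0) (nat_lit 1) (nat_lit 0) (nat_lit 416) (nat_lit 398) (nat_lit 206)) (XT.lf (nat_lit 836) (nat_lit 50379198363) (nat_lit 0) (nat_lit 89448150893) (nat_lit 836) (nat_lit 50379198363) (nat_lit 303) (nat_lit 1) (nat_lit 292) (nat_lit 0) (nat_lit 303) (nat_lit 0) (nat_lit 222) (nat_lit 399) (nat_lit 399)))))) (XT.nd (nat_lit 468) (nat_lit 2432) (nat_lit 0) (XT.nd (nat_lit 234) (nat_lit 0) (nat_lit 152) (XT.nd (nat_lit 78) (nat_lit 0) (nat_lit 0) (XT.lf (nat_lit 836) (nat_lit 18792986831) (nat_lit 0) (nat_lit 175613829815) (nat_lit 760) (nat_lit 171749738846) (nat_lit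 304) (nat_lit 1) (nat_lit 293) (nat_lit 1) (nat_lit 303) (nat_lit 1) (nat_lit 223) (nat_lit 399) (nat_lit 398)) (XT.nd (nat_lit 78) (nat_lit 0) (nat_lit 76) (XT.lf (nat_lit 836) (nat_lit 172602736581) (nat_lit 76) (nat_lit 117608641023) (nat_lit 0) (nat_lit 62374258350) (nat_lit 304) (nat_lit 1) (nat_lit 294) (nat_lit 1) (nat_lit 293) (nat_lit 1) (nat_lit 224) (nat_lit 399) (nat_lit 397)) (XT.lf (nat_lit 836) (nat_lit 149142904226) (nat_lit 76) (nat_lit 49288966266) (nat_lit 0) (nat_lit 141261969159) (nat_lit 305) (nat_lit 1) (nat_lit 295) (nat_lit 1) (nat_lit 294) (nat_lit 1) (nat_lit 225) (nat_lit 399) (nat_lit 396)))) (XT.nd (nat_lit 78) (nat_lit 0) (nat_lit 76) (XT.lf (nat_lit 836) (nat_lit 110378428816) (nat_lit 0) (nat_lit 206512822953) (nat_lit 760) (nat_lit 10556906004) (nat_lit 306) (nat_lit 1) (nat_lit 295) (nat_lit 1) (nat_lit 305) (nat_lit 1) (nat_lit 226) (nat_lit 399) (nat_lit 395))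 (XT.nd (nat_lit 78) (nat_lit 0) (nat_lit 0) (XT.lf (nat_lit 836) (nat_lit 26484221763) (nat_lit 0) (nat_lit 227737758793) (nat_lit 760) (nat_lit 61565312369) (nat_lit 307) (nat_lit 1) (nat_lit 296) (nat_lit 1) (nat_lit 306) (nat_lit 1) (nat_lit 227) (nat_lit 399) (nat_lit 394)) (XT.lf (nat_lit 836) (nat_lit 50891902185) (nat_lit 76) (nat_lit 197922657873) (nat_lit 0) (nat_lit 55856215953) (nat_lit 307) (nat_lit 1) (nat_lit 297) (nat_lit 1) (nat_lit 296) (nat_lit 1) (nat_lit 228) (nat_lit 399) (nat_lit 393))))) (XT.nd (nat_lit 234) (nat_lit 1064) (nat_lit 0) (XT.nd (nat_lit 78) (nat_lit 912) (nat_lit 0) (XT.lf (nat_lit 836) (nat_lit 10452036217) (nat_lit 0) (nat_lit 147960278840) (nat_lit 760) (nat_lit 135678025393) (nat_lit 298) (nat_lit 1) (nat_lit 287) (nat_lit 1) (nat_lit 297) (nat_lit 1) (nat_lit 229) (nat_lit 399) (nat_lit 392)) (XT.nd (nat_lit 78) (nat_lit 380) (nat_lit 0) (XT.lf (nat_lit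 76) (nat_lit 72372076017) (nat_lit 0) (nat_lit 31362188462) (nat_lit 532) (nat_lit 180276613819) (nat_lit 281) (nat_lit 1) (nat_lit 280) (nat_lit 1) (nat_lit 287) (nat_lit 1) (nat_lit 230) (nat_lit 399) (nat_lit 391)) (XT.lf (nat_lit 456) (nat_lit 199448332263) (nat_lit 0) (nat_lit 64924731910) (nat_lit 380) (nat_lit 10037764717) (nat_lit 281) (nat_lit 1) (nat_lit 275) (nat_lit 1) (nat_lit 280) (nat_lit 1) (nat_lit 231) (nat_lit 399) (nat_lit 390)))) (XT.nd (nat_lit 156) (nat_lit 380) (nat_lit 0) (XT.nd (nat_lit 78) (nat_lit 304) (nat_lit 0) (XT.lf (nat_lit 456) (nat_lit 143923815852) (nat_lit 0) (nat_lit 30261697216) (nat_lit 380) (nat_lit 91038051373) (nat_lit 276) (nat_lit 1) (nat_lit 270) (nat_lit 1) (nat_lit 275) (nat_lit 1) (nat_lit 232) (nat_lit 399) (nat_lit 389)) (XT.lf (nat_lit 380) (nat_lit 87575806350) (nat_lit 0) (nat_lit 557167023) (nat_lit 304) (nat_lit 168348797095) (nat_lit 271)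 (nat_lit 1) (nat_lit 266) (nat_lit 1) (nat_lit 270) (nat_lit 1) (nat_lit 233) (nat_lit 399) (nat_lit 388))) (XT.nd (nat_lit 78) (nat_lit 380) (nat_lit 0) (XT.lf (nat_lit 76) (nat_lit 6460929110) (nat_lit 0) (nat_lit 217893836573) (nat_lit 380) (nat_lit 23787348944) (nat_lit 267) (nat_lit 1) (nat_lit 266) (nat_lit 1) (nat_lit 271) (nat_lit 1) (nat_lit 234) (nat_lit 399) (nat_lit 387)) (XT.lf (nat_lit 76) (nat_lit 166822865400) (nat_lit 0) (nat_lit 27669357220) (nat_lit 380) (nat_lit 45631795192) (nat_lit 262) (nat_lit 1) (nat_lit 261) (nat_lit 1) (nat_lit 266) (nat_lit 1) (nat_lit 235) (nat_lit 399) (nat_lit 386))))))) (XT.nd (nat_lit 1014) (nat_lit 2128) (nat_lit 0) (XT.nd (nat_lit 468) (nat_lit 1520) (nat_lit 0) (XT.nd (nat_lit 234) (nat_lit 836) (nat_lit 0) (XT.nd (nat_lit 78) (nat_lit 532) (nat_lit 0) (XT.lf (nat_lit 76) (nat_lit 83465706959) (nat_lit 0) (nat_lit 84756152926) (nat_lit 380)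 (nat_lit 64238341513) (nat_lit 258) (nat_lit 1) (nat_lit 257) (nat_lit 1) (nat_lit 262) (nat_lit 1) (nat_lit 236) (nat_lit 399) (nat_lit 385)) (XT.nd (nat_lit 78) (nat_lit 228) (nat_lit 0) (XT.lf (nat_lit 76) (nat_lit 4119682213) (nat_lit 0) (nat_lit 141710971616) (nat_lit 380) (nat_lit 79328587532) (nat_lit 254) (nat_lit 1) (nat_lit 253) (nat_lit 1) (nat_lit 258) (nat_lit 1) (nat_lit 237) (nat_lit 399) (nat_lit 384)) (XT.lf (nat_lit 304) (nat_lit 18604252692) (nat_lit 0) (nat_lit 125811655671) (nat_lit 228) (nat_lit 73728521690) (nat_lit 254) (nat_lit 1) (nat_lit 250) (nat_lit 1) (nat_lit 253) (nat_lit 1) (nat_lit 238) (nat_lit 399) (nat_lit 383)))) (XT.nd (nat_lit 78) (nat_lit 456) (nat_lit 0) (XT.lf (nat_lit 76) (nat_lit 64282694985) (nat_lit 0) (nat_lit 44059758578) (nat_lit 380) (nat_lit 103076959755) (nat_lit 246) (nat_lit 1) (nat_lit 245) (nat_lit 1) (nat_lit 250) (nat_lit 1) (nat_lit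 239) (nat_lit 399) (nat_lit 382)) (XT.nd (nat_lit 78) (nat_lit 228) (nat_lit 0) (XT.lf (nat_lit 304) (nat_lit 99525073831) (nat_lit 0) (nat_lit 93490943551) (nat_lit 228) (nat_lit 11966729817) (nat_lit 246) (nat_lit 1) (nat_lit 242) (nat_lit 1) (nat_lit 245) (nat_lit 1) (nat_lit 240) (nat_lit 399) (nat_lit 381)) (XT.lf (nat_lit 304) (nat_lit 31897305351) (nat_lit 0) (nat_lit 80491873981) (nat_lit 228) (nat_lit 86404264624) (nat_lit 243) (nat_lit 1) (nat_lit 239) (nat_lit 1) (nat_lit 242) (nat_lit 1) (nat_lit 241) (nat_lit 399) (nat_lit 380))))) (XT.nd (nat_lit 234) (nat_lit 836) (nat_lit 0) (XT.nd (nat_lit 78) (nat_lit 380) (nat_lit 0) (XT.lf (nat_lit 76) (nat_lit 36355220683) (nat_lit 0) (nat_lit 33286363874) (nat_lit 304) (nat_lit 123219609572) (nat_lit 236) (nat_lit 1) (nat_lit 235) (nat_lit 1) (nat_lit 239) (nat_lit 1) (nat_lit 242) (nat_lit 399) (nat_lit 379)) (XT.nd (nat_lit 78) (nat_lit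 152) (nat_lit 0) (XT.lf (nat_lit 304) (nat_lit 90465195060) (nat_lit 0) (nat_lit 60192188412) (nat_lit 228) (nat_lit 36488702517) (nat_lit 236) (nat_lit 1) (nat_lit 232) (nat_lit 1) (nat_lit 235) (nat_lit 1) (nat_lit 243) (nat_lit 399) (nat_lit 378)) (XT.lf (nat_lit 228) (nat_lit 22426455433) (nat_lit 0) (nat_lit 52513293959) (nat_lit 152) (nat_lit 106721791865) (nat_lit 233) (nat_lit 1) (nat_lit 230) (nat_lit 1) (nat_lit 232) (nat_lit 1) (nat_lit 244) (nat_lit 399) (nat_lit 377)))) (XT.nd (nat_lit 156) (nat_lit 380) (nat_lit 0) (XT.nd (nat_lit 78) (nat_lit 152) (nat_lit 0) (XT.lf (nat_lit 76) (nat_lit 3799184828) (nat_lit 0) (nat_lit 42513702987) (nat_lit 304) (nat_lit 130076704113) (nat_lit 227) (nat_lit 1) (nat_lit 226) (nat_lit 1) (nat_lit 230) (nat_lit 1) (nat_lit 245) (nat_lit 399) (nat_lit 376)) (XT.lf (nat_lit 228) (nat_lit 65167164525) (nat_lit 0) (nat_lit 40723887147) (nat_lit 152)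 (nat_lit 65393946913) (nat_lit 227) (nat_lit 1) (nat_lit 224) (nat_lit 1) (nat_lit 226) (nat_lit 1) (nat_lit 246) (nat_lit 399) (nat_lit 375))) (XT.nd (nat_lit 78) (nat_lit 152) (nat_lit 0) (XT.lf (nat_lit 76) (nat_lit 35356980118) (nat_lit 0) (nat_lit 1633161078) (nat_lit 228) (nat_lit 129413010911) (nat_lit 222) (nat_lit 1) (nat_lit 221) (nat_lit 1) (nat_lit 224) (nat_lit 1) (nat_lit 247) (nat_lit 399) (nat_lit 374)) (XT.lf (nat_lit 228) (nat_lit 96659156049) (nat_lit 0) (nat_lit 33494564851) (nat_lit 152) (nat_lit 31509594168) (nat_lit 222) (nat_lit 1) (nat_lit 219) (nat_lit 1) (nat_lit 221) (nat_lit 1) (nat_lit 248) (nat_lit 399) (nat_lit 373)))))) (XT.nd (nat_lit 546) (nat_lit 988) (nat_lit 0) (XT.nd (nat_lit 234) (nat_lit 608) (nat_lit 0) (XT.nd (nat_lit 78) (nat_lit 380) (nat_lit 0) (XT.lf (nat_lit 228) (nat_lit 30026207271) (nat_lit 0) (nat_lit 31136901914) (nat_lit 152) (nat_lit 95941593558)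 (nat_lit 220) (nat_lit 1) (nat_lit 217) (nat_lit 1) (nat_lit 219) (nat_lit 1) (nat_lit 249) (nat_lit 399) (nat_lit 372)) (XT.nd (nat_lit 78) (nat_lit 152) (nat_lit 0) (XT.lf (nat_lit 228) (nat_lit 119193007927) (nat_lit 0) (nat_lit 29748782550) (nat_lit 152) (nat_lit 3773978202) (nat_lit 217) (nat_lit 1) (nat_lit 214) (nat_lit 1) (nat_lit 216) (nat_lit 1) (nat_lit 250) (nat_lit 399) (nat_lit 371)) (XT.lf (nat_lit 228) (nat_lit 53345266219) (nat_lit 0) (nat_lit 28400057631) (nat_lit 152) (nat_lit 66703465389) (nat_lit 215) (nat_lit 1) (nat_lit 212) (nat_lit 1) (nat_lit 214) (nat_lit 1) (nat_lit 251) (nat_lit 399) (nat_lit 370)))) (XT.nd (nat_lit 156) (nat_lit 304) (nat_lit 0) (XT.nd (nat_lit 78) (nat_lit 152) (nat_lit 0) (XT.lf (nat_lit 76) (nat_lit 18272813283) (nat_lit 0) (nat_lit 10043561577) (nat_lit 152) (nat_lit 116042418219) (nat_lit 211) (nat_lit 1) (nat_lit 210) (nat_lit 1) (nat_lit 212)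 (nat_lit 1) (nat_lit 252) (nat_lit 399) (nat_lit 369)) (XT.lf (nat_lit 228) (nat_lit 69992057203) (nat_lit 0) (nat_lit 28016535971) (nat_lit 152) (nat_lit 42363410911) (nat_lit 211) (nat_lit 1) (nat_lit 208) (nat_lit 1) (nat_lit 210) (nat_lit 1) (nat_lit 253) (nat_lit 399) (nat_lit 368))) (XT.nd (nat_lit 78) (nat_lit 228) (nat_lit 0) (XT.lf (nat_lit 152) (nat_lit 7537149986) (nat_lit 0) (nat_lit 28704658299) (nat_lit 76) (nat_lit 100300800105) (nat_lit 209) (nat_lit 1) (nat_lit 207) (nat_lit 1) (nat_lit 208) (nat_lit 1) (nat_lit 254) (nat_lit 399) (nat_lit 367)) (XT.lf (nat_lit 228) (nat_lit 81360751420) (nat_lit 0) (nat_lit 29357205503) (nat_lit 152) (nat_lit 22100844034) (nat_lit 207) (nat_lit 1) (nat_lit 204) (nat_lit 1) (nat_lit 206) (nat_lit 1) (nat_lit 255) (nat_lit 399) (nat_lit 366))))) (XT.nd (nat_lit 234) (nat_lit 608) (nat_lit 0) (XT.nd (nat_lit 78) (nat_lit 304) (nat_lit 0) (XT.lf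 (nat_lit 152) (nat_lit 20462828934) (nat_lit 0) (nat_lit 30454901000) (nat_lit 76) (nat_lit 78302763383) (nat_lit 205) (nat_lit 1) (nat_lit 203) (nat_lit 1) (nat_lit 204) (nat_lit 1) (nat_lit 256) (nat_lit 399) (nat_lit 365)) (XT.nd (nat_lit 78) (nat_lit 76) (nat_lit 0) (XT.lf (nat_lit 228) (nat_lit 88578554091) (nat_lit 0) (nat_lit 31923749885) (nat_lit 152) (nat_lit 5238960638) (nat_lit 203) (nat_lit 1) (nat_lit 200) (nat_lit 1) (nat_lit 202) (nat_lit 1) (nat_lit 257) (nat_lit 399) (nat_lit 364)) (XT.lf (nat_lit 152) (nat_lit 29448818173) (nat_lit 0) (nat_lit 33280892858) (nat_lit 76) (nat_lit 59625593715) (nat_lit 201) (nat_lit 1) (nat_lit 199) (nat_lit 1) (nat_lit 200) (nat_lit 1) (nat_lit 258) (nat_lit 399) (nat_lit 363)))) (XT.nd (nat_lit 156) (nat_lit 304) (nat_lit 0) (XT.nd (nat_lit 78) (nat_lit 76) (nat_lit 0) (XT.lf (nat_lit 76) (nat_lit 8500100879) (nat_lit 0) (nat_lit 26679550863)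 (nat_lit 228) (nat_lit 83911333974) (nat_lit 197) (nat_lit 1) (nat_lit 196) (nat_lit 1) (nat_lit 199) (nat_lit 1) (nat_lit 259) (nat_lit 399) (nat_lit 362)) (XT.lf (nat_lit 152) (nat_lit 35341238761) (nat_lit 0) (nat_lit 36823895652) (nat_lit 76) (nat_lit 43742599627) (nat_lit 197) (nat_lit 1) (nat_lit 195) (nat_lit 1) (nat_lit 196) (nat_lit 1) (nat_lit 260) (nat_lit 399) (nat_lit 361))) (XT.nd (nat_lit 78) (nat_lit 76) (nat_lit 0) (XT.lf (nat_lit 76) (nat_lit 19768069630) (nat_lit 0) (nat_lit 19146712150) (nat_lit 228) (nat_lit 73921567844) (nat_lit 193) (nat_lit 1) (nat_lit 192) (nat_lit 1) (nat_lit 195) (nat_lit 1) (nat_lit 261) (nat_lit 399) (nat_lit 360)) (XT.lf (nat_lit 152) (nat_lit 38822430078) (nat_lit 0) (nat_lit 40803873705) (nat_lit 76) (nat_lit 30217134132) (nat_lit 193) (nat_lit 1) (nat_lit 191) (nat_lit 1) (nat_lit 192) (nat_lit 1) (nat_lit 262) (nat_lit 399) (nat_lit 359))))))))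
noncomputable def ec177 : XT := (XT.nd (nat_lit 2106) (nat_lit 3192) (nat_lit 0) (XT.nd (nat_lit 1014) (nat_lit 1672) (nat_lit 0) (XT.nd (nat_lit 468) (nat_lit 836) (nat_lit 0) (XT.nd (nat_lit 234) (nat_lit 304) (nat_lit 0) (XT.nd (nat_lit 78) (nat_lit 228) (nat_lit 0) (XT.lf (nat_lit 76) (nat_lit 29103169665) (nat_lit 0) (nat_lit 13867139606) (nat_lit 152) (nat_lit 63979059012) (nat_lit 190) (nat_lit 1) (nat_lit 189) (nat_lit 1) (nat_lit 191) (nat_lit 1) (nat_lit 263) (nat_lit 399) (nat_lit 358)) (XT.nd (nat_lit 78) (nat_lit 152) (nat_lit 0) (XT.lf (nat_lit 152) (nat_lit 40441553562) (nat_lit 0) (nat_lit 45004155111) (nat_lit 76) (nat_lit 18686532660) (nat_lit 190) (nat_lit 1) (nat_lit 188) (nat_lit 1) (nat_lit 189) (nat_lit 1) (nat_lit 264) (nat_lit 399) (nat_lit 357)) (XT.lf (nat_lit 76) (nat_lit 36812803664) (nat_lit 0) (nat_lit 10345066963) (nat_lit 152) (nat_lit 54243895633) (nat_lit 187)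 (nat_lit 1) (nat_lit 186) (nat_lit 1) (nat_lit 188) (nat_lit 1) (nat_lit 265) (nat_lit 399) (nat_lit 356)))) (XT.nd (nat_lit 78) (nat_lit 228) (nat_lit 0) (XT.lf (nat_lit 152) (nat_lit 40639546791) (nat_lit 0) (nat_lit 49258965762) (nat_lit 76) (nat_lit 8848968263) (nat_lit 187) (nat_lit 1) (nat_lit 185) (nat_lit 1) (nat_lit 186) (nat_lit 1) (nat_lit 266) (nat_lit 399) (nat_lit 355)) (XT.nd (nat_lit 78) (nat_lit 76) (nat_lit 0) (XT.lf (nat_lit 76) (nat_lit 43152457554) (nat_lit 0) (nat_lit 8181852052) (nat_lit 152) (nat_lit 44834168892) (nat_lit 184) (nat_lit 1) (nat_lit 183) (nat_lit 1) (nat_lit 185) (nat_lit 1) (nat_lit 267) (nat_lit 399) (nat_lit 354)) (XT.lf (nat_lit 152) (nat_lit 39769466619) (nat_lit 0) (nat_lit 53443305447) (nat_lit 76) (nat_lit 452690705) (nat_lit 184) (nat_lit 1) (nat_lit 182) (nat_lit 1) (nat_lit 183) (nat_lit 1) (nat_lit 268) (nat_lit 399) (nat_lit 353))))) (XT.nd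 (nat_lit 234) (nat_lit 456) (nat_lit 0) (XT.nd (nat_lit 78) (nat_lit 228) (nat_lit 0) (XT.lf (nat_lit 76) (nat_lit 48334890282) (nat_lit 0) (nat_lit 7057740018) (nat_lit 152) (nat_lit 35834531258) (nat_lit 181) (nat_lit 1) (nat_lit 180) (nat_lit 1) (nat_lit 182) (nat_lit 1) (nat_lit 269) (nat_lit 399) (nat_lit 352)) (XT.nd (nat_lit 78) (nat_lit 152) (nat_lit 0) (XT.lf (nat_lit 0) (nat_lit 6497935164) (nat_lit 0) (nat_lit 50856752003) (nat_lit 152) (nat_lit 31505088523) (nat_lit 179) (nat_lit 3) (nat_lit 179) (nat_lit 1) (nat_lit 181) (nat_lit 1) (nat_lit 270) (nat_lit 399) (nat_lit 351)) (XT.lf (nat_lit 76) (nat_lit 52537660112) (nat_lit 0) (nat_lit 6716999259) (nat_lit 152) (nat_lit 27303130072) (nat_lit 178) (nat_lit 1) (nat_lit 177) (nat_lit 1) (nat_lit 179) (nat_lit 1) (nat_lit 271) (nat_lit 399) (nat_lit 350)))) (XT.nd (nat_lit 156) (nat_lit 228) (nat_lit 0) (XT.nd (nat_lit 78) (nat_lit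 152) (nat_lit 0) (XT.lf (nat_lit 0) (nat_lit 12413460103) (nat_lit 0) (nat_lit 48633017911) (nat_lit 152) (nat_lit 23270632266) (nat_lit 176) (nat_lit 3) (nat_lit 176) (nat_lit 1) (nat_lit 178) (nat_lit 1) (nat_lit 272) (nat_lit 399) (nat_lit 349)) (XT.lf (nat_lit 76) (nat_lit 55909291221) (nat_lit 0) (nat_lit 6955809615) (nat_lit 152) (nat_lit 19277217887) (nat_lit 175) (nat_lit 1) (nat_lit 174) (nat_lit 1) (nat_lit 176) (nat_lit 1) (nat_lit 273) (nat_lit 399) (nat_lit 348))) (XT.nd (nat_lit 78) (nat_lit 152) (nat_lit 0) (XT.lf (nat_lit 0) (nat_lit 17451943423) (nat_lit 0) (nat_lit 47025689103) (nat_lit 152) (nat_lit 15542897240) (nat_lit 173) (nat_lit 3) (nat_lit 173) (nat_lit 1) (nat_lit 175) (nat_lit 1) (nat_lit 274) (nat_lit 399) (nat_lit 347)) (XT.lf (nat_lit 76) (nat_lit 58574328722) (nat_lit 0) (nat_lit 7612396257) (nat_lit 152) (nat_lit 11777685522) (nat_lit 172) (nat_lit 1) (nat_lit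 171) (nat_lit 1) (nat_lit 173) (nat_lit 1) (nat_lit 275) (nat_lit 399) (nat_lit 346)))))) (XT.nd (nat_lit 546) (nat_lit 836) (nat_lit 0) (XT.nd (nat_lit 234) (nat_lit 532) (nat_lit 0) (XT.nd (nat_lit 78) (nat_lit 228) (nat_lit 0) (XT.lf (nat_lit 0) (nat_lit 21734429481) (nat_lit 0) (nat_lit 45881782084) (nat_lit 152) (nat_lit 8338140235) (nat_lit 170) (nat_lit 3) (nat_lit 170) (nat_lit 1) (nat_lit 172) (nat_lit 1) (nat_lit 276) (nat_lit 399) (nat_lit 345)) (XT.nd (nat_lit 78) (nat_lit 76) (nat_lit 0) (XT.lf (nat_lit 76) (nat_lit 60637484802) (nat_lit 0) (nat_lit 8558995794) (nat_lit 152) (nat_lit 4812718438) (nat_lit 169) (nat_lit 1) (nat_lit 168) (nat_lit 1) (nat_lit 170) (nat_lit 1) (nat_lit 277) (nat_lit 399) (nat_lit 344)) (XT.lf (nat_lit 0) (nat_lit 25363292931) (nat_lit 0) (nat_lit 45079924163) (nat_lit 152) (nat_lit 1661068996) (nat_lit 167) (nat_lit 3) (nat_lit 167) (nat_lit 1) (nat_lit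 169) (nat_lit 1) (nat_lit 278) (nat_lit 399) (nat_lit 343)))) (XT.nd (nat_lit 156) (nat_lit 228) (nat_lit 0) (XT.nd (nat_lit 78) (nat_lit 76) (nat_lit 0) (XT.lf (nat_lit 152) (nat_lit 60540358661) (nat_lit 0) (nat_lit 1672799969) (nat_lit 76) (nat_lit 8048634176) (nat_lit 166) (nat_lit 1) (nat_lit 164) (nat_lit 1) (nat_lit 165) (nat_lit 1) (nat_lit 279) (nat_lit 399) (nat_lit 342)) (XT.lf (nat_lit 76) (nat_lit 23856877676) (nat_lit 0) (nat_lit 4640987010) (nat_lit 76) (nat_lit 39955766591) (nat_lit 164) (nat_lit 3) (nat_lit 163) (nat_lit 1) (nat_lit 164) (nat_lit 1) (nat_lit 280) (nat_lit 399) (nat_lit 341))) (XT.nd (nat_lit 78) (nat_lit 76) (nat_lit 0) (XT.lf (nat_lit 152) (nat_lit 55642944057) (nat_lit 0) (nat_lit 7776108427) (nat_lit 76) (nat_lit 3288519402) (nat_lit 163) (nat_lit 1) (nat_lit 161) (nat_lit 1) (nat_lit 162) (nat_lit 1) (nat_lit 281) (nat_lit 399) (nat_lit 340)) (XT.lf (nat_lit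 76) (nat_lit 20689932263) (nat_lit 0) (nat_lit 10468247514) (nat_lit 76) (nat_lit 33834886959) (nat_lit 161) (nat_lit 3) (nat_lit 160) (nat_lit 1) (nat_lit 161) (nat_lit 1) (nat_lit 282) (nat_lit 399) (nat_lit 339))))) (XT.nd (nat_lit 234) (nat_lit 456) (nat_lit 0) (XT.nd (nat_lit 78) (nat_lit 228) (nat_lit 0) (XT.lf (nat_lit 0) (nat_lit 873287658) (nat_lit 0) (nat_lit 12464958465) (nat_lit 152) (nat_lit 49999971137) (nat_lit 158) (nat_lit 3) (nat_lit 158) (nat_lit 1) (nat_lit 160) (nat_lit 1) (nat_lit 283) (nat_lit 399) (nat_lit 338)) (XT.nd (nat_lit 78) (nat_lit 152) (nat_lit 0) (XT.lf (nat_lit 76) (nat_lit 17598891911) (nat_lit 0) (nat_lit 15782023523) (nat_lit 76) (nat_lit 28331920437) (nat_lit 158) (nat_lit 3) (nat_lit 157) (nat_lit 1) (nat_lit 158) (nat_lit 1) (nat_lit 284) (nat_lit 399) (nat_lit 337)) (XT.lf (nat_lit 0) (nat_lit 4441349513) (nat_lit 0) (nat_lit 13906101300) (nat_lit 152)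 (nat_lit 41794178514) (nat_lit 155) (nat_lit 3) (nat_lit 155) (nat_lit 1) (nat_lit 157) (nat_lit 1) (nat_lit 285) (nat_lit 399) (nat_lit 336)))) (XT.nd (nat_lit 156) (nat_lit 228) (nat_lit 0) (XT.nd (nat_lit 78) (nat_lit 152) (nat_lit 0) (XT.lf (nat_lit 76) (nat_lit 14618403934) (nat_lit 0) (nat_lit 20602199692) (nat_lit 76) (nat_lit 23382062995) (nat_lit 155) (nat_lit 3) (nat_lit 154) (nat_lit 1) (nat_lit 155) (nat_lit 1) (nat_lit 286) (nat_lit 399) (nat_lit 335)) (XT.lf (nat_lit 0) (nat_lit 7575294368) (nat_lit 0) (nat_lit 15303388778) (nat_lit 152) (nat_lit 34231787185) (nat_lit 152) (nat_lit 3) (nat_lit 152) (nat_lit 1) (nat_lit 154) (nat_lit 1) (nat_lit 287) (nat_lit 399) (nat_lit 334))) (XT.nd (nat_lit 78) (nat_lit 152) (nat_lit 0) (XT.lf (nat_lit 76) (nat_lit 11773102019) (nat_lit 0) (nat_lit 24951174226) (nat_lit 76) (nat_lit 18928744992) (nat_lit 152) (nat_lit 3) (nat_lit 151) (nat_lit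 1) (nat_lit 152) (nat_lit 1) (nat_lit 288) (nat_lit 399) (nat_lit 333)) (XT.lf (nat_lit 0) (nat_lit 10322463162) (nat_lit 0) (nat_lit 16632553967) (nat_lit 152) (nat_lit 27280512141) (nat_lit 149) (nat_lit 3) (nat_lit 149) (nat_lit 1) (nat_lit 151) (nat_lit 1) (nat_lit 289) (nat_lit 399) (nat_lit 332))))))) (XT.nd (nat_lit 1014) (nat_lit 1596) (nat_lit 0) (XT.nd (nat_lit 468) (nat_lit 912) (nat_lit 0) (XT.nd (nat_lit 234) (nat_lit 380) (nat_lit 0) (XT.nd (nat_lit 78) (nat_lit 228) (nat_lit 0) (XT.lf (nat_lit 76) (nat_lit 9079691291) (nat_lit 0) (nat_lit 28852960582) (nat_lit 76) (nat_lit 14922367962) (nat_lit 149) (nat_lit 3) (nat_lit 148) (nat_lit 1) (nat_lit 149) (nat_lit 1) (nat_lit 290) (nat_lit 399) (nat_lit 331)) (XT.nd (nat_lit 78) (nat_lit 76) (nat_lit 0) (XT.lf (nat_lit 0) (nat_lit 12724244000) (nat_lit 0) (nat_lit 17876516196) (nat_lit 152) (nat_lit 20907458488) (nat_lit 146) (nat_lit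 3) (nat_lit 146) (nat_lit 1) (nat_lit 148) (nat_lit 1) (nat_lit 291) (nat_lit 399) (nat_lit 330)) (XT.lf (nat_lit 76) (nat_lit 6548634966) (nat_lit 0) (nat_lit 32332482666) (nat_lit 76) (nat_lit 11319257371) (nat_lit 146) (nat_lit 3) (nat_lit 145) (nat_lit 1) (nat_lit 146) (nat_lit 1) (nat_lit 292) (nat_lit 399) (nat_lit 329)))) (XT.nd (nat_lit 78) (nat_lit 228) (nat_lit 0) (XT.lf (nat_lit 0) (nat_lit 14816968786) (nat_lit 0) (nat_lit 19023866850) (nat_lit 152) (nat_lit 15079678672) (nat_lit 143) (nat_lit 3) (nat_lit 143) (nat_lit 1) (nat_lit 145) (nat_lit 1) (nat_lit 293) (nat_lit 399) (nat_lit 328)) (XT.nd (nat_lit 78) (nat_lit 152) (nat_lit 0) (XT.lf (nat_lit 76) (nat_lit 4185516683) (nat_lit 0) (nat_lit 35415026250) (nat_lit 76) (nat_lit 8080792668) (nat_lit 143) (nat_lit 3) (nat_lit 142) (nat_lit 1) (nat_lit 143) (nat_lit 1) (nat_lit 294) (nat_lit 399) (nat_lit 327)) (XT.lf (nat_lit 0) (nat_lit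 16632658244) (nat_lit 0) (nat_lit 20067645885) (nat_lit 152) (nat_lit 9764598908) (nat_lit 140) (nat_lit 3) (nat_lit 140) (nat_lit 1) (nat_lit 142) (nat_lit 1) (nat_lit 295) (nat_lit 399) (nat_lit 326))))) (XT.nd (nat_lit 234) (nat_lit 532) (nat_lit 0) (XT.nd (nat_lit 78) (nat_lit 304) (nat_lit 0) (XT.lf (nat_lit 76) (nat_lit 1992138917) (nat_lit 0) (nat_lit 38125816245) (nat_lit 76) (nat_lit 5172683029) (nat_lit 140) (nat_lit 3) (nat_lit 139) (nat_lit 1) (nat_lit 140) (nat_lit 1) (nat_lit 296) (nat_lit 399) (nat_lit 325)) (XT.nd (nat_lit 78) (nat_lit 152) (nat_lit 0) (XT.lf (nat_lit 0) (nat_lit 18199642324) (nat_lit 0) (nat_lit 21004354945) (nat_lit 152) (nat_lit 4930340566) (nat_lit 137) (nat_lit 3) (nat_lit 137) (nat_lit 1) (nat_lit 139) (nat_lit 1) (nat_lit 297) (nat_lit 399) (nat_lit 324)) (XT.lf (nat_lit 76) (nat_lit 40457610811) (nat_lit 0) (nat_lit 31550028) (nat_lit 152) (nat_lit 2532278572)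 (nat_lit 136) (nat_lit 1) (nat_lit 135) (nat_lit 1) (nat_lit 137) (nat_lit 1) (nat_lit 298) (nat_lit 399) (nat_lit 323)))) (XT.nd (nat_lit 156) (nat_lit 228) (nat_lit 0) (XT.nd (nat_lit 78) (nat_lit 228) (nat_lit 0) (XT.lf (nat_lit 0) (nat_lit 19543078102) (nat_lit 0) (nat_lit 21833162873) (nat_lit 152) (nat_lit 545957455) (nat_lit 134) (nat_lit 3) (nat_lit 134) (nat_lit 1) (nat_lit 136) (nat_lit 1) (nat_lit 299) (nat_lit 399) (nat_lit 322)) (XT.lf (nat_lit 152) (nat_lit 39006849900) (nat_lit 0) (nat_lit 1687962826) (nat_lit 76) (nat_lit 169798972) (nat_lit 133) (nat_lit 1) (nat_lit 131) (nat_lit 1) (nat_lit 132) (nat_lit 1) (nat_lit 300) (nat_lit 399) (nat_lit 321))) (XT.nd (nat_lit 78) (nat_lit 152) (nat_lit 0) (XT.lf (nat_lit 76) (nat_lit 17209097087) (nat_lit 0) (nat_lit 3531421567) (nat_lit 76) (nat_lit 19078981446) (nat_lit 131) (nat_lit 3) (nat_lit 130) (nat_lit 1) (nat_lit 131) (nat_lit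 1) (nat_lit 301) (nat_lit 399) (nat_lit 320)) (XT.lf (nat_lit 0) (nat_lit 1945396327) (nat_lit 0) (nat_lit 3594324332) (nat_lit 152) (nat_lit 33273986699) (nat_lit 128) (nat_lit 3) (nat_lit 128) (nat_lit 1) (nat_lit 130) (nat_lit 1) (nat_lit 302) (nat_lit 399) (nat_lit 319)))))) (XT.nd (nat_lit 546) (nat_lit 836) (nat_lit 0) (XT.nd (nat_lit 234) (nat_lit 456) (nat_lit 0) (XT.nd (nat_lit 78) (nat_lit 228) (nat_lit 0) (XT.lf (nat_lit 76) (nat_lit 14536860275) (nat_lit 0) (nat_lit 7222503257) (nat_lit 76) (nat_lit 16063645465) (nat_lit 128) (nat_lit 3) (nat_lit 127) (nat_lit 1) (nat_lit 128) (nat_lit 1) (nat_lit 303) (nat_lit 399) (nat_lit 318)) (XT.nd (nat_lit 78) (nat_lit 76) (nat_lit 0) (XT.lf (nat_lit 0) (nat_lit 3827961704) (nat_lit 0) (nat_lit 5174333124) (nat_lit 152) (nat_lit 27864380587) (nat_lit 125) (nat_lit 3) (nat_lit 125) (nat_lit 1) (nat_lit 127) (nat_lit 1) (nat_lit 304) (nat_lit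 399) (nat_lit 317)) (XT.lf (nat_lit 76) (nat_lit 12071751339) (nat_lit 0) (nat_lit 10537469573) (nat_lit 76) (nat_lit 13318391542) (nat_lit 125) (nat_lit 3) (nat_lit 124) (nat_lit 1) (nat_lit 125) (nat_lit 1) (nat_lit 305) (nat_lit 399) (nat_lit 316)))) (XT.nd (nat_lit 156) (nat_lit 228) (nat_lit 0) (XT.nd (nat_lit 78) (nat_lit 76) (nat_lit 0) (XT.lf (nat_lit 0) (nat_lit 5503217865) (nat_lit 0) (nat_lit 6602547850) (nat_lit 152) (nat_lit 22912476724) (nat_lit 122) (nat_lit 3) (nat_lit 122) (nat_lit 1) (nat_lit 124) (nat_lit 1) (nat_lit 306) (nat_lit 399) (nat_lit 315)) (XT.lf (nat_lit 76) (nat_lit 9803498483) (nat_lit 0) (nat_lit 13503174579) (nat_lit 76) (nat_lit 10821396618) (nat_lit 122) (nat_lit 3) (nat_lit 121) (nat_lit 1) (nat_lit 122) (nat_lit 1) (nat_lit 307) (nat_lit 399) (nat_lit 314))) (XT.nd (nat_lit 78) (nat_lit 76) (nat_lit 0) (XT.lf (nat_lit 0) (nat_lit 6989217384) (nat_lit 0)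 (nat_lit 7886834787) (nat_lit 152) (nat_lit 18387252039) (nat_lit 119) (nat_lit 3) (nat_lit 119) (nat_lit 1) (nat_lit 121) (nat_lit 1) (nat_lit 308) (nat_lit 399) (nat_lit 313)) (XT.lf (nat_lit 76) (nat_lit 7721613445) (nat_lit 0) (nat_lit 16145076467) (nat_lit 76) (nat_lit 8552740670) (nat_lit 119) (nat_lit 3) (nat_lit 118) (nat_lit 1) (nat_lit 119) (nat_lit 1) (nat_lit 309) (nat_lit 399) (nat_lit 312))))) (XT.nd (nat_lit 234) (nat_lit 456) (nat_lit 0) (XT.nd (nat_lit 78) (nat_lit 228) (nat_lit 0) (XT.lf (nat_lit 0) (nat_lit 8302386732) (nat_lit 0) (nat_lit 9035303156) (nat_lit 152) (nat_lit 14259347993) (nat_lit 116) (nat_lit 3) (nat_lit 116) (nat_lit 1) (nat_lit 118) (nat_lit 1) (nat_lit 310) (nat_lit 399) (nat_lit 311)) (XT.nd (nat_lit 78) (nat_lit 152) (nat_lit 0) (XT.lf (nat_lit 76) (nat_lit 5815574035) (nat_lit 0) (nat_lit 18487242027) (nat_lit 76) (nat_lit 6494200353) (nat_lit 116) (nat_lit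 3) (nat_lit 115) (nat_lit 1) (nat_lit 116) (nat_lit 1) (nat_lit 311) (nat_lit 399) (nat_lit 310)) (XT.lf (nat_lit 0) (nat_lit 9457704101) (nat_lit 0) (nat_lit 10056140008) (nat_lit 152) (nat_lit 10501039465) (nat_lit 113) (nat_lit 3) (nat_lit 113) (nat_lit 1) (nat_lit 115) (nat_lit 1) (nat_lit 312) (nat_lit 399) (nat_lit 309)))) (XT.nd (nat_lit 156) (nat_lit 228) (nat_lit 0) (XT.nd (nat_lit 78) (nat_lit 152) (nat_lit 0) (XT.lf (nat_lit 76) (nat_lit 4074964032) (nat_lit 0) (nat_lit 20552366849) (nat_lit 76) (nat_lit 4629071353) (nat_lit 113) (nat_lit 3) (nat_lit 112) (nat_lit 1) (nat_lit 113) (nat_lit 1) (nat_lit 313) (nat_lit 399) (nat_lit 308)) (XT.lf (nat_lit 0) (nat_lit 10468852544) (nat_lit 0) (nat_lit 10957483338) (nat_lit 152) (nat_lit 7086191756) (nat_lit 110) (nat_lit 3) (nat_lit 110) (nat_lit 1) (nat_lit 112) (nat_lit 1) (nat_lit 314) (nat_lit 399) (nat_lit 307))) (XT.nd (nat_lit 78)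 (nat_lit 152) (nat_lit 0) (XT.lf (nat_lit 76) (nat_lit 2489578844) (nat_lit 0) (nat_lit 22361807346) (nat_lit 76) (nat_lit 2942014765) (nat_lit 110) (nat_lit 3) (nat_lit 109) (nat_lit 1) (nat_lit 110) (nat_lit 1) (nat_lit 315) (nat_lit 399) (nat_lit 306)) (XT.lf (nat_lit 0) (nat_lit 11348352463) (nat_lit 0) (nat_lit 11747325939) (nat_lit 152) (nat_lit 3990208989) (nat_lit 107) (nat_lit 3) (nat_lit 107) (nat_lit 1) (nat_lit 109) (nat_lit 1) (nat_lit 316) (nat_lit 399) (nat_lit 305))))))))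
noncomputable def ec178 : XT := (XT.nd (nat_lit 2028) (nat_lit 3192) (nat_lit 0) (XT.nd (nat_lit 1014) (nat_lit 1596) (nat_lit 0) (XT.nd (nat_lit 468) (nat_lit 836) (nat_lit 0) (XT.nd (nat_lit 234) (nat_lit 304) (nat_lit 0) (XT.nd (nat_lit 78) (nat_lit 380) (nat_lit 0) (XT.lf (nat_lit 76) (nat_lit 1049503719) (nat_lit 0) (nat_lit 23935621434) (nat_lit 76) (nat_lit 1418923603) (nat_lit 107) (nat_lit 3) (nat_lit 106) (nat_lit 1) (nat_lit 107) (nat_lit 1) (nat_lit 317) (nat_lit 399) (nat_lit 304)) (XT.nd (nat_lit 78) (nat_lit 228) (nat_lit 0) (XT.lf (nat_lit 0) (nat_lit 12107676767) (nat_lit 0) (nat_lit 12433443861) (nat_lit 152) (nat_lit 1189976501) (nat_lit 104) (nat_lit 3) (nat_lit 104) (nat_lit 1) (nat_lit 106) (nat_lit 1) (nat_lit 318) (nat_lit 399) (nat_lit 303)) (XT.lf (nat_lit 152) (nat_lit 24834263369) (nat_lit 0) (nat_lit 210791730) (nat_lit 76) (nat_lit 39173112) (nat_lit 103) (nat_lit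 1) (nat_lit 101) (nat_lit 1) (nat_lit 102) (nat_lit 1) (nat_lit 319) (nat_lit 399) (nat_lit 302)))) (XT.nd (nat_lit 78) (nat_lit 228) (nat_lit 0) (XT.lf (nat_lit 76) (nat_lit 11398521503) (nat_lit 0) (nat_lit 1380381546) (nat_lit 76) (nat_lit 11664514623) (nat_lit 101) (nat_lit 3) (nat_lit 100) (nat_lit 1) (nat_lit 101) (nat_lit 1) (nat_lit 320) (nat_lit 399) (nat_lit 301)) (XT.nd (nat_lit 78) (nat_lit 76) (nat_lit 0) (XT.lf (nat_lit 0) (nat_lit 1213646382) (nat_lit 0) (nat_lit 1448208216) (nat_lit 152) (nat_lit 21165427677) (nat_lit 98) (nat_lit 3) (nat_lit 98) (nat_lit 1) (nat_lit 100) (nat_lit 1) (nat_lit 321) (nat_lit 399) (nat_lit 300)) (XT.lf (nat_lit 76) (nat_lit 9637267379) (nat_lit 0) (nat_lit 3727980557) (nat_lit 76) (nat_lit 9854454262) (nat_lit 98) (nat_lit 3) (nat_lit 97) (nat_lit 1) (nat_lit 98) (nat_lit 1) (nat_lit 322) (nat_lit 399) (nat_lit 299))))) (XT.nd (nat_lit 234) (nat_lit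 456) (nat_lit 0) (XT.nd (nat_lit 78) (nat_lit 228) (nat_lit 0) (XT.lf (nat_lit 0) (nat_lit 2335499913) (nat_lit 0) (nat_lit 2527022738) (nat_lit 152) (nat_lit 17771144824) (nat_lit 95) (nat_lit 3) (nat_lit 95) (nat_lit 1) (nat_lit 97) (nat_lit 1) (nat_lit 323) (nat_lit 399) (nat_lit 298)) (XT.nd (nat_lit 78) (nat_lit 152) (nat_lit 0) (XT.lf (nat_lit 76) (nat_lit 8023559090) (nat_lit 0) (nat_lit 5833152750) (nat_lit 76) (nat_lit 8200895039) (nat_lit 95) (nat_lit 3) (nat_lit 94) (nat_lit 1) (nat_lit 95) (nat_lit 1) (nat_lit 324) (nat_lit 399) (nat_lit 297)) (XT.lf (nat_lit 0) (nat_lit 3337961353) (nat_lit 0) (nat_lit 3494342261) (nat_lit 152) (nat_lit 14667886386) (nat_lit 92) (nat_lit 3) (nat_lit 92) (nat_lit 1) (nat_lit 94) (nat_lit 1) (nat_lit 325) (nat_lit 399) (nat_lit 296)))) (XT.nd (nat_lit 156) (nat_lit 228) (nat_lit 0) (XT.nd (nat_lit 78) (nat_lit 152) (nat_lit 0) (XT.lf (nat_lit 76) (nat_lit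 6547446570) (nat_lit 0) (nat_lit 7714309964) (nat_lit 76) (nat_lit 6692243707) (nat_lit 92) (nat_lit 3) (nat_lit 91) (nat_lit 1) (nat_lit 92) (nat_lit 1) (nat_lit 326) (nat_lit 399) (nat_lit 295)) (XT.lf (nat_lit 0) (nat_lit 4230576920) (nat_lit 0) (nat_lit 4358263989) (nat_lit 152) (nat_lit 11834952214) (nat_lit 89) (nat_lit 3) (nat_lit 89) (nat_lit 1) (nat_lit 91) (nat_lit 1) (nat_lit 327) (nat_lit 399) (nat_lit 294))) (XT.nd (nat_lit 78) (nat_lit 152) (nat_lit 0) (XT.lf (nat_lit 76) (nat_lit 5199510201) (nat_lit 0) (nat_lit 9388664084) (nat_lit 76) (nat_lit 5317738969) (nat_lit 89) (nat_lit 3) (nat_lit 88) (nat_lit 1) (nat_lit 89) (nat_lit 1) (nat_lit 328) (nat_lit 399) (nat_lit 293)) (XT.lf (nat_lit 0) (nat_lit 5022181459) (nat_lit 0) (nat_lit 5126439631) (nat_lit 152) (nat_lit 9252957427) (nat_lit 86) (nat_lit 3) (nat_lit 86) (nat_lit 1) (nat_lit 88) (nat_lit 1) (nat_lit 329) (nat_lit 399)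 (nat_lit 292)))))) (XT.nd (nat_lit 468) (nat_lit 912) (nat_lit 0) (XT.nd (nat_lit 234) (nat_lit 380) (nat_lit 0) (XT.nd (nat_lit 78) (nat_lit 228) (nat_lit 0) (XT.lf (nat_lit 76) (nat_lit 3970851453) (nat_lit 0) (nat_lit 10872292158) (nat_lit 76) (nat_lit 4067386798) (nat_lit 86) (nat_lit 3) (nat_lit 85) (nat_lit 1) (nat_lit 86) (nat_lit 1) (nat_lit 330) (nat_lit 399) (nat_lit 291)) (XT.nd (nat_lit 78) (nat_lit 76) (nat_lit 0) (XT.lf (nat_lit 0) (nat_lit 5720954692) (nat_lit 0) (nat_lit 5806082863) (nat_lit 152) (nat_lit 6903760034) (nat_lit 83) (nat_lit 3) (nat_lit 83) (nat_lit 1) (nat_lit 85) (nat_lit 1) (nat_lit 331) (nat_lit 399) (nat_lit 290)) (XT.lf (nat_lit 76) (nat_lit 2853079610) (nat_lit 0) (nat_lit 12180199755) (nat_lit 76) (nat_lit 2931901990) (nat_lit 83) (nat_lit 3) (nat_lit 82) (nat_lit 1) (nat_lit 83) (nat_lit 1) (nat_lit 332) (nat_lit 399) (nat_lit 289)))) (XT.nd (nat_lit 78)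 (nat_lit 228) (nat_lit 0) (XT.lf (nat_lit 0) (nat_lit 6334472044) (nat_lit 0) (nat_lit 6403980316) (nat_lit 152) (nat_lit 4770391012) (nat_lit 80) (nat_lit 3) (nat_lit 80) (nat_lit 1) (nat_lit 82) (nat_lit 1) (nat_lit 333) (nat_lit 399) (nat_lit 288)) (XT.nd (nat_lit 78) (nat_lit 152) (nat_lit 0) (XT.lf (nat_lit 76) (nat_lit 1838295652) (nat_lit 0) (nat_lit 13326382264) (nat_lit 76) (nat_lit 1902655163) (nat_lit 80) (nat_lit 3) (nat_lit 79) (nat_lit 1) (nat_lit 80) (nat_lit 1) (nat_lit 334) (nat_lit 399) (nat_lit 287)) (XT.lf (nat_lit 0) (nat_lit 6869750719) (nat_lit 0) (nat_lit 6926505138) (nat_lit 152) (nat_lit 2836987060) (nat_lit 77) (nat_lit 3) (nat_lit 77) (nat_lit 1) (nat_lit 79) (nat_lit 1) (nat_lit 335) (nat_lit 399) (nat_lit 286))))) (XT.nd (nat_lit 234) (nat_lit 608) (nat_lit 0) (XT.nd (nat_lit 78) (nat_lit 228) (nat_lit 0) (XT.lf (nat_lit 76) (nat_lit 919074137) (nat_lit 0) (nat_lit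 14323883890) (nat_lit 76) (nat_lit 971624524) (nat_lit 77) (nat_lit 3) (nat_lit 76) (nat_lit 1) (nat_lit 77) (nat_lit 1) (nat_lit 336) (nat_lit 399) (nat_lit 285)) (XT.nd (nat_lit 78) (nat_lit 76) (nat_lit 0) (XT.lf (nat_lit 0) (nat_lit 7333291626) (nat_lit 0) (nat_lit 7379632356) (nat_lit 152) (nat_lit 1088726153) (nat_lit 74) (nat_lit 3) (nat_lit 74) (nat_lit 1) (nat_lit 76) (nat_lit 1) (nat_lit 337) (nat_lit 399) (nat_lit 284)) (XT.lf (nat_lit 76) (nat_lit 88443755) (nat_lit 0) (nat_lit 15184854224) (nat_lit 76) (nat_lit 131351838) (nat_lit 74) (nat_lit 3) (nat_lit 73) (nat_lit 1) (nat_lit 74) (nat_lit 1) (nat_lit 338) (nat_lit 399) (nat_lit 283)))) (XT.nd (nat_lit 156) (nat_lit 228) (nat_lit 0) (XT.nd (nat_lit 78) (nat_lit 152) (nat_lit 0) (XT.lf (nat_lit 76) (nat_lit 7234615155) (nat_lit 0) (nat_lit 504377222) (nat_lit 76) (nat_lit 7272452971) (nat_lit 71) (nat_lit 3) (nat_lit 70) (nat_lit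 1) (nat_lit 71) (nat_lit 1) (nat_lit 339) (nat_lit 399) (nat_lit 282)) (XT.lf (nat_lit 0) (nat_lit 636466736) (nat_lit 0) (nat_lit 669833417) (nat_lit 152) (nat_lit 13327014575) (nat_lit 68) (nat_lit 3) (nat_lit 68) (nat_lit 1) (nat_lit 70) (nat_lit 1) (nat_lit 340) (nat_lit 399) (nat_lit 281))) (XT.nd (nat_lit 78) (nat_lit 152) (nat_lit 0) (XT.lf (nat_lit 76) (nat_lit 6129701143) (nat_lit 0) (nat_lit 1969862521) (nat_lit 76) (nat_lit 6160596217) (nat_lit 68) (nat_lit 3) (nat_lit 67) (nat_lit 1) (nat_lit 68) (nat_lit 1) (nat_lit 341) (nat_lit 399) (nat_lit 280)) (XT.lf (nat_lit 0) (nat_lit 1326468906) (nat_lit 0) (nat_lit 1353713240) (nat_lit 152) (nat_lit 11220292565) (nat_lit 65) (nat_lit 3) (nat_lit 65) (nat_lit 1) (nat_lit 67) (nat_lit 1) (nat_lit 342) (nat_lit 399) (nat_lit 279))))))) (XT.nd (nat_lit 1014) (nat_lit 1748) (nat_lit 0) (XT.nd (nat_lit 468) (nat_lit 760) (nat_lit 0) (XT.nd (nat_lit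 234) (nat_lit 380) (nat_lit 0) (XT.nd (nat_lit 78) (nat_lit 228) (nat_lit 0) (XT.lf (nat_lit 76) (nat_lit 5118622721) (nat_lit 0) (nat_lit 3284186042) (nat_lit 76) (nat_lit 5143848956) (nat_lit 65) (nat_lit 3) (nat_lit 64) (nat_lit 1) (nat_lit 65) (nat_lit 1) (nat_lit 343) (nat_lit 399) (nat_lit 278)) (XT.nd (nat_lit 78) (nat_lit 76) (nat_lit 0) (XT.lf (nat_lit 0) (nat_lit 1943961095) (nat_lit 0) (nat_lit 1966206452) (nat_lit 152) (nat_lit 9294346927) (nat_lit 62) (nat_lit 3) (nat_lit 62) (nat_lit 1) (nat_lit 64) (nat_lit 1) (nat_lit 344) (nat_lit 399) (nat_lit 277)) (XT.lf (nat_lit 76) (nat_lit 4194733583) (nat_lit 0) (nat_lit 4458962983) (nat_lit 76) (nat_lit 4215331136) (nat_lit 62) (nat_lit 3) (nat_lit 61) (nat_lit 1) (nat_lit 62) (nat_lit 1) (nat_lit 345) (nat_lit 399) (nat_lit 276)))) (XT.nd (nat_lit 78) (nat_lit 228) (nat_lit 0) (XT.lf (nat_lit 0) (nat_lit 2494603594) (nat_lit 0) (nat_lit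 2512767221) (nat_lit 152) (nat_lit 7536196652) (nat_lit 59) (nat_lit 3) (nat_lit 59) (nat_lit 1) (nat_lit 61) (nat_lit 1) (nat_lit 346) (nat_lit 399) (nat_lit 275)) (XT.nd (nat_lit 78) (nat_lit 152) (nat_lit 0) (XT.lf (nat_lit 76) (nat_lit 3351808498) (nat_lit 0) (nat_lit 5505021003) (nat_lit 76) (nat_lit 3368626671) (nat_lit 59) (nat_lit 3) (nat_lit 58) (nat_lit 1) (nat_lit 59) (nat_lit 1) (nat_lit 347) (nat_lit 399) (nat_lit 274)) (XT.lf (nat_lit 0) (nat_lit 2983659784) (nat_lit 0) (nat_lit 2998490625) (nat_lit 152) (nat_lit 5933711981) (nat_lit 56) (nat_lit 3) (nat_lit 56) (nat_lit 1) (nat_lit 58) (nat_lit 1) (nat_lit 348) (nat_lit 399) (nat_lit 273))))) (XT.nd (nat_lit 234) (nat_lit 456) (nat_lit 0) (XT.nd (nat_lit 78) (nat_lit 228) (nat_lit 0) (XT.lf (nat_lit 76) (nat_lit 2584020234) (nat_lit 0) (nat_lit 6432449180) (nat_lit 76) (nat_lit 2597752494) (nat_lit 56) (nat_lit 3) (nat_lit 55)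 (nat_lit 1) (nat_lit 56) (nat_lit 1) (nat_lit 349) (nat_lit 399) (nat_lit 272)) (XT.nd (nat_lit 78) (nat_lit 76) (nat_lit 0) (XT.lf (nat_lit 0) (nat_lit 3416023195) (nat_lit 0) (nat_lit 3428132772) (nat_lit 152) (nat_lit 4475562282) (nat_lit 53) (nat_lit 3) (nat_lit 53) (nat_lit 1) (nat_lit 55) (nat_lit 1) (nat_lit 350) (nat_lit 399) (nat_lit 271)) (XT.lf (nat_lit 76) (nat_lit 1885917247) (nat_lit 0) (nat_lit 7250644267) (nat_lit 76) (nat_lit 1897129818) (nat_lit 53) (nat_lit 3) (nat_lit 52) (nat_lit 1) (nat_lit 53) (nat_lit 1) (nat_lit 351) (nat_lit 399) (nat_lit 270)))) (XT.nd (nat_lit 156) (nat_lit 228) (nat_lit 0) (XT.nd (nat_lit 78) (nat_lit 76) (nat_lit 0) (XT.lf (nat_lit 0) (nat_lit 3796242616) (nat_lit 0) (nat_lit 3806130244) (nat_lit 152) (nat_lit 3151166826) (nat_lit 50) (nat_lit 3) (nat_lit 50) (nat_lit 1) (nat_lit 52) (nat_lit 1) (nat_lit 352) (nat_lit 399) (nat_lit 269)) (XT.lf (nat_lit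 76) (nat_lit 1252402216) (nat_lit 0) (nat_lit 7968354345) (nat_lit 76) (nat_lit 1261557428) (nat_lit 50) (nat_lit 3) (nat_lit 49) (nat_lit 1) (nat_lit 50) (nat_lit 1) (nat_lit 353) (nat_lit 399) (nat_lit 268))) (XT.nd (nat_lit 78) (nat_lit 76) (nat_lit 0) (XT.lf (nat_lit 0) (nat_lit 4128545417) (nat_lit 0) (nat_lit 4136618796) (nat_lit 152) (nat_lit 1950648342) (nat_lit 47) (nat_lit 3) (nat_lit 47) (nat_lit 1) (nat_lit 49) (nat_lit 1) (nat_lit 354) (nat_lit 399) (nat_lit 267)) (XT.lf (nat_lit 76) (nat_lit 678711460) (nat_lit 0) (nat_lit 8593719982) (nat_lit 76) (nat_lit 686186811) (nat_lit 47) (nat_lit 3) (nat_lit 46) (nat_lit 1) (nat_lit 47) (nat_lit 1) (nat_lit 355) (nat_lit 399) (nat_lit 266)))))) (XT.nd (nat_lit 546) (nat_lit 836) (nat_lit 0) (XT.nd (nat_lit 234) (nat_lit 456) (nat_lit 0) (XT.nd (nat_lit 78) (nat_lit 304) (nat_lit 0) (XT.lf (nat_lit 0) (nat_lit 4416859242) (nat_lit 0) (nat_lit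 4423451262) (nat_lit 152) (nat_lit 864789225) (nat_lit 44) (nat_lit 3) (nat_lit 44) (nat_lit 1) (nat_lit 46) (nat_lit 1) (nat_lit 356) (nat_lit 399) (nat_lit 265)) (XT.nd (nat_lit 78) (nat_lit 228) (nat_lit 0) (XT.lf (nat_lit 76) (nat_lit 160395273) (nat_lit 0) (nat_lit 9134313008) (nat_lit 76) (nat_lit 166498996) (nat_lit 44) (nat_lit 3) (nat_lit 43) (nat_lit 1) (nat_lit 44) (nat_lit 1) (nat_lit 357) (nat_lit 399) (nat_lit 264)) (XT.lf (nat_lit 76) (nat_lit 4547874730) (nat_lit 0) (nat_lit 118812462) (nat_lit 76) (nat_lit 4553257201) (nat_lit 41) (nat_lit 3) (nat_lit 40) (nat_lit 1) (nat_lit 41) (nat_lit 1) (nat_lit 358) (nat_lit 399) (nat_lit 263)))) (XT.nd (nat_lit 156) (nat_lit 228) (nat_lit 0) (XT.nd (nat_lit 78) (nat_lit 76) (nat_lit 0) (XT.lf (nat_lit 0) (nat_lit 306822742) (nat_lit 0) (nat_lit 311569189) (nat_lit 152) (nat_lit 8369389554) (nat_lit 38) (nat_lit 3) (nat_lit 38) (nat_lit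 1) (nat_lit 40) (nat_lit 1) (nat_lit 359) (nat_lit 399) (nat_lit 262)) (XT.lf (nat_lit 76) (nat_lit 3862202769) (nat_lit 0) (nat_lit 1029725796) (nat_lit 76) (nat_lit 3866597628) (nat_lit 38) (nat_lit 3) (nat_lit 37) (nat_lit 1) (nat_lit 38) (nat_lit 1) (nat_lit 360) (nat_lit 399) (nat_lit 261))) (XT.nd (nat_lit 78) (nat_lit 76) (nat_lit 0) (XT.lf (nat_lit 0) (nat_lit 734357186) (nat_lit 0) (nat_lit 738232722) (nat_lit 152) (nat_lit 7065094730) (nat_lit 35) (nat_lit 3) (nat_lit 35) (nat_lit 1) (nat_lit 37) (nat_lit 1) (nat_lit 361) (nat_lit 399) (nat_lit 260)) (XT.lf (nat_lit 76) (nat_lit 3234819120) (nat_lit 0) (nat_lit 1847080800) (nat_lit 76) (nat_lit 3238407580) (nat_lit 35) (nat_lit 3) (nat_lit 34) (nat_lit 1) (nat_lit 35) (nat_lit 1) (nat_lit 362) (nat_lit 399) (nat_lit 259))))) (XT.nd (nat_lit 234) (nat_lit 456) (nat_lit 0) (XT.nd (nat_lit 78) (nat_lit 228) (nat_lit 0) (XT.lf (nat_lit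 0) (nat_lit 1117283181) (nat_lit 0) (nat_lit 1120447608) (nat_lit 152) (nat_lit 5872502669) (nat_lit 32) (nat_lit 3) (nat_lit 32) (nat_lit 1) (nat_lit 34) (nat_lit 1) (nat_lit 363) (nat_lit 399) (nat_lit 258)) (XT.nd (nat_lit 78) (nat_lit 152) (nat_lit 0) (XT.lf (nat_lit 76) (nat_lit 2661555059) (nat_lit 0) (nat_lit 2578075925) (nat_lit 76) (nat_lit 2664485084) (nat_lit 32) (nat_lit 3) (nat_lit 31) (nat_lit 1) (nat_lit 32) (nat_lit 1) (nat_lit 364) (nat_lit 399) (nat_lit 257)) (XT.lf (nat_lit 0) (nat_lit 1459058425) (nat_lit 0) (nat_lit 1461642221) (nat_lit 152) (nat_lit 4783582257) (nat_lit 29) (nat_lit 3) (nat_lit 29) (nat_lit 1) (nat_lit 31) (nat_lit 1) (nat_lit 365) (nat_lit 399) (nat_lit 256)))) (XT.nd (nat_lit 156) (nat_lit 228) (nat_lit 0) (XT.nd (nat_lit 78) (nat_lit 152) (nat_lit 0) (XT.lf (nat_lit 76) (nat_lit 2138514595) (nat_lit 0) (nat_lit 3229417621) (nat_lit 76) (nat_lit 2140906999)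 (nat_lit 29) (nat_lit 3) (nat_lit 28) (nat_lit 1) (nat_lit 29) (nat_lit 1) (nat_lit 366) (nat_lit 399) (nat_lit 255)) (XT.lf (nat_lit 0) (nat_lit 1762901994) (nat_lit 0) (nat_lit 1765011697) (nat_lit 152) (nat_lit 3790832471) (nat_lit 26) (nat_lit 3) (nat_lit 26) (nat_lit 1) (nat_lit 28) (nat_lit 1) (nat_lit 367) (nat_lit 399) (nat_lit 254))) (XT.nd (nat_lit 78) (nat_lit 152) (nat_lit 0) (XT.lf (nat_lit 76) (nat_lit 1662057803) (nat_lit 0) (nat_lit 3807351748) (nat_lit 76) (nat_lit 1664011232) (nat_lit 26) (nat_lit 3) (nat_lit 25) (nat_lit 1) (nat_lit 26) (nat_lit 1) (nat_lit 368) (nat_lit 399) (nat_lit 253)) (XT.lf (nat_lit 0) (nat_lit 2031809924) (nat_lit 0) (nat_lit 2033532525) (nat_lit 152) (nat_lit 2887249209) (nat_lit 23) (nat_lit 3) (nat_lit 23) (nat_lit 1) (nat_lit 25) (nat_lit 1) (nat_lit 369) (nat_lit 399) (nat_lit 252))))))))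
noncomputable def ec179 : XT := (XT.nd (nat_lit 2106) (nat_lit 0) (nat_lit 0) (XT.nd (nat_lit 1014) (nat_lit 152) (nat_lit 0) (XT.nd (nat_lit 468) (nat_lit 912) (nat_lit 0) (XT.nd (nat_lit 234) (nat_lit 380) (nat_lit 0) (XT.nd (nat_lit 78) (nat_lit 228) (nat_lit 0) (XT.lf (nat_lit 76) (nat_lit 1228785080) (nat_lit 0) (nat_lit 4317693084) (nat_lit 76) (nat_lit 1230380081) (nat_lit 23) (nat_lit 3) (nat_lit 22) (nat_lit 1) (nat_lit 23) (nat_lit 1) (nat_lit 370) (nat_lit 399) (nat_lit 251)) (XT.nd (nat_lit 78) (nat_lit 76) (nat_lit 0) (XT.lf (nat_lit 0) (nat_lit 2268569793) (nat_lit 0) (nat_lit 2269976319) (nat_lit 152) (nat_lit 2066294117) (nat_lit 20) (nat_lit 3) (nat_lit 20) (nat_lit 1) (nat_lit 22) (nat_lit 1) (nat_lit 371) (nat_lit 399) (nat_lit 250)) (XT.lf (nat_lit 76) (nat_lit 835522285) (nat_lit 0) (nat_lit 4765853042) (nat_lit 76) (nat_lit 836824624) (nat_lit 20) (nat_lit 3) (nat_lit 19)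 (nat_lit 1) (nat_lit 20) (nat_lit 1) (nat_lit 372) (nat_lit 399) (nat_lit 249)))) (XT.nd (nat_lit 78) (nat_lit 228) (nat_lit 0) (XT.lf (nat_lit 0) (nat_lit 2475774361) (nat_lit 0) (nat_lit 2476922808) (nat_lit 152) (nat_lit 1321865272) (nat_lit 17) (nat_lit 3) (nat_lit 17) (nat_lit 1) (nat_lit 19) (nat_lit 1) (nat_lit 373) (nat_lit 399) (nat_lit 248)) (XT.nd (nat_lit 78) (nat_lit 152) (nat_lit 0) (XT.lf (nat_lit 76) (nat_lit 479306731) (nat_lit 0) (nat_lit 5156865700) (nat_lit 76) (nat_lit 480370108) (nat_lit 17) (nat_lit 3) (nat_lit 16) (nat_lit 1) (nat_lit 17) (nat_lit 1) (nat_lit 374) (nat_lit 399) (nat_lit 247)) (XT.lf (nat_lit 0) (nat_lit 2655834344) (nat_lit 0) (nat_lit 2656772066) (nat_lit 152) (nat_lit 648269645) (nat_lit 14) (nat_lit 3) (nat_lit 14) (nat_lit 1) (nat_lit 16) (nat_lit 1) (nat_lit 375) (nat_lit 399) (nat_lit 246))))) (XT.nd (nat_lit 234) (nat_lit 456) (nat_lit 0) (XT.nd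 (nat_lit 78) (nat_lit 380) (nat_lit 0) (XT.lf (nat_lit 76) (nat_lit 157373980) (nat_lit 0) (nat_lit 5495412239) (nat_lit 76) (nat_lit 158242241) (nat_lit 14) (nat_lit 3) (nat_lit 13) (nat_lit 1) (nat_lit 14) (nat_lit 1) (nat_lit 376) (nat_lit 399) (nat_lit 245)) (XT.nd (nat_lit 78) (nat_lit 228) (nat_lit 0) (XT.lf (nat_lit 0) (nat_lit 2810990359) (nat_lit 0) (nat_lit 2811756022) (nat_lit 152) (nat_lit 40197216) (nat_lit 11) (nat_lit 3) (nat_lit 11) (nat_lit 1) (nat_lit 13) (nat_lit 1) (nat_lit 377) (nat_lit 399) (nat_lit 244)) (XT.lf (nat_lit 0) (nat_lit 134334649) (nat_lit 0) (nat_lit 135009836) (nat_lit 152) (nat_lit 5251075082) (nat_lit 8) (nat_lit 3) (nat_lit 8) (nat_lit 1) (nat_lit 10) (nat_lit 1) (nat_lit 378) (nat_lit 399) (nat_lit 243)))) (XT.nd (nat_lit 156) (nat_lit 228) (nat_lit 0) (XT.nd (nat_lit 78) (nat_lit 152) (nat_lit 0) (XT.lf (nat_lit 76) (nat_lit 2427429369) (nat_lit 0) (nat_lit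 524077067) (nat_lit 76) (nat_lit 2428054543) (nat_lit 8) (nat_lit 3) (nat_lit 7) (nat_lit 1) (nat_lit 8) (nat_lit 1) (nat_lit 379) (nat_lit 399) (nat_lit 242)) (XT.lf (nat_lit 0) (nat_lit 399669103) (nat_lit 0) (nat_lit 400220403) (nat_lit 152) (nat_lit 4444066372) (nat_lit 5) (nat_lit 3) (nat_lit 5) (nat_lit 1) (nat_lit 7) (nat_lit 1) (nat_lit 380) (nat_lit 399) (nat_lit 241))) (XT.nd (nat_lit 78) (nat_lit 152) (nat_lit 0) (XT.lf (nat_lit 76) (nat_lit 2039005533) (nat_lit 0) (nat_lit 1031873837) (nat_lit 76) (nat_lit 2039515995) (nat_lit 5) (nat_lit 3) (nat_lit 4) (nat_lit 1) (nat_lit 5) (nat_lit 1) (nat_lit 381) (nat_lit 399) (nat_lit 240)) (XT.lf (nat_lit 0) (nat_lit 637478196) (nat_lit 0) (nat_lit 637928339) (nat_lit 152) (nat_lit 3705995110) (nat_lit 2) (nat_lit 3) (nat_lit 2) (nat_lit 1) (nat_lit 4) (nat_lit 1) (nat_lit 382) (nat_lit 399) (nat_lit 239)))))) (XT.nd (nat_lit 546) (nat_lit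 0) (nat_lit 0) (XT.nd (nat_lit 234) (nat_lit 0) (nat_lit 0) (XT.nd (nat_lit 78) (nat_lit 76) (nat_lit 0) (XT.lf (nat_lit 76) (nat_lit 1684017653) (nat_lit 0) (nat_lit 1486307207) (nat_lit 76) (nat_lit 1684434453) (nat_lit 2) (nat_lit 3) (nat_lit 1) (nat_lit 1) (nat_lit 2) (nat_lit 1) (nat_lit 383) (nat_lit 399) (nat_lit 238)) (XT.nd (nat_lit 78) (nat_lit 0) (nat_lit 0) (XT.lf (nat_lit 0) (nat_lit 100670706218) (nat_lit 0) (nat_lit 0) (nat_lit 0) (nat_lit 0) (nat_lit 0) (nat_lit 0) (nat_lit 1) (nat_lit 0) (nat_lit 1) (nat_lit 0) (nat_lit 384) (nat_lit 399) (nat_lit 237)) (XT.lf (nat_lit 0) (nat_lit 100670677515) (nat_lit 0) (nat_lit 0) (nat_lit 0) (nat_lit 0) (nat_lit 0) (nat_lit 0) (nat_lit 1) (nat_lit 0) (nat_lit 1) (nat_lit 0) (nat_lit 385) (nat_lit 399) (nat_lit 236)))) (XT.nd (nat_lit 156) (nat_lit 0) (nat_lit 0) (XT.nd (nat_lit 78) (nat_lit 0) (nat_lit 0) (XT.lf (nat_lit 0) (nat_lit 100670650939)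 (nat_lit 0) (nat_lit 0) (nat_lit 0) (nat_lit 0) (nat_lit 0) (nat_lit 0) (nat_lit 1) (nat_lit 0) (nat_lit 1) (nat_lit 0) (nat_lit 386) (nat_lit 399) (nat_lit 235)) (XT.lf (nat_lit 0) (nat_lit 100670626331) (nat_lit 0) (nat_lit 0) (nat_lit 0) (nat_lit 0) (nat_lit 0) (nat_lit 0) (nat_lit 1) (nat_lit 0) (nat_lit 1) (nat_lit 0) (nat_lit 387) (nat_lit 399) (nat_lit 234))) (XT.nd (nat_lit 78) (nat_lit 0) (nat_lit 0) (XT.lf (nat_lit 0) (nat_lit 100670603546) (nat_lit 0) (nat_lit 0) (nat_lit 0) (nat_lit 0) (nat_lit 0) (nat_lit 0) (nat_lit 1) (nat_lit 0) (nat_lit 1) (nat_lit 0) (nat_lit 388) (nat_lit 399) (nat_lit 233)) (XT.lf (nat_lit 0) (nat_lit 100670582449) (nat_lit 0) (nat_lit 0) (nat_lit 0) (nat_lit 0) (nat_lit 0) (nat_lit 0) (nat_lit 1) (nat_lit 0) (nat_lit 1) (nat_lit 0) (nat_lit 389) (nat_lit 399) (nat_lit 232))))) (XT.nd (nat_lit 234) (nat_lit 0) (nat_lit 0) (XT.nd (nat_lit 78) (nat_lit 0) (nat_lit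 0) (XT.lf (nat_lit 0) (nat_lit 100670562915) (nat_lit 0) (nat_lit 0) (nat_lit 0) (nat_lit 0) (nat_lit 0) (nat_lit 0) (nat_lit 1) (nat_lit 0) (nat_lit 1) (nat_lit 0) (nat_lit 390) (nat_lit 399) (nat_lit 231)) (XT.nd (nat_lit 78) (nat_lit 0) (nat_lit 0) (XT.lf (nat_lit 0) (nat_lit 100670544827) (nat_lit 0) (nat_lit 0) (nat_lit 0) (nat_lit 0) (nat_lit 0) (nat_lit 0) (nat_lit 1) (nat_lit 0) (nat_lit 1) (nat_lit 0) (nat_lit 391) (nat_lit 399) (nat_lit 230)) (XT.lf (nat_lit 0) (nat_lit 100670528080) (nat_lit 0) (nat_lit 0) (nat_lit 0) (nat_lit 0) (nat_lit 0) (nat_lit 0) (nat_lit 1) (nat_lit 0) (nat_lit 1) (nat_lit 0) (nat_lit 392) (nat_lit 399) (nat_lit 229)))) (XT.nd (nat_lit 156) (nat_lit 0) (nat_lit 0) (XT.nd (nat_lit 78) (nat_lit 0) (nat_lit 0) (XT.lf (nat_lit 0) (nat_lit 100670512573) (nat_lit 0) (nat_lit 0) (nat_lit 0) (nat_lit 0) (nat_lit 0) (nat_lit 0) (nat_lit 1) (nat_lit 0) (nat_lit 1) (nat_lit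 0) (nat_lit 393) (nat_lit 399) (nat_lit 228)) (XT.lf (nat_lit 0) (nat_lit 100670498214) (nat_lit 0) (nat_lit 0) (nat_lit 0) (nat_lit 0) (nat_lit 0) (nat_lit 0) (nat_lit 1) (nat_lit 0) (nat_lit 1) (nat_lit 0) (nat_lit 394) (nat_lit 399) (nat_lit 227))) (XT.nd (nat_lit 78) (nat_lit 0) (nat_lit 0) (XT.lf (nat_lit 0) (nat_lit 100670484920) (nat_lit 0) (nat_lit 0) (nat_lit 0) (nat_lit 0) (nat_lit 0) (nat_lit 0) (nat_lit 1) (nat_lit 0) (nat_lit 1) (nat_lit 0) (nat_lit 395) (nat_lit 399) (nat_lit 226)) (XT.lf (nat_lit 0) (nat_lit 100670472610) (nat_lit 0) (nat_lit 0) (nat_lit 0) (nat_lit 0) (nat_lit 0) (nat_lit 0) (nat_lit 1) (nat_lit 0) (nat_lit 1) (nat_lit 0) (nat_lit 396) (nat_lit 399) (nat_lit 225))))))) (XT.nd (nat_lit 1014) (nat_lit 0) (nat_lit 0) (XT.nd (nat_lit 468) (nat_lit 0) (nat_lit 0) (XT.nd (nat_lit 234) (nat_lit 0) (nat_lit 0) (XT.nd (nat_lit 78) (nat_lit 0) (nat_lit 0) (XT.lf (nat_lit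 0) (nat_lit 100670461211) (nat_lit 0) (nat_lit 0) (nat_lit 0) (nat_lit 0) (nat_lit 0) (nat_lit 0) (nat_lit 1) (nat_lit 0) (nat_lit 1) (nat_lit 0) (nat_lit 397) (nat_lit 399) (nat_lit 224)) (XT.nd (nat_lit 78) (nat_lit 0) (nat_lit 0) (XT.lf (nat_lit 0) (nat_lit 100670450658) (nat_lit 0) (nat_lit 0) (nat_lit 0) (nat_lit 0) (nat_lit 0) (nat_lit 0) (nat_lit 1) (nat_lit 0) (nat_lit 1) (nat_lit 0) (nat_lit 398) (nat_lit 399) (nat_lit 223)) (XT.lf (nat_lit 0) (nat_lit 100670440885) (nat_lit 0) (nat_lit 0) (nat_lit 0) (nat_lit 0) (nat_lit 0) (nat_lit 0) (nat_lit 1) (nat_lit 0) (nat_lit 1) (nat_lit 0) (nat_lit 399) (nat_lit 399) (nat_lit 222)))) (XT.nd (nat_lit 78) (nat_lit 0) (nat_lit 0) (XT.lf (nat_lit 0) (nat_lit 100670431837) (nat_lit 0) (nat_lit 0) (nat_lit 0) (nat_lit 0) (nat_lit 0) (nat_lit 0) (nat_lit 1) (nat_lit 0) (nat_lit 1) (nat_lit 0) (nat_lit 400) (nat_lit 399) (nat_lit 221)) (XT.nd (nat_lit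 78) (nat_lit 0) (nat_lit 0) (XT.lf (nat_lit 0) (nat_lit 100670423459) (nat_lit 0) (nat_lit 0) (nat_lit 0) (nat_lit 0) (nat_lit 0) (nat_lit 0) (nat_lit 1) (nat_lit 0) (nat_lit 1) (nat_lit 0) (nat_lit 401) (nat_lit 399) (nat_lit 220)) (XT.lf (nat_lit 0) (nat_lit 100670415702) (nat_lit 0) (nat_lit 0) (nat_lit 0) (nat_lit 0) (nat_lit 0) (nat_lit 0) (nat_lit 1) (nat_lit 0) (nat_lit 1) (nat_lit 0) (nat_lit 402) (nat_lit 399) (nat_lit 219))))) (XT.nd (nat_lit 234) (nat_lit 0) (nat_lit 0) (XT.nd (nat_lit 78) (nat_lit 0) (nat_lit 0) (XT.lf (nat_lit 0) (nat_lit 100670408519) (nat_lit 0) (nat_lit 0) (nat_lit 0) (nat_lit 0) (nat_lit 0) (nat_lit 0) (nat_lit 1) (nat_lit 0) (nat_lit 1) (nat_lit 0) (nat_lit 403) (nat_lit 399) (nat_lit 218)) (XT.nd (nat_lit 78) (nat_lit 0) (nat_lit 0) (XT.lf (nat_lit 0) (nat_lit 100670401868) (nat_lit 0) (nat_lit 0) (nat_lit 0) (nat_lit 0) (nat_lit 0) (nat_lit 0) (nat_lit 1)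 (nat_lit 0) (nat_lit 1) (nat_lit 0) (nat_lit 404) (nat_lit 399) (nat_lit 217)) (XT.lf (nat_lit 0) (nat_lit 100670395710) (nat_lit 0) (nat_lit 0) (nat_lit 0) (nat_lit 0) (nat_lit 0) (nat_lit 0) (nat_lit 1) (nat_lit 0) (nat_lit 1) (nat_lit 0) (nat_lit 405) (nat_lit 399) (nat_lit 216)))) (XT.nd (nat_lit 156) (nat_lit 0) (nat_lit 0) (XT.nd (nat_lit 78) (nat_lit 0) (nat_lit 0) (XT.lf (nat_lit 0) (nat_lit 100670390008) (nat_lit 0) (nat_lit 0) (nat_lit 0) (nat_lit 0) (nat_lit 0) (nat_lit 0) (nat_lit 1) (nat_lit 0) (nat_lit 1) (nat_lit 0) (nat_lit 406) (nat_lit 399) (nat_lit 215)) (XT.lf (nat_lit 0) (nat_lit 100670384729) (nat_lit 0) (nat_lit 0) (nat_lit 0) (nat_lit 0) (nat_lit 0) (nat_lit 0) (nat_lit 1) (nat_lit 0) (nat_lit 1) (nat_lit 0) (nat_lit 407) (nat_lit 399) (nat_lit 214))) (XT.nd (nat_lit 78) (nat_lit 0) (nat_lit 0) (XT.lf (nat_lit 0) (nat_lit 100670379840) (nat_lit 0) (nat_lit 0) (nat_lit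 0) (nat_lit 0) (nat_lit 0) (nat_lit 0) (nat_lit 1) (nat_lit 0) (nat_lit 1) (nat_lit 0) (nat_lit 408) (nat_lit 399) (nat_lit 213)) (XT.lf (nat_lit 0) (nat_lit 100670375314) (nat_lit 0) (nat_lit 0) (nat_lit 0) (nat_lit 0) (nat_lit 0) (nat_lit 0) (nat_lit 1) (nat_lit 0) (nat_lit 1) (nat_lit 0) (nat_lit 409) (nat_lit 399) (nat_lit 212)))))) (XT.nd (nat_lit 38298) (nat_lit 0) (nat_lit 22192) (XT.nd (nat_lit 234) (nat_lit 0) (nat_lit 0) (XT.nd (nat_lit 78) (nat_lit 0) (nat_lit 0) (XT.lf (nat_lit 0) (nat_lit 100670371123) (nat_lit 0) (nat_lit 0) (nat_lit 0) (nat_lit 0) (nat_lit 0) (nat_lit 0) (nat_lit 1) (nat_lit 0) (nat_lit 1) (nat_lit 0) (nat_lit 410) (nat_lit 399) (nat_lit 211)) (XT.nd (nat_lit 78) (nat_lit 0) (nat_lit 0) (XT.lf (nat_lit 0) (nat_lit 100670367242) (nat_lit 0) (nat_lit 0) (nat_lit 0) (nat_lit 0) (nat_lit 0) (nat_lit 0) (nat_lit 1) (nat_lit 0) (nat_lit 1) (nat_lit 0) (nat_lit 411) (nat_lit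 399) (nat_lit 210)) (XT.lf (nat_lit 0) (nat_lit 100670363649) (nat_lit 0) (nat_lit 0) (nat_lit 0) (nat_lit 0) (nat_lit 0) (nat_lit 0) (nat_lit 1) (nat_lit 0) (nat_lit 1) (nat_lit 0) (nat_lit 412) (nat_lit 399) (nat_lit 209)))) (XT.nd (nat_lit 156) (nat_lit 0) (nat_lit 0) (XT.nd (nat_lit 78) (nat_lit 0) (nat_lit 0) (XT.lf (nat_lit 0) (nat_lit 100670360322) (nat_lit 0) (nat_lit 0) (nat_lit 0) (nat_lit 0) (nat_lit 0) (nat_lit 0) (nat_lit 1) (nat_lit 0) (nat_lit 1) (nat_lit 0) (nat_lit 413) (nat_lit 399) (nat_lit 208)) (XT.lf (nat_lit 0) (nat_lit 100670357242) (nat_lit 0) (nat_lit 0) (nat_lit 0) (nat_lit 0) (nat_lit 0) (nat_lit 0) (nat_lit 1) (nat_lit 0) (nat_lit 1) (nat_lit 0) (nat_lit 414) (nat_lit 399) (nat_lit 207))) (XT.nd (nat_lit 78) (nat_lit 0) (nat_lit 0) (XT.lf (nat_lit 0) (nat_lit 100670354389) (nat_lit 0) (nat_lit 0) (nat_lit 0) (nat_lit 0) (nat_lit 0) (nat_lit 0) (nat_lit 1) (nat_lit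 0) (nat_lit 1) (nat_lit 0) (nat_lit 415) (nat_lit 399) (nat_lit 206)) (XT.lf (nat_lit 0) (nat_lit 100670351748) (nat_lit 0) (nat_lit 0) (nat_lit 0) (nat_lit 0) (nat_lit 0) (nat_lit 0) (nat_lit 1) (nat_lit 0) (nat_lit 1) (nat_lit 0) (nat_lit 416) (nat_lit 399) (nat_lit 205))))) (XT.nd (nat_lit 234) (nat_lit 0) (nat_lit 152) (XT.nd (nat_lit 78) (nat_lit 0) (nat_lit 76) (XT.lf (nat_lit 836) (nat_lit 54409534232) (nat_lit 0) (nat_lit 96604002964) (nat_lit 836) (nat_lit 54409534232) (nat_lit 303) (nat_lit 1) (nat_lit 292) (nat_lit 0) (nat_lit 303) (nat_lit 0) (nat_lit 220) (nat_lit 400) (nat_lit 400)) (XT.nd (nat_lit 78) (nat_lit 0) (nat_lit 0) (XT.lf (nat_lit 836) (nat_lit 20296425778) (nat_lit 0) (nat_lit 189662936200) (nat_lit 760) (nat_lit 185489717954) (nat_lit 304) (nat_lit 1) (nat_lit 293) (nat_lit 1) (nat_lit 303) (nat_lit 1) (nat_lit 221) (nat_lit 400) (nat_lit 399)) (XT.lf (nat_lit 836)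 (nat_lit 186410955508) (nat_lit 76) (nat_lit 127017332304) (nat_lit 0) (nat_lit 67364199019) (nat_lit 304) (nat_lit 1) (nat_lit 294) (nat_lit 1) (nat_lit 293) (nat_lit 1) (nat_lit 222) (nat_lit 400) (nat_lit 398)))) (XT.nd (nat_lit 156) (nat_lit 0) (nat_lit 152) (XT.nd (nat_lit 78) (nat_lit 0) (nat_lit 76) (XT.lf (nat_lit 836) (nat_lit 161074336564) (nat_lit 76) (nat_lit 53232083568) (nat_lit 0) (nat_lit 152562926692) (nat_lit 305) (nat_lit 1) (nat_lit 295) (nat_lit 1) (nat_lit 294) (nat_lit 1) (nat_lit 223) (nat_lit 400) (nat_lit 397)) (XT.lf (nat_lit 836) (nat_lit 119208703122) (nat_lit 0) (nat_lit 223033848790) (nat_lit 760) (nat_lit 11401458485) (nat_lit 306) (nat_lit 1) (nat_lit 295) (nat_lit 1) (nat_lit 305) (nat_lit 1) (nat_lit 224) (nat_lit 400) (nat_lit 396))) (XT.nd (nat_lit 78) (nat_lit 0) (nat_lit 0) (XT.lf (nat_lit 836) (nat_lit 28602959505) (nat_lit 0) (nat_lit 245956779497) (nat_lit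 760) (nat_lit 66490537359) (nat_lit 307) (nat_lit 1) (nat_lit 296) (nat_lit 1) (nat_lit 306) (nat_lit 1) (nat_lit 225) (nat_lit 400) (nat_lit 395)) (XT.lf (nat_lit 836) (nat_lit 54963254360) (nat_lit 76) (nat_lit 213756470503) (nat_lit 0) (nat_lit 60324713229) (nat_lit 307) (nat_lit 1) (nat_lit 297) (nat_lit 1) (nat_lit 296) (nat_lit 1) (nat_lit 226) (nat_lit 400) (nat_lit 394))))))))
noncomputable def ec180 : XT := (XT.nd (nat_lit 2028) (nat_lit 3496) (nat_lit 0) (XT.nd (nat_lit 1014) (nat_lit 2432) (nat_lit 0) (XT.nd (nat_lit 468) (nat_lit 2052) (nat_lit 0) (XT.nd (nat_lit 234) (nat_lit 684) (nat_lit 0) (XT.nd (nat_lit 78) (nat_lit 912) (nat_lit 0) (XT.lf (nat_lit 836) (nat_lit 11288199115) (nat_lit 0) (nat_lit 159797101148) (nat_lit 760) (nat_lit 146532267424) (nat_lit 298) (nat_lit 1) (nat_lit 287) (nat_lit 1) (nat_lit 297) (nat_lit 1) (nat_lit 227) (nat_lit 400) (nat_lit 393)) (XT.nd (nat_lit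 78) (nat_lit 380) (nat_lit 0) (XT.lf (nat_lit 76) (nat_lit 78161842099) (nat_lit 0) (nat_lit 33871163539) (nat_lit 532) (nat_lit 194698742924) (nat_lit 281) (nat_lit 1) (nat_lit 280) (nat_lit 1) (nat_lit 287) (nat_lit 1) (nat_lit 228) (nat_lit 400) (nat_lit 392)) (XT.lf (nat_lit 456) (nat_lit 215404198844) (nat_lit 0) (nat_lit 70118710463) (nat_lit 380) (nat_lit 10840785894) (nat_lit 281) (nat_lit 1) (nat_lit 275) (nat_lit 1) (nat_lit 280) (nat_lit 1) (nat_lit 229) (nat_lit 400) (nat_lit 391)))) (XT.nd (nat_lit 78) (nat_lit 304) (nat_lit 0) (XT.lf (nat_lit 456) (nat_lit 155437721120) (nat_lit 0) (nat_lit 32682632993) (nat_lit 380) (nat_lit 98321095483) (nat_lit 276) (nat_lit 1) (nat_lit 270) (nat_lit 1) (nat_lit 275) (nat_lit 1) (nat_lit 230) (nat_lit 400) (nat_lit 390)) (XT.nd (nat_lit 78) (nat_lit 0) (nat_lit 0) (XT.lf (nat_lit 380) (nat_lit 94581870858) (nat_lit 0) (nat_lit 601740385) (nat_lit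 304) (nat_lit 181816700862) (nat_lit 271) (nat_lit 1) (nat_lit 266) (nat_lit 1) (nat_lit 270) (nat_lit 1) (nat_lit 231) (nat_lit 400) (nat_lit 389)) (XT.lf (nat_lit 76) (nat_lit 6977803439) (nat_lit 0) (nat_lit 235325343499) (nat_lit 380) (nat_lit 25690336860) (nat_lit 267) (nat_lit 1) (nat_lit 266) (nat_lit 1) (nat_lit 271) (nat_lit 1) (nat_lit 232) (nat_lit 400) (nat_lit 388))))) (XT.nd (nat_lit 234) (nat_lit 1064) (nat_lit 0) (XT.nd (nat_lit 78) (nat_lit 608) (nat_lit 0) (XT.lf (nat_lit 76) (nat_lit 180168694632) (nat_lit 0) (nat_lit 29882905798) (nat_lit 380) (nat_lit 49282338808) (nat_lit 262) (nat_lit 1) (nat_lit 261) (nat_lit 1) (nat_lit 266) (nat_lit 1) (nat_lit 233) (nat_lit 400) (nat_lit 387)) (XT.nd (nat_lit 78) (nat_lit 304) (nat_lit 0) (XT.lf (nat_lit 76) (nat_lit 90142963516) (nat_lit 0) (nat_lit 91536645160) (nat_lit 380) (nat_lit 69377408834) (nat_lit 258) (nat_lit 1) (nat_lit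 257) (nat_lit 1) (nat_lit 262) (nat_lit 1) (nat_lit 234) (nat_lit 400) (nat_lit 386)) (XT.lf (nat_lit 76) (nat_lit 4449256790) (nat_lit 0) (nat_lit 153047849346) (nat_lit 380) (nat_lit 85674874534) (nat_lit 254) (nat_lit 1) (nat_lit 253) (nat_lit 1) (nat_lit 258) (nat_lit 1) (nat_lit 235) (nat_lit 400) (nat_lit 385)))) (XT.nd (nat_lit 156) (nat_lit 456) (nat_lit 0) (XT.nd (nat_lit 78) (nat_lit 380) (nat_lit 0) (XT.lf (nat_lit 304) (nat_lit 20092592907) (nat_lit 0) (nat_lit 135876588125) (nat_lit 228) (nat_lit 79626803426) (nat_lit 254) (nat_lit 1) (nat_lit 250) (nat_lit 1) (nat_lit 253) (nat_lit 1) (nat_lit 236) (nat_lit 400) (nat_lit 384)) (XT.lf (nat_lit 76) (nat_lit 69425310584) (nat_lit 0) (nat_lit 47584539264) (nat_lit 380) (nat_lit 111323116536) (nat_lit 246) (nat_lit 1) (nat_lit 245) (nat_lit 1) (nat_lit 250) (nat_lit 1) (nat_lit 237) (nat_lit 400) (nat_lit 383))) (XT.nd (nat_lit 78) (nat_lit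 228) (nat_lit 0) (XT.lf (nat_lit 304) (nat_lit 107487079738) (nat_lit 0) (nat_lit 100970219035) (nat_lit 228) (nat_lit 12924068202) (nat_lit 246) (nat_lit 1) (nat_lit 242) (nat_lit 1) (nat_lit 245) (nat_lit 1) (nat_lit 238) (nat_lit 400) (nat_lit 382)) (XT.lf (nat_lit 304) (nat_lit 34449089779) (nat_lit 0) (nat_lit 86931223899) (nat_lit 228) (nat_lit 93316605794) (nat_lit 243) (nat_lit 1) (nat_lit 239) (nat_lit 1) (nat_lit 242) (nat_lit 1) (nat_lit 239) (nat_lit 400) (nat_lit 381)))))) (XT.nd (nat_lit 468) (nat_lit 1064) (nat_lit 0) (XT.nd (nat_lit 234) (nat_lit 684) (nat_lit 0) (XT.nd (nat_lit 78) (nat_lit 380) (nat_lit 0) (XT.lf (nat_lit 76) (nat_lit 39263638338) (nat_lit 0) (nat_lit 35949272984) (nat_lit 304) (nat_lit 133077178337) (nat_lit 236) (nat_lit 1) (nat_lit 235) (nat_lit 1) (nat_lit 239) (nat_lit 1) (nat_lit 240) (nat_lit 400) (nat_lit 380)) (XT.nd (nat_lit 78) (nat_lit 152) (nat_lit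 0) (XT.lf (nat_lit 304) (nat_lit 97702410665) (nat_lit 0) (nat_lit 65007563485) (nat_lit 228) (nat_lit 39407798719) (nat_lit 236) (nat_lit 1) (nat_lit 232) (nat_lit 1) (nat_lit 235) (nat_lit 1) (nat_lit 241) (nat_lit 400) (nat_lit 379)) (XT.lf (nat_lit 228) (nat_lit 24220571868) (nat_lit 0) (nat_lit 56714357476) (nat_lit 152) (nat_lit 115259535214) (nat_lit 233) (nat_lit 1) (nat_lit 230) (nat_lit 1) (nat_lit 232) (nat_lit 1) (nat_lit 242) (nat_lit 400) (nat_lit 378)))) (XT.nd (nat_lit 78) (nat_lit 380) (nat_lit 0) (XT.lf (nat_lit 76) (nat_lit 4103119614) (nat_lit 0) (nat_lit 45914799226) (nat_lit 304) (nat_lit 140482840442) (nat_lit 227) (nat_lit 1) (nat_lit 226) (nat_lit 1) (nat_lit 230) (nat_lit 1) (nat_lit 243) (nat_lit 400) (nat_lit 377)) (XT.nd (nat_lit 78) (nat_lit 228) (nat_lit 0) (XT.lf (nat_lit 228) (nat_lit 70380537687) (nat_lit 0) (nat_lit 43981798119) (nat_lit 152) (nat_lit 70625462666)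 (nat_lit 227) (nat_lit 1) (nat_lit 224) (nat_lit 1) (nat_lit 226) (nat_lit 1) (nat_lit 244) (nat_lit 400) (nat_lit 376)) (XT.lf (nat_lit 76) (nat_lit 38185538528) (nat_lit 0) (nat_lit 1763813964) (nat_lit 228) (nat_lit 139766051784) (nat_lit 222) (nat_lit 1) (nat_lit 221) (nat_lit 1) (nat_lit 224) (nat_lit 1) (nat_lit 245) (nat_lit 400) (nat_lit 375))))) (XT.nd (nat_lit 234) (nat_lit 532) (nat_lit 0) (XT.nd (nat_lit 78) (nat_lit 380) (nat_lit 0) (XT.lf (nat_lit 228) (nat_lit 104391888533) (nat_lit 0) (nat_lit 36174130039) (nat_lit 152) (nat_lit 34030361702) (nat_lit 222) (nat_lit 1) (nat_lit 219) (nat_lit 1) (nat_lit 221) (nat_lit 1) (nat_lit 246) (nat_lit 400) (nat_lit 374)) (XT.nd (nat_lit 78) (nat_lit 228) (nat_lit 0) (XT.lf (nat_lit 228) (nat_lit 32428303853) (nat_lit 0) (nat_lit 33627854067) (nat_lit 152) (nat_lit 103616921043) (nat_lit 220) (nat_lit 1) (nat_lit 217) (nat_lit 1) (nat_lit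 219) (nat_lit 1) (nat_lit 247) (nat_lit 400) (nat_lit 373)) (XT.lf (nat_lit 228) (nat_lit 128728448561) (nat_lit 0) (nat_lit 32128685154) (nat_lit 152) (nat_lit 4075896458) (nat_lit 217) (nat_lit 1) (nat_lit 214) (nat_lit 1) (nat_lit 216) (nat_lit 1) (nat_lit 248) (nat_lit 400) (nat_lit 372)))) (XT.nd (nat_lit 156) (nat_lit 228) (nat_lit 0) (XT.nd (nat_lit 78) (nat_lit 152) (nat_lit 0) (XT.lf (nat_lit 228) (nat_lit 57612887517) (nat_lit 0) (nat_lit 30672062241) (nat_lit 152) (nat_lit 72039742620) (nat_lit 215) (nat_lit 1) (nat_lit 212) (nat_lit 1) (nat_lit 214) (nat_lit 1) (nat_lit 249) (nat_lit 400) (nat_lit 371)) (XT.lf (nat_lit 76) (nat_lit 19734638346) (nat_lit 0) (nat_lit 10847046504) (nat_lit 152) (nat_lit 125325811677) (nat_lit 211) (nat_lit 1) (nat_lit 210) (nat_lit 1) (nat_lit 212) (nat_lit 1) (nat_lit 250) (nat_lit 400) (nat_lit 370))) (XT.nd (nat_lit 78) (nat_lit 76) (nat_lit 0) (XT.lf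 (nat_lit 228) (nat_lit 75591421780) (nat_lit 0) (nat_lit 30257858848) (nat_lit 152) (nat_lit 45752483784) (nat_lit 211) (nat_lit 1) (nat_lit 208) (nat_lit 1) (nat_lit 210) (nat_lit 1) (nat_lit 251) (nat_lit 400) (nat_lit 369)) (XT.lf (nat_lit 152) (nat_lit 8140121985) (nat_lit 0) (nat_lit 31001030963) (nat_lit 76) (nat_lit 108324864113) (nat_lit 209) (nat_lit 1) (nat_lit 207) (nat_lit 1) (nat_lit 208) (nat_lit 1) (nat_lit 252) (nat_lit 400) (nat_lit 368))))))) (XT.nd (nat_lit 1014) (nat_lit 1672) (nat_lit 0) (XT.nd (nat_lit 468) (nat_lit 912) (nat_lit 0) (XT.nd (nat_lit 234) (nat_lit 380) (nat_lit 0) (XT.nd (nat_lit 78) (nat_lit 304) (nat_lit 0) (XT.lf (nat_lit 228) (nat_lit 87869611534) (nat_lit 0) (nat_lit 31705781944) (nat_lit 152) (nat_lit 23868911557) (nat_lit 207) (nat_lit 1) (nat_lit 204) (nat_lit 1) (nat_lit 206) (nat_lit 1) (nat_lit 253) (nat_lit 400) (nat_lit 367)) (XT.nd (nat_lit 78)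 (nat_lit 228) (nat_lit 0) (XT.lf (nat_lit 152) (nat_lit 22099855249) (nat_lit 0) (nat_lit 32891293080) (nat_lit 76) (nat_lit 84566984453) (nat_lit 205) (nat_lit 1) (nat_lit 203) (nat_lit 1) (nat_lit 204) (nat_lit 1) (nat_lit 254) (nat_lit 400) (nat_lit 366)) (XT.lf (nat_lit 228) (nat_lit 95664838418) (nat_lit 0) (nat_lit 34477649876) (nat_lit 152) (nat_lit 5658077489) (nat_lit 203) (nat_lit 1) (nat_lit 200) (nat_lit 1) (nat_lit 202) (nat_lit 1) (nat_lit 255) (nat_lit 400) (nat_lit 365)))) (XT.nd (nat_lit 78) (nat_lit 304) (nat_lit 0) (XT.lf (nat_lit 152) (nat_lit 31804723627) (nat_lit 0) (nat_lit 35943364287) (nat_lit 76) (nat_lit 64395641213) (nat_lit 201) (nat_lit 1) (nat_lit 199) (nat_lit 1) (nat_lit 200) (nat_lit 1) (nat_lit 256) (nat_lit 400) (nat_lit 364)) (XT.nd (nat_lit 78) (nat_lit 76) (nat_lit 0) (XT.lf (nat_lit 76) (nat_lit 9180108949) (nat_lit 0) (nat_lit 28813914932) (nat_lit 228)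 (nat_lit 90624240692) (nat_lit 197) (nat_lit 1) (nat_lit 196) (nat_lit 1) (nat_lit 199) (nat_lit 1) (nat_lit 257) (nat_lit 400) (nat_lit 363)) (XT.lf (nat_lit 152) (nat_lit 38168537862) (nat_lit 0) (nat_lit 39769807304) (nat_lit 76) (nat_lit 47242007597) (nat_lit 197) (nat_lit 1) (nat_lit 195) (nat_lit 1) (nat_lit 196) (nat_lit 1) (nat_lit 258) (nat_lit 400) (nat_lit 362))))) (XT.nd (nat_lit 234) (nat_lit 456) (nat_lit 0) (XT.nd (nat_lit 78) (nat_lit 228) (nat_lit 0) (XT.lf (nat_lit 76) (nat_lit 21349515200) (nat_lit 0) (nat_lit 20678449122) (nat_lit 228) (nat_lit 79835293271) (nat_lit 193) (nat_lit 1) (nat_lit 192) (nat_lit 1) (nat_lit 195) (nat_lit 1) (nat_lit 259) (nat_lit 400) (nat_lit 361)) (XT.nd (nat_lit 78) (nat_lit 152) (nat_lit 0) (XT.lf (nat_lit 152) (nat_lit 41928224484) (nat_lit 0) (nat_lit 44068183602) (nat_lit 76) (nat_lit 32634504863) (nat_lit 193) (nat_lit 1) (nat_lit 191) (nat_lit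 1) (nat_lit 192) (nat_lit 1) (nat_lit 260) (nat_lit 400) (nat_lit 360)) (XT.lf (nat_lit 76) (nat_lit 31431423239) (nat_lit 0) (nat_lit 14976510775) (nat_lit 152) (nat_lit 69097383732) (nat_lit 190) (nat_lit 1) (nat_lit 189) (nat_lit 1) (nat_lit 191) (nat_lit 1) (nat_lit 261) (nat_lit 400) (nat_lit 359)))) (XT.nd (nat_lit 156) (nat_lit 228) (nat_lit 0) (XT.nd (nat_lit 78) (nat_lit 152) (nat_lit 0) (XT.lf (nat_lit 152) (nat_lit 43676877847) (nat_lit 0) (nat_lit 48604487520) (nat_lit 76) (nat_lit 20181455272) (nat_lit 190) (nat_lit 1) (nat_lit 188) (nat_lit 1) (nat_lit 189) (nat_lit 1) (nat_lit 262) (nat_lit 400) (nat_lit 358)) (XT.lf (nat_lit 76) (nat_lit 39757827957) (nat_lit 0) (nat_lit 11172672321) (nat_lit 152) (nat_lit 58583407284) (nat_lit 187) (nat_lit 1) (nat_lit 186) (nat_lit 1) (nat_lit 188) (nat_lit 1) (nat_lit 263) (nat_lit 400) (nat_lit 357))) (XT.nd (nat_lit 78) (nat_lit 152) (nat_lit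 0) (XT.lf (nat_lit 152) (nat_lit 43890710534) (nat_lit 0) (nat_lit 53199683023) (nat_lit 76) (nat_lit 9556885724) (nat_lit 187) (nat_lit 1) (nat_lit 185) (nat_lit 1) (nat_lit 186) (nat_lit 1) (nat_lit 264) (nat_lit 400) (nat_lit 356)) (XT.lf (nat_lit 76) (nat_lit 46604654158) (nat_lit 0) (nat_lit 8836400217) (nat_lit 152) (nat_lit 48420902403) (nat_lit 184) (nat_lit 1) (nat_lit 183) (nat_lit 1) (nat_lit 185) (nat_lit 1) (nat_lit 265) (nat_lit 400) (nat_lit 355)))))) (XT.nd (nat_lit 546) (nat_lit 912) (nat_lit 0) (XT.nd (nat_lit 234) (nat_lit 456) (nat_lit 0) (XT.nd (nat_lit 78) (nat_lit 228) (nat_lit 0) (XT.lf (nat_lit 152) (nat_lit 42951023949) (nat_lit 0) (nat_lit 57718769883) (nat_lit 76) (nat_lit 488905962) (nat_lit 184) (nat_lit 1) (nat_lit 182) (nat_lit 1) (nat_lit 183) (nat_lit 1) (nat_lit 266) (nat_lit 400) (nat_lit 354)) (XT.nd (nat_lit 78) (nat_lit 76) (nat_lit 0) (XT.lf (nat_lit 76)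 (nat_lit 52201681505) (nat_lit 0) (nat_lit 7622359219) (nat_lit 152) (nat_lit 38701293758) (nat_lit 181) (nat_lit 1) (nat_lit 180) (nat_lit 1) (nat_lit 182) (nat_lit 1) (nat_lit 267) (nat_lit 400) (nat_lit 353)) (XT.lf (nat_lit 0) (nat_lit 7017769978) (nat_lit 0) (nat_lit 54925292164) (nat_lit 152) (nat_lit 34025495605) (nat_lit 179) (nat_lit 3) (nat_lit 179) (nat_lit 1) (nat_lit 181) (nat_lit 1) (nat_lit 268) (nat_lit 400) (nat_lit 352)))) (XT.nd (nat_lit 156) (nat_lit 228) (nat_lit 0) (XT.nd (nat_lit 78) (nat_lit 76) (nat_lit 0) (XT.lf (nat_lit 76) (nat_lit 56740672921) (nat_lit 0) (nat_lit 7254359200) (nat_lit 152) (nat_lit 29487380478) (nat_lit 178) (nat_lit 1) (nat_lit 177) (nat_lit 1) (nat_lit 179) (nat_lit 1) (nat_lit 269) (nat_lit 400) (nat_lit 351)) (XT.lf (nat_lit 0) (nat_lit 13406536911) (nat_lit 0) (nat_lit 52523659344) (nat_lit 152) (nat_lit 25132282847) (nat_lit 176) (nat_lit 3)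 (nat_lit 176) (nat_lit 1) (nat_lit 178) (nat_lit 1) (nat_lit 270) (nat_lit 400) (nat_lit 350))) (XT.nd (nat_lit 78) (nat_lit 76) (nat_lit 0) (XT.lf (nat_lit 76) (nat_lit 60382034519) (nat_lit 0) (nat_lit 7512274385) (nat_lit 152) (nat_lit 20819395318) (nat_lit 175) (nat_lit 1) (nat_lit 174) (nat_lit 1) (nat_lit 176) (nat_lit 1) (nat_lit 271) (nat_lit 400) (nat_lit 349)) (XT.lf (nat_lit 0) (nat_lit 18848098897) (nat_lit 0) (nat_lit 50787744231) (nat_lit 152) (nat_lit 16786329020) (nat_lit 173) (nat_lit 3) (nat_lit 173) (nat_lit 1) (nat_lit 175) (nat_lit 1) (nat_lit 272) (nat_lit 400) (nat_lit 348))))) (XT.nd (nat_lit 234) (nat_lit 532) (nat_lit 0) (XT.nd (nat_lit 78) (nat_lit 228) (nat_lit 0) (XT.lf (nat_lit 76) (nat_lit 63260275020) (nat_lit 0) (nat_lit 8221387958) (nat_lit 152) (nat_lit 12719900364) (nat_lit 172) (nat_lit 1) (nat_lit 171) (nat_lit 1) (nat_lit 173) (nat_lit 1) (nat_lit 273) (nat_lit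 400) (nat_lit 347)) (XT.nd (nat_lit 78) (nat_lit 152) (nat_lit 0) (XT.lf (nat_lit 0) (nat_lit 23473183840) (nat_lit 0) (nat_lit 49552324650) (nat_lit 152) (nat_lit 9005191454) (nat_lit 170) (nat_lit 3) (nat_lit 170) (nat_lit 1) (nat_lit 172) (nat_lit 1) (nat_lit 274) (nat_lit 400) (nat_lit 346)) (XT.lf (nat_lit 76) (nat_lit 65488483586) (nat_lit 0) (nat_lit 9243715458) (nat_lit 152) (nat_lit 5197735913) (nat_lit 169) (nat_lit 1) (nat_lit 168) (nat_lit 1) (nat_lit 170) (nat_lit 1) (nat_lit 275) (nat_lit 400) (nat_lit 345)))) (XT.nd (nat_lit 156) (nat_lit 228) (nat_lit 0) (XT.nd (nat_lit 78) (nat_lit 228) (nat_lit 0) (XT.lf (nat_lit 0) (nat_lit 27392356366) (nat_lit 0) (nat_lit 48686318096) (nat_lit 152) (nat_lit 1793954516) (nat_lit 167) (nat_lit 3) (nat_lit 167) (nat_lit 1) (nat_lit 169) (nat_lit 1) (nat_lit 276) (nat_lit 400) (nat_lit 344)) (XT.lf (nat_lit 152) (nat_lit 65383587353) (nat_lit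 0) (nat_lit 1806623967) (nat_lit 76) (nat_lit 8692524910) (nat_lit 166) (nat_lit 1) (nat_lit 164) (nat_lit 1) (nat_lit 165) (nat_lit 1) (nat_lit 277) (nat_lit 400) (nat_lit 343))) (XT.nd (nat_lit 78) (nat_lit 152) (nat_lit 0) (XT.lf (nat_lit 76) (nat_lit 25765427890) (nat_lit 0) (nat_lit 5012265970) (nat_lit 76) (nat_lit 43152227918) (nat_lit 164) (nat_lit 3) (nat_lit 163) (nat_lit 1) (nat_lit 164) (nat_lit 1) (nat_lit 278) (nat_lit 400) (nat_lit 342)) (XT.lf (nat_lit 152) (nat_lit 60094379582) (nat_lit 0) (nat_lit 8398197102) (nat_lit 76) (nat_lit 3551600954) (nat_lit 163) (nat_lit 1) (nat_lit 161) (nat_lit 1) (nat_lit 162) (nat_lit 1) (nat_lit 279) (nat_lit 400) (nat_lit 341))))))))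
noncomputable def ec181 : XT := (XT.nd (nat_lit 2106) (nat_lit 3192) (nat_lit 0) (XT.nd (nat_lit 1014) (nat_lit 1748) (nat_lit 0) (XT.nd (nat_lit 468) (nat_lit 760) (nat_lit 0) (XT.nd (nat_lit 234) (nat_lit 380) (nat_lit 0) (XT.nd (nat_lit 78) (nat_lit 228) (nat_lit 0) (XT.lf (nat_lit 76) (nat_lit 22345126844) (nat_lit 0) (nat_lit 11305707315) (nat_lit 76) (nat_lit 36541677916) (nat_lit 161) (nat_lit 3) (nat_lit 160) (nat_lit 1) (nat_lit 161) (nat_lit 1) (nat_lit 280) (nat_lit 400) (nat_lit 340)) (XT.nd (nat_lit 78) (nat_lit 76) (nat_lit 0) (XT.lf (nat_lit 0) (nat_lit 943150671) (nat_lit 0) (nat_lit 13462155143) (nat_lit 152) (nat_lit 53999968828) (nat_lit 158) (nat_lit 3) (nat_lit 158) (nat_lit 1) (nat_lit 160) (nat_lit 1) (nat_lit 281) (nat_lit 400) (nat_lit 339)) (XT.lf (nat_lit 76) (nat_lit 19006803264) (nat_lit 0) (nat_lit 17044585405) (nat_lit 76) (nat_lit 30598474072) (nat_lit 158) (nat_lit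 3) (nat_lit 157) (nat_lit 1) (nat_lit 158) (nat_lit 1) (nat_lit 282) (nat_lit 400) (nat_lit 338)))) (XT.nd (nat_lit 78) (nat_lit 228) (nat_lit 0) (XT.lf (nat_lit 0) (nat_lit 4796657475) (nat_lit 0) (nat_lit 15018589404) (nat_lit 152) (nat_lit 45137712795) (nat_lit 155) (nat_lit 3) (nat_lit 155) (nat_lit 1) (nat_lit 157) (nat_lit 1) (nat_lit 283) (nat_lit 400) (nat_lit 337)) (XT.nd (nat_lit 78) (nat_lit 152) (nat_lit 0) (XT.lf (nat_lit 76) (nat_lit 15787876249) (nat_lit 0) (nat_lit 22250375667) (nat_lit 76) (nat_lit 25252628035) (nat_lit 155) (nat_lit 3) (nat_lit 154) (nat_lit 1) (nat_lit 155) (nat_lit 1) (nat_lit 284) (nat_lit 400) (nat_lit 336)) (XT.lf (nat_lit 0) (nat_lit 8181317918) (nat_lit 0) (nat_lit 16527659881) (nat_lit 152) (nat_lit 36970330160) (nat_lit 152) (nat_lit 3) (nat_lit 152) (nat_lit 1) (nat_lit 154) (nat_lit 1) (nat_lit 285) (nat_lit 400) (nat_lit 335))))) (XT.nd (nat_lit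 234) (nat_lit 456) (nat_lit 0) (XT.nd (nat_lit 78) (nat_lit 228) (nat_lit 0) (XT.lf (nat_lit 76) (nat_lit 12714950181) (nat_lit 0) (nat_lit 26947268165) (nat_lit 76) (nat_lit 20443044591) (nat_lit 152) (nat_lit 3) (nat_lit 151) (nat_lit 1) (nat_lit 152) (nat_lit 1) (nat_lit 286) (nat_lit 400) (nat_lit 334)) (XT.nd (nat_lit 78) (nat_lit 76) (nat_lit 0) (XT.lf (nat_lit 0) (nat_lit 11148260215) (nat_lit 0) (nat_lit 17963158284) (nat_lit 152) (nat_lit 29462953113) (nat_lit 149) (nat_lit 3) (nat_lit 149) (nat_lit 1) (nat_lit 151) (nat_lit 1) (nat_lit 287) (nat_lit 400) (nat_lit 333)) (XT.lf (nat_lit 76) (nat_lit 9806066594) (nat_lit 0) (nat_lit 31161197429) (nat_lit 76) (nat_lit 16116157399) (nat_lit 149) (nat_lit 3) (nat_lit 148) (nat_lit 1) (nat_lit 149) (nat_lit 1) (nat_lit 288) (nat_lit 400) (nat_lit 332)))) (XT.nd (nat_lit 156) (nat_lit 228) (nat_lit 0) (XT.nd (nat_lit 78) (nat_lit 76) (nat_lit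 0) (XT.lf (nat_lit 0) (nat_lit 13742183520) (nat_lit 0) (nat_lit 19306637492) (nat_lit 152) (nat_lit 22580055167) (nat_lit 146) (nat_lit 3) (nat_lit 146) (nat_lit 1) (nat_lit 148) (nat_lit 1) (nat_lit 289) (nat_lit 400) (nat_lit 331)) (XT.lf (nat_lit 76) (nat_lit 7072525764) (nat_lit 0) (nat_lit 34919081279) (nat_lit 76) (nat_lit 12224797960) (nat_lit 146) (nat_lit 3) (nat_lit 145) (nat_lit 1) (nat_lit 146) (nat_lit 1) (nat_lit 290) (nat_lit 400) (nat_lit 330))) (XT.nd (nat_lit 78) (nat_lit 76) (nat_lit 0) (XT.lf (nat_lit 0) (nat_lit 16002326289) (nat_lit 0) (nat_lit 20545776198) (nat_lit 152) (nat_lit 16286052966) (nat_lit 143) (nat_lit 3) (nat_lit 143) (nat_lit 1) (nat_lit 145) (nat_lit 1) (nat_lit 291) (nat_lit 400) (nat_lit 329)) (XT.lf (nat_lit 76) (nat_lit 4520358017) (nat_lit 0) (nat_lit 38248228350) (nat_lit 76) (nat_lit 8727256081) (nat_lit 143) (nat_lit 3) (nat_lit 142) (nat_lit 1)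 (nat_lit 143) (nat_lit 1) (nat_lit 292) (nat_lit 400) (nat_lit 328)))))) (XT.nd (nat_lit 546) (nat_lit 836) (nat_lit 0) (XT.nd (nat_lit 234) (nat_lit 532) (nat_lit 0) (XT.nd (nat_lit 78) (nat_lit 228) (nat_lit 0) (XT.lf (nat_lit 0) (nat_lit 17963270904) (nat_lit 0) (nat_lit 21673057556) (nat_lit 152) (nat_lit 10545766820) (nat_lit 140) (nat_lit 3) (nat_lit 140) (nat_lit 1) (nat_lit 142) (nat_lit 1) (nat_lit 293) (nat_lit 400) (nat_lit 327)) (XT.nd (nat_lit 78) (nat_lit 152) (nat_lit 0) (XT.lf (nat_lit 76) (nat_lit 2151510030) (nat_lit 0) (nat_lit 41175881545) (nat_lit 76) (nat_lit 5586497671) (nat_lit 140) (nat_lit 3) (nat_lit 139) (nat_lit 1) (nat_lit 140) (nat_lit 1) (nat_lit 294) (nat_lit 400) (nat_lit 326)) (XT.lf (nat_lit 0) (nat_lit 19655613710) (nat_lit 0) (nat_lit 22684703341) (nat_lit 152) (nat_lit 5324767812) (nat_lit 137) (nat_lit 3) (nat_lit 137) (nat_lit 1) (nat_lit 139) (nat_lit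 1) (nat_lit 295) (nat_lit 400) (nat_lit 325)))) (XT.nd (nat_lit 156) (nat_lit 304) (nat_lit 0) (XT.nd (nat_lit 78) (nat_lit 76) (nat_lit 0) (XT.lf (nat_lit 76) (nat_lit 43694219676) (nat_lit 0) (nat_lit 34074030) (nat_lit 152) (nat_lit 2734860858) (nat_lit 136) (nat_lit 1) (nat_lit 135) (nat_lit 1) (nat_lit 137) (nat_lit 1) (nat_lit 296) (nat_lit 400) (nat_lit 324)) (XT.lf (nat_lit 0) (nat_lit 21106524350) (nat_lit 0) (nat_lit 23579815903) (nat_lit 152) (nat_lit 589634051) (nat_lit 134) (nat_lit 3) (nat_lit 134) (nat_lit 1) (nat_lit 136) (nat_lit 1) (nat_lit 297) (nat_lit 400) (nat_lit 323))) (XT.nd (nat_lit 78) (nat_lit 76) (nat_lit 0) (XT.lf (nat_lit 152) (nat_lit 42127397892) (nat_lit 0) (nat_lit 1822999852) (nat_lit 76) (nat_lit 183382890) (nat_lit 133) (nat_lit 1) (nat_lit 131) (nat_lit 1) (nat_lit 132) (nat_lit 1) (nat_lit 298) (nat_lit 400) (nat_lit 322)) (XT.lf (nat_lit 76) (nat_lit 18585824855)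 (nat_lit 0) (nat_lit 3813935293) (nat_lit 76) (nat_lit 20605299961) (nat_lit 131) (nat_lit 3) (nat_lit 130) (nat_lit 1) (nat_lit 131) (nat_lit 1) (nat_lit 299) (nat_lit 400) (nat_lit 321))))) (XT.nd (nat_lit 234) (nat_lit 456) (nat_lit 0) (XT.nd (nat_lit 78) (nat_lit 228) (nat_lit 0) (XT.lf (nat_lit 0) (nat_lit 2101028033) (nat_lit 0) (nat_lit 3881870279) (nat_lit 152) (nat_lit 35935905635) (nat_lit 128) (nat_lit 3) (nat_lit 128) (nat_lit 1) (nat_lit 130) (nat_lit 1) (nat_lit 300) (nat_lit 400) (nat_lit 320)) (XT.nd (nat_lit 78) (nat_lit 152) (nat_lit 0) (XT.lf (nat_lit 76) (nat_lit 15699809097) (nat_lit 0) (nat_lit 7800303518) (nat_lit 76) (nat_lit 17348737103) (nat_lit 128) (nat_lit 3) (nat_lit 127) (nat_lit 1) (nat_lit 128) (nat_lit 1) (nat_lit 301) (nat_lit 400) (nat_lit 319)) (XT.lf (nat_lit 0) (nat_lit 4134198640) (nat_lit 0) (nat_lit 5588279773) (nat_lit 152) (nat_lit 30093531034) (nat_lit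 125) (nat_lit 3) (nat_lit 125) (nat_lit 1) (nat_lit 127) (nat_lit 1) (nat_lit 302) (nat_lit 400) (nat_lit 318)))) (XT.nd (nat_lit 156) (nat_lit 228) (nat_lit 0) (XT.nd (nat_lit 78) (nat_lit 152) (nat_lit 0) (XT.lf (nat_lit 76) (nat_lit 13037491446) (nat_lit 0) (nat_lit 11380467139) (nat_lit 76) (nat_lit 14383862866) (nat_lit 125) (nat_lit 3) (nat_lit 124) (nat_lit 1) (nat_lit 125) (nat_lit 1) (nat_lit 303) (nat_lit 400) (nat_lit 317)) (XT.lf (nat_lit 0) (nat_lit 5943475294) (nat_lit 0) (nat_lit 7130751678) (nat_lit 152) (nat_lit 24745474862) (nat_lit 122) (nat_lit 3) (nat_lit 122) (nat_lit 1) (nat_lit 124) (nat_lit 1) (nat_lit 304) (nat_lit 400) (nat_lit 316))) (XT.nd (nat_lit 78) (nat_lit 152) (nat_lit 0) (XT.lf (nat_lit 76) (nat_lit 10587778362) (nat_lit 0) (nat_lit 14583428545) (nat_lit 76) (nat_lit 11687108347) (nat_lit 122) (nat_lit 3) (nat_lit 121) (nat_lit 1) (nat_lit 122) (nat_lit 1)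 (nat_lit 305) (nat_lit 400) (nat_lit 315)) (XT.lf (nat_lit 0) (nat_lit 7548354775) (nat_lit 0) (nat_lit 8517781570) (nat_lit 152) (nat_lit 19858232202) (nat_lit 119) (nat_lit 3) (nat_lit 119) (nat_lit 1) (nat_lit 121) (nat_lit 1) (nat_lit 306) (nat_lit 400) (nat_lit 314))))))) (XT.nd (nat_lit 1014) (nat_lit 1596) (nat_lit 0) (XT.nd (nat_lit 468) (nat_lit 912) (nat_lit 0) (XT.nd (nat_lit 234) (nat_lit 380) (nat_lit 0) (XT.nd (nat_lit 78) (nat_lit 228) (nat_lit 0) (XT.lf (nat_lit 76) (nat_lit 8339342521) (nat_lit 0) (nat_lit 17436682585) (nat_lit 76) (nat_lit 9236959924) (nat_lit 119) (nat_lit 3) (nat_lit 118) (nat_lit 1) (nat_lit 119) (nat_lit 1) (nat_lit 307) (nat_lit 400) (nat_lit 313)) (XT.nd (nat_lit 78) (nat_lit 76) (nat_lit 0) (XT.lf (nat_lit 0) (nat_lit 8966577671) (nat_lit 0) (nat_lit 9758127409) (nat_lit 152) (nat_lit 15400095832) (nat_lit 116) (nat_lit 3) (nat_lit 116) (nat_lit 1) (nat_lit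 118) (nat_lit 1) (nat_lit 308) (nat_lit 400) (nat_lit 312)) (XT.lf (nat_lit 76) (nat_lit 6280819957) (nat_lit 0) (nat_lit 19966221389) (nat_lit 76) (nat_lit 7013736381) (nat_lit 116) (nat_lit 3) (nat_lit 115) (nat_lit 1) (nat_lit 116) (nat_lit 1) (nat_lit 309) (nat_lit 400) (nat_lit 311)))) (XT.nd (nat_lit 78) (nat_lit 228) (nat_lit 0) (XT.lf (nat_lit 0) (nat_lit 10214320429) (nat_lit 0) (nat_lit 10860631208) (nat_lit 152) (nat_lit 11341122622) (nat_lit 113) (nat_lit 3) (nat_lit 113) (nat_lit 1) (nat_lit 115) (nat_lit 1) (nat_lit 310) (nat_lit 400) (nat_lit 310)) (XT.nd (nat_lit 78) (nat_lit 152) (nat_lit 0) (XT.lf (nat_lit 76) (nat_lit 4400961155) (nat_lit 0) (nat_lit 22196556197) (nat_lit 76) (nat_lit 4999397062) (nat_lit 113) (nat_lit 3) (nat_lit 112) (nat_lit 1) (nat_lit 113) (nat_lit 1) (nat_lit 311) (nat_lit 400) (nat_lit 309)) (XT.lf (nat_lit 0) (nat_lit 11306360747) (nat_lit 0) (nat_lit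 11834082005) (nat_lit 152) (nat_lit 7653087097) (nat_lit 110) (nat_lit 3) (nat_lit 110) (nat_lit 1) (nat_lit 112) (nat_lit 1) (nat_lit 312) (nat_lit 400) (nat_lit 308))))) (XT.nd (nat_lit 234) (nat_lit 608) (nat_lit 0) (XT.nd (nat_lit 78) (nat_lit 228) (nat_lit 0) (XT.lf (nat_lit 76) (nat_lit 2688745152) (nat_lit 0) (nat_lit 24150751934) (nat_lit 76) (nat_lit 3177375947) (nat_lit 110) (nat_lit 3) (nat_lit 109) (nat_lit 1) (nat_lit 110) (nat_lit 1) (nat_lit 313) (nat_lit 400) (nat_lit 307)) (XT.nd (nat_lit 78) (nat_lit 76) (nat_lit 0) (XT.lf (nat_lit 0) (nat_lit 12256220660) (nat_lit 0) (nat_lit 12687112014) (nat_lit 152) (nat_lit 4309425708) (nat_lit 107) (nat_lit 3) (nat_lit 107) (nat_lit 1) (nat_lit 109) (nat_lit 1) (nat_lit 314) (nat_lit 400) (nat_lit 306)) (XT.lf (nat_lit 76) (nat_lit 1133464016) (nat_lit 0) (nat_lit 25850471149) (nat_lit 76) (nat_lit 1532437492) (nat_lit 107) (nat_lit 3)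 (nat_lit 106) (nat_lit 1) (nat_lit 107) (nat_lit 1) (nat_lit 315) (nat_lit 400) (nat_lit 305)))) (XT.nd (nat_lit 156) (nat_lit 228) (nat_lit 0) (XT.nd (nat_lit 78) (nat_lit 228) (nat_lit 0) (XT.lf (nat_lit 0) (nat_lit 13076290908) (nat_lit 0) (nat_lit 13428119369) (nat_lit 152) (nat_lit 1285174621) (nat_lit 104) (nat_lit 3) (nat_lit 104) (nat_lit 1) (nat_lit 106) (nat_lit 1) (nat_lit 316) (nat_lit 400) (nat_lit 304)) (XT.lf (nat_lit 152) (nat_lit 26821004438) (nat_lit 0) (nat_lit 227655069) (nat_lit 76) (nat_lit 42306961) (nat_lit 103) (nat_lit 1) (nat_lit 101) (nat_lit 1) (nat_lit 102) (nat_lit 1) (nat_lit 317) (nat_lit 400) (nat_lit 303))) (XT.nd (nat_lit 78) (nat_lit 152) (nat_lit 0) (XT.lf (nat_lit 76) (nat_lit 12310403223) (nat_lit 0) (nat_lit 1490812070) (nat_lit 76) (nat_lit 12597675793) (nat_lit 101) (nat_lit 3) (nat_lit 100) (nat_lit 1) (nat_lit 101) (nat_lit 1) (nat_lit 318) (nat_lit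 400) (nat_lit 302)) (XT.lf (nat_lit 0) (nat_lit 1310738093) (nat_lit 0) (nat_lit 1564064874) (nat_lit 152) (nat_lit 22858661891) (nat_lit 98) (nat_lit 3) (nat_lit 98) (nat_lit 1) (nat_lit 100) (nat_lit 1) (nat_lit 319) (nat_lit 400) (nat_lit 301)))))) (XT.nd (nat_lit 546) (nat_lit 836) (nat_lit 0) (XT.nd (nat_lit 234) (nat_lit 456) (nat_lit 0) (XT.nd (nat_lit 78) (nat_lit 228) (nat_lit 0) (XT.lf (nat_lit 76) (nat_lit 10408248769) (nat_lit 0) (nat_lit 4026219001) (nat_lit 76) (nat_lit 10642810603) (nat_lit 98) (nat_lit 3) (nat_lit 97) (nat_lit 1) (nat_lit 98) (nat_lit 1) (nat_lit 320) (nat_lit 400) (nat_lit 300)) (XT.nd (nat_lit 78) (nat_lit 76) (nat_lit 0) (XT.lf (nat_lit 0) (nat_lit 2522339906) (nat_lit 0) (nat_lit 2729184557) (nat_lit 152) (nat_lit 19192836410) (nat_lit 95) (nat_lit 3) (nat_lit 95) (nat_lit 1) (nat_lit 97) (nat_lit 1) (nat_lit 321) (nat_lit 400) (nat_lit 299)) (XT.lf (nat_lit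 76) (nat_lit 8665443817) (nat_lit 0) (nat_lit 6299804970) (nat_lit 76) (nat_lit 8856966642) (nat_lit 95) (nat_lit 3) (nat_lit 94) (nat_lit 1) (nat_lit 95) (nat_lit 1) (nat_lit 322) (nat_lit 400) (nat_lit 298)))) (XT.nd (nat_lit 156) (nat_lit 228) (nat_lit 0) (XT.nd (nat_lit 78) (nat_lit 76) (nat_lit 0) (XT.lf (nat_lit 0) (nat_lit 3604998262) (nat_lit 0) (nat_lit 3773889642) (nat_lit 152) (nat_lit 15841317297) (nat_lit 92) (nat_lit 3) (nat_lit 92) (nat_lit 1) (nat_lit 94) (nat_lit 1) (nat_lit 323) (nat_lit 400) (nat_lit 297)) (XT.lf (nat_lit 76) (nat_lit 7071242296) (nat_lit 0) (nat_lit 8331454761) (nat_lit 76) (nat_lit 7227623203) (nat_lit 92) (nat_lit 3) (nat_lit 91) (nat_lit 1) (nat_lit 92) (nat_lit 1) (nat_lit 324) (nat_lit 400) (nat_lit 296))) (XT.nd (nat_lit 78) (nat_lit 76) (nat_lit 0) (XT.lf (nat_lit 0) (nat_lit 4569023074) (nat_lit 0) (nat_lit 4706925109) (nat_lit 152) (nat_lit 12781748391)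 (nat_lit 89) (nat_lit 3) (nat_lit 89) (nat_lit 1) (nat_lit 91) (nat_lit 1) (nat_lit 325) (nat_lit 400) (nat_lit 295)) (XT.lf (nat_lit 76) (nat_lit 5615471018) (nat_lit 0) (nat_lit 10139757211) (nat_lit 76) (nat_lit 5743158087) (nat_lit 89) (nat_lit 3) (nat_lit 88) (nat_lit 1) (nat_lit 89) (nat_lit 1) (nat_lit 326) (nat_lit 400) (nat_lit 294))))) (XT.nd (nat_lit 234) (nat_lit 456) (nat_lit 0) (XT.nd (nat_lit 78) (nat_lit 228) (nat_lit 0) (XT.lf (nat_lit 0) (nat_lit 5423955975) (nat_lit 0) (nat_lit 5536554802) (nat_lit 152) (nat_lit 9993194021) (nat_lit 86) (nat_lit 3) (nat_lit 86) (nat_lit 1) (nat_lit 88) (nat_lit 1) (nat_lit 327) (nat_lit 400) (nat_lit 293)) (XT.nd (nat_lit 78) (nat_lit 152) (nat_lit 0) (XT.lf (nat_lit 76) (nat_lit 4288519569) (nat_lit 0) (nat_lit 11742075531) (nat_lit 76) (nat_lit 4392777742) (nat_lit 86) (nat_lit 3) (nat_lit 85) (nat_lit 1) (nat_lit 86) (nat_lit 1) (nat_lit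 328) (nat_lit 400) (nat_lit 292)) (XT.lf (nat_lit 0) (nat_lit 6178631068) (nat_lit 0) (nat_lit 6270569492) (nat_lit 152) (nat_lit 7456060836) (nat_lit 83) (nat_lit 3) (nat_lit 83) (nat_lit 1) (nat_lit 85) (nat_lit 1) (nat_lit 329) (nat_lit 400) (nat_lit 291)))) (XT.nd (nat_lit 156) (nat_lit 228) (nat_lit 0) (XT.nd (nat_lit 78) (nat_lit 152) (nat_lit 0) (XT.lf (nat_lit 76) (nat_lit 3081325979) (nat_lit 0) (nat_lit 13154615736) (nat_lit 76) (nat_lit 3166454149) (nat_lit 83) (nat_lit 3) (nat_lit 82) (nat_lit 1) (nat_lit 83) (nat_lit 1) (nat_lit 330) (nat_lit 400) (nat_lit 290)) (XT.lf (nat_lit 0) (nat_lit 6841229808) (nat_lit 0) (nat_lit 6916298741) (nat_lit 152) (nat_lit 5152022293) (nat_lit 80) (nat_lit 3) (nat_lit 80) (nat_lit 1) (nat_lit 82) (nat_lit 1) (nat_lit 331) (nat_lit 400) (nat_lit 289))) (XT.nd (nat_lit 78) (nat_lit 152) (nat_lit 0) (XT.lf (nat_lit 76) (nat_lit 1985359304) (nat_lit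 0) (nat_lit 14392492845) (nat_lit 76) (nat_lit 2054867576) (nat_lit 80) (nat_lit 3) (nat_lit 79) (nat_lit 1) (nat_lit 80) (nat_lit 1) (nat_lit 332) (nat_lit 400) (nat_lit 288)) (XT.lf (nat_lit 0) (nat_lit 7419330776) (nat_lit 0) (nat_lit 7480625549) (nat_lit 152) (nat_lit 3063946024) (nat_lit 77) (nat_lit 3) (nat_lit 77) (nat_lit 1) (nat_lit 79) (nat_lit 1) (nat_lit 333) (nat_lit 400) (nat_lit 287))))))))
noncomputable def ec182 : XT := (XT.nd (nat_lit 2028) (nat_lit 2660) (nat_lit 0) (XT.nd (nat_lit 1014) (nat_lit 1596) (nat_lit 0) (XT.nd (nat_lit 468) (nat_lit 836) (nat_lit 0) (XT.nd (nat_lit 234) (nat_lit 456) (nat_lit 0) (XT.nd (nat_lit 78) (nat_lit 228) (nat_lit 0) (XT.lf (nat_lit 76) (nat_lit 992600068) (nat_lit 0) (nat_lit 15469794601) (nat_lit 76) (nat_lit 1049354486) (nat_lit 77) (nat_lit 3) (nat_lit 76) (nat_lit 1) (nat_lit 77) (nat_lit 1) (nat_lit 334) (nat_lit 400) (nat_lit 286))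 (XT.nd (nat_lit 78) (nat_lit 76) (nat_lit 0) (XT.lf (nat_lit 0) (nat_lit 7919954956) (nat_lit 0) (nat_lit 7970002944) (nat_lit 152) (nat_lit 1175824246) (nat_lit 74) (nat_lit 3) (nat_lit 74) (nat_lit 1) (nat_lit 76) (nat_lit 1) (nat_lit 335) (nat_lit 400) (nat_lit 285)) (XT.lf (nat_lit 76) (nat_lit 95519255) (nat_lit 0) (nat_lit 16399642562) (nat_lit 76) (nat_lit 141859985) (nat_lit 74) (nat_lit 3) (nat_lit 73) (nat_lit 1) (nat_lit 74) (nat_lit 1) (nat_lit 336) (nat_lit 400) (nat_lit 284)))) (XT.nd (nat_lit 78) (nat_lit 228) (nat_lit 0) (XT.lf (nat_lit 76) (nat_lit 7813384368) (nat_lit 0) (nat_lit 544727400) (nat_lit 76) (nat_lit 7854249209) (nat_lit 71) (nat_lit 3) (nat_lit 70) (nat_lit 1) (nat_lit 71) (nat_lit 1) (nat_lit 337) (nat_lit 400) (nat_lit 283)) (XT.nd (nat_lit 78) (nat_lit 76) (nat_lit 0) (XT.lf (nat_lit 0) (nat_lit 687384075) (nat_lit 0) (nat_lit 723420090) (nat_lit 152) (nat_lit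 14393175741) (nat_lit 68) (nat_lit 3) (nat_lit 68) (nat_lit 1) (nat_lit 70) (nat_lit 1) (nat_lit 338) (nat_lit 400) (nat_lit 282)) (XT.lf (nat_lit 76) (nat_lit 6620077234) (nat_lit 0) (nat_lit 2127451523) (nat_lit 76) (nat_lit 6653443915) (nat_lit 68) (nat_lit 3) (nat_lit 67) (nat_lit 1) (nat_lit 68) (nat_lit 1) (nat_lit 339) (nat_lit 400) (nat_lit 281))))) (XT.nd (nat_lit 234) (nat_lit 456) (nat_lit 0) (XT.nd (nat_lit 78) (nat_lit 228) (nat_lit 0) (XT.lf (nat_lit 0) (nat_lit 1432586419) (nat_lit 0) (nat_lit 1462010299) (nat_lit 152) (nat_lit 12117915970) (nat_lit 65) (nat_lit 3) (nat_lit 65) (nat_lit 1) (nat_lit 67) (nat_lit 1) (nat_lit 340) (nat_lit 400) (nat_lit 280)) (XT.nd (nat_lit 78) (nat_lit 152) (nat_lit 0) (XT.lf (nat_lit 76) (nat_lit 5528112538) (nat_lit 0) (nat_lit 3546920925) (nat_lit 76) (nat_lit 5555356872) (nat_lit 65) (nat_lit 3) (nat_lit 64) (nat_lit 1) (nat_lit 65) (nat_lit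 1) (nat_lit 341) (nat_lit 400) (nat_lit 279)) (XT.lf (nat_lit 0) (nat_lit 2099477983) (nat_lit 0) (nat_lit 2123502969) (nat_lit 152) (nat_lit 10037894682) (nat_lit 62) (nat_lit 3) (nat_lit 62) (nat_lit 1) (nat_lit 64) (nat_lit 1) (nat_lit 342) (nat_lit 400) (nat_lit 278)))) (XT.nd (nat_lit 156) (nat_lit 228) (nat_lit 0) (XT.nd (nat_lit 78) (nat_lit 152) (nat_lit 0) (XT.lf (nat_lit 76) (nat_lit 4530312269) (nat_lit 0) (nat_lit 4815680022) (nat_lit 76) (nat_lit 4552557627) (nat_lit 62) (nat_lit 3) (nat_lit 61) (nat_lit 1) (nat_lit 62) (nat_lit 1) (nat_lit 343) (nat_lit 400) (nat_lit 277)) (XT.lf (nat_lit 0) (nat_lit 2694171882) (nat_lit 0) (nat_lit 2713788599) (nat_lit 152) (nat_lit 8139092384) (nat_lit 59) (nat_lit 3) (nat_lit 59) (nat_lit 1) (nat_lit 61) (nat_lit 1) (nat_lit 344) (nat_lit 400) (nat_lit 276))) (XT.nd (nat_lit 78) (nat_lit 152) (nat_lit 0) (XT.lf (nat_lit 76) (nat_lit 3619953178)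 (nat_lit 0) (nat_lit 5945422683) (nat_lit 76) (nat_lit 3638116805) (nat_lit 59) (nat_lit 3) (nat_lit 58) (nat_lit 1) (nat_lit 59) (nat_lit 1) (nat_lit 345) (nat_lit 400) (nat_lit 275)) (XT.lf (nat_lit 0) (nat_lit 3222352567) (nat_lit 0) (nat_lit 3238369875) (nat_lit 152) (nat_lit 6408408939) (nat_lit 56) (nat_lit 3) (nat_lit 56) (nat_lit 1) (nat_lit 58) (nat_lit 1) (nat_lit 346) (nat_lit 400) (nat_lit 274)))))) (XT.nd (nat_lit 468) (nat_lit 912) (nat_lit 0) (XT.nd (nat_lit 234) (nat_lit 380) (nat_lit 0) (XT.nd (nat_lit 78) (nat_lit 228) (nat_lit 0) (XT.lf (nat_lit 76) (nat_lit 2790741853) (nat_lit 0) (nat_lit 6947045115) (nat_lit 76) (nat_lit 2805572693) (nat_lit 56) (nat_lit 3) (nat_lit 55) (nat_lit 1) (nat_lit 56) (nat_lit 1) (nat_lit 347) (nat_lit 400) (nat_lit 273)) (XT.nd (nat_lit 78) (nat_lit 76) (nat_lit 0) (XT.lf (nat_lit 0) (nat_lit 3689305051) (nat_lit 0) (nat_lit 3702383393) (nat_lit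 152) (nat_lit 4833607264) (nat_lit 53) (nat_lit 3) (nat_lit 53) (nat_lit 1) (nat_lit 55) (nat_lit 1) (nat_lit 348) (nat_lit 400) (nat_lit 272)) (XT.lf (nat_lit 76) (nat_lit 2036790627) (nat_lit 0) (nat_lit 7830695808) (nat_lit 76) (nat_lit 2048900203) (nat_lit 53) (nat_lit 3) (nat_lit 52) (nat_lit 1) (nat_lit 53) (nat_lit 1) (nat_lit 349) (nat_lit 400) (nat_lit 271)))) (XT.nd (nat_lit 78) (nat_lit 228) (nat_lit 0) (XT.lf (nat_lit 0) (nat_lit 4099942025) (nat_lit 0) (nat_lit 4110620664) (nat_lit 152) (nat_lit 3403260172) (nat_lit 50) (nat_lit 3) (nat_lit 50) (nat_lit 1) (nat_lit 52) (nat_lit 1) (nat_lit 350) (nat_lit 400) (nat_lit 270)) (XT.nd (nat_lit 78) (nat_lit 152) (nat_lit 0) (XT.lf (nat_lit 76) (nat_lit 1352594393) (nat_lit 0) (nat_lit 8605822693) (nat_lit 76) (nat_lit 1362482022) (nat_lit 50) (nat_lit 3) (nat_lit 49) (nat_lit 1) (nat_lit 50) (nat_lit 1) (nat_lit 351) (nat_lit 400) (nat_lit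 269)) (XT.lf (nat_lit 0) (nat_lit 4458829050) (nat_lit 0) (nat_lit 4467548300) (nat_lit 152) (nat_lit 2106700210) (nat_lit 47) (nat_lit 3) (nat_lit 47) (nat_lit 1) (nat_lit 49) (nat_lit 1) (nat_lit 352) (nat_lit 400) (nat_lit 268))))) (XT.nd (nat_lit 234) (nat_lit 608) (nat_lit 0) (XT.nd (nat_lit 78) (nat_lit 228) (nat_lit 0) (XT.lf (nat_lit 76) (nat_lit 733008377) (nat_lit 0) (nat_lit 9281217581) (nat_lit 76) (nat_lit 741081756) (nat_lit 47) (nat_lit 3) (nat_lit 46) (nat_lit 1) (nat_lit 47) (nat_lit 1) (nat_lit 353) (nat_lit 400) (nat_lit 267)) (XT.nd (nat_lit 78) (nat_lit 76) (nat_lit 0) (XT.lf (nat_lit 0) (nat_lit 4770207981) (nat_lit 0) (nat_lit 4777327363) (nat_lit 152) (nat_lit 933972363) (nat_lit 44) (nat_lit 3) (nat_lit 44) (nat_lit 1) (nat_lit 46) (nat_lit 1) (nat_lit 354) (nat_lit 400) (nat_lit 266)) (XT.lf (nat_lit 76) (nat_lit 173226895) (nat_lit 0) (nat_lit 9865058049) (nat_lit 76)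 (nat_lit 179818915) (nat_lit 44) (nat_lit 3) (nat_lit 43) (nat_lit 1) (nat_lit 44) (nat_lit 1) (nat_lit 355) (nat_lit 400) (nat_lit 265)))) (XT.nd (nat_lit 156) (nat_lit 228) (nat_lit 0) (XT.nd (nat_lit 78) (nat_lit 152) (nat_lit 0) (XT.lf (nat_lit 76) (nat_lit 4911704709) (nat_lit 0) (nat_lit 128317459) (nat_lit 76) (nat_lit 4917517778) (nat_lit 41) (nat_lit 3) (nat_lit 40) (nat_lit 1) (nat_lit 41) (nat_lit 1) (nat_lit 356) (nat_lit 400) (nat_lit 264)) (XT.lf (nat_lit 0) (nat_lit 331368561) (nat_lit 0) (nat_lit 336494724) (nat_lit 152) (nat_lit 9038940718) (nat_lit 38) (nat_lit 3) (nat_lit 38) (nat_lit 1) (nat_lit 40) (nat_lit 1) (nat_lit 357) (nat_lit 400) (nat_lit 263))) (XT.nd (nat_lit 78) (nat_lit 152) (nat_lit 0) (XT.lf (nat_lit 76) (nat_lit 4171178991) (nat_lit 0) (nat_lit 1112103860) (nat_lit 76) (nat_lit 4175925438) (nat_lit 38) (nat_lit 3) (nat_lit 37) (nat_lit 1) (nat_lit 38) (nat_lit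 1) (nat_lit 358) (nat_lit 400) (nat_lit 262)) (XT.lf (nat_lit 0) (nat_lit 793105761) (nat_lit 0) (nat_lit 797291340) (nat_lit 152) (nat_lit 7630302308) (nat_lit 35) (nat_lit 3) (nat_lit 35) (nat_lit 1) (nat_lit 37) (nat_lit 1) (nat_lit 359) (nat_lit 400) (nat_lit 261))))))) (XT.nd (nat_lit 1014) (nat_lit 1216) (nat_lit 0) (XT.nd (nat_lit 468) (nat_lit 760) (nat_lit 0) (XT.nd (nat_lit 234) (nat_lit 380) (nat_lit 0) (XT.nd (nat_lit 78) (nat_lit 228) (nat_lit 0) (XT.lf (nat_lit 76) (nat_lit 3493604650) (nat_lit 0) (nat_lit 1994847264) (nat_lit 76) (nat_lit 3497480187) (nat_lit 35) (nat_lit 3) (nat_lit 34) (nat_lit 1) (nat_lit 35) (nat_lit 1) (nat_lit 360) (nat_lit 400) (nat_lit 260)) (XT.nd (nat_lit 78) (nat_lit 76) (nat_lit 0) (XT.lf (nat_lit 0) (nat_lit 1206665835) (nat_lit 0) (nat_lit 1210083416) (nat_lit 152) (nat_lit 6342302882) (nat_lit 32) (nat_lit 3) (nat_lit 32) (nat_lit 1) (nat_lit 34)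 (nat_lit 1) (nat_lit 361) (nat_lit 400) (nat_lit 259)) (XT.lf (nat_lit 76) (nat_lit 2874479464) (nat_lit 0) (nat_lit 2784321999) (nat_lit 76) (nat_lit 2877643890) (nat_lit 32) (nat_lit 3) (nat_lit 31) (nat_lit 1) (nat_lit 32) (nat_lit 1) (nat_lit 362) (nat_lit 400) (nat_lit 258)))) (XT.nd (nat_lit 78) (nat_lit 228) (nat_lit 0) (XT.lf (nat_lit 0) (nat_lit 1575783099) (nat_lit 0) (nat_lit 1578573599) (nat_lit 152) (nat_lit 5166268838) (nat_lit 29) (nat_lit 3) (nat_lit 29) (nat_lit 1) (nat_lit 31) (nat_lit 1) (nat_lit 363) (nat_lit 400) (nat_lit 257)) (XT.nd (nat_lit 78) (nat_lit 152) (nat_lit 0) (XT.lf (nat_lit 76) (nat_lit 2309595762) (nat_lit 0) (nat_lit 3487771031) (nat_lit 76) (nat_lit 2312179558) (nat_lit 29) (nat_lit 3) (nat_lit 28) (nat_lit 1) (nat_lit 29) (nat_lit 1) (nat_lit 364) (nat_lit 400) (nat_lit 256)) (XT.lf (nat_lit 0) (nat_lit 1903934153) (nat_lit 0) (nat_lit 1906212633) (nat_lit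 152) (nat_lit 4094099069) (nat_lit 26) (nat_lit 3) (nat_lit 26) (nat_lit 1) (nat_lit 28) (nat_lit 1) (nat_lit 365) (nat_lit 400) (nat_lit 255))))) (XT.nd (nat_lit 234) (nat_lit 456) (nat_lit 0) (XT.nd (nat_lit 78) (nat_lit 228) (nat_lit 0) (XT.lf (nat_lit 76) (nat_lit 1795022428) (nat_lit 0) (nat_lit 4111939888) (nat_lit 76) (nat_lit 1797132131) (nat_lit 26) (nat_lit 3) (nat_lit 25) (nat_lit 1) (nat_lit 26) (nat_lit 1) (nat_lit 366) (nat_lit 400) (nat_lit 254)) (XT.nd (nat_lit 78) (nat_lit 76) (nat_lit 0) (XT.lf (nat_lit 0) (nat_lit 2194354718) (nat_lit 0) (nat_lit 2196215127) (nat_lit 152) (nat_lit 3118229146) (nat_lit 23) (nat_lit 3) (nat_lit 23) (nat_lit 1) (nat_lit 25) (nat_lit 1) (nat_lit 367) (nat_lit 400) (nat_lit 253)) (XT.lf (nat_lit 76) (nat_lit 1327087887) (nat_lit 0) (nat_lit 4663108531) (nat_lit 76) (nat_lit 1328810488) (nat_lit 23) (nat_lit 3) (nat_lit 22) (nat_lit 1) (nat_lit 23)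 (nat_lit 1) (nat_lit 368) (nat_lit 400) (nat_lit 252)))) (XT.nd (nat_lit 156) (nat_lit 228) (nat_lit 0) (XT.nd (nat_lit 78) (nat_lit 76) (nat_lit 0) (XT.lf (nat_lit 0) (nat_lit 2450055376) (nat_lit 0) (nat_lit 2451574424) (nat_lit 152) (nat_lit 2231597646) (nat_lit 20) (nat_lit 3) (nat_lit 20) (nat_lit 1) (nat_lit 22) (nat_lit 1) (nat_lit 369) (nat_lit 400) (nat_lit 251)) (XT.lf (nat_lit 76) (nat_lit 902364068) (nat_lit 0) (nat_lit 5147121285) (nat_lit 76) (nat_lit 903770594) (nat_lit 20) (nat_lit 3) (nat_lit 19) (nat_lit 1) (nat_lit 20) (nat_lit 1) (nat_lit 370) (nat_lit 400) (nat_lit 250))) (XT.nd (nat_lit 78) (nat_lit 76) (nat_lit 0) (XT.lf (nat_lit 0) (nat_lit 2673836310) (nat_lit 0) (nat_lit 2675076633) (nat_lit 152) (nat_lit 1427614494) (nat_lit 17) (nat_lit 3) (nat_lit 17) (nat_lit 1) (nat_lit 19) (nat_lit 1) (nat_lit 371) (nat_lit 400) (nat_lit 249)) (XT.lf (nat_lit 76) (nat_lit 517651269)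 (nat_lit 0) (nat_lit 5569414956) (nat_lit 76) (nat_lit 518799716) (nat_lit 17) (nat_lit 3) (nat_lit 16) (nat_lit 1) (nat_lit 17) (nat_lit 1) (nat_lit 372) (nat_lit 400) (nat_lit 248)))))) (XT.nd (nat_lit 546) (nat_lit 304) (nat_lit 0) (XT.nd (nat_lit 234) (nat_lit 532) (nat_lit 0) (XT.nd (nat_lit 78) (nat_lit 228) (nat_lit 0) (XT.lf (nat_lit 0) (nat_lit 2868301091) (nat_lit 0) (nat_lit 2869313831) (nat_lit 152) (nat_lit 700131216) (nat_lit 14) (nat_lit 3) (nat_lit 14) (nat_lit 1) (nat_lit 16) (nat_lit 1) (nat_lit 373) (nat_lit 400) (nat_lit 247)) (XT.nd (nat_lit 78) (nat_lit 152) (nat_lit 0) (XT.lf (nat_lit 76) (nat_lit 169963899) (nat_lit 0) (nat_lit 5935045218) (nat_lit 76) (nat_lit 170901621) (nat_lit 14) (nat_lit 3) (nat_lit 13) (nat_lit 1) (nat_lit 14) (nat_lit 1) (nat_lit 374) (nat_lit 400) (nat_lit 246)) (XT.lf (nat_lit 0) (nat_lit 3035869588) (nat_lit 0) (nat_lit 3036696504) (nat_lit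 152) (nat_lit 43412993) (nat_lit 11) (nat_lit 3) (nat_lit 11) (nat_lit 1) (nat_lit 13) (nat_lit 1) (nat_lit 375) (nat_lit 400) (nat_lit 245)))) (XT.nd (nat_lit 156) (nat_lit 228) (nat_lit 0) (XT.nd (nat_lit 78) (nat_lit 76) (nat_lit 0) (XT.lf (nat_lit 0) (nat_lit 145081421) (nat_lit 0) (nat_lit 145810623) (nat_lit 152) (nat_lit 5671161089) (nat_lit 8) (nat_lit 3) (nat_lit 8) (nat_lit 1) (nat_lit 10) (nat_lit 1) (nat_lit 376) (nat_lit 400) (nat_lit 244)) (XT.lf (nat_lit 76) (nat_lit 2621623719) (nat_lit 0) (nat_lit 566003232) (nat_lit 76) (nat_lit 2622298906) (nat_lit 8) (nat_lit 3) (nat_lit 7) (nat_lit 1) (nat_lit 8) (nat_lit 1) (nat_lit 377) (nat_lit 400) (nat_lit 243))) (XT.nd (nat_lit 78) (nat_lit 76) (nat_lit 0) (XT.lf (nat_lit 0) (nat_lit 431642632) (nat_lit 0) (nat_lit 432238035) (nat_lit 152) (nat_lit 4799591682) (nat_lit 5) (nat_lit 3) (nat_lit 5) (nat_lit 1) (nat_lit 7) (nat_lit 1) (nat_lit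 378) (nat_lit 400) (nat_lit 242)) (XT.lf (nat_lit 76) (nat_lit 2202125976) (nat_lit 0) (nat_lit 1114423744) (nat_lit 76) (nat_lit 2202677275) (nat_lit 5) (nat_lit 3) (nat_lit 4) (nat_lit 1) (nat_lit 5) (nat_lit 1) (nat_lit 379) (nat_lit 400) (nat_lit 241))))) (XT.nd (nat_lit 234) (nat_lit 0) (nat_lit 0) (XT.nd (nat_lit 78) (nat_lit 152) (nat_lit 0) (XT.lf (nat_lit 0) (nat_lit 688476452) (nat_lit 0) (nat_lit 688962607) (nat_lit 152) (nat_lit 4002474719) (nat_lit 2) (nat_lit 3) (nat_lit 2) (nat_lit 1) (nat_lit 4) (nat_lit 1) (nat_lit 380) (nat_lit 400) (nat_lit 240)) (XT.nd (nat_lit 78) (nat_lit 76) (nat_lit 0) (XT.lf (nat_lit 76) (nat_lit 1818739066) (nat_lit 0) (nat_lit 1605211783) (nat_lit 76) (nat_lit 1819189209) (nat_lit 2) (nat_lit 3) (nat_lit 1) (nat_lit 1) (nat_lit 2) (nat_lit 1) (nat_lit 381) (nat_lit 400) (nat_lit 239)) (XT.lf (nat_lit 0) (nat_lit 108724362715) (nat_lit 0) (nat_lit 0)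 (nat_lit 0) (nat_lit 0) (nat_lit 0) (nat_lit 0) (nat_lit 1) (nat_lit 0) (nat_lit 1) (nat_lit 0) (nat_lit 382) (nat_lit 400) (nat_lit 238)))) (XT.nd (nat_lit 156) (nat_lit 0) (nat_lit 0) (XT.nd (nat_lit 78) (nat_lit 0) (nat_lit 0) (XT.lf (nat_lit 0) (nat_lit 108724331717) (nat_lit 0) (nat_lit 0) (nat_lit 0) (nat_lit 0) (nat_lit 0) (nat_lit 0) (nat_lit 1) (nat_lit 0) (nat_lit 1) (nat_lit 0) (nat_lit 383) (nat_lit 400) (nat_lit 237)) (XT.lf (nat_lit 0) (nat_lit 108724303014) (nat_lit 0) (nat_lit 0) (nat_lit 0) (nat_lit 0) (nat_lit 0) (nat_lit 0) (nat_lit 1) (nat_lit 0) (nat_lit 1) (nat_lit 0) (nat_lit 384) (nat_lit 400) (nat_lit 236))) (XT.nd (nat_lit 78) (nat_lit 0) (nat_lit 0) (XT.lf (nat_lit 0) (nat_lit 108724276438) (nat_lit 0) (nat_lit 0) (nat_lit 0) (nat_lit 0) (nat_lit 0) (nat_lit 0) (nat_lit 1) (nat_lit 0) (nat_lit 1) (nat_lit 0) (nat_lit 385) (nat_lit 400) (nat_lit 235)) (XT.lf (nat_lit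 0) (nat_lit 108724251830) (nat_lit 0) (nat_lit 0) (nat_lit 0) (nat_lit 0) (nat_lit 0) (nat_lit 0) (nat_lit 1) (nat_lit 0) (nat_lit 1) (nat_lit 0) (nat_lit 386) (nat_lit 400) (nat_lit 234))))))))
noncomputable def ec183 : XT := (XT.nd (nat_lit 2106) (nat_lit 0) (nat_lit 0) (XT.nd (nat_lit 1014) (nat_lit 0) (nat_lit 0) (XT.nd (nat_lit 468) (nat_lit 0) (nat_lit 0) (XT.nd (nat_lit 234) (nat_lit 0) (nat_lit 0) (XT.nd (nat_lit 78) (nat_lit 0) (nat_lit 0) (XT.lf (nat_lit 0) (nat_lit 108724229045) (nat_lit 0) (nat_lit 0) (nat_lit 0) (nat_lit 0) (nat_lit 0) (nat_lit 0) (nat_lit 1) (nat_lit 0) (nat_lit 1) (nat_lit 0) (nat_lit 387) (nat_lit 400) (nat_lit 233)) (XT.nd (nat_lit 78) (nat_lit 0) (nat_lit 0) (XT.lf (nat_lit 0) (nat_lit 108724207948) (nat_lit 0) (nat_lit 0) (nat_lit 0) (nat_lit 0) (nat_lit 0) (nat_lit 0) (nat_lit 1) (nat_lit 0) (nat_lit 1) (nat_lit 0) (nat_lit 388) (nat_lit 400) (nat_lit 232))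 (XT.lf (nat_lit 0) (nat_lit 108724188414) (nat_lit 0) (nat_lit 0) (nat_lit 0) (nat_lit 0) (nat_lit 0) (nat_lit 0) (nat_lit 1) (nat_lit 0) (nat_lit 1) (nat_lit 0) (nat_lit 389) (nat_lit 400) (nat_lit 231)))) (XT.nd (nat_lit 78) (nat_lit 0) (nat_lit 0) (XT.lf (nat_lit 0) (nat_lit 108724170326) (nat_lit 0) (nat_lit 0) (nat_lit 0) (nat_lit 0) (nat_lit 0) (nat_lit 0) (nat_lit 1) (nat_lit 0) (nat_lit 1) (nat_lit 0) (nat_lit 390) (nat_lit 400) (nat_lit 230)) (XT.nd (nat_lit 78) (nat_lit 0) (nat_lit 0) (XT.lf (nat_lit 0) (nat_lit 108724153579) (nat_lit 0) (nat_lit 0) (nat_lit 0) (nat_lit 0) (nat_lit 0) (nat_lit 0) (nat_lit 1) (nat_lit 0) (nat_lit 1) (nat_lit 0) (nat_lit 391) (nat_lit 400) (nat_lit 229)) (XT.lf (nat_lit 0) (nat_lit 108724138071) (nat_lit 0) (nat_lit 0) (nat_lit 0) (nat_lit 0) (nat_lit 0) (nat_lit 0) (nat_lit 1) (nat_lit 0) (nat_lit 1) (nat_lit 0) (nat_lit 392) (nat_lit 400) (nat_lit 228)))))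 (XT.nd (nat_lit 234) (nat_lit 0) (nat_lit 0) (XT.nd (nat_lit 78) (nat_lit 0) (nat_lit 0) (XT.lf (nat_lit 0) (nat_lit 108724123713) (nat_lit 0) (nat_lit 0) (nat_lit 0) (nat_lit 0) (nat_lit 0) (nat_lit 0) (nat_lit 1) (nat_lit 0) (nat_lit 1) (nat_lit 0) (nat_lit 393) (nat_lit 400) (nat_lit 227)) (XT.nd (nat_lit 78) (nat_lit 0) (nat_lit 0) (XT.lf (nat_lit 0) (nat_lit 108724110418) (nat_lit 0) (nat_lit 0) (nat_lit 0) (nat_lit 0) (nat_lit 0) (nat_lit 0) (nat_lit 1) (nat_lit 0) (nat_lit 1) (nat_lit 0) (nat_lit 394) (nat_lit 400) (nat_lit 226)) (XT.lf (nat_lit 0) (nat_lit 108724098108) (nat_lit 0) (nat_lit 0) (nat_lit 0) (nat_lit 0) (nat_lit 0) (nat_lit 0) (nat_lit 1) (nat_lit 0) (nat_lit 1) (nat_lit 0) (nat_lit 395) (nat_lit 400) (nat_lit 225)))) (XT.nd (nat_lit 156) (nat_lit 0) (nat_lit 0) (XT.nd (nat_lit 78) (nat_lit 0) (nat_lit 0) (XT.lf (nat_lit 0) (nat_lit 108724086710) (nat_lit 0) (nat_lit 0)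 (nat_lit 0) (nat_lit 0) (nat_lit 0) (nat_lit 0) (nat_lit 1) (nat_lit 0) (nat_lit 1) (nat_lit 0) (nat_lit 396) (nat_lit 400) (nat_lit 224)) (XT.lf (nat_lit 0) (nat_lit 108724076156) (nat_lit 0) (nat_lit 0) (nat_lit 0) (nat_lit 0) (nat_lit 0) (nat_lit 0) (nat_lit 1) (nat_lit 0) (nat_lit 1) (nat_lit 0) (nat_lit 397) (nat_lit 400) (nat_lit 223))) (XT.nd (nat_lit 78) (nat_lit 0) (nat_lit 0) (XT.lf (nat_lit 0) (nat_lit 108724066384) (nat_lit 0) (nat_lit 0) (nat_lit 0) (nat_lit 0) (nat_lit 0) (nat_lit 0) (nat_lit 1) (nat_lit 0) (nat_lit 1) (nat_lit 0) (nat_lit 398) (nat_lit 400) (nat_lit 222)) (XT.lf (nat_lit 0) (nat_lit 108724057336) (nat_lit 0) (nat_lit 0) (nat_lit 0) (nat_lit 0) (nat_lit 0) (nat_lit 0) (nat_lit 1) (nat_lit 0) (nat_lit 1) (nat_lit 0) (nat_lit 399) (nat_lit 400) (nat_lit 221)))))) (XT.nd (nat_lit 546) (nat_lit 0) (nat_lit 0) (XT.nd (nat_lit 234) (nat_lit 0) (nat_lit 0) (XT.nd (nat_lit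 78) (nat_lit 0) (nat_lit 0) (XT.lf (nat_lit 0) (nat_lit 108724048958) (nat_lit 0) (nat_lit 0) (nat_lit 0) (nat_lit 0) (nat_lit 0) (nat_lit 0) (nat_lit 1) (nat_lit 0) (nat_lit 1) (nat_lit 0) (nat_lit 400) (nat_lit 400) (nat_lit 220)) (XT.nd (nat_lit 78) (nat_lit 0) (nat_lit 0) (XT.lf (nat_lit 0) (nat_lit 108724041201) (nat_lit 0) (nat_lit 0) (nat_lit 0) (nat_lit 0) (nat_lit 0) (nat_lit 0) (nat_lit 1) (nat_lit 0) (nat_lit 1) (nat_lit 0) (nat_lit 401) (nat_lit 400) (nat_lit 219)) (XT.lf (nat_lit 0) (nat_lit 108724034018) (nat_lit 0) (nat_lit 0) (nat_lit 0) (nat_lit 0) (nat_lit 0) (nat_lit 0) (nat_lit 1) (nat_lit 0) (nat_lit 1) (nat_lit 0) (nat_lit 402) (nat_lit 400) (nat_lit 218)))) (XT.nd (nat_lit 156) (nat_lit 0) (nat_lit 0) (XT.nd (nat_lit 78) (nat_lit 0) (nat_lit 0) (XT.lf (nat_lit 0) (nat_lit 108724027367) (nat_lit 0) (nat_lit 0) (nat_lit 0) (nat_lit 0) (nat_lit 0) (nat_lit 0) (nat_lit 1) (nat_lit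 0) (nat_lit 1) (nat_lit 0) (nat_lit 403) (nat_lit 400) (nat_lit 217)) (XT.lf (nat_lit 0) (nat_lit 108724021209) (nat_lit 0) (nat_lit 0) (nat_lit 0) (nat_lit 0) (nat_lit 0) (nat_lit 0) (nat_lit 1) (nat_lit 0) (nat_lit 1) (nat_lit 0) (nat_lit 404) (nat_lit 400) (nat_lit 216))) (XT.nd (nat_lit 78) (nat_lit 0) (nat_lit 0) (XT.lf (nat_lit 0) (nat_lit 108724015507) (nat_lit 0) (nat_lit 0) (nat_lit 0) (nat_lit 0) (nat_lit 0) (nat_lit 0) (nat_lit 1) (nat_lit 0) (nat_lit 1) (nat_lit 0) (nat_lit 405) (nat_lit 400) (nat_lit 215)) (XT.lf (nat_lit 0) (nat_lit 108724010228) (nat_lit 0) (nat_lit 0) (nat_lit 0) (nat_lit 0) (nat_lit 0) (nat_lit 0) (nat_lit 1) (nat_lit 0) (nat_lit 1) (nat_lit 0) (nat_lit 406) (nat_lit 400) (nat_lit 214))))) (XT.nd (nat_lit 234) (nat_lit 0) (nat_lit 0) (XT.nd (nat_lit 78) (nat_lit 0) (nat_lit 0) (XT.lf (nat_lit 0) (nat_lit 108724005339) (nat_lit 0) (nat_lit 0) (nat_lit 0) (nat_lit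 0) (nat_lit 0) (nat_lit 0) (nat_lit 1) (nat_lit 0) (nat_lit 1) (nat_lit 0) (nat_lit 407) (nat_lit 400) (nat_lit 213)) (XT.nd (nat_lit 78) (nat_lit 0) (nat_lit 0) (XT.lf (nat_lit 0) (nat_lit 108724000813) (nat_lit 0) (nat_lit 0) (nat_lit 0) (nat_lit 0) (nat_lit 0) (nat_lit 0) (nat_lit 1) (nat_lit 0) (nat_lit 1) (nat_lit 0) (nat_lit 408) (nat_lit 400) (nat_lit 212)) (XT.lf (nat_lit 0) (nat_lit 108723996622) (nat_lit 0) (nat_lit 0) (nat_lit 0) (nat_lit 0) (nat_lit 0) (nat_lit 0) (nat_lit 1) (nat_lit 0) (nat_lit 1) (nat_lit 0) (nat_lit 409) (nat_lit 400) (nat_lit 211)))) (XT.nd (nat_lit 156) (nat_lit 0) (nat_lit 0) (XT.nd (nat_lit 78) (nat_lit 0) (nat_lit 0) (XT.lf (nat_lit 0) (nat_lit 108723992741) (nat_lit 0) (nat_lit 0) (nat_lit 0) (nat_lit 0) (nat_lit 0) (nat_lit 0) (nat_lit 1) (nat_lit 0) (nat_lit 1) (nat_lit 0) (nat_lit 410) (nat_lit 400) (nat_lit 210)) (XT.lf (nat_lit 0) (nat_lit 108723989148)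 (nat_lit 0) (nat_lit 0) (nat_lit 0) (nat_lit 0) (nat_lit 0) (nat_lit 0) (nat_lit 1) (nat_lit 0) (nat_lit 1) (nat_lit 0) (nat_lit 411) (nat_lit 400) (nat_lit 209))) (XT.nd (nat_lit 78) (nat_lit 0) (nat_lit 0) (XT.lf (nat_lit 0) (nat_lit 108723985821) (nat_lit 0) (nat_lit 0) (nat_lit 0) (nat_lit 0) (nat_lit 0) (nat_lit 0) (nat_lit 1) (nat_lit 0) (nat_lit 1) (nat_lit 0) (nat_lit 412) (nat_lit 400) (nat_lit 208)) (XT.lf (nat_lit 0) (nat_lit 108723982740) (nat_lit 0) (nat_lit 0) (nat_lit 0) (nat_lit 0) (nat_lit 0) (nat_lit 0) (nat_lit 1) (nat_lit 0) (nat_lit 1) (nat_lit 0) (nat_lit 413) (nat_lit 400) (nat_lit 207))))))) (XT.nd (nat_lit 38688) (nat_lit 0) (nat_lit 17024) (XT.nd (nat_lit 38142) (nat_lit 0) (nat_lit 20520) (XT.nd (nat_lit 37908) (nat_lit 0) (nat_lit 22268) (XT.nd (nat_lit 78) (nat_lit 0) (nat_lit 0) (XT.lf (nat_lit 0) (nat_lit 108723979888) (nat_lit 0) (nat_lit 0) (nat_lit 0) (nat_lit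 0) (nat_lit 0) (nat_lit 0) (nat_lit 1) (nat_lit 0) (nat_lit 1) (nat_lit 0) (nat_lit 414) (nat_lit 400) (nat_lit 206)) (XT.nd (nat_lit 37752) (nat_lit 0) (nat_lit 22192) (XT.lf (nat_lit 0) (nat_lit 108723977247) (nat_lit 0) (nat_lit 0) (nat_lit 0) (nat_lit 0) (nat_lit 0) (nat_lit 0) (nat_lit 1) (nat_lit 0) (nat_lit 1) (nat_lit 0) (nat_lit 415) (nat_lit 400) (nat_lit 205)) (XT.lf (nat_lit 836) (nat_lit 58762296971) (nat_lit 0) (nat_lit 104332323202) (nat_lit 836) (nat_lit 58762296971) (nat_lit 303) (nat_lit 1) (nat_lit 292) (nat_lit 0) (nat_lit 303) (nat_lit 0) (nat_lit 218) (nat_lit 401) (nat_lit 401)))) (XT.nd (nat_lit 78) (nat_lit 0) (nat_lit 0) (XT.lf (nat_lit 836) (nat_lit 21920139840) (nat_lit 0) (nat_lit 204835971096) (nat_lit 760) (nat_lit 200328895390) (nat_lit 304) (nat_lit 1) (nat_lit 293) (nat_lit 1) (nat_lit 303) (nat_lit 1) (nat_lit 219) (nat_lit 401) (nat_lit 400)) (XT.nd (nat_lit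 78) (nat_lit 0) (nat_lit 76) (XT.lf (nat_lit 836) (nat_lit 201323831948) (nat_lit 76) (nat_lit 137178718889) (nat_lit 0) (nat_lit 72753334940) (nat_lit 304) (nat_lit 1) (nat_lit 294) (nat_lit 1) (nat_lit 293) (nat_lit 1) (nat_lit 220) (nat_lit 401) (nat_lit 399)) (XT.lf (nat_lit 836) (nat_lit 173960283489) (nat_lit 76) (nat_lit 57490650253) (nat_lit 0) (nat_lit 164767960827) (nat_lit 305) (nat_lit 1) (nat_lit 295) (nat_lit 1) (nat_lit 294) (nat_lit 1) (nat_lit 221) (nat_lit 401) (nat_lit 398))))) (XT.nd (nat_lit 234) (nat_lit 1900) (nat_lit 0) (XT.nd (nat_lit 78) (nat_lit 0) (nat_lit 76) (XT.lf (nat_lit 836) (nat_lit 128745399371) (nat_lit 0) (nat_lit 240876556693) (nat_lit 760) (nat_lit 12313575163) (nat_lit 306) (nat_lit 1) (nat_lit 295) (nat_lit 1) (nat_lit 305) (nat_lit 1) (nat_lit 222) (nat_lit 401) (nat_lit 397)) (XT.nd (nat_lit 78) (nat_lit 0) (nat_lit 0) (XT.lf (nat_lit 836) (nat_lit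 30891196265) (nat_lit 0) (nat_lit 265633321856) (nat_lit 760) (nat_lit 71809780347) (nat_lit 307) (nat_lit 1) (nat_lit 296) (nat_lit 1) (nat_lit 306) (nat_lit 1) (nat_lit 223) (nat_lit 401) (nat_lit 396)) (XT.lf (nat_lit 836) (nat_lit 59360314709) (nat_lit 76) (nat_lit 230856988143) (nat_lit 0) (nat_lit 65150690288) (nat_lit 307) (nat_lit 1) (nat_lit 297) (nat_lit 1) (nat_lit 296) (nat_lit 1) (nat_lit 224) (nat_lit 401) (nat_lit 395)))) (XT.nd (nat_lit 156) (nat_lit 760) (nat_lit 0) (XT.nd (nat_lit 78) (nat_lit 532) (nat_lit 0) (XT.lf (nat_lit 836) (nat_lit 12191255044) (nat_lit 0) (nat_lit 172580869240) (nat_lit 760) (nat_lit 158254848818) (nat_lit 298) (nat_lit 1) (nat_lit 287) (nat_lit 1) (nat_lit 297) (nat_lit 1) (nat_lit 225) (nat_lit 401) (nat_lit 394)) (XT.lf (nat_lit 76) (nat_lit 84414789467) (nat_lit 0) (nat_lit 36580856622) (nat_lit 532) (nat_lit 210274642358) (nat_lit 281) (nat_lit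 1) (nat_lit 280) (nat_lit 1) (nat_lit 287) (nat_lit 1) (nat_lit 226) (nat_lit 401) (nat_lit 393))) (XT.nd (nat_lit 78) (nat_lit 380) (nat_lit 0) (XT.lf (nat_lit 456) (nat_lit 232636534752) (nat_lit 0) (nat_lit 75728207300) (nat_lit 380) (nat_lit 11708048766) (nat_lit 281) (nat_lit 1) (nat_lit 275) (nat_lit 1) (nat_lit 280) (nat_lit 1) (nat_lit 227) (nat_lit 401) (nat_lit 392)) (XT.lf (nat_lit 456) (nat_lit 167872738810) (nat_lit 0) (nat_lit 35297243633) (nat_lit 380) (nat_lit 106186783121) (nat_lit 276) (nat_lit 1) (nat_lit 270) (nat_lit 1) (nat_lit 275) (nat_lit 1) (nat_lit 228) (nat_lit 401) (nat_lit 391)))))) (XT.nd (nat_lit 546) (nat_lit 1596) (nat_lit 0) (XT.nd (nat_lit 234) (nat_lit 1216) (nat_lit 0) (XT.nd (nat_lit 78) (nat_lit 380) (nat_lit 0) (XT.lf (nat_lit 380) (nat_lit 102148420527) (nat_lit 0) (nat_lit 649879616) (nat_lit 304) (nat_lit 196362036931) (nat_lit 271) (nat_lit 1) (nat_lit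 266) (nat_lit 1) (nat_lit 270) (nat_lit 1) (nat_lit 229) (nat_lit 401) (nat_lit 390)) (XT.nd (nat_lit 78) (nat_lit 380) (nat_lit 0) (XT.lf (nat_lit 76) (nat_lit 7536027714) (nat_lit 0) (nat_lit 254151370979) (nat_lit 380) (nat_lit 27745563809) (nat_lit 267) (nat_lit 1) (nat_lit 266) (nat_lit 1) (nat_lit 271) (nat_lit 1) (nat_lit 230) (nat_lit 401) (nat_lit 389)) (XT.lf (nat_lit 76) (nat_lit 194582190203) (nat_lit 0) (nat_lit 32273538262) (nat_lit 380) (nat_lit 53224925912) (nat_lit 262) (nat_lit 1) (nat_lit 261) (nat_lit 1) (nat_lit 266) (nat_lit 1) (nat_lit 231) (nat_lit 401) (nat_lit 388)))) (XT.nd (nat_lit 156) (nat_lit 608) (nat_lit 0) (XT.nd (nat_lit 78) (nat_lit 304) (nat_lit 0) (XT.lf (nat_lit 76) (nat_lit 97354400597) (nat_lit 0) (nat_lit 98859576773) (nat_lit 380) (nat_lit 74927601540) (nat_lit 258) (nat_lit 1) (nat_lit 257) (nat_lit 1) (nat_lit 262) (nat_lit 1) (nat_lit 232) (nat_lit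 401) (nat_lit 387)) (XT.lf (nat_lit 76) (nat_lit 4805197333) (nat_lit 0) (nat_lit 165291677293) (nat_lit 380) (nat_lit 92528864497) (nat_lit 254) (nat_lit 1) (nat_lit 253) (nat_lit 1) (nat_lit 258) (nat_lit 1) (nat_lit 233) (nat_lit 401) (nat_lit 386))) (XT.nd (nat_lit 78) (nat_lit 380) (nat_lit 0) (XT.lf (nat_lit 304) (nat_lit 21700000340) (nat_lit 0) (nat_lit 146746715175) (nat_lit 228) (nat_lit 85996947700) (nat_lit 254) (nat_lit 1) (nat_lit 250) (nat_lit 1) (nat_lit 253) (nat_lit 1) (nat_lit 234) (nat_lit 401) (nat_lit 385)) (XT.lf (nat_lit 76) (nat_lit 74979335431) (nat_lit 0) (nat_lit 51391302406) (nat_lit 380) (nat_lit 120228965859) (nat_lit 246) (nat_lit 1) (nat_lit 245) (nat_lit 1) (nat_lit 250) (nat_lit 1) (nat_lit 235) (nat_lit 401) (nat_lit 384))))) (XT.nd (nat_lit 234) (nat_lit 836) (nat_lit 0) (XT.nd (nat_lit 78) (nat_lit 532) (nat_lit 0) (XT.lf (nat_lit 304) (nat_lit 116086046117)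 (nat_lit 0) (nat_lit 109047836558) (nat_lit 228) (nat_lit 13957993658) (nat_lit 246) (nat_lit 1) (nat_lit 242) (nat_lit 1) (nat_lit 245) (nat_lit 1) (nat_lit 236) (nat_lit 401) (nat_lit 383)) (XT.nd (nat_lit 78) (nat_lit 304) (nat_lit 0) (XT.lf (nat_lit 304) (nat_lit 37205016961) (nat_lit 0) (nat_lit 93885721811) (nat_lit 228) (nat_lit 100781934257) (nat_lit 243) (nat_lit 1) (nat_lit 239) (nat_lit 1) (nat_lit 242) (nat_lit 1) (nat_lit 237) (nat_lit 401) (nat_lit 382)) (XT.lf (nat_lit 76) (nat_lit 42404729405) (nat_lit 0) (nat_lit 38825214823) (nat_lit 304) (nat_lit 143723352604) (nat_lit 236) (nat_lit 1) (nat_lit 235) (nat_lit 1) (nat_lit 239) (nat_lit 1) (nat_lit 238) (nat_lit 401) (nat_lit 381)))) (XT.nd (nat_lit 156) (nat_lit 456) (nat_lit 0) (XT.nd (nat_lit 78) (nat_lit 152) (nat_lit 0) (XT.lf (nat_lit 304) (nat_lit 105518603518) (nat_lit 0) (nat_lit 70208168564) (nat_lit 228) (nat_lit 42560422616)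 (nat_lit 236) (nat_lit 1) (nat_lit 232) (nat_lit 1) (nat_lit 235) (nat_lit 1) (nat_lit 239) (nat_lit 401) (nat_lit 380)) (XT.lf (nat_lit 228) (nat_lit 26158217617) (nat_lit 0) (nat_lit 61251506074) (nat_lit 152) (nat_lit 124480298032) (nat_lit 233) (nat_lit 1) (nat_lit 230) (nat_lit 1) (nat_lit 232) (nat_lit 1) (nat_lit 240) (nat_lit 401) (nat_lit 379))) (XT.nd (nat_lit 78) (nat_lit 152) (nat_lit 0) (XT.lf (nat_lit 76) (nat_lit 4431369183) (nat_lit 0) (nat_lit 49587983164) (nat_lit 304) (nat_lit 151721467677) (nat_lit 227) (nat_lit 1) (nat_lit 226) (nat_lit 1) (nat_lit 230) (nat_lit 1) (nat_lit 241) (nat_lit 401) (nat_lit 378)) (XT.lf (nat_lit 228) (nat_lit 76010980702) (nat_lit 0) (nat_lit 47500341969) (nat_lit 152) (nat_lit 76275499680) (nat_lit 227) (nat_lit 1) (nat_lit 224) (nat_lit 1) (nat_lit 226) (nat_lit 1) (nat_lit 242) (nat_lit 401) (nat_lit 377))))))))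
noncomputable def ec184 : XT := (XT.nd (nat_lit 2028) (nat_lit 3192) (nat_lit 0) (XT.nd (nat_lit 1014) (nat_lit 1520) (nat_lit 0) (XT.nd (nat_lit 468) (nat_lit 1064) (nat_lit 0) (XT.nd (nat_lit 234) (nat_lit 532) (nat_lit 0) (XT.nd (nat_lit 78) (nat_lit 304) (nat_lit 0) (XT.lf (nat_lit 76) (nat_lit 41240381610) (nat_lit 0) (nat_lit 1904919082) (nat_lit 228) (nat_lit 150947335926) (nat_lit 222) (nat_lit 1) (nat_lit 221) (nat_lit 1) (nat_lit 224) (nat_lit 1) (nat_lit 243) (nat_lit 401) (nat_lit 376)) (XT.nd (nat_lit 78) (nat_lit 152) (nat_lit 0) (XT.lf (nat_lit 228) (nat_lit 112743239616) (nat_lit 0) (nat_lit 39068060442) (nat_lit 152) (nat_lit 36752790638) (nat_lit 222) (nat_lit 1) (nat_lit 219) (nat_lit 1) (nat_lit 221) (nat_lit 1) (nat_lit 244) (nat_lit 401) (nat_lit 375)) (XT.lf (nat_lit 228) (nat_lit 35022568161) (nat_lit 0) (nat_lit 36318082393) (nat_lit 152) (nat_lit 111906274726) (nat_lit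 220) (nat_lit 1) (nat_lit 217) (nat_lit 1) (nat_lit 219) (nat_lit 1) (nat_lit 245) (nat_lit 401) (nat_lit 374)))) (XT.nd (nat_lit 78) (nat_lit 304) (nat_lit 0) (XT.lf (nat_lit 228) (nat_lit 139026724446) (nat_lit 0) (nat_lit 34698979967) (nat_lit 152) (nat_lit 4401968175) (nat_lit 217) (nat_lit 1) (nat_lit 214) (nat_lit 1) (nat_lit 216) (nat_lit 1) (nat_lit 246) (nat_lit 401) (nat_lit 373)) (XT.nd (nat_lit 78) (nat_lit 152) (nat_lit 0) (XT.lf (nat_lit 228) (nat_lit 62221918518) (nat_lit 0) (nat_lit 33125827221) (nat_lit 152) (nat_lit 77802922030) (nat_lit 215) (nat_lit 1) (nat_lit 212) (nat_lit 1) (nat_lit 214) (nat_lit 1) (nat_lit 247) (nat_lit 401) (nat_lit 372)) (XT.lf (nat_lit 76) (nat_lit 21313409413) (nat_lit 0) (nat_lit 11714810224) (nat_lit 152) (nat_lit 135351876611) (nat_lit 211) (nat_lit 1) (nat_lit 210) (nat_lit 1) (nat_lit 212) (nat_lit 1) (nat_lit 248) (nat_lit 401) (nat_lit 371)))))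 (XT.nd (nat_lit 234) (nat_lit 608) (nat_lit 0) (XT.nd (nat_lit 78) (nat_lit 304) (nat_lit 0) (XT.lf (nat_lit 228) (nat_lit 81638735522) (nat_lit 0) (nat_lit 32678487556) (nat_lit 152) (nat_lit 49412682487) (nat_lit 211) (nat_lit 1) (nat_lit 208) (nat_lit 1) (nat_lit 210) (nat_lit 1) (nat_lit 249) (nat_lit 401) (nat_lit 370)) (XT.nd (nat_lit 78) (nat_lit 228) (nat_lit 0) (XT.lf (nat_lit 152) (nat_lit 8791331744) (nat_lit 0) (nat_lit 33481113440) (nat_lit 76) (nat_lit 116990853242) (nat_lit 209) (nat_lit 1) (nat_lit 207) (nat_lit 1) (nat_lit 208) (nat_lit 1) (nat_lit 250) (nat_lit 401) (nat_lit 369)) (XT.lf (nat_lit 228) (nat_lit 94899180457) (nat_lit 0) (nat_lit 34242244499) (nat_lit 152) (nat_lit 25778424481) (nat_lit 207) (nat_lit 1) (nat_lit 204) (nat_lit 1) (nat_lit 206) (nat_lit 1) (nat_lit 251) (nat_lit 401) (nat_lit 368)))) (XT.nd (nat_lit 156) (nat_lit 304) (nat_lit 0) (XT.nd (nat_lit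 78) (nat_lit 228) (nat_lit 0) (XT.lf (nat_lit 152) (nat_lit 23867843669) (nat_lit 0) (nat_lit 35522596526) (nat_lit 76) (nat_lit 91332343209) (nat_lit 205) (nat_lit 1) (nat_lit 203) (nat_lit 1) (nat_lit 204) (nat_lit 1) (nat_lit 252) (nat_lit 401) (nat_lit 367)) (XT.lf (nat_lit 228) (nat_lit 103318025492) (nat_lit 0) (nat_lit 37235861866) (nat_lit 152) (nat_lit 6110723689) (nat_lit 203) (nat_lit 1) (nat_lit 200) (nat_lit 1) (nat_lit 202) (nat_lit 1) (nat_lit 253) (nat_lit 401) (nat_lit 366))) (XT.nd (nat_lit 78) (nat_lit 228) (nat_lit 0) (XT.lf (nat_lit 152) (nat_lit 34349101517) (nat_lit 0) (nat_lit 38818833430) (nat_lit 76) (nat_lit 69547292510) (nat_lit 201) (nat_lit 1) (nat_lit 199) (nat_lit 1) (nat_lit 200) (nat_lit 1) (nat_lit 254) (nat_lit 401) (nat_lit 365)) (XT.lf (nat_lit 76) (nat_lit 9914517665) (nat_lit 0) (nat_lit 31119028127) (nat_lit 228) (nat_lit 97874179947) (nat_lit 197) (nat_lit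 1) (nat_lit 196) (nat_lit 1) (nat_lit 199) (nat_lit 1) (nat_lit 255) (nat_lit 401) (nat_lit 364)))))) (XT.nd (nat_lit 468) (nat_lit 760) (nat_lit 0) (XT.nd (nat_lit 234) (nat_lit 380) (nat_lit 0) (XT.nd (nat_lit 78) (nat_lit 304) (nat_lit 0) (XT.lf (nat_lit 152) (nat_lit 41222020890) (nat_lit 0) (nat_lit 42951391888) (nat_lit 76) (nat_lit 51021368205) (nat_lit 197) (nat_lit 1) (nat_lit 195) (nat_lit 1) (nat_lit 196) (nat_lit 1) (nat_lit 256) (nat_lit 401) (nat_lit 363)) (XT.nd (nat_lit 78) (nat_lit 76) (nat_lit 0) (XT.lf (nat_lit 76) (nat_lit 23057476416) (nat_lit 0) (nat_lit 22332725051) (nat_lit 228) (nat_lit 86222116733) (nat_lit 193) (nat_lit 1) (nat_lit 192) (nat_lit 1) (nat_lit 195) (nat_lit 1) (nat_lit 257) (nat_lit 401) (nat_lit 362)) (XT.lf (nat_lit 152) (nat_lit 45282482443) (nat_lit 0) (nat_lit 47593638290) (nat_lit 76) (nat_lit 35245265252) (nat_lit 193) (nat_lit 1) (nat_lit 191)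 (nat_lit 1) (nat_lit 192) (nat_lit 1) (nat_lit 258) (nat_lit 401) (nat_lit 361)))) (XT.nd (nat_lit 78) (nat_lit 228) (nat_lit 0) (XT.lf (nat_lit 76) (nat_lit 33945937098) (nat_lit 0) (nat_lit 16174631637) (nat_lit 152) (nat_lit 74625174431) (nat_lit 190) (nat_lit 1) (nat_lit 189) (nat_lit 1) (nat_lit 191) (nat_lit 1) (nat_lit 259) (nat_lit 401) (nat_lit 360)) (XT.nd (nat_lit 78) (nat_lit 152) (nat_lit 0) (XT.lf (nat_lit 152) (nat_lit 47171028075) (nat_lit 0) (nat_lit 52492846521) (nat_lit 76) (nat_lit 21795971694) (nat_lit 190) (nat_lit 1) (nat_lit 188) (nat_lit 1) (nat_lit 189) (nat_lit 1) (nat_lit 260) (nat_lit 401) (nat_lit 359)) (XT.lf (nat_lit 76) (nat_lit 42938454194) (nat_lit 0) (nat_lit 12066486106) (nat_lit 152) (nat_lit 63270079867) (nat_lit 187) (nat_lit 1) (nat_lit 186) (nat_lit 1) (nat_lit 188) (nat_lit 1) (nat_lit 261) (nat_lit 401) (nat_lit 358))))) (XT.nd (nat_lit 234) (nat_lit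 456) (nat_lit 0) (XT.nd (nat_lit 78) (nat_lit 228) (nat_lit 0) (XT.lf (nat_lit 152) (nat_lit 47401967377) (nat_lit 0) (nat_lit 57455657665) (nat_lit 76) (nat_lit 10321436582) (nat_lit 187) (nat_lit 1) (nat_lit 185) (nat_lit 1) (nat_lit 186) (nat_lit 1) (nat_lit 262) (nat_lit 401) (nat_lit 357)) (XT.nd (nat_lit 78) (nat_lit 76) (nat_lit 0) (XT.lf (nat_lit 76) (nat_lit 50333026491) (nat_lit 0) (nat_lit 9543312234) (nat_lit 152) (nat_lit 52294574595) (nat_lit 184) (nat_lit 1) (nat_lit 183) (nat_lit 1) (nat_lit 185) (nat_lit 1) (nat_lit 263) (nat_lit 401) (nat_lit 356)) (XT.lf (nat_lit 152) (nat_lit 46387105865) (nat_lit 0) (nat_lit 62336271474) (nat_lit 76) (nat_lit 528018439) (nat_lit 184) (nat_lit 1) (nat_lit 182) (nat_lit 1) (nat_lit 183) (nat_lit 1) (nat_lit 264) (nat_lit 401) (nat_lit 355)))) (XT.nd (nat_lit 156) (nat_lit 228) (nat_lit 0) (XT.nd (nat_lit 78) (nat_lit 76) (nat_lit 0) (XT.lf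 (nat_lit 76) (nat_lit 56377816025) (nat_lit 0) (nat_lit 8232147957) (nat_lit 152) (nat_lit 41797397259) (nat_lit 181) (nat_lit 1) (nat_lit 180) (nat_lit 1) (nat_lit 182) (nat_lit 1) (nat_lit 265) (nat_lit 401) (nat_lit 354)) (XT.lf (nat_lit 0) (nat_lit 7579191576) (nat_lit 0) (nat_lit 59319315537) (nat_lit 152) (nat_lit 36747535253) (nat_lit 179) (nat_lit 3) (nat_lit 179) (nat_lit 1) (nat_lit 181) (nat_lit 1) (nat_lit 266) (nat_lit 401) (nat_lit 353))) (XT.nd (nat_lit 78) (nat_lit 76) (nat_lit 0) (XT.lf (nat_lit 76) (nat_lit 61279926755) (nat_lit 0) (nat_lit 7834707936) (nat_lit 152) (nat_lit 31846370916) (nat_lit 178) (nat_lit 1) (nat_lit 177) (nat_lit 1) (nat_lit 179) (nat_lit 1) (nat_lit 267) (nat_lit 401) (nat_lit 352)) (XT.lf (nat_lit 0) (nat_lit 14479059864) (nat_lit 0) (nat_lit 56725552091) (nat_lit 152) (nat_lit 27142865475) (nat_lit 176) (nat_lit 3) (nat_lit 176) (nat_lit 1) (nat_lit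 178) (nat_lit 1) (nat_lit 268) (nat_lit 401) (nat_lit 351))))))) (XT.nd (nat_lit 1014) (nat_lit 1596) (nat_lit 0) (XT.nd (nat_lit 468) (nat_lit 912) (nat_lit 0) (XT.nd (nat_lit 234) (nat_lit 304) (nat_lit 0) (XT.nd (nat_lit 78) (nat_lit 228) (nat_lit 0) (XT.lf (nat_lit 76) (nat_lit 65212597280) (nat_lit 0) (nat_lit 8113256335) (nat_lit 152) (nat_lit 22484946944) (nat_lit 175) (nat_lit 1) (nat_lit 174) (nat_lit 1) (nat_lit 176) (nat_lit 1) (nat_lit 269) (nat_lit 401) (nat_lit 350)) (XT.nd (nat_lit 78) (nat_lit 152) (nat_lit 0) (XT.lf (nat_lit 0) (nat_lit 20355946809) (nat_lit 0) (nat_lit 54850763769) (nat_lit 152) (nat_lit 18129235341) (nat_lit 173) (nat_lit 3) (nat_lit 173) (nat_lit 1) (nat_lit 175) (nat_lit 1) (nat_lit 270) (nat_lit 401) (nat_lit 349)) (XT.lf (nat_lit 76) (nat_lit 68321097021) (nat_lit 0) (nat_lit 8879098994) (nat_lit 152) (nat_lit 13737492393) (nat_lit 172) (nat_lit 1) (nat_lit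 171) (nat_lit 1) (nat_lit 173) (nat_lit 1) (nat_lit 271) (nat_lit 401) (nat_lit 348)))) (XT.nd (nat_lit 78) (nat_lit 228) (nat_lit 0) (XT.lf (nat_lit 0) (nat_lit 25351038547) (nat_lit 0) (nat_lit 53516510622) (nat_lit 152) (nat_lit 9725606770) (nat_lit 170) (nat_lit 3) (nat_lit 170) (nat_lit 1) (nat_lit 172) (nat_lit 1) (nat_lit 272) (nat_lit 401) (nat_lit 347)) (XT.nd (nat_lit 78) (nat_lit 76) (nat_lit 0) (XT.lf (nat_lit 76) (nat_lit 70727562273) (nat_lit 0) (nat_lit 9983212694) (nat_lit 152) (nat_lit 5613554786) (nat_lit 169) (nat_lit 1) (nat_lit 168) (nat_lit 1) (nat_lit 170) (nat_lit 1) (nat_lit 273) (nat_lit 401) (nat_lit 346)) (XT.lf (nat_lit 0) (nat_lit 29583744875) (nat_lit 0) (nat_lit 52581223544) (nat_lit 152) (nat_lit 1937470877) (nat_lit 167) (nat_lit 3) (nat_lit 167) (nat_lit 1) (nat_lit 169) (nat_lit 1) (nat_lit 274) (nat_lit 401) (nat_lit 345))))) (XT.nd (nat_lit 234) (nat_lit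 456) (nat_lit 0) (XT.nd (nat_lit 78) (nat_lit 228) (nat_lit 0) (XT.lf (nat_lit 152) (nat_lit 70614274342) (nat_lit 0) (nat_lit 1951153884) (nat_lit 76) (nat_lit 9387926903) (nat_lit 166) (nat_lit 1) (nat_lit 164) (nat_lit 1) (nat_lit 165) (nat_lit 1) (nat_lit 275) (nat_lit 401) (nat_lit 344)) (XT.nd (nat_lit 78) (nat_lit 152) (nat_lit 0) (XT.lf (nat_lit 76) (nat_lit 27826662122) (nat_lit 0) (nat_lit 5413247248) (nat_lit 76) (nat_lit 46604406152) (nat_lit 164) (nat_lit 3) (nat_lit 163) (nat_lit 1) (nat_lit 164) (nat_lit 1) (nat_lit 276) (nat_lit 401) (nat_lit 343)) (XT.lf (nat_lit 152) (nat_lit 64901929949) (nat_lit 0) (nat_lit 9070052870) (nat_lit 76) (nat_lit 3835729031) (nat_lit 163) (nat_lit 1) (nat_lit 161) (nat_lit 1) (nat_lit 162) (nat_lit 1) (nat_lit 277) (nat_lit 401) (nat_lit 342)))) (XT.nd (nat_lit 156) (nat_lit 228) (nat_lit 0) (XT.nd (nat_lit 78) (nat_lit 152) (nat_lit 0) (XT.lf (nat_lit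 76) (nat_lit 24132736992) (nat_lit 0) (nat_lit 12210163900) (nat_lit 76) (nat_lit 39465012149) (nat_lit 161) (nat_lit 3) (nat_lit 160) (nat_lit 1) (nat_lit 161) (nat_lit 1) (nat_lit 278) (nat_lit 401) (nat_lit 341)) (XT.lf (nat_lit 0) (nat_lit 1018602724) (nat_lit 0) (nat_lit 14539127554) (nat_lit 152) (nat_lit 58319966334) (nat_lit 158) (nat_lit 3) (nat_lit 158) (nat_lit 1) (nat_lit 160) (nat_lit 1) (nat_lit 279) (nat_lit 401) (nat_lit 340))) (XT.nd (nat_lit 78) (nat_lit 152) (nat_lit 0) (XT.lf (nat_lit 76) (nat_lit 20527347525) (nat_lit 0) (nat_lit 18408152238) (nat_lit 76) (nat_lit 33046351997) (nat_lit 158) (nat_lit 3) (nat_lit 157) (nat_lit 1) (nat_lit 158) (nat_lit 1) (nat_lit 280) (nat_lit 401) (nat_lit 339)) (XT.lf (nat_lit 0) (nat_lit 5180390073) (nat_lit 0) (nat_lit 16220076556) (nat_lit 152) (nat_lit 48748729819) (nat_lit 155) (nat_lit 3) (nat_lit 155) (nat_lit 1) (nat_lit 157) (nat_lit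 1) (nat_lit 281) (nat_lit 401) (nat_lit 338)))))) (XT.nd (nat_lit 546) (nat_lit 836) (nat_lit 0) (XT.nd (nat_lit 234) (nat_lit 456) (nat_lit 0) (XT.nd (nat_lit 78) (nat_lit 228) (nat_lit 0) (XT.lf (nat_lit 76) (nat_lit 17050906349) (nat_lit 0) (nat_lit 24030405720) (nat_lit 76) (nat_lit 27272838278) (nat_lit 155) (nat_lit 3) (nat_lit 154) (nat_lit 1) (nat_lit 155) (nat_lit 1) (nat_lit 282) (nat_lit 401) (nat_lit 337)) (XT.nd (nat_lit 78) (nat_lit 76) (nat_lit 0) (XT.lf (nat_lit 0) (nat_lit 8835823351) (nat_lit 0) (nat_lit 17849872671) (nat_lit 152) (nat_lit 39927956573) (nat_lit 152) (nat_lit 3) (nat_lit 152) (nat_lit 1) (nat_lit 154) (nat_lit 1) (nat_lit 283) (nat_lit 401) (nat_lit 336)) (XT.lf (nat_lit 76) (nat_lit 13732146196) (nat_lit 0) (nat_lit 29103049618) (nat_lit 76) (nat_lit 22078488159) (nat_lit 152) (nat_lit 3) (nat_lit 151) (nat_lit 1) (nat_lit 152) (nat_lit 1) (nat_lit 284) (nat_lit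 401) (nat_lit 335)))) (XT.nd (nat_lit 156) (nat_lit 228) (nat_lit 0) (XT.nd (nat_lit 78) (nat_lit 76) (nat_lit 0) (XT.lf (nat_lit 0) (nat_lit 12040121033) (nat_lit 0) (nat_lit 19400210947) (nat_lit 152) (nat_lit 31819989362) (nat_lit 149) (nat_lit 3) (nat_lit 149) (nat_lit 1) (nat_lit 151) (nat_lit 1) (nat_lit 285) (nat_lit 401) (nat_lit 334)) (XT.lf (nat_lit 76) (nat_lit 10590551922) (nat_lit 0) (nat_lit 33654093223) (nat_lit 76) (nat_lit 17405449991) (nat_lit 149) (nat_lit 3) (nat_lit 148) (nat_lit 1) (nat_lit 149) (nat_lit 1) (nat_lit 286) (nat_lit 401) (nat_lit 333))) (XT.nd (nat_lit 78) (nat_lit 76) (nat_lit 0) (XT.lf (nat_lit 0) (nat_lit 14841558201) (nat_lit 0) (nat_lit 20851168492) (nat_lit 152) (nat_lit 24386459580) (nat_lit 146) (nat_lit 3) (nat_lit 146) (nat_lit 1) (nat_lit 148) (nat_lit 1) (nat_lit 287) (nat_lit 401) (nat_lit 332)) (XT.lf (nat_lit 76) (nat_lit 7638327825) (nat_lit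 0) (nat_lit 37712607782) (nat_lit 76) (nat_lit 13202781797) (nat_lit 146) (nat_lit 3) (nat_lit 145) (nat_lit 1) (nat_lit 146) (nat_lit 1) (nat_lit 288) (nat_lit 401) (nat_lit 331))))) (XT.nd (nat_lit 234) (nat_lit 456) (nat_lit 0) (XT.nd (nat_lit 78) (nat_lit 228) (nat_lit 0) (XT.lf (nat_lit 0) (nat_lit 17282512392) (nat_lit 0) (nat_lit 22189438294) (nat_lit 152) (nat_lit 17588937203) (nat_lit 143) (nat_lit 3) (nat_lit 143) (nat_lit 1) (nat_lit 145) (nat_lit 1) (nat_lit 289) (nat_lit 401) (nat_lit 330)) (XT.nd (nat_lit 78) (nat_lit 152) (nat_lit 0) (XT.lf (nat_lit 76) (nat_lit 4881986659) (nat_lit 0) (nat_lit 41308086618) (nat_lit 76) (nat_lit 9425436568) (nat_lit 143) (nat_lit 3) (nat_lit 142) (nat_lit 1) (nat_lit 143) (nat_lit 1) (nat_lit 290) (nat_lit 401) (nat_lit 329)) (XT.lf (nat_lit 0) (nat_lit 19400332576) (nat_lit 0) (nat_lit 23406902161) (nat_lit 152) (nat_lit 11389428166) (nat_lit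 140) (nat_lit 3) (nat_lit 140) (nat_lit 1) (nat_lit 142) (nat_lit 1) (nat_lit 291) (nat_lit 401) (nat_lit 328)))) (XT.nd (nat_lit 156) (nat_lit 228) (nat_lit 0) (XT.nd (nat_lit 78) (nat_lit 152) (nat_lit 0) (XT.lf (nat_lit 76) (nat_lit 2323630833) (nat_lit 0) (nat_lit 44469952069) (nat_lit 76) (nat_lit 6033417485) (nat_lit 140) (nat_lit 3) (nat_lit 139) (nat_lit 1) (nat_lit 140) (nat_lit 1) (nat_lit 292) (nat_lit 401) (nat_lit 327)) (XT.lf (nat_lit 0) (nat_lit 21228062807) (nat_lit 0) (nat_lit 24499479608) (nat_lit 152) (nat_lit 5750749237) (nat_lit 137) (nat_lit 3) (nat_lit 137) (nat_lit 1) (nat_lit 139) (nat_lit 1) (nat_lit 293) (nat_lit 401) (nat_lit 326))) (XT.nd (nat_lit 78) (nat_lit 76) (nat_lit 0) (XT.lf (nat_lit 76) (nat_lit 47189757250) (nat_lit 0) (nat_lit 36799952) (nat_lit 152) (nat_lit 2953649727) (nat_lit 136) (nat_lit 1) (nat_lit 135) (nat_lit 1) (nat_lit 137) (nat_lit 1) (nat_lit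 294) (nat_lit 401) (nat_lit 325)) (XT.lf (nat_lit 0) (nat_lit 22795046298) (nat_lit 0) (nat_lit 25466201175) (nat_lit 152) (nat_lit 636804775) (nat_lit 134) (nat_lit 3) (nat_lit 134) (nat_lit 1) (nat_lit 136) (nat_lit 1) (nat_lit 295) (nat_lit 401) (nat_lit 324))))))))
noncomputable def ec185 : XT := (XT.nd (nat_lit 2106) (nat_lit 3192) (nat_lit 0) (XT.nd (nat_lit 1014) (nat_lit 1672) (nat_lit 0) (XT.nd (nat_lit 468) (nat_lit 836) (nat_lit 0) (XT.nd (nat_lit 234) (nat_lit 304) (nat_lit 0) (XT.nd (nat_lit 78) (nat_lit 228) (nat_lit 0) (XT.lf (nat_lit 152) (nat_lit 45497589723) (nat_lit 0) (nat_lit 1968839841) (nat_lit 76) (nat_lit 198053521) (nat_lit 133) (nat_lit 1) (nat_lit 131) (nat_lit 1) (nat_lit 132) (nat_lit 1) (nat_lit 296) (nat_lit 401) (nat_lit 323)) (XT.nd (nat_lit 78) (nat_lit 152) (nat_lit 0) (XT.lf (nat_lit 76) (nat_lit 20072690843) (nat_lit 0) (nat_lit 4119050116) (nat_lit 76) (nat_lit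 22253723958) (nat_lit 131) (nat_lit 3) (nat_lit 130) (nat_lit 1) (nat_lit 131) (nat_lit 1) (nat_lit 297) (nat_lit 401) (nat_lit 322)) (XT.lf (nat_lit 0) (nat_lit 2269110276) (nat_lit 0) (nat_lit 4192419901) (nat_lit 152) (nat_lit 38810778085) (nat_lit 128) (nat_lit 3) (nat_lit 128) (nat_lit 1) (nat_lit 130) (nat_lit 1) (nat_lit 298) (nat_lit 401) (nat_lit 321)))) (XT.nd (nat_lit 78) (nat_lit 228) (nat_lit 0) (XT.lf (nat_lit 76) (nat_lit 16955793825) (nat_lit 0) (nat_lit 8424327799) (nat_lit 76) (nat_lit 18736636071) (nat_lit 128) (nat_lit 3) (nat_lit 127) (nat_lit 1) (nat_lit 128) (nat_lit 1) (nat_lit 299) (nat_lit 401) (nat_lit 320)) (XT.nd (nat_lit 78) (nat_lit 76) (nat_lit 0) (XT.lf (nat_lit 0) (nat_lit 4464934531) (nat_lit 0) (nat_lit 6035342155) (nat_lit 152) (nat_lit 32501013517) (nat_lit 125) (nat_lit 3) (nat_lit 125) (nat_lit 1) (nat_lit 127) (nat_lit 1) (nat_lit 300) (nat_lit 401) (nat_lit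 319)) (XT.lf (nat_lit 76) (nat_lit 14080490761) (nat_lit 0) (nat_lit 12290904510) (nat_lit 76) (nat_lit 15534571895) (nat_lit 125) (nat_lit 3) (nat_lit 124) (nat_lit 1) (nat_lit 125) (nat_lit 1) (nat_lit 301) (nat_lit 401) (nat_lit 318))))) (XT.nd (nat_lit 234) (nat_lit 456) (nat_lit 0) (XT.nd (nat_lit 78) (nat_lit 228) (nat_lit 0) (XT.lf (nat_lit 0) (nat_lit 6418953318) (nat_lit 0) (nat_lit 7701211813) (nat_lit 152) (nat_lit 26725112851) (nat_lit 122) (nat_lit 3) (nat_lit 122) (nat_lit 1) (nat_lit 124) (nat_lit 1) (nat_lit 302) (nat_lit 401) (nat_lit 317)) (XT.nd (nat_lit 78) (nat_lit 152) (nat_lit 0) (XT.lf (nat_lit 76) (nat_lit 11434800631) (nat_lit 0) (nat_lit 15750102829) (nat_lit 76) (nat_lit 12622077015) (nat_lit 122) (nat_lit 3) (nat_lit 121) (nat_lit 1) (nat_lit 122) (nat_lit 1) (nat_lit 303) (nat_lit 401) (nat_lit 316)) (XT.lf (nat_lit 0) (nat_lit 8152223157) (nat_lit 0) (nat_lit 9199204095)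 (nat_lit 152) (nat_lit 21446890778) (nat_lit 119) (nat_lit 3) (nat_lit 119) (nat_lit 1) (nat_lit 121) (nat_lit 1) (nat_lit 304) (nat_lit 401) (nat_lit 315)))) (XT.nd (nat_lit 156) (nat_lit 228) (nat_lit 0) (XT.nd (nat_lit 78) (nat_lit 152) (nat_lit 0) (XT.lf (nat_lit 76) (nat_lit 9006489923) (nat_lit 0) (nat_lit 18831617191) (nat_lit 76) (nat_lit 9975916718) (nat_lit 119) (nat_lit 3) (nat_lit 118) (nat_lit 1) (nat_lit 119) (nat_lit 1) (nat_lit 305) (nat_lit 401) (nat_lit 314)) (XT.lf (nat_lit 0) (nat_lit 9683903884) (nat_lit 0) (nat_lit 10538777601) (nat_lit 152) (nat_lit 16632103499) (nat_lit 116) (nat_lit 3) (nat_lit 116) (nat_lit 1) (nat_lit 118) (nat_lit 1) (nat_lit 306) (nat_lit 401) (nat_lit 313))) (XT.nd (nat_lit 78) (nat_lit 152) (nat_lit 0) (XT.lf (nat_lit 76) (nat_lit 6783285554) (nat_lit 0) (nat_lit 21563519100) (nat_lit 76) (nat_lit 7574835292) (nat_lit 116) (nat_lit 3) (nat_lit 115)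 (nat_lit 1) (nat_lit 116) (nat_lit 1) (nat_lit 307) (nat_lit 401) (nat_lit 312)) (XT.lf (nat_lit 0) (nat_lit 11031466063) (nat_lit 0) (nat_lit 11729481705) (nat_lit 152) (nat_lit 12248412432) (nat_lit 113) (nat_lit 3) (nat_lit 113) (nat_lit 1) (nat_lit 115) (nat_lit 1) (nat_lit 308) (nat_lit 401) (nat_lit 311)))))) (XT.nd (nat_lit 546) (nat_lit 760) (nat_lit 0) (XT.nd (nat_lit 234) (nat_lit 608) (nat_lit 0) (XT.nd (nat_lit 78) (nat_lit 228) (nat_lit 0) (XT.lf (nat_lit 76) (nat_lit 4753038047) (nat_lit 0) (nat_lit 23972280693) (nat_lit 76) (nat_lit 5399348827) (nat_lit 113) (nat_lit 3) (nat_lit 112) (nat_lit 1) (nat_lit 113) (nat_lit 1) (nat_lit 309) (nat_lit 401) (nat_lit 310)) (XT.nd (nat_lit 78) (nat_lit 76) (nat_lit 0) (XT.lf (nat_lit 0) (nat_lit 12210869607) (nat_lit 0) (nat_lit 12780808566) (nat_lit 152) (nat_lit 8265334064) (nat_lit 110) (nat_lit 3) (nat_lit 110) (nat_lit 1) (nat_lit 112)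 (nat_lit 1) (nat_lit 310) (nat_lit 401) (nat_lit 309)) (XT.lf (nat_lit 76) (nat_lit 2903844764) (nat_lit 0) (nat_lit 26082812088) (nat_lit 76) (nat_lit 3431566023) (nat_lit 110) (nat_lit 3) (nat_lit 109) (nat_lit 1) (nat_lit 110) (nat_lit 1) (nat_lit 311) (nat_lit 401) (nat_lit 308)))) (XT.nd (nat_lit 156) (nat_lit 380) (nat_lit 0) (XT.nd (nat_lit 78) (nat_lit 76) (nat_lit 0) (XT.lf (nat_lit 0) (nat_lit 13236718313) (nat_lit 0) (nat_lit 13702080975) (nat_lit 152) (nat_lit 4654179765) (nat_lit 107) (nat_lit 3) (nat_lit 107) (nat_lit 1) (nat_lit 109) (nat_lit 1) (nat_lit 312) (nat_lit 401) (nat_lit 307)) (XT.lf (nat_lit 76) (nat_lit 1224141138) (nat_lit 0) (nat_lit 27918508841) (nat_lit 76) (nat_lit 1655032491) (nat_lit 107) (nat_lit 3) (nat_lit 106) (nat_lit 1) (nat_lit 107) (nat_lit 1) (nat_lit 313) (nat_lit 401) (nat_lit 306))) (XT.nd (nat_lit 78) (nat_lit 228) (nat_lit 0) (XT.lf (nat_lit 0)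 (nat_lit 14122394181) (nat_lit 0) (nat_lit 14502368919) (nat_lit 152) (nat_lit 1387988590) (nat_lit 104) (nat_lit 3) (nat_lit 104) (nat_lit 1) (nat_lit 106) (nat_lit 1) (nat_lit 314) (nat_lit 401) (nat_lit 305)) (XT.lf (nat_lit 152) (nat_lit 28966684793) (nat_lit 0) (nat_lit 245867474) (nat_lit 76) (nat_lit 45691518) (nat_lit 103) (nat_lit 1) (nat_lit 101) (nat_lit 1) (nat_lit 102) (nat_lit 1) (nat_lit 315) (nat_lit 401) (nat_lit 304))))) (XT.nd (nat_lit 234) (nat_lit 456) (nat_lit 0) (XT.nd (nat_lit 78) (nat_lit 228) (nat_lit 0) (XT.lf (nat_lit 76) (nat_lit 13295235481) (nat_lit 0) (nat_lit 1610077036) (nat_lit 76) (nat_lit 13605489856) (nat_lit 101) (nat_lit 3) (nat_lit 100) (nat_lit 1) (nat_lit 101) (nat_lit 1) (nat_lit 316) (nat_lit 401) (nat_lit 303)) (XT.nd (nat_lit 78) (nat_lit 76) (nat_lit 0) (XT.lf (nat_lit 0) (nat_lit 1415597140) (nat_lit 0) (nat_lit 1689190064) (nat_lit 152) (nat_lit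 24687354843) (nat_lit 98) (nat_lit 3) (nat_lit 98) (nat_lit 1) (nat_lit 100) (nat_lit 1) (nat_lit 317) (nat_lit 401) (nat_lit 302)) (XT.lf (nat_lit 76) (nat_lit 11240908671) (nat_lit 0) (nat_lit 4348316522) (nat_lit 76) (nat_lit 11494235452) (nat_lit 98) (nat_lit 3) (nat_lit 97) (nat_lit 1) (nat_lit 98) (nat_lit 1) (nat_lit 318) (nat_lit 401) (nat_lit 301)))) (XT.nd (nat_lit 156) (nat_lit 228) (nat_lit 0) (XT.nd (nat_lit 78) (nat_lit 76) (nat_lit 0) (XT.lf (nat_lit 0) (nat_lit 2724127099) (nat_lit 0) (nat_lit 2947519322) (nat_lit 152) (nat_lit 20728263323) (nat_lit 95) (nat_lit 3) (nat_lit 95) (nat_lit 1) (nat_lit 97) (nat_lit 1) (nat_lit 319) (nat_lit 401) (nat_lit 300)) (XT.lf (nat_lit 76) (nat_lit 9358679323) (nat_lit 0) (nat_lit 6803789368) (nat_lit 76) (nat_lit 9565523974) (nat_lit 95) (nat_lit 3) (nat_lit 94) (nat_lit 1) (nat_lit 95) (nat_lit 1) (nat_lit 320) (nat_lit 401) (nat_lit 299)))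 (XT.nd (nat_lit 78) (nat_lit 76) (nat_lit 0) (XT.lf (nat_lit 0) (nat_lit 3893398123) (nat_lit 0) (nat_lit 4075800813) (nat_lit 152) (nat_lit 17108622681) (nat_lit 92) (nat_lit 3) (nat_lit 92) (nat_lit 1) (nat_lit 94) (nat_lit 1) (nat_lit 321) (nat_lit 401) (nat_lit 298)) (XT.lf (nat_lit 76) (nat_lit 7636941680) (nat_lit 0) (nat_lit 8997971142) (nat_lit 76) (nat_lit 7805833060) (nat_lit 92) (nat_lit 3) (nat_lit 91) (nat_lit 1) (nat_lit 92) (nat_lit 1) (nat_lit 322) (nat_lit 401) (nat_lit 297))))))) (XT.nd (nat_lit 1014) (nat_lit 1596) (nat_lit 0) (XT.nd (nat_lit 468) (nat_lit 912) (nat_lit 0) (XT.nd (nat_lit 234) (nat_lit 304) (nat_lit 0) (XT.nd (nat_lit 78) (nat_lit 228) (nat_lit 0) (XT.lf (nat_lit 0) (nat_lit 4934544920) (nat_lit 0) (nat_lit 5083479117) (nat_lit 152) (nat_lit 13804288262) (nat_lit 89) (nat_lit 3) (nat_lit 89) (nat_lit 1) (nat_lit 91) (nat_lit 1) (nat_lit 323) (nat_lit 401) (nat_lit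 296)) (XT.nd (nat_lit 78) (nat_lit 152) (nat_lit 0) (XT.lf (nat_lit 76) (nat_lit 6064708699) (nat_lit 0) (nat_lit 10950937788) (nat_lit 76) (nat_lit 6202610734) (nat_lit 89) (nat_lit 3) (nat_lit 88) (nat_lit 1) (nat_lit 89) (nat_lit 1) (nat_lit 324) (nat_lit 401) (nat_lit 295)) (XT.lf (nat_lit 0) (nat_lit 5857872454) (nat_lit 0) (nat_lit 5979479186) (nat_lit 152) (nat_lit 10792649542) (nat_lit 86) (nat_lit 3) (nat_lit 86) (nat_lit 1) (nat_lit 88) (nat_lit 1) (nat_lit 325) (nat_lit 401) (nat_lit 294)))) (XT.nd (nat_lit 78) (nat_lit 228) (nat_lit 0) (XT.lf (nat_lit 76) (nat_lit 4631601135) (nat_lit 0) (nat_lit 12681441573) (nat_lit 76) (nat_lit 4744199961) (nat_lit 86) (nat_lit 3) (nat_lit 85) (nat_lit 1) (nat_lit 86) (nat_lit 1) (nat_lit 326) (nat_lit 401) (nat_lit 293)) (XT.nd (nat_lit 78) (nat_lit 76) (nat_lit 0) (XT.lf (nat_lit 0) (nat_lit 6672921553) (nat_lit 0) (nat_lit 6772215051) (nat_lit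 152) (nat_lit 8052545703) (nat_lit 83) (nat_lit 3) (nat_lit 83) (nat_lit 1) (nat_lit 85) (nat_lit 1) (nat_lit 327) (nat_lit 401) (nat_lit 292)) (XT.lf (nat_lit 76) (nat_lit 3327832057) (nat_lit 0) (nat_lit 14206984995) (nat_lit 76) (nat_lit 3419770481) (nat_lit 83) (nat_lit 3) (nat_lit 82) (nat_lit 1) (nat_lit 83) (nat_lit 1) (nat_lit 328) (nat_lit 401) (nat_lit 291))))) (XT.nd (nat_lit 234) (nat_lit 532) (nat_lit 0) (XT.nd (nat_lit 78) (nat_lit 228) (nat_lit 0) (XT.lf (nat_lit 0) (nat_lit 7388528193) (nat_lit 0) (nat_lit 7469602640) (nat_lit 152) (nat_lit 5564184077) (nat_lit 80) (nat_lit 3) (nat_lit 80) (nat_lit 1) (nat_lit 82) (nat_lit 1) (nat_lit 329) (nat_lit 401) (nat_lit 290)) (XT.nd (nat_lit 78) (nat_lit 152) (nat_lit 0) (XT.lf (nat_lit 76) (nat_lit 2144188049) (nat_lit 0) (nat_lit 15543892273) (nat_lit 76) (nat_lit 2219256982) (nat_lit 80) (nat_lit 3) (nat_lit 79) (nat_lit 1) (nat_lit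 80) (nat_lit 1) (nat_lit 330) (nat_lit 401) (nat_lit 289)) (XT.lf (nat_lit 0) (nat_lit 8012877239) (nat_lit 0) (nat_lit 8079075592) (nat_lit 152) (nat_lit 3309061706) (nat_lit 77) (nat_lit 3) (nat_lit 77) (nat_lit 1) (nat_lit 79) (nat_lit 1) (nat_lit 331) (nat_lit 401) (nat_lit 288)))) (XT.nd (nat_lit 156) (nat_lit 304) (nat_lit 0) (XT.nd (nat_lit 78) (nat_lit 152) (nat_lit 0) (XT.lf (nat_lit 76) (nat_lit 1072008073) (nat_lit 0) (nat_lit 16707378169) (nat_lit 76) (nat_lit 1133302845) (nat_lit 77) (nat_lit 3) (nat_lit 76) (nat_lit 1) (nat_lit 77) (nat_lit 1) (nat_lit 332) (nat_lit 401) (nat_lit 287)) (XT.lf (nat_lit 0) (nat_lit 8553551353) (nat_lit 0) (nat_lit 8607603180) (nat_lit 152) (nat_lit 1269890185) (nat_lit 74) (nat_lit 3) (nat_lit 74) (nat_lit 1) (nat_lit 76) (nat_lit 1) (nat_lit 333) (nat_lit 401) (nat_lit 286))) (XT.nd (nat_lit 78) (nat_lit 228) (nat_lit 0) (XT.lf (nat_lit 76) (nat_lit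 103160796) (nat_lit 0) (nat_lit 17711613967) (nat_lit 76) (nat_lit 153208784) (nat_lit 74) (nat_lit 3) (nat_lit 73) (nat_lit 1) (nat_lit 74) (nat_lit 1) (nat_lit 334) (nat_lit 401) (nat_lit 285)) (XT.lf (nat_lit 76) (nat_lit 8438455117) (nat_lit 0) (nat_lit 588305592) (nat_lit 76) (nat_lit 8482589146) (nat_lit 71) (nat_lit 3) (nat_lit 70) (nat_lit 1) (nat_lit 71) (nat_lit 1) (nat_lit 335) (nat_lit 401) (nat_lit 284)))))) (XT.nd (nat_lit 546) (nat_lit 760) (nat_lit 0) (XT.nd (nat_lit 234) (nat_lit 456) (nat_lit 0) (XT.nd (nat_lit 78) (nat_lit 228) (nat_lit 0) (XT.lf (nat_lit 0) (nat_lit 742374801) (nat_lit 0) (nat_lit 781293697) (nat_lit 152) (nat_lit 15544629800) (nat_lit 68) (nat_lit 3) (nat_lit 68) (nat_lit 1) (nat_lit 70) (nat_lit 1) (nat_lit 336) (nat_lit 401) (nat_lit 283)) (XT.nd (nat_lit 78) (nat_lit 152) (nat_lit 0) (XT.lf (nat_lit 76) (nat_lit 7149683413) (nat_lit 0) (nat_lit 2297647645)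 (nat_lit 76) (nat_lit 7185719428) (nat_lit 68) (nat_lit 3) (nat_lit 67) (nat_lit 1) (nat_lit 68) (nat_lit 1) (nat_lit 337) (nat_lit 401) (nat_lit 282)) (XT.lf (nat_lit 0) (nat_lit 1547193332) (nat_lit 0) (nat_lit 1578971123) (nat_lit 152) (nat_lit 13087349248) (nat_lit 65) (nat_lit 3) (nat_lit 65) (nat_lit 1) (nat_lit 67) (nat_lit 1) (nat_lit 338) (nat_lit 401) (nat_lit 281)))) (XT.nd (nat_lit 156) (nat_lit 228) (nat_lit 0) (XT.nd (nat_lit 78) (nat_lit 152) (nat_lit 0) (XT.lf (nat_lit 76) (nat_lit 5970361542) (nat_lit 0) (nat_lit 3830674599) (nat_lit 76) (nat_lit 5999785422) (nat_lit 65) (nat_lit 3) (nat_lit 64) (nat_lit 1) (nat_lit 65) (nat_lit 1) (nat_lit 339) (nat_lit 401) (nat_lit 280)) (XT.lf (nat_lit 0) (nat_lit 2267436222) (nat_lit 0) (nat_lit 2293383206) (nat_lit 152) (nat_lit 10840926256) (nat_lit 62) (nat_lit 3) (nat_lit 62) (nat_lit 1) (nat_lit 64) (nat_lit 1) (nat_lit 340) (nat_lit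 401) (nat_lit 279))) (XT.nd (nat_lit 78) (nat_lit 152) (nat_lit 0) (XT.lf (nat_lit 76) (nat_lit 4892737251) (nat_lit 0) (nat_lit 5200934423) (nat_lit 76) (nat_lit 4916762237) (nat_lit 62) (nat_lit 3) (nat_lit 61) (nat_lit 1) (nat_lit 62) (nat_lit 1) (nat_lit 341) (nat_lit 401) (nat_lit 278)) (XT.lf (nat_lit 0) (nat_lit 2909705632) (nat_lit 0) (nat_lit 2930891687) (nat_lit 152) (nat_lit 8790219775) (nat_lit 59) (nat_lit 3) (nat_lit 59) (nat_lit 1) (nat_lit 61) (nat_lit 1) (nat_lit 342) (nat_lit 401) (nat_lit 277))))) (XT.nd (nat_lit 234) (nat_lit 456) (nat_lit 0) (XT.nd (nat_lit 78) (nat_lit 228) (nat_lit 0) (XT.lf (nat_lit 76) (nat_lit 3909549432) (nat_lit 0) (nat_lit 6421056498) (nat_lit 76) (nat_lit 3929166149) (nat_lit 59) (nat_lit 3) (nat_lit 58) (nat_lit 1) (nat_lit 59) (nat_lit 1) (nat_lit 343) (nat_lit 401) (nat_lit 276)) (XT.nd (nat_lit 78) (nat_lit 76) (nat_lit 0) (XT.lf (nat_lit 0)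 (nat_lit 3480140772) (nat_lit 0) (nat_lit 3497439465) (nat_lit 152) (nat_lit 6921081654) (nat_lit 56) (nat_lit 3) (nat_lit 56) (nat_lit 1) (nat_lit 58) (nat_lit 1) (nat_lit 344) (nat_lit 401) (nat_lit 275)) (XT.lf (nat_lit 76) (nat_lit 3014001201) (nat_lit 0) (nat_lit 7502808724) (nat_lit 76) (nat_lit 3030018509) (nat_lit 56) (nat_lit 3) (nat_lit 55) (nat_lit 1) (nat_lit 56) (nat_lit 1) (nat_lit 345) (nat_lit 401) (nat_lit 274)))) (XT.nd (nat_lit 156) (nat_lit 228) (nat_lit 0) (XT.nd (nat_lit 78) (nat_lit 76) (nat_lit 0) (XT.lf (nat_lit 0) (nat_lit 3984449455) (nat_lit 0) (nat_lit 3998574065) (nat_lit 152) (nat_lit 5220295845) (nat_lit 53) (nat_lit 3) (nat_lit 53) (nat_lit 1) (nat_lit 55) (nat_lit 1) (nat_lit 346) (nat_lit 401) (nat_lit 273)) (XT.lf (nat_lit 76) (nat_lit 2199733877) (nat_lit 0) (nat_lit 8457151473) (nat_lit 76) (nat_lit 2212812220) (nat_lit 53) (nat_lit 3) (nat_lit 52) (nat_lit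 1) (nat_lit 53) (nat_lit 1) (nat_lit 347) (nat_lit 401) (nat_lit 272))) (XT.nd (nat_lit 78) (nat_lit 76) (nat_lit 0) (XT.lf (nat_lit 0) (nat_lit 4427937387) (nat_lit 0) (nat_lit 4439470317) (nat_lit 152) (nat_lit 3675520986) (nat_lit 50) (nat_lit 3) (nat_lit 50) (nat_lit 1) (nat_lit 52) (nat_lit 1) (nat_lit 348) (nat_lit 401) (nat_lit 271)) (XT.lf (nat_lit 76) (nat_lit 1460801945) (nat_lit 0) (nat_lit 9294288508) (nat_lit 76) (nat_lit 1471480584) (nat_lit 50) (nat_lit 3) (nat_lit 49) (nat_lit 1) (nat_lit 50) (nat_lit 1) (nat_lit 349) (nat_lit 401) (nat_lit 270))))))))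
noncomputable def ec186 : XT := (XT.nd (nat_lit 2028) (nat_lit 532) (nat_lit 0) (XT.nd (nat_lit 1014) (nat_lit 1596) (nat_lit 0) (XT.nd (nat_lit 468) (nat_lit 760) (nat_lit 0) (XT.nd (nat_lit 234) (nat_lit 456) (nat_lit 0) (XT.nd (nat_lit 78) (nat_lit 228) (nat_lit 0) (XT.lf (nat_lit 0) (nat_lit 4815535374) (nat_lit 0) (nat_lit 4824952164) (nat_lit 152) (nat_lit 2275236226) (nat_lit 47) (nat_lit 3) (nat_lit 47) (nat_lit 1) (nat_lit 49) (nat_lit 1) (nat_lit 350) (nat_lit 401) (nat_lit 269)) (XT.nd (nat_lit 78) (nat_lit 152) (nat_lit 0) (XT.lf (nat_lit 76) (nat_lit 791649047) (nat_lit 0) (nat_lit 10023714987) (nat_lit 76) (nat_lit 800368296) (nat_lit 47) (nat_lit 3) (nat_lit 46) (nat_lit 1) (nat_lit 47) (nat_lit 1) (nat_lit 351) (nat_lit 401) (nat_lit 268)) (XT.lf (nat_lit 0) (nat_lit 5151824620) (nat_lit 0) (nat_lit 5159513552) (nat_lit 152) (nat_lit 1008690152) (nat_lit 44) (nat_lit 3) (nat_lit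 44) (nat_lit 1) (nat_lit 46) (nat_lit 1) (nat_lit 352) (nat_lit 401) (nat_lit 267)))) (XT.nd (nat_lit 78) (nat_lit 380) (nat_lit 0) (XT.lf (nat_lit 76) (nat_lit 187085047) (nat_lit 0) (nat_lit 10654262692) (nat_lit 76) (nat_lit 194204429) (nat_lit 44) (nat_lit 3) (nat_lit 43) (nat_lit 1) (nat_lit 44) (nat_lit 1) (nat_lit 353) (nat_lit 401) (nat_lit 266)) (XT.nd (nat_lit 78) (nat_lit 152) (nat_lit 0) (XT.lf (nat_lit 76) (nat_lit 5304641085) (nat_lit 0) (nat_lit 138582856) (nat_lit 76) (nat_lit 5310919200) (nat_lit 41) (nat_lit 3) (nat_lit 40) (nat_lit 1) (nat_lit 41) (nat_lit 1) (nat_lit 354) (nat_lit 401) (nat_lit 265)) (XT.lf (nat_lit 0) (nat_lit 357878046) (nat_lit 0) (nat_lit 363414302) (nat_lit 152) (nat_lit 9762055976) (nat_lit 38) (nat_lit 3) (nat_lit 38) (nat_lit 1) (nat_lit 40) (nat_lit 1) (nat_lit 355) (nat_lit 401) (nat_lit 264))))) (XT.nd (nat_lit 234) (nat_lit 456) (nat_lit 0) (XT.nd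 (nat_lit 78) (nat_lit 228) (nat_lit 0) (XT.lf (nat_lit 76) (nat_lit 4504873310) (nat_lit 0) (nat_lit 1201072169) (nat_lit 76) (nat_lit 4509999473) (nat_lit 38) (nat_lit 3) (nat_lit 37) (nat_lit 1) (nat_lit 38) (nat_lit 1) (nat_lit 356) (nat_lit 401) (nat_lit 263)) (XT.nd (nat_lit 78) (nat_lit 76) (nat_lit 0) (XT.lf (nat_lit 0) (nat_lit 856554221) (nat_lit 0) (nat_lit 861074647) (nat_lit 152) (nat_lit 8240726493) (nat_lit 35) (nat_lit 3) (nat_lit 35) (nat_lit 1) (nat_lit 37) (nat_lit 1) (nat_lit 357) (nat_lit 401) (nat_lit 262)) (XT.lf (nat_lit 76) (nat_lit 3773093022) (nat_lit 0) (nat_lit 2154435046) (nat_lit 76) (nat_lit 3777278602) (nat_lit 35) (nat_lit 3) (nat_lit 34) (nat_lit 1) (nat_lit 35) (nat_lit 1) (nat_lit 358) (nat_lit 401) (nat_lit 261)))) (XT.nd (nat_lit 156) (nat_lit 228) (nat_lit 0) (XT.nd (nat_lit 78) (nat_lit 76) (nat_lit 0) (XT.lf (nat_lit 0) (nat_lit 1303199102) (nat_lit 0)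 (nat_lit 1306890090) (nat_lit 152) (nat_lit 6849687113) (nat_lit 32) (nat_lit 3) (nat_lit 32) (nat_lit 1) (nat_lit 34) (nat_lit 1) (nat_lit 359) (nat_lit 401) (nat_lit 260)) (XT.lf (nat_lit 76) (nat_lit 3104437821) (nat_lit 0) (nat_lit 3007067759) (nat_lit 76) (nat_lit 3107855402) (nat_lit 32) (nat_lit 3) (nat_lit 31) (nat_lit 1) (nat_lit 32) (nat_lit 1) (nat_lit 360) (nat_lit 401) (nat_lit 259))) (XT.nd (nat_lit 78) (nat_lit 76) (nat_lit 0) (XT.lf (nat_lit 0) (nat_lit 1701845747) (nat_lit 0) (nat_lit 1704859487) (nat_lit 152) (nat_lit 5579570345) (nat_lit 29) (nat_lit 3) (nat_lit 29) (nat_lit 1) (nat_lit 31) (nat_lit 1) (nat_lit 361) (nat_lit 401) (nat_lit 258)) (XT.lf (nat_lit 76) (nat_lit 2494363423) (nat_lit 0) (nat_lit 3766792713) (nat_lit 76) (nat_lit 2497153923) (nat_lit 29) (nat_lit 3) (nat_lit 28) (nat_lit 1) (nat_lit 29) (nat_lit 1) (nat_lit 362) (nat_lit 401) (nat_lit 257)))))) (XT.nd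 (nat_lit 468) (nat_lit 912) (nat_lit 0) (XT.nd (nat_lit 234) (nat_lit 304) (nat_lit 0) (XT.nd (nat_lit 78) (nat_lit 228) (nat_lit 0) (XT.lf (nat_lit 0) (nat_lit 2056248886) (nat_lit 0) (nat_lit 2058709644) (nat_lit 152) (nat_lit 4421626994) (nat_lit 26) (nat_lit 3) (nat_lit 26) (nat_lit 1) (nat_lit 28) (nat_lit 1) (nat_lit 363) (nat_lit 401) (nat_lit 256)) (XT.nd (nat_lit 78) (nat_lit 152) (nat_lit 0) (XT.lf (nat_lit 76) (nat_lit 1938624222) (nat_lit 0) (nat_lit 4440895079) (nat_lit 76) (nat_lit 1940902702) (nat_lit 26) (nat_lit 3) (nat_lit 25) (nat_lit 1) (nat_lit 26) (nat_lit 1) (nat_lit 364) (nat_lit 401) (nat_lit 255)) (XT.lf (nat_lit 0) (nat_lit 2369903095) (nat_lit 0) (nat_lit 2371912337) (nat_lit 152) (nat_lit 3367687478) (nat_lit 23) (nat_lit 3) (nat_lit 23) (nat_lit 1) (nat_lit 25) (nat_lit 1) (nat_lit 365) (nat_lit 401) (nat_lit 254)))) (XT.nd (nat_lit 78) (nat_lit 228) (nat_lit 0)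 (XT.lf (nat_lit 76) (nat_lit 1433254918) (nat_lit 0) (nat_lit 5036157214) (nat_lit 76) (nat_lit 1435115327) (nat_lit 23) (nat_lit 3) (nat_lit 22) (nat_lit 1) (nat_lit 23) (nat_lit 1) (nat_lit 366) (nat_lit 401) (nat_lit 253)) (XT.nd (nat_lit 78) (nat_lit 76) (nat_lit 0) (XT.lf (nat_lit 0) (nat_lit 2646059806) (nat_lit 0) (nat_lit 2647700378) (nat_lit 152) (nat_lit 2410125458) (nat_lit 20) (nat_lit 3) (nat_lit 20) (nat_lit 1) (nat_lit 22) (nat_lit 1) (nat_lit 367) (nat_lit 401) (nat_lit 252)) (XT.lf (nat_lit 76) (nat_lit 974553194) (nat_lit 0) (nat_lit 5558890988) (nat_lit 76) (nat_lit 976072242) (nat_lit 20) (nat_lit 3) (nat_lit 19) (nat_lit 1) (nat_lit 20) (nat_lit 1) (nat_lit 368) (nat_lit 401) (nat_lit 251))))) (XT.nd (nat_lit 234) (nat_lit 532) (nat_lit 0) (XT.nd (nat_lit 78) (nat_lit 228) (nat_lit 0) (XT.lf (nat_lit 0) (nat_lit 2887743215) (nat_lit 0) (nat_lit 2889082764) (nat_lit 152) (nat_lit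 1541823654) (nat_lit 17) (nat_lit 3) (nat_lit 17) (nat_lit 1) (nat_lit 19) (nat_lit 1) (nat_lit 369) (nat_lit 401) (nat_lit 250)) (XT.nd (nat_lit 78) (nat_lit 152) (nat_lit 0) (XT.lf (nat_lit 76) (nat_lit 559063371) (nat_lit 0) (nat_lit 6014968153) (nat_lit 76) (nat_lit 560303693) (nat_lit 17) (nat_lit 3) (nat_lit 16) (nat_lit 1) (nat_lit 17) (nat_lit 1) (nat_lit 370) (nat_lit 401) (nat_lit 249)) (XT.lf (nat_lit 0) (nat_lit 3097765178) (nat_lit 0) (nat_lit 3098858938) (nat_lit 152) (nat_lit 756141714) (nat_lit 14) (nat_lit 3) (nat_lit 14) (nat_lit 1) (nat_lit 16) (nat_lit 1) (nat_lit 371) (nat_lit 401) (nat_lit 248)))) (XT.nd (nat_lit 156) (nat_lit 304) (nat_lit 0) (XT.nd (nat_lit 78) (nat_lit 152) (nat_lit 0) (XT.lf (nat_lit 76) (nat_lit 183561010) (nat_lit 0) (nat_lit 6409848836) (nat_lit 76) (nat_lit 184573750) (nat_lit 14) (nat_lit 3) (nat_lit 13) (nat_lit 1) (nat_lit 14) (nat_lit 1) (nat_lit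 372) (nat_lit 401) (nat_lit 247)) (XT.lf (nat_lit 0) (nat_lit 3278739155) (nat_lit 0) (nat_lit 3279632224) (nat_lit 152) (nat_lit 46886033) (nat_lit 11) (nat_lit 3) (nat_lit 11) (nat_lit 1) (nat_lit 13) (nat_lit 1) (nat_lit 373) (nat_lit 401) (nat_lit 246))) (XT.nd (nat_lit 78) (nat_lit 76) (nat_lit 0) (XT.lf (nat_lit 0) (nat_lit 156687935) (nat_lit 0) (nat_lit 157475473) (nat_lit 152) (nat_lit 6124853976) (nat_lit 8) (nat_lit 3) (nat_lit 8) (nat_lit 1) (nat_lit 10) (nat_lit 1) (nat_lit 374) (nat_lit 401) (nat_lit 245)) (XT.lf (nat_lit 76) (nat_lit 2831353616) (nat_lit 0) (nat_lit 611283491) (nat_lit 76) (nat_lit 2832082819) (nat_lit 8) (nat_lit 3) (nat_lit 7) (nat_lit 1) (nat_lit 8) (nat_lit 1) (nat_lit 375) (nat_lit 401) (nat_lit 244))))))) (XT.nd (nat_lit 1014) (nat_lit 0) (nat_lit 0) (XT.nd (nat_lit 468) (nat_lit 0) (nat_lit 0) (XT.nd (nat_lit 234) (nat_lit 152) (nat_lit 0) (XT.nd (nat_lit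 78) (nat_lit 228) (nat_lit 0) (XT.lf (nat_lit 0) (nat_lit 466174042) (nat_lit 0) (nat_lit 466817078) (nat_lit 152) (nat_lit 5183559017) (nat_lit 5) (nat_lit 3) (nat_lit 5) (nat_lit 1) (nat_lit 7) (nat_lit 1) (nat_lit 376) (nat_lit 401) (nat_lit 243)) (XT.nd (nat_lit 78) (nat_lit 152) (nat_lit 0) (XT.lf (nat_lit 76) (nat_lit 2378296054) (nat_lit 0) (nat_lit 1203577643) (nat_lit 76) (nat_lit 2378891457) (nat_lit 5) (nat_lit 3) (nat_lit 4) (nat_lit 1) (nat_lit 5) (nat_lit 1) (nat_lit 377) (nat_lit 401) (nat_lit 242)) (XT.lf (nat_lit 0) (nat_lit 743554568) (nat_lit 0) (nat_lit 744079615) (nat_lit 152) (nat_lit 4322672697) (nat_lit 2) (nat_lit 3) (nat_lit 2) (nat_lit 1) (nat_lit 4) (nat_lit 1) (nat_lit 378) (nat_lit 401) (nat_lit 241)))) (XT.nd (nat_lit 78) (nat_lit 76) (nat_lit 0) (XT.lf (nat_lit 76) (nat_lit 1964238191) (nat_lit 0) (nat_lit 1733628726) (nat_lit 76) (nat_lit 1964724346) (nat_lit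 2) (nat_lit 3) (nat_lit 1) (nat_lit 1) (nat_lit 2) (nat_lit 1) (nat_lit 379) (nat_lit 401) (nat_lit 240)) (XT.nd (nat_lit 78) (nat_lit 0) (nat_lit 0) (XT.lf (nat_lit 0) (nat_lit 117422311733) (nat_lit 0) (nat_lit 0) (nat_lit 0) (nat_lit 0) (nat_lit 0) (nat_lit 0) (nat_lit 1) (nat_lit 0) (nat_lit 1) (nat_lit 0) (nat_lit 380) (nat_lit 401) (nat_lit 239)) (XT.lf (nat_lit 0) (nat_lit 117422278254) (nat_lit 0) (nat_lit 0) (nat_lit 0) (nat_lit 0) (nat_lit 0) (nat_lit 0) (nat_lit 1) (nat_lit 0) (nat_lit 1) (nat_lit 0) (nat_lit 381) (nat_lit 401) (nat_lit 238))))) (XT.nd (nat_lit 234) (nat_lit 0) (nat_lit 0) (XT.nd (nat_lit 78) (nat_lit 0) (nat_lit 0) (XT.lf (nat_lit 0) (nat_lit 117422247255) (nat_lit 0) (nat_lit 0) (nat_lit 0) (nat_lit 0) (nat_lit 0) (nat_lit 0) (nat_lit 1) (nat_lit 0) (nat_lit 1) (nat_lit 0) (nat_lit 382) (nat_lit 401) (nat_lit 237)) (XT.nd (nat_lit 78) (nat_lit 0) (nat_lit 0) (XT.lf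 (nat_lit 0) (nat_lit 117422218553) (nat_lit 0) (nat_lit 0) (nat_lit 0) (nat_lit 0) (nat_lit 0) (nat_lit 0) (nat_lit 1) (nat_lit 0) (nat_lit 1) (nat_lit 0) (nat_lit 383) (nat_lit 401) (nat_lit 236)) (XT.lf (nat_lit 0) (nat_lit 117422191977) (nat_lit 0) (nat_lit 0) (nat_lit 0) (nat_lit 0) (nat_lit 0) (nat_lit 0) (nat_lit 1) (nat_lit 0) (nat_lit 1) (nat_lit 0) (nat_lit 384) (nat_lit 401) (nat_lit 235)))) (XT.nd (nat_lit 156) (nat_lit 0) (nat_lit 0) (XT.nd (nat_lit 78) (nat_lit 0) (nat_lit 0) (XT.lf (nat_lit 0) (nat_lit 117422167369) (nat_lit 0) (nat_lit 0) (nat_lit 0) (nat_lit 0) (nat_lit 0) (nat_lit 0) (nat_lit 1) (nat_lit 0) (nat_lit 1) (nat_lit 0) (nat_lit 385) (nat_lit 401) (nat_lit 234)) (XT.lf (nat_lit 0) (nat_lit 117422144584) (nat_lit 0) (nat_lit 0) (nat_lit 0) (nat_lit 0) (nat_lit 0) (nat_lit 0) (nat_lit 1) (nat_lit 0) (nat_lit 1) (nat_lit 0) (nat_lit 386) (nat_lit 401) (nat_lit 233)))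 (XT.nd (nat_lit 78) (nat_lit 0) (nat_lit 0) (XT.lf (nat_lit 0) (nat_lit 117422123487) (nat_lit 0) (nat_lit 0) (nat_lit 0) (nat_lit 0) (nat_lit 0) (nat_lit 0) (nat_lit 1) (nat_lit 0) (nat_lit 1) (nat_lit 0) (nat_lit 387) (nat_lit 401) (nat_lit 232)) (XT.lf (nat_lit 0) (nat_lit 117422103952) (nat_lit 0) (nat_lit 0) (nat_lit 0) (nat_lit 0) (nat_lit 0) (nat_lit 0) (nat_lit 1) (nat_lit 0) (nat_lit 1) (nat_lit 0) (nat_lit 388) (nat_lit 401) (nat_lit 231)))))) (XT.nd (nat_lit 546) (nat_lit 0) (nat_lit 0) (XT.nd (nat_lit 234) (nat_lit 0) (nat_lit 0) (XT.nd (nat_lit 78) (nat_lit 0) (nat_lit 0) (XT.lf (nat_lit 0) (nat_lit 117422085865) (nat_lit 0) (nat_lit 0) (nat_lit 0) (nat_lit 0) (nat_lit 0) (nat_lit 0) (nat_lit 1) (nat_lit 0) (nat_lit 1) (nat_lit 0) (nat_lit 389) (nat_lit 401) (nat_lit 230)) (XT.nd (nat_lit 78) (nat_lit 0) (nat_lit 0) (XT.lf (nat_lit 0) (nat_lit 117422069117) (nat_lit 0) (nat_lit 0)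 (nat_lit 0) (nat_lit 0) (nat_lit 0) (nat_lit 0) (nat_lit 1) (nat_lit 0) (nat_lit 1) (nat_lit 0) (nat_lit 390) (nat_lit 401) (nat_lit 229)) (XT.lf (nat_lit 0) (nat_lit 117422053610) (nat_lit 0) (nat_lit 0) (nat_lit 0) (nat_lit 0) (nat_lit 0) (nat_lit 0) (nat_lit 1) (nat_lit 0) (nat_lit 1) (nat_lit 0) (nat_lit 391) (nat_lit 401) (nat_lit 228)))) (XT.nd (nat_lit 156) (nat_lit 0) (nat_lit 0) (XT.nd (nat_lit 78) (nat_lit 0) (nat_lit 0) (XT.lf (nat_lit 0) (nat_lit 117422039252) (nat_lit 0) (nat_lit 0) (nat_lit 0) (nat_lit 0) (nat_lit 0) (nat_lit 0) (nat_lit 1) (nat_lit 0) (nat_lit 1) (nat_lit 0) (nat_lit 392) (nat_lit 401) (nat_lit 227)) (XT.lf (nat_lit 0) (nat_lit 117422025957) (nat_lit 0) (nat_lit 0) (nat_lit 0) (nat_lit 0) (nat_lit 0) (nat_lit 0) (nat_lit 1) (nat_lit 0) (nat_lit 1) (nat_lit 0) (nat_lit 393) (nat_lit 401) (nat_lit 226))) (XT.nd (nat_lit 78) (nat_lit 0) (nat_lit 0) (XT.lf (nat_lit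 0) (nat_lit 117422013647) (nat_lit 0) (nat_lit 0) (nat_lit 0) (nat_lit 0) (nat_lit 0) (nat_lit 0) (nat_lit 1) (nat_lit 0) (nat_lit 1) (nat_lit 0) (nat_lit 394) (nat_lit 401) (nat_lit 225)) (XT.lf (nat_lit 0) (nat_lit 117422002249) (nat_lit 0) (nat_lit 0) (nat_lit 0) (nat_lit 0) (nat_lit 0) (nat_lit 0) (nat_lit 1) (nat_lit 0) (nat_lit 1) (nat_lit 0) (nat_lit 395) (nat_lit 401) (nat_lit 224))))) (XT.nd (nat_lit 234) (nat_lit 0) (nat_lit 0) (XT.nd (nat_lit 78) (nat_lit 0) (nat_lit 0) (XT.lf (nat_lit 0) (nat_lit 117421991695) (nat_lit 0) (nat_lit 0) (nat_lit 0) (nat_lit 0) (nat_lit 0) (nat_lit 0) (nat_lit 1) (nat_lit 0) (nat_lit 1) (nat_lit 0) (nat_lit 396) (nat_lit 401) (nat_lit 223)) (XT.nd (nat_lit 78) (nat_lit 0) (nat_lit 0) (XT.lf (nat_lit 0) (nat_lit 117421981923) (nat_lit 0) (nat_lit 0) (nat_lit 0) (nat_lit 0) (nat_lit 0) (nat_lit 0) (nat_lit 1) (nat_lit 0) (nat_lit 1) (nat_lit 0) (nat_lit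 397) (nat_lit 401) (nat_lit 222)) (XT.lf (nat_lit 0) (nat_lit 117421972875) (nat_lit 0) (nat_lit 0) (nat_lit 0) (nat_lit 0) (nat_lit 0) (nat_lit 0) (nat_lit 1) (nat_lit 0) (nat_lit 1) (nat_lit 0) (nat_lit 398) (nat_lit 401) (nat_lit 221)))) (XT.nd (nat_lit 156) (nat_lit 0) (nat_lit 0) (XT.nd (nat_lit 78) (nat_lit 0) (nat_lit 0) (XT.lf (nat_lit 0) (nat_lit 117421964497) (nat_lit 0) (nat_lit 0) (nat_lit 0) (nat_lit 0) (nat_lit 0) (nat_lit 0) (nat_lit 1) (nat_lit 0) (nat_lit 1) (nat_lit 0) (nat_lit 399) (nat_lit 401) (nat_lit 220)) (XT.lf (nat_lit 0) (nat_lit 117421956739) (nat_lit 0) (nat_lit 0) (nat_lit 0) (nat_lit 0) (nat_lit 0) (nat_lit 0) (nat_lit 1) (nat_lit 0) (nat_lit 1) (nat_lit 0) (nat_lit 400) (nat_lit 401) (nat_lit 219))) (XT.nd (nat_lit 78) (nat_lit 0) (nat_lit 0) (XT.lf (nat_lit 0) (nat_lit 117421949557) (nat_lit 0) (nat_lit 0) (nat_lit 0) (nat_lit 0) (nat_lit 0) (nat_lit 0) (nat_lit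 1) (nat_lit 0) (nat_lit 1) (nat_lit 0) (nat_lit 401) (nat_lit 401) (nat_lit 218)) (XT.lf (nat_lit 0) (nat_lit 117421942906) (nat_lit 0) (nat_lit 0) (nat_lit 0) (nat_lit 0) (nat_lit 0) (nat_lit 0) (nat_lit 1) (nat_lit 0) (nat_lit 1) (nat_lit 0) (nat_lit 402) (nat_lit 401) (nat_lit 217))))))))
noncomputable def ec187 : XT := (XT.nd (nat_lit 39624) (nat_lit 0) (nat_lit 14516) (XT.nd (nat_lit 38532) (nat_lit 0) (nat_lit 19836) (XT.nd (nat_lit 468) (nat_lit 0) (nat_lit 0) (XT.nd (nat_lit 234) (nat_lit 0) (nat_lit 0) (XT.nd (nat_lit 78) (nat_lit 0) (nat_lit 0) (XT.lf (nat_lit 0) (nat_lit 117421936748) (nat_lit 0) (nat_lit 0) (nat_lit 0) (nat_lit 0) (nat_lit 0) (nat_lit 0) (nat_lit 1) (nat_lit 0) (nat_lit 1) (nat_lit 0) (nat_lit 403) (nat_lit 401) (nat_lit 216)) (XT.nd (nat_lit 78) (nat_lit 0) (nat_lit 0) (XT.lf (nat_lit 0) (nat_lit 117421931046) (nat_lit 0) (nat_lit 0) (nat_lit 0) (nat_lit 0) (nat_lit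 0) (nat_lit 0) (nat_lit 1) (nat_lit 0) (nat_lit 1) (nat_lit 0) (nat_lit 404) (nat_lit 401) (nat_lit 215)) (XT.lf (nat_lit 0) (nat_lit 117421925766) (nat_lit 0) (nat_lit 0) (nat_lit 0) (nat_lit 0) (nat_lit 0) (nat_lit 0) (nat_lit 1) (nat_lit 0) (nat_lit 1) (nat_lit 0) (nat_lit 405) (nat_lit 401) (nat_lit 214)))) (XT.nd (nat_lit 78) (nat_lit 0) (nat_lit 0) (XT.lf (nat_lit 0) (nat_lit 117421920878) (nat_lit 0) (nat_lit 0) (nat_lit 0) (nat_lit 0) (nat_lit 0) (nat_lit 0) (nat_lit 1) (nat_lit 0) (nat_lit 1) (nat_lit 0) (nat_lit 406) (nat_lit 401) (nat_lit 213)) (XT.nd (nat_lit 78) (nat_lit 0) (nat_lit 0) (XT.lf (nat_lit 0) (nat_lit 117421916352) (nat_lit 0) (nat_lit 0) (nat_lit 0) (nat_lit 0) (nat_lit 0) (nat_lit 0) (nat_lit 1) (nat_lit 0) (nat_lit 1) (nat_lit 0) (nat_lit 407) (nat_lit 401) (nat_lit 212)) (XT.lf (nat_lit 0) (nat_lit 117421912160) (nat_lit 0) (nat_lit 0) (nat_lit 0) (nat_lit 0) (nat_lit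 0) (nat_lit 0) (nat_lit 1) (nat_lit 0) (nat_lit 1) (nat_lit 0) (nat_lit 408) (nat_lit 401) (nat_lit 211))))) (XT.nd (nat_lit 234) (nat_lit 0) (nat_lit 0) (XT.nd (nat_lit 78) (nat_lit 0) (nat_lit 0) (XT.lf (nat_lit 0) (nat_lit 117421908280) (nat_lit 0) (nat_lit 0) (nat_lit 0) (nat_lit 0) (nat_lit 0) (nat_lit 0) (nat_lit 1) (nat_lit 0) (nat_lit 1) (nat_lit 0) (nat_lit 409) (nat_lit 401) (nat_lit 210)) (XT.nd (nat_lit 78) (nat_lit 0) (nat_lit 0) (XT.lf (nat_lit 0) (nat_lit 117421904687) (nat_lit 0) (nat_lit 0) (nat_lit 0) (nat_lit 0) (nat_lit 0) (nat_lit 0) (nat_lit 1) (nat_lit 0) (nat_lit 1) (nat_lit 0) (nat_lit 410) (nat_lit 401) (nat_lit 209)) (XT.lf (nat_lit 0) (nat_lit 117421901360) (nat_lit 0) (nat_lit 0) (nat_lit 0) (nat_lit 0) (nat_lit 0) (nat_lit 0) (nat_lit 1) (nat_lit 0) (nat_lit 1) (nat_lit 0) (nat_lit 411) (nat_lit 401) (nat_lit 208)))) (XT.nd (nat_lit 156) (nat_lit 0) (nat_lit 0) (XT.nd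 (nat_lit 78) (nat_lit 0) (nat_lit 0) (XT.lf (nat_lit 0) (nat_lit 117421898279) (nat_lit 0) (nat_lit 0) (nat_lit 0) (nat_lit 0) (nat_lit 0) (nat_lit 0) (nat_lit 1) (nat_lit 0) (nat_lit 1) (nat_lit 0) (nat_lit 412) (nat_lit 401) (nat_lit 207)) (XT.lf (nat_lit 0) (nat_lit 117421895427) (nat_lit 0) (nat_lit 0) (nat_lit 0) (nat_lit 0) (nat_lit 0) (nat_lit 0) (nat_lit 1) (nat_lit 0) (nat_lit 1) (nat_lit 0) (nat_lit 413) (nat_lit 401) (nat_lit 206))) (XT.nd (nat_lit 78) (nat_lit 0) (nat_lit 0) (XT.lf (nat_lit 0) (nat_lit 117421892786) (nat_lit 0) (nat_lit 0) (nat_lit 0) (nat_lit 0) (nat_lit 0) (nat_lit 0) (nat_lit 1) (nat_lit 0) (nat_lit 1) (nat_lit 0) (nat_lit 414) (nat_lit 401) (nat_lit 205)) (XT.lf (nat_lit 0) (nat_lit 117421890340) (nat_lit 0) (nat_lit 0) (nat_lit 0) (nat_lit 0) (nat_lit 0) (nat_lit 0) (nat_lit 1) (nat_lit 0) (nat_lit 1) (nat_lit 0) (nat_lit 415) (nat_lit 401) (nat_lit 204))))))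 (XT.nd (nat_lit 546) (nat_lit 2356) (nat_lit 0) (XT.nd (nat_lit 234) (nat_lit 0) (nat_lit 152) (XT.nd (nat_lit 78) (nat_lit 0) (nat_lit 76) (XT.lf (nat_lit 836) (nat_lit 63463280729) (nat_lit 0) (nat_lit 112678909058) (nat_lit 836) (nat_lit 63463280729) (nat_lit 303) (nat_lit 1) (nat_lit 292) (nat_lit 0) (nat_lit 303) (nat_lit 0) (nat_lit 216) (nat_lit 402) (nat_lit 402)) (XT.nd (nat_lit 78) (nat_lit 0) (nat_lit 0) (XT.lf (nat_lit 836) (nat_lit 23673751027) (nat_lit 0) (nat_lit 221222848784) (nat_lit 760) (nat_lit 216355207022) (nat_lit 304) (nat_lit 1) (nat_lit 293) (nat_lit 1) (nat_lit 303) (nat_lit 1) (nat_lit 217) (nat_lit 402) (nat_lit 401)) (XT.lf (nat_lit 836) (nat_lit 217429738504) (nat_lit 76) (nat_lit 148153016400) (nat_lit 0) (nat_lit 78573601735) (nat_lit 304) (nat_lit 1) (nat_lit 294) (nat_lit 1) (nat_lit 293) (nat_lit 1) (nat_lit 218) (nat_lit 402) (nat_lit 400)))) (XT.nd (nat_lit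 156) (nat_lit 0) (nat_lit 152) (XT.nd (nat_lit 78) (nat_lit 0) (nat_lit 76) (XT.lf (nat_lit 836) (nat_lit 187877106168) (nat_lit 76) (nat_lit 62089902273) (nat_lit 0) (nat_lit 177949397693) (nat_lit 305) (nat_lit 1) (nat_lit 295) (nat_lit 1) (nat_lit 294) (nat_lit 1) (nat_lit 219) (nat_lit 402) (nat_lit 399)) (XT.lf (nat_lit 836) (nat_lit 139045031321) (nat_lit 0) (nat_lit 260146681228) (nat_lit 760) (nat_lit 13298661177) (nat_lit 306) (nat_lit 1) (nat_lit 295) (nat_lit 1) (nat_lit 305) (nat_lit 1) (nat_lit 220) (nat_lit 402) (nat_lit 398))) (XT.nd (nat_lit 78) (nat_lit 0) (nat_lit 0) (XT.lf (nat_lit 836) (nat_lit 33362491966) (nat_lit 0) (nat_lit 286883987605) (nat_lit 760) (nat_lit 77554562775) (nat_lit 307) (nat_lit 1) (nat_lit 296) (nat_lit 1) (nat_lit 306) (nat_lit 1) (nat_lit 221) (nat_lit 402) (nat_lit 397)) (XT.lf (nat_lit 836) (nat_lit 64109139885) (nat_lit 76) (nat_lit 249325547194)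 (nat_lit 0) (nat_lit 70362745511) (nat_lit 307) (nat_lit 1) (nat_lit 297) (nat_lit 1) (nat_lit 296) (nat_lit 1) (nat_lit 222) (nat_lit 402) (nat_lit 396))))) (XT.nd (nat_lit 234) (nat_lit 1064) (nat_lit 0) (XT.nd (nat_lit 78) (nat_lit 912) (nat_lit 0) (XT.lf (nat_lit 836) (nat_lit 13166555448) (nat_lit 0) (nat_lit 186387338779) (nat_lit 760) (nat_lit 170915236724) (nat_lit 298) (nat_lit 1) (nat_lit 287) (nat_lit 1) (nat_lit 297) (nat_lit 1) (nat_lit 223) (nat_lit 402) (nat_lit 395)) (XT.nd (nat_lit 78) (nat_lit 380) (nat_lit 0) (XT.lf (nat_lit 76) (nat_lit 91167972624) (nat_lit 0) (nat_lit 39507325152) (nat_lit 532) (nat_lit 227096613747) (nat_lit 281) (nat_lit 1) (nat_lit 280) (nat_lit 1) (nat_lit 287) (nat_lit 1) (nat_lit 224) (nat_lit 402) (nat_lit 394)) (XT.lf (nat_lit 456) (nat_lit 251247457532) (nat_lit 0) (nat_lit 81786463884) (nat_lit 380) (nat_lit 12644692667) (nat_lit 281) (nat_lit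 1) (nat_lit 275) (nat_lit 1) (nat_lit 280) (nat_lit 1) (nat_lit 225) (nat_lit 402) (nat_lit 393)))) (XT.nd (nat_lit 156) (nat_lit 380) (nat_lit 0) (XT.nd (nat_lit 78) (nat_lit 304) (nat_lit 0) (XT.lf (nat_lit 456) (nat_lit 181302557914) (nat_lit 0) (nat_lit 38121023123) (nat_lit 380) (nat_lit 114681725771) (nat_lit 276) (nat_lit 1) (nat_lit 270) (nat_lit 1) (nat_lit 275) (nat_lit 1) (nat_lit 226) (nat_lit 402) (nat_lit 392)) (XT.lf (nat_lit 380) (nat_lit 110320294169) (nat_lit 0) (nat_lit 701869985) (nat_lit 304) (nat_lit 212070999886) (nat_lit 271) (nat_lit 1) (nat_lit 266) (nat_lit 1) (nat_lit 270) (nat_lit 1) (nat_lit 227) (nat_lit 402) (nat_lit 391))) (XT.nd (nat_lit 78) (nat_lit 380) (nat_lit 0) (XT.lf (nat_lit 76) (nat_lit 8138909931) (nat_lit 0) (nat_lit 274483480657) (nat_lit 380) (nat_lit 29965208913) (nat_lit 267) (nat_lit 1) (nat_lit 266) (nat_lit 1) (nat_lit 271) (nat_lit 1) (nat_lit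 228) (nat_lit 402) (nat_lit 390)) (XT.lf (nat_lit 76) (nat_lit 210148765419) (nat_lit 0) (nat_lit 34855421322) (nat_lit 380) (nat_lit 57482919986) (nat_lit 262) (nat_lit 1) (nat_lit 261) (nat_lit 1) (nat_lit 266) (nat_lit 1) (nat_lit 229) (nat_lit 402) (nat_lit 389))))))) (XT.nd (nat_lit 1014) (nat_lit 2128) (nat_lit 0) (XT.nd (nat_lit 468) (nat_lit 1520) (nat_lit 0) (XT.nd (nat_lit 234) (nat_lit 836) (nat_lit 0) (XT.nd (nat_lit 78) (nat_lit 532) (nat_lit 0) (XT.lf (nat_lit 76) (nat_lit 105142752645) (nat_lit 0) (nat_lit 106768342915) (nat_lit 380) (nat_lit 80921809664) (nat_lit 258) (nat_lit 1) (nat_lit 257) (nat_lit 1) (nat_lit 262) (nat_lit 1) (nat_lit 230) (nat_lit 402) (nat_lit 388)) (XT.nd (nat_lit 78) (nat_lit 228) (nat_lit 0) (XT.lf (nat_lit 76) (nat_lit 5189613120) (nat_lit 0) (nat_lit 178515011477) (nat_lit 380) (nat_lit 99931173657) (nat_lit 254) (nat_lit 1) (nat_lit 253) (nat_lit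 1) (nat_lit 258) (nat_lit 1) (nat_lit 231) (nat_lit 402) (nat_lit 387)) (XT.lf (nat_lit 304) (nat_lit 23436000367) (nat_lit 0) (nat_lit 158486452389) (nat_lit 228) (nat_lit 92876703516) (nat_lit 254) (nat_lit 1) (nat_lit 250) (nat_lit 1) (nat_lit 253) (nat_lit 1) (nat_lit 232) (nat_lit 402) (nat_lit 386)))) (XT.nd (nat_lit 78) (nat_lit 456) (nat_lit 0) (XT.lf (nat_lit 76) (nat_lit 80977682266) (nat_lit 0) (nat_lit 55502606598) (nat_lit 380) (nat_lit 129847283127) (nat_lit 246) (nat_lit 1) (nat_lit 245) (nat_lit 1) (nat_lit 250) (nat_lit 1) (nat_lit 233) (nat_lit 402) (nat_lit 385)) (XT.nd (nat_lit 78) (nat_lit 228) (nat_lit 0) (XT.lf (nat_lit 304) (nat_lit 125372929806) (nat_lit 0) (nat_lit 117771663483) (nat_lit 228) (nat_lit 15074633151) (nat_lit 246) (nat_lit 1) (nat_lit 242) (nat_lit 1) (nat_lit 245) (nat_lit 1) (nat_lit 234) (nat_lit 402) (nat_lit 384)) (XT.lf (nat_lit 304) (nat_lit 40181418318)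 (nat_lit 0) (nat_lit 101396579556) (nat_lit 228) (nat_lit 108844488998) (nat_lit 243) (nat_lit 1) (nat_lit 239) (nat_lit 1) (nat_lit 242) (nat_lit 1) (nat_lit 235) (nat_lit 402) (nat_lit 383))))) (XT.nd (nat_lit 234) (nat_lit 836) (nat_lit 0) (XT.nd (nat_lit 78) (nat_lit 380) (nat_lit 0) (XT.lf (nat_lit 76) (nat_lit 45797107758) (nat_lit 0) (nat_lit 41931232009) (nat_lit 304) (nat_lit 155221220813) (nat_lit 236) (nat_lit 1) (nat_lit 235) (nat_lit 1) (nat_lit 239) (nat_lit 1) (nat_lit 236) (nat_lit 402) (nat_lit 382)) (XT.nd (nat_lit 78) (nat_lit 152) (nat_lit 0) (XT.lf (nat_lit 304) (nat_lit 113960091800) (nat_lit 0) (nat_lit 75824822049) (nat_lit 228) (nat_lit 45965256426) (nat_lit 236) (nat_lit 1) (nat_lit 232) (nat_lit 1) (nat_lit 235) (nat_lit 1) (nat_lit 237) (nat_lit 402) (nat_lit 381)) (XT.lf (nat_lit 228) (nat_lit 28250875027) (nat_lit 0) (nat_lit 66151626560) (nat_lit 152) (nat_lit 134438721874)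 (nat_lit 233) (nat_lit 1) (nat_lit 230) (nat_lit 1) (nat_lit 232) (nat_lit 1) (nat_lit 238) (nat_lit 402) (nat_lit 380)))) (XT.nd (nat_lit 156) (nat_lit 380) (nat_lit 0) (XT.nd (nat_lit 78) (nat_lit 152) (nat_lit 0) (XT.lf (nat_lit 76) (nat_lit 4785878718) (nat_lit 0) (nat_lit 53555021818) (nat_lit 304) (nat_lit 163859185091) (nat_lit 227) (nat_lit 1) (nat_lit 226) (nat_lit 1) (nat_lit 230) (nat_lit 1) (nat_lit 239) (nat_lit 402) (nat_lit 379)) (XT.lf (nat_lit 228) (nat_lit 82091859158) (nat_lit 0) (nat_lit 51300369326) (nat_lit 152) (nat_lit 82377539654) (nat_lit 227) (nat_lit 1) (nat_lit 224) (nat_lit 1) (nat_lit 226) (nat_lit 1) (nat_lit 240) (nat_lit 402) (nat_lit 378))) (XT.nd (nat_lit 78) (nat_lit 152) (nat_lit 0) (XT.lf (nat_lit 76) (nat_lit 44539612139) (nat_lit 0) (nat_lit 2057312608) (nat_lit 228) (nat_lit 163023122800) (nat_lit 222) (nat_lit 1) (nat_lit 221) (nat_lit 1) (nat_lit 224)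 (nat_lit 1) (nat_lit 241) (nat_lit 402) (nat_lit 377)) (XT.lf (nat_lit 228) (nat_lit 121762698785) (nat_lit 0) (nat_lit 42193505277) (nat_lit 152) (nat_lit 39693013889) (nat_lit 222) (nat_lit 1) (nat_lit 219) (nat_lit 1) (nat_lit 221) (nat_lit 1) (nat_lit 242) (nat_lit 402) (nat_lit 376)))))) (XT.nd (nat_lit 546) (nat_lit 988) (nat_lit 0) (XT.nd (nat_lit 234) (nat_lit 608) (nat_lit 0) (XT.nd (nat_lit 78) (nat_lit 380) (nat_lit 0) (XT.lf (nat_lit 228) (nat_lit 37824373614) (nat_lit 0) (nat_lit 39223528984) (nat_lit 152) (nat_lit 120858776704) (nat_lit 220) (nat_lit 1) (nat_lit 217) (nat_lit 1) (nat_lit 219) (nat_lit 1) (nat_lit 243) (nat_lit 402) (nat_lit 375)) (XT.nd (nat_lit 78) (nat_lit 152) (nat_lit 0) (XT.lf (nat_lit 228) (nat_lit 150148862402) (nat_lit 0) (nat_lit 37474898364) (nat_lit 152) (nat_lit 4754125629) (nat_lit 217) (nat_lit 1) (nat_lit 214) (nat_lit 1) (nat_lit 216) (nat_lit 1)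 (nat_lit 244) (nat_lit 402) (nat_lit 374)) (XT.lf (nat_lit 228) (nat_lit 67199671999) (nat_lit 0) (nat_lit 35775893398) (nat_lit 152) (nat_lit 84027155792) (nat_lit 215) (nat_lit 1) (nat_lit 212) (nat_lit 1) (nat_lit 214) (nat_lit 1) (nat_lit 245) (nat_lit 402) (nat_lit 373)))) (XT.nd (nat_lit 156) (nat_lit 304) (nat_lit 0) (XT.nd (nat_lit 78) (nat_lit 152) (nat_lit 0) (XT.lf (nat_lit 76) (nat_lit 23018482166) (nat_lit 0) (nat_lit 12651995042) (nat_lit 152) (nat_lit 146180026740) (nat_lit 211) (nat_lit 1) (nat_lit 210) (nat_lit 1) (nat_lit 212) (nat_lit 1) (nat_lit 246) (nat_lit 402) (nat_lit 372)) (XT.lf (nat_lit 228) (nat_lit 88169834364) (nat_lit 0) (nat_lit 35292766561) (nat_lit 152) (nat_lit 53365697086) (nat_lit 211) (nat_lit 1) (nat_lit 208) (nat_lit 1) (nat_lit 210) (nat_lit 1) (nat_lit 247) (nat_lit 402) (nat_lit 371))) (XT.nd (nat_lit 78) (nat_lit 228) (nat_lit 0) (XT.lf (nat_lit 152)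 (nat_lit 9494638283) (nat_lit 0) (nat_lit 36159602515) (nat_lit 76) (nat_lit 126350121502) (nat_lit 209) (nat_lit 1) (nat_lit 207) (nat_lit 1) (nat_lit 208) (nat_lit 1) (nat_lit 248) (nat_lit 402) (nat_lit 370)) (XT.lf (nat_lit 228) (nat_lit 102491114893) (nat_lit 0) (nat_lit 36981624059) (nat_lit 152) (nat_lit 27840698440) (nat_lit 207) (nat_lit 1) (nat_lit 204) (nat_lit 1) (nat_lit 206) (nat_lit 1) (nat_lit 249) (nat_lit 402) (nat_lit 369))))) (XT.nd (nat_lit 234) (nat_lit 608) (nat_lit 0) (XT.nd (nat_lit 78) (nat_lit 304) (nat_lit 0) (XT.lf (nat_lit 152) (nat_lit 25777271162) (nat_lit 0) (nat_lit 38364404248) (nat_lit 76) (nat_lit 98638930666) (nat_lit 205) (nat_lit 1) (nat_lit 203) (nat_lit 1) (nat_lit 204) (nat_lit 1) (nat_lit 250) (nat_lit 402) (nat_lit 368)) (XT.nd (nat_lit 78) (nat_lit 76) (nat_lit 0) (XT.lf (nat_lit 228) (nat_lit 111583467531) (nat_lit 0) (nat_lit 40214730815) (nat_lit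 152) (nat_lit 6599581584) (nat_lit 203) (nat_lit 1) (nat_lit 200) (nat_lit 1) (nat_lit 202) (nat_lit 1) (nat_lit 251) (nat_lit 402) (nat_lit 367)) (XT.lf (nat_lit 152) (nat_lit 37097029638) (nat_lit 0) (nat_lit 41924340105) (nat_lit 76) (nat_lit 75111075910) (nat_lit 201) (nat_lit 1) (nat_lit 199) (nat_lit 1) (nat_lit 200) (nat_lit 1) (nat_lit 252) (nat_lit 402) (nat_lit 366)))) (XT.nd (nat_lit 156) (nat_lit 304) (nat_lit 0) (XT.nd (nat_lit 78) (nat_lit 76) (nat_lit 0) (XT.lf (nat_lit 76) (nat_lit 10707679079) (nat_lit 0) (nat_lit 33608550377) (nat_lit 228) (nat_lit 105704114343) (nat_lit 197) (nat_lit 1) (nat_lit 196) (nat_lit 1) (nat_lit 199) (nat_lit 1) (nat_lit 253) (nat_lit 402) (nat_lit 365)) (XT.lf (nat_lit 152) (nat_lit 44519782562) (nat_lit 0) (nat_lit 46387503240) (nat_lit 76) (nat_lit 55103077661) (nat_lit 197) (nat_lit 1) (nat_lit 195) (nat_lit 1) (nat_lit 196) (nat_lit 1) (nat_lit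 254) (nat_lit 402) (nat_lit 364))) (XT.nd (nat_lit 78) (nat_lit 76) (nat_lit 0) (XT.lf (nat_lit 76) (nat_lit 24902074529) (nat_lit 0) (nat_lit 24119343056) (nat_lit 228) (nat_lit 93119886072) (nat_lit 193) (nat_lit 1) (nat_lit 192) (nat_lit 1) (nat_lit 195) (nat_lit 1) (nat_lit 255) (nat_lit 402) (nat_lit 363)) (XT.lf (nat_lit 152) (nat_lit 48905081039) (nat_lit 0) (nat_lit 51401129353) (nat_lit 76) (nat_lit 38064886472) (nat_lit 193) (nat_lit 1) (nat_lit 191) (nat_lit 1) (nat_lit 192) (nat_lit 1) (nat_lit 256) (nat_lit 402) (nat_lit 362))))))))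
noncomputable def ec188 : XT := (XT.nd (nat_lit 2028) (nat_lit 3192) (nat_lit 0) (XT.nd (nat_lit 1014) (nat_lit 1520) (nat_lit 0) (XT.nd (nat_lit 468) (nat_lit 836) (nat_lit 0) (XT.nd (nat_lit 234) (nat_lit 304) (nat_lit 0) (XT.nd (nat_lit 78) (nat_lit 228) (nat_lit 0) (XT.lf (nat_lit 76) (nat_lit 36661612066) (nat_lit 0) (nat_lit 17468602168) (nat_lit 152) (nat_lit 80595188386) (nat_lit 190) (nat_lit 1) (nat_lit 189) (nat_lit 1) (nat_lit 191) (nat_lit 1) (nat_lit 257) (nat_lit 402) (nat_lit 361)) (XT.nd (nat_lit 78) (nat_lit 152) (nat_lit 0) (XT.lf (nat_lit 152) (nat_lit 50944710321) (nat_lit 0) (nat_lit 56692274243) (nat_lit 76) (nat_lit 23539649430) (nat_lit 190) (nat_lit 1) (nat_lit 188) (nat_lit 1) (nat_lit 189) (nat_lit 1) (nat_lit 258) (nat_lit 402) (nat_lit 360)) (XT.lf (nat_lit 76) (nat_lit 46373530529) (nat_lit 0) (nat_lit 13031804995) (nat_lit 152) (nat_lit 68331686256) (nat_lit 187)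 (nat_lit 1) (nat_lit 186) (nat_lit 1) (nat_lit 188) (nat_lit 1) (nat_lit 259) (nat_lit 402) (nat_lit 359)))) (XT.nd (nat_lit 78) (nat_lit 228) (nat_lit 0) (XT.lf (nat_lit 152) (nat_lit 51194124767) (nat_lit 0) (nat_lit 62052110279) (nat_lit 76) (nat_lit 11147151508) (nat_lit 187) (nat_lit 1) (nat_lit 185) (nat_lit 1) (nat_lit 186) (nat_lit 1) (nat_lit 260) (nat_lit 402) (nat_lit 358)) (XT.nd (nat_lit 78) (nat_lit 76) (nat_lit 0) (XT.lf (nat_lit 76) (nat_lit 54359668610) (nat_lit 0) (nat_lit 10306777213) (nat_lit 152) (nat_lit 56478140563) (nat_lit 184) (nat_lit 1) (nat_lit 183) (nat_lit 1) (nat_lit 185) (nat_lit 1) (nat_lit 261) (nat_lit 402) (nat_lit 357)) (XT.lf (nat_lit 152) (nat_lit 50098074334) (nat_lit 0) (nat_lit 67323173192) (nat_lit 76) (nat_lit 570259914) (nat_lit 184) (nat_lit 1) (nat_lit 182) (nat_lit 1) (nat_lit 183) (nat_lit 1) (nat_lit 262) (nat_lit 402) (nat_lit 356))))) (XT.nd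 (nat_lit 234) (nat_lit 456) (nat_lit 0) (XT.nd (nat_lit 78) (nat_lit 228) (nat_lit 0) (XT.lf (nat_lit 76) (nat_lit 60888041307) (nat_lit 0) (nat_lit 8890719793) (nat_lit 152) (nat_lit 45141189040) (nat_lit 181) (nat_lit 1) (nat_lit 180) (nat_lit 1) (nat_lit 182) (nat_lit 1) (nat_lit 263) (nat_lit 402) (nat_lit 355)) (XT.nd (nat_lit 78) (nat_lit 152) (nat_lit 0) (XT.lf (nat_lit 0) (nat_lit 8185526902) (nat_lit 0) (nat_lit 64064860780) (nat_lit 152) (nat_lit 39687338074) (nat_lit 179) (nat_lit 3) (nat_lit 179) (nat_lit 1) (nat_lit 181) (nat_lit 1) (nat_lit 264) (nat_lit 402) (nat_lit 354)) (XT.lf (nat_lit 76) (nat_lit 66182320896) (nat_lit 0) (nat_lit 8461484571) (nat_lit 152) (nat_lit 34394080589) (nat_lit 178) (nat_lit 1) (nat_lit 177) (nat_lit 1) (nat_lit 179) (nat_lit 1) (nat_lit 265) (nat_lit 402) (nat_lit 353)))) (XT.nd (nat_lit 156) (nat_lit 228) (nat_lit 0) (XT.nd (nat_lit 78) (nat_lit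 152) (nat_lit 0) (XT.lf (nat_lit 0) (nat_lit 15637384653) (nat_lit 0) (nat_lit 61263596259) (nat_lit 152) (nat_lit 29314294713) (nat_lit 176) (nat_lit 3) (nat_lit 176) (nat_lit 1) (nat_lit 178) (nat_lit 1) (nat_lit 266) (nat_lit 402) (nat_lit 352)) (XT.lf (nat_lit 76) (nat_lit 70429605063) (nat_lit 0) (nat_lit 8762316842) (nat_lit 152) (nat_lit 24283742699) (nat_lit 175) (nat_lit 1) (nat_lit 174) (nat_lit 1) (nat_lit 176) (nat_lit 1) (nat_lit 267) (nat_lit 402) (nat_lit 351))) (XT.nd (nat_lit 78) (nat_lit 152) (nat_lit 0) (XT.lf (nat_lit 0) (nat_lit 21984422554) (nat_lit 0) (nat_lit 59238824871) (nat_lit 152) (nat_lit 19579574169) (nat_lit 173) (nat_lit 3) (nat_lit 173) (nat_lit 1) (nat_lit 175) (nat_lit 1) (nat_lit 268) (nat_lit 402) (nat_lit 350)) (XT.lf (nat_lit 76) (nat_lit 73786784783) (nat_lit 0) (nat_lit 9589426914) (nat_lit 152) (nat_lit 14836491785) (nat_lit 172) (nat_lit 1) (nat_lit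 171) (nat_lit 1) (nat_lit 173) (nat_lit 1) (nat_lit 269) (nat_lit 402) (nat_lit 349)))))) (XT.nd (nat_lit 468) (nat_lit 760) (nat_lit 0) (XT.nd (nat_lit 234) (nat_lit 456) (nat_lit 0) (XT.nd (nat_lit 78) (nat_lit 228) (nat_lit 0) (XT.lf (nat_lit 0) (nat_lit 27379121631) (nat_lit 0) (nat_lit 57797831472) (nat_lit 152) (nat_lit 10503655312) (nat_lit 170) (nat_lit 3) (nat_lit 170) (nat_lit 1) (nat_lit 172) (nat_lit 1) (nat_lit 270) (nat_lit 402) (nat_lit 348)) (XT.nd (nat_lit 78) (nat_lit 76) (nat_lit 0) (XT.lf (nat_lit 76) (nat_lit 76385767255) (nat_lit 0) (nat_lit 10781869710) (nat_lit 152) (nat_lit 6062639169) (nat_lit 169) (nat_lit 1) (nat_lit 168) (nat_lit 1) (nat_lit 170) (nat_lit 1) (nat_lit 271) (nat_lit 402) (nat_lit 347)) (XT.lf (nat_lit 0) (nat_lit 31950444465) (nat_lit 0) (nat_lit 56787721428) (nat_lit 152) (nat_lit 2092468547) (nat_lit 167) (nat_lit 3) (nat_lit 167) (nat_lit 1) (nat_lit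 169) (nat_lit 1) (nat_lit 272) (nat_lit 402) (nat_lit 346)))) (XT.nd (nat_lit 78) (nat_lit 228) (nat_lit 0) (XT.lf (nat_lit 152) (nat_lit 76263416289) (nat_lit 0) (nat_lit 2107246195) (nat_lit 76) (nat_lit 10138961055) (nat_lit 166) (nat_lit 1) (nat_lit 164) (nat_lit 1) (nat_lit 165) (nat_lit 1) (nat_lit 273) (nat_lit 402) (nat_lit 345)) (XT.nd (nat_lit 78) (nat_lit 152) (nat_lit 0) (XT.lf (nat_lit 76) (nat_lit 30052795091) (nat_lit 0) (nat_lit 5846307028) (nat_lit 76) (nat_lit 50332758644) (nat_lit 164) (nat_lit 3) (nat_lit 163) (nat_lit 1) (nat_lit 164) (nat_lit 1) (nat_lit 274) (nat_lit 402) (nat_lit 344)) (XT.lf (nat_lit 152) (nat_lit 70094084345) (nat_lit 0) (nat_lit 9795657099) (nat_lit 76) (nat_lit 4142587353) (nat_lit 163) (nat_lit 1) (nat_lit 161) (nat_lit 1) (nat_lit 162) (nat_lit 1) (nat_lit 275) (nat_lit 402) (nat_lit 343))))) (XT.nd (nat_lit 234) (nat_lit 456) (nat_lit 0) (XT.nd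 (nat_lit 78) (nat_lit 228) (nat_lit 0) (XT.lf (nat_lit 76) (nat_lit 26063355951) (nat_lit 0) (nat_lit 13186977012) (nat_lit 76) (nat_lit 42622213121) (nat_lit 161) (nat_lit 3) (nat_lit 160) (nat_lit 1) (nat_lit 161) (nat_lit 1) (nat_lit 276) (nat_lit 402) (nat_lit 342)) (XT.nd (nat_lit 78) (nat_lit 76) (nat_lit 0) (XT.lf (nat_lit 0) (nat_lit 1100090942) (nat_lit 0) (nat_lit 15702257758) (nat_lit 152) (nat_lit 62985563641) (nat_lit 158) (nat_lit 3) (nat_lit 158) (nat_lit 1) (nat_lit 160) (nat_lit 1) (nat_lit 277) (nat_lit 402) (nat_lit 341)) (XT.lf (nat_lit 76) (nat_lit 22169535327) (nat_lit 0) (nat_lit 19880804417) (nat_lit 76) (nat_lit 35690060157) (nat_lit 158) (nat_lit 3) (nat_lit 157) (nat_lit 1) (nat_lit 158) (nat_lit 1) (nat_lit 278) (nat_lit 402) (nat_lit 340)))) (XT.nd (nat_lit 156) (nat_lit 228) (nat_lit 0) (XT.nd (nat_lit 78) (nat_lit 76) (nat_lit 0) (XT.lf (nat_lit 0) (nat_lit 5594821278)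 (nat_lit 0) (nat_lit 17517682680) (nat_lit 152) (nat_lit 52648628204) (nat_lit 155) (nat_lit 3) (nat_lit 155) (nat_lit 1) (nat_lit 157) (nat_lit 1) (nat_lit 279) (nat_lit 402) (nat_lit 339)) (XT.lf (nat_lit 76) (nat_lit 18414978857) (nat_lit 0) (nat_lit 25952838178) (nat_lit 76) (nat_lit 29454665340) (nat_lit 155) (nat_lit 3) (nat_lit 154) (nat_lit 1) (nat_lit 155) (nat_lit 1) (nat_lit 280) (nat_lit 402) (nat_lit 338))) (XT.nd (nat_lit 78) (nat_lit 76) (nat_lit 0) (XT.lf (nat_lit 0) (nat_lit 9542689219) (nat_lit 0) (nat_lit 19277862485) (nat_lit 152) (nat_lit 43122193099) (nat_lit 152) (nat_lit 3) (nat_lit 152) (nat_lit 1) (nat_lit 154) (nat_lit 1) (nat_lit 281) (nat_lit 402) (nat_lit 337)) (XT.lf (nat_lit 76) (nat_lit 14830717891) (nat_lit 0) (nat_lit 31431293587) (nat_lit 76) (nat_lit 23844767211) (nat_lit 152) (nat_lit 3) (nat_lit 151) (nat_lit 1) (nat_lit 152) (nat_lit 1) (nat_lit 282) (nat_lit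 402) (nat_lit 336))))))) (XT.nd (nat_lit 1014) (nat_lit 1596) (nat_lit 0) (XT.nd (nat_lit 468) (nat_lit 912) (nat_lit 0) (XT.nd (nat_lit 234) (nat_lit 304) (nat_lit 0) (XT.nd (nat_lit 78) (nat_lit 228) (nat_lit 0) (XT.lf (nat_lit 0) (nat_lit 13003330715) (nat_lit 0) (nat_lit 20952227823) (nat_lit 152) (nat_lit 34365588511) (nat_lit 149) (nat_lit 3) (nat_lit 149) (nat_lit 1) (nat_lit 151) (nat_lit 1) (nat_lit 283) (nat_lit 402) (nat_lit 335)) (XT.nd (nat_lit 78) (nat_lit 152) (nat_lit 0) (XT.lf (nat_lit 76) (nat_lit 11437796075) (nat_lit 0) (nat_lit 36346420681) (nat_lit 76) (nat_lit 18797885990) (nat_lit 149) (nat_lit 3) (nat_lit 148) (nat_lit 1) (nat_lit 149) (nat_lit 1) (nat_lit 284) (nat_lit 402) (nat_lit 334)) (XT.lf (nat_lit 0) (nat_lit 16028882858) (nat_lit 0) (nat_lit 22519261971) (nat_lit 152) (nat_lit 26337376347) (nat_lit 146) (nat_lit 3) (nat_lit 146) (nat_lit 1) (nat_lit 148) (nat_lit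 1) (nat_lit 285) (nat_lit 402) (nat_lit 333)))) (XT.nd (nat_lit 78) (nat_lit 228) (nat_lit 0) (XT.lf (nat_lit 76) (nat_lit 8249394051) (nat_lit 0) (nat_lit 40729616404) (nat_lit 76) (nat_lit 14259004341) (nat_lit 146) (nat_lit 3) (nat_lit 145) (nat_lit 1) (nat_lit 146) (nat_lit 1) (nat_lit 286) (nat_lit 402) (nat_lit 332)) (XT.nd (nat_lit 78) (nat_lit 76) (nat_lit 0) (XT.lf (nat_lit 0) (nat_lit 18665113383) (nat_lit 0) (nat_lit 23964593357) (nat_lit 152) (nat_lit 18996052179) (nat_lit 143) (nat_lit 3) (nat_lit 143) (nat_lit 1) (nat_lit 145) (nat_lit 1) (nat_lit 287) (nat_lit 402) (nat_lit 331)) (XT.lf (nat_lit 76) (nat_lit 5272545591) (nat_lit 0) (nat_lit 44612733547) (nat_lit 76) (nat_lit 10179471493) (nat_lit 143) (nat_lit 3) (nat_lit 142) (nat_lit 1) (nat_lit 143) (nat_lit 1) (nat_lit 288) (nat_lit 402) (nat_lit 330))))) (XT.nd (nat_lit 234) (nat_lit 532) (nat_lit 0) (XT.nd (nat_lit 78) (nat_lit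 228) (nat_lit 0) (XT.lf (nat_lit 0) (nat_lit 20952359182) (nat_lit 0) (nat_lit 25279454334) (nat_lit 152) (nat_lit 12300582419) (nat_lit 140) (nat_lit 3) (nat_lit 140) (nat_lit 1) (nat_lit 142) (nat_lit 1) (nat_lit 289) (nat_lit 402) (nat_lit 329)) (XT.nd (nat_lit 78) (nat_lit 152) (nat_lit 0) (XT.lf (nat_lit 76) (nat_lit 2509521299) (nat_lit 0) (nat_lit 48027548234) (nat_lit 76) (nat_lit 6516090884) (nat_lit 140) (nat_lit 3) (nat_lit 139) (nat_lit 1) (nat_lit 140) (nat_lit 1) (nat_lit 290) (nat_lit 402) (nat_lit 328)) (XT.lf (nat_lit 0) (nat_lit 22926307832) (nat_lit 0) (nat_lit 26459437977) (nat_lit 152) (nat_lit 6210809175) (nat_lit 137) (nat_lit 3) (nat_lit 137) (nat_lit 1) (nat_lit 139) (nat_lit 1) (nat_lit 291) (nat_lit 402) (nat_lit 327)))) (XT.nd (nat_lit 156) (nat_lit 304) (nat_lit 0) (XT.nd (nat_lit 78) (nat_lit 76) (nat_lit 0) (XT.lf (nat_lit 76) (nat_lit 50964937830) (nat_lit 0) (nat_lit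 39743948) (nat_lit 152) (nat_lit 3189941705) (nat_lit 136) (nat_lit 1) (nat_lit 135) (nat_lit 1) (nat_lit 137) (nat_lit 1) (nat_lit 292) (nat_lit 402) (nat_lit 326)) (XT.lf (nat_lit 0) (nat_lit 24618650002) (nat_lit 0) (nat_lit 27503497269) (nat_lit 152) (nat_lit 687749157) (nat_lit 134) (nat_lit 3) (nat_lit 134) (nat_lit 1) (nat_lit 136) (nat_lit 1) (nat_lit 293) (nat_lit 402) (nat_lit 325))) (XT.nd (nat_lit 78) (nat_lit 76) (nat_lit 0) (XT.lf (nat_lit 152) (nat_lit 49137396901) (nat_lit 0) (nat_lit 2126347028) (nat_lit 76) (nat_lit 213897803) (nat_lit 133) (nat_lit 1) (nat_lit 131) (nat_lit 1) (nat_lit 132) (nat_lit 1) (nat_lit 294) (nat_lit 402) (nat_lit 324)) (XT.lf (nat_lit 76) (nat_lit 21678506110) (nat_lit 0) (nat_lit 4448574125) (nat_lit 76) (nat_lit 24034021875) (nat_lit 131) (nat_lit 3) (nat_lit 130) (nat_lit 1) (nat_lit 131) (nat_lit 1) (nat_lit 295) (nat_lit 402) (nat_lit 323))))))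 (XT.nd (nat_lit 546) (nat_lit 760) (nat_lit 0) (XT.nd (nat_lit 234) (nat_lit 456) (nat_lit 0) (XT.nd (nat_lit 78) (nat_lit 228) (nat_lit 0) (XT.lf (nat_lit 0) (nat_lit 2450639098) (nat_lit 0) (nat_lit 4527813493) (nat_lit 152) (nat_lit 41915640332) (nat_lit 128) (nat_lit 3) (nat_lit 128) (nat_lit 1) (nat_lit 130) (nat_lit 1) (nat_lit 296) (nat_lit 402) (nat_lit 322)) (XT.nd (nat_lit 78) (nat_lit 152) (nat_lit 0) (XT.lf (nat_lit 76) (nat_lit 18312257331) (nat_lit 0) (nat_lit 9098274023) (nat_lit 76) (nat_lit 20235566957) (nat_lit 128) (nat_lit 3) (nat_lit 127) (nat_lit 1) (nat_lit 128) (nat_lit 1) (nat_lit 297) (nat_lit 402) (nat_lit 321)) (XT.lf (nat_lit 0) (nat_lit 4822129294) (nat_lit 0) (nat_lit 6518169528) (nat_lit 152) (nat_lit 35101094598) (nat_lit 125) (nat_lit 3) (nat_lit 125) (nat_lit 1) (nat_lit 127) (nat_lit 1) (nat_lit 298) (nat_lit 402) (nat_lit 320)))) (XT.nd (nat_lit 156) (nat_lit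 228) (nat_lit 0) (XT.nd (nat_lit 78) (nat_lit 152) (nat_lit 0) (XT.lf (nat_lit 76) (nat_lit 15206930022) (nat_lit 0) (nat_lit 13274176871) (nat_lit 76) (nat_lit 16777337647) (nat_lit 125) (nat_lit 3) (nat_lit 124) (nat_lit 1) (nat_lit 125) (nat_lit 1) (nat_lit 299) (nat_lit 402) (nat_lit 319)) (XT.lf (nat_lit 0) (nat_lit 6932469583) (nat_lit 0) (nat_lit 8317308758) (nat_lit 152) (nat_lit 28863121879) (nat_lit 122) (nat_lit 3) (nat_lit 122) (nat_lit 1) (nat_lit 124) (nat_lit 1) (nat_lit 300) (nat_lit 402) (nat_lit 318))) (XT.nd (nat_lit 78) (nat_lit 152) (nat_lit 0) (XT.lf (nat_lit 76) (nat_lit 12349584681) (nat_lit 0) (nat_lit 17010111055) (nat_lit 76) (nat_lit 13631843176) (nat_lit 122) (nat_lit 3) (nat_lit 121) (nat_lit 1) (nat_lit 122) (nat_lit 1) (nat_lit 301) (nat_lit 402) (nat_lit 317)) (XT.lf (nat_lit 0) (nat_lit 8804401009) (nat_lit 0) (nat_lit 9935140423) (nat_lit 152) (nat_lit 23162642040)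 (nat_lit 119) (nat_lit 3) (nat_lit 119) (nat_lit 1) (nat_lit 121) (nat_lit 1) (nat_lit 302) (nat_lit 402) (nat_lit 316))))) (XT.nd (nat_lit 234) (nat_lit 456) (nat_lit 0) (XT.nd (nat_lit 78) (nat_lit 228) (nat_lit 0) (XT.lf (nat_lit 76) (nat_lit 9727009117) (nat_lit 0) (nat_lit 20338146567) (nat_lit 76) (nat_lit 10773990055) (nat_lit 119) (nat_lit 3) (nat_lit 118) (nat_lit 1) (nat_lit 119) (nat_lit 1) (nat_lit 303) (nat_lit 402) (nat_lit 315)) (XT.nd (nat_lit 78) (nat_lit 76) (nat_lit 0) (XT.lf (nat_lit 0) (nat_lit 10458616195) (nat_lit 0) (nat_lit 11381879809) (nat_lit 152) (nat_lit 17962671779) (nat_lit 116) (nat_lit 3) (nat_lit 116) (nat_lit 1) (nat_lit 118) (nat_lit 1) (nat_lit 304) (nat_lit 402) (nat_lit 314)) (XT.lf (nat_lit 76) (nat_lit 7325948398) (nat_lit 0) (nat_lit 23288600628) (nat_lit 76) (nat_lit 8180822115) (nat_lit 116) (nat_lit 3) (nat_lit 115) (nat_lit 1) (nat_lit 116) (nat_lit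 1) (nat_lit 305) (nat_lit 402) (nat_lit 313)))) (XT.nd (nat_lit 156) (nat_lit 228) (nat_lit 0) (XT.nd (nat_lit 78) (nat_lit 76) (nat_lit 0) (XT.lf (nat_lit 0) (nat_lit 11913983348) (nat_lit 0) (nat_lit 12667840241) (nat_lit 152) (nat_lit 13228285427) (nat_lit 113) (nat_lit 3) (nat_lit 113) (nat_lit 1) (nat_lit 115) (nat_lit 1) (nat_lit 306) (nat_lit 402) (nat_lit 312)) (XT.lf (nat_lit 76) (nat_lit 5133281091) (nat_lit 0) (nat_lit 25890063148) (nat_lit 76) (nat_lit 5831296733) (nat_lit 113) (nat_lit 3) (nat_lit 112) (nat_lit 1) (nat_lit 113) (nat_lit 1) (nat_lit 307) (nat_lit 402) (nat_lit 311))) (XT.nd (nat_lit 78) (nat_lit 76) (nat_lit 0) (XT.lf (nat_lit 0) (nat_lit 13187739175) (nat_lit 0) (nat_lit 13803273251) (nat_lit 152) (nat_lit 8926560790) (nat_lit 110) (nat_lit 3) (nat_lit 110) (nat_lit 1) (nat_lit 112) (nat_lit 1) (nat_lit 308) (nat_lit 402) (nat_lit 310)) (XT.lf (nat_lit 76) (nat_lit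 3136152345) (nat_lit 0) (nat_lit 28169437055) (nat_lit 76) (nat_lit 3706091304) (nat_lit 110) (nat_lit 3) (nat_lit 109) (nat_lit 1) (nat_lit 110) (nat_lit 1) (nat_lit 309) (nat_lit 402) (nat_lit 309))))))))
noncomputable def ec189 : XT := (XT.nd (nat_lit 2106) (nat_lit 3192) (nat_lit 0) (XT.nd (nat_lit 1014) (nat_lit 1748) (nat_lit 0) (XT.nd (nat_lit 468) (nat_lit 760) (nat_lit 0) (XT.nd (nat_lit 234) (nat_lit 456) (nat_lit 0) (XT.nd (nat_lit 78) (nat_lit 228) (nat_lit 0) (XT.lf (nat_lit 0) (nat_lit 14295655778) (nat_lit 0) (nat_lit 14798247453) (nat_lit 152) (nat_lit 5026514146) (nat_lit 107) (nat_lit 3) (nat_lit 107) (nat_lit 1) (nat_lit 109) (nat_lit 1) (nat_lit 310) (nat_lit 402) (nat_lit 308)) (XT.nd (nat_lit 78) (nat_lit 152) (nat_lit 0) (XT.lf (nat_lit 76) (nat_lit 1322072429) (nat_lit 0) (nat_lit 30151989549) (nat_lit 76) (nat_lit 1787435090) (nat_lit 107) (nat_lit 3) (nat_lit 106) (nat_lit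 1) (nat_lit 107) (nat_lit 1) (nat_lit 311) (nat_lit 402) (nat_lit 307)) (XT.lf (nat_lit 0) (nat_lit 15252185715) (nat_lit 0) (nat_lit 15662558433) (nat_lit 152) (nat_lit 1499027678) (nat_lit 104) (nat_lit 3) (nat_lit 104) (nat_lit 1) (nat_lit 106) (nat_lit 1) (nat_lit 312) (nat_lit 402) (nat_lit 306)))) (XT.nd (nat_lit 78) (nat_lit 228) (nat_lit 0) (XT.lf (nat_lit 152) (nat_lit 31284019577) (nat_lit 0) (nat_lit 265536872) (nat_lit 76) (nat_lit 49346839) (nat_lit 103) (nat_lit 1) (nat_lit 101) (nat_lit 1) (nat_lit 102) (nat_lit 1) (nat_lit 313) (nat_lit 402) (nat_lit 305)) (XT.nd (nat_lit 78) (nat_lit 152) (nat_lit 0) (XT.lf (nat_lit 76) (nat_lit 14358854320) (nat_lit 0) (nat_lit 1738883199) (nat_lit 76) (nat_lit 14693929045) (nat_lit 101) (nat_lit 3) (nat_lit 100) (nat_lit 1) (nat_lit 101) (nat_lit 1) (nat_lit 314) (nat_lit 402) (nat_lit 304)) (XT.lf (nat_lit 0) (nat_lit 1528844911) (nat_lit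 0) (nat_lit 1824325269) (nat_lit 152) (nat_lit 26662343230) (nat_lit 98) (nat_lit 3) (nat_lit 98) (nat_lit 1) (nat_lit 100) (nat_lit 1) (nat_lit 315) (nat_lit 402) (nat_lit 303))))) (XT.nd (nat_lit 234) (nat_lit 456) (nat_lit 0) (XT.nd (nat_lit 78) (nat_lit 228) (nat_lit 0) (XT.lf (nat_lit 76) (nat_lit 12140181364) (nat_lit 0) (nat_lit 4696181843) (nat_lit 76) (nat_lit 12413774288) (nat_lit 98) (nat_lit 3) (nat_lit 97) (nat_lit 1) (nat_lit 98) (nat_lit 1) (nat_lit 316) (nat_lit 402) (nat_lit 302)) (XT.nd (nat_lit 78) (nat_lit 76) (nat_lit 0) (XT.lf (nat_lit 0) (nat_lit 2942057267) (nat_lit 0) (nat_lit 3183320868) (nat_lit 152) (nat_lit 22386524389) (nat_lit 95) (nat_lit 3) (nat_lit 95) (nat_lit 1) (nat_lit 97) (nat_lit 1) (nat_lit 317) (nat_lit 402) (nat_lit 301)) (XT.lf (nat_lit 76) (nat_lit 10107373669) (nat_lit 0) (nat_lit 7348092517) (nat_lit 76) (nat_lit 10330765892) (nat_lit 95) (nat_lit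 3) (nat_lit 94) (nat_lit 1) (nat_lit 95) (nat_lit 1) (nat_lit 318) (nat_lit 402) (nat_lit 300)))) (XT.nd (nat_lit 156) (nat_lit 228) (nat_lit 0) (XT.nd (nat_lit 78) (nat_lit 76) (nat_lit 0) (XT.lf (nat_lit 0) (nat_lit 4204869973) (nat_lit 0) (nat_lit 4401864878) (nat_lit 152) (nat_lit 18477312495) (nat_lit 92) (nat_lit 3) (nat_lit 92) (nat_lit 1) (nat_lit 94) (nat_lit 1) (nat_lit 319) (nat_lit 402) (nat_lit 299)) (XT.lf (nat_lit 76) (nat_lit 8247897014) (nat_lit 0) (nat_lit 9717808833) (nat_lit 76) (nat_lit 8430299705) (nat_lit 92) (nat_lit 3) (nat_lit 91) (nat_lit 1) (nat_lit 92) (nat_lit 1) (nat_lit 320) (nat_lit 402) (nat_lit 298))) (XT.nd (nat_lit 78) (nat_lit 76) (nat_lit 0) (XT.lf (nat_lit 0) (nat_lit 5329308513) (nat_lit 0) (nat_lit 5490157447) (nat_lit 152) (nat_lit 14908631323) (nat_lit 89) (nat_lit 3) (nat_lit 89) (nat_lit 1) (nat_lit 91) (nat_lit 1) (nat_lit 321) (nat_lit 402) (nat_lit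 297)) (XT.lf (nat_lit 76) (nat_lit 6549885395) (nat_lit 0) (nat_lit 11827012811) (nat_lit 76) (nat_lit 6698819593) (nat_lit 89) (nat_lit 3) (nat_lit 88) (nat_lit 1) (nat_lit 89) (nat_lit 1) (nat_lit 322) (nat_lit 402) (nat_lit 296)))))) (XT.nd (nat_lit 546) (nat_lit 912) (nat_lit 0) (XT.nd (nat_lit 234) (nat_lit 456) (nat_lit 0) (XT.nd (nat_lit 78) (nat_lit 228) (nat_lit 0) (XT.lf (nat_lit 0) (nat_lit 6326502250) (nat_lit 0) (nat_lit 6457837521) (nat_lit 152) (nat_lit 11656061506) (nat_lit 86) (nat_lit 3) (nat_lit 86) (nat_lit 1) (nat_lit 88) (nat_lit 1) (nat_lit 323) (nat_lit 402) (nat_lit 295)) (XT.nd (nat_lit 78) (nat_lit 152) (nat_lit 0) (XT.lf (nat_lit 76) (nat_lit 5002129226) (nat_lit 0) (nat_lit 13695956899) (nat_lit 76) (nat_lit 5123735958) (nat_lit 86) (nat_lit 3) (nat_lit 85) (nat_lit 1) (nat_lit 86) (nat_lit 1) (nat_lit 324) (nat_lit 402) (nat_lit 294)) (XT.lf (nat_lit 0) (nat_lit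 7206755278) (nat_lit 0) (nat_lit 7313992255) (nat_lit 152) (nat_lit 8696749360) (nat_lit 83) (nat_lit 3) (nat_lit 83) (nat_lit 1) (nat_lit 85) (nat_lit 1) (nat_lit 325) (nat_lit 402) (nat_lit 293)))) (XT.nd (nat_lit 156) (nat_lit 228) (nat_lit 0) (XT.nd (nat_lit 78) (nat_lit 152) (nat_lit 0) (XT.lf (nat_lit 76) (nat_lit 3594058622) (nat_lit 0) (nat_lit 15343543794) (nat_lit 76) (nat_lit 3693352120) (nat_lit 83) (nat_lit 3) (nat_lit 82) (nat_lit 1) (nat_lit 83) (nat_lit 1) (nat_lit 326) (nat_lit 402) (nat_lit 292)) (XT.lf (nat_lit 0) (nat_lit 7979610448) (nat_lit 0) (nat_lit 8067170852) (nat_lit 152) (nat_lit 6009318803) (nat_lit 80) (nat_lit 3) (nat_lit 80) (nat_lit 1) (nat_lit 82) (nat_lit 1) (nat_lit 327) (nat_lit 402) (nat_lit 291))) (XT.nd (nat_lit 78) (nat_lit 152) (nat_lit 0) (XT.lf (nat_lit 76) (nat_lit 2315723093) (nat_lit 0) (nat_lit 16787403655) (nat_lit 76) (nat_lit 2396797541) (nat_lit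 80) (nat_lit 3) (nat_lit 79) (nat_lit 1) (nat_lit 80) (nat_lit 1) (nat_lit 328) (nat_lit 402) (nat_lit 290)) (XT.lf (nat_lit 0) (nat_lit 8653907418) (nat_lit 0) (nat_lit 8725401640) (nat_lit 152) (nat_lit 3573786643) (nat_lit 77) (nat_lit 3) (nat_lit 77) (nat_lit 1) (nat_lit 79) (nat_lit 1) (nat_lit 329) (nat_lit 402) (nat_lit 289))))) (XT.nd (nat_lit 234) (nat_lit 608) (nat_lit 0) (XT.nd (nat_lit 78) (nat_lit 228) (nat_lit 0) (XT.lf (nat_lit 76) (nat_lit 1157768719) (nat_lit 0) (nat_lit 18043968422) (nat_lit 76) (nat_lit 1223967073) (nat_lit 77) (nat_lit 3) (nat_lit 76) (nat_lit 1) (nat_lit 77) (nat_lit 1) (nat_lit 330) (nat_lit 402) (nat_lit 288)) (XT.nd (nat_lit 78) (nat_lit 76) (nat_lit 0) (XT.lf (nat_lit 0) (nat_lit 9237835461) (nat_lit 0) (nat_lit 9296211434) (nat_lit 152) (nat_lit 1371481400) (nat_lit 74) (nat_lit 3) (nat_lit 74) (nat_lit 1) (nat_lit 76) (nat_lit 1) (nat_lit 331) (nat_lit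 402) (nat_lit 287)) (XT.lf (nat_lit 76) (nat_lit 111413660) (nat_lit 0) (nat_lit 19128543084) (nat_lit 76) (nat_lit 165465487) (nat_lit 74) (nat_lit 3) (nat_lit 73) (nat_lit 1) (nat_lit 74) (nat_lit 1) (nat_lit 332) (nat_lit 402) (nat_lit 286)))) (XT.nd (nat_lit 156) (nat_lit 228) (nat_lit 0) (XT.nd (nat_lit 78) (nat_lit 152) (nat_lit 0) (XT.lf (nat_lit 76) (nat_lit 9113531527) (nat_lit 0) (nat_lit 635370039) (nat_lit 76) (nat_lit 9161196277) (nat_lit 71) (nat_lit 3) (nat_lit 70) (nat_lit 1) (nat_lit 71) (nat_lit 1) (nat_lit 333) (nat_lit 402) (nat_lit 285)) (XT.lf (nat_lit 0) (nat_lit 801764785) (nat_lit 0) (nat_lit 843797193) (nat_lit 152) (nat_lit 16788200184) (nat_lit 68) (nat_lit 3) (nat_lit 68) (nat_lit 1) (nat_lit 70) (nat_lit 1) (nat_lit 334) (nat_lit 402) (nat_lit 284))) (XT.nd (nat_lit 78) (nat_lit 152) (nat_lit 0) (XT.lf (nat_lit 76) (nat_lit 7721658086) (nat_lit 0) (nat_lit 2481459457)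 (nat_lit 76) (nat_lit 7760576982) (nat_lit 68) (nat_lit 3) (nat_lit 67) (nat_lit 1) (nat_lit 68) (nat_lit 1) (nat_lit 335) (nat_lit 402) (nat_lit 283)) (XT.lf (nat_lit 0) (nat_lit 1670968799) (nat_lit 0) (nat_lit 1705288813) (nat_lit 152) (nat_lit 14134337188) (nat_lit 65) (nat_lit 3) (nat_lit 65) (nat_lit 1) (nat_lit 67) (nat_lit 1) (nat_lit 336) (nat_lit 402) (nat_lit 282))))))) (XT.nd (nat_lit 1014) (nat_lit 1748) (nat_lit 0) (XT.nd (nat_lit 468) (nat_lit 760) (nat_lit 0) (XT.nd (nat_lit 234) (nat_lit 380) (nat_lit 0) (XT.nd (nat_lit 78) (nat_lit 228) (nat_lit 0) (XT.lf (nat_lit 76) (nat_lit 6447990465) (nat_lit 0) (nat_lit 4137128567) (nat_lit 76) (nat_lit 6479768256) (nat_lit 65) (nat_lit 3) (nat_lit 64) (nat_lit 1) (nat_lit 65) (nat_lit 1) (nat_lit 337) (nat_lit 402) (nat_lit 281)) (XT.nd (nat_lit 78) (nat_lit 76) (nat_lit 0) (XT.lf (nat_lit 0) (nat_lit 2448831119) (nat_lit 0) (nat_lit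 2476853863) (nat_lit 152) (nat_lit 11708200357) (nat_lit 62) (nat_lit 3) (nat_lit 62) (nat_lit 1) (nat_lit 64) (nat_lit 1) (nat_lit 338) (nat_lit 402) (nat_lit 280)) (XT.lf (nat_lit 76) (nat_lit 5284156231) (nat_lit 0) (nat_lit 5617009177) (nat_lit 76) (nat_lit 5310103216) (nat_lit 62) (nat_lit 3) (nat_lit 61) (nat_lit 1) (nat_lit 62) (nat_lit 1) (nat_lit 339) (nat_lit 402) (nat_lit 279)))) (XT.nd (nat_lit 78) (nat_lit 228) (nat_lit 0) (XT.lf (nat_lit 0) (nat_lit 3142482083) (nat_lit 0) (nat_lit 3165363022) (nat_lit 152) (nat_lit 9493437357) (nat_lit 59) (nat_lit 3) (nat_lit 59) (nat_lit 1) (nat_lit 61) (nat_lit 1) (nat_lit 340) (nat_lit 402) (nat_lit 278)) (XT.nd (nat_lit 78) (nat_lit 152) (nat_lit 0) (XT.lf (nat_lit 76) (nat_lit 4222313387) (nat_lit 0) (nat_lit 6934741018) (nat_lit 76) (nat_lit 4243499441) (nat_lit 59) (nat_lit 3) (nat_lit 58) (nat_lit 1) (nat_lit 59) (nat_lit 1) (nat_lit 341)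 (nat_lit 402) (nat_lit 277)) (XT.lf (nat_lit 0) (nat_lit 3758552034) (nat_lit 0) (nat_lit 3777234622) (nat_lit 152) (nat_lit 7474768187) (nat_lit 56) (nat_lit 3) (nat_lit 56) (nat_lit 1) (nat_lit 58) (nat_lit 1) (nat_lit 342) (nat_lit 402) (nat_lit 276))))) (XT.nd (nat_lit 234) (nat_lit 456) (nat_lit 0) (XT.nd (nat_lit 78) (nat_lit 228) (nat_lit 0) (XT.lf (nat_lit 76) (nat_lit 3255121297) (nat_lit 0) (nat_lit 8103033422) (nat_lit 76) (nat_lit 3272419989) (nat_lit 56) (nat_lit 3) (nat_lit 55) (nat_lit 1) (nat_lit 56) (nat_lit 1) (nat_lit 343) (nat_lit 402) (nat_lit 275)) (XT.nd (nat_lit 78) (nat_lit 76) (nat_lit 0) (XT.lf (nat_lit 0) (nat_lit 4303205411) (nat_lit 0) (nat_lit 4318459990) (nat_lit 152) (nat_lit 5637919513) (nat_lit 53) (nat_lit 3) (nat_lit 53) (nat_lit 1) (nat_lit 55) (nat_lit 1) (nat_lit 344) (nat_lit 402) (nat_lit 274)) (XT.lf (nat_lit 76) (nat_lit 2375712587) (nat_lit 0) (nat_lit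 9133723591) (nat_lit 76) (nat_lit 2389837197) (nat_lit 53) (nat_lit 3) (nat_lit 52) (nat_lit 1) (nat_lit 53) (nat_lit 1) (nat_lit 345) (nat_lit 402) (nat_lit 273)))) (XT.nd (nat_lit 156) (nat_lit 228) (nat_lit 0) (XT.nd (nat_lit 78) (nat_lit 76) (nat_lit 0) (XT.lf (nat_lit 0) (nat_lit 4782172378) (nat_lit 0) (nat_lit 4794627943) (nat_lit 152) (nat_lit 3969562665) (nat_lit 50) (nat_lit 3) (nat_lit 50) (nat_lit 1) (nat_lit 52) (nat_lit 1) (nat_lit 346) (nat_lit 402) (nat_lit 272)) (XT.lf (nat_lit 76) (nat_lit 1577666101) (nat_lit 0) (nat_lit 10037831589) (nat_lit 76) (nat_lit 1589199031) (nat_lit 50) (nat_lit 3) (nat_lit 49) (nat_lit 1) (nat_lit 50) (nat_lit 1) (nat_lit 347) (nat_lit 402) (nat_lit 271))) (XT.nd (nat_lit 78) (nat_lit 76) (nat_lit 0) (XT.lf (nat_lit 0) (nat_lit 5200778204) (nat_lit 0) (nat_lit 5210948337) (nat_lit 152) (nat_lit 2457255124) (nat_lit 47) (nat_lit 3) (nat_lit 47) (nat_lit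 1) (nat_lit 49) (nat_lit 1) (nat_lit 348) (nat_lit 402) (nat_lit 270)) (XT.lf (nat_lit 76) (nat_lit 854980971) (nat_lit 0) (nat_lit 10825612186) (nat_lit 76) (nat_lit 864397760) (nat_lit 47) (nat_lit 3) (nat_lit 46) (nat_lit 1) (nat_lit 47) (nat_lit 1) (nat_lit 349) (nat_lit 402) (nat_lit 269)))))) (XT.nd (nat_lit 546) (nat_lit 836) (nat_lit 0) (XT.nd (nat_lit 234) (nat_lit 456) (nat_lit 0) (XT.nd (nat_lit 78) (nat_lit 304) (nat_lit 0) (XT.lf (nat_lit 0) (nat_lit 5563970589) (nat_lit 0) (nat_lit 5572274636) (nat_lit 152) (nat_lit 1089385364) (nat_lit 44) (nat_lit 3) (nat_lit 44) (nat_lit 1) (nat_lit 46) (nat_lit 1) (nat_lit 350) (nat_lit 402) (nat_lit 268)) (XT.nd (nat_lit 78) (nat_lit 228) (nat_lit 0) (XT.lf (nat_lit 76) (nat_lit 202051851) (nat_lit 0) (nat_lit 11506603708) (nat_lit 76) (nat_lit 209740783) (nat_lit 44) (nat_lit 3) (nat_lit 43) (nat_lit 1) (nat_lit 44) (nat_lit 1) (nat_lit 351)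 (nat_lit 402) (nat_lit 267)) (XT.lf (nat_lit 76) (nat_lit 5729012372) (nat_lit 0) (nat_lit 149669484) (nat_lit 76) (nat_lit 5735792736) (nat_lit 41) (nat_lit 3) (nat_lit 40) (nat_lit 1) (nat_lit 41) (nat_lit 1) (nat_lit 352) (nat_lit 402) (nat_lit 266)))) (XT.nd (nat_lit 156) (nat_lit 228) (nat_lit 0) (XT.nd (nat_lit 78) (nat_lit 76) (nat_lit 0) (XT.lf (nat_lit 0) (nat_lit 386508290) (nat_lit 0) (nat_lit 392487447) (nat_lit 152) (nat_lit 10543020454) (nat_lit 38) (nat_lit 3) (nat_lit 38) (nat_lit 1) (nat_lit 40) (nat_lit 1) (nat_lit 353) (nat_lit 402) (nat_lit 265)) (XT.lf (nat_lit 76) (nat_lit 4865263175) (nat_lit 0) (nat_lit 1297157942) (nat_lit 76) (nat_lit 4870799431) (nat_lit 38) (nat_lit 3) (nat_lit 37) (nat_lit 1) (nat_lit 38) (nat_lit 1) (nat_lit 354) (nat_lit 402) (nat_lit 264))) (XT.nd (nat_lit 78) (nat_lit 76) (nat_lit 0) (XT.lf (nat_lit 0) (nat_lit 925078559) (nat_lit 0) (nat_lit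 929960619) (nat_lit 152) (nat_lit 8899984613) (nat_lit 35) (nat_lit 3) (nat_lit 35) (nat_lit 1) (nat_lit 37) (nat_lit 1) (nat_lit 355) (nat_lit 402) (nat_lit 263)) (XT.lf (nat_lit 76) (nat_lit 4074940464) (nat_lit 0) (nat_lit 2326789849) (nat_lit 76) (nat_lit 4079460890) (nat_lit 35) (nat_lit 3) (nat_lit 34) (nat_lit 1) (nat_lit 35) (nat_lit 1) (nat_lit 356) (nat_lit 402) (nat_lit 262))))) (XT.nd (nat_lit 234) (nat_lit 456) (nat_lit 0) (XT.nd (nat_lit 78) (nat_lit 228) (nat_lit 0) (XT.lf (nat_lit 0) (nat_lit 1407455030) (nat_lit 0) (nat_lit 1411441297) (nat_lit 152) (nat_lit 7397662082) (nat_lit 32) (nat_lit 3) (nat_lit 32) (nat_lit 1) (nat_lit 34) (nat_lit 1) (nat_lit 357) (nat_lit 402) (nat_lit 261)) (XT.nd (nat_lit 78) (nat_lit 152) (nat_lit 0) (XT.lf (nat_lit 76) (nat_lit 3352792846) (nat_lit 0) (nat_lit 3247633179) (nat_lit 76) (nat_lit 3356483834) (nat_lit 32) (nat_lit 3) (nat_lit 31) (nat_lit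 1) (nat_lit 32) (nat_lit 1) (nat_lit 358) (nat_lit 402) (nat_lit 260)) (XT.lf (nat_lit 0) (nat_lit 1837993407) (nat_lit 0) (nat_lit 1841248246) (nat_lit 152) (nat_lit 6025935973) (nat_lit 29) (nat_lit 3) (nat_lit 29) (nat_lit 1) (nat_lit 31) (nat_lit 1) (nat_lit 359) (nat_lit 402) (nat_lit 259)))) (XT.nd (nat_lit 156) (nat_lit 228) (nat_lit 0) (XT.nd (nat_lit 78) (nat_lit 152) (nat_lit 0) (XT.lf (nat_lit 76) (nat_lit 2693912497) (nat_lit 0) (nat_lit 4068136130) (nat_lit 76) (nat_lit 2696926237) (nat_lit 29) (nat_lit 3) (nat_lit 28) (nat_lit 1) (nat_lit 29) (nat_lit 1) (nat_lit 360) (nat_lit 402) (nat_lit 258)) (XT.lf (nat_lit 0) (nat_lit 2220748797) (nat_lit 0) (nat_lit 2223406415) (nat_lit 152) (nat_lit 4775357154) (nat_lit 26) (nat_lit 3) (nat_lit 26) (nat_lit 1) (nat_lit 28) (nat_lit 1) (nat_lit 361) (nat_lit 402) (nat_lit 257))) (XT.nd (nat_lit 78) (nat_lit 152) (nat_lit 0) (XT.lf (nat_lit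 76) (nat_lit 2093714160) (nat_lit 0) (nat_lit 4796166686) (nat_lit 76) (nat_lit 2096174918) (nat_lit 26) (nat_lit 3) (nat_lit 25) (nat_lit 1) (nat_lit 26) (nat_lit 1) (nat_lit 362) (nat_lit 402) (nat_lit 256)) (XT.lf (nat_lit 0) (nat_lit 2559495343) (nat_lit 0) (nat_lit 2561665324) (nat_lit 152) (nat_lit 3637102476) (nat_lit 23) (nat_lit 3) (nat_lit 23) (nat_lit 1) (nat_lit 25) (nat_lit 1) (nat_lit 363) (nat_lit 402) (nat_lit 255))))))))
noncomputable def ec190 : XT := (XT.nd (nat_lit 2028) (nat_lit 0) (nat_lit 0) (XT.nd (nat_lit 1014) (nat_lit 152) (nat_lit 0) (XT.nd (nat_lit 468) (nat_lit 912) (nat_lit 0) (XT.nd (nat_lit 234) (nat_lit 380) (nat_lit 0) (XT.nd (nat_lit 78) (nat_lit 228) (nat_lit 0) (XT.lf (nat_lit 76) (nat_lit 1547915311) (nat_lit 0) (nat_lit 5439049791) (nat_lit 76) (nat_lit 1549924553) (nat_lit 23) (nat_lit 3) (nat_lit 22) (nat_lit 1) (nat_lit 23) (nat_lit 1) (nat_lit 364)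 (nat_lit 402) (nat_lit 254)) (XT.nd (nat_lit 78) (nat_lit 76) (nat_lit 0) (XT.lf (nat_lit 0) (nat_lit 2857744591) (nat_lit 0) (nat_lit 2859516409) (nat_lit 152) (nat_lit 2602935495) (nat_lit 20) (nat_lit 3) (nat_lit 20) (nat_lit 1) (nat_lit 22) (nat_lit 1) (nat_lit 365) (nat_lit 402) (nat_lit 253)) (XT.lf (nat_lit 76) (nat_lit 1052517449) (nat_lit 0) (nat_lit 6003602267) (nat_lit 76) (nat_lit 1054158021) (nat_lit 20) (nat_lit 3) (nat_lit 19) (nat_lit 1) (nat_lit 20) (nat_lit 1) (nat_lit 366) (nat_lit 402) (nat_lit 252)))) (XT.nd (nat_lit 78) (nat_lit 228) (nat_lit 0) (XT.lf (nat_lit 0) (nat_lit 3118762672) (nat_lit 0) (nat_lit 3120209385) (nat_lit 152) (nat_lit 1665169546) (nat_lit 17) (nat_lit 3) (nat_lit 17) (nat_lit 1) (nat_lit 19) (nat_lit 1) (nat_lit 367) (nat_lit 402) (nat_lit 251)) (XT.nd (nat_lit 78) (nat_lit 152) (nat_lit 0) (XT.lf (nat_lit 76) (nat_lit 603788440) (nat_lit 0) (nat_lit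 6496165605) (nat_lit 76) (nat_lit 605127989) (nat_lit 17) (nat_lit 3) (nat_lit 16) (nat_lit 1) (nat_lit 17) (nat_lit 1) (nat_lit 368) (nat_lit 402) (nat_lit 250)) (XT.lf (nat_lit 0) (nat_lit 3345586393) (nat_lit 0) (nat_lit 3346767653) (nat_lit 152) (nat_lit 816633051) (nat_lit 14) (nat_lit 3) (nat_lit 14) (nat_lit 1) (nat_lit 16) (nat_lit 1) (nat_lit 369) (nat_lit 402) (nat_lit 249))))) (XT.nd (nat_lit 234) (nat_lit 456) (nat_lit 0) (XT.nd (nat_lit 78) (nat_lit 380) (nat_lit 0) (XT.lf (nat_lit 76) (nat_lit 198245891) (nat_lit 0) (nat_lit 6922636742) (nat_lit 76) (nat_lit 199339650) (nat_lit 14) (nat_lit 3) (nat_lit 13) (nat_lit 1) (nat_lit 14) (nat_lit 1) (nat_lit 370) (nat_lit 402) (nat_lit 248)) (XT.nd (nat_lit 78) (nat_lit 228) (nat_lit 0) (XT.lf (nat_lit 0) (nat_lit 3541038288) (nat_lit 0) (nat_lit 3542002802) (nat_lit 152) (nat_lit 50636916) (nat_lit 11) (nat_lit 3) (nat_lit 11) (nat_lit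 1) (nat_lit 13) (nat_lit 1) (nat_lit 371) (nat_lit 402) (nat_lit 247)) (XT.lf (nat_lit 0) (nat_lit 169222970) (nat_lit 0) (nat_lit 170073511) (nat_lit 152) (nat_lit 6614842294) (nat_lit 8) (nat_lit 3) (nat_lit 8) (nat_lit 1) (nat_lit 10) (nat_lit 1) (nat_lit 372) (nat_lit 402) (nat_lit 246)))) (XT.nd (nat_lit 156) (nat_lit 228) (nat_lit 0) (XT.nd (nat_lit 78) (nat_lit 152) (nat_lit 0) (XT.lf (nat_lit 76) (nat_lit 3057861906) (nat_lit 0) (nat_lit 660186170) (nat_lit 76) (nat_lit 3058649444) (nat_lit 8) (nat_lit 3) (nat_lit 7) (nat_lit 1) (nat_lit 8) (nat_lit 1) (nat_lit 373) (nat_lit 402) (nat_lit 245)) (XT.lf (nat_lit 0) (nat_lit 503467966) (nat_lit 0) (nat_lit 504162444) (nat_lit 152) (nat_lit 5598243738) (nat_lit 5) (nat_lit 3) (nat_lit 5) (nat_lit 1) (nat_lit 7) (nat_lit 1) (nat_lit 374) (nat_lit 402) (nat_lit 244))) (XT.nd (nat_lit 78) (nat_lit 152) (nat_lit 0) (XT.lf (nat_lit 76) (nat_lit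 2568559738) (nat_lit 0) (nat_lit 1299863855) (nat_lit 76) (nat_lit 2569202774) (nat_lit 5) (nat_lit 3) (nat_lit 4) (nat_lit 1) (nat_lit 5) (nat_lit 1) (nat_lit 375) (nat_lit 402) (nat_lit 243)) (XT.lf (nat_lit 0) (nat_lit 803038934) (nat_lit 0) (nat_lit 803605984) (nat_lit 152) (nat_lit 4668486513) (nat_lit 2) (nat_lit 3) (nat_lit 2) (nat_lit 1) (nat_lit 4) (nat_lit 1) (nat_lit 376) (nat_lit 402) (nat_lit 242)))))) (XT.nd (nat_lit 468) (nat_lit 0) (nat_lit 0) (XT.nd (nat_lit 234) (nat_lit 0) (nat_lit 0) (XT.nd (nat_lit 78) (nat_lit 76) (nat_lit 0) (XT.lf (nat_lit 76) (nat_lit 2121377246) (nat_lit 0) (nat_lit 1872319024) (nat_lit 76) (nat_lit 2121902293) (nat_lit 2) (nat_lit 3) (nat_lit 1) (nat_lit 1) (nat_lit 2) (nat_lit 1) (nat_lit 377) (nat_lit 402) (nat_lit 241)) (XT.nd (nat_lit 78) (nat_lit 0) (nat_lit 0) (XT.lf (nat_lit 0) (nat_lit 126816096671) (nat_lit 0) (nat_lit 0) (nat_lit 0) (nat_lit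 0) (nat_lit 0) (nat_lit 0) (nat_lit 1) (nat_lit 0) (nat_lit 1) (nat_lit 0) (nat_lit 378) (nat_lit 402) (nat_lit 240)) (XT.lf (nat_lit 0) (nat_lit 126816060514) (nat_lit 0) (nat_lit 0) (nat_lit 0) (nat_lit 0) (nat_lit 0) (nat_lit 0) (nat_lit 1) (nat_lit 0) (nat_lit 1) (nat_lit 0) (nat_lit 379) (nat_lit 402) (nat_lit 239)))) (XT.nd (nat_lit 78) (nat_lit 0) (nat_lit 0) (XT.lf (nat_lit 0) (nat_lit 126816027036) (nat_lit 0) (nat_lit 0) (nat_lit 0) (nat_lit 0) (nat_lit 0) (nat_lit 0) (nat_lit 1) (nat_lit 0) (nat_lit 1) (nat_lit 0) (nat_lit 380) (nat_lit 402) (nat_lit 238)) (XT.nd (nat_lit 78) (nat_lit 0) (nat_lit 0) (XT.lf (nat_lit 0) (nat_lit 126815996037) (nat_lit 0) (nat_lit 0) (nat_lit 0) (nat_lit 0) (nat_lit 0) (nat_lit 0) (nat_lit 1) (nat_lit 0) (nat_lit 1) (nat_lit 0) (nat_lit 381) (nat_lit 402) (nat_lit 237)) (XT.lf (nat_lit 0) (nat_lit 126815967335) (nat_lit 0) (nat_lit 0) (nat_lit 0) (nat_lit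 0) (nat_lit 0) (nat_lit 0) (nat_lit 1) (nat_lit 0) (nat_lit 1) (nat_lit 0) (nat_lit 382) (nat_lit 402) (nat_lit 236))))) (XT.nd (nat_lit 234) (nat_lit 0) (nat_lit 0) (XT.nd (nat_lit 78) (nat_lit 0) (nat_lit 0) (XT.lf (nat_lit 0) (nat_lit 126815940758) (nat_lit 0) (nat_lit 0) (nat_lit 0) (nat_lit 0) (nat_lit 0) (nat_lit 0) (nat_lit 1) (nat_lit 0) (nat_lit 1) (nat_lit 0) (nat_lit 383) (nat_lit 402) (nat_lit 235)) (XT.nd (nat_lit 78) (nat_lit 0) (nat_lit 0) (XT.lf (nat_lit 0) (nat_lit 126815916151) (nat_lit 0) (nat_lit 0) (nat_lit 0) (nat_lit 0) (nat_lit 0) (nat_lit 0) (nat_lit 1) (nat_lit 0) (nat_lit 1) (nat_lit 0) (nat_lit 384) (nat_lit 402) (nat_lit 234)) (XT.lf (nat_lit 0) (nat_lit 126815893366) (nat_lit 0) (nat_lit 0) (nat_lit 0) (nat_lit 0) (nat_lit 0) (nat_lit 0) (nat_lit 1) (nat_lit 0) (nat_lit 1) (nat_lit 0) (nat_lit 385) (nat_lit 402) (nat_lit 233)))) (XT.nd (nat_lit 156) (nat_lit 0) (nat_lit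 0) (XT.nd (nat_lit 78) (nat_lit 0) (nat_lit 0) (XT.lf (nat_lit 0) (nat_lit 126815872269) (nat_lit 0) (nat_lit 0) (nat_lit 0) (nat_lit 0) (nat_lit 0) (nat_lit 0) (nat_lit 1) (nat_lit 0) (nat_lit 1) (nat_lit 0) (nat_lit 386) (nat_lit 402) (nat_lit 232)) (XT.lf (nat_lit 0) (nat_lit 126815852734) (nat_lit 0) (nat_lit 0) (nat_lit 0) (nat_lit 0) (nat_lit 0) (nat_lit 0) (nat_lit 1) (nat_lit 0) (nat_lit 1) (nat_lit 0) (nat_lit 387) (nat_lit 402) (nat_lit 231))) (XT.nd (nat_lit 78) (nat_lit 0) (nat_lit 0) (XT.lf (nat_lit 0) (nat_lit 126815834647) (nat_lit 0) (nat_lit 0) (nat_lit 0) (nat_lit 0) (nat_lit 0) (nat_lit 0) (nat_lit 1) (nat_lit 0) (nat_lit 1) (nat_lit 0) (nat_lit 388) (nat_lit 402) (nat_lit 230)) (XT.lf (nat_lit 0) (nat_lit 126815817899) (nat_lit 0) (nat_lit 0) (nat_lit 0) (nat_lit 0) (nat_lit 0) (nat_lit 0) (nat_lit 1) (nat_lit 0) (nat_lit 1) (nat_lit 0) (nat_lit 389) (nat_lit 402) (nat_lit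 229))))))) (XT.nd (nat_lit 1014) (nat_lit 0) (nat_lit 0) (XT.nd (nat_lit 468) (nat_lit 0) (nat_lit 0) (XT.nd (nat_lit 234) (nat_lit 0) (nat_lit 0) (XT.nd (nat_lit 78) (nat_lit 0) (nat_lit 0) (XT.lf (nat_lit 0) (nat_lit 126815802392) (nat_lit 0) (nat_lit 0) (nat_lit 0) (nat_lit 0) (nat_lit 0) (nat_lit 0) (nat_lit 1) (nat_lit 0) (nat_lit 1) (nat_lit 0) (nat_lit 390) (nat_lit 402) (nat_lit 228)) (XT.nd (nat_lit 78) (nat_lit 0) (nat_lit 0) (XT.lf (nat_lit 0) (nat_lit 126815788034) (nat_lit 0) (nat_lit 0) (nat_lit 0) (nat_lit 0) (nat_lit 0) (nat_lit 0) (nat_lit 1) (nat_lit 0) (nat_lit 1) (nat_lit 0) (nat_lit 391) (nat_lit 402) (nat_lit 227)) (XT.lf (nat_lit 0) (nat_lit 126815774739) (nat_lit 0) (nat_lit 0) (nat_lit 0) (nat_lit 0) (nat_lit 0) (nat_lit 0) (nat_lit 1) (nat_lit 0) (nat_lit 1) (nat_lit 0) (nat_lit 392) (nat_lit 402) (nat_lit 226)))) (XT.nd (nat_lit 78) (nat_lit 0) (nat_lit 0) (XT.lf (nat_lit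 0) (nat_lit 126815762429) (nat_lit 0) (nat_lit 0) (nat_lit 0) (nat_lit 0) (nat_lit 0) (nat_lit 0) (nat_lit 1) (nat_lit 0) (nat_lit 1) (nat_lit 0) (nat_lit 393) (nat_lit 402) (nat_lit 225)) (XT.nd (nat_lit 78) (nat_lit 0) (nat_lit 0) (XT.lf (nat_lit 0) (nat_lit 126815751031) (nat_lit 0) (nat_lit 0) (nat_lit 0) (nat_lit 0) (nat_lit 0) (nat_lit 0) (nat_lit 1) (nat_lit 0) (nat_lit 1) (nat_lit 0) (nat_lit 394) (nat_lit 402) (nat_lit 224)) (XT.lf (nat_lit 0) (nat_lit 126815740477) (nat_lit 0) (nat_lit 0) (nat_lit 0) (nat_lit 0) (nat_lit 0) (nat_lit 0) (nat_lit 1) (nat_lit 0) (nat_lit 1) (nat_lit 0) (nat_lit 395) (nat_lit 402) (nat_lit 223))))) (XT.nd (nat_lit 234) (nat_lit 0) (nat_lit 0) (XT.nd (nat_lit 78) (nat_lit 0) (nat_lit 0) (XT.lf (nat_lit 0) (nat_lit 126815730705) (nat_lit 0) (nat_lit 0) (nat_lit 0) (nat_lit 0) (nat_lit 0) (nat_lit 0) (nat_lit 1) (nat_lit 0) (nat_lit 1) (nat_lit 0) (nat_lit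 396) (nat_lit 402) (nat_lit 222)) (XT.nd (nat_lit 78) (nat_lit 0) (nat_lit 0) (XT.lf (nat_lit 0) (nat_lit 126815721657) (nat_lit 0) (nat_lit 0) (nat_lit 0) (nat_lit 0) (nat_lit 0) (nat_lit 0) (nat_lit 1) (nat_lit 0) (nat_lit 1) (nat_lit 0) (nat_lit 397) (nat_lit 402) (nat_lit 221)) (XT.lf (nat_lit 0) (nat_lit 126815713279) (nat_lit 0) (nat_lit 0) (nat_lit 0) (nat_lit 0) (nat_lit 0) (nat_lit 0) (nat_lit 1) (nat_lit 0) (nat_lit 1) (nat_lit 0) (nat_lit 398) (nat_lit 402) (nat_lit 220)))) (XT.nd (nat_lit 156) (nat_lit 0) (nat_lit 0) (XT.nd (nat_lit 78) (nat_lit 0) (nat_lit 0) (XT.lf (nat_lit 0) (nat_lit 126815705521) (nat_lit 0) (nat_lit 0) (nat_lit 0) (nat_lit 0) (nat_lit 0) (nat_lit 0) (nat_lit 1) (nat_lit 0) (nat_lit 1) (nat_lit 0) (nat_lit 399) (nat_lit 402) (nat_lit 219)) (XT.lf (nat_lit 0) (nat_lit 126815698338) (nat_lit 0) (nat_lit 0) (nat_lit 0) (nat_lit 0) (nat_lit 0) (nat_lit 0) (nat_lit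 1) (nat_lit 0) (nat_lit 1) (nat_lit 0) (nat_lit 400) (nat_lit 402) (nat_lit 218))) (XT.nd (nat_lit 78) (nat_lit 0) (nat_lit 0) (XT.lf (nat_lit 0) (nat_lit 126815691688) (nat_lit 0) (nat_lit 0) (nat_lit 0) (nat_lit 0) (nat_lit 0) (nat_lit 0) (nat_lit 1) (nat_lit 0) (nat_lit 1) (nat_lit 0) (nat_lit 401) (nat_lit 402) (nat_lit 217)) (XT.lf (nat_lit 0) (nat_lit 126815685530) (nat_lit 0) (nat_lit 0) (nat_lit 0) (nat_lit 0) (nat_lit 0) (nat_lit 0) (nat_lit 1) (nat_lit 0) (nat_lit 1) (nat_lit 0) (nat_lit 402) (nat_lit 402) (nat_lit 216)))))) (XT.nd (nat_lit 546) (nat_lit 0) (nat_lit 0) (XT.nd (nat_lit 234) (nat_lit 0) (nat_lit 0) (XT.nd (nat_lit 78) (nat_lit 0) (nat_lit 0) (XT.lf (nat_lit 0) (nat_lit 126815679828) (nat_lit 0) (nat_lit 0) (nat_lit 0) (nat_lit 0) (nat_lit 0) (nat_lit 0) (nat_lit 1) (nat_lit 0) (nat_lit 1) (nat_lit 0) (nat_lit 403) (nat_lit 402) (nat_lit 215)) (XT.nd (nat_lit 78) (nat_lit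 0) (nat_lit 0) (XT.lf (nat_lit 0) (nat_lit 126815674548) (nat_lit 0) (nat_lit 0) (nat_lit 0) (nat_lit 0) (nat_lit 0) (nat_lit 0) (nat_lit 1) (nat_lit 0) (nat_lit 1) (nat_lit 0) (nat_lit 404) (nat_lit 402) (nat_lit 214)) (XT.lf (nat_lit 0) (nat_lit 126815669660) (nat_lit 0) (nat_lit 0) (nat_lit 0) (nat_lit 0) (nat_lit 0) (nat_lit 0) (nat_lit 1) (nat_lit 0) (nat_lit 1) (nat_lit 0) (nat_lit 405) (nat_lit 402) (nat_lit 213)))) (XT.nd (nat_lit 156) (nat_lit 0) (nat_lit 0) (XT.nd (nat_lit 78) (nat_lit 0) (nat_lit 0) (XT.lf (nat_lit 0) (nat_lit 126815665133) (nat_lit 0) (nat_lit 0) (nat_lit 0) (nat_lit 0) (nat_lit 0) (nat_lit 0) (nat_lit 1) (nat_lit 0) (nat_lit 1) (nat_lit 0) (nat_lit 406) (nat_lit 402) (nat_lit 212)) (XT.lf (nat_lit 0) (nat_lit 126815660942) (nat_lit 0) (nat_lit 0) (nat_lit 0) (nat_lit 0) (nat_lit 0) (nat_lit 0) (nat_lit 1) (nat_lit 0) (nat_lit 1) (nat_lit 0) (nat_lit 407) (nat_lit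 402) (nat_lit 211))) (XT.nd (nat_lit 78) (nat_lit 0) (nat_lit 0) (XT.lf (nat_lit 0) (nat_lit 126815657062) (nat_lit 0) (nat_lit 0) (nat_lit 0) (nat_lit 0) (nat_lit 0) (nat_lit 0) (nat_lit 1) (nat_lit 0) (nat_lit 1) (nat_lit 0) (nat_lit 408) (nat_lit 402) (nat_lit 210)) (XT.lf (nat_lit 0) (nat_lit 126815653468) (nat_lit 0) (nat_lit 0) (nat_lit 0) (nat_lit 0) (nat_lit 0) (nat_lit 0) (nat_lit 1) (nat_lit 0) (nat_lit 1) (nat_lit 0) (nat_lit 409) (nat_lit 402) (nat_lit 209))))) (XT.nd (nat_lit 234) (nat_lit 0) (nat_lit 0) (XT.nd (nat_lit 78) (nat_lit 0) (nat_lit 0) (XT.lf (nat_lit 0) (nat_lit 126815650141) (nat_lit 0) (nat_lit 0) (nat_lit 0) (nat_lit 0) (nat_lit 0) (nat_lit 0) (nat_lit 1) (nat_lit 0) (nat_lit 1) (nat_lit 0) (nat_lit 410) (nat_lit 402) (nat_lit 208)) (XT.nd (nat_lit 78) (nat_lit 0) (nat_lit 0) (XT.lf (nat_lit 0) (nat_lit 126815647061) (nat_lit 0) (nat_lit 0) (nat_lit 0) (nat_lit 0)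 (nat_lit 0) (nat_lit 0) (nat_lit 1) (nat_lit 0) (nat_lit 1) (nat_lit 0) (nat_lit 411) (nat_lit 402) (nat_lit 207)) (XT.lf (nat_lit 0) (nat_lit 126815644209) (nat_lit 0) (nat_lit 0) (nat_lit 0) (nat_lit 0) (nat_lit 0) (nat_lit 0) (nat_lit 1) (nat_lit 0) (nat_lit 1) (nat_lit 0) (nat_lit 412) (nat_lit 402) (nat_lit 206)))) (XT.nd (nat_lit 156) (nat_lit 0) (nat_lit 0) (XT.nd (nat_lit 78) (nat_lit 0) (nat_lit 0) (XT.lf (nat_lit 0) (nat_lit 126815641567) (nat_lit 0) (nat_lit 0) (nat_lit 0) (nat_lit 0) (nat_lit 0) (nat_lit 0) (nat_lit 1) (nat_lit 0) (nat_lit 1) (nat_lit 0) (nat_lit 413) (nat_lit 402) (nat_lit 205)) (XT.lf (nat_lit 0) (nat_lit 126815639122) (nat_lit 0) (nat_lit 0) (nat_lit 0) (nat_lit 0) (nat_lit 0) (nat_lit 0) (nat_lit 1) (nat_lit 0) (nat_lit 1) (nat_lit 0) (nat_lit 414) (nat_lit 402) (nat_lit 204))) (XT.nd (nat_lit 37440) (nat_lit 0) (nat_lit 22192) (XT.lf (nat_lit 0) (nat_lit 126815636858)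 (nat_lit 0) (nat_lit 0) (nat_lit 0) (nat_lit 0) (nat_lit 0) (nat_lit 0) (nat_lit 1) (nat_lit 0) (nat_lit 1) (nat_lit 0) (nat_lit 415) (nat_lit 402) (nat_lit 203)) (XT.lf (nat_lit 836) (nat_lit 68540343187) (nat_lit 0) (nat_lit 121693221782) (nat_lit 836) (nat_lit 68540343187) (nat_lit 303) (nat_lit 1) (nat_lit 292) (nat_lit 0) (nat_lit 303) (nat_lit 0) (nat_lit 214) (nat_lit 403) (nat_lit 403))))))))
noncomputable def ec191 : XT := (XT.nd (nat_lit 2106) (nat_lit 3572) (nat_lit 0) (XT.nd (nat_lit 1014) (nat_lit 3344) (nat_lit 0) (XT.nd (nat_lit 468) (nat_lit 2432) (nat_lit 0) (XT.nd (nat_lit 234) (nat_lit 0) (nat_lit 152) (XT.nd (nat_lit 78) (nat_lit 0) (nat_lit 0) (XT.lf (nat_lit 836) (nat_lit 25567651110) (nat_lit 0) (nat_lit 238920676687) (nat_lit 760) (nat_lit 233663623583) (nat_lit 304) (nat_lit 1) (nat_lit 293) (nat_lit 1) (nat_lit 303) (nat_lit 1) (nat_lit 215) (nat_lit 403) (nat_lit 402))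 (XT.nd (nat_lit 78) (nat_lit 0) (nat_lit 76) (XT.lf (nat_lit 836) (nat_lit 234824117584) (nat_lit 76) (nat_lit 160005257712) (nat_lit 0) (nat_lit 84859489874) (nat_lit 304) (nat_lit 1) (nat_lit 294) (nat_lit 1) (nat_lit 293) (nat_lit 1) (nat_lit 216) (nat_lit 403) (nat_lit 401)) (XT.lf (nat_lit 836) (nat_lit 202907274662) (nat_lit 76) (nat_lit 67057094455) (nat_lit 0) (nat_lit 192185349509) (nat_lit 305) (nat_lit 1) (nat_lit 295) (nat_lit 1) (nat_lit 294) (nat_lit 1) (nat_lit 217) (nat_lit 403) (nat_lit 400)))) (XT.nd (nat_lit 78) (nat_lit 0) (nat_lit 76) (XT.lf (nat_lit 836) (nat_lit 150168633827) (nat_lit 0) (nat_lit 280958415726) (nat_lit 760) (nat_lit 14362554071) (nat_lit 306) (nat_lit 1) (nat_lit 295) (nat_lit 1) (nat_lit 305) (nat_lit 1) (nat_lit 218) (nat_lit 403) (nat_lit 399)) (XT.nd (nat_lit 78) (nat_lit 0) (nat_lit 0) (XT.lf (nat_lit 836) (nat_lit 36031491324) (nat_lit 0) (nat_lit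 309834706613) (nat_lit 760) (nat_lit 83758927797) (nat_lit 307) (nat_lit 1) (nat_lit 296) (nat_lit 1) (nat_lit 306) (nat_lit 1) (nat_lit 219) (nat_lit 403) (nat_lit 398)) (XT.lf (nat_lit 836) (nat_lit 69237871076) (nat_lit 76) (nat_lit 269271590970) (nat_lit 0) (nat_lit 75991765152) (nat_lit 307) (nat_lit 1) (nat_lit 297) (nat_lit 1) (nat_lit 296) (nat_lit 1) (nat_lit 220) (nat_lit 403) (nat_lit 397))))) (XT.nd (nat_lit 234) (nat_lit 1064) (nat_lit 0) (XT.nd (nat_lit 78) (nat_lit 912) (nat_lit 0) (XT.lf (nat_lit 836) (nat_lit 14219879883) (nat_lit 0) (nat_lit 201298325881) (nat_lit 760) (nat_lit 184588455662) (nat_lit 298) (nat_lit 1) (nat_lit 287) (nat_lit 1) (nat_lit 297) (nat_lit 1) (nat_lit 221) (nat_lit 403) (nat_lit 396)) (XT.nd (nat_lit 78) (nat_lit 380) (nat_lit 0) (XT.lf (nat_lit 76) (nat_lit 98461410434) (nat_lit 0) (nat_lit 42667911164) (nat_lit 532) (nat_lit 245264342846) (nat_lit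 281) (nat_lit 1) (nat_lit 280) (nat_lit 1) (nat_lit 287) (nat_lit 1) (nat_lit 222) (nat_lit 403) (nat_lit 395)) (XT.lf (nat_lit 456) (nat_lit 271347254134) (nat_lit 0) (nat_lit 88329380995) (nat_lit 380) (nat_lit 13656268080) (nat_lit 281) (nat_lit 1) (nat_lit 275) (nat_lit 1) (nat_lit 280) (nat_lit 1) (nat_lit 223) (nat_lit 403) (nat_lit 394)))) (XT.nd (nat_lit 156) (nat_lit 380) (nat_lit 0) (XT.nd (nat_lit 78) (nat_lit 304) (nat_lit 0) (XT.lf (nat_lit 456) (nat_lit 195806762548) (nat_lit 0) (nat_lit 41170704973) (nat_lit 380) (nat_lit 123856263833) (nat_lit 276) (nat_lit 1) (nat_lit 270) (nat_lit 1) (nat_lit 275) (nat_lit 1) (nat_lit 224) (nat_lit 403) (nat_lit 393)) (XT.lf (nat_lit 380) (nat_lit 119145917703) (nat_lit 0) (nat_lit 758019584) (nat_lit 304) (nat_lit 229036679877) (nat_lit 271) (nat_lit 1) (nat_lit 266) (nat_lit 1) (nat_lit 270) (nat_lit 1) (nat_lit 225) (nat_lit 403) (nat_lit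 392))) (XT.nd (nat_lit 78) (nat_lit 380) (nat_lit 0) (XT.lf (nat_lit 76) (nat_lit 8790022726) (nat_lit 0) (nat_lit 296442159110) (nat_lit 380) (nat_lit 32362425626) (nat_lit 267) (nat_lit 1) (nat_lit 266) (nat_lit 1) (nat_lit 271) (nat_lit 1) (nat_lit 226) (nat_lit 403) (nat_lit 391)) (XT.lf (nat_lit 76) (nat_lit 226960666653) (nat_lit 0) (nat_lit 37643855028) (nat_lit 380) (nat_lit 62081553584) (nat_lit 262) (nat_lit 1) (nat_lit 261) (nat_lit 1) (nat_lit 266) (nat_lit 1) (nat_lit 227) (nat_lit 403) (nat_lit 390)))))) (XT.nd (nat_lit 546) (nat_lit 1368) (nat_lit 0) (XT.nd (nat_lit 234) (nat_lit 1140) (nat_lit 0) (XT.nd (nat_lit 78) (nat_lit 532) (nat_lit 0) (XT.lf (nat_lit 76) (nat_lit 113554172856) (nat_lit 0) (nat_lit 115309810348) (nat_lit 380) (nat_lit 87395554437) (nat_lit 258) (nat_lit 1) (nat_lit 257) (nat_lit 1) (nat_lit 262) (nat_lit 1) (nat_lit 228) (nat_lit 403) (nat_lit 389)) (XT.nd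 (nat_lit 78) (nat_lit 228) (nat_lit 0) (XT.lf (nat_lit 76) (nat_lit 5604782170) (nat_lit 0) (nat_lit 192796212395) (nat_lit 380) (nat_lit 107925667549) (nat_lit 254) (nat_lit 1) (nat_lit 253) (nat_lit 1) (nat_lit 258) (nat_lit 1) (nat_lit 229) (nat_lit 403) (nat_lit 388)) (XT.lf (nat_lit 304) (nat_lit 25310880396) (nat_lit 0) (nat_lit 171165368580) (nat_lit 228) (nat_lit 100306839797) (nat_lit 254) (nat_lit 1) (nat_lit 250) (nat_lit 1) (nat_lit 253) (nat_lit 1) (nat_lit 230) (nat_lit 403) (nat_lit 387)))) (XT.nd (nat_lit 156) (nat_lit 532) (nat_lit 0) (XT.nd (nat_lit 78) (nat_lit 228) (nat_lit 0) (XT.lf (nat_lit 76) (nat_lit 87455896847) (nat_lit 0) (nat_lit 59942815126) (nat_lit 380) (nat_lit 140235065778) (nat_lit 246) (nat_lit 1) (nat_lit 245) (nat_lit 1) (nat_lit 250) (nat_lit 1) (nat_lit 231) (nat_lit 403) (nat_lit 386)) (XT.lf (nat_lit 304) (nat_lit 135402764191) (nat_lit 0) (nat_lit 127193396562)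 (nat_lit 228) (nat_lit 16280603803) (nat_lit 246) (nat_lit 1) (nat_lit 242) (nat_lit 1) (nat_lit 245) (nat_lit 1) (nat_lit 232) (nat_lit 403) (nat_lit 385))) (XT.nd (nat_lit 78) (nat_lit 304) (nat_lit 0) (XT.lf (nat_lit 304) (nat_lit 43395931784) (nat_lit 0) (nat_lit 109508305921) (nat_lit 228) (nat_lit 117552048118) (nat_lit 243) (nat_lit 1) (nat_lit 239) (nat_lit 1) (nat_lit 242) (nat_lit 1) (nat_lit 233) (nat_lit 403) (nat_lit 384)) (XT.lf (nat_lit 76) (nat_lit 49460876378) (nat_lit 0) (nat_lit 45285730570) (nat_lit 304) (nat_lit 167638918478) (nat_lit 236) (nat_lit 1) (nat_lit 235) (nat_lit 1) (nat_lit 239) (nat_lit 1) (nat_lit 234) (nat_lit 403) (nat_lit 383))))) (XT.nd (nat_lit 234) (nat_lit 684) (nat_lit 0) (XT.nd (nat_lit 78) (nat_lit 456) (nat_lit 0) (XT.lf (nat_lit 304) (nat_lit 123076899144) (nat_lit 0) (nat_lit 81890807813) (nat_lit 228) (nat_lit 49642476940) (nat_lit 236) (nat_lit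 1) (nat_lit 232) (nat_lit 1) (nat_lit 235) (nat_lit 1) (nat_lit 235) (nat_lit 403) (nat_lit 382)) (XT.nd (nat_lit 78) (nat_lit 304) (nat_lit 0) (XT.lf (nat_lit 228) (nat_lit 30510945029) (nat_lit 0) (nat_lit 71443756685) (nat_lit 152) (nat_lit 145193819624) (nat_lit 233) (nat_lit 1) (nat_lit 230) (nat_lit 1) (nat_lit 232) (nat_lit 1) (nat_lit 236) (nat_lit 403) (nat_lit 381)) (XT.lf (nat_lit 76) (nat_lit 5168749015) (nat_lit 0) (nat_lit 57839423563) (nat_lit 304) (nat_lit 176967919899) (nat_lit 227) (nat_lit 1) (nat_lit 226) (nat_lit 1) (nat_lit 230) (nat_lit 1) (nat_lit 237) (nat_lit 403) (nat_lit 380)))) (XT.nd (nat_lit 156) (nat_lit 304) (nat_lit 0) (XT.nd (nat_lit 78) (nat_lit 228) (nat_lit 0) (XT.lf (nat_lit 228) (nat_lit 88659207891) (nat_lit 0) (nat_lit 55404398872) (nat_lit 152) (nat_lit 88967742826) (nat_lit 227) (nat_lit 1) (nat_lit 224) (nat_lit 1) (nat_lit 226) (nat_lit 1) (nat_lit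 238) (nat_lit 403) (nat_lit 379)) (XT.lf (nat_lit 76) (nat_lit 48102781110) (nat_lit 0) (nat_lit 2221897617) (nat_lit 228) (nat_lit 176064972624) (nat_lit 222) (nat_lit 1) (nat_lit 221) (nat_lit 1) (nat_lit 224) (nat_lit 1) (nat_lit 239) (nat_lit 403) (nat_lit 378))) (XT.nd (nat_lit 78) (nat_lit 152) (nat_lit 0) (XT.lf (nat_lit 228) (nat_lit 131503714688) (nat_lit 0) (nat_lit 45568985700) (nat_lit 152) (nat_lit 42868455000) (nat_lit 222) (nat_lit 1) (nat_lit 219) (nat_lit 1) (nat_lit 221) (nat_lit 1) (nat_lit 240) (nat_lit 403) (nat_lit 377)) (XT.lf (nat_lit 228) (nat_lit 40850323504) (nat_lit 0) (nat_lit 42361411303) (nat_lit 152) (nat_lit 130527478841) (nat_lit 220) (nat_lit 1) (nat_lit 217) (nat_lit 1) (nat_lit 219) (nat_lit 1) (nat_lit 241) (nat_lit 403) (nat_lit 376))))))) (XT.nd (nat_lit 1014) (nat_lit 1596) (nat_lit 0) (XT.nd (nat_lit 468) (nat_lit 988) (nat_lit 0) (XT.nd (nat_lit 234)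 (nat_lit 456) (nat_lit 0) (XT.nd (nat_lit 78) (nat_lit 304) (nat_lit 0) (XT.lf (nat_lit 228) (nat_lit 162160771394) (nat_lit 0) (nat_lit 40472890233) (nat_lit 152) (nat_lit 5134455679) (nat_lit 217) (nat_lit 1) (nat_lit 214) (nat_lit 1) (nat_lit 216) (nat_lit 1) (nat_lit 242) (nat_lit 403) (nat_lit 375)) (XT.nd (nat_lit 78) (nat_lit 152) (nat_lit 0) (XT.lf (nat_lit 228) (nat_lit 72575645759) (nat_lit 0) (nat_lit 38637964870) (nat_lit 152) (nat_lit 90749328256) (nat_lit 215) (nat_lit 1) (nat_lit 212) (nat_lit 1) (nat_lit 214) (nat_lit 1) (nat_lit 243) (nat_lit 403) (nat_lit 374)) (XT.lf (nat_lit 76) (nat_lit 24859960740) (nat_lit 0) (nat_lit 13664154645) (nat_lit 152) (nat_lit 157874428879) (nat_lit 211) (nat_lit 1) (nat_lit 210) (nat_lit 1) (nat_lit 212) (nat_lit 1) (nat_lit 244) (nat_lit 403) (nat_lit 373)))) (XT.nd (nat_lit 78) (nat_lit 304) (nat_lit 0) (XT.lf (nat_lit 228) (nat_lit 95223421113)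 (nat_lit 0) (nat_lit 38116187886) (nat_lit 152) (nat_lit 57634952853) (nat_lit 211) (nat_lit 1) (nat_lit 208) (nat_lit 1) (nat_lit 210) (nat_lit 1) (nat_lit 245) (nat_lit 403) (nat_lit 372)) (XT.nd (nat_lit 78) (nat_lit 228) (nat_lit 0) (XT.lf (nat_lit 152) (nat_lit 10254209346) (nat_lit 0) (nat_lit 39052370716) (nat_lit 76) (nat_lit 136458131222) (nat_lit 209) (nat_lit 1) (nat_lit 207) (nat_lit 1) (nat_lit 208) (nat_lit 1) (nat_lit 246) (nat_lit 403) (nat_lit 371)) (XT.lf (nat_lit 228) (nat_lit 110690404085) (nat_lit 0) (nat_lit 39940153984) (nat_lit 152) (nat_lit 30067954315) (nat_lit 207) (nat_lit 1) (nat_lit 204) (nat_lit 1) (nat_lit 206) (nat_lit 1) (nat_lit 247) (nat_lit 403) (nat_lit 370))))) (XT.nd (nat_lit 234) (nat_lit 608) (nat_lit 0) (XT.nd (nat_lit 78) (nat_lit 304) (nat_lit 0) (XT.lf (nat_lit 152) (nat_lit 27839452855) (nat_lit 0) (nat_lit 41433556588) (nat_lit 76) (nat_lit 106530045120)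 (nat_lit 205) (nat_lit 1) (nat_lit 203) (nat_lit 1) (nat_lit 204) (nat_lit 1) (nat_lit 248) (nat_lit 403) (nat_lit 369)) (XT.nd (nat_lit 78) (nat_lit 76) (nat_lit 0) (XT.lf (nat_lit 228) (nat_lit 120510144933) (nat_lit 0) (nat_lit 43431909281) (nat_lit 152) (nat_lit 7127548110) (nat_lit 203) (nat_lit 1) (nat_lit 200) (nat_lit 1) (nat_lit 202) (nat_lit 1) (nat_lit 249) (nat_lit 403) (nat_lit 368)) (XT.lf (nat_lit 152) (nat_lit 40064792009) (nat_lit 0) (nat_lit 45278287313) (nat_lit 76) (nat_lit 81119961983) (nat_lit 201) (nat_lit 1) (nat_lit 199) (nat_lit 1) (nat_lit 200) (nat_lit 1) (nat_lit 250) (nat_lit 403) (nat_lit 367)))) (XT.nd (nat_lit 156) (nat_lit 304) (nat_lit 0) (XT.nd (nat_lit 78) (nat_lit 76) (nat_lit 0) (XT.lf (nat_lit 76) (nat_lit 11564293405) (nat_lit 0) (nat_lit 36297234407) (nat_lit 228) (nat_lit 114160443491) (nat_lit 197) (nat_lit 1) (nat_lit 196) (nat_lit 1) (nat_lit 199)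 (nat_lit 1) (nat_lit 251) (nat_lit 403) (nat_lit 366)) (XT.lf (nat_lit 152) (nat_lit 48081365167) (nat_lit 0) (nat_lit 50098503499) (nat_lit 76) (nat_lit 59511323874) (nat_lit 197) (nat_lit 1) (nat_lit 195) (nat_lit 1) (nat_lit 196) (nat_lit 1) (nat_lit 252) (nat_lit 403) (nat_lit 365))) (XT.nd (nat_lit 78) (nat_lit 76) (nat_lit 0) (XT.lf (nat_lit 76) (nat_lit 26894240492) (nat_lit 0) (nat_lit 26048890500) (nat_lit 228) (nat_lit 100569476958) (nat_lit 193) (nat_lit 1) (nat_lit 192) (nat_lit 1) (nat_lit 195) (nat_lit 1) (nat_lit 253) (nat_lit 403) (nat_lit 364)) (XT.lf (nat_lit 152) (nat_lit 52817487522) (nat_lit 0) (nat_lit 55513219701) (nat_lit 76) (nat_lit 41110077390) (nat_lit 193) (nat_lit 1) (nat_lit 191) (nat_lit 1) (nat_lit 192) (nat_lit 1) (nat_lit 254) (nat_lit 403) (nat_lit 363)))))) (XT.nd (nat_lit 546) (nat_lit 760) (nat_lit 0) (XT.nd (nat_lit 234) (nat_lit 456) (nat_lit 0) (XT.nd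 (nat_lit 78) (nat_lit 228) (nat_lit 0) (XT.lf (nat_lit 76) (nat_lit 39594541031) (nat_lit 0) (nat_lit 18866090341) (nat_lit 152) (nat_lit 87042803457) (nat_lit 190) (nat_lit 1) (nat_lit 189) (nat_lit 1) (nat_lit 191) (nat_lit 1) (nat_lit 255) (nat_lit 403) (nat_lit 362)) (XT.nd (nat_lit 78) (nat_lit 152) (nat_lit 0) (XT.lf (nat_lit 152) (nat_lit 55020287147) (nat_lit 0) (nat_lit 61227656182) (nat_lit 76) (nat_lit 25422821384) (nat_lit 190) (nat_lit 1) (nat_lit 188) (nat_lit 1) (nat_lit 189) (nat_lit 1) (nat_lit 256) (nat_lit 403) (nat_lit 361)) (XT.lf (nat_lit 76) (nat_lit 50083412972) (nat_lit 0) (nat_lit 14074349394) (nat_lit 152) (nat_lit 73798221157) (nat_lit 187) (nat_lit 1) (nat_lit 186) (nat_lit 1) (nat_lit 188) (nat_lit 1) (nat_lit 257) (nat_lit 403) (nat_lit 360)))) (XT.nd (nat_lit 156) (nat_lit 228) (nat_lit 0) (XT.nd (nat_lit 78) (nat_lit 152) (nat_lit 0) (XT.lf (nat_lit 152) (nat_lit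 55289654749) (nat_lit 0) (nat_lit 67016279101) (nat_lit 76) (nat_lit 12038923629) (nat_lit 187) (nat_lit 1) (nat_lit 185) (nat_lit 1) (nat_lit 186) (nat_lit 1) (nat_lit 258) (nat_lit 403) (nat_lit 359)) (XT.lf (nat_lit 76) (nat_lit 58708442099) (nat_lit 0) (nat_lit 11131319390) (nat_lit 152) (nat_lit 60996391808) (nat_lit 184) (nat_lit 1) (nat_lit 183) (nat_lit 1) (nat_lit 185) (nat_lit 1) (nat_lit 259) (nat_lit 403) (nat_lit 358))) (XT.nd (nat_lit 78) (nat_lit 152) (nat_lit 0) (XT.lf (nat_lit 152) (nat_lit 54105920281) (nat_lit 0) (nat_lit 72709027047) (nat_lit 76) (nat_lit 615880707) (nat_lit 184) (nat_lit 1) (nat_lit 182) (nat_lit 1) (nat_lit 183) (nat_lit 1) (nat_lit 260) (nat_lit 403) (nat_lit 357)) (XT.lf (nat_lit 76) (nat_lit 65759084612) (nat_lit 0) (nat_lit 9601977377) (nat_lit 152) (nat_lit 48752484163) (nat_lit 181) (nat_lit 1) (nat_lit 180) (nat_lit 1) (nat_lit 182) (nat_lit 1) (nat_lit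 261) (nat_lit 403) (nat_lit 356))))) (XT.nd (nat_lit 234) (nat_lit 456) (nat_lit 0) (XT.nd (nat_lit 78) (nat_lit 228) (nat_lit 0) (XT.lf (nat_lit 0) (nat_lit 8840369054) (nat_lit 0) (nat_lit 69190049642) (nat_lit 152) (nat_lit 42862325120) (nat_lit 179) (nat_lit 3) (nat_lit 179) (nat_lit 1) (nat_lit 181) (nat_lit 1) (nat_lit 262) (nat_lit 403) (nat_lit 355)) (XT.nd (nat_lit 78) (nat_lit 76) (nat_lit 0) (XT.lf (nat_lit 76) (nat_lit 71476906567) (nat_lit 0) (nat_lit 9138403337) (nat_lit 152) (nat_lit 37145607036) (nat_lit 178) (nat_lit 1) (nat_lit 177) (nat_lit 1) (nat_lit 179) (nat_lit 1) (nat_lit 263) (nat_lit 403) (nat_lit 354)) (XT.lf (nat_lit 0) (nat_lit 16888375425) (nat_lit 0) (nat_lit 66164683959) (nat_lit 152) (nat_lit 31659438290) (nat_lit 176) (nat_lit 3) (nat_lit 176) (nat_lit 1) (nat_lit 178) (nat_lit 1) (nat_lit 264) (nat_lit 403) (nat_lit 353)))) (XT.nd (nat_lit 156) (nat_lit 228)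 (nat_lit 0) (XT.nd (nat_lit 78) (nat_lit 76) (nat_lit 0) (XT.lf (nat_lit 76) (nat_lit 76063973468) (nat_lit 0) (nat_lit 9463302190) (nat_lit 152) (nat_lit 26226442115) (nat_lit 175) (nat_lit 1) (nat_lit 174) (nat_lit 1) (nat_lit 176) (nat_lit 1) (nat_lit 265) (nat_lit 403) (nat_lit 352)) (XT.lf (nat_lit 0) (nat_lit 23743176358) (nat_lit 0) (nat_lit 63977930861) (nat_lit 152) (nat_lit 21145940102) (nat_lit 173) (nat_lit 3) (nat_lit 173) (nat_lit 1) (nat_lit 175) (nat_lit 1) (nat_lit 266) (nat_lit 403) (nat_lit 351))) (XT.nd (nat_lit 78) (nat_lit 76) (nat_lit 0) (XT.lf (nat_lit 76) (nat_lit 79689727566) (nat_lit 0) (nat_lit 10356581067) (nat_lit 152) (nat_lit 16023411128) (nat_lit 172) (nat_lit 1) (nat_lit 171) (nat_lit 1) (nat_lit 173) (nat_lit 1) (nat_lit 267) (nat_lit 403) (nat_lit 350)) (XT.lf (nat_lit 0) (nat_lit 29569451361) (nat_lit 0) (nat_lit 62421657990) (nat_lit 152) (nat_lit 11343947737)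 (nat_lit 170) (nat_lit 3) (nat_lit 170) (nat_lit 1) (nat_lit 172) (nat_lit 1) (nat_lit 268) (nat_lit 403) (nat_lit 349))))))))
noncomputable def ec192 : XT := (XT.nd (nat_lit 2028) (nat_lit 3192) (nat_lit 0) (XT.nd (nat_lit 1014) (nat_lit 1596) (nat_lit 0) (XT.nd (nat_lit 468) (nat_lit 836) (nat_lit 0) (XT.nd (nat_lit 234) (nat_lit 304) (nat_lit 0) (XT.nd (nat_lit 78) (nat_lit 304) (nat_lit 0) (XT.lf (nat_lit 76) (nat_lit 82496628636) (nat_lit 0) (nat_lit 11644419287) (nat_lit 152) (nat_lit 6547650302) (nat_lit 169) (nat_lit 1) (nat_lit 168) (nat_lit 1) (nat_lit 170) (nat_lit 1) (nat_lit 269) (nat_lit 403) (nat_lit 348)) (XT.nd (nat_lit 78) (nat_lit 228) (nat_lit 0) (XT.lf (nat_lit 0) (nat_lit 34506480022) (nat_lit 0) (nat_lit 61330739142) (nat_lit 152) (nat_lit 2259866031) (nat_lit 167) (nat_lit 3) (nat_lit 167) (nat_lit 1) (nat_lit 169) (nat_lit 1) (nat_lit 270) (nat_lit 403) (nat_lit 347))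 (XT.lf (nat_lit 152) (nat_lit 82364489592) (nat_lit 0) (nat_lit 2275825890) (nat_lit 76) (nat_lit 10950077940) (nat_lit 166) (nat_lit 1) (nat_lit 164) (nat_lit 1) (nat_lit 165) (nat_lit 1) (nat_lit 271) (nat_lit 403) (nat_lit 346)))) (XT.nd (nat_lit 78) (nat_lit 228) (nat_lit 0) (XT.lf (nat_lit 76) (nat_lit 32457018699) (nat_lit 0) (nat_lit 6314011590) (nat_lit 76) (nat_lit 54359379336) (nat_lit 164) (nat_lit 3) (nat_lit 163) (nat_lit 1) (nat_lit 164) (nat_lit 1) (nat_lit 272) (nat_lit 403) (nat_lit 345)) (XT.nd (nat_lit 78) (nat_lit 76) (nat_lit 0) (XT.lf (nat_lit 152) (nat_lit 75701611092) (nat_lit 0) (nat_lit 10579309667) (nat_lit 76) (nat_lit 4473994342) (nat_lit 163) (nat_lit 1) (nat_lit 161) (nat_lit 1) (nat_lit 162) (nat_lit 1) (nat_lit 273) (nat_lit 403) (nat_lit 344)) (XT.lf (nat_lit 76) (nat_lit 28148424427) (nat_lit 0) (nat_lit 14241935174) (nat_lit 76) (nat_lit 46031990171) (nat_lit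 161) (nat_lit 3) (nat_lit 160) (nat_lit 1) (nat_lit 161) (nat_lit 1) (nat_lit 274) (nat_lit 403) (nat_lit 343))))) (XT.nd (nat_lit 234) (nat_lit 456) (nat_lit 0) (XT.nd (nat_lit 78) (nat_lit 228) (nat_lit 0) (XT.lf (nat_lit 0) (nat_lit 1188098218) (nat_lit 0) (nat_lit 16958438379) (nat_lit 152) (nat_lit 68024408732) (nat_lit 158) (nat_lit 3) (nat_lit 158) (nat_lit 1) (nat_lit 160) (nat_lit 1) (nat_lit 275) (nat_lit 403) (nat_lit 342)) (XT.nd (nat_lit 78) (nat_lit 152) (nat_lit 0) (XT.lf (nat_lit 76) (nat_lit 23943098153) (nat_lit 0) (nat_lit 21471268770) (nat_lit 76) (nat_lit 38545264970) (nat_lit 158) (nat_lit 3) (nat_lit 157) (nat_lit 1) (nat_lit 158) (nat_lit 1) (nat_lit 276) (nat_lit 403) (nat_lit 341)) (XT.lf (nat_lit 0) (nat_lit 6042406981) (nat_lit 0) (nat_lit 18919097295) (nat_lit 152) (nat_lit 56860518461) (nat_lit 155) (nat_lit 3) (nat_lit 155) (nat_lit 1) (nat_lit 157) (nat_lit 1)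 (nat_lit 277) (nat_lit 403) (nat_lit 340)))) (XT.nd (nat_lit 156) (nat_lit 228) (nat_lit 0) (XT.nd (nat_lit 78) (nat_lit 152) (nat_lit 0) (XT.lf (nat_lit 76) (nat_lit 19888177165) (nat_lit 0) (nat_lit 28029065232) (nat_lit 76) (nat_lit 31811038568) (nat_lit 155) (nat_lit 3) (nat_lit 154) (nat_lit 1) (nat_lit 155) (nat_lit 1) (nat_lit 278) (nat_lit 403) (nat_lit 339)) (XT.lf (nat_lit 0) (nat_lit 10306104357) (nat_lit 0) (nat_lit 20820091484) (nat_lit 152) (nat_lit 46571968546) (nat_lit 152) (nat_lit 3) (nat_lit 152) (nat_lit 1) (nat_lit 154) (nat_lit 1) (nat_lit 279) (nat_lit 403) (nat_lit 338))) (XT.nd (nat_lit 78) (nat_lit 152) (nat_lit 0) (XT.lf (nat_lit 76) (nat_lit 16017175323) (nat_lit 0) (nat_lit 33945797074) (nat_lit 76) (nat_lit 25752348588) (nat_lit 152) (nat_lit 3) (nat_lit 151) (nat_lit 1) (nat_lit 152) (nat_lit 1) (nat_lit 280) (nat_lit 403) (nat_lit 337)) (XT.lf (nat_lit 0) (nat_lit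 14043597172) (nat_lit 0) (nat_lit 22628406049) (nat_lit 152) (nat_lit 37114835592) (nat_lit 149) (nat_lit 3) (nat_lit 149) (nat_lit 1) (nat_lit 151) (nat_lit 1) (nat_lit 281) (nat_lit 403) (nat_lit 336)))))) (XT.nd (nat_lit 468) (nat_lit 912) (nat_lit 0) (XT.nd (nat_lit 234) (nat_lit 380) (nat_lit 0) (XT.nd (nat_lit 78) (nat_lit 228) (nat_lit 0) (XT.lf (nat_lit 76) (nat_lit 12352819762) (nat_lit 0) (nat_lit 39254134336) (nat_lit 76) (nat_lit 20301716869) (nat_lit 149) (nat_lit 3) (nat_lit 148) (nat_lit 1) (nat_lit 149) (nat_lit 1) (nat_lit 282) (nat_lit 403) (nat_lit 335)) (XT.nd (nat_lit 78) (nat_lit 76) (nat_lit 0) (XT.lf (nat_lit 0) (nat_lit 17311193486) (nat_lit 0) (nat_lit 24320802929) (nat_lit 152) (nat_lit 28444366455) (nat_lit 146) (nat_lit 3) (nat_lit 146) (nat_lit 1) (nat_lit 148) (nat_lit 1) (nat_lit 283) (nat_lit 403) (nat_lit 334)) (XT.lf (nat_lit 76) (nat_lit 8909345575) (nat_lit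 0) (nat_lit 43987985716) (nat_lit 76) (nat_lit 15399724688) (nat_lit 146) (nat_lit 3) (nat_lit 145) (nat_lit 1) (nat_lit 146) (nat_lit 1) (nat_lit 284) (nat_lit 403) (nat_lit 333)))) (XT.nd (nat_lit 78) (nat_lit 228) (nat_lit 0) (XT.lf (nat_lit 0) (nat_lit 20158322454) (nat_lit 0) (nat_lit 25881760826) (nat_lit 152) (nat_lit 20515736353) (nat_lit 143) (nat_lit 3) (nat_lit 143) (nat_lit 1) (nat_lit 145) (nat_lit 1) (nat_lit 285) (nat_lit 403) (nat_lit 332)) (XT.nd (nat_lit 78) (nat_lit 152) (nat_lit 0) (XT.lf (nat_lit 76) (nat_lit 5694349239) (nat_lit 0) (nat_lit 48181752231) (nat_lit 76) (nat_lit 10993829212) (nat_lit 143) (nat_lit 3) (nat_lit 142) (nat_lit 1) (nat_lit 143) (nat_lit 1) (nat_lit 286) (nat_lit 403) (nat_lit 331)) (XT.lf (nat_lit 0) (nat_lit 22628547917) (nat_lit 0) (nat_lit 27301810680) (nat_lit 152) (nat_lit 13284629013) (nat_lit 140) (nat_lit 3) (nat_lit 140) (nat_lit 1) (nat_lit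 142) (nat_lit 1) (nat_lit 287) (nat_lit 403) (nat_lit 330))))) (XT.nd (nat_lit 234) (nat_lit 532) (nat_lit 0) (XT.nd (nat_lit 78) (nat_lit 304) (nat_lit 0) (XT.lf (nat_lit 76) (nat_lit 2710283003) (nat_lit 0) (nat_lit 51869752093) (nat_lit 76) (nat_lit 7037378155) (nat_lit 140) (nat_lit 3) (nat_lit 139) (nat_lit 1) (nat_lit 140) (nat_lit 1) (nat_lit 288) (nat_lit 403) (nat_lit 329)) (XT.nd (nat_lit 78) (nat_lit 152) (nat_lit 0) (XT.lf (nat_lit 0) (nat_lit 24760412458) (nat_lit 0) (nat_lit 28576193015) (nat_lit 152) (nat_lit 6707673910) (nat_lit 137) (nat_lit 3) (nat_lit 137) (nat_lit 1) (nat_lit 139) (nat_lit 1) (nat_lit 289) (nat_lit 403) (nat_lit 328)) (XT.lf (nat_lit 76) (nat_lit 55042132857) (nat_lit 0) (nat_lit 42923464) (nat_lit 152) (nat_lit 3445137042) (nat_lit 136) (nat_lit 1) (nat_lit 135) (nat_lit 1) (nat_lit 137) (nat_lit 1) (nat_lit 290) (nat_lit 403) (nat_lit 327)))) (XT.nd (nat_lit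 156) (nat_lit 228) (nat_lit 0) (XT.nd (nat_lit 78) (nat_lit 228) (nat_lit 0) (XT.lf (nat_lit 0) (nat_lit 26588142002) (nat_lit 0) (nat_lit 29703777051) (nat_lit 152) (nat_lit 742769090) (nat_lit 134) (nat_lit 3) (nat_lit 134) (nat_lit 1) (nat_lit 136) (nat_lit 1) (nat_lit 291) (nat_lit 403) (nat_lit 326)) (XT.lf (nat_lit 152) (nat_lit 53068388653) (nat_lit 0) (nat_lit 2296454790) (nat_lit 76) (nat_lit 231009627) (nat_lit 133) (nat_lit 1) (nat_lit 131) (nat_lit 1) (nat_lit 132) (nat_lit 1) (nat_lit 292) (nat_lit 403) (nat_lit 325))) (XT.nd (nat_lit 78) (nat_lit 152) (nat_lit 0) (XT.lf (nat_lit 76) (nat_lit 23412786599) (nat_lit 0) (nat_lit 4804460055) (nat_lit 76) (nat_lit 25956743625) (nat_lit 131) (nat_lit 3) (nat_lit 130) (nat_lit 1) (nat_lit 131) (nat_lit 1) (nat_lit 293) (nat_lit 403) (nat_lit 324)) (XT.lf (nat_lit 0) (nat_lit 2646690226) (nat_lit 0) (nat_lit 4890038573) (nat_lit 152) (nat_lit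 45268891559) (nat_lit 128) (nat_lit 3) (nat_lit 128) (nat_lit 1) (nat_lit 130) (nat_lit 1) (nat_lit 294) (nat_lit 403) (nat_lit 323))))))) (XT.nd (nat_lit 1014) (nat_lit 1748) (nat_lit 0) (XT.nd (nat_lit 468) (nat_lit 760) (nat_lit 0) (XT.nd (nat_lit 234) (nat_lit 380) (nat_lit 0) (XT.nd (nat_lit 78) (nat_lit 228) (nat_lit 0) (XT.lf (nat_lit 76) (nat_lit 19777237918) (nat_lit 0) (nat_lit 9826135945) (nat_lit 76) (nat_lit 21854412313) (nat_lit 128) (nat_lit 3) (nat_lit 127) (nat_lit 1) (nat_lit 128) (nat_lit 1) (nat_lit 295) (nat_lit 403) (nat_lit 322)) (XT.nd (nat_lit 78) (nat_lit 76) (nat_lit 0) (XT.lf (nat_lit 0) (nat_lit 5207899637) (nat_lit 0) (nat_lit 7039623090) (nat_lit 152) (nat_lit 37909182166) (nat_lit 125) (nat_lit 3) (nat_lit 125) (nat_lit 1) (nat_lit 127) (nat_lit 1) (nat_lit 296) (nat_lit 403) (nat_lit 321)) (XT.lf (nat_lit 76) (nat_lit 16423484424) (nat_lit 0) (nat_lit 14336111020)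 (nat_lit 76) (nat_lit 18119524658) (nat_lit 125) (nat_lit 3) (nat_lit 124) (nat_lit 1) (nat_lit 125) (nat_lit 1) (nat_lit 297) (nat_lit 403) (nat_lit 320)))) (XT.nd (nat_lit 78) (nat_lit 228) (nat_lit 0) (XT.lf (nat_lit 0) (nat_lit 7487067150) (nat_lit 0) (nat_lit 8982693458) (nat_lit 152) (nat_lit 31172171630) (nat_lit 122) (nat_lit 3) (nat_lit 122) (nat_lit 1) (nat_lit 124) (nat_lit 1) (nat_lit 298) (nat_lit 403) (nat_lit 319)) (XT.nd (nat_lit 78) (nat_lit 152) (nat_lit 0) (XT.lf (nat_lit 76) (nat_lit 13337551456) (nat_lit 0) (nat_lit 18370919940) (nat_lit 76) (nat_lit 14722390630) (nat_lit 122) (nat_lit 3) (nat_lit 121) (nat_lit 1) (nat_lit 122) (nat_lit 1) (nat_lit 299) (nat_lit 403) (nat_lit 318)) (XT.lf (nat_lit 0) (nat_lit 9508753090) (nat_lit 0) (nat_lit 10729951657) (nat_lit 152) (nat_lit 25015653403) (nat_lit 119) (nat_lit 3) (nat_lit 119) (nat_lit 1) (nat_lit 121) (nat_lit 1) (nat_lit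 300) (nat_lit 403) (nat_lit 317))))) (XT.nd (nat_lit 234) (nat_lit 456) (nat_lit 0) (XT.nd (nat_lit 78) (nat_lit 228) (nat_lit 0) (XT.lf (nat_lit 76) (nat_lit 10505169846) (nat_lit 0) (nat_lit 21965198292) (nat_lit 76) (nat_lit 11635909260) (nat_lit 119) (nat_lit 3) (nat_lit 118) (nat_lit 1) (nat_lit 119) (nat_lit 1) (nat_lit 301) (nat_lit 403) (nat_lit 316)) (XT.nd (nat_lit 78) (nat_lit 76) (nat_lit 0) (XT.lf (nat_lit 0) (nat_lit 11295305491) (nat_lit 0) (nat_lit 12292430194) (nat_lit 152) (nat_lit 19399685521) (nat_lit 116) (nat_lit 3) (nat_lit 116) (nat_lit 1) (nat_lit 118) (nat_lit 1) (nat_lit 302) (nat_lit 403) (nat_lit 315)) (XT.lf (nat_lit 76) (nat_lit 7912024270) (nat_lit 0) (nat_lit 25151688678) (nat_lit 76) (nat_lit 8835287885) (nat_lit 116) (nat_lit 3) (nat_lit 115) (nat_lit 1) (nat_lit 116) (nat_lit 1) (nat_lit 303) (nat_lit 403) (nat_lit 314)))) (XT.nd (nat_lit 156) (nat_lit 228)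 (nat_lit 0) (XT.nd (nat_lit 78) (nat_lit 76) (nat_lit 0) (XT.lf (nat_lit 0) (nat_lit 12867102016) (nat_lit 0) (nat_lit 13681267461) (nat_lit 152) (nat_lit 14286548261) (nat_lit 113) (nat_lit 3) (nat_lit 113) (nat_lit 1) (nat_lit 115) (nat_lit 1) (nat_lit 304) (nat_lit 403) (nat_lit 313)) (XT.lf (nat_lit 76) (nat_lit 5543943578) (nat_lit 0) (nat_lit 27961268200) (nat_lit 76) (nat_lit 6297800472) (nat_lit 113) (nat_lit 3) (nat_lit 112) (nat_lit 1) (nat_lit 113) (nat_lit 1) (nat_lit 305) (nat_lit 403) (nat_lit 312))) (XT.nd (nat_lit 78) (nat_lit 76) (nat_lit 0) (XT.lf (nat_lit 0) (nat_lit 14242758310) (nat_lit 0) (nat_lit 14907535111) (nat_lit 152) (nat_lit 9640685653) (nat_lit 110) (nat_lit 3) (nat_lit 110) (nat_lit 1) (nat_lit 112) (nat_lit 1) (nat_lit 306) (nat_lit 403) (nat_lit 311)) (XT.lf (nat_lit 76) (nat_lit 3387044533) (nat_lit 0) (nat_lit 30422992020) (nat_lit 76) (nat_lit 4002578609)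 (nat_lit 110) (nat_lit 3) (nat_lit 109) (nat_lit 1) (nat_lit 110) (nat_lit 1) (nat_lit 307) (nat_lit 403) (nat_lit 310)))))) (XT.nd (nat_lit 546) (nat_lit 836) (nat_lit 0) (XT.nd (nat_lit 234) (nat_lit 532) (nat_lit 0) (XT.nd (nat_lit 78) (nat_lit 228) (nat_lit 0) (XT.lf (nat_lit 0) (nat_lit 15439308241) (nat_lit 0) (nat_lit 15982107249) (nat_lit 152) (nat_lit 5428635278) (nat_lit 107) (nat_lit 3) (nat_lit 107) (nat_lit 1) (nat_lit 109) (nat_lit 1) (nat_lit 308) (nat_lit 403) (nat_lit 309)) (XT.nd (nat_lit 78) (nat_lit 152) (nat_lit 0) (XT.lf (nat_lit 76) (nat_lit 1427838223) (nat_lit 0) (nat_lit 32564148713) (nat_lit 76) (nat_lit 1930429898) (nat_lit 107) (nat_lit 3) (nat_lit 106) (nat_lit 1) (nat_lit 107) (nat_lit 1) (nat_lit 309) (nat_lit 403) (nat_lit 308)) (XT.lf (nat_lit 0) (nat_lit 16472360572) (nat_lit 0) (nat_lit 16915563107) (nat_lit 152) (nat_lit 1618949892) (nat_lit 104) (nat_lit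 3) (nat_lit 104) (nat_lit 1) (nat_lit 106) (nat_lit 1) (nat_lit 310) (nat_lit 403) (nat_lit 307)))) (XT.nd (nat_lit 156) (nat_lit 228) (nat_lit 0) (XT.nd (nat_lit 78) (nat_lit 76) (nat_lit 0) (XT.lf (nat_lit 152) (nat_lit 33786741143) (nat_lit 0) (nat_lit 286779822) (nat_lit 76) (nat_lit 53294587) (nat_lit 103) (nat_lit 1) (nat_lit 101) (nat_lit 1) (nat_lit 102) (nat_lit 1) (nat_lit 311) (nat_lit 403) (nat_lit 306)) (XT.lf (nat_lit 76) (nat_lit 15507562665) (nat_lit 0) (nat_lit 1877993855) (nat_lit 76) (nat_lit 15869443368) (nat_lit 101) (nat_lit 3) (nat_lit 100) (nat_lit 1) (nat_lit 101) (nat_lit 1) (nat_lit 312) (nat_lit 403) (nat_lit 305))) (XT.nd (nat_lit 78) (nat_lit 76) (nat_lit 0) (XT.lf (nat_lit 0) (nat_lit 1651152504) (nat_lit 0) (nat_lit 1970271290) (nat_lit 152) (nat_lit 28795330689) (nat_lit 98) (nat_lit 3) (nat_lit 98) (nat_lit 1) (nat_lit 100) (nat_lit 1) (nat_lit 313) (nat_lit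 403) (nat_lit 304)) (XT.lf (nat_lit 76) (nat_lit 13111395874) (nat_lit 0) (nat_lit 5071876391) (nat_lit 76) (nat_lit 13406876231) (nat_lit 98) (nat_lit 3) (nat_lit 97) (nat_lit 1) (nat_lit 98) (nat_lit 1) (nat_lit 314) (nat_lit 403) (nat_lit 303))))) (XT.nd (nat_lit 234) (nat_lit 456) (nat_lit 0) (XT.nd (nat_lit 78) (nat_lit 228) (nat_lit 0) (XT.lf (nat_lit 0) (nat_lit 3177421848) (nat_lit 0) (nat_lit 3437986537) (nat_lit 152) (nat_lit 24177446340) (nat_lit 95) (nat_lit 3) (nat_lit 95) (nat_lit 1) (nat_lit 97) (nat_lit 1) (nat_lit 315) (nat_lit 403) (nat_lit 302)) (XT.nd (nat_lit 78) (nat_lit 152) (nat_lit 0) (XT.lf (nat_lit 76) (nat_lit 10915963562) (nat_lit 0) (nat_lit 7935939918) (nat_lit 76) (nat_lit 11157227163) (nat_lit 95) (nat_lit 3) (nat_lit 94) (nat_lit 1) (nat_lit 95) (nat_lit 1) (nat_lit 316) (nat_lit 403) (nat_lit 301)) (XT.lf (nat_lit 0) (nat_lit 4541259570) (nat_lit 0) (nat_lit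 4754014069) (nat_lit 152) (nat_lit 19955497495) (nat_lit 92) (nat_lit 3) (nat_lit 92) (nat_lit 1) (nat_lit 94) (nat_lit 1) (nat_lit 317) (nat_lit 403) (nat_lit 300)))) (XT.nd (nat_lit 156) (nat_lit 228) (nat_lit 0) (XT.nd (nat_lit 78) (nat_lit 152) (nat_lit 0) (XT.lf (nat_lit 76) (nat_lit 8907728775) (nat_lit 0) (nat_lit 10495233540) (nat_lit 76) (nat_lit 9104723681) (nat_lit 92) (nat_lit 3) (nat_lit 91) (nat_lit 1) (nat_lit 92) (nat_lit 1) (nat_lit 318) (nat_lit 403) (nat_lit 299)) (XT.lf (nat_lit 0) (nat_lit 5755653194) (nat_lit 0) (nat_lit 5929370043) (nat_lit 152) (nat_lit 16101321829) (nat_lit 89) (nat_lit 3) (nat_lit 89) (nat_lit 1) (nat_lit 91) (nat_lit 1) (nat_lit 319) (nat_lit 403) (nat_lit 298))) (XT.nd (nat_lit 78) (nat_lit 152) (nat_lit 0) (XT.lf (nat_lit 76) (nat_lit 7073876227) (nat_lit 0) (nat_lit 12773173836) (nat_lit 76) (nat_lit 7234725160) (nat_lit 89) (nat_lit 3) (nat_lit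 88) (nat_lit 1) (nat_lit 89) (nat_lit 1) (nat_lit 320) (nat_lit 403) (nat_lit 297)) (XT.lf (nat_lit 0) (nat_lit 6832622430) (nat_lit 0) (nat_lit 6974464523) (nat_lit 152) (nat_lit 12588546426) (nat_lit 86) (nat_lit 3) (nat_lit 86) (nat_lit 1) (nat_lit 88) (nat_lit 1) (nat_lit 321) (nat_lit 403) (nat_lit 296))))))))
noncomputable def ec193 : XT := (XT.nd (nat_lit 2028) (nat_lit 3344) (nat_lit 0) (XT.nd (nat_lit 1014) (nat_lit 1444) (nat_lit 0) (XT.nd (nat_lit 468) (nat_lit 912) (nat_lit 0) (XT.nd (nat_lit 234) (nat_lit 380) (nat_lit 0) (XT.nd (nat_lit 78) (nat_lit 228) (nat_lit 0) (XT.lf (nat_lit 76) (nat_lit 5402299564) (nat_lit 0) (nat_lit 14791633451) (nat_lit 76) (nat_lit 5533634835) (nat_lit 86) (nat_lit 3) (nat_lit 85) (nat_lit 1) (nat_lit 86) (nat_lit 1) (nat_lit 322) (nat_lit 403) (nat_lit 295)) (XT.nd (nat_lit 78) (nat_lit 76) (nat_lit 0) (XT.lf (nat_lit 0) (nat_lit 7783295700) (nat_lit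 0) (nat_lit 7899111636) (nat_lit 152) (nat_lit 9392489308) (nat_lit 83) (nat_lit 3) (nat_lit 83) (nat_lit 1) (nat_lit 85) (nat_lit 1) (nat_lit 323) (nat_lit 403) (nat_lit 294)) (XT.lf (nat_lit 76) (nat_lit 3881583312) (nat_lit 0) (nat_lit 16571027298) (nat_lit 76) (nat_lit 3988820289) (nat_lit 83) (nat_lit 3) (nat_lit 82) (nat_lit 1) (nat_lit 83) (nat_lit 1) (nat_lit 324) (nat_lit 403) (nat_lit 293)))) (XT.nd (nat_lit 78) (nat_lit 228) (nat_lit 0) (XT.lf (nat_lit 0) (nat_lit 8617979284) (nat_lit 0) (nat_lit 8712544520) (nat_lit 152) (nat_lit 6490064307) (nat_lit 80) (nat_lit 3) (nat_lit 80) (nat_lit 1) (nat_lit 82) (nat_lit 1) (nat_lit 325) (nat_lit 403) (nat_lit 292)) (XT.nd (nat_lit 78) (nat_lit 152) (nat_lit 0) (XT.lf (nat_lit 76) (nat_lit 2500980940) (nat_lit 0) (nat_lit 18130395947) (nat_lit 76) (nat_lit 2588541344) (nat_lit 80) (nat_lit 3) (nat_lit 79) (nat_lit 1) (nat_lit 80) (nat_lit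 1) (nat_lit 326) (nat_lit 403) (nat_lit 291)) (XT.lf (nat_lit 0) (nat_lit 9346220011) (nat_lit 0) (nat_lit 9423433771) (nat_lit 152) (nat_lit 3859689574) (nat_lit 77) (nat_lit 3) (nat_lit 77) (nat_lit 1) (nat_lit 79) (nat_lit 1) (nat_lit 327) (nat_lit 403) (nat_lit 290))))) (XT.nd (nat_lit 234) (nat_lit 608) (nat_lit 0) (XT.nd (nat_lit 78) (nat_lit 228) (nat_lit 0) (XT.lf (nat_lit 76) (nat_lit 1250390217) (nat_lit 0) (nat_lit 19487485896) (nat_lit 76) (nat_lit 1321884439) (nat_lit 77) (nat_lit 3) (nat_lit 76) (nat_lit 1) (nat_lit 77) (nat_lit 1) (nat_lit 328) (nat_lit 403) (nat_lit 289)) (XT.nd (nat_lit 78) (nat_lit 76) (nat_lit 0) (XT.lf (nat_lit 0) (nat_lit 9976862298) (nat_lit 0) (nat_lit 10039908349) (nat_lit 152) (nat_lit 1481199912) (nat_lit 74) (nat_lit 3) (nat_lit 74) (nat_lit 1) (nat_lit 76) (nat_lit 1) (nat_lit 329) (nat_lit 403) (nat_lit 288)) (XT.lf (nat_lit 76) (nat_lit 120326752)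 (nat_lit 0) (nat_lit 20658826531) (nat_lit 76) (nat_lit 178702726) (nat_lit 74) (nat_lit 3) (nat_lit 73) (nat_lit 1) (nat_lit 74) (nat_lit 1) (nat_lit 330) (nat_lit 403) (nat_lit 287)))) (XT.nd (nat_lit 156) (nat_lit 228) (nat_lit 0) (XT.nd (nat_lit 78) (nat_lit 152) (nat_lit 0) (XT.lf (nat_lit 76) (nat_lit 9842614049) (nat_lit 0) (nat_lit 686199643) (nat_lit 76) (nat_lit 9894091980) (nat_lit 71) (nat_lit 3) (nat_lit 70) (nat_lit 1) (nat_lit 71) (nat_lit 1) (nat_lit 331) (nat_lit 403) (nat_lit 286)) (XT.lf (nat_lit 0) (nat_lit 865905968) (nat_lit 0) (nat_lit 911300968) (nat_lit 152) (nat_lit 18131256199) (nat_lit 68) (nat_lit 3) (nat_lit 68) (nat_lit 1) (nat_lit 70) (nat_lit 1) (nat_lit 332) (nat_lit 403) (nat_lit 285))) (XT.nd (nat_lit 78) (nat_lit 152) (nat_lit 0) (XT.lf (nat_lit 76) (nat_lit 8339390733) (nat_lit 0) (nat_lit 2679976213) (nat_lit 76) (nat_lit 8381423141) (nat_lit 68) (nat_lit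 3) (nat_lit 67) (nat_lit 1) (nat_lit 68) (nat_lit 1) (nat_lit 333) (nat_lit 403) (nat_lit 284)) (XT.lf (nat_lit 0) (nat_lit 1804646303) (nat_lit 0) (nat_lit 1841711918) (nat_lit 152) (nat_lit 15265084163) (nat_lit 65) (nat_lit 3) (nat_lit 65) (nat_lit 1) (nat_lit 67) (nat_lit 1) (nat_lit 334) (nat_lit 403) (nat_lit 283)))))) (XT.nd (nat_lit 468) (nat_lit 760) (nat_lit 0) (XT.nd (nat_lit 234) (nat_lit 380) (nat_lit 0) (XT.nd (nat_lit 78) (nat_lit 228) (nat_lit 0) (XT.lf (nat_lit 76) (nat_lit 6963829702) (nat_lit 0) (nat_lit 4468098853) (nat_lit 76) (nat_lit 6998149716) (nat_lit 65) (nat_lit 3) (nat_lit 64) (nat_lit 1) (nat_lit 65) (nat_lit 1) (nat_lit 335) (nat_lit 403) (nat_lit 282)) (XT.nd (nat_lit 78) (nat_lit 76) (nat_lit 0) (XT.lf (nat_lit 0) (nat_lit 2644737609) (nat_lit 0) (nat_lit 2675002172) (nat_lit 152) (nat_lit 12644856385) (nat_lit 62) (nat_lit 3) (nat_lit 62) (nat_lit 1) (nat_lit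 64) (nat_lit 1) (nat_lit 336) (nat_lit 403) (nat_lit 281)) (XT.lf (nat_lit 76) (nat_lit 5706888730) (nat_lit 0) (nat_lit 6066369912) (nat_lit 76) (nat_lit 5734911473) (nat_lit 62) (nat_lit 3) (nat_lit 61) (nat_lit 1) (nat_lit 62) (nat_lit 1) (nat_lit 337) (nat_lit 403) (nat_lit 280)))) (XT.nd (nat_lit 78) (nat_lit 228) (nat_lit 0) (XT.lf (nat_lit 0) (nat_lit 3393880650) (nat_lit 0) (nat_lit 3418592064) (nat_lit 152) (nat_lit 10252912346) (nat_lit 59) (nat_lit 3) (nat_lit 59) (nat_lit 1) (nat_lit 61) (nat_lit 1) (nat_lit 338) (nat_lit 403) (nat_lit 279)) (XT.nd (nat_lit 78) (nat_lit 152) (nat_lit 0) (XT.lf (nat_lit 76) (nat_lit 4560098458) (nat_lit 0) (nat_lit 7489520300) (nat_lit 76) (nat_lit 4582979397) (nat_lit 59) (nat_lit 3) (nat_lit 58) (nat_lit 1) (nat_lit 59) (nat_lit 1) (nat_lit 339) (nat_lit 403) (nat_lit 278)) (XT.lf (nat_lit 0) (nat_lit 4059236197) (nat_lit 0) (nat_lit 4079413392)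 (nat_lit 152) (nat_lit 8072749642) (nat_lit 56) (nat_lit 3) (nat_lit 56) (nat_lit 1) (nat_lit 58) (nat_lit 1) (nat_lit 340) (nat_lit 403) (nat_lit 277))))) (XT.nd (nat_lit 234) (nat_lit 456) (nat_lit 0) (XT.nd (nat_lit 78) (nat_lit 228) (nat_lit 0) (XT.lf (nat_lit 76) (nat_lit 3515531001) (nat_lit 0) (nat_lit 8751276096) (nat_lit 76) (nat_lit 3534213589) (nat_lit 56) (nat_lit 3) (nat_lit 55) (nat_lit 1) (nat_lit 56) (nat_lit 1) (nat_lit 341) (nat_lit 403) (nat_lit 276)) (XT.nd (nat_lit 78) (nat_lit 76) (nat_lit 0) (XT.lf (nat_lit 0) (nat_lit 4647461844) (nat_lit 0) (nat_lit 4663936789) (nat_lit 152) (nat_lit 6088953074) (nat_lit 53) (nat_lit 3) (nat_lit 53) (nat_lit 1) (nat_lit 55) (nat_lit 1) (nat_lit 342) (nat_lit 403) (nat_lit 275)) (XT.lf (nat_lit 76) (nat_lit 2565769594) (nat_lit 0) (nat_lit 9864421478) (nat_lit 76) (nat_lit 2581024173) (nat_lit 53) (nat_lit 3) (nat_lit 52) (nat_lit 1) (nat_lit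 53) (nat_lit 1) (nat_lit 343) (nat_lit 403) (nat_lit 274)))) (XT.nd (nat_lit 156) (nat_lit 228) (nat_lit 0) (XT.nd (nat_lit 78) (nat_lit 76) (nat_lit 0) (XT.lf (nat_lit 0) (nat_lit 5164746169) (nat_lit 0) (nat_lit 5178198178) (nat_lit 152) (nat_lit 4287127678) (nat_lit 50) (nat_lit 3) (nat_lit 50) (nat_lit 1) (nat_lit 52) (nat_lit 1) (nat_lit 344) (nat_lit 403) (nat_lit 273)) (XT.lf (nat_lit 76) (nat_lit 1703879389) (nat_lit 0) (nat_lit 10840858116) (nat_lit 76) (nat_lit 1716334953) (nat_lit 50) (nat_lit 3) (nat_lit 49) (nat_lit 1) (nat_lit 50) (nat_lit 1) (nat_lit 345) (nat_lit 403) (nat_lit 272))) (XT.nd (nat_lit 78) (nat_lit 76) (nat_lit 0) (XT.lf (nat_lit 0) (nat_lit 5616840461) (nat_lit 0) (nat_lit 5627824204) (nat_lit 152) (nat_lit 2653835534) (nat_lit 47) (nat_lit 3) (nat_lit 47) (nat_lit 1) (nat_lit 49) (nat_lit 1) (nat_lit 346) (nat_lit 403) (nat_lit 271)) (XT.lf (nat_lit 76) (nat_lit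 923379449) (nat_lit 0) (nat_lit 11691661161) (nat_lit 76) (nat_lit 933549581) (nat_lit 47) (nat_lit 3) (nat_lit 46) (nat_lit 1) (nat_lit 47) (nat_lit 1) (nat_lit 347) (nat_lit 403) (nat_lit 270))))))) (XT.nd (nat_lit 1014) (nat_lit 1748) (nat_lit 0) (XT.nd (nat_lit 468) (nat_lit 760) (nat_lit 0) (XT.nd (nat_lit 234) (nat_lit 380) (nat_lit 0) (XT.nd (nat_lit 78) (nat_lit 304) (nat_lit 0) (XT.lf (nat_lit 0) (nat_lit 6009088237) (nat_lit 0) (nat_lit 6018056607) (nat_lit 152) (nat_lit 1176536194) (nat_lit 44) (nat_lit 3) (nat_lit 44) (nat_lit 1) (nat_lit 46) (nat_lit 1) (nat_lit 348) (nat_lit 403) (nat_lit 269)) (XT.nd (nat_lit 78) (nat_lit 228) (nat_lit 0) (XT.lf (nat_lit 76) (nat_lit 218215999) (nat_lit 0) (nat_lit 12427132005) (nat_lit 76) (nat_lit 226520046) (nat_lit 44) (nat_lit 3) (nat_lit 43) (nat_lit 1) (nat_lit 44) (nat_lit 1) (nat_lit 349) (nat_lit 403) (nat_lit 268)) (XT.lf (nat_lit 76)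 (nat_lit 6187333362) (nat_lit 0) (nat_lit 161643043) (nat_lit 76) (nat_lit 6194656155) (nat_lit 41) (nat_lit 3) (nat_lit 40) (nat_lit 1) (nat_lit 41) (nat_lit 1) (nat_lit 350) (nat_lit 403) (nat_lit 267)))) (XT.nd (nat_lit 78) (nat_lit 228) (nat_lit 0) (XT.lf (nat_lit 0) (nat_lit 417428953) (nat_lit 0) (nat_lit 423886442) (nat_lit 152) (nat_lit 11386462090) (nat_lit 38) (nat_lit 3) (nat_lit 38) (nat_lit 1) (nat_lit 40) (nat_lit 1) (nat_lit 351) (nat_lit 403) (nat_lit 266)) (XT.nd (nat_lit 78) (nat_lit 152) (nat_lit 0) (XT.lf (nat_lit 76) (nat_lit 5254484229) (nat_lit 0) (nat_lit 1400930578) (nat_lit 76) (nat_lit 5260463386) (nat_lit 38) (nat_lit 3) (nat_lit 37) (nat_lit 1) (nat_lit 38) (nat_lit 1) (nat_lit 352) (nat_lit 403) (nat_lit 265)) (XT.lf (nat_lit 0) (nat_lit 999084844) (nat_lit 0) (nat_lit 1004357469) (nat_lit 152) (nat_lit 9611983382) (nat_lit 35) (nat_lit 3) (nat_lit 35) (nat_lit 1)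 (nat_lit 37) (nat_lit 1) (nat_lit 353) (nat_lit 403) (nat_lit 264))))) (XT.nd (nat_lit 234) (nat_lit 456) (nat_lit 0) (XT.nd (nat_lit 78) (nat_lit 228) (nat_lit 0) (XT.lf (nat_lit 76) (nat_lit 4400935701) (nat_lit 0) (nat_lit 2512933037) (nat_lit 76) (nat_lit 4405817761) (nat_lit 35) (nat_lit 3) (nat_lit 34) (nat_lit 1) (nat_lit 35) (nat_lit 1) (nat_lit 354) (nat_lit 403) (nat_lit 263)) (XT.nd (nat_lit 78) (nat_lit 76) (nat_lit 0) (XT.lf (nat_lit 0) (nat_lit 1520051433) (nat_lit 0) (nat_lit 1524356601) (nat_lit 152) (nat_lit 7989475049) (nat_lit 32) (nat_lit 3) (nat_lit 32) (nat_lit 1) (nat_lit 34) (nat_lit 1) (nat_lit 355) (nat_lit 403) (nat_lit 262)) (XT.lf (nat_lit 76) (nat_lit 3621016274) (nat_lit 0) (nat_lit 3507443834) (nat_lit 76) (nat_lit 3625002540) (nat_lit 32) (nat_lit 3) (nat_lit 31) (nat_lit 1) (nat_lit 32) (nat_lit 1) (nat_lit 356) (nat_lit 403) (nat_lit 261)))) (XT.nd (nat_lit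 156) (nat_lit 228) (nat_lit 0) (XT.nd (nat_lit 78) (nat_lit 76) (nat_lit 0) (XT.lf (nat_lit 0) (nat_lit 1985032880) (nat_lit 0) (nat_lit 1988548106) (nat_lit 152) (nat_lit 6508010851) (nat_lit 29) (nat_lit 3) (nat_lit 29) (nat_lit 1) (nat_lit 31) (nat_lit 1) (nat_lit 357) (nat_lit 403) (nat_lit 260)) (XT.lf (nat_lit 76) (nat_lit 2909425497) (nat_lit 0) (nat_lit 4393587021) (nat_lit 76) (nat_lit 2912680336) (nat_lit 29) (nat_lit 3) (nat_lit 28) (nat_lit 1) (nat_lit 29) (nat_lit 1) (nat_lit 358) (nat_lit 403) (nat_lit 259))) (XT.nd (nat_lit 78) (nat_lit 76) (nat_lit 0) (XT.lf (nat_lit 0) (nat_lit 2398408700) (nat_lit 0) (nat_lit 2401278929) (nat_lit 152) (nat_lit 5157385726) (nat_lit 26) (nat_lit 3) (nat_lit 26) (nat_lit 1) (nat_lit 28) (nat_lit 1) (nat_lit 359) (nat_lit 403) (nat_lit 258)) (XT.lf (nat_lit 76) (nat_lit 2261211292) (nat_lit 0) (nat_lit 5179860021) (nat_lit 76) (nat_lit 2263868911)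 (nat_lit 26) (nat_lit 3) (nat_lit 25) (nat_lit 1) (nat_lit 26) (nat_lit 1) (nat_lit 360) (nat_lit 403) (nat_lit 257)))))) (XT.nd (nat_lit 546) (nat_lit 912) (nat_lit 0) (XT.nd (nat_lit 234) (nat_lit 456) (nat_lit 0) (XT.nd (nat_lit 78) (nat_lit 228) (nat_lit 0) (XT.lf (nat_lit 0) (nat_lit 2764254970) (nat_lit 0) (nat_lit 2766598550) (nat_lit 152) (nat_lit 3928070674) (nat_lit 23) (nat_lit 3) (nat_lit 23) (nat_lit 1) (nat_lit 25) (nat_lit 1) (nat_lit 361) (nat_lit 403) (nat_lit 256)) (XT.nd (nat_lit 78) (nat_lit 152) (nat_lit 0) (XT.lf (nat_lit 76) (nat_lit 1671748536) (nat_lit 0) (nat_lit 5874173774) (nat_lit 76) (nat_lit 1673918517) (nat_lit 23) (nat_lit 3) (nat_lit 22) (nat_lit 1) (nat_lit 23) (nat_lit 1) (nat_lit 362) (nat_lit 403) (nat_lit 255)) (XT.lf (nat_lit 0) (nat_lit 3086364158) (nat_lit 0) (nat_lit 3088277721) (nat_lit 152) (nat_lit 2811170334) (nat_lit 20) (nat_lit 3) (nat_lit 20)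 (nat_lit 1) (nat_lit 22) (nat_lit 1) (nat_lit 363) (nat_lit 403) (nat_lit 254)))) (XT.nd (nat_lit 156) (nat_lit 228) (nat_lit 0) (XT.nd (nat_lit 78) (nat_lit 152) (nat_lit 0) (XT.lf (nat_lit 76) (nat_lit 1136718845) (nat_lit 0) (nat_lit 6483890449) (nat_lit 76) (nat_lit 1138490663) (nat_lit 20) (nat_lit 3) (nat_lit 19) (nat_lit 1) (nat_lit 20) (nat_lit 1) (nat_lit 364) (nat_lit 403) (nat_lit 253)) (XT.lf (nat_lit 0) (nat_lit 3368263686) (nat_lit 0) (nat_lit 3369826136) (nat_lit 152) (nat_lit 1798383110) (nat_lit 17) (nat_lit 3) (nat_lit 17) (nat_lit 1) (nat_lit 19) (nat_lit 1) (nat_lit 365) (nat_lit 403) (nat_lit 252))) (XT.nd (nat_lit 78) (nat_lit 152) (nat_lit 0) (XT.lf (nat_lit 76) (nat_lit 652091516) (nat_lit 0) (nat_lit 7015858854) (nat_lit 76) (nat_lit 653538228) (nat_lit 17) (nat_lit 3) (nat_lit 16) (nat_lit 1) (nat_lit 17) (nat_lit 1) (nat_lit 366) (nat_lit 403) (nat_lit 251)) (XT.lf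 (nat_lit 0) (nat_lit 3613233304) (nat_lit 0) (nat_lit 3614509065) (nat_lit 152) (nat_lit 881963695) (nat_lit 14) (nat_lit 3) (nat_lit 14) (nat_lit 1) (nat_lit 16) (nat_lit 1) (nat_lit 367) (nat_lit 403) (nat_lit 250))))) (XT.nd (nat_lit 234) (nat_lit 456) (nat_lit 0) (XT.nd (nat_lit 78) (nat_lit 380) (nat_lit 0) (XT.lf (nat_lit 76) (nat_lit 214105563) (nat_lit 0) (nat_lit 7476447682) (nat_lit 76) (nat_lit 215286823) (nat_lit 14) (nat_lit 3) (nat_lit 13) (nat_lit 1) (nat_lit 14) (nat_lit 1) (nat_lit 368) (nat_lit 403) (nat_lit 249)) (XT.nd (nat_lit 78) (nat_lit 228) (nat_lit 0) (XT.lf (nat_lit 0) (nat_lit 3824321351) (nat_lit 0) (nat_lit 3825363026) (nat_lit 152) (nat_lit 54687869) (nat_lit 11) (nat_lit 3) (nat_lit 11) (nat_lit 1) (nat_lit 13) (nat_lit 1) (nat_lit 369) (nat_lit 403) (nat_lit 248)) (XT.lf (nat_lit 0) (nat_lit 182760807) (nat_lit 0) (nat_lit 183679392) (nat_lit 152) (nat_lit 7144029678)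 (nat_lit 8) (nat_lit 3) (nat_lit 8) (nat_lit 1) (nat_lit 10) (nat_lit 1) (nat_lit 370) (nat_lit 403) (nat_lit 247)))) (XT.nd (nat_lit 156) (nat_lit 228) (nat_lit 0) (XT.nd (nat_lit 78) (nat_lit 152) (nat_lit 0) (XT.lf (nat_lit 76) (nat_lit 3302490858) (nat_lit 0) (nat_lit 713001064) (nat_lit 76) (nat_lit 3303341400) (nat_lit 8) (nat_lit 3) (nat_lit 7) (nat_lit 1) (nat_lit 8) (nat_lit 1) (nat_lit 371) (nat_lit 403) (nat_lit 246)) (XT.lf (nat_lit 0) (nat_lit 543745403) (nat_lit 0) (nat_lit 544495440) (nat_lit 152) (nat_lit 6046103237) (nat_lit 5) (nat_lit 3) (nat_lit 5) (nat_lit 1) (nat_lit 7) (nat_lit 1) (nat_lit 372) (nat_lit 403) (nat_lit 245))) (XT.nd (nat_lit 78) (nat_lit 152) (nat_lit 0) (XT.lf (nat_lit 76) (nat_lit 2774044517) (nat_lit 0) (nat_lit 1403852963) (nat_lit 76) (nat_lit 2774738996) (nat_lit 5) (nat_lit 3) (nat_lit 4) (nat_lit 1) (nat_lit 5) (nat_lit 1) (nat_lit 373) (nat_lit 403)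 (nat_lit 244)) (XT.lf (nat_lit 0) (nat_lit 867282048) (nat_lit 0) (nat_lit 867894463) (nat_lit 152) (nat_lit 5041965434) (nat_lit 2) (nat_lit 3) (nat_lit 2) (nat_lit 1) (nat_lit 4) (nat_lit 1) (nat_lit 374) (nat_lit 403) (nat_lit 243))))))))
noncomputable def ec194 : XT := (XT.nd (nat_lit 2028) (nat_lit 0) (nat_lit 0) (XT.nd (nat_lit 1014) (nat_lit 0) (nat_lit 0) (XT.nd (nat_lit 468) (nat_lit 0) (nat_lit 0) (XT.nd (nat_lit 234) (nat_lit 0) (nat_lit 0) (XT.nd (nat_lit 78) (nat_lit 76) (nat_lit 0) (XT.lf (nat_lit 76) (nat_lit 2291087426) (nat_lit 0) (nat_lit 2022104546) (nat_lit 76) (nat_lit 2291654477) (nat_lit 2) (nat_lit 3) (nat_lit 1) (nat_lit 1) (nat_lit 2) (nat_lit 1) (nat_lit 375) (nat_lit 403) (nat_lit 242)) (XT.nd (nat_lit 78) (nat_lit 0) (nat_lit 0) (XT.lf (nat_lit 0) (nat_lit 136961384405) (nat_lit 0) (nat_lit 0) (nat_lit 0) (nat_lit 0) (nat_lit 0) (nat_lit 0) (nat_lit 1) (nat_lit 0)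 (nat_lit 1) (nat_lit 0) (nat_lit 376) (nat_lit 403) (nat_lit 241)) (XT.lf (nat_lit 0) (nat_lit 136961345356) (nat_lit 0) (nat_lit 0) (nat_lit 0) (nat_lit 0) (nat_lit 0) (nat_lit 0) (nat_lit 1) (nat_lit 0) (nat_lit 1) (nat_lit 0) (nat_lit 377) (nat_lit 403) (nat_lit 240)))) (XT.nd (nat_lit 78) (nat_lit 0) (nat_lit 0) (XT.lf (nat_lit 0) (nat_lit 136961309199) (nat_lit 0) (nat_lit 0) (nat_lit 0) (nat_lit 0) (nat_lit 0) (nat_lit 0) (nat_lit 1) (nat_lit 0) (nat_lit 1) (nat_lit 0) (nat_lit 378) (nat_lit 403) (nat_lit 239)) (XT.nd (nat_lit 78) (nat_lit 0) (nat_lit 0) (XT.lf (nat_lit 0) (nat_lit 136961275720) (nat_lit 0) (nat_lit 0) (nat_lit 0) (nat_lit 0) (nat_lit 0) (nat_lit 0) (nat_lit 1) (nat_lit 0) (nat_lit 1) (nat_lit 0) (nat_lit 379) (nat_lit 403) (nat_lit 238)) (XT.lf (nat_lit 0) (nat_lit 136961244722) (nat_lit 0) (nat_lit 0) (nat_lit 0) (nat_lit 0) (nat_lit 0) (nat_lit 0) (nat_lit 1) (nat_lit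 0) (nat_lit 1) (nat_lit 0) (nat_lit 380) (nat_lit 403) (nat_lit 237))))) (XT.nd (nat_lit 234) (nat_lit 0) (nat_lit 0) (XT.nd (nat_lit 78) (nat_lit 0) (nat_lit 0) (XT.lf (nat_lit 0) (nat_lit 136961216019) (nat_lit 0) (nat_lit 0) (nat_lit 0) (nat_lit 0) (nat_lit 0) (nat_lit 0) (nat_lit 1) (nat_lit 0) (nat_lit 1) (nat_lit 0) (nat_lit 381) (nat_lit 403) (nat_lit 236)) (XT.nd (nat_lit 78) (nat_lit 0) (nat_lit 0) (XT.lf (nat_lit 0) (nat_lit 136961189443) (nat_lit 0) (nat_lit 0) (nat_lit 0) (nat_lit 0) (nat_lit 0) (nat_lit 0) (nat_lit 1) (nat_lit 0) (nat_lit 1) (nat_lit 0) (nat_lit 382) (nat_lit 403) (nat_lit 235)) (XT.lf (nat_lit 0) (nat_lit 136961164835) (nat_lit 0) (nat_lit 0) (nat_lit 0) (nat_lit 0) (nat_lit 0) (nat_lit 0) (nat_lit 1) (nat_lit 0) (nat_lit 1) (nat_lit 0) (nat_lit 383) (nat_lit 403) (nat_lit 234)))) (XT.nd (nat_lit 156) (nat_lit 0) (nat_lit 0) (XT.nd (nat_lit 78) (nat_lit 0) (nat_lit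 0) (XT.lf (nat_lit 0) (nat_lit 136961142050) (nat_lit 0) (nat_lit 0) (nat_lit 0) (nat_lit 0) (nat_lit 0) (nat_lit 0) (nat_lit 1) (nat_lit 0) (nat_lit 1) (nat_lit 0) (nat_lit 384) (nat_lit 403) (nat_lit 233)) (XT.lf (nat_lit 0) (nat_lit 136961120953) (nat_lit 0) (nat_lit 0) (nat_lit 0) (nat_lit 0) (nat_lit 0) (nat_lit 0) (nat_lit 1) (nat_lit 0) (nat_lit 1) (nat_lit 0) (nat_lit 385) (nat_lit 403) (nat_lit 232))) (XT.nd (nat_lit 78) (nat_lit 0) (nat_lit 0) (XT.lf (nat_lit 0) (nat_lit 136961101418) (nat_lit 0) (nat_lit 0) (nat_lit 0) (nat_lit 0) (nat_lit 0) (nat_lit 0) (nat_lit 1) (nat_lit 0) (nat_lit 1) (nat_lit 0) (nat_lit 386) (nat_lit 403) (nat_lit 231)) (XT.lf (nat_lit 0) (nat_lit 136961083331) (nat_lit 0) (nat_lit 0) (nat_lit 0) (nat_lit 0) (nat_lit 0) (nat_lit 0) (nat_lit 1) (nat_lit 0) (nat_lit 1) (nat_lit 0) (nat_lit 387) (nat_lit 403) (nat_lit 230)))))) (XT.nd (nat_lit 468) (nat_lit 0)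 (nat_lit 0) (XT.nd (nat_lit 234) (nat_lit 0) (nat_lit 0) (XT.nd (nat_lit 78) (nat_lit 0) (nat_lit 0) (XT.lf (nat_lit 0) (nat_lit 136961066583) (nat_lit 0) (nat_lit 0) (nat_lit 0) (nat_lit 0) (nat_lit 0) (nat_lit 0) (nat_lit 1) (nat_lit 0) (nat_lit 1) (nat_lit 0) (nat_lit 388) (nat_lit 403) (nat_lit 229)) (XT.nd (nat_lit 78) (nat_lit 0) (nat_lit 0) (XT.lf (nat_lit 0) (nat_lit 136961051076) (nat_lit 0) (nat_lit 0) (nat_lit 0) (nat_lit 0) (nat_lit 0) (nat_lit 0) (nat_lit 1) (nat_lit 0) (nat_lit 1) (nat_lit 0) (nat_lit 389) (nat_lit 403) (nat_lit 228)) (XT.lf (nat_lit 0) (nat_lit 136961036718) (nat_lit 0) (nat_lit 0) (nat_lit 0) (nat_lit 0) (nat_lit 0) (nat_lit 0) (nat_lit 1) (nat_lit 0) (nat_lit 1) (nat_lit 0) (nat_lit 390) (nat_lit 403) (nat_lit 227)))) (XT.nd (nat_lit 78) (nat_lit 0) (nat_lit 0) (XT.lf (nat_lit 0) (nat_lit 136961023423) (nat_lit 0) (nat_lit 0) (nat_lit 0) (nat_lit 0) (nat_lit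 0) (nat_lit 0) (nat_lit 1) (nat_lit 0) (nat_lit 1) (nat_lit 0) (nat_lit 391) (nat_lit 403) (nat_lit 226)) (XT.nd (nat_lit 78) (nat_lit 0) (nat_lit 0) (XT.lf (nat_lit 0) (nat_lit 136961011113) (nat_lit 0) (nat_lit 0) (nat_lit 0) (nat_lit 0) (nat_lit 0) (nat_lit 0) (nat_lit 1) (nat_lit 0) (nat_lit 1) (nat_lit 0) (nat_lit 392) (nat_lit 403) (nat_lit 225)) (XT.lf (nat_lit 0) (nat_lit 136960999715) (nat_lit 0) (nat_lit 0) (nat_lit 0) (nat_lit 0) (nat_lit 0) (nat_lit 0) (nat_lit 1) (nat_lit 0) (nat_lit 1) (nat_lit 0) (nat_lit 393) (nat_lit 403) (nat_lit 224))))) (XT.nd (nat_lit 234) (nat_lit 0) (nat_lit 0) (XT.nd (nat_lit 78) (nat_lit 0) (nat_lit 0) (XT.lf (nat_lit 0) (nat_lit 136960989161) (nat_lit 0) (nat_lit 0) (nat_lit 0) (nat_lit 0) (nat_lit 0) (nat_lit 0) (nat_lit 1) (nat_lit 0) (nat_lit 1) (nat_lit 0) (nat_lit 394) (nat_lit 403) (nat_lit 223)) (XT.nd (nat_lit 78) (nat_lit 0) (nat_lit 0) (XT.lf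 (nat_lit 0) (nat_lit 136960979389) (nat_lit 0) (nat_lit 0) (nat_lit 0) (nat_lit 0) (nat_lit 0) (nat_lit 0) (nat_lit 1) (nat_lit 0) (nat_lit 1) (nat_lit 0) (nat_lit 395) (nat_lit 403) (nat_lit 222)) (XT.lf (nat_lit 0) (nat_lit 136960970341) (nat_lit 0) (nat_lit 0) (nat_lit 0) (nat_lit 0) (nat_lit 0) (nat_lit 0) (nat_lit 1) (nat_lit 0) (nat_lit 1) (nat_lit 0) (nat_lit 396) (nat_lit 403) (nat_lit 221)))) (XT.nd (nat_lit 156) (nat_lit 0) (nat_lit 0) (XT.nd (nat_lit 78) (nat_lit 0) (nat_lit 0) (XT.lf (nat_lit 0) (nat_lit 136960961963) (nat_lit 0) (nat_lit 0) (nat_lit 0) (nat_lit 0) (nat_lit 0) (nat_lit 0) (nat_lit 1) (nat_lit 0) (nat_lit 1) (nat_lit 0) (nat_lit 397) (nat_lit 403) (nat_lit 220)) (XT.lf (nat_lit 0) (nat_lit 136960954206) (nat_lit 0) (nat_lit 0) (nat_lit 0) (nat_lit 0) (nat_lit 0) (nat_lit 0) (nat_lit 1) (nat_lit 0) (nat_lit 1) (nat_lit 0) (nat_lit 398) (nat_lit 403) (nat_lit 219)))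 (XT.nd (nat_lit 78) (nat_lit 0) (nat_lit 0) (XT.lf (nat_lit 0) (nat_lit 136960947023) (nat_lit 0) (nat_lit 0) (nat_lit 0) (nat_lit 0) (nat_lit 0) (nat_lit 0) (nat_lit 1) (nat_lit 0) (nat_lit 1) (nat_lit 0) (nat_lit 399) (nat_lit 403) (nat_lit 218)) (XT.lf (nat_lit 0) (nat_lit 136960940372) (nat_lit 0) (nat_lit 0) (nat_lit 0) (nat_lit 0) (nat_lit 0) (nat_lit 0) (nat_lit 1) (nat_lit 0) (nat_lit 1) (nat_lit 0) (nat_lit 400) (nat_lit 403) (nat_lit 217))))))) (XT.nd (nat_lit 1014) (nat_lit 0) (nat_lit 0) (XT.nd (nat_lit 468) (nat_lit 0) (nat_lit 0) (XT.nd (nat_lit 234) (nat_lit 0) (nat_lit 0) (XT.nd (nat_lit 78) (nat_lit 0) (nat_lit 0) (XT.lf (nat_lit 0) (nat_lit 136960934214) (nat_lit 0) (nat_lit 0) (nat_lit 0) (nat_lit 0) (nat_lit 0) (nat_lit 0) (nat_lit 1) (nat_lit 0) (nat_lit 1) (nat_lit 0) (nat_lit 401) (nat_lit 403) (nat_lit 216)) (XT.nd (nat_lit 78) (nat_lit 0) (nat_lit 0) (XT.lf (nat_lit 0)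 (nat_lit 136960928512) (nat_lit 0) (nat_lit 0) (nat_lit 0) (nat_lit 0) (nat_lit 0) (nat_lit 0) (nat_lit 1) (nat_lit 0) (nat_lit 1) (nat_lit 0) (nat_lit 402) (nat_lit 403) (nat_lit 215)) (XT.lf (nat_lit 0) (nat_lit 136960923233) (nat_lit 0) (nat_lit 0) (nat_lit 0) (nat_lit 0) (nat_lit 0) (nat_lit 0) (nat_lit 1) (nat_lit 0) (nat_lit 1) (nat_lit 0) (nat_lit 403) (nat_lit 403) (nat_lit 214)))) (XT.nd (nat_lit 78) (nat_lit 0) (nat_lit 0) (XT.lf (nat_lit 0) (nat_lit 136960918344) (nat_lit 0) (nat_lit 0) (nat_lit 0) (nat_lit 0) (nat_lit 0) (nat_lit 0) (nat_lit 1) (nat_lit 0) (nat_lit 1) (nat_lit 0) (nat_lit 404) (nat_lit 403) (nat_lit 213)) (XT.nd (nat_lit 78) (nat_lit 0) (nat_lit 0) (XT.lf (nat_lit 0) (nat_lit 136960913818) (nat_lit 0) (nat_lit 0) (nat_lit 0) (nat_lit 0) (nat_lit 0) (nat_lit 0) (nat_lit 1) (nat_lit 0) (nat_lit 1) (nat_lit 0) (nat_lit 405) (nat_lit 403) (nat_lit 212)) (XT.lf (nat_lit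 0) (nat_lit 136960909627) (nat_lit 0) (nat_lit 0) (nat_lit 0) (nat_lit 0) (nat_lit 0) (nat_lit 0) (nat_lit 1) (nat_lit 0) (nat_lit 1) (nat_lit 0) (nat_lit 406) (nat_lit 403) (nat_lit 211))))) (XT.nd (nat_lit 234) (nat_lit 0) (nat_lit 0) (XT.nd (nat_lit 78) (nat_lit 0) (nat_lit 0) (XT.lf (nat_lit 0) (nat_lit 136960905746) (nat_lit 0) (nat_lit 0) (nat_lit 0) (nat_lit 0) (nat_lit 0) (nat_lit 0) (nat_lit 1) (nat_lit 0) (nat_lit 1) (nat_lit 0) (nat_lit 407) (nat_lit 403) (nat_lit 210)) (XT.nd (nat_lit 78) (nat_lit 0) (nat_lit 0) (XT.lf (nat_lit 0) (nat_lit 136960902153) (nat_lit 0) (nat_lit 0) (nat_lit 0) (nat_lit 0) (nat_lit 0) (nat_lit 0) (nat_lit 1) (nat_lit 0) (nat_lit 1) (nat_lit 0) (nat_lit 408) (nat_lit 403) (nat_lit 209)) (XT.lf (nat_lit 0) (nat_lit 136960898826) (nat_lit 0) (nat_lit 0) (nat_lit 0) (nat_lit 0) (nat_lit 0) (nat_lit 0) (nat_lit 1) (nat_lit 0) (nat_lit 1) (nat_lit 0) (nat_lit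 409) (nat_lit 403) (nat_lit 208)))) (XT.nd (nat_lit 156) (nat_lit 0) (nat_lit 0) (XT.nd (nat_lit 78) (nat_lit 0) (nat_lit 0) (XT.lf (nat_lit 0) (nat_lit 136960895745) (nat_lit 0) (nat_lit 0) (nat_lit 0) (nat_lit 0) (nat_lit 0) (nat_lit 0) (nat_lit 1) (nat_lit 0) (nat_lit 1) (nat_lit 0) (nat_lit 410) (nat_lit 403) (nat_lit 207)) (XT.lf (nat_lit 0) (nat_lit 136960892893) (nat_lit 0) (nat_lit 0) (nat_lit 0) (nat_lit 0) (nat_lit 0) (nat_lit 0) (nat_lit 1) (nat_lit 0) (nat_lit 1) (nat_lit 0) (nat_lit 411) (nat_lit 403) (nat_lit 206))) (XT.nd (nat_lit 78) (nat_lit 0) (nat_lit 0) (XT.lf (nat_lit 0) (nat_lit 136960890252) (nat_lit 0) (nat_lit 0) (nat_lit 0) (nat_lit 0) (nat_lit 0) (nat_lit 0) (nat_lit 1) (nat_lit 0) (nat_lit 1) (nat_lit 0) (nat_lit 412) (nat_lit 403) (nat_lit 205)) (XT.lf (nat_lit 0) (nat_lit 136960887806) (nat_lit 0) (nat_lit 0) (nat_lit 0) (nat_lit 0) (nat_lit 0) (nat_lit 0) (nat_lit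 1) (nat_lit 0) (nat_lit 1) (nat_lit 0) (nat_lit 413) (nat_lit 403) (nat_lit 204)))))) (XT.nd (nat_lit 37752) (nat_lit 0) (nat_lit 20216) (XT.nd (nat_lit 37440) (nat_lit 0) (nat_lit 22268) (XT.nd (nat_lit 78) (nat_lit 0) (nat_lit 0) (XT.lf (nat_lit 0) (nat_lit 136960885542) (nat_lit 0) (nat_lit 0) (nat_lit 0) (nat_lit 0) (nat_lit 0) (nat_lit 0) (nat_lit 1) (nat_lit 0) (nat_lit 1) (nat_lit 0) (nat_lit 414) (nat_lit 403) (nat_lit 203)) (XT.nd (nat_lit 37284) (nat_lit 0) (nat_lit 22192) (XT.lf (nat_lit 0) (nat_lit 136960883445) (nat_lit 0) (nat_lit 0) (nat_lit 0) (nat_lit 0) (nat_lit 0) (nat_lit 0) (nat_lit 1) (nat_lit 0) (nat_lit 1) (nat_lit 0) (nat_lit 415) (nat_lit 403) (nat_lit 202)) (XT.lf (nat_lit 836) (nat_lit 74023570642) (nat_lit 0) (nat_lit 131428679525) (nat_lit 836) (nat_lit 74023570642) (nat_lit 303) (nat_lit 1) (nat_lit 292) (nat_lit 0) (nat_lit 303) (nat_lit 0) (nat_lit 212) (nat_lit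 404) (nat_lit 404)))) (XT.nd (nat_lit 156) (nat_lit 0) (nat_lit 76) (XT.nd (nat_lit 78) (nat_lit 0) (nat_lit 0) (XT.lf (nat_lit 836) (nat_lit 27613063198) (nat_lit 0) (nat_lit 258034330822) (nat_lit 760) (nat_lit 252356713470) (nat_lit 304) (nat_lit 1) (nat_lit 293) (nat_lit 1) (nat_lit 303) (nat_lit 1) (nat_lit 213) (nat_lit 404) (nat_lit 403)) (XT.lf (nat_lit 836) (nat_lit 253610046991) (nat_lit 76) (nat_lit 172805678329) (nat_lit 0) (nat_lit 91648249064) (nat_lit 304) (nat_lit 1) (nat_lit 294) (nat_lit 1) (nat_lit 293) (nat_lit 1) (nat_lit 214) (nat_lit 404) (nat_lit 402))) (XT.nd (nat_lit 78) (nat_lit 0) (nat_lit 76) (XT.lf (nat_lit 836) (nat_lit 219139856635) (nat_lit 76) (nat_lit 72421662012) (nat_lit 0) (nat_lit 207560177469) (nat_lit 305) (nat_lit 1) (nat_lit 295) (nat_lit 1) (nat_lit 294) (nat_lit 1) (nat_lit 215) (nat_lit 404) (nat_lit 401)) (XT.lf (nat_lit 836) (nat_lit 162182124533)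 (nat_lit 0) (nat_lit 303435088985) (nat_lit 760) (nat_lit 15511558396) (nat_lit 306) (nat_lit 1) (nat_lit 295) (nat_lit 1) (nat_lit 305) (nat_lit 1) (nat_lit 216) (nat_lit 404) (nat_lit 400))))) (XT.nd (nat_lit 234) (nat_lit 1596) (nat_lit 0) (XT.nd (nat_lit 78) (nat_lit 684) (nat_lit 0) (XT.lf (nat_lit 836) (nat_lit 38914010629) (nat_lit 0) (nat_lit 334621483142) (nat_lit 760) (nat_lit 90459642021) (nat_lit 307) (nat_lit 1) (nat_lit 296) (nat_lit 1) (nat_lit 306) (nat_lit 1) (nat_lit 217) (nat_lit 404) (nat_lit 399)) (XT.nd (nat_lit 78) (nat_lit 684) (nat_lit 0) (XT.lf (nat_lit 836) (nat_lit 74776900762) (nat_lit 76) (nat_lit 290813318248) (nat_lit 0) (nat_lit 82071106364) (nat_lit 307) (nat_lit 1) (nat_lit 297) (nat_lit 1) (nat_lit 296) (nat_lit 1) (nat_lit 218) (nat_lit 404) (nat_lit 398)) (XT.lf (nat_lit 836) (nat_lit 15357470274) (nat_lit 0) (nat_lit 217402191952) (nat_lit 760) (nat_lit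 199355532115) (nat_lit 298) (nat_lit 1) (nat_lit 287) (nat_lit 1) (nat_lit 297) (nat_lit 1) (nat_lit 219) (nat_lit 404) (nat_lit 397)))) (XT.nd (nat_lit 156) (nat_lit 684) (nat_lit 0) (XT.nd (nat_lit 78) (nat_lit 380) (nat_lit 0) (XT.lf (nat_lit 76) (nat_lit 106338323269) (nat_lit 0) (nat_lit 46081344057) (nat_lit 532) (nat_lit 264885490274) (nat_lit 281) (nat_lit 1) (nat_lit 280) (nat_lit 1) (nat_lit 287) (nat_lit 1) (nat_lit 220) (nat_lit 404) (nat_lit 396)) (XT.lf (nat_lit 456) (nat_lit 293055034465) (nat_lit 0) (nat_lit 95395731475) (nat_lit 380) (nat_lit 14748769527) (nat_lit 281) (nat_lit 1) (nat_lit 275) (nat_lit 1) (nat_lit 280) (nat_lit 1) (nat_lit 221) (nat_lit 404) (nat_lit 395))) (XT.nd (nat_lit 78) (nat_lit 304) (nat_lit 0) (XT.lf (nat_lit 456) (nat_lit 211471303551) (nat_lit 0) (nat_lit 44464361371) (nat_lit 380) (nat_lit 133764764940) (nat_lit 276) (nat_lit 1) (nat_lit 270) (nat_lit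 1) (nat_lit 275) (nat_lit 1) (nat_lit 222) (nat_lit 404) (nat_lit 394)) (XT.lf (nat_lit 380) (nat_lit 128677591119) (nat_lit 0) (nat_lit 818661151) (nat_lit 304) (nat_lit 247359614267) (nat_lit 271) (nat_lit 1) (nat_lit 266) (nat_lit 1) (nat_lit 270) (nat_lit 1) (nat_lit 223) (nat_lit 404) (nat_lit 393))))))))
noncomputable def ec195 : XT := (XT.nd (nat_lit 2106) (nat_lit 3268) (nat_lit 0) (XT.nd (nat_lit 1014) (nat_lit 2204) (nat_lit 0) (XT.nd (nat_lit 468) (nat_lit 1596) (nat_lit 0) (XT.nd (nat_lit 234) (nat_lit 912) (nat_lit 0) (XT.nd (nat_lit 78) (nat_lit 684) (nat_lit 0) (XT.lf (nat_lit 76) (nat_lit 9493224544) (nat_lit 0) (nat_lit 320157531839) (nat_lit 380) (nat_lit 34951419677) (nat_lit 267) (nat_lit 1) (nat_lit 266) (nat_lit 1) (nat_lit 271) (nat_lit 1) (nat_lit 224) (nat_lit 404) (nat_lit 392)) (XT.nd (nat_lit 78) (nat_lit 304) (nat_lit 0) (XT.lf (nat_lit 76) (nat_lit 245117519985)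 (nat_lit 0) (nat_lit 40655363431) (nat_lit 380) (nat_lit 67048077871) (nat_lit 262) (nat_lit 1) (nat_lit 261) (nat_lit 1) (nat_lit 266) (nat_lit 1) (nat_lit 225) (nat_lit 404) (nat_lit 391)) (XT.lf (nat_lit 76) (nat_lit 122638506685) (nat_lit 0) (nat_lit 124534595176) (nat_lit 380) (nat_lit 94387198792) (nat_lit 258) (nat_lit 1) (nat_lit 257) (nat_lit 1) (nat_lit 262) (nat_lit 1) (nat_lit 226) (nat_lit 404) (nat_lit 390)))) (XT.nd (nat_lit 78) (nat_lit 608) (nat_lit 0) (XT.lf (nat_lit 76) (nat_lit 6053164743) (nat_lit 0) (nat_lit 208219909387) (nat_lit 380) (nat_lit 116559720953) (nat_lit 254) (nat_lit 1) (nat_lit 253) (nat_lit 1) (nat_lit 258) (nat_lit 1) (nat_lit 227) (nat_lit 404) (nat_lit 389)) (XT.nd (nat_lit 78) (nat_lit 380) (nat_lit 0) (XT.lf (nat_lit 304) (nat_lit 27335750828) (nat_lit 0) (nat_lit 184858598067) (nat_lit 228) (nat_lit 108331386981) (nat_lit 254) (nat_lit 1) (nat_lit 250)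 (nat_lit 1) (nat_lit 253) (nat_lit 1) (nat_lit 228) (nat_lit 404) (nat_lit 388)) (XT.lf (nat_lit 76) (nat_lit 94452368595) (nat_lit 0) (nat_lit 64738240336) (nat_lit 380) (nat_lit 151453871040) (nat_lit 246) (nat_lit 1) (nat_lit 245) (nat_lit 1) (nat_lit 250) (nat_lit 1) (nat_lit 229) (nat_lit 404) (nat_lit 387))))) (XT.nd (nat_lit 234) (nat_lit 836) (nat_lit 0) (XT.nd (nat_lit 78) (nat_lit 532) (nat_lit 0) (XT.lf (nat_lit 304) (nat_lit 146234985326) (nat_lit 0) (nat_lit 137368868287) (nat_lit 228) (nat_lit 17583052107) (nat_lit 246) (nat_lit 1) (nat_lit 242) (nat_lit 1) (nat_lit 245) (nat_lit 1) (nat_lit 230) (nat_lit 404) (nat_lit 386)) (XT.nd (nat_lit 78) (nat_lit 304) (nat_lit 0) (XT.lf (nat_lit 304) (nat_lit 46867606326) (nat_lit 0) (nat_lit 118268970395) (nat_lit 228) (nat_lit 126956211967) (nat_lit 243) (nat_lit 1) (nat_lit 239) (nat_lit 1) (nat_lit 242) (nat_lit 1) (nat_lit 231) (nat_lit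 404) (nat_lit 385)) (XT.lf (nat_lit 76) (nat_lit 53417746489) (nat_lit 0) (nat_lit 48908589016) (nat_lit 304) (nat_lit 181050031956) (nat_lit 236) (nat_lit 1) (nat_lit 235) (nat_lit 1) (nat_lit 239) (nat_lit 1) (nat_lit 232) (nat_lit 404) (nat_lit 384)))) (XT.nd (nat_lit 156) (nat_lit 456) (nat_lit 0) (XT.nd (nat_lit 78) (nat_lit 152) (nat_lit 0) (XT.lf (nat_lit 304) (nat_lit 132923051076) (nat_lit 0) (nat_lit 88442072439) (nat_lit 228) (nat_lit 53613875095) (nat_lit 236) (nat_lit 1) (nat_lit 232) (nat_lit 1) (nat_lit 235) (nat_lit 1) (nat_lit 233) (nat_lit 404) (nat_lit 383)) (XT.lf (nat_lit 228) (nat_lit 32951820631) (nat_lit 0) (nat_lit 77159257220) (nat_lit 152) (nat_lit 156809325194) (nat_lit 233) (nat_lit 1) (nat_lit 230) (nat_lit 1) (nat_lit 232) (nat_lit 1) (nat_lit 234) (nat_lit 404) (nat_lit 382))) (XT.nd (nat_lit 78) (nat_lit 152) (nat_lit 0) (XT.lf (nat_lit 76) (nat_lit 5582248936)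 (nat_lit 0) (nat_lit 62466577448) (nat_lit 304) (nat_lit 191125353490) (nat_lit 227) (nat_lit 1) (nat_lit 226) (nat_lit 1) (nat_lit 230) (nat_lit 1) (nat_lit 235) (nat_lit 404) (nat_lit 381)) (XT.lf (nat_lit 228) (nat_lit 95751944522) (nat_lit 0) (nat_lit 59836750782) (nat_lit 152) (nat_lit 96085162252) (nat_lit 227) (nat_lit 1) (nat_lit 224) (nat_lit 1) (nat_lit 226) (nat_lit 1) (nat_lit 236) (nat_lit 404) (nat_lit 380)))))) (XT.nd (nat_lit 546) (nat_lit 988) (nat_lit 0) (XT.nd (nat_lit 234) (nat_lit 684) (nat_lit 0) (XT.nd (nat_lit 78) (nat_lit 304) (nat_lit 0) (XT.lf (nat_lit 76) (nat_lit 51951003599) (nat_lit 0) (nat_lit 2399649426) (nat_lit 228) (nat_lit 190150170434) (nat_lit 222) (nat_lit 1) (nat_lit 221) (nat_lit 1) (nat_lit 224) (nat_lit 1) (nat_lit 237) (nat_lit 404) (nat_lit 379)) (XT.nd (nat_lit 78) (nat_lit 152) (nat_lit 0) (XT.lf (nat_lit 228) (nat_lit 142024011863) (nat_lit 0)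 (nat_lit 49214504556) (nat_lit 152) (nat_lit 46297931400) (nat_lit 222) (nat_lit 1) (nat_lit 219) (nat_lit 1) (nat_lit 221) (nat_lit 1) (nat_lit 238) (nat_lit 404) (nat_lit 378)) (XT.lf (nat_lit 228) (nat_lit 44118349384) (nat_lit 0) (nat_lit 45750324207) (nat_lit 152) (nat_lit 140969677148) (nat_lit 220) (nat_lit 1) (nat_lit 217) (nat_lit 1) (nat_lit 219) (nat_lit 1) (nat_lit 239) (nat_lit 404) (nat_lit 377)))) (XT.nd (nat_lit 156) (nat_lit 304) (nat_lit 0) (XT.nd (nat_lit 78) (nat_lit 152) (nat_lit 0) (XT.lf (nat_lit 228) (nat_lit 175133633105) (nat_lit 0) (nat_lit 43710721452) (nat_lit 152) (nat_lit 5545212133) (nat_lit 217) (nat_lit 1) (nat_lit 214) (nat_lit 1) (nat_lit 216) (nat_lit 1) (nat_lit 240) (nat_lit 404) (nat_lit 376)) (XT.lf (nat_lit 228) (nat_lit 78381697420) (nat_lit 0) (nat_lit 41729002060) (nat_lit 152) (nat_lit 98009274516) (nat_lit 215) (nat_lit 1) (nat_lit 212) (nat_lit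 1) (nat_lit 214) (nat_lit 1) (nat_lit 241) (nat_lit 404) (nat_lit 375))) (XT.nd (nat_lit 78) (nat_lit 152) (nat_lit 0) (XT.lf (nat_lit 76) (nat_lit 26848757599) (nat_lit 0) (nat_lit 14757287017) (nat_lit 152) (nat_lit 170504383190) (nat_lit 211) (nat_lit 1) (nat_lit 210) (nat_lit 1) (nat_lit 212) (nat_lit 1) (nat_lit 242) (nat_lit 404) (nat_lit 374)) (XT.lf (nat_lit 228) (nat_lit 102841294802) (nat_lit 0) (nat_lit 41165482916) (nat_lit 152) (nat_lit 62245749081) (nat_lit 211) (nat_lit 1) (nat_lit 208) (nat_lit 1) (nat_lit 210) (nat_lit 1) (nat_lit 243) (nat_lit 404) (nat_lit 373))))) (XT.nd (nat_lit 234) (nat_lit 608) (nat_lit 0) (XT.nd (nat_lit 78) (nat_lit 304) (nat_lit 0) (XT.lf (nat_lit 152) (nat_lit 11074546094) (nat_lit 0) (nat_lit 42176560374) (nat_lit 76) (nat_lit 147374781719) (nat_lit 209) (nat_lit 1) (nat_lit 207) (nat_lit 1) (nat_lit 208) (nat_lit 1) (nat_lit 244) (nat_lit 404) (nat_lit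 372)) (XT.nd (nat_lit 78) (nat_lit 76) (nat_lit 0) (XT.lf (nat_lit 228) (nat_lit 119545636411) (nat_lit 0) (nat_lit 43135366303) (nat_lit 152) (nat_lit 32473390660) (nat_lit 207) (nat_lit 1) (nat_lit 204) (nat_lit 1) (nat_lit 206) (nat_lit 1) (nat_lit 245) (nat_lit 404) (nat_lit 371)) (XT.lf (nat_lit 152) (nat_lit 30066609084) (nat_lit 0) (nat_lit 44748241115) (nat_lit 76) (nat_lit 115052448729) (nat_lit 205) (nat_lit 1) (nat_lit 203) (nat_lit 1) (nat_lit 204) (nat_lit 1) (nat_lit 246) (nat_lit 404) (nat_lit 370)))) (XT.nd (nat_lit 156) (nat_lit 304) (nat_lit 0) (XT.nd (nat_lit 78) (nat_lit 76) (nat_lit 0) (XT.lf (nat_lit 228) (nat_lit 130150956528) (nat_lit 0) (nat_lit 46906462023) (nat_lit 152) (nat_lit 7697751959) (nat_lit 203) (nat_lit 1) (nat_lit 200) (nat_lit 1) (nat_lit 202) (nat_lit 1) (nat_lit 247) (nat_lit 404) (nat_lit 369)) (XT.lf (nat_lit 152) (nat_lit 43269975370) (nat_lit 0) (nat_lit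 48900550298) (nat_lit 76) (nat_lit 87609558942) (nat_lit 201) (nat_lit 1) (nat_lit 199) (nat_lit 1) (nat_lit 200) (nat_lit 1) (nat_lit 248) (nat_lit 404) (nat_lit 368))) (XT.nd (nat_lit 78) (nat_lit 76) (nat_lit 0) (XT.lf (nat_lit 76) (nat_lit 12489436877) (nat_lit 0) (nat_lit 39201013160) (nat_lit 228) (nat_lit 123293278970) (nat_lit 197) (nat_lit 1) (nat_lit 196) (nat_lit 1) (nat_lit 199) (nat_lit 1) (nat_lit 249) (nat_lit 404) (nat_lit 367)) (XT.lf (nat_lit 152) (nat_lit 51927874380) (nat_lit 0) (nat_lit 54106383779) (nat_lit 76) (nat_lit 64272229784) (nat_lit 197) (nat_lit 1) (nat_lit 195) (nat_lit 1) (nat_lit 196) (nat_lit 1) (nat_lit 250) (nat_lit 404) (nat_lit 366))))))) (XT.nd (nat_lit 1014) (nat_lit 1672) (nat_lit 0) (XT.nd (nat_lit 468) (nat_lit 836) (nat_lit 0) (XT.nd (nat_lit 234) (nat_lit 304) (nat_lit 0) (XT.nd (nat_lit 78) (nat_lit 228) (nat_lit 0) (XT.lf (nat_lit 76) (nat_lit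 29045779731) (nat_lit 0) (nat_lit 28132801740) (nat_lit 228) (nat_lit 108615035114) (nat_lit 193) (nat_lit 1) (nat_lit 192) (nat_lit 1) (nat_lit 195) (nat_lit 1) (nat_lit 251) (nat_lit 404) (nat_lit 365)) (XT.nd (nat_lit 78) (nat_lit 152) (nat_lit 0) (XT.lf (nat_lit 152) (nat_lit 57042886523) (nat_lit 0) (nat_lit 59954277277) (nat_lit 76) (nat_lit 44398883581) (nat_lit 193) (nat_lit 1) (nat_lit 191) (nat_lit 1) (nat_lit 192) (nat_lit 1) (nat_lit 252) (nat_lit 404) (nat_lit 364)) (XT.lf (nat_lit 76) (nat_lit 42762104313) (nat_lit 0) (nat_lit 20375377568) (nat_lit 152) (nat_lit 94006227733) (nat_lit 190) (nat_lit 1) (nat_lit 189) (nat_lit 1) (nat_lit 191) (nat_lit 1) (nat_lit 253) (nat_lit 404) (nat_lit 363)))) (XT.nd (nat_lit 78) (nat_lit 228) (nat_lit 0) (XT.lf (nat_lit 152) (nat_lit 59421910119) (nat_lit 0) (nat_lit 66125868677) (nat_lit 76) (nat_lit 27456647095) (nat_lit 190) (nat_lit 1) (nat_lit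 188) (nat_lit 1) (nat_lit 189) (nat_lit 1) (nat_lit 254) (nat_lit 404) (nat_lit 362)) (XT.nd (nat_lit 78) (nat_lit 76) (nat_lit 0) (XT.lf (nat_lit 76) (nat_lit 54090086009) (nat_lit 0) (nat_lit 15200297346) (nat_lit 152) (nat_lit 79702078849) (nat_lit 187) (nat_lit 1) (nat_lit 186) (nat_lit 1) (nat_lit 188) (nat_lit 1) (nat_lit 255) (nat_lit 404) (nat_lit 361)) (XT.lf (nat_lit 152) (nat_lit 59712827129) (nat_lit 0) (nat_lit 72377581429) (nat_lit 76) (nat_lit 13002037519) (nat_lit 187) (nat_lit 1) (nat_lit 185) (nat_lit 1) (nat_lit 186) (nat_lit 1) (nat_lit 256) (nat_lit 404) (nat_lit 360))))) (XT.nd (nat_lit 234) (nat_lit 456) (nat_lit 0) (XT.nd (nat_lit 78) (nat_lit 228) (nat_lit 0) (XT.lf (nat_lit 76) (nat_lit 63405117467) (nat_lit 0) (nat_lit 12021824941) (nat_lit 152) (nat_lit 65876103153) (nat_lit 184) (nat_lit 1) (nat_lit 183) (nat_lit 1) (nat_lit 185) (nat_lit 1) (nat_lit 257) (nat_lit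 404) (nat_lit 359)) (XT.nd (nat_lit 78) (nat_lit 152) (nat_lit 0) (XT.lf (nat_lit 152) (nat_lit 58434393903) (nat_lit 0) (nat_lit 78525749211) (nat_lit 76) (nat_lit 665151164) (nat_lit 184) (nat_lit 1) (nat_lit 182) (nat_lit 1) (nat_lit 183) (nat_lit 1) (nat_lit 258) (nat_lit 404) (nat_lit 358)) (XT.lf (nat_lit 76) (nat_lit 71019811381) (nat_lit 0) (nat_lit 10370135567) (nat_lit 152) (nat_lit 52652682896) (nat_lit 181) (nat_lit 1) (nat_lit 180) (nat_lit 1) (nat_lit 182) (nat_lit 1) (nat_lit 259) (nat_lit 404) (nat_lit 357)))) (XT.nd (nat_lit 156) (nat_lit 228) (nat_lit 0) (XT.nd (nat_lit 78) (nat_lit 152) (nat_lit 0) (XT.lf (nat_lit 0) (nat_lit 9547598578) (nat_lit 0) (nat_lit 74725253614) (nat_lit 152) (nat_lit 46291311129) (nat_lit 179) (nat_lit 3) (nat_lit 179) (nat_lit 1) (nat_lit 181) (nat_lit 1) (nat_lit 260) (nat_lit 404) (nat_lit 356)) (XT.lf (nat_lit 76) (nat_lit 77195059093) (nat_lit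 0) (nat_lit 9869475603) (nat_lit 152) (nat_lit 40117255599) (nat_lit 178) (nat_lit 1) (nat_lit 177) (nat_lit 1) (nat_lit 179) (nat_lit 1) (nat_lit 261) (nat_lit 404) (nat_lit 355))) (XT.nd (nat_lit 78) (nat_lit 152) (nat_lit 0) (XT.lf (nat_lit 0) (nat_lit 18239445459) (nat_lit 0) (nat_lit 71457858676) (nat_lit 152) (nat_lit 34192193353) (nat_lit 176) (nat_lit 3) (nat_lit 176) (nat_lit 1) (nat_lit 178) (nat_lit 1) (nat_lit 262) (nat_lit 404) (nat_lit 354)) (XT.lf (nat_lit 76) (nat_lit 82149091345) (nat_lit 0) (nat_lit 10220366365) (nat_lit 152) (nat_lit 28324557485) (nat_lit 175) (nat_lit 1) (nat_lit 174) (nat_lit 1) (nat_lit 176) (nat_lit 1) (nat_lit 263) (nat_lit 404) (nat_lit 353)))))) (XT.nd (nat_lit 546) (nat_lit 836) (nat_lit 0) (XT.nd (nat_lit 234) (nat_lit 532) (nat_lit 0) (XT.nd (nat_lit 78) (nat_lit 228) (nat_lit 0) (XT.lf (nat_lit 0) (nat_lit 25642630467) (nat_lit 0) (nat_lit 69096165330)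 (nat_lit 152) (nat_lit 22837615310) (nat_lit 173) (nat_lit 3) (nat_lit 173) (nat_lit 1) (nat_lit 175) (nat_lit 1) (nat_lit 264) (nat_lit 404) (nat_lit 352)) (XT.nd (nat_lit 78) (nat_lit 76) (nat_lit 0) (XT.lf (nat_lit 76) (nat_lit 86064905771) (nat_lit 0) (nat_lit 11185107553) (nat_lit 152) (nat_lit 17305284018) (nat_lit 172) (nat_lit 1) (nat_lit 171) (nat_lit 1) (nat_lit 173) (nat_lit 1) (nat_lit 265) (nat_lit 404) (nat_lit 351)) (XT.lf (nat_lit 0) (nat_lit 31935007470) (nat_lit 0) (nat_lit 67415390629) (nat_lit 152) (nat_lit 12251463556) (nat_lit 170) (nat_lit 3) (nat_lit 170) (nat_lit 1) (nat_lit 172) (nat_lit 1) (nat_lit 266) (nat_lit 404) (nat_lit 350)))) (XT.nd (nat_lit 156) (nat_lit 304) (nat_lit 0) (XT.nd (nat_lit 78) (nat_lit 76) (nat_lit 0) (XT.lf (nat_lit 76) (nat_lit 89096358926) (nat_lit 0) (nat_lit 12575972830) (nat_lit 152) (nat_lit 7071462326) (nat_lit 169) (nat_lit 1) (nat_lit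 168) (nat_lit 1) (nat_lit 170) (nat_lit 1) (nat_lit 267) (nat_lit 404) (nat_lit 349)) (XT.lf (nat_lit 0) (nat_lit 37266998424) (nat_lit 0) (nat_lit 66237198273) (nat_lit 152) (nat_lit 2440655313) (nat_lit 167) (nat_lit 3) (nat_lit 167) (nat_lit 1) (nat_lit 169) (nat_lit 1) (nat_lit 268) (nat_lit 404) (nat_lit 348))) (XT.nd (nat_lit 78) (nat_lit 76) (nat_lit 0) (XT.lf (nat_lit 152) (nat_lit 88953648760) (nat_lit 0) (nat_lit 2457891962) (nat_lit 76) (nat_lit 11826084175) (nat_lit 166) (nat_lit 1) (nat_lit 164) (nat_lit 1) (nat_lit 165) (nat_lit 1) (nat_lit 269) (nat_lit 404) (nat_lit 347)) (XT.lf (nat_lit 76) (nat_lit 35053580195) (nat_lit 0) (nat_lit 6819132518) (nat_lit 76) (nat_lit 58708129683) (nat_lit 164) (nat_lit 3) (nat_lit 163) (nat_lit 1) (nat_lit 164) (nat_lit 1) (nat_lit 270) (nat_lit 404) (nat_lit 346))))) (XT.nd (nat_lit 234) (nat_lit 456) (nat_lit 0) (XT.nd (nat_lit 78) (nat_lit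 228) (nat_lit 0) (XT.lf (nat_lit 152) (nat_lit 81757739980) (nat_lit 0) (nat_lit 11425654441) (nat_lit 76) (nat_lit 4831913889) (nat_lit 163) (nat_lit 1) (nat_lit 161) (nat_lit 1) (nat_lit 162) (nat_lit 1) (nat_lit 271) (nat_lit 404) (nat_lit 345)) (XT.nd (nat_lit 78) (nat_lit 152) (nat_lit 0) (XT.lf (nat_lit 76) (nat_lit 30400298382) (nat_lit 0) (nat_lit 15381289987) (nat_lit 76) (nat_lit 49714549384) (nat_lit 161) (nat_lit 3) (nat_lit 160) (nat_lit 1) (nat_lit 161) (nat_lit 1) (nat_lit 272) (nat_lit 404) (nat_lit 344)) (XT.lf (nat_lit 0) (nat_lit 1283146075) (nat_lit 0) (nat_lit 18315113450) (nat_lit 152) (nat_lit 73466361431) (nat_lit 158) (nat_lit 3) (nat_lit 158) (nat_lit 1) (nat_lit 160) (nat_lit 1) (nat_lit 273) (nat_lit 404) (nat_lit 343)))) (XT.nd (nat_lit 156) (nat_lit 228) (nat_lit 0) (XT.nd (nat_lit 78) (nat_lit 152) (nat_lit 0) (XT.lf (nat_lit 76) (nat_lit 25858546006) (nat_lit 0)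 (nat_lit 23188970272) (nat_lit 76) (nat_lit 41628886167) (nat_lit 158) (nat_lit 3) (nat_lit 157) (nat_lit 1) (nat_lit 158) (nat_lit 1) (nat_lit 274) (nat_lit 404) (nat_lit 342)) (XT.lf (nat_lit 0) (nat_lit 6525799539) (nat_lit 0) (nat_lit 20432625078) (nat_lit 152) (nat_lit 61409359938) (nat_lit 155) (nat_lit 3) (nat_lit 155) (nat_lit 1) (nat_lit 157) (nat_lit 1) (nat_lit 275) (nat_lit 404) (nat_lit 341))) (XT.nd (nat_lit 78) (nat_lit 152) (nat_lit 0) (XT.lf (nat_lit 76) (nat_lit 21479231339) (nat_lit 0) (nat_lit 30271390451) (nat_lit 76) (nat_lit 34355921653) (nat_lit 155) (nat_lit 3) (nat_lit 154) (nat_lit 1) (nat_lit 155) (nat_lit 1) (nat_lit 276) (nat_lit 404) (nat_lit 340)) (XT.lf (nat_lit 0) (nat_lit 11130592705) (nat_lit 0) (nat_lit 22485698803) (nat_lit 152) (nat_lit 50297726030) (nat_lit 152) (nat_lit 3) (nat_lit 152) (nat_lit 1) (nat_lit 154) (nat_lit 1) (nat_lit 277) (nat_lit 404)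 (nat_lit 339))))))))
noncomputable def ec196 : XT := (XT.nd (nat_lit 2028) (nat_lit 3344) (nat_lit 0) (XT.nd (nat_lit 1014) (nat_lit 1444) (nat_lit 0) (XT.nd (nat_lit 468) (nat_lit 912) (nat_lit 0) (XT.nd (nat_lit 234) (nat_lit 380) (nat_lit 0) (XT.nd (nat_lit 78) (nat_lit 228) (nat_lit 0) (XT.lf (nat_lit 76) (nat_lit 17298549348) (nat_lit 0) (nat_lit 36661460840) (nat_lit 76) (nat_lit 27812536475) (nat_lit 152) (nat_lit 3) (nat_lit 151) (nat_lit 1) (nat_lit 152) (nat_lit 1) (nat_lit 278) (nat_lit 404) (nat_lit 338)) (XT.nd (nat_lit 78) (nat_lit 76) (nat_lit 0) (XT.lf (nat_lit 0) (nat_lit 15167084946) (nat_lit 0) (nat_lit 24438678533) (nat_lit 152) (nat_lit 40084022439) (nat_lit 149) (nat_lit 3) (nat_lit 149) (nat_lit 1) (nat_lit 151) (nat_lit 1) (nat_lit 279) (nat_lit 404) (nat_lit 337)) (XT.lf (nat_lit 76) (nat_lit 13341045343) (nat_lit 0) (nat_lit 42394465082) (nat_lit 76) (nat_lit 21925854219)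 (nat_lit 149) (nat_lit 3) (nat_lit 148) (nat_lit 1) (nat_lit 149) (nat_lit 1) (nat_lit 280) (nat_lit 404) (nat_lit 336)))) (XT.nd (nat_lit 78) (nat_lit 228) (nat_lit 0) (XT.lf (nat_lit 0) (nat_lit 18696088965) (nat_lit 0) (nat_lit 26266467163) (nat_lit 152) (nat_lit 30719915771) (nat_lit 146) (nat_lit 3) (nat_lit 146) (nat_lit 1) (nat_lit 148) (nat_lit 1) (nat_lit 281) (nat_lit 404) (nat_lit 335)) (XT.nd (nat_lit 78) (nat_lit 152) (nat_lit 0) (XT.lf (nat_lit 76) (nat_lit 9622093221) (nat_lit 0) (nat_lit 47507024574) (nat_lit 76) (nat_lit 16631702663) (nat_lit 146) (nat_lit 3) (nat_lit 145) (nat_lit 1) (nat_lit 146) (nat_lit 1) (nat_lit 282) (nat_lit 404) (nat_lit 334)) (XT.lf (nat_lit 0) (nat_lit 21770988251) (nat_lit 0) (nat_lit 27952301692) (nat_lit 152) (nat_lit 22156995262) (nat_lit 143) (nat_lit 3) (nat_lit 143) (nat_lit 1) (nat_lit 145) (nat_lit 1) (nat_lit 283) (nat_lit 404) (nat_lit 333)))))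 (XT.nd (nat_lit 234) (nat_lit 608) (nat_lit 0) (XT.nd (nat_lit 78) (nat_lit 228) (nat_lit 0) (XT.lf (nat_lit 76) (nat_lit 6149897178) (nat_lit 0) (nat_lit 52036292410) (nat_lit 76) (nat_lit 11873335550) (nat_lit 143) (nat_lit 3) (nat_lit 142) (nat_lit 1) (nat_lit 143) (nat_lit 1) (nat_lit 284) (nat_lit 404) (nat_lit 332)) (XT.nd (nat_lit 78) (nat_lit 76) (nat_lit 0) (XT.lf (nat_lit 0) (nat_lit 24438831750) (nat_lit 0) (nat_lit 29485955535) (nat_lit 152) (nat_lit 14347399334) (nat_lit 140) (nat_lit 3) (nat_lit 140) (nat_lit 1) (nat_lit 142) (nat_lit 1) (nat_lit 285) (nat_lit 404) (nat_lit 331)) (XT.lf (nat_lit 76) (nat_lit 2927105644) (nat_lit 0) (nat_lit 56019332261) (nat_lit 76) (nat_lit 7600368407) (nat_lit 140) (nat_lit 3) (nat_lit 139) (nat_lit 1) (nat_lit 140) (nat_lit 1) (nat_lit 286) (nat_lit 404) (nat_lit 330)))) (XT.nd (nat_lit 156) (nat_lit 304) (nat_lit 0) (XT.nd (nat_lit 78) (nat_lit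 152) (nat_lit 0) (XT.lf (nat_lit 0) (nat_lit 26741245455) (nat_lit 0) (nat_lit 30862288456) (nat_lit 152) (nat_lit 7244287822) (nat_lit 137) (nat_lit 3) (nat_lit 137) (nat_lit 1) (nat_lit 139) (nat_lit 1) (nat_lit 287) (nat_lit 404) (nat_lit 329)) (XT.lf (nat_lit 76) (nat_lit 59445503485) (nat_lit 0) (nat_lit 46357342) (nat_lit 152) (nat_lit 3720748005) (nat_lit 136) (nat_lit 1) (nat_lit 135) (nat_lit 1) (nat_lit 137) (nat_lit 1) (nat_lit 288) (nat_lit 404) (nat_lit 328))) (XT.nd (nat_lit 78) (nat_lit 228) (nat_lit 0) (XT.lf (nat_lit 0) (nat_lit 28715193363) (nat_lit 0) (nat_lit 32080079215) (nat_lit 152) (nat_lit 802190617) (nat_lit 134) (nat_lit 3) (nat_lit 134) (nat_lit 1) (nat_lit 136) (nat_lit 1) (nat_lit 289) (nat_lit 404) (nat_lit 327)) (XT.lf (nat_lit 152) (nat_lit 57313859746) (nat_lit 0) (nat_lit 2480171173) (nat_lit 76) (nat_lit 249490397) (nat_lit 133) (nat_lit 1) (nat_lit 131) (nat_lit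 1) (nat_lit 132) (nat_lit 1) (nat_lit 290) (nat_lit 404) (nat_lit 326)))))) (XT.nd (nat_lit 468) (nat_lit 760) (nat_lit 0) (XT.nd (nat_lit 234) (nat_lit 380) (nat_lit 0) (XT.nd (nat_lit 78) (nat_lit 228) (nat_lit 0) (XT.lf (nat_lit 76) (nat_lit 25285809527) (nat_lit 0) (nat_lit 5188816860) (nat_lit 76) (nat_lit 28033283115) (nat_lit 131) (nat_lit 3) (nat_lit 130) (nat_lit 1) (nat_lit 131) (nat_lit 1) (nat_lit 291) (nat_lit 404) (nat_lit 325)) (XT.nd (nat_lit 78) (nat_lit 76) (nat_lit 0) (XT.lf (nat_lit 0) (nat_lit 2858425444) (nat_lit 0) (nat_lit 5281241659) (nat_lit 152) (nat_lit 48890402884) (nat_lit 128) (nat_lit 3) (nat_lit 128) (nat_lit 1) (nat_lit 130) (nat_lit 1) (nat_lit 292) (nat_lit 404) (nat_lit 324)) (XT.lf (nat_lit 76) (nat_lit 21359416951) (nat_lit 0) (nat_lit 10612226821) (nat_lit 76) (nat_lit 23602765298) (nat_lit 128) (nat_lit 3) (nat_lit 127) (nat_lit 1) (nat_lit 128) (nat_lit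 1) (nat_lit 293) (nat_lit 404) (nat_lit 323)))) (XT.nd (nat_lit 78) (nat_lit 228) (nat_lit 0) (XT.lf (nat_lit 0) (nat_lit 5624531608) (nat_lit 0) (nat_lit 7602792937) (nat_lit 152) (nat_lit 40941916739) (nat_lit 125) (nat_lit 3) (nat_lit 125) (nat_lit 1) (nat_lit 127) (nat_lit 1) (nat_lit 294) (nat_lit 404) (nat_lit 322)) (XT.nd (nat_lit 78) (nat_lit 152) (nat_lit 0) (XT.lf (nat_lit 76) (nat_lit 17737363178) (nat_lit 0) (nat_lit 15482999902) (nat_lit 76) (nat_lit 19569086631) (nat_lit 125) (nat_lit 3) (nat_lit 124) (nat_lit 1) (nat_lit 125) (nat_lit 1) (nat_lit 295) (nat_lit 404) (nat_lit 321)) (XT.lf (nat_lit 0) (nat_lit 8086032522) (nat_lit 0) (nat_lit 9701308935) (nat_lit 152) (nat_lit 33665945360) (nat_lit 122) (nat_lit 3) (nat_lit 122) (nat_lit 1) (nat_lit 124) (nat_lit 1) (nat_lit 296) (nat_lit 404) (nat_lit 320))))) (XT.nd (nat_lit 234) (nat_lit 456) (nat_lit 0) (XT.nd (nat_lit 78) (nat_lit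 228) (nat_lit 0) (XT.lf (nat_lit 76) (nat_lit 14404555572) (nat_lit 0) (nat_lit 19840593535) (nat_lit 76) (nat_lit 15900181881) (nat_lit 122) (nat_lit 3) (nat_lit 121) (nat_lit 1) (nat_lit 122) (nat_lit 1) (nat_lit 297) (nat_lit 404) (nat_lit 319)) (XT.nd (nat_lit 78) (nat_lit 76) (nat_lit 0) (XT.lf (nat_lit 0) (nat_lit 10269453337) (nat_lit 0) (nat_lit 11588347790) (nat_lit 152) (nat_lit 27016905676) (nat_lit 119) (nat_lit 3) (nat_lit 119) (nat_lit 1) (nat_lit 121) (nat_lit 1) (nat_lit 298) (nat_lit 404) (nat_lit 318)) (XT.lf (nat_lit 76) (nat_lit 11345583434) (nat_lit 0) (nat_lit 23722414156) (nat_lit 76) (nat_lit 12566782001) (nat_lit 119) (nat_lit 3) (nat_lit 118) (nat_lit 1) (nat_lit 119) (nat_lit 1) (nat_lit 299) (nat_lit 404) (nat_lit 317)))) (XT.nd (nat_lit 156) (nat_lit 228) (nat_lit 0) (XT.nd (nat_lit 78) (nat_lit 76) (nat_lit 0) (XT.lf (nat_lit 0) (nat_lit 12198929930) (nat_lit 0)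 (nat_lit 13275824610) (nat_lit 152) (nat_lit 20951660363) (nat_lit 116) (nat_lit 3) (nat_lit 116) (nat_lit 1) (nat_lit 118) (nat_lit 1) (nat_lit 300) (nat_lit 404) (nat_lit 316)) (XT.lf (nat_lit 76) (nat_lit 8544986212) (nat_lit 0) (nat_lit 27163823773) (nat_lit 76) (nat_lit 9542110915) (nat_lit 116) (nat_lit 3) (nat_lit 115) (nat_lit 1) (nat_lit 116) (nat_lit 1) (nat_lit 301) (nat_lit 404) (nat_lit 315))) (XT.nd (nat_lit 78) (nat_lit 76) (nat_lit 0) (XT.lf (nat_lit 0) (nat_lit 13896470177) (nat_lit 0) (nat_lit 14775768858) (nat_lit 152) (nat_lit 15429472122) (nat_lit 113) (nat_lit 3) (nat_lit 113) (nat_lit 1) (nat_lit 115) (nat_lit 1) (nat_lit 302) (nat_lit 404) (nat_lit 314)) (XT.lf (nat_lit 76) (nat_lit 5987459065) (nat_lit 0) (nat_lit 30198169656) (nat_lit 76) (nat_lit 6801624509) (nat_lit 113) (nat_lit 3) (nat_lit 112) (nat_lit 1) (nat_lit 113) (nat_lit 1) (nat_lit 303) (nat_lit 404) (nat_lit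 313))))))) (XT.nd (nat_lit 1014) (nat_lit 1748) (nat_lit 0) (XT.nd (nat_lit 468) (nat_lit 760) (nat_lit 0) (XT.nd (nat_lit 234) (nat_lit 456) (nat_lit 0) (XT.nd (nat_lit 78) (nat_lit 228) (nat_lit 0) (XT.lf (nat_lit 0) (nat_lit 15382178974) (nat_lit 0) (nat_lit 16100137920) (nat_lit 152) (nat_lit 10411940505) (nat_lit 110) (nat_lit 3) (nat_lit 110) (nat_lit 1) (nat_lit 112) (nat_lit 1) (nat_lit 304) (nat_lit 404) (nat_lit 312)) (XT.nd (nat_lit 78) (nat_lit 152) (nat_lit 0) (XT.lf (nat_lit 76) (nat_lit 3658008096) (nat_lit 0) (nat_lit 32856831381) (nat_lit 76) (nat_lit 4322784898) (nat_lit 110) (nat_lit 3) (nat_lit 109) (nat_lit 1) (nat_lit 110) (nat_lit 1) (nat_lit 305) (nat_lit 404) (nat_lit 311)) (XT.lf (nat_lit 0) (nat_lit 16674452900) (nat_lit 0) (nat_lit 17260675829) (nat_lit 152) (nat_lit 5862926100) (nat_lit 107) (nat_lit 3) (nat_lit 107) (nat_lit 1) (nat_lit 109) (nat_lit 1) (nat_lit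 306) (nat_lit 404) (nat_lit 310)))) (XT.nd (nat_lit 78) (nat_lit 380) (nat_lit 0) (XT.lf (nat_lit 76) (nat_lit 1542065281) (nat_lit 0) (nat_lit 35169280610) (nat_lit 76) (nat_lit 2084864290) (nat_lit 107) (nat_lit 3) (nat_lit 106) (nat_lit 1) (nat_lit 107) (nat_lit 1) (nat_lit 307) (nat_lit 404) (nat_lit 309)) (XT.nd (nat_lit 78) (nat_lit 228) (nat_lit 0) (XT.lf (nat_lit 0) (nat_lit 17790149418) (nat_lit 0) (nat_lit 18268808156) (nat_lit 152) (nat_lit 1748465883) (nat_lit 104) (nat_lit 3) (nat_lit 104) (nat_lit 1) (nat_lit 106) (nat_lit 1) (nat_lit 308) (nat_lit 404) (nat_lit 308)) (XT.lf (nat_lit 152) (nat_lit 36489680434) (nat_lit 0) (nat_lit 309722208) (nat_lit 76) (nat_lit 57558154) (nat_lit 103) (nat_lit 1) (nat_lit 101) (nat_lit 1) (nat_lit 102) (nat_lit 1) (nat_lit 309) (nat_lit 404) (nat_lit 307))))) (XT.nd (nat_lit 234) (nat_lit 456) (nat_lit 0) (XT.nd (nat_lit 78) (nat_lit 228) (nat_lit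 0) (XT.lf (nat_lit 76) (nat_lit 16748167678) (nat_lit 0) (nat_lit 2028233363) (nat_lit 76) (nat_lit 17138998838) (nat_lit 101) (nat_lit 3) (nat_lit 100) (nat_lit 1) (nat_lit 101) (nat_lit 1) (nat_lit 310) (nat_lit 404) (nat_lit 306)) (XT.nd (nat_lit 78) (nat_lit 76) (nat_lit 0) (XT.lf (nat_lit 0) (nat_lit 1783244705) (nat_lit 0) (nat_lit 2127892994) (nat_lit 152) (nat_lit 31098957144) (nat_lit 98) (nat_lit 3) (nat_lit 98) (nat_lit 1) (nat_lit 100) (nat_lit 1) (nat_lit 311) (nat_lit 404) (nat_lit 305)) (XT.lf (nat_lit 76) (nat_lit 14160307544) (nat_lit 0) (nat_lit 5477626502) (nat_lit 76) (nat_lit 14479426330) (nat_lit 98) (nat_lit 3) (nat_lit 97) (nat_lit 1) (nat_lit 98) (nat_lit 1) (nat_lit 312) (nat_lit 404) (nat_lit 304)))) (XT.nd (nat_lit 156) (nat_lit 228) (nat_lit 0) (XT.nd (nat_lit 78) (nat_lit 76) (nat_lit 0) (XT.lf (nat_lit 0) (nat_lit 3431615596) (nat_lit 0) (nat_lit 3713025460) (nat_lit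 152) (nat_lit 26111642047) (nat_lit 95) (nat_lit 3) (nat_lit 95) (nat_lit 1) (nat_lit 97) (nat_lit 1) (nat_lit 313) (nat_lit 404) (nat_lit 303)) (XT.lf (nat_lit 76) (nat_lit 11789240647) (nat_lit 0) (nat_lit 8570815112) (nat_lit 76) (nat_lit 12049805336) (nat_lit 95) (nat_lit 3) (nat_lit 94) (nat_lit 1) (nat_lit 95) (nat_lit 1) (nat_lit 314) (nat_lit 404) (nat_lit 302))) (XT.nd (nat_lit 78) (nat_lit 76) (nat_lit 0) (XT.lf (nat_lit 0) (nat_lit 4904560336) (nat_lit 0) (nat_lit 5134335194) (nat_lit 152) (nat_lit 21551937294) (nat_lit 92) (nat_lit 3) (nat_lit 92) (nat_lit 1) (nat_lit 94) (nat_lit 1) (nat_lit 315) (nat_lit 404) (nat_lit 301)) (XT.lf (nat_lit 76) (nat_lit 9620347077) (nat_lit 0) (nat_lit 11334852223) (nat_lit 76) (nat_lit 9833101576) (nat_lit 92) (nat_lit 3) (nat_lit 91) (nat_lit 1) (nat_lit 92) (nat_lit 1) (nat_lit 316) (nat_lit 404) (nat_lit 300)))))) (XT.nd (nat_lit 546) (nat_lit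 912) (nat_lit 0) (XT.nd (nat_lit 234) (nat_lit 456) (nat_lit 0) (XT.nd (nat_lit 78) (nat_lit 228) (nat_lit 0) (XT.lf (nat_lit 0) (nat_lit 6216105450) (nat_lit 0) (nat_lit 6403719646) (nat_lit 152) (nat_lit 17389427575) (nat_lit 89) (nat_lit 3) (nat_lit 89) (nat_lit 1) (nat_lit 91) (nat_lit 1) (nat_lit 317) (nat_lit 404) (nat_lit 299)) (XT.nd (nat_lit 78) (nat_lit 152) (nat_lit 0) (XT.lf (nat_lit 76) (nat_lit 7639786325) (nat_lit 0) (nat_lit 13795027743) (nat_lit 76) (nat_lit 7813503173) (nat_lit 89) (nat_lit 3) (nat_lit 88) (nat_lit 1) (nat_lit 89) (nat_lit 1) (nat_lit 318) (nat_lit 404) (nat_lit 298)) (XT.lf (nat_lit 0) (nat_lit 7379232224) (nat_lit 0) (nat_lit 7532421685) (nat_lit 152) (nat_lit 13595630141) (nat_lit 86) (nat_lit 3) (nat_lit 86) (nat_lit 1) (nat_lit 88) (nat_lit 1) (nat_lit 319) (nat_lit 404) (nat_lit 297)))) (XT.nd (nat_lit 156) (nat_lit 228) (nat_lit 0) (XT.nd (nat_lit 78)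 (nat_lit 152) (nat_lit 0) (XT.lf (nat_lit 76) (nat_lit 5834483529) (nat_lit 0) (nat_lit 15974964127) (nat_lit 76) (nat_lit 5976325622) (nat_lit 86) (nat_lit 3) (nat_lit 85) (nat_lit 1) (nat_lit 86) (nat_lit 1) (nat_lit 320) (nat_lit 404) (nat_lit 296)) (XT.lf (nat_lit 0) (nat_lit 8405959356) (nat_lit 0) (nat_lit 8531040567) (nat_lit 152) (nat_lit 10143888453) (nat_lit 83) (nat_lit 3) (nat_lit 83) (nat_lit 1) (nat_lit 85) (nat_lit 1) (nat_lit 321) (nat_lit 404) (nat_lit 295))) (XT.nd (nat_lit 78) (nat_lit 152) (nat_lit 0) (XT.lf (nat_lit 76) (nat_lit 4192109977) (nat_lit 0) (nat_lit 17896709482) (nat_lit 76) (nat_lit 4307925912) (nat_lit 83) (nat_lit 3) (nat_lit 82) (nat_lit 1) (nat_lit 83) (nat_lit 1) (nat_lit 322) (nat_lit 404) (nat_lit 294)) (XT.lf (nat_lit 0) (nat_lit 9307417627) (nat_lit 0) (nat_lit 9409548081) (nat_lit 152) (nat_lit 7009269452) (nat_lit 80) (nat_lit 3) (nat_lit 80) (nat_lit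 1) (nat_lit 82) (nat_lit 1) (nat_lit 323) (nat_lit 404) (nat_lit 293))))) (XT.nd (nat_lit 234) (nat_lit 608) (nat_lit 0) (XT.nd (nat_lit 78) (nat_lit 228) (nat_lit 0) (XT.lf (nat_lit 76) (nat_lit 2701059415) (nat_lit 0) (nat_lit 19580827623) (nat_lit 76) (nat_lit 2795624651) (nat_lit 80) (nat_lit 3) (nat_lit 79) (nat_lit 1) (nat_lit 80) (nat_lit 1) (nat_lit 324) (nat_lit 404) (nat_lit 292)) (XT.nd (nat_lit 78) (nat_lit 76) (nat_lit 0) (XT.lf (nat_lit 0) (nat_lit 10093917612) (nat_lit 0) (nat_lit 10177308473) (nat_lit 152) (nat_lit 4168464740) (nat_lit 77) (nat_lit 3) (nat_lit 77) (nat_lit 1) (nat_lit 79) (nat_lit 1) (nat_lit 325) (nat_lit 404) (nat_lit 291)) (XT.lf (nat_lit 76) (nat_lit 1350421434) (nat_lit 0) (nat_lit 21046484768) (nat_lit 76) (nat_lit 1427635194) (nat_lit 77) (nat_lit 3) (nat_lit 76) (nat_lit 1) (nat_lit 77) (nat_lit 1) (nat_lit 326) (nat_lit 404) (nat_lit 290)))) (XT.nd (nat_lit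 156) (nat_lit 380) (nat_lit 0) (XT.nd (nat_lit 78) (nat_lit 76) (nat_lit 0) (XT.lf (nat_lit 0) (nat_lit 10775011282) (nat_lit 0) (nat_lit 10843101017) (nat_lit 152) (nat_lit 1599695905) (nat_lit 74) (nat_lit 3) (nat_lit 74) (nat_lit 1) (nat_lit 76) (nat_lit 1) (nat_lit 327) (nat_lit 404) (nat_lit 289)) (XT.lf (nat_lit 76) (nat_lit 129952893) (nat_lit 0) (nat_lit 22311532654) (nat_lit 76) (nat_lit 192998944) (nat_lit 74) (nat_lit 3) (nat_lit 73) (nat_lit 1) (nat_lit 74) (nat_lit 1) (nat_lit 328) (nat_lit 404) (nat_lit 288))) (XT.nd (nat_lit 78) (nat_lit 152) (nat_lit 0) (XT.lf (nat_lit 76) (nat_lit 10630023173) (nat_lit 0) (nat_lit 741095614) (nat_lit 76) (nat_lit 10685619338) (nat_lit 71) (nat_lit 3) (nat_lit 70) (nat_lit 1) (nat_lit 71) (nat_lit 1) (nat_lit 329) (nat_lit 404) (nat_lit 287)) (XT.lf (nat_lit 0) (nat_lit 935178445) (nat_lit 0) (nat_lit 984205046) (nat_lit 152) (nat_lit 19581756695)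 (nat_lit 68) (nat_lit 3) (nat_lit 68) (nat_lit 1) (nat_lit 70) (nat_lit 1) (nat_lit 330) (nat_lit 404) (nat_lit 286))))))))
noncomputable def ec197 : XT := (XT.nd (nat_lit 2106) (nat_lit 1976) (nat_lit 0) (XT.nd (nat_lit 1014) (nat_lit 1748) (nat_lit 0) (XT.nd (nat_lit 468) (nat_lit 760) (nat_lit 0) (XT.nd (nat_lit 234) (nat_lit 380) (nat_lit 0) (XT.nd (nat_lit 78) (nat_lit 228) (nat_lit 0) (XT.lf (nat_lit 76) (nat_lit 9006541991) (nat_lit 0) (nat_lit 2894374310) (nat_lit 76) (nat_lit 9051936992) (nat_lit 68) (nat_lit 3) (nat_lit 67) (nat_lit 1) (nat_lit 68) (nat_lit 1) (nat_lit 331) (nat_lit 404) (nat_lit 285)) (XT.nd (nat_lit 78) (nat_lit 76) (nat_lit 0) (XT.lf (nat_lit 0) (nat_lit 1949018007) (nat_lit 0) (nat_lit 1989048872) (nat_lit 152) (nat_lit 16486290896) (nat_lit 65) (nat_lit 3) (nat_lit 65) (nat_lit 1) (nat_lit 67) (nat_lit 1) (nat_lit 332) (nat_lit 404) (nat_lit 284)) (XT.lf (nat_lit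 76) (nat_lit 7520936078) (nat_lit 0) (nat_lit 4825546761) (nat_lit 76) (nat_lit 7558001694) (nat_lit 65) (nat_lit 3) (nat_lit 64) (nat_lit 1) (nat_lit 65) (nat_lit 1) (nat_lit 333) (nat_lit 404) (nat_lit 283)))) (XT.nd (nat_lit 78) (nat_lit 228) (nat_lit 0) (XT.lf (nat_lit 0) (nat_lit 2856316618) (nat_lit 0) (nat_lit 2889002346) (nat_lit 152) (nat_lit 13656444896) (nat_lit 62) (nat_lit 3) (nat_lit 62) (nat_lit 1) (nat_lit 64) (nat_lit 1) (nat_lit 334) (nat_lit 404) (nat_lit 282)) (XT.nd (nat_lit 78) (nat_lit 152) (nat_lit 0) (XT.lf (nat_lit 76) (nat_lit 6163439828) (nat_lit 0) (nat_lit 6551679505) (nat_lit 76) (nat_lit 6193704391) (nat_lit 62) (nat_lit 3) (nat_lit 61) (nat_lit 1) (nat_lit 62) (nat_lit 1) (nat_lit 335) (nat_lit 404) (nat_lit 281)) (XT.lf (nat_lit 0) (nat_lit 3665391102) (nat_lit 0) (nat_lit 3692079429) (nat_lit 152) (nat_lit 11073145334) (nat_lit 59) (nat_lit 3) (nat_lit 59) (nat_lit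 1) (nat_lit 61) (nat_lit 1) (nat_lit 336) (nat_lit 404) (nat_lit 280))))) (XT.nd (nat_lit 234) (nat_lit 456) (nat_lit 0) (XT.nd (nat_lit 78) (nat_lit 228) (nat_lit 0) (XT.lf (nat_lit 76) (nat_lit 4924906334) (nat_lit 0) (nat_lit 8088681924) (nat_lit 76) (nat_lit 4949617748) (nat_lit 59) (nat_lit 3) (nat_lit 58) (nat_lit 1) (nat_lit 59) (nat_lit 1) (nat_lit 337) (nat_lit 404) (nat_lit 279)) (XT.nd (nat_lit 78) (nat_lit 76) (nat_lit 0) (XT.lf (nat_lit 0) (nat_lit 4383975093) (nat_lit 0) (nat_lit 4405766463) (nat_lit 152) (nat_lit 8718569613) (nat_lit 56) (nat_lit 3) (nat_lit 56) (nat_lit 1) (nat_lit 58) (nat_lit 1) (nat_lit 338) (nat_lit 404) (nat_lit 278)) (XT.lf (nat_lit 76) (nat_lit 3796773481) (nat_lit 0) (nat_lit 9451378183) (nat_lit 76) (nat_lit 3816950676) (nat_lit 56) (nat_lit 3) (nat_lit 55) (nat_lit 1) (nat_lit 56) (nat_lit 1) (nat_lit 339) (nat_lit 404) (nat_lit 277)))) (XT.nd (nat_lit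 156) (nat_lit 228) (nat_lit 0) (XT.nd (nat_lit 78) (nat_lit 76) (nat_lit 0) (XT.lf (nat_lit 0) (nat_lit 5019258792) (nat_lit 0) (nat_lit 5037051733) (nat_lit 152) (nat_lit 6576069320) (nat_lit 53) (nat_lit 3) (nat_lit 53) (nat_lit 1) (nat_lit 55) (nat_lit 1) (nat_lit 340) (nat_lit 404) (nat_lit 276)) (XT.lf (nat_lit 76) (nat_lit 2771031162) (nat_lit 0) (nat_lit 10653575197) (nat_lit 76) (nat_lit 2787506107) (nat_lit 53) (nat_lit 3) (nat_lit 52) (nat_lit 1) (nat_lit 53) (nat_lit 1) (nat_lit 341) (nat_lit 404) (nat_lit 275))) (XT.nd (nat_lit 78) (nat_lit 76) (nat_lit 0) (XT.lf (nat_lit 0) (nat_lit 5577925862) (nat_lit 0) (nat_lit 5592454032) (nat_lit 152) (nat_lit 4630097892) (nat_lit 50) (nat_lit 3) (nat_lit 50) (nat_lit 1) (nat_lit 52) (nat_lit 1) (nat_lit 342) (nat_lit 404) (nat_lit 274)) (XT.lf (nat_lit 76) (nat_lit 1840189740) (nat_lit 0) (nat_lit 11708126765) (nat_lit 76) (nat_lit 1853641749)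 (nat_lit 50) (nat_lit 3) (nat_lit 49) (nat_lit 1) (nat_lit 50) (nat_lit 1) (nat_lit 343) (nat_lit 404) (nat_lit 273)))))) (XT.nd (nat_lit 546) (nat_lit 836) (nat_lit 0) (XT.nd (nat_lit 234) (nat_lit 532) (nat_lit 0) (XT.nd (nat_lit 78) (nat_lit 228) (nat_lit 0) (XT.lf (nat_lit 0) (nat_lit 6066187698) (nat_lit 0) (nat_lit 6078050140) (nat_lit 152) (nat_lit 2866142377) (nat_lit 47) (nat_lit 3) (nat_lit 47) (nat_lit 1) (nat_lit 49) (nat_lit 1) (nat_lit 344) (nat_lit 404) (nat_lit 272)) (XT.nd (nat_lit 78) (nat_lit 152) (nat_lit 0) (XT.lf (nat_lit 76) (nat_lit 997249805) (nat_lit 0) (nat_lit 12626994054) (nat_lit 76) (nat_lit 1008233548) (nat_lit 47) (nat_lit 3) (nat_lit 46) (nat_lit 1) (nat_lit 47) (nat_lit 1) (nat_lit 345) (nat_lit 404) (nat_lit 271)) (XT.lf (nat_lit 0) (nat_lit 6489815296) (nat_lit 0) (nat_lit 6499501136) (nat_lit 152) (nat_lit 1270659089) (nat_lit 44) (nat_lit 3) (nat_lit 44)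 (nat_lit 1) (nat_lit 46) (nat_lit 1) (nat_lit 346) (nat_lit 404) (nat_lit 270)))) (XT.nd (nat_lit 156) (nat_lit 228) (nat_lit 0) (XT.nd (nat_lit 78) (nat_lit 228) (nat_lit 0) (XT.lf (nat_lit 76) (nat_lit 235673279) (nat_lit 0) (nat_lit 13421302565) (nat_lit 76) (nat_lit 244641649) (nat_lit 44) (nat_lit 3) (nat_lit 43) (nat_lit 1) (nat_lit 44) (nat_lit 1) (nat_lit 347) (nat_lit 404) (nat_lit 269)) (XT.lf (nat_lit 76) (nat_lit 6682320031) (nat_lit 0) (nat_lit 174574487) (nat_lit 76) (nat_lit 6690228647) (nat_lit 41) (nat_lit 3) (nat_lit 40) (nat_lit 1) (nat_lit 41) (nat_lit 1) (nat_lit 348) (nat_lit 404) (nat_lit 268))) (XT.nd (nat_lit 78) (nat_lit 76) (nat_lit 0) (XT.lf (nat_lit 0) (nat_lit 450823270) (nat_lit 0) (nat_lit 457797358) (nat_lit 152) (nat_lit 12297379057) (nat_lit 38) (nat_lit 3) (nat_lit 38) (nat_lit 1) (nat_lit 40) (nat_lit 1) (nat_lit 349) (nat_lit 404) (nat_lit 267)) (XT.lf (nat_lit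 76) (nat_lit 5674842968) (nat_lit 0) (nat_lit 1513005024) (nat_lit 76) (nat_lit 5681300457) (nat_lit 38) (nat_lit 3) (nat_lit 37) (nat_lit 1) (nat_lit 38) (nat_lit 1) (nat_lit 350) (nat_lit 404) (nat_lit 266))))) (XT.nd (nat_lit 234) (nat_lit 456) (nat_lit 0) (XT.nd (nat_lit 78) (nat_lit 228) (nat_lit 0) (XT.lf (nat_lit 0) (nat_lit 1079011632) (nat_lit 0) (nat_lit 1084706066) (nat_lit 152) (nat_lit 10380942052) (nat_lit 35) (nat_lit 3) (nat_lit 35) (nat_lit 1) (nat_lit 37) (nat_lit 1) (nat_lit 351) (nat_lit 404) (nat_lit 265)) (XT.nd (nat_lit 78) (nat_lit 152) (nat_lit 0) (XT.lf (nat_lit 76) (nat_lit 4753010557) (nat_lit 0) (nat_lit 2713967680) (nat_lit 76) (nat_lit 4758283182) (nat_lit 35) (nat_lit 3) (nat_lit 34) (nat_lit 1) (nat_lit 35) (nat_lit 1) (nat_lit 352) (nat_lit 404) (nat_lit 264)) (XT.lf (nat_lit 0) (nat_lit 1641655548) (nat_lit 0) (nat_lit 1646305129) (nat_lit 152) (nat_lit 8628633053)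 (nat_lit 32) (nat_lit 3) (nat_lit 32) (nat_lit 1) (nat_lit 34) (nat_lit 1) (nat_lit 353) (nat_lit 404) (nat_lit 263)))) (XT.nd (nat_lit 156) (nat_lit 228) (nat_lit 0) (XT.nd (nat_lit 78) (nat_lit 152) (nat_lit 0) (XT.lf (nat_lit 76) (nat_lit 3910697576) (nat_lit 0) (nat_lit 3788039340) (nat_lit 76) (nat_lit 3915002744) (nat_lit 32) (nat_lit 3) (nat_lit 31) (nat_lit 1) (nat_lit 32) (nat_lit 1) (nat_lit 354) (nat_lit 404) (nat_lit 262)) (XT.lf (nat_lit 0) (nat_lit 2143835510) (nat_lit 0) (nat_lit 2147631954) (nat_lit 152) (nat_lit 7028651719) (nat_lit 29) (nat_lit 3) (nat_lit 29) (nat_lit 1) (nat_lit 31) (nat_lit 1) (nat_lit 355) (nat_lit 404) (nat_lit 261))) (XT.nd (nat_lit 78) (nat_lit 152) (nat_lit 0) (XT.lf (nat_lit 76) (nat_lit 3142179537) (nat_lit 0) (nat_lit 4745073982) (nat_lit 76) (nat_lit 3145694763) (nat_lit 29) (nat_lit 3) (nat_lit 28) (nat_lit 1) (nat_lit 29) (nat_lit 1) (nat_lit 356)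 (nat_lit 404) (nat_lit 260)) (XT.lf (nat_lit 0) (nat_lit 2590281397) (nat_lit 0) (nat_lit 2593381243) (nat_lit 152) (nat_lit 5569976584) (nat_lit 26) (nat_lit 3) (nat_lit 26) (nat_lit 1) (nat_lit 28) (nat_lit 1) (nat_lit 357) (nat_lit 404) (nat_lit 259))))))) (XT.nd (nat_lit 1014) (nat_lit 380) (nat_lit 0) (XT.nd (nat_lit 468) (nat_lit 912) (nat_lit 0) (XT.nd (nat_lit 234) (nat_lit 380) (nat_lit 0) (XT.nd (nat_lit 78) (nat_lit 228) (nat_lit 0) (XT.lf (nat_lit 76) (nat_lit 2442108196) (nat_lit 0) (nat_lit 5594248822) (nat_lit 76) (nat_lit 2444978424) (nat_lit 26) (nat_lit 3) (nat_lit 25) (nat_lit 1) (nat_lit 26) (nat_lit 1) (nat_lit 358) (nat_lit 404) (nat_lit 258)) (XT.nd (nat_lit 78) (nat_lit 76) (nat_lit 0) (XT.lf (nat_lit 0) (nat_lit 2985395368) (nat_lit 0) (nat_lit 2987926434) (nat_lit 152) (nat_lit 4242316328) (nat_lit 23) (nat_lit 3) (nat_lit 23) (nat_lit 1) (nat_lit 25) (nat_lit 1) (nat_lit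 359) (nat_lit 404) (nat_lit 257)) (XT.lf (nat_lit 76) (nat_lit 1805488419) (nat_lit 0) (nat_lit 6344107676) (nat_lit 76) (nat_lit 1807831998) (nat_lit 23) (nat_lit 3) (nat_lit 22) (nat_lit 1) (nat_lit 23) (nat_lit 1) (nat_lit 360) (nat_lit 404) (nat_lit 256)))) (XT.nd (nat_lit 78) (nat_lit 228) (nat_lit 0) (XT.lf (nat_lit 0) (nat_lit 3333273291) (nat_lit 0) (nat_lit 3335339939) (nat_lit 152) (nat_lit 3036063961) (nat_lit 20) (nat_lit 3) (nat_lit 20) (nat_lit 1) (nat_lit 22) (nat_lit 1) (nat_lit 361) (nat_lit 404) (nat_lit 255)) (XT.nd (nat_lit 78) (nat_lit 152) (nat_lit 0) (XT.lf (nat_lit 76) (nat_lit 1227656353) (nat_lit 0) (nat_lit 7002601685) (nat_lit 76) (nat_lit 1229569916) (nat_lit 20) (nat_lit 3) (nat_lit 19) (nat_lit 1) (nat_lit 20) (nat_lit 1) (nat_lit 362) (nat_lit 404) (nat_lit 254)) (XT.lf (nat_lit 0) (nat_lit 3637724781) (nat_lit 0) (nat_lit 3639412227) (nat_lit 152) (nat_lit 1942253759)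 (nat_lit 17) (nat_lit 3) (nat_lit 17) (nat_lit 1) (nat_lit 19) (nat_lit 1) (nat_lit 363) (nat_lit 404) (nat_lit 253))))) (XT.nd (nat_lit 234) (nat_lit 608) (nat_lit 0) (XT.nd (nat_lit 78) (nat_lit 228) (nat_lit 0) (XT.lf (nat_lit 76) (nat_lit 704258837) (nat_lit 0) (nat_lit 7577127562) (nat_lit 76) (nat_lit 705821286) (nat_lit 17) (nat_lit 3) (nat_lit 16) (nat_lit 1) (nat_lit 17) (nat_lit 1) (nat_lit 364) (nat_lit 404) (nat_lit 252)) (XT.nd (nat_lit 78) (nat_lit 76) (nat_lit 0) (XT.lf (nat_lit 0) (nat_lit 3902291969) (nat_lit 0) (nat_lit 3903669790) (nat_lit 152) (nat_lit 952520791) (nat_lit 14) (nat_lit 3) (nat_lit 14) (nat_lit 1) (nat_lit 16) (nat_lit 1) (nat_lit 365) (nat_lit 404) (nat_lit 251)) (XT.lf (nat_lit 76) (nat_lit 231234008) (nat_lit 0) (nat_lit 8074563497) (nat_lit 76) (nat_lit 232509768) (nat_lit 14) (nat_lit 3) (nat_lit 13) (nat_lit 1) (nat_lit 14) (nat_lit 1) (nat_lit 366) (nat_lit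 404) (nat_lit 250)))) (XT.nd (nat_lit 156) (nat_lit 228) (nat_lit 0) (XT.nd (nat_lit 78) (nat_lit 228) (nat_lit 0) (XT.lf (nat_lit 0) (nat_lit 4130267059) (nat_lit 0) (nat_lit 4131392068) (nat_lit 152) (nat_lit 59062898) (nat_lit 11) (nat_lit 3) (nat_lit 11) (nat_lit 1) (nat_lit 13) (nat_lit 1) (nat_lit 367) (nat_lit 404) (nat_lit 249)) (XT.lf (nat_lit 0) (nat_lit 197381672) (nat_lit 0) (nat_lit 198373744) (nat_lit 152) (nat_lit 7715552052) (nat_lit 8) (nat_lit 3) (nat_lit 8) (nat_lit 1) (nat_lit 10) (nat_lit 1) (nat_lit 368) (nat_lit 404) (nat_lit 248))) (XT.nd (nat_lit 78) (nat_lit 152) (nat_lit 0) (XT.lf (nat_lit 76) (nat_lit 3566690127) (nat_lit 0) (nat_lit 770041149) (nat_lit 76) (nat_lit 3567608712) (nat_lit 8) (nat_lit 3) (nat_lit 7) (nat_lit 1) (nat_lit 8) (nat_lit 1) (nat_lit 369) (nat_lit 404) (nat_lit 247)) (XT.lf (nat_lit 0) (nat_lit 587245035) (nat_lit 0) (nat_lit 588055075) (nat_lit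 152) (nat_lit 6529791496) (nat_lit 5) (nat_lit 3) (nat_lit 5) (nat_lit 1) (nat_lit 7) (nat_lit 1) (nat_lit 370) (nat_lit 404) (nat_lit 246)))))) (XT.nd (nat_lit 546) (nat_lit 0) (nat_lit 0) (XT.nd (nat_lit 234) (nat_lit 76) (nat_lit 0) (XT.nd (nat_lit 78) (nat_lit 228) (nat_lit 0) (XT.lf (nat_lit 76) (nat_lit 2995968079) (nat_lit 0) (nat_lit 1516161200) (nat_lit 76) (nat_lit 2996718115) (nat_lit 5) (nat_lit 3) (nat_lit 4) (nat_lit 1) (nat_lit 5) (nat_lit 1) (nat_lit 371) (nat_lit 404) (nat_lit 245)) (XT.nd (nat_lit 78) (nat_lit 76) (nat_lit 0) (XT.lf (nat_lit 0) (nat_lit 936664612) (nat_lit 0) (nat_lit 937326020) (nat_lit 152) (nat_lit 5445322668) (nat_lit 2) (nat_lit 3) (nat_lit 2) (nat_lit 1) (nat_lit 4) (nat_lit 1) (nat_lit 372) (nat_lit 404) (nat_lit 244)) (XT.lf (nat_lit 76) (nat_lit 2474374420) (nat_lit 0) (nat_lit 2183872910) (nat_lit 76) (nat_lit 2474986835) (nat_lit 2) (nat_lit 3) (nat_lit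 1) (nat_lit 1) (nat_lit 2) (nat_lit 1) (nat_lit 373) (nat_lit 404) (nat_lit 243)))) (XT.nd (nat_lit 156) (nat_lit 0) (nat_lit 0) (XT.nd (nat_lit 78) (nat_lit 0) (nat_lit 0) (XT.lf (nat_lit 0) (nat_lit 147918295157) (nat_lit 0) (nat_lit 0) (nat_lit 0) (nat_lit 0) (nat_lit 0) (nat_lit 0) (nat_lit 1) (nat_lit 0) (nat_lit 1) (nat_lit 0) (nat_lit 374) (nat_lit 404) (nat_lit 242)) (XT.lf (nat_lit 0) (nat_lit 147918252984) (nat_lit 0) (nat_lit 0) (nat_lit 0) (nat_lit 0) (nat_lit 0) (nat_lit 0) (nat_lit 1) (nat_lit 0) (nat_lit 1) (nat_lit 0) (nat_lit 375) (nat_lit 404) (nat_lit 241))) (XT.nd (nat_lit 78) (nat_lit 0) (nat_lit 0) (XT.lf (nat_lit 0) (nat_lit 147918213935) (nat_lit 0) (nat_lit 0) (nat_lit 0) (nat_lit 0) (nat_lit 0) (nat_lit 0) (nat_lit 1) (nat_lit 0) (nat_lit 1) (nat_lit 0) (nat_lit 376) (nat_lit 404) (nat_lit 240)) (XT.lf (nat_lit 0) (nat_lit 147918177778) (nat_lit 0) (nat_lit 0) (nat_lit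 0) (nat_lit 0) (nat_lit 0) (nat_lit 0) (nat_lit 1) (nat_lit 0) (nat_lit 1) (nat_lit 0) (nat_lit 377) (nat_lit 404) (nat_lit 239))))) (XT.nd (nat_lit 234) (nat_lit 0) (nat_lit 0) (XT.nd (nat_lit 78) (nat_lit 0) (nat_lit 0) (XT.lf (nat_lit 0) (nat_lit 147918144299) (nat_lit 0) (nat_lit 0) (nat_lit 0) (nat_lit 0) (nat_lit 0) (nat_lit 0) (nat_lit 1) (nat_lit 0) (nat_lit 1) (nat_lit 0) (nat_lit 378) (nat_lit 404) (nat_lit 238)) (XT.nd (nat_lit 78) (nat_lit 0) (nat_lit 0) (XT.lf (nat_lit 0) (nat_lit 147918113301) (nat_lit 0) (nat_lit 0) (nat_lit 0) (nat_lit 0) (nat_lit 0) (nat_lit 0) (nat_lit 1) (nat_lit 0) (nat_lit 1) (nat_lit 0) (nat_lit 379) (nat_lit 404) (nat_lit 237)) (XT.lf (nat_lit 0) (nat_lit 147918084598) (nat_lit 0) (nat_lit 0) (nat_lit 0) (nat_lit 0) (nat_lit 0) (nat_lit 0) (nat_lit 1) (nat_lit 0) (nat_lit 1) (nat_lit 0) (nat_lit 380) (nat_lit 404) (nat_lit 236)))) (XT.nd (nat_lit 156) (nat_lit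 0) (nat_lit 0) (XT.nd (nat_lit 78) (nat_lit 0) (nat_lit 0) (XT.lf (nat_lit 0) (nat_lit 147918058022) (nat_lit 0) (nat_lit 0) (nat_lit 0) (nat_lit 0) (nat_lit 0) (nat_lit 0) (nat_lit 1) (nat_lit 0) (nat_lit 1) (nat_lit 0) (nat_lit 381) (nat_lit 404) (nat_lit 235)) (XT.lf (nat_lit 0) (nat_lit 147918033414) (nat_lit 0) (nat_lit 0) (nat_lit 0) (nat_lit 0) (nat_lit 0) (nat_lit 0) (nat_lit 1) (nat_lit 0) (nat_lit 1) (nat_lit 0) (nat_lit 382) (nat_lit 404) (nat_lit 234))) (XT.nd (nat_lit 78) (nat_lit 0) (nat_lit 0) (XT.lf (nat_lit 0) (nat_lit 147918010629) (nat_lit 0) (nat_lit 0) (nat_lit 0) (nat_lit 0) (nat_lit 0) (nat_lit 0) (nat_lit 1) (nat_lit 0) (nat_lit 1) (nat_lit 0) (nat_lit 383) (nat_lit 404) (nat_lit 233)) (XT.lf (nat_lit 0) (nat_lit 147917989532) (nat_lit 0) (nat_lit 0) (nat_lit 0) (nat_lit 0) (nat_lit 0) (nat_lit 0) (nat_lit 1) (nat_lit 0) (nat_lit 1) (nat_lit 0) (nat_lit 384) (nat_lit 404)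 (nat_lit 232))))))))
noncomputable def ec198 : XT := (XT.nd (nat_lit 2028) (nat_lit 0) (nat_lit 0) (XT.nd (nat_lit 1014) (nat_lit 0) (nat_lit 0) (XT.nd (nat_lit 468) (nat_lit 0) (nat_lit 0) (XT.nd (nat_lit 234) (nat_lit 0) (nat_lit 0) (XT.nd (nat_lit 78) (nat_lit 0) (nat_lit 0) (XT.lf (nat_lit 0) (nat_lit 147917969998) (nat_lit 0) (nat_lit 0) (nat_lit 0) (nat_lit 0) (nat_lit 0) (nat_lit 0) (nat_lit 1) (nat_lit 0) (nat_lit 1) (nat_lit 0) (nat_lit 385) (nat_lit 404) (nat_lit 231)) (XT.nd (nat_lit 78) (nat_lit 0) (nat_lit 0) (XT.lf (nat_lit 0) (nat_lit 147917951910) (nat_lit 0) (nat_lit 0) (nat_lit 0) (nat_lit 0) (nat_lit 0) (nat_lit 0) (nat_lit 1) (nat_lit 0) (nat_lit 1) (nat_lit 0) (nat_lit 386) (nat_lit 404) (nat_lit 230)) (XT.lf (nat_lit 0) (nat_lit 147917935162) (nat_lit 0) (nat_lit 0) (nat_lit 0) (nat_lit 0) (nat_lit 0) (nat_lit 0) (nat_lit 1) (nat_lit 0) (nat_lit 1) (nat_lit 0) (nat_lit 387)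 (nat_lit 404) (nat_lit 229)))) (XT.nd (nat_lit 78) (nat_lit 0) (nat_lit 0) (XT.lf (nat_lit 0) (nat_lit 147917919655) (nat_lit 0) (nat_lit 0) (nat_lit 0) (nat_lit 0) (nat_lit 0) (nat_lit 0) (nat_lit 1) (nat_lit 0) (nat_lit 1) (nat_lit 0) (nat_lit 388) (nat_lit 404) (nat_lit 228)) (XT.nd (nat_lit 78) (nat_lit 0) (nat_lit 0) (XT.lf (nat_lit 0) (nat_lit 147917905297) (nat_lit 0) (nat_lit 0) (nat_lit 0) (nat_lit 0) (nat_lit 0) (nat_lit 0) (nat_lit 1) (nat_lit 0) (nat_lit 1) (nat_lit 0) (nat_lit 389) (nat_lit 404) (nat_lit 227)) (XT.lf (nat_lit 0) (nat_lit 147917892002) (nat_lit 0) (nat_lit 0) (nat_lit 0) (nat_lit 0) (nat_lit 0) (nat_lit 0) (nat_lit 1) (nat_lit 0) (nat_lit 1) (nat_lit 0) (nat_lit 390) (nat_lit 404) (nat_lit 226))))) (XT.nd (nat_lit 234) (nat_lit 0) (nat_lit 0) (XT.nd (nat_lit 78) (nat_lit 0) (nat_lit 0) (XT.lf (nat_lit 0) (nat_lit 147917879692) (nat_lit 0) (nat_lit 0) (nat_lit 0) (nat_lit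 0) (nat_lit 0) (nat_lit 0) (nat_lit 1) (nat_lit 0) (nat_lit 1) (nat_lit 0) (nat_lit 391) (nat_lit 404) (nat_lit 225)) (XT.nd (nat_lit 78) (nat_lit 0) (nat_lit 0) (XT.lf (nat_lit 0) (nat_lit 147917868294) (nat_lit 0) (nat_lit 0) (nat_lit 0) (nat_lit 0) (nat_lit 0) (nat_lit 0) (nat_lit 1) (nat_lit 0) (nat_lit 1) (nat_lit 0) (nat_lit 392) (nat_lit 404) (nat_lit 224)) (XT.lf (nat_lit 0) (nat_lit 147917857740) (nat_lit 0) (nat_lit 0) (nat_lit 0) (nat_lit 0) (nat_lit 0) (nat_lit 0) (nat_lit 1) (nat_lit 0) (nat_lit 1) (nat_lit 0) (nat_lit 393) (nat_lit 404) (nat_lit 223)))) (XT.nd (nat_lit 156) (nat_lit 0) (nat_lit 0) (XT.nd (nat_lit 78) (nat_lit 0) (nat_lit 0) (XT.lf (nat_lit 0) (nat_lit 147917847968) (nat_lit 0) (nat_lit 0) (nat_lit 0) (nat_lit 0) (nat_lit 0) (nat_lit 0) (nat_lit 1) (nat_lit 0) (nat_lit 1) (nat_lit 0) (nat_lit 394) (nat_lit 404) (nat_lit 222)) (XT.lf (nat_lit 0) (nat_lit 147917838920)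 (nat_lit 0) (nat_lit 0) (nat_lit 0) (nat_lit 0) (nat_lit 0) (nat_lit 0) (nat_lit 1) (nat_lit 0) (nat_lit 1) (nat_lit 0) (nat_lit 395) (nat_lit 404) (nat_lit 221))) (XT.nd (nat_lit 78) (nat_lit 0) (nat_lit 0) (XT.lf (nat_lit 0) (nat_lit 147917830542) (nat_lit 0) (nat_lit 0) (nat_lit 0) (nat_lit 0) (nat_lit 0) (nat_lit 0) (nat_lit 1) (nat_lit 0) (nat_lit 1) (nat_lit 0) (nat_lit 396) (nat_lit 404) (nat_lit 220)) (XT.lf (nat_lit 0) (nat_lit 147917822785) (nat_lit 0) (nat_lit 0) (nat_lit 0) (nat_lit 0) (nat_lit 0) (nat_lit 0) (nat_lit 1) (nat_lit 0) (nat_lit 1) (nat_lit 0) (nat_lit 397) (nat_lit 404) (nat_lit 219)))))) (XT.nd (nat_lit 468) (nat_lit 0) (nat_lit 0) (XT.nd (nat_lit 234) (nat_lit 0) (nat_lit 0) (XT.nd (nat_lit 78) (nat_lit 0) (nat_lit 0) (XT.lf (nat_lit 0) (nat_lit 147917815602) (nat_lit 0) (nat_lit 0) (nat_lit 0) (nat_lit 0) (nat_lit 0) (nat_lit 0) (nat_lit 1) (nat_lit 0) (nat_lit 1)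 (nat_lit 0) (nat_lit 398) (nat_lit 404) (nat_lit 218)) (XT.nd (nat_lit 78) (nat_lit 0) (nat_lit 0) (XT.lf (nat_lit 0) (nat_lit 147917808951) (nat_lit 0) (nat_lit 0) (nat_lit 0) (nat_lit 0) (nat_lit 0) (nat_lit 0) (nat_lit 1) (nat_lit 0) (nat_lit 1) (nat_lit 0) (nat_lit 399) (nat_lit 404) (nat_lit 217)) (XT.lf (nat_lit 0) (nat_lit 147917802793) (nat_lit 0) (nat_lit 0) (nat_lit 0) (nat_lit 0) (nat_lit 0) (nat_lit 0) (nat_lit 1) (nat_lit 0) (nat_lit 1) (nat_lit 0) (nat_lit 400) (nat_lit 404) (nat_lit 216)))) (XT.nd (nat_lit 78) (nat_lit 0) (nat_lit 0) (XT.lf (nat_lit 0) (nat_lit 147917797091) (nat_lit 0) (nat_lit 0) (nat_lit 0) (nat_lit 0) (nat_lit 0) (nat_lit 0) (nat_lit 1) (nat_lit 0) (nat_lit 1) (nat_lit 0) (nat_lit 401) (nat_lit 404) (nat_lit 215)) (XT.nd (nat_lit 78) (nat_lit 0) (nat_lit 0) (XT.lf (nat_lit 0) (nat_lit 147917791812) (nat_lit 0) (nat_lit 0) (nat_lit 0) (nat_lit 0) (nat_lit 0)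 (nat_lit 0) (nat_lit 1) (nat_lit 0) (nat_lit 1) (nat_lit 0) (nat_lit 402) (nat_lit 404) (nat_lit 214)) (XT.lf (nat_lit 0) (nat_lit 147917786923) (nat_lit 0) (nat_lit 0) (nat_lit 0) (nat_lit 0) (nat_lit 0) (nat_lit 0) (nat_lit 1) (nat_lit 0) (nat_lit 1) (nat_lit 0) (nat_lit 403) (nat_lit 404) (nat_lit 213))))) (XT.nd (nat_lit 234) (nat_lit 0) (nat_lit 0) (XT.nd (nat_lit 78) (nat_lit 0) (nat_lit 0) (XT.lf (nat_lit 0) (nat_lit 147917782397) (nat_lit 0) (nat_lit 0) (nat_lit 0) (nat_lit 0) (nat_lit 0) (nat_lit 0) (nat_lit 1) (nat_lit 0) (nat_lit 1) (nat_lit 0) (nat_lit 404) (nat_lit 404) (nat_lit 212)) (XT.nd (nat_lit 78) (nat_lit 0) (nat_lit 0) (XT.lf (nat_lit 0) (nat_lit 147917778206) (nat_lit 0) (nat_lit 0) (nat_lit 0) (nat_lit 0) (nat_lit 0) (nat_lit 0) (nat_lit 1) (nat_lit 0) (nat_lit 1) (nat_lit 0) (nat_lit 405) (nat_lit 404) (nat_lit 211)) (XT.lf (nat_lit 0) (nat_lit 147917774325) (nat_lit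 0) (nat_lit 0) (nat_lit 0) (nat_lit 0) (nat_lit 0) (nat_lit 0) (nat_lit 1) (nat_lit 0) (nat_lit 1) (nat_lit 0) (nat_lit 406) (nat_lit 404) (nat_lit 210)))) (XT.nd (nat_lit 156) (nat_lit 0) (nat_lit 0) (XT.nd (nat_lit 78) (nat_lit 0) (nat_lit 0) (XT.lf (nat_lit 0) (nat_lit 147917770732) (nat_lit 0) (nat_lit 0) (nat_lit 0) (nat_lit 0) (nat_lit 0) (nat_lit 0) (nat_lit 1) (nat_lit 0) (nat_lit 1) (nat_lit 0) (nat_lit 407) (nat_lit 404) (nat_lit 209)) (XT.lf (nat_lit 0) (nat_lit 147917767405) (nat_lit 0) (nat_lit 0) (nat_lit 0) (nat_lit 0) (nat_lit 0) (nat_lit 0) (nat_lit 1) (nat_lit 0) (nat_lit 1) (nat_lit 0) (nat_lit 408) (nat_lit 404) (nat_lit 208))) (XT.nd (nat_lit 78) (nat_lit 0) (nat_lit 0) (XT.lf (nat_lit 0) (nat_lit 147917764324) (nat_lit 0) (nat_lit 0) (nat_lit 0) (nat_lit 0) (nat_lit 0) (nat_lit 0) (nat_lit 1) (nat_lit 0) (nat_lit 1) (nat_lit 0) (nat_lit 409) (nat_lit 404) (nat_lit 207))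 (XT.lf (nat_lit 0) (nat_lit 147917761472) (nat_lit 0) (nat_lit 0) (nat_lit 0) (nat_lit 0) (nat_lit 0) (nat_lit 0) (nat_lit 1) (nat_lit 0) (nat_lit 1) (nat_lit 0) (nat_lit 410) (nat_lit 404) (nat_lit 206))))))) (XT.nd (nat_lit 38064) (nat_lit 0) (nat_lit 17632) (XT.nd (nat_lit 37518) (nat_lit 0) (nat_lit 21812) (XT.nd (nat_lit 234) (nat_lit 0) (nat_lit 0) (XT.nd (nat_lit 78) (nat_lit 0) (nat_lit 0) (XT.lf (nat_lit 0) (nat_lit 147917758831) (nat_lit 0) (nat_lit 0) (nat_lit 0) (nat_lit 0) (nat_lit 0) (nat_lit 0) (nat_lit 1) (nat_lit 0) (nat_lit 1) (nat_lit 0) (nat_lit 411) (nat_lit 404) (nat_lit 205)) (XT.nd (nat_lit 78) (nat_lit 0) (nat_lit 0) (XT.lf (nat_lit 0) (nat_lit 147917756385) (nat_lit 0) (nat_lit 0) (nat_lit 0) (nat_lit 0) (nat_lit 0) (nat_lit 0) (nat_lit 1) (nat_lit 0) (nat_lit 1) (nat_lit 0) (nat_lit 412) (nat_lit 404) (nat_lit 204)) (XT.lf (nat_lit 0) (nat_lit 147917754121) (nat_lit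 0) (nat_lit 0) (nat_lit 0) (nat_lit 0) (nat_lit 0) (nat_lit 0) (nat_lit 1) (nat_lit 0) (nat_lit 1) (nat_lit 0) (nat_lit 413) (nat_lit 404) (nat_lit 203)))) (XT.nd (nat_lit 78) (nat_lit 0) (nat_lit 0) (XT.lf (nat_lit 0) (nat_lit 147917752025) (nat_lit 0) (nat_lit 0) (nat_lit 0) (nat_lit 0) (nat_lit 0) (nat_lit 0) (nat_lit 1) (nat_lit 0) (nat_lit 1) (nat_lit 0) (nat_lit 414) (nat_lit 404) (nat_lit 202)) (XT.nd (nat_lit 37128) (nat_lit 0) (nat_lit 22192) (XT.lf (nat_lit 0) (nat_lit 147917750083) (nat_lit 0) (nat_lit 0) (nat_lit 0) (nat_lit 0) (nat_lit 0) (nat_lit 0) (nat_lit 1) (nat_lit 0) (nat_lit 1) (nat_lit 0) (nat_lit 415) (nat_lit 404) (nat_lit 201)) (XT.lf (nat_lit 836) (nat_lit 79945456293) (nat_lit 0) (nat_lit 141942973887) (nat_lit 836) (nat_lit 79945456293) (nat_lit 303) (nat_lit 1) (nat_lit 292) (nat_lit 0) (nat_lit 303) (nat_lit 0) (nat_lit 210) (nat_lit 405) (nat_lit 405))))) (XT.nd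 (nat_lit 234) (nat_lit 456) (nat_lit 0) (XT.nd (nat_lit 78) (nat_lit 0) (nat_lit 0) (XT.lf (nat_lit 836) (nat_lit 29822108254) (nat_lit 0) (nat_lit 278677077288) (nat_lit 760) (nat_lit 272545250548) (nat_lit 304) (nat_lit 1) (nat_lit 293) (nat_lit 1) (nat_lit 303) (nat_lit 1) (nat_lit 211) (nat_lit 405) (nat_lit 404)) (XT.nd (nat_lit 78) (nat_lit 0) (nat_lit 76) (XT.lf (nat_lit 836) (nat_lit 273898850751) (nat_lit 76) (nat_lit 186630132595) (nat_lit 0) (nat_lit 98980108989) (nat_lit 304) (nat_lit 1) (nat_lit 294) (nat_lit 1) (nat_lit 293) (nat_lit 1) (nat_lit 212) (nat_lit 405) (nat_lit 403)) (XT.lf (nat_lit 836) (nat_lit 236671045165) (nat_lit 76) (nat_lit 78215394973) (nat_lit 0) (nat_lit 224164991667) (nat_lit 305) (nat_lit 1) (nat_lit 295) (nat_lit 1) (nat_lit 294) (nat_lit 1) (nat_lit 213) (nat_lit 405) (nat_lit 402)))) (XT.nd (nat_lit 156) (nat_lit 608) (nat_lit 0) (XT.nd (nat_lit 78) (nat_lit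 0) (nat_lit 76) (XT.lf (nat_lit 836) (nat_lit 175156694496) (nat_lit 0) (nat_lit 327709896103) (nat_lit 760) (nat_lit 16752483068) (nat_lit 306) (nat_lit 1) (nat_lit 295) (nat_lit 1) (nat_lit 305) (nat_lit 1) (nat_lit 214) (nat_lit 405) (nat_lit 401)) (XT.lf (nat_lit 836) (nat_lit 42027131480) (nat_lit 0) (nat_lit 361391201794) (nat_lit 760) (nat_lit 97696413383) (nat_lit 307) (nat_lit 1) (nat_lit 296) (nat_lit 1) (nat_lit 306) (nat_lit 1) (nat_lit 215) (nat_lit 405) (nat_lit 400))) (XT.nd (nat_lit 78) (nat_lit 684) (nat_lit 0) (XT.lf (nat_lit 836) (nat_lit 80759052823) (nat_lit 76) (nat_lit 314078383707) (nat_lit 0) (nat_lit 88636794873) (nat_lit 307) (nat_lit 1) (nat_lit 297) (nat_lit 1) (nat_lit 296) (nat_lit 1) (nat_lit 216) (nat_lit 405) (nat_lit 399)) (XT.lf (nat_lit 836) (nat_lit 16586067896) (nat_lit 0) (nat_lit 234794367308) (nat_lit 760) (nat_lit 215303974684) (nat_lit 298) (nat_lit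 1) (nat_lit 287) (nat_lit 1) (nat_lit 297) (nat_lit 1) (nat_lit 217) (nat_lit 405) (nat_lit 398)))))) (XT.nd (nat_lit 546) (nat_lit 1900) (nat_lit 0) (XT.nd (nat_lit 234) (nat_lit 988) (nat_lit 0) (XT.nd (nat_lit 78) (nat_lit 760) (nat_lit 0) (XT.lf (nat_lit 76) (nat_lit 114845389131) (nat_lit 0) (nat_lit 49767851581) (nat_lit 532) (nat_lit 286076329496) (nat_lit 281) (nat_lit 1) (nat_lit 280) (nat_lit 1) (nat_lit 287) (nat_lit 1) (nat_lit 218) (nat_lit 405) (nat_lit 397)) (XT.nd (nat_lit 78) (nat_lit 380) (nat_lit 0) (XT.lf (nat_lit 456) (nat_lit 316499437222) (nat_lit 0) (nat_lit 103027389993) (nat_lit 380) (nat_lit 15928671089) (nat_lit 281) (nat_lit 1) (nat_lit 275) (nat_lit 1) (nat_lit 280) (nat_lit 1) (nat_lit 219) (nat_lit 405) (nat_lit 396)) (XT.lf (nat_lit 456) (nat_lit 228389007836) (nat_lit 0) (nat_lit 48021510281) (nat_lit 380) (nat_lit 144465946135) (nat_lit 276) (nat_lit 1) (nat_lit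 270) (nat_lit 1) (nat_lit 275) (nat_lit 1) (nat_lit 220) (nat_lit 405) (nat_lit 395)))) (XT.nd (nat_lit 156) (nat_lit 684) (nat_lit 0) (XT.nd (nat_lit 78) (nat_lit 0) (nat_lit 0) (XT.lf (nat_lit 380) (nat_lit 138971798409) (nat_lit 0) (nat_lit 884154043) (nat_lit 304) (nat_lit 267148383409) (nat_lit 271) (nat_lit 1) (nat_lit 266) (nat_lit 1) (nat_lit 270) (nat_lit 1) (nat_lit 221) (nat_lit 405) (nat_lit 394)) (XT.lf (nat_lit 76) (nat_lit 10252682507) (nat_lit 0) (nat_lit 345770134386) (nat_lit 380) (nat_lit 37747533251) (nat_lit 267) (nat_lit 1) (nat_lit 266) (nat_lit 1) (nat_lit 271) (nat_lit 1) (nat_lit 222) (nat_lit 405) (nat_lit 393))) (XT.nd (nat_lit 78) (nat_lit 304) (nat_lit 0) (XT.lf (nat_lit 76) (nat_lit 264726921584) (nat_lit 0) (nat_lit 43907792505) (nat_lit 380) (nat_lit 72411924101) (nat_lit 262) (nat_lit 1) (nat_lit 261) (nat_lit 1) (nat_lit 266) (nat_lit 1) (nat_lit 223) (nat_lit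 405) (nat_lit 392)) (XT.lf (nat_lit 76) (nat_lit 132449587220) (nat_lit 0) (nat_lit 134497362790) (nat_lit 380) (nat_lit 101938174695) (nat_lit 258) (nat_lit 1) (nat_lit 257) (nat_lit 1) (nat_lit 262) (nat_lit 1) (nat_lit 224) (nat_lit 405) (nat_lit 391))))) (XT.nd (nat_lit 234) (nat_lit 988) (nat_lit 0) (XT.nd (nat_lit 78) (nat_lit 608) (nat_lit 0) (XT.lf (nat_lit 76) (nat_lit 6537417923) (nat_lit 0) (nat_lit 224877502138) (nat_lit 380) (nat_lit 125884498630) (nat_lit 254) (nat_lit 1) (nat_lit 253) (nat_lit 1) (nat_lit 258) (nat_lit 1) (nat_lit 225) (nat_lit 405) (nat_lit 390)) (XT.nd (nat_lit 78) (nat_lit 380) (nat_lit 0) (XT.lf (nat_lit 304) (nat_lit 29522610894) (nat_lit 0) (nat_lit 199647285912) (nat_lit 228) (nat_lit 116997897939) (nat_lit 254) (nat_lit 1) (nat_lit 250) (nat_lit 1) (nat_lit 253) (nat_lit 1) (nat_lit 226) (nat_lit 405) (nat_lit 389)) (XT.lf (nat_lit 76) (nat_lit 102008558082)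 (nat_lit 0) (nat_lit 69917299563) (nat_lit 380) (nat_lit 163570180723) (nat_lit 246) (nat_lit 1) (nat_lit 245) (nat_lit 1) (nat_lit 250) (nat_lit 1) (nat_lit 227) (nat_lit 405) (nat_lit 388)))) (XT.nd (nat_lit 156) (nat_lit 532) (nat_lit 0) (XT.nd (nat_lit 78) (nat_lit 228) (nat_lit 0) (XT.lf (nat_lit 304) (nat_lit 157933784152) (nat_lit 0) (nat_lit 148358377750) (nat_lit 228) (nat_lit 18989696276) (nat_lit 246) (nat_lit 1) (nat_lit 242) (nat_lit 1) (nat_lit 245) (nat_lit 1) (nat_lit 228) (nat_lit 405) (nat_lit 387)) (XT.lf (nat_lit 304) (nat_lit 50617014833) (nat_lit 0) (nat_lit 127730488026) (nat_lit 228) (nat_lit 137112708925) (nat_lit 243) (nat_lit 1) (nat_lit 239) (nat_lit 1) (nat_lit 242) (nat_lit 1) (nat_lit 229) (nat_lit 405) (nat_lit 386))) (XT.nd (nat_lit 78) (nat_lit 228) (nat_lit 0) (XT.lf (nat_lit 76) (nat_lit 57691166208) (nat_lit 0) (nat_lit 52821276137) (nat_lit 304) (nat_lit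 195534034513) (nat_lit 236) (nat_lit 1) (nat_lit 235) (nat_lit 1) (nat_lit 239) (nat_lit 1) (nat_lit 230) (nat_lit 405) (nat_lit 385)) (XT.lf (nat_lit 304) (nat_lit 143556895162) (nat_lit 0) (nat_lit 95517438234) (nat_lit 228) (nat_lit 57902985103) (nat_lit 236) (nat_lit 1) (nat_lit 232) (nat_lit 1) (nat_lit 235) (nat_lit 1) (nat_lit 231) (nat_lit 405) (nat_lit 384))))))))
noncomputable def ec199 : XT := (XT.nd (nat_lit 2106) (nat_lit 3192) (nat_lit 0) (XT.nd (nat_lit 1014) (nat_lit 1824) (nat_lit 0) (XT.nd (nat_lit 468) (nat_lit 1064) (nat_lit 0) (XT.nd (nat_lit 234) (nat_lit 532) (nat_lit 0) (XT.nd (nat_lit 78) (nat_lit 456) (nat_lit 0) (XT.lf (nat_lit 228) (nat_lit 35587966282) (nat_lit 0) (nat_lit 83331997798) (nat_lit 152) (nat_lit 169354071210) (nat_lit 233) (nat_lit 1) (nat_lit 230) (nat_lit 1) (nat_lit 232) (nat_lit 1) (nat_lit 232) (nat_lit 405) (nat_lit 383)) (XT.nd (nat_lit 78) (nat_lit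 152) (nat_lit 0) (XT.lf (nat_lit 76) (nat_lit 6028828851) (nat_lit 0) (nat_lit 67463903644) (nat_lit 304) (nat_lit 206415381770) (nat_lit 227) (nat_lit 1) (nat_lit 226) (nat_lit 1) (nat_lit 230) (nat_lit 1) (nat_lit 233) (nat_lit 405) (nat_lit 382)) (XT.lf (nat_lit 228) (nat_lit 103412100084) (nat_lit 0) (nat_lit 64623690845) (nat_lit 152) (nat_lit 103771975233) (nat_lit 227) (nat_lit 1) (nat_lit 224) (nat_lit 1) (nat_lit 226) (nat_lit 1) (nat_lit 234) (nat_lit 405) (nat_lit 381)))) (XT.nd (nat_lit 78) (nat_lit 304) (nat_lit 0) (XT.lf (nat_lit 76) (nat_lit 56107083887) (nat_lit 0) (nat_lit 2591621380) (nat_lit 228) (nat_lit 205362184069) (nat_lit 222) (nat_lit 1) (nat_lit 221) (nat_lit 1) (nat_lit 224) (nat_lit 1) (nat_lit 235) (nat_lit 405) (nat_lit 380)) (XT.nd (nat_lit 78) (nat_lit 152) (nat_lit 0) (XT.lf (nat_lit 228) (nat_lit 153385932812) (nat_lit 0) (nat_lit 53151664920) (nat_lit 152)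 (nat_lit 50001765913) (nat_lit 222) (nat_lit 1) (nat_lit 219) (nat_lit 1) (nat_lit 221) (nat_lit 1) (nat_lit 236) (nat_lit 405) (nat_lit 379)) (XT.lf (nat_lit 228) (nat_lit 47647817335) (nat_lit 0) (nat_lit 49410350144) (nat_lit 152) (nat_lit 152247251320) (nat_lit 220) (nat_lit 1) (nat_lit 217) (nat_lit 1) (nat_lit 219) (nat_lit 1) (nat_lit 237) (nat_lit 405) (nat_lit 378))))) (XT.nd (nat_lit 234) (nat_lit 532) (nat_lit 0) (XT.nd (nat_lit 78) (nat_lit 304) (nat_lit 0) (XT.lf (nat_lit 228) (nat_lit 189144323754) (nat_lit 0) (nat_lit 47207579168) (nat_lit 152) (nat_lit 5988829104) (nat_lit 217) (nat_lit 1) (nat_lit 214) (nat_lit 1) (nat_lit 216) (nat_lit 1) (nat_lit 238) (nat_lit 405) (nat_lit 377)) (XT.nd (nat_lit 78) (nat_lit 152) (nat_lit 0) (XT.lf (nat_lit 228) (nat_lit 84652233214) (nat_lit 0) (nat_lit 45067322225) (nat_lit 152) (nat_lit 105850016477) (nat_lit 215) (nat_lit 1) (nat_lit 212)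 (nat_lit 1) (nat_lit 214) (nat_lit 1) (nat_lit 239) (nat_lit 405) (nat_lit 376)) (XT.lf (nat_lit 76) (nat_lit 28996658207) (nat_lit 0) (nat_lit 15937869978) (nat_lit 152) (nat_lit 184144733845) (nat_lit 211) (nat_lit 1) (nat_lit 210) (nat_lit 1) (nat_lit 212) (nat_lit 1) (nat_lit 240) (nat_lit 405) (nat_lit 375)))) (XT.nd (nat_lit 156) (nat_lit 304) (nat_lit 0) (XT.nd (nat_lit 78) (nat_lit 76) (nat_lit 0) (XT.lf (nat_lit 228) (nat_lit 111068598386) (nat_lit 0) (nat_lit 44458721550) (nat_lit 152) (nat_lit 67225409008) (nat_lit 211) (nat_lit 1) (nat_lit 208) (nat_lit 1) (nat_lit 210) (nat_lit 1) (nat_lit 241) (nat_lit 405) (nat_lit 374)) (XT.lf (nat_lit 152) (nat_lit 11960509781) (nat_lit 0) (nat_lit 45550685204) (nat_lit 76) (nat_lit 159164764257) (nat_lit 209) (nat_lit 1) (nat_lit 207) (nat_lit 1) (nat_lit 208) (nat_lit 1) (nat_lit 242) (nat_lit 405) (nat_lit 373))) (XT.nd (nat_lit 78) (nat_lit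 76) (nat_lit 0) (XT.lf (nat_lit 228) (nat_lit 129109287324) (nat_lit 0) (nat_lit 46586195607) (nat_lit 152) (nat_lit 35071261913) (nat_lit 207) (nat_lit 1) (nat_lit 204) (nat_lit 1) (nat_lit 206) (nat_lit 1) (nat_lit 243) (nat_lit 405) (nat_lit 372)) (XT.lf (nat_lit 152) (nat_lit 32471937811) (nat_lit 0) (nat_lit 48328100404) (nat_lit 76) (nat_lit 124256644628) (nat_lit 205) (nat_lit 1) (nat_lit 203) (nat_lit 1) (nat_lit 204) (nat_lit 1) (nat_lit 244) (nat_lit 405) (nat_lit 371)))))) (XT.nd (nat_lit 546) (nat_lit 760) (nat_lit 0) (XT.nd (nat_lit 234) (nat_lit 532) (nat_lit 0) (XT.nd (nat_lit 78) (nat_lit 304) (nat_lit 0) (XT.lf (nat_lit 228) (nat_lit 140563033050) (nat_lit 0) (nat_lit 50658978985) (nat_lit 152) (nat_lit 8313572116) (nat_lit 203) (nat_lit 1) (nat_lit 200) (nat_lit 1) (nat_lit 202) (nat_lit 1) (nat_lit 245) (nat_lit 405) (nat_lit 370)) (XT.nd (nat_lit 78) (nat_lit 228) (nat_lit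 0) (XT.lf (nat_lit 152) (nat_lit 46731573400) (nat_lit 0) (nat_lit 52812594322) (nat_lit 76) (nat_lit 94618323657) (nat_lit 201) (nat_lit 1) (nat_lit 199) (nat_lit 1) (nat_lit 200) (nat_lit 1) (nat_lit 246) (nat_lit 405) (nat_lit 369)) (XT.lf (nat_lit 76) (nat_lit 13488591828) (nat_lit 0) (nat_lit 42337094212) (nat_lit 228) (nat_lit 133156741288) (nat_lit 197) (nat_lit 1) (nat_lit 196) (nat_lit 1) (nat_lit 199) (nat_lit 1) (nat_lit 247) (nat_lit 405) (nat_lit 368)))) (XT.nd (nat_lit 156) (nat_lit 228) (nat_lit 0) (XT.nd (nat_lit 78) (nat_lit 228) (nat_lit 0) (XT.lf (nat_lit 152) (nat_lit 56082104331) (nat_lit 0) (nat_lit 58434894481) (nat_lit 76) (nat_lit 69414008167) (nat_lit 197) (nat_lit 1) (nat_lit 195) (nat_lit 1) (nat_lit 196) (nat_lit 1) (nat_lit 248) (nat_lit 405) (nat_lit 367)) (XT.lf (nat_lit 76) (nat_lit 31369442110) (nat_lit 0) (nat_lit 30383425879) (nat_lit 228) (nat_lit 117304237923)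 (nat_lit 193) (nat_lit 1) (nat_lit 192) (nat_lit 1) (nat_lit 195) (nat_lit 1) (nat_lit 249) (nat_lit 405) (nat_lit 366))) (XT.nd (nat_lit 78) (nat_lit 152) (nat_lit 0) (XT.lf (nat_lit 152) (nat_lit 61606317445) (nat_lit 0) (nat_lit 64750619460) (nat_lit 76) (nat_lit 47950794268) (nat_lit 193) (nat_lit 1) (nat_lit 191) (nat_lit 1) (nat_lit 192) (nat_lit 1) (nat_lit 250) (nat_lit 405) (nat_lit 365)) (XT.lf (nat_lit 76) (nat_lit 46183072659) (nat_lit 0) (nat_lit 22005407774) (nat_lit 152) (nat_lit 101526725952) (nat_lit 190) (nat_lit 1) (nat_lit 189) (nat_lit 1) (nat_lit 191) (nat_lit 1) (nat_lit 251) (nat_lit 405) (nat_lit 364))))) (XT.nd (nat_lit 234) (nat_lit 456) (nat_lit 0) (XT.nd (nat_lit 78) (nat_lit 228) (nat_lit 0) (XT.lf (nat_lit 152) (nat_lit 64175662928) (nat_lit 0) (nat_lit 71415938171) (nat_lit 76) (nat_lit 29653178863) (nat_lit 190) (nat_lit 1) (nat_lit 188) (nat_lit 1) (nat_lit 189)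 (nat_lit 1) (nat_lit 252) (nat_lit 405) (nat_lit 363)) (XT.nd (nat_lit 78) (nat_lit 76) (nat_lit 0) (XT.lf (nat_lit 76) (nat_lit 58417292890) (nat_lit 0) (nat_lit 16416321134) (nat_lit 152) (nat_lit 86078245157) (nat_lit 187) (nat_lit 1) (nat_lit 186) (nat_lit 1) (nat_lit 188) (nat_lit 1) (nat_lit 253) (nat_lit 405) (nat_lit 362)) (XT.lf (nat_lit 152) (nat_lit 64489853299) (nat_lit 0) (nat_lit 78167787943) (nat_lit 76) (nat_lit 14042200521) (nat_lit 187) (nat_lit 1) (nat_lit 185) (nat_lit 1) (nat_lit 186) (nat_lit 1) (nat_lit 254) (nat_lit 405) (nat_lit 361)))) (XT.nd (nat_lit 156) (nat_lit 228) (nat_lit 0) (XT.nd (nat_lit 78) (nat_lit 76) (nat_lit 0) (XT.lf (nat_lit 76) (nat_lit 68477526864) (nat_lit 0) (nat_lit 12983570936) (nat_lit 152) (nat_lit 71146191405) (nat_lit 184) (nat_lit 1) (nat_lit 183) (nat_lit 1) (nat_lit 185) (nat_lit 1) (nat_lit 255) (nat_lit 405) (nat_lit 360)) (XT.lf (nat_lit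 152) (nat_lit 63109145416) (nat_lit 0) (nat_lit 84807809148) (nat_lit 76) (nat_lit 718363257) (nat_lit 184) (nat_lit 1) (nat_lit 182) (nat_lit 1) (nat_lit 183) (nat_lit 1) (nat_lit 256) (nat_lit 405) (nat_lit 359))) (XT.nd (nat_lit 78) (nat_lit 76) (nat_lit 0) (XT.lf (nat_lit 76) (nat_lit 76701396291) (nat_lit 0) (nat_lit 11199746412) (nat_lit 152) (nat_lit 56864897528) (nat_lit 181) (nat_lit 1) (nat_lit 180) (nat_lit 1) (nat_lit 182) (nat_lit 1) (nat_lit 257) (nat_lit 405) (nat_lit 358)) (XT.lf (nat_lit 0) (nat_lit 10311406465) (nat_lit 0) (nat_lit 80703273903) (nat_lit 152) (nat_lit 49994616020) (nat_lit 179) (nat_lit 3) (nat_lit 179) (nat_lit 1) (nat_lit 181) (nat_lit 1) (nat_lit 258) (nat_lit 405) (nat_lit 357))))))) (XT.nd (nat_lit 1014) (nat_lit 1596) (nat_lit 0) (XT.nd (nat_lit 468) (nat_lit 912) (nat_lit 0) (XT.nd (nat_lit 234) (nat_lit 304) (nat_lit 0) (XT.nd (nat_lit 78) (nat_lit 228)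 (nat_lit 0) (XT.lf (nat_lit 76) (nat_lit 83370663820) (nat_lit 0) (nat_lit 10659033652) (nat_lit 152) (nat_lit 43326636047) (nat_lit 178) (nat_lit 1) (nat_lit 177) (nat_lit 1) (nat_lit 179) (nat_lit 1) (nat_lit 259) (nat_lit 405) (nat_lit 356)) (XT.nd (nat_lit 78) (nat_lit 152) (nat_lit 0) (XT.lf (nat_lit 0) (nat_lit 19698601096) (nat_lit 0) (nat_lit 77174487370) (nat_lit 152) (nat_lit 36927568822) (nat_lit 176) (nat_lit 3) (nat_lit 176) (nat_lit 1) (nat_lit 178) (nat_lit 1) (nat_lit 260) (nat_lit 405) (nat_lit 355)) (XT.lf (nat_lit 76) (nat_lit 88721018653) (nat_lit 0) (nat_lit 11037995674) (nat_lit 152) (nat_lit 30590522084) (nat_lit 175) (nat_lit 1) (nat_lit 174) (nat_lit 1) (nat_lit 176) (nat_lit 1) (nat_lit 261) (nat_lit 405) (nat_lit 354)))) (XT.nd (nat_lit 78) (nat_lit 228) (nat_lit 0) (XT.lf (nat_lit 0) (nat_lit 27694040904) (nat_lit 0) (nat_lit 74623858556) (nat_lit 152) (nat_lit 24664624535)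 (nat_lit 173) (nat_lit 3) (nat_lit 173) (nat_lit 1) (nat_lit 175) (nat_lit 1) (nat_lit 262) (nat_lit 405) (nat_lit 353)) (XT.nd (nat_lit 78) (nat_lit 76) (nat_lit 0) (XT.lf (nat_lit 76) (nat_lit 92950098233) (nat_lit 0) (nat_lit 12079916157) (nat_lit 152) (nat_lit 18689706739) (nat_lit 172) (nat_lit 1) (nat_lit 171) (nat_lit 1) (nat_lit 173) (nat_lit 1) (nat_lit 263) (nat_lit 405) (nat_lit 352)) (XT.lf (nat_lit 0) (nat_lit 34489808068) (nat_lit 0) (nat_lit 72808621880) (nat_lit 152) (nat_lit 13231580640) (nat_lit 170) (nat_lit 3) (nat_lit 170) (nat_lit 1) (nat_lit 172) (nat_lit 1) (nat_lit 264) (nat_lit 405) (nat_lit 351))))) (XT.nd (nat_lit 234) (nat_lit 456) (nat_lit 0) (XT.nd (nat_lit 78) (nat_lit 304) (nat_lit 0) (XT.lf (nat_lit 76) (nat_lit 96224067641) (nat_lit 0) (nat_lit 13582050656) (nat_lit 152) (nat_lit 7637179313) (nat_lit 169) (nat_lit 1) (nat_lit 168) (nat_lit 1) (nat_lit 170) (nat_lit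 1) (nat_lit 265) (nat_lit 405) (nat_lit 350)) (XT.nd (nat_lit 78) (nat_lit 228) (nat_lit 0) (XT.lf (nat_lit 0) (nat_lit 40248358298) (nat_lit 0) (nat_lit 71536174135) (nat_lit 152) (nat_lit 2635907738) (nat_lit 167) (nat_lit 3) (nat_lit 167) (nat_lit 1) (nat_lit 169) (nat_lit 1) (nat_lit 266) (nat_lit 405) (nat_lit 349)) (XT.lf (nat_lit 152) (nat_lit 96069940661) (nat_lit 0) (nat_lit 2654523319) (nat_lit 76) (nat_lit 12772170909) (nat_lit 166) (nat_lit 1) (nat_lit 164) (nat_lit 1) (nat_lit 165) (nat_lit 1) (nat_lit 267) (nat_lit 405) (nat_lit 348)))) (XT.nd (nat_lit 156) (nat_lit 228) (nat_lit 0) (XT.nd (nat_lit 78) (nat_lit 152) (nat_lit 0) (XT.lf (nat_lit 76) (nat_lit 37857866610) (nat_lit 0) (nat_lit 7364663119) (nat_lit 76) (nat_lit 63404780057) (nat_lit 164) (nat_lit 3) (nat_lit 163) (nat_lit 1) (nat_lit 164) (nat_lit 1) (nat_lit 268) (nat_lit 405) (nat_lit 347)) (XT.lf (nat_lit 152) (nat_lit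 88298359178) (nat_lit 0) (nat_lit 12339706796) (nat_lit 76) (nat_lit 5218467000) (nat_lit 163) (nat_lit 1) (nat_lit 161) (nat_lit 1) (nat_lit 162) (nat_lit 1) (nat_lit 269) (nat_lit 405) (nat_lit 346))) (XT.nd (nat_lit 78) (nat_lit 152) (nat_lit 0) (XT.lf (nat_lit 76) (nat_lit 32832322252) (nat_lit 0) (nat_lit 16611793186) (nat_lit 76) (nat_lit 53691713335) (nat_lit 161) (nat_lit 3) (nat_lit 160) (nat_lit 1) (nat_lit 161) (nat_lit 1) (nat_lit 270) (nat_lit 405) (nat_lit 345)) (XT.lf (nat_lit 0) (nat_lit 1385797761) (nat_lit 0) (nat_lit 19780322526) (nat_lit 152) (nat_lit 79343670345) (nat_lit 158) (nat_lit 3) (nat_lit 158) (nat_lit 1) (nat_lit 160) (nat_lit 1) (nat_lit 271) (nat_lit 405) (nat_lit 344)))))) (XT.nd (nat_lit 546) (nat_lit 836) (nat_lit 0) (XT.nd (nat_lit 234) (nat_lit 456) (nat_lit 0) (XT.nd (nat_lit 78) (nat_lit 228) (nat_lit 0) (XT.lf (nat_lit 76) (nat_lit 27927229686) (nat_lit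 0) (nat_lit 25044087894) (nat_lit 76) (nat_lit 44959197061) (nat_lit 158) (nat_lit 3) (nat_lit 157) (nat_lit 1) (nat_lit 158) (nat_lit 1) (nat_lit 272) (nat_lit 405) (nat_lit 343)) (XT.nd (nat_lit 78) (nat_lit 76) (nat_lit 0) (XT.lf (nat_lit 0) (nat_lit 7047863502) (nat_lit 0) (nat_lit 22067235085) (nat_lit 152) (nat_lit 66322108733) (nat_lit 155) (nat_lit 3) (nat_lit 155) (nat_lit 1) (nat_lit 157) (nat_lit 1) (nat_lit 273) (nat_lit 405) (nat_lit 342)) (XT.lf (nat_lit 76) (nat_lit 23197569846) (nat_lit 0) (nat_lit 32693101687) (nat_lit 76) (nat_lit 37104395385) (nat_lit 155) (nat_lit 3) (nat_lit 154) (nat_lit 1) (nat_lit 155) (nat_lit 1) (nat_lit 274) (nat_lit 405) (nat_lit 341)))) (XT.nd (nat_lit 156) (nat_lit 228) (nat_lit 0) (XT.nd (nat_lit 78) (nat_lit 76) (nat_lit 0) (XT.lf (nat_lit 0) (nat_lit 12021040122) (nat_lit 0) (nat_lit 24284554707) (nat_lit 152) (nat_lit 54321544113) (nat_lit 152)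 (nat_lit 3) (nat_lit 152) (nat_lit 1) (nat_lit 154) (nat_lit 1) (nat_lit 275) (nat_lit 405) (nat_lit 340)) (XT.lf (nat_lit 76) (nat_lit 18682433296) (nat_lit 0) (nat_lit 39594377707) (nat_lit 76) (nat_lit 30037539394) (nat_lit 152) (nat_lit 3) (nat_lit 151) (nat_lit 1) (nat_lit 152) (nat_lit 1) (nat_lit 276) (nat_lit 405) (nat_lit 339))) (XT.nd (nat_lit 78) (nat_lit 76) (nat_lit 0) (XT.lf (nat_lit 0) (nat_lit 16380451742) (nat_lit 0) (nat_lit 26393772815) (nat_lit 152) (nat_lit 43290744234) (nat_lit 149) (nat_lit 3) (nat_lit 149) (nat_lit 1) (nat_lit 151) (nat_lit 1) (nat_lit 277) (nat_lit 405) (nat_lit 338)) (XT.lf (nat_lit 76) (nat_lit 14408328970) (nat_lit 0) (nat_lit 45786022289) (nat_lit 76) (nat_lit 23679922556) (nat_lit 149) (nat_lit 3) (nat_lit 148) (nat_lit 1) (nat_lit 149) (nat_lit 1) (nat_lit 278) (nat_lit 405) (nat_lit 337))))) (XT.nd (nat_lit 234) (nat_lit 456) (nat_lit 0) (XT.nd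 (nat_lit 78) (nat_lit 228) (nat_lit 0) (XT.lf (nat_lit 0) (nat_lit 20191776082) (nat_lit 0) (nat_lit 28367784536) (nat_lit 152) (nat_lit 33177509033) (nat_lit 146) (nat_lit 3) (nat_lit 146) (nat_lit 1) (nat_lit 148) (nat_lit 1) (nat_lit 279) (nat_lit 405) (nat_lit 336)) (XT.nd (nat_lit 78) (nat_lit 152) (nat_lit 0) (XT.lf (nat_lit 76) (nat_lit 10391860679) (nat_lit 0) (nat_lit 51307586540) (nat_lit 76) (nat_lit 17962238876) (nat_lit 146) (nat_lit 3) (nat_lit 145) (nat_lit 1) (nat_lit 146) (nat_lit 1) (nat_lit 280) (nat_lit 405) (nat_lit 335)) (XT.lf (nat_lit 0) (nat_lit 23512667311) (nat_lit 0) (nat_lit 30188485827) (nat_lit 152) (nat_lit 23929554883) (nat_lit 143) (nat_lit 3) (nat_lit 143) (nat_lit 1) (nat_lit 145) (nat_lit 1) (nat_lit 281) (nat_lit 405) (nat_lit 334)))) (XT.nd (nat_lit 156) (nat_lit 228) (nat_lit 0) (XT.nd (nat_lit 78) (nat_lit 152) (nat_lit 0) (XT.lf (nat_lit 76) (nat_lit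 6641888952) (nat_lit 0) (nat_lit 56199195803) (nat_lit 76) (nat_lit 12823202394) (nat_lit 143) (nat_lit 3) (nat_lit 142) (nat_lit 1) (nat_lit 143) (nat_lit 1) (nat_lit 282) (nat_lit 405) (nat_lit 333)) (XT.lf (nat_lit 0) (nat_lit 26393938290) (nat_lit 0) (nat_lit 31844831978) (nat_lit 152) (nat_lit 15495191281) (nat_lit 140) (nat_lit 3) (nat_lit 140) (nat_lit 1) (nat_lit 142) (nat_lit 1) (nat_lit 283) (nat_lit 405) (nat_lit 332))) (XT.nd (nat_lit 78) (nat_lit 152) (nat_lit 0) (XT.lf (nat_lit 76) (nat_lit 3161274095) (nat_lit 0) (nat_lit 60500878842) (nat_lit 76) (nat_lit 8208397880) (nat_lit 140) (nat_lit 3) (nat_lit 139) (nat_lit 1) (nat_lit 140) (nat_lit 1) (nat_lit 284) (nat_lit 405) (nat_lit 331)) (XT.lf (nat_lit 0) (nat_lit 28880545091) (nat_lit 0) (nat_lit 33331271533) (nat_lit 152) (nat_lit 7823830848) (nat_lit 137) (nat_lit 3) (nat_lit 137) (nat_lit 1) (nat_lit 139) (nat_lit 1) (nat_lit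 285) (nat_lit 405) (nat_lit 330))))))))
noncomputable def ec200 : XT := (XT.nd (nat_lit 2028) (nat_lit 3192) (nat_lit 0) (XT.nd (nat_lit 1014) (nat_lit 1596) (nat_lit 0) (XT.nd (nat_lit 468) (nat_lit 836) (nat_lit 0) (XT.nd (nat_lit 234) (nat_lit 304) (nat_lit 0) (XT.nd (nat_lit 78) (nat_lit 304) (nat_lit 0) (XT.lf (nat_lit 76) (nat_lit 64201143764) (nat_lit 0) (nat_lit 50065929) (nat_lit 152) (nat_lit 4018407845) (nat_lit 136) (nat_lit 1) (nat_lit 135) (nat_lit 1) (nat_lit 137) (nat_lit 1) (nat_lit 286) (nat_lit 405) (nat_lit 329)) (XT.nd (nat_lit 78) (nat_lit 228) (nat_lit 0) (XT.lf (nat_lit 0) (nat_lit 31012408832) (nat_lit 0) (nat_lit 34646485552) (nat_lit 152) (nat_lit 866365866) (nat_lit 134) (nat_lit 3) (nat_lit 134) (nat_lit 1) (nat_lit 136) (nat_lit 1) (nat_lit 287) (nat_lit 405) (nat_lit 328)) (XT.lf (nat_lit 152) (nat_lit 61898968525) (nat_lit 0) (nat_lit 2678584867) (nat_lit 76) (nat_lit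 269449629) (nat_lit 133) (nat_lit 1) (nat_lit 131) (nat_lit 1) (nat_lit 132) (nat_lit 1) (nat_lit 288) (nat_lit 405) (nat_lit 327)))) (XT.nd (nat_lit 78) (nat_lit 228) (nat_lit 0) (XT.lf (nat_lit 76) (nat_lit 27308674289) (nat_lit 0) (nat_lit 5603922209) (nat_lit 76) (nat_lit 30275945764) (nat_lit 131) (nat_lit 3) (nat_lit 130) (nat_lit 1) (nat_lit 131) (nat_lit 1) (nat_lit 289) (nat_lit 405) (nat_lit 326)) (XT.nd (nat_lit 78) (nat_lit 76) (nat_lit 0) (XT.lf (nat_lit 0) (nat_lit 3087099479) (nat_lit 0) (nat_lit 5703740992) (nat_lit 152) (nat_lit 52801635114) (nat_lit 128) (nat_lit 3) (nat_lit 128) (nat_lit 1) (nat_lit 130) (nat_lit 1) (nat_lit 290) (nat_lit 405) (nat_lit 325)) (XT.lf (nat_lit 76) (nat_lit 23068170307) (nat_lit 0) (nat_lit 11461204966) (nat_lit 76) (nat_lit 25490986522) (nat_lit 128) (nat_lit 3) (nat_lit 127) (nat_lit 1) (nat_lit 128) (nat_lit 1) (nat_lit 291) (nat_lit 405) (nat_lit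 324))))) (XT.nd (nat_lit 234) (nat_lit 456) (nat_lit 0) (XT.nd (nat_lit 78) (nat_lit 228) (nat_lit 0) (XT.lf (nat_lit 0) (nat_lit 6074494137) (nat_lit 0) (nat_lit 8211016372) (nat_lit 152) (nat_lit 44217270078) (nat_lit 125) (nat_lit 3) (nat_lit 125) (nat_lit 1) (nat_lit 127) (nat_lit 1) (nat_lit 292) (nat_lit 405) (nat_lit 323)) (XT.nd (nat_lit 78) (nat_lit 152) (nat_lit 0) (XT.lf (nat_lit 76) (nat_lit 19156352232) (nat_lit 0) (nat_lit 16721639894) (nat_lit 76) (nat_lit 21134613562) (nat_lit 125) (nat_lit 3) (nat_lit 124) (nat_lit 1) (nat_lit 125) (nat_lit 1) (nat_lit 293) (nat_lit 405) (nat_lit 322)) (XT.lf (nat_lit 0) (nat_lit 8732915123) (nat_lit 0) (nat_lit 10477413650) (nat_lit 152) (nat_lit 36359220989) (nat_lit 122) (nat_lit 3) (nat_lit 122) (nat_lit 1) (nat_lit 124) (nat_lit 1) (nat_lit 294) (nat_lit 405) (nat_lit 321)))) (XT.nd (nat_lit 156) (nat_lit 228) (nat_lit 0) (XT.nd (nat_lit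 78) (nat_lit 152) (nat_lit 0) (XT.lf (nat_lit 76) (nat_lit 15556920018) (nat_lit 0) (nat_lit 21427841018) (nat_lit 76) (nat_lit 17172196431) (nat_lit 122) (nat_lit 3) (nat_lit 121) (nat_lit 1) (nat_lit 122) (nat_lit 1) (nat_lit 295) (nat_lit 405) (nat_lit 320)) (XT.lf (nat_lit 0) (nat_lit 11091009604) (nat_lit 0) (nat_lit 12515415613) (nat_lit 152) (nat_lit 29178258130) (nat_lit 119) (nat_lit 3) (nat_lit 119) (nat_lit 1) (nat_lit 121) (nat_lit 1) (nat_lit 296) (nat_lit 405) (nat_lit 319))) (XT.nd (nat_lit 78) (nat_lit 152) (nat_lit 0) (XT.lf (nat_lit 76) (nat_lit 12253230109) (nat_lit 0) (nat_lit 25620207288) (nat_lit 76) (nat_lit 13572124561) (nat_lit 119) (nat_lit 3) (nat_lit 118) (nat_lit 1) (nat_lit 119) (nat_lit 1) (nat_lit 297) (nat_lit 405) (nat_lit 318)) (XT.lf (nat_lit 0) (nat_lit 13174844324) (nat_lit 0) (nat_lit 14337890579) (nat_lit 152) (nat_lit 22627793192) (nat_lit 116) (nat_lit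 3) (nat_lit 116) (nat_lit 1) (nat_lit 118) (nat_lit 1) (nat_lit 298) (nat_lit 405) (nat_lit 317)))))) (XT.nd (nat_lit 468) (nat_lit 912) (nat_lit 0) (XT.nd (nat_lit 234) (nat_lit 380) (nat_lit 0) (XT.nd (nat_lit 78) (nat_lit 228) (nat_lit 0) (XT.lf (nat_lit 76) (nat_lit 9228585109) (nat_lit 0) (nat_lit 29336929675) (nat_lit 76) (nat_lit 10305479789) (nat_lit 116) (nat_lit 3) (nat_lit 115) (nat_lit 1) (nat_lit 116) (nat_lit 1) (nat_lit 299) (nat_lit 405) (nat_lit 316)) (XT.nd (nat_lit 78) (nat_lit 76) (nat_lit 0) (XT.lf (nat_lit 0) (nat_lit 15008187792) (nat_lit 0) (nat_lit 15957830366) (nat_lit 152) (nat_lit 16663829892) (nat_lit 113) (nat_lit 3) (nat_lit 113) (nat_lit 1) (nat_lit 115) (nat_lit 1) (nat_lit 300) (nat_lit 405) (nat_lit 315)) (XT.lf (nat_lit 76) (nat_lit 6466455790) (nat_lit 0) (nat_lit 32614023229) (nat_lit 76) (nat_lit 7345754470) (nat_lit 113) (nat_lit 3) (nat_lit 112) (nat_lit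 1) (nat_lit 113) (nat_lit 1) (nat_lit 301) (nat_lit 405) (nat_lit 314)))) (XT.nd (nat_lit 78) (nat_lit 228) (nat_lit 0) (XT.lf (nat_lit 0) (nat_lit 16612753292) (nat_lit 0) (nat_lit 17388148954) (nat_lit 152) (nat_lit 11244895746) (nat_lit 110) (nat_lit 3) (nat_lit 110) (nat_lit 1) (nat_lit 112) (nat_lit 1) (nat_lit 302) (nat_lit 405) (nat_lit 313)) (XT.nd (nat_lit 78) (nat_lit 152) (nat_lit 0) (XT.lf (nat_lit 76) (nat_lit 3950648743) (nat_lit 0) (nat_lit 35485377892) (nat_lit 76) (nat_lit 4668607689) (nat_lit 110) (nat_lit 3) (nat_lit 109) (nat_lit 1) (nat_lit 110) (nat_lit 1) (nat_lit 303) (nat_lit 405) (nat_lit 312)) (XT.lf (nat_lit 0) (nat_lit 18008409132) (nat_lit 0) (nat_lit 18641529896) (nat_lit 152) (nat_lit 6331960188) (nat_lit 107) (nat_lit 3) (nat_lit 107) (nat_lit 1) (nat_lit 109) (nat_lit 1) (nat_lit 304) (nat_lit 405) (nat_lit 311))))) (XT.nd (nat_lit 234) (nat_lit 456) (nat_lit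 0) (XT.nd (nat_lit 78) (nat_lit 380) (nat_lit 0) (XT.lf (nat_lit 76) (nat_lit 1665430504) (nat_lit 0) (nat_lit 37982823058) (nat_lit 76) (nat_lit 2251653433) (nat_lit 107) (nat_lit 3) (nat_lit 106) (nat_lit 1) (nat_lit 107) (nat_lit 1) (nat_lit 305) (nat_lit 405) (nat_lit 310)) (XT.nd (nat_lit 78) (nat_lit 228) (nat_lit 0) (XT.lf (nat_lit 0) (nat_lit 19213361372) (nat_lit 0) (nat_lit 19730312808) (nat_lit 152) (nat_lit 1888343154) (nat_lit 104) (nat_lit 3) (nat_lit 104) (nat_lit 1) (nat_lit 106) (nat_lit 1) (nat_lit 306) (nat_lit 405) (nat_lit 309)) (XT.lf (nat_lit 152) (nat_lit 39408854869) (nat_lit 0) (nat_lit 334499985) (nat_lit 76) (nat_lit 62162806) (nat_lit 103) (nat_lit 1) (nat_lit 101) (nat_lit 1) (nat_lit 102) (nat_lit 1) (nat_lit 307) (nat_lit 405) (nat_lit 308)))) (XT.nd (nat_lit 156) (nat_lit 228) (nat_lit 0) (XT.nd (nat_lit 78) (nat_lit 152) (nat_lit 0) (XT.lf (nat_lit 76) (nat_lit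 18088021093) (nat_lit 0) (nat_lit 2190492032) (nat_lit 76) (nat_lit 18510118745) (nat_lit 101) (nat_lit 3) (nat_lit 100) (nat_lit 1) (nat_lit 101) (nat_lit 1) (nat_lit 308) (nat_lit 405) (nat_lit 307)) (XT.lf (nat_lit 0) (nat_lit 1925904281) (nat_lit 0) (nat_lit 2298124433) (nat_lit 152) (nat_lit 33586873715) (nat_lit 98) (nat_lit 3) (nat_lit 98) (nat_lit 1) (nat_lit 100) (nat_lit 1) (nat_lit 309) (nat_lit 405) (nat_lit 306))) (XT.nd (nat_lit 78) (nat_lit 152) (nat_lit 0) (XT.lf (nat_lit 76) (nat_lit 15293132147) (nat_lit 0) (nat_lit 5915836622) (nat_lit 76) (nat_lit 15637780436) (nat_lit 98) (nat_lit 3) (nat_lit 97) (nat_lit 1) (nat_lit 98) (nat_lit 1) (nat_lit 310) (nat_lit 405) (nat_lit 305)) (XT.lf (nat_lit 0) (nat_lit 3706144844) (nat_lit 0) (nat_lit 4010067497) (nat_lit 152) (nat_lit 28200573411) (nat_lit 95) (nat_lit 3) (nat_lit 95) (nat_lit 1) (nat_lit 97) (nat_lit 1) (nat_lit 311) (nat_lit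 405) (nat_lit 304))))))) (XT.nd (nat_lit 1014) (nat_lit 1748) (nat_lit 0) (XT.nd (nat_lit 468) (nat_lit 760) (nat_lit 0) (XT.nd (nat_lit 234) (nat_lit 380) (nat_lit 0) (XT.nd (nat_lit 78) (nat_lit 228) (nat_lit 0) (XT.lf (nat_lit 76) (nat_lit 12732379899) (nat_lit 0) (nat_lit 9256480321) (nat_lit 76) (nat_lit 13013789763) (nat_lit 95) (nat_lit 3) (nat_lit 94) (nat_lit 1) (nat_lit 95) (nat_lit 1) (nat_lit 312) (nat_lit 405) (nat_lit 303)) (XT.nd (nat_lit 78) (nat_lit 76) (nat_lit 0) (XT.lf (nat_lit 0) (nat_lit 5296925163) (nat_lit 0) (nat_lit 5545082010) (nat_lit 152) (nat_lit 23276092278) (nat_lit 92) (nat_lit 3) (nat_lit 92) (nat_lit 1) (nat_lit 94) (nat_lit 1) (nat_lit 313) (nat_lit 405) (nat_lit 302)) (XT.lf (nat_lit 76) (nat_lit 10389974844) (nat_lit 0) (nat_lit 12241640401) (nat_lit 76) (nat_lit 10619749702) (nat_lit 92) (nat_lit 3) (nat_lit 91) (nat_lit 1) (nat_lit 92) (nat_lit 1) (nat_lit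 314) (nat_lit 405) (nat_lit 301)))) (XT.nd (nat_lit 78) (nat_lit 228) (nat_lit 0) (XT.lf (nat_lit 0) (nat_lit 6713393886) (nat_lit 0) (nat_lit 6916017218) (nat_lit 152) (nat_lit 18780581782) (nat_lit 89) (nat_lit 3) (nat_lit 89) (nat_lit 1) (nat_lit 91) (nat_lit 1) (nat_lit 315) (nat_lit 405) (nat_lit 300)) (XT.nd (nat_lit 78) (nat_lit 152) (nat_lit 0) (XT.lf (nat_lit 76) (nat_lit 8250969231) (nat_lit 0) (nat_lit 14898629962) (nat_lit 76) (nat_lit 8438583427) (nat_lit 89) (nat_lit 3) (nat_lit 88) (nat_lit 1) (nat_lit 89) (nat_lit 1) (nat_lit 316) (nat_lit 405) (nat_lit 299)) (XT.lf (nat_lit 0) (nat_lit 7969570802) (nat_lit 0) (nat_lit 8135015420) (nat_lit 152) (nat_lit 14683280552) (nat_lit 86) (nat_lit 3) (nat_lit 86) (nat_lit 1) (nat_lit 88) (nat_lit 1) (nat_lit 317) (nat_lit 405) (nat_lit 298))))) (XT.nd (nat_lit 234) (nat_lit 456) (nat_lit 0) (XT.nd (nat_lit 78) (nat_lit 228) (nat_lit 0)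 (XT.lf (nat_lit 76) (nat_lit 6301242211) (nat_lit 0) (nat_lit 17252961257) (nat_lit 76) (nat_lit 6454431672) (nat_lit 86) (nat_lit 3) (nat_lit 85) (nat_lit 1) (nat_lit 86) (nat_lit 1) (nat_lit 318) (nat_lit 405) (nat_lit 297)) (XT.nd (nat_lit 78) (nat_lit 76) (nat_lit 0) (XT.lf (nat_lit 0) (nat_lit 9078436104) (nat_lit 0) (nat_lit 9213523812) (nat_lit 152) (nat_lit 10955399530) (nat_lit 83) (nat_lit 3) (nat_lit 83) (nat_lit 1) (nat_lit 85) (nat_lit 1) (nat_lit 319) (nat_lit 405) (nat_lit 296)) (XT.lf (nat_lit 76) (nat_lit 4527478775) (nat_lit 0) (nat_lit 19328446240) (nat_lit 76) (nat_lit 4652559985) (nat_lit 83) (nat_lit 3) (nat_lit 82) (nat_lit 1) (nat_lit 83) (nat_lit 1) (nat_lit 320) (nat_lit 405) (nat_lit 295)))) (XT.nd (nat_lit 156) (nat_lit 228) (nat_lit 0) (XT.nd (nat_lit 78) (nat_lit 76) (nat_lit 0) (XT.lf (nat_lit 0) (nat_lit 10052011037) (nat_lit 0) (nat_lit 10162311928) (nat_lit 152)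 (nat_lit 7570011008) (nat_lit 80) (nat_lit 3) (nat_lit 80) (nat_lit 1) (nat_lit 82) (nat_lit 1) (nat_lit 321) (nat_lit 405) (nat_lit 294)) (XT.lf (nat_lit 76) (nat_lit 2917144169) (nat_lit 0) (nat_lit 21147293833) (nat_lit 76) (nat_lit 3019274624) (nat_lit 80) (nat_lit 3) (nat_lit 79) (nat_lit 1) (nat_lit 80) (nat_lit 1) (nat_lit 322) (nat_lit 405) (nat_lit 293))) (XT.nd (nat_lit 78) (nat_lit 76) (nat_lit 0) (XT.lf (nat_lit 0) (nat_lit 10901431021) (nat_lit 0) (nat_lit 10991493151) (nat_lit 152) (nat_lit 4501941920) (nat_lit 77) (nat_lit 3) (nat_lit 77) (nat_lit 1) (nat_lit 79) (nat_lit 1) (nat_lit 323) (nat_lit 405) (nat_lit 292)) (XT.lf (nat_lit 76) (nat_lit 1458455149) (nat_lit 0) (nat_lit 22730203549) (nat_lit 76) (nat_lit 1541846010) (nat_lit 77) (nat_lit 3) (nat_lit 76) (nat_lit 1) (nat_lit 77) (nat_lit 1) (nat_lit 324) (nat_lit 405) (nat_lit 291)))))) (XT.nd (nat_lit 546) (nat_lit 836)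 (nat_lit 0) (XT.nd (nat_lit 234) (nat_lit 456) (nat_lit 0) (XT.nd (nat_lit 78) (nat_lit 304) (nat_lit 0) (XT.lf (nat_lit 0) (nat_lit 11637012184) (nat_lit 0) (nat_lit 11710549098) (nat_lit 152) (nat_lit 1727671578) (nat_lit 74) (nat_lit 3) (nat_lit 74) (nat_lit 1) (nat_lit 76) (nat_lit 1) (nat_lit 325) (nat_lit 405) (nat_lit 290)) (XT.nd (nat_lit 78) (nat_lit 228) (nat_lit 0) (XT.lf (nat_lit 76) (nat_lit 140349124) (nat_lit 0) (nat_lit 24096455266) (nat_lit 76) (nat_lit 208438859) (nat_lit 74) (nat_lit 3) (nat_lit 73) (nat_lit 1) (nat_lit 74) (nat_lit 1) (nat_lit 326) (nat_lit 405) (nat_lit 289)) (XT.lf (nat_lit 76) (nat_lit 11480425027) (nat_lit 0) (nat_lit 800383263) (nat_lit 76) (nat_lit 11540468885) (nat_lit 71) (nat_lit 3) (nat_lit 70) (nat_lit 1) (nat_lit 71) (nat_lit 1) (nat_lit 327) (nat_lit 405) (nat_lit 288)))) (XT.nd (nat_lit 156) (nat_lit 228) (nat_lit 0) (XT.nd (nat_lit 78) (nat_lit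 76) (nat_lit 0) (XT.lf (nat_lit 0) (nat_lit 1009992721) (nat_lit 0) (nat_lit 1062941450) (nat_lit 152) (nat_lit 21148297231) (nat_lit 68) (nat_lit 3) (nat_lit 68) (nat_lit 1) (nat_lit 70) (nat_lit 1) (nat_lit 328) (nat_lit 405) (nat_lit 287)) (XT.lf (nat_lit 76) (nat_lit 9727065351) (nat_lit 0) (nat_lit 3125924255) (nat_lit 76) (nat_lit 9776091951) (nat_lit 68) (nat_lit 3) (nat_lit 67) (nat_lit 1) (nat_lit 68) (nat_lit 1) (nat_lit 329) (nat_lit 405) (nat_lit 286))) (XT.nd (nat_lit 78) (nat_lit 76) (nat_lit 0) (XT.lf (nat_lit 0) (nat_lit 2104939448) (nat_lit 0) (nat_lit 2148172781) (nat_lit 152) (nat_lit 17805194168) (nat_lit 65) (nat_lit 3) (nat_lit 65) (nat_lit 1) (nat_lit 67) (nat_lit 1) (nat_lit 330) (nat_lit 405) (nat_lit 285)) (XT.lf (nat_lit 76) (nat_lit 8122610965) (nat_lit 0) (nat_lit 5211590502) (nat_lit 76) (nat_lit 8162641829) (nat_lit 65) (nat_lit 3) (nat_lit 64) (nat_lit 1) (nat_lit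 65) (nat_lit 1) (nat_lit 331) (nat_lit 405) (nat_lit 284))))) (XT.nd (nat_lit 234) (nat_lit 456) (nat_lit 0) (XT.nd (nat_lit 78) (nat_lit 228) (nat_lit 0) (XT.lf (nat_lit 0) (nat_lit 3084821947) (nat_lit 0) (nat_lit 3120122533) (nat_lit 152) (nat_lit 14748960488) (nat_lit 62) (nat_lit 3) (nat_lit 62) (nat_lit 1) (nat_lit 64) (nat_lit 1) (nat_lit 332) (nat_lit 405) (nat_lit 283)) (XT.nd (nat_lit 78) (nat_lit 152) (nat_lit 0) (XT.lf (nat_lit 76) (nat_lit 6656515014) (nat_lit 0) (nat_lit 7075813865) (nat_lit 76) (nat_lit 6689200742) (nat_lit 62) (nat_lit 3) (nat_lit 61) (nat_lit 1) (nat_lit 62) (nat_lit 1) (nat_lit 333) (nat_lit 405) (nat_lit 282)) (XT.lf (nat_lit 0) (nat_lit 3958622390) (nat_lit 0) (nat_lit 3987445783) (nat_lit 152) (nat_lit 11958996960) (nat_lit 59) (nat_lit 3) (nat_lit 59) (nat_lit 1) (nat_lit 61) (nat_lit 1) (nat_lit 334) (nat_lit 405) (nat_lit 281)))) (XT.nd (nat_lit 156) (nat_lit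 228) (nat_lit 0) (XT.nd (nat_lit 78) (nat_lit 152) (nat_lit 0) (XT.lf (nat_lit 76) (nat_lit 5318898841) (nat_lit 0) (nat_lit 8735776478) (nat_lit 76) (nat_lit 5345587168) (nat_lit 59) (nat_lit 3) (nat_lit 58) (nat_lit 1) (nat_lit 59) (nat_lit 1) (nat_lit 335) (nat_lit 405) (nat_lit 280)) (XT.lf (nat_lit 0) (nat_lit 4734693100) (nat_lit 0) (nat_lit 4758227780) (nat_lit 152) (nat_lit 9416055182) (nat_lit 56) (nat_lit 3) (nat_lit 56) (nat_lit 1) (nat_lit 58) (nat_lit 1) (nat_lit 336) (nat_lit 405) (nat_lit 279))) (XT.nd (nat_lit 78) (nat_lit 152) (nat_lit 0) (XT.lf (nat_lit 76) (nat_lit 4100515359) (nat_lit 0) (nat_lit 10207488438) (nat_lit 76) (nat_lit 4122306730) (nat_lit 56) (nat_lit 3) (nat_lit 55) (nat_lit 1) (nat_lit 56) (nat_lit 1) (nat_lit 337) (nat_lit 405) (nat_lit 278)) (XT.lf (nat_lit 0) (nat_lit 5420799495) (nat_lit 0) (nat_lit 5440015871) (nat_lit 152) (nat_lit 7102154866) (nat_lit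 53) (nat_lit 3) (nat_lit 53) (nat_lit 1) (nat_lit 55) (nat_lit 1) (nat_lit 338) (nat_lit 405) (nat_lit 277))))))))
noncomputable def ec201 : XT := (XT.nd (nat_lit 2106) (nat_lit 836) (nat_lit 0) (XT.nd (nat_lit 1014) (nat_lit 1596) (nat_lit 0) (XT.nd (nat_lit 468) (nat_lit 912) (nat_lit 0) (XT.nd (nat_lit 234) (nat_lit 380) (nat_lit 0) (XT.nd (nat_lit 78) (nat_lit 228) (nat_lit 0) (XT.lf (nat_lit 76) (nat_lit 2992713655) (nat_lit 0) (nat_lit 11505861212) (nat_lit 76) (nat_lit 3010506596) (nat_lit 53) (nat_lit 3) (nat_lit 52) (nat_lit 1) (nat_lit 53) (nat_lit 1) (nat_lit 339) (nat_lit 405) (nat_lit 276)) (XT.nd (nat_lit 78) (nat_lit 76) (nat_lit 0) (XT.lf (nat_lit 0) (nat_lit 6024159931) (nat_lit 0) (nat_lit 6039850355) (nat_lit 152) (nat_lit 5000505724) (nat_lit 50) (nat_lit 3) (nat_lit 50) (nat_lit 1) (nat_lit 52) (nat_lit 1) (nat_lit 340) (nat_lit 405) (nat_lit 275)) (XT.lf (nat_lit 76) (nat_lit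 1987404919) (nat_lit 0) (nat_lit 12644776906) (nat_lit 76) (nat_lit 2001933089) (nat_lit 50) (nat_lit 3) (nat_lit 49) (nat_lit 1) (nat_lit 50) (nat_lit 1) (nat_lit 341) (nat_lit 405) (nat_lit 274)))) (XT.nd (nat_lit 78) (nat_lit 228) (nat_lit 0) (XT.lf (nat_lit 0) (nat_lit 6551482714) (nat_lit 0) (nat_lit 6564294151) (nat_lit 152) (nat_lit 3095433767) (nat_lit 47) (nat_lit 3) (nat_lit 47) (nat_lit 1) (nat_lit 49) (nat_lit 1) (nat_lit 342) (nat_lit 405) (nat_lit 273)) (XT.nd (nat_lit 78) (nat_lit 152) (nat_lit 0) (XT.lf (nat_lit 76) (nat_lit 1077029789) (nat_lit 0) (nat_lit 13637153579) (nat_lit 76) (nat_lit 1088892231) (nat_lit 47) (nat_lit 3) (nat_lit 46) (nat_lit 1) (nat_lit 47) (nat_lit 1) (nat_lit 343) (nat_lit 405) (nat_lit 272)) (XT.lf (nat_lit 0) (nat_lit 7009000519) (nat_lit 0) (nat_lit 7019461227) (nat_lit 152) (nat_lit 1372311816) (nat_lit 44) (nat_lit 3) (nat_lit 44) (nat_lit 1) (nat_lit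 46) (nat_lit 1) (nat_lit 344) (nat_lit 405) (nat_lit 271))))) (XT.nd (nat_lit 234) (nat_lit 456) (nat_lit 0) (XT.nd (nat_lit 78) (nat_lit 380) (nat_lit 0) (XT.lf (nat_lit 76) (nat_lit 254527141) (nat_lit 0) (nat_lit 14495006770) (nat_lit 76) (nat_lit 264212981) (nat_lit 44) (nat_lit 3) (nat_lit 43) (nat_lit 1) (nat_lit 44) (nat_lit 1) (nat_lit 345) (nat_lit 405) (nat_lit 270)) (XT.nd (nat_lit 78) (nat_lit 152) (nat_lit 0) (XT.lf (nat_lit 76) (nat_lit 7216905634) (nat_lit 0) (nat_lit 188540446) (nat_lit 76) (nat_lit 7225446939) (nat_lit 41) (nat_lit 3) (nat_lit 40) (nat_lit 1) (nat_lit 41) (nat_lit 1) (nat_lit 346) (nat_lit 405) (nat_lit 269)) (XT.lf (nat_lit 0) (nat_lit 486889131) (nat_lit 0) (nat_lit 494421146) (nat_lit 152) (nat_lit 13281169382) (nat_lit 38) (nat_lit 3) (nat_lit 38) (nat_lit 1) (nat_lit 40) (nat_lit 1) (nat_lit 347) (nat_lit 405) (nat_lit 268)))) (XT.nd (nat_lit 156) (nat_lit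 228) (nat_lit 0) (XT.nd (nat_lit 78) (nat_lit 152) (nat_lit 0) (XT.lf (nat_lit 76) (nat_lit 6128830405) (nat_lit 0) (nat_lit 1634045426) (nat_lit 76) (nat_lit 6135804493) (nat_lit 38) (nat_lit 3) (nat_lit 37) (nat_lit 1) (nat_lit 38) (nat_lit 1) (nat_lit 348) (nat_lit 405) (nat_lit 267)) (XT.lf (nat_lit 0) (nat_lit 1165332562) (nat_lit 0) (nat_lit 1171482552) (nat_lit 152) (nat_lit 11211417416) (nat_lit 35) (nat_lit 3) (nat_lit 35) (nat_lit 1) (nat_lit 37) (nat_lit 1) (nat_lit 349) (nat_lit 405) (nat_lit 266))) (XT.nd (nat_lit 78) (nat_lit 152) (nat_lit 0) (XT.lf (nat_lit 76) (nat_lit 5133251402) (nat_lit 0) (nat_lit 2931085095) (nat_lit 76) (nat_lit 5138945837) (nat_lit 35) (nat_lit 3) (nat_lit 34) (nat_lit 1) (nat_lit 35) (nat_lit 1) (nat_lit 350) (nat_lit 405) (nat_lit 265)) (XT.lf (nat_lit 0) (nat_lit 1772987992) (nat_lit 0) (nat_lit 1778009539) (nat_lit 152) (nat_lit 9318923697) (nat_lit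 32) (nat_lit 3) (nat_lit 32) (nat_lit 1) (nat_lit 34) (nat_lit 1) (nat_lit 351) (nat_lit 405) (nat_lit 264)))))) (XT.nd (nat_lit 546) (nat_lit 836) (nat_lit 0) (XT.nd (nat_lit 234) (nat_lit 456) (nat_lit 0) (XT.nd (nat_lit 78) (nat_lit 228) (nat_lit 0) (XT.lf (nat_lit 76) (nat_lit 4223553382) (nat_lit 0) (nat_lit 4091082488) (nat_lit 76) (nat_lit 4228202963) (nat_lit 32) (nat_lit 3) (nat_lit 31) (nat_lit 1) (nat_lit 32) (nat_lit 1) (nat_lit 352) (nat_lit 405) (nat_lit 263)) (XT.nd (nat_lit 78) (nat_lit 76) (nat_lit 0) (XT.lf (nat_lit 0) (nat_lit 2315342351) (nat_lit 0) (nat_lit 2319442510) (nat_lit 152) (nat_lit 7590943856) (nat_lit 29) (nat_lit 3) (nat_lit 29) (nat_lit 1) (nat_lit 31) (nat_lit 1) (nat_lit 353) (nat_lit 405) (nat_lit 262)) (XT.lf (nat_lit 76) (nat_lit 3393553900) (nat_lit 0) (nat_lit 5124679901) (nat_lit 76) (nat_lit 3397350344) (nat_lit 29) (nat_lit 3) (nat_lit 28) (nat_lit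 1) (nat_lit 29) (nat_lit 1) (nat_lit 354) (nat_lit 405) (nat_lit 261)))) (XT.nd (nat_lit 156) (nat_lit 228) (nat_lit 0) (XT.nd (nat_lit 78) (nat_lit 76) (nat_lit 0) (XT.lf (nat_lit 0) (nat_lit 2797503908) (nat_lit 0) (nat_lit 2800851743) (nat_lit 152) (nat_lit 6015574711) (nat_lit 26) (nat_lit 3) (nat_lit 26) (nat_lit 1) (nat_lit 28) (nat_lit 1) (nat_lit 355) (nat_lit 405) (nat_lit 260)) (XT.lf (nat_lit 76) (nat_lit 2637476852) (nat_lit 0) (nat_lit 6041788728) (nat_lit 76) (nat_lit 2640576698) (nat_lit 26) (nat_lit 3) (nat_lit 25) (nat_lit 1) (nat_lit 26) (nat_lit 1) (nat_lit 356) (nat_lit 405) (nat_lit 259))) (XT.nd (nat_lit 78) (nat_lit 76) (nat_lit 0) (XT.lf (nat_lit 0) (nat_lit 3224226998) (nat_lit 0) (nat_lit 3226960548) (nat_lit 152) (nat_lit 4581701634) (nat_lit 23) (nat_lit 3) (nat_lit 23) (nat_lit 1) (nat_lit 25) (nat_lit 1) (nat_lit 357) (nat_lit 405) (nat_lit 258)) (XT.lf (nat_lit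 76) (nat_lit 1949927493) (nat_lit 0) (nat_lit 6851636290) (nat_lit 76) (nat_lit 1952458558) (nat_lit 23) (nat_lit 3) (nat_lit 22) (nat_lit 1) (nat_lit 23) (nat_lit 1) (nat_lit 358) (nat_lit 405) (nat_lit 257))))) (XT.nd (nat_lit 234) (nat_lit 456) (nat_lit 0) (XT.nd (nat_lit 78) (nat_lit 228) (nat_lit 0) (XT.lf (nat_lit 0) (nat_lit 3599935154) (nat_lit 0) (nat_lit 3602167134) (nat_lit 152) (nat_lit 3278949078) (nat_lit 20) (nat_lit 3) (nat_lit 20) (nat_lit 1) (nat_lit 22) (nat_lit 1) (nat_lit 359) (nat_lit 405) (nat_lit 256)) (XT.nd (nat_lit 78) (nat_lit 152) (nat_lit 0) (XT.lf (nat_lit 76) (nat_lit 1325868861) (nat_lit 0) (nat_lit 7562809820) (nat_lit 76) (nat_lit 1327935509) (nat_lit 20) (nat_lit 3) (nat_lit 19) (nat_lit 1) (nat_lit 20) (nat_lit 1) (nat_lit 360) (nat_lit 405) (nat_lit 255)) (XT.lf (nat_lit 0) (nat_lit 3928742764) (nat_lit 0) (nat_lit 3930565205) (nat_lit 152) (nat_lit 2097634059)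 (nat_lit 17) (nat_lit 3) (nat_lit 17) (nat_lit 1) (nat_lit 19) (nat_lit 1) (nat_lit 361) (nat_lit 405) (nat_lit 254)))) (XT.nd (nat_lit 156) (nat_lit 228) (nat_lit 0) (XT.nd (nat_lit 78) (nat_lit 152) (nat_lit 0) (XT.lf (nat_lit 76) (nat_lit 760599544) (nat_lit 0) (nat_lit 8183297767) (nat_lit 76) (nat_lit 762286989) (nat_lit 17) (nat_lit 3) (nat_lit 16) (nat_lit 1) (nat_lit 17) (nat_lit 1) (nat_lit 362) (nat_lit 405) (nat_lit 253)) (XT.lf (nat_lit 0) (nat_lit 4214475326) (nat_lit 0) (nat_lit 4215963373) (nat_lit 152) (nat_lit 1028722454) (nat_lit 14) (nat_lit 3) (nat_lit 14) (nat_lit 1) (nat_lit 16) (nat_lit 1) (nat_lit 363) (nat_lit 405) (nat_lit 252))) (XT.nd (nat_lit 78) (nat_lit 152) (nat_lit 0) (XT.lf (nat_lit 76) (nat_lit 249732728) (nat_lit 0) (nat_lit 8720528576) (nat_lit 76) (nat_lit 251110550) (nat_lit 14) (nat_lit 3) (nat_lit 13) (nat_lit 1) (nat_lit 14) (nat_lit 1) (nat_lit 364)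 (nat_lit 405) (nat_lit 251)) (XT.lf (nat_lit 0) (nat_lit 4460688424) (nat_lit 0) (nat_lit 4461903434) (nat_lit 152) (nat_lit 63787930) (nat_lit 11) (nat_lit 3) (nat_lit 11) (nat_lit 1) (nat_lit 13) (nat_lit 1) (nat_lit 365) (nat_lit 405) (nat_lit 250))))))) (XT.nd (nat_lit 1014) (nat_lit 0) (nat_lit 0) (XT.nd (nat_lit 468) (nat_lit 76) (nat_lit 0) (XT.nd (nat_lit 234) (nat_lit 304) (nat_lit 0) (XT.nd (nat_lit 78) (nat_lit 228) (nat_lit 0) (XT.lf (nat_lit 0) (nat_lit 213172206) (nat_lit 0) (nat_lit 214243643) (nat_lit 152) (nat_lit 8332796217) (nat_lit 8) (nat_lit 3) (nat_lit 8) (nat_lit 1) (nat_lit 10) (nat_lit 1) (nat_lit 366) (nat_lit 405) (nat_lit 249)) (XT.nd (nat_lit 78) (nat_lit 152) (nat_lit 0) (XT.lf (nat_lit 76) (nat_lit 3852025337) (nat_lit 0) (nat_lit 831644441) (nat_lit 76) (nat_lit 3853017409) (nat_lit 8) (nat_lit 3) (nat_lit 7) (nat_lit 1) (nat_lit 8) (nat_lit 1) (nat_lit 367) (nat_lit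 405) (nat_lit 248)) (XT.lf (nat_lit 0) (nat_lit 634224638) (nat_lit 0) (nat_lit 635099481) (nat_lit 152) (nat_lit 7052174816) (nat_lit 5) (nat_lit 3) (nat_lit 5) (nat_lit 1) (nat_lit 7) (nat_lit 1) (nat_lit 368) (nat_lit 405) (nat_lit 247)))) (XT.nd (nat_lit 78) (nat_lit 228) (nat_lit 0) (XT.lf (nat_lit 76) (nat_lit 3235645525) (nat_lit 0) (nat_lit 1637454096) (nat_lit 76) (nat_lit 3236455565) (nat_lit 5) (nat_lit 3) (nat_lit 4) (nat_lit 1) (nat_lit 5) (nat_lit 1) (nat_lit 369) (nat_lit 405) (nat_lit 246)) (XT.nd (nat_lit 78) (nat_lit 76) (nat_lit 0) (XT.lf (nat_lit 0) (nat_lit 1011597781) (nat_lit 0) (nat_lit 1012312102) (nat_lit 152) (nat_lit 5880948482) (nat_lit 2) (nat_lit 3) (nat_lit 2) (nat_lit 1) (nat_lit 4) (nat_lit 1) (nat_lit 370) (nat_lit 405) (nat_lit 245)) (XT.lf (nat_lit 76) (nat_lit 2672324374) (nat_lit 0) (nat_lit 2358582743) (nat_lit 76) (nat_lit 2672985782) (nat_lit 2) (nat_lit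 3) (nat_lit 1) (nat_lit 1) (nat_lit 2) (nat_lit 1) (nat_lit 371) (nat_lit 405) (nat_lit 244))))) (XT.nd (nat_lit 234) (nat_lit 0) (nat_lit 0) (XT.nd (nat_lit 78) (nat_lit 0) (nat_lit 0) (XT.lf (nat_lit 0) (nat_lit 159751758770) (nat_lit 0) (nat_lit 0) (nat_lit 0) (nat_lit 0) (nat_lit 0) (nat_lit 0) (nat_lit 1) (nat_lit 0) (nat_lit 1) (nat_lit 0) (nat_lit 372) (nat_lit 405) (nat_lit 243)) (XT.nd (nat_lit 78) (nat_lit 0) (nat_lit 0) (XT.lf (nat_lit 0) (nat_lit 159751713223) (nat_lit 0) (nat_lit 0) (nat_lit 0) (nat_lit 0) (nat_lit 0) (nat_lit 0) (nat_lit 1) (nat_lit 0) (nat_lit 1) (nat_lit 0) (nat_lit 373) (nat_lit 405) (nat_lit 242)) (XT.lf (nat_lit 0) (nat_lit 159751671050) (nat_lit 0) (nat_lit 0) (nat_lit 0) (nat_lit 0) (nat_lit 0) (nat_lit 0) (nat_lit 1) (nat_lit 0) (nat_lit 1) (nat_lit 0) (nat_lit 374) (nat_lit 405) (nat_lit 241)))) (XT.nd (nat_lit 156) (nat_lit 0) (nat_lit 0) (XT.nd (nat_lit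 78) (nat_lit 0) (nat_lit 0) (XT.lf (nat_lit 0) (nat_lit 159751632000) (nat_lit 0) (nat_lit 0) (nat_lit 0) (nat_lit 0) (nat_lit 0) (nat_lit 0) (nat_lit 1) (nat_lit 0) (nat_lit 1) (nat_lit 0) (nat_lit 375) (nat_lit 405) (nat_lit 240)) (XT.lf (nat_lit 0) (nat_lit 159751595843) (nat_lit 0) (nat_lit 0) (nat_lit 0) (nat_lit 0) (nat_lit 0) (nat_lit 0) (nat_lit 1) (nat_lit 0) (nat_lit 1) (nat_lit 0) (nat_lit 376) (nat_lit 405) (nat_lit 239))) (XT.nd (nat_lit 78) (nat_lit 0) (nat_lit 0) (XT.lf (nat_lit 0) (nat_lit 159751562365) (nat_lit 0) (nat_lit 0) (nat_lit 0) (nat_lit 0) (nat_lit 0) (nat_lit 0) (nat_lit 1) (nat_lit 0) (nat_lit 1) (nat_lit 0) (nat_lit 377) (nat_lit 405) (nat_lit 238)) (XT.lf (nat_lit 0) (nat_lit 159751531366) (nat_lit 0) (nat_lit 0) (nat_lit 0) (nat_lit 0) (nat_lit 0) (nat_lit 0) (nat_lit 1) (nat_lit 0) (nat_lit 1) (nat_lit 0) (nat_lit 378) (nat_lit 405) (nat_lit 237)))))) (XT.nd (nat_lit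 546) (nat_lit 0) (nat_lit 0) (XT.nd (nat_lit 234) (nat_lit 0) (nat_lit 0) (XT.nd (nat_lit 78) (nat_lit 0) (nat_lit 0) (XT.lf (nat_lit 0) (nat_lit 159751502664) (nat_lit 0) (nat_lit 0) (nat_lit 0) (nat_lit 0) (nat_lit 0) (nat_lit 0) (nat_lit 1) (nat_lit 0) (nat_lit 1) (nat_lit 0) (nat_lit 379) (nat_lit 405) (nat_lit 236)) (XT.nd (nat_lit 78) (nat_lit 0) (nat_lit 0) (XT.lf (nat_lit 0) (nat_lit 159751476087) (nat_lit 0) (nat_lit 0) (nat_lit 0) (nat_lit 0) (nat_lit 0) (nat_lit 0) (nat_lit 1) (nat_lit 0) (nat_lit 1) (nat_lit 0) (nat_lit 380) (nat_lit 405) (nat_lit 235)) (XT.lf (nat_lit 0) (nat_lit 159751451479) (nat_lit 0) (nat_lit 0) (nat_lit 0) (nat_lit 0) (nat_lit 0) (nat_lit 0) (nat_lit 1) (nat_lit 0) (nat_lit 1) (nat_lit 0) (nat_lit 381) (nat_lit 405) (nat_lit 234)))) (XT.nd (nat_lit 156) (nat_lit 0) (nat_lit 0) (XT.nd (nat_lit 78) (nat_lit 0) (nat_lit 0) (XT.lf (nat_lit 0) (nat_lit 159751428695)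 (nat_lit 0) (nat_lit 0) (nat_lit 0) (nat_lit 0) (nat_lit 0) (nat_lit 0) (nat_lit 1) (nat_lit 0) (nat_lit 1) (nat_lit 0) (nat_lit 382) (nat_lit 405) (nat_lit 233)) (XT.lf (nat_lit 0) (nat_lit 159751407597) (nat_lit 0) (nat_lit 0) (nat_lit 0) (nat_lit 0) (nat_lit 0) (nat_lit 0) (nat_lit 1) (nat_lit 0) (nat_lit 1) (nat_lit 0) (nat_lit 383) (nat_lit 405) (nat_lit 232))) (XT.nd (nat_lit 78) (nat_lit 0) (nat_lit 0) (XT.lf (nat_lit 0) (nat_lit 159751388063) (nat_lit 0) (nat_lit 0) (nat_lit 0) (nat_lit 0) (nat_lit 0) (nat_lit 0) (nat_lit 1) (nat_lit 0) (nat_lit 1) (nat_lit 0) (nat_lit 384) (nat_lit 405) (nat_lit 231)) (XT.lf (nat_lit 0) (nat_lit 159751369976) (nat_lit 0) (nat_lit 0) (nat_lit 0) (nat_lit 0) (nat_lit 0) (nat_lit 0) (nat_lit 1) (nat_lit 0) (nat_lit 1) (nat_lit 0) (nat_lit 385) (nat_lit 405) (nat_lit 230))))) (XT.nd (nat_lit 234) (nat_lit 0) (nat_lit 0) (XT.nd (nat_lit 78) (nat_lit 0) (nat_lit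 0) (XT.lf (nat_lit 0) (nat_lit 159751353228) (nat_lit 0) (nat_lit 0) (nat_lit 0) (nat_lit 0) (nat_lit 0) (nat_lit 0) (nat_lit 1) (nat_lit 0) (nat_lit 1) (nat_lit 0) (nat_lit 386) (nat_lit 405) (nat_lit 229)) (XT.nd (nat_lit 78) (nat_lit 0) (nat_lit 0) (XT.lf (nat_lit 0) (nat_lit 159751337721) (nat_lit 0) (nat_lit 0) (nat_lit 0) (nat_lit 0) (nat_lit 0) (nat_lit 0) (nat_lit 1) (nat_lit 0) (nat_lit 1) (nat_lit 0) (nat_lit 387) (nat_lit 405) (nat_lit 228)) (XT.lf (nat_lit 0) (nat_lit 159751323362) (nat_lit 0) (nat_lit 0) (nat_lit 0) (nat_lit 0) (nat_lit 0) (nat_lit 0) (nat_lit 1) (nat_lit 0) (nat_lit 1) (nat_lit 0) (nat_lit 388) (nat_lit 405) (nat_lit 227)))) (XT.nd (nat_lit 156) (nat_lit 0) (nat_lit 0) (XT.nd (nat_lit 78) (nat_lit 0) (nat_lit 0) (XT.lf (nat_lit 0) (nat_lit 159751310068) (nat_lit 0) (nat_lit 0) (nat_lit 0) (nat_lit 0) (nat_lit 0) (nat_lit 0) (nat_lit 1) (nat_lit 0) (nat_lit 1) (nat_lit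 0) (nat_lit 389) (nat_lit 405) (nat_lit 226)) (XT.lf (nat_lit 0) (nat_lit 159751297758) (nat_lit 0) (nat_lit 0) (nat_lit 0) (nat_lit 0) (nat_lit 0) (nat_lit 0) (nat_lit 1) (nat_lit 0) (nat_lit 1) (nat_lit 0) (nat_lit 390) (nat_lit 405) (nat_lit 225))) (XT.nd (nat_lit 78) (nat_lit 0) (nat_lit 0) (XT.lf (nat_lit 0) (nat_lit 159751286360) (nat_lit 0) (nat_lit 0) (nat_lit 0) (nat_lit 0) (nat_lit 0) (nat_lit 0) (nat_lit 1) (nat_lit 0) (nat_lit 1) (nat_lit 0) (nat_lit 391) (nat_lit 405) (nat_lit 224)) (XT.lf (nat_lit 0) (nat_lit 159751275806) (nat_lit 0) (nat_lit 0) (nat_lit 0) (nat_lit 0) (nat_lit 0) (nat_lit 0) (nat_lit 1) (nat_lit 0) (nat_lit 1) (nat_lit 0) (nat_lit 392) (nat_lit 405) (nat_lit 223))))))))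
noncomputable def ec202 : XT := (XT.nd (nat_lit 38922) (nat_lit 0) (nat_lit 16112) (XT.nd (nat_lit 1014) (nat_lit 0) (nat_lit 0) (XT.nd (nat_lit 468) (nat_lit 0) (nat_lit 0) (XT.nd (nat_lit 234) (nat_lit 0) (nat_lit 0) (XT.nd (nat_lit 78) (nat_lit 0) (nat_lit 0) (XT.lf (nat_lit 0) (nat_lit 159751266034) (nat_lit 0) (nat_lit 0) (nat_lit 0) (nat_lit 0) (nat_lit 0) (nat_lit 0) (nat_lit 1) (nat_lit 0) (nat_lit 1) (nat_lit 0) (nat_lit 393) (nat_lit 405) (nat_lit 222)) (XT.nd (nat_lit 78) (nat_lit 0) (nat_lit 0) (XT.lf (nat_lit 0) (nat_lit 159751256985) (nat_lit 0) (nat_lit 0) (nat_lit 0) (nat_lit 0) (nat_lit 0) (nat_lit 0) (nat_lit 1) (nat_lit 0) (nat_lit 1) (nat_lit 0) (nat_lit 394) (nat_lit 405) (nat_lit 221)) (XT.lf (nat_lit 0) (nat_lit 159751248607) (nat_lit 0) (nat_lit 0) (nat_lit 0) (nat_lit 0) (nat_lit 0) (nat_lit 0) (nat_lit 1) (nat_lit 0) (nat_lit 1) (nat_lit 0) (nat_lit 395) (nat_lit 405)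 (nat_lit 220)))) (XT.nd (nat_lit 78) (nat_lit 0) (nat_lit 0) (XT.lf (nat_lit 0) (nat_lit 159751240850) (nat_lit 0) (nat_lit 0) (nat_lit 0) (nat_lit 0) (nat_lit 0) (nat_lit 0) (nat_lit 1) (nat_lit 0) (nat_lit 1) (nat_lit 0) (nat_lit 396) (nat_lit 405) (nat_lit 219)) (XT.nd (nat_lit 78) (nat_lit 0) (nat_lit 0) (XT.lf (nat_lit 0) (nat_lit 159751233667) (nat_lit 0) (nat_lit 0) (nat_lit 0) (nat_lit 0) (nat_lit 0) (nat_lit 0) (nat_lit 1) (nat_lit 0) (nat_lit 1) (nat_lit 0) (nat_lit 397) (nat_lit 405) (nat_lit 218)) (XT.lf (nat_lit 0) (nat_lit 159751227017) (nat_lit 0) (nat_lit 0) (nat_lit 0) (nat_lit 0) (nat_lit 0) (nat_lit 0) (nat_lit 1) (nat_lit 0) (nat_lit 1) (nat_lit 0) (nat_lit 398) (nat_lit 405) (nat_lit 217))))) (XT.nd (nat_lit 234) (nat_lit 0) (nat_lit 0) (XT.nd (nat_lit 78) (nat_lit 0) (nat_lit 0) (XT.lf (nat_lit 0) (nat_lit 159751220859) (nat_lit 0) (nat_lit 0) (nat_lit 0) (nat_lit 0) (nat_lit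 0) (nat_lit 0) (nat_lit 1) (nat_lit 0) (nat_lit 1) (nat_lit 0) (nat_lit 399) (nat_lit 405) (nat_lit 216)) (XT.nd (nat_lit 78) (nat_lit 0) (nat_lit 0) (XT.lf (nat_lit 0) (nat_lit 159751215157) (nat_lit 0) (nat_lit 0) (nat_lit 0) (nat_lit 0) (nat_lit 0) (nat_lit 0) (nat_lit 1) (nat_lit 0) (nat_lit 1) (nat_lit 0) (nat_lit 400) (nat_lit 405) (nat_lit 215)) (XT.lf (nat_lit 0) (nat_lit 159751209877) (nat_lit 0) (nat_lit 0) (nat_lit 0) (nat_lit 0) (nat_lit 0) (nat_lit 0) (nat_lit 1) (nat_lit 0) (nat_lit 1) (nat_lit 0) (nat_lit 401) (nat_lit 405) (nat_lit 214)))) (XT.nd (nat_lit 156) (nat_lit 0) (nat_lit 0) (XT.nd (nat_lit 78) (nat_lit 0) (nat_lit 0) (XT.lf (nat_lit 0) (nat_lit 159751204989) (nat_lit 0) (nat_lit 0) (nat_lit 0) (nat_lit 0) (nat_lit 0) (nat_lit 0) (nat_lit 1) (nat_lit 0) (nat_lit 1) (nat_lit 0) (nat_lit 402) (nat_lit 405) (nat_lit 213)) (XT.lf (nat_lit 0) (nat_lit 159751200462) (nat_lit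 0) (nat_lit 0) (nat_lit 0) (nat_lit 0) (nat_lit 0) (nat_lit 0) (nat_lit 1) (nat_lit 0) (nat_lit 1) (nat_lit 0) (nat_lit 403) (nat_lit 405) (nat_lit 212))) (XT.nd (nat_lit 78) (nat_lit 0) (nat_lit 0) (XT.lf (nat_lit 0) (nat_lit 159751196271) (nat_lit 0) (nat_lit 0) (nat_lit 0) (nat_lit 0) (nat_lit 0) (nat_lit 0) (nat_lit 1) (nat_lit 0) (nat_lit 1) (nat_lit 0) (nat_lit 404) (nat_lit 405) (nat_lit 211)) (XT.lf (nat_lit 0) (nat_lit 159751192391) (nat_lit 0) (nat_lit 0) (nat_lit 0) (nat_lit 0) (nat_lit 0) (nat_lit 0) (nat_lit 1) (nat_lit 0) (nat_lit 1) (nat_lit 0) (nat_lit 405) (nat_lit 405) (nat_lit 210)))))) (XT.nd (nat_lit 468) (nat_lit 0) (nat_lit 0) (XT.nd (nat_lit 234) (nat_lit 0) (nat_lit 0) (XT.nd (nat_lit 78) (nat_lit 0) (nat_lit 0) (XT.lf (nat_lit 0) (nat_lit 159751188797) (nat_lit 0) (nat_lit 0) (nat_lit 0) (nat_lit 0) (nat_lit 0) (nat_lit 0) (nat_lit 1) (nat_lit 0) (nat_lit 1) (nat_lit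 0) (nat_lit 406) (nat_lit 405) (nat_lit 209)) (XT.nd (nat_lit 78) (nat_lit 0) (nat_lit 0) (XT.lf (nat_lit 0) (nat_lit 159751185470) (nat_lit 0) (nat_lit 0) (nat_lit 0) (nat_lit 0) (nat_lit 0) (nat_lit 0) (nat_lit 1) (nat_lit 0) (nat_lit 1) (nat_lit 0) (nat_lit 407) (nat_lit 405) (nat_lit 208)) (XT.lf (nat_lit 0) (nat_lit 159751182390) (nat_lit 0) (nat_lit 0) (nat_lit 0) (nat_lit 0) (nat_lit 0) (nat_lit 0) (nat_lit 1) (nat_lit 0) (nat_lit 1) (nat_lit 0) (nat_lit 408) (nat_lit 405) (nat_lit 207)))) (XT.nd (nat_lit 78) (nat_lit 0) (nat_lit 0) (XT.lf (nat_lit 0) (nat_lit 159751179537) (nat_lit 0) (nat_lit 0) (nat_lit 0) (nat_lit 0) (nat_lit 0) (nat_lit 0) (nat_lit 1) (nat_lit 0) (nat_lit 1) (nat_lit 0) (nat_lit 409) (nat_lit 405) (nat_lit 206)) (XT.nd (nat_lit 78) (nat_lit 0) (nat_lit 0) (XT.lf (nat_lit 0) (nat_lit 159751176896) (nat_lit 0) (nat_lit 0) (nat_lit 0) (nat_lit 0) (nat_lit 0) (nat_lit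 0) (nat_lit 1) (nat_lit 0) (nat_lit 1) (nat_lit 0) (nat_lit 410) (nat_lit 405) (nat_lit 205)) (XT.lf (nat_lit 0) (nat_lit 159751174451) (nat_lit 0) (nat_lit 0) (nat_lit 0) (nat_lit 0) (nat_lit 0) (nat_lit 0) (nat_lit 1) (nat_lit 0) (nat_lit 1) (nat_lit 0) (nat_lit 411) (nat_lit 405) (nat_lit 204))))) (XT.nd (nat_lit 234) (nat_lit 0) (nat_lit 0) (XT.nd (nat_lit 78) (nat_lit 0) (nat_lit 0) (XT.lf (nat_lit 0) (nat_lit 159751172187) (nat_lit 0) (nat_lit 0) (nat_lit 0) (nat_lit 0) (nat_lit 0) (nat_lit 0) (nat_lit 1) (nat_lit 0) (nat_lit 1) (nat_lit 0) (nat_lit 412) (nat_lit 405) (nat_lit 203)) (XT.nd (nat_lit 78) (nat_lit 0) (nat_lit 0) (XT.lf (nat_lit 0) (nat_lit 159751170090) (nat_lit 0) (nat_lit 0) (nat_lit 0) (nat_lit 0) (nat_lit 0) (nat_lit 0) (nat_lit 1) (nat_lit 0) (nat_lit 1) (nat_lit 0) (nat_lit 413) (nat_lit 405) (nat_lit 202)) (XT.lf (nat_lit 0) (nat_lit 159751168149) (nat_lit 0) (nat_lit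 0) (nat_lit 0) (nat_lit 0) (nat_lit 0) (nat_lit 0) (nat_lit 1) (nat_lit 0) (nat_lit 1) (nat_lit 0) (nat_lit 414) (nat_lit 405) (nat_lit 201)))) (XT.nd (nat_lit 37050) (nat_lit 0) (nat_lit 22268) (XT.nd (nat_lit 36972) (nat_lit 0) (nat_lit 22192) (XT.lf (nat_lit 0) (nat_lit 159751166351) (nat_lit 0) (nat_lit 0) (nat_lit 0) (nat_lit 0) (nat_lit 0) (nat_lit 0) (nat_lit 1) (nat_lit 0) (nat_lit 1) (nat_lit 0) (nat_lit 415) (nat_lit 405) (nat_lit 200)) (XT.lf (nat_lit 836) (nat_lit 86341092797) (nat_lit 0) (nat_lit 153298411798) (nat_lit 836) (nat_lit 86341092797) (nat_lit 303) (nat_lit 1) (nat_lit 292) (nat_lit 0) (nat_lit 303) (nat_lit 0) (nat_lit 208) (nat_lit 406) (nat_lit 406))) (XT.nd (nat_lit 78) (nat_lit 0) (nat_lit 0) (XT.lf (nat_lit 836) (nat_lit 32207876915) (nat_lit 0) (nat_lit 300971243471) (nat_lit 760) (nat_lit 294348870592) (nat_lit 304) (nat_lit 1) (nat_lit 293) (nat_lit 1) (nat_lit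 303) (nat_lit 1) (nat_lit 209) (nat_lit 406) (nat_lit 405)) (XT.lf (nat_lit 836) (nat_lit 295810758811) (nat_lit 76) (nat_lit 201560543203) (nat_lit 0) (nat_lit 106898517709) (nat_lit 304) (nat_lit 1) (nat_lit 294) (nat_lit 1) (nat_lit 293) (nat_lit 1) (nat_lit 210) (nat_lit 406) (nat_lit 404))))))) (XT.nd (nat_lit 1014) (nat_lit 3116) (nat_lit 0) (XT.nd (nat_lit 468) (nat_lit 2052) (nat_lit 0) (XT.nd (nat_lit 234) (nat_lit 1064) (nat_lit 0) (XT.nd (nat_lit 78) (nat_lit 0) (nat_lit 76) (XT.lf (nat_lit 836) (nat_lit 255604728779) (nat_lit 76) (nat_lit 84472626570) (nat_lit 0) (nat_lit 242098191000) (nat_lit 305) (nat_lit 1) (nat_lit 295) (nat_lit 1) (nat_lit 294) (nat_lit 1) (nat_lit 211) (nat_lit 406) (nat_lit 403)) (XT.nd (nat_lit 78) (nat_lit 0) (nat_lit 76) (XT.lf (nat_lit 836) (nat_lit 189169230056) (nat_lit 0) (nat_lit 353926687792) (nat_lit 760) (nat_lit 18092681714) (nat_lit 306) (nat_lit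 1) (nat_lit 295) (nat_lit 1) (nat_lit 305) (nat_lit 1) (nat_lit 212) (nat_lit 406) (nat_lit 402)) (XT.lf (nat_lit 836) (nat_lit 45389301998) (nat_lit 0) (nat_lit 390302497937) (nat_lit 760) (nat_lit 105512126454) (nat_lit 307) (nat_lit 1) (nat_lit 296) (nat_lit 1) (nat_lit 306) (nat_lit 1) (nat_lit 213) (nat_lit 406) (nat_lit 401)))) (XT.nd (nat_lit 78) (nat_lit 1216) (nat_lit 0) (XT.lf (nat_lit 836) (nat_lit 87219777049) (nat_lit 76) (nat_lit 339204654404) (nat_lit 0) (nat_lit 95727738463) (nat_lit 307) (nat_lit 1) (nat_lit 297) (nat_lit 1) (nat_lit 296) (nat_lit 1) (nat_lit 214) (nat_lit 406) (nat_lit 400)) (XT.nd (nat_lit 78) (nat_lit 532) (nat_lit 0) (XT.lf (nat_lit 836) (nat_lit 17912953328) (nat_lit 0) (nat_lit 253577916692) (nat_lit 760) (nat_lit 232528292659) (nat_lit 298) (nat_lit 1) (nat_lit 287) (nat_lit 1) (nat_lit 297) (nat_lit 1) (nat_lit 215) (nat_lit 406) (nat_lit 399)) (XT.lf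 (nat_lit 76) (nat_lit 124033020261) (nat_lit 0) (nat_lit 53749279708) (nat_lit 532) (nat_lit 308962435856) (nat_lit 281) (nat_lit 1) (nat_lit 280) (nat_lit 1) (nat_lit 287) (nat_lit 1) (nat_lit 216) (nat_lit 406) (nat_lit 398))))) (XT.nd (nat_lit 234) (nat_lit 988) (nat_lit 0) (XT.nd (nat_lit 78) (nat_lit 684) (nat_lit 0) (XT.lf (nat_lit 456) (nat_lit 341819392200) (nat_lit 0) (nat_lit 111269581192) (nat_lit 380) (nat_lit 17202964776) (nat_lit 281) (nat_lit 1) (nat_lit 275) (nat_lit 1) (nat_lit 280) (nat_lit 1) (nat_lit 217) (nat_lit 406) (nat_lit 397)) (XT.nd (nat_lit 78) (nat_lit 304) (nat_lit 0) (XT.lf (nat_lit 456) (nat_lit 246660128463) (nat_lit 0) (nat_lit 51863231103) (nat_lit 380) (nat_lit 156023221826) (nat_lit 276) (nat_lit 1) (nat_lit 270) (nat_lit 1) (nat_lit 275) (nat_lit 1) (nat_lit 218) (nat_lit 406) (nat_lit 396)) (XT.lf (nat_lit 380) (nat_lit 150089542281) (nat_lit 0) (nat_lit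 954886367) (nat_lit 304) (nat_lit 288520254081) (nat_lit 271) (nat_lit 1) (nat_lit 266) (nat_lit 1) (nat_lit 270) (nat_lit 1) (nat_lit 219) (nat_lit 406) (nat_lit 395)))) (XT.nd (nat_lit 156) (nat_lit 608) (nat_lit 0) (XT.nd (nat_lit 78) (nat_lit 380) (nat_lit 0) (XT.lf (nat_lit 76) (nat_lit 11072897108) (nat_lit 0) (nat_lit 373431745137) (nat_lit 380) (nat_lit 40767335911) (nat_lit 267) (nat_lit 1) (nat_lit 266) (nat_lit 1) (nat_lit 271) (nat_lit 1) (nat_lit 220) (nat_lit 406) (nat_lit 394)) (XT.lf (nat_lit 76) (nat_lit 285905075311) (nat_lit 0) (nat_lit 47420415906) (nat_lit 380) (nat_lit 78204878029) (nat_lit 262) (nat_lit 1) (nat_lit 261) (nat_lit 1) (nat_lit 266) (nat_lit 1) (nat_lit 221) (nat_lit 406) (nat_lit 393))) (XT.nd (nat_lit 78) (nat_lit 304) (nat_lit 0) (XT.lf (nat_lit 76) (nat_lit 143045554198) (nat_lit 0) (nat_lit 145257151813) (nat_lit 380) (nat_lit 110093228671) (nat_lit 258)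 (nat_lit 1) (nat_lit 257) (nat_lit 1) (nat_lit 262) (nat_lit 1) (nat_lit 222) (nat_lit 406) (nat_lit 392)) (XT.lf (nat_lit 76) (nat_lit 7060411357) (nat_lit 0) (nat_lit 242867702309) (nat_lit 380) (nat_lit 135955258520) (nat_lit 254) (nat_lit 1) (nat_lit 253) (nat_lit 1) (nat_lit 258) (nat_lit 1) (nat_lit 223) (nat_lit 406) (nat_lit 391)))))) (XT.nd (nat_lit 546) (nat_lit 1368) (nat_lit 0) (XT.nd (nat_lit 234) (nat_lit 912) (nat_lit 0) (XT.nd (nat_lit 78) (nat_lit 608) (nat_lit 0) (XT.lf (nat_lit 304) (nat_lit 31884419766) (nat_lit 0) (nat_lit 215619068785) (nat_lit 228) (nat_lit 126357729775) (nat_lit 254) (nat_lit 1) (nat_lit 250) (nat_lit 1) (nat_lit 253) (nat_lit 1) (nat_lit 224) (nat_lit 406) (nat_lit 390)) (XT.nd (nat_lit 78) (nat_lit 228) (nat_lit 0) (XT.lf (nat_lit 76) (nat_lit 110169242729) (nat_lit 0) (nat_lit 75510683528) (nat_lit 380) (nat_lit 176655795181) (nat_lit 246) (nat_lit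 1) (nat_lit 245) (nat_lit 1) (nat_lit 250) (nat_lit 1) (nat_lit 225) (nat_lit 406) (nat_lit 389)) (XT.lf (nat_lit 304) (nat_lit 170568486884) (nat_lit 0) (nat_lit 160227047970) (nat_lit 228) (nat_lit 20508871978) (nat_lit 246) (nat_lit 1) (nat_lit 242) (nat_lit 1) (nat_lit 245) (nat_lit 1) (nat_lit 226) (nat_lit 406) (nat_lit 388)))) (XT.nd (nat_lit 156) (nat_lit 380) (nat_lit 0) (XT.nd (nat_lit 78) (nat_lit 304) (nat_lit 0) (XT.lf (nat_lit 304) (nat_lit 54666376019) (nat_lit 0) (nat_lit 137948927068) (nat_lit 228) (nat_lit 148081725639) (nat_lit 243) (nat_lit 1) (nat_lit 239) (nat_lit 1) (nat_lit 242) (nat_lit 1) (nat_lit 227) (nat_lit 406) (nat_lit 387)) (XT.lf (nat_lit 76) (nat_lit 62306459504) (nat_lit 0) (nat_lit 57046978228) (nat_lit 304) (nat_lit 211176757274) (nat_lit 236) (nat_lit 1) (nat_lit 235) (nat_lit 1) (nat_lit 239) (nat_lit 1) (nat_lit 228) (nat_lit 406) (nat_lit 386))) (XT.nd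 (nat_lit 78) (nat_lit 152) (nat_lit 0) (XT.lf (nat_lit 304) (nat_lit 155041446775) (nat_lit 0) (nat_lit 103158833292) (nat_lit 228) (nat_lit 62535223911) (nat_lit 236) (nat_lit 1) (nat_lit 232) (nat_lit 1) (nat_lit 235) (nat_lit 1) (nat_lit 229) (nat_lit 406) (nat_lit 385)) (XT.lf (nat_lit 228) (nat_lit 38435003584) (nat_lit 0) (nat_lit 89998557621) (nat_lit 152) (nat_lit 182902396907) (nat_lit 233) (nat_lit 1) (nat_lit 230) (nat_lit 1) (nat_lit 232) (nat_lit 1) (nat_lit 230) (nat_lit 406) (nat_lit 384))))) (XT.nd (nat_lit 234) (nat_lit 684) (nat_lit 0) (XT.nd (nat_lit 78) (nat_lit 380) (nat_lit 0) (XT.lf (nat_lit 76) (nat_lit 6511135159) (nat_lit 0) (nat_lit 72861015936) (nat_lit 304) (nat_lit 222928612311) (nat_lit 227) (nat_lit 1) (nat_lit 226) (nat_lit 1) (nat_lit 230) (nat_lit 1) (nat_lit 231) (nat_lit 406) (nat_lit 383)) (XT.nd (nat_lit 78) (nat_lit 228) (nat_lit 0) (XT.lf (nat_lit 228)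 (nat_lit 111685068090) (nat_lit 0) (nat_lit 69793586113) (nat_lit 152) (nat_lit 112073733251) (nat_lit 227) (nat_lit 1) (nat_lit 224) (nat_lit 1) (nat_lit 226) (nat_lit 1) (nat_lit 232) (nat_lit 406) (nat_lit 382)) (XT.lf (nat_lit 76) (nat_lit 60595650598) (nat_lit 0) (nat_lit 2798951091) (nat_lit 228) (nat_lit 221791158795) (nat_lit 222) (nat_lit 1) (nat_lit 221) (nat_lit 1) (nat_lit 224) (nat_lit 1) (nat_lit 233) (nat_lit 406) (nat_lit 381)))) (XT.nd (nat_lit 156) (nat_lit 380) (nat_lit 0) (XT.nd (nat_lit 78) (nat_lit 152) (nat_lit 0) (XT.lf (nat_lit 228) (nat_lit 165656807437) (nat_lit 0) (nat_lit 57403798114) (nat_lit 152) (nat_lit 54001907186) (nat_lit 222) (nat_lit 1) (nat_lit 219) (nat_lit 1) (nat_lit 221) (nat_lit 1) (nat_lit 234) (nat_lit 406) (nat_lit 380)) (XT.lf (nat_lit 228) (nat_lit 51459642721) (nat_lit 0) (nat_lit 53363178155) (nat_lit 152) (nat_lit 164427031426) (nat_lit 220)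 (nat_lit 1) (nat_lit 217) (nat_lit 1) (nat_lit 219) (nat_lit 1) (nat_lit 235) (nat_lit 406) (nat_lit 379))) (XT.nd (nat_lit 78) (nat_lit 152) (nat_lit 0) (XT.lf (nat_lit 228) (nat_lit 204275869654) (nat_lit 0) (nat_lit 50984185502) (nat_lit 152) (nat_lit 6467935432) (nat_lit 217) (nat_lit 1) (nat_lit 214) (nat_lit 1) (nat_lit 216) (nat_lit 1) (nat_lit 236) (nat_lit 406) (nat_lit 378)) (XT.lf (nat_lit 228) (nat_lit 91424411871) (nat_lit 0) (nat_lit 48672708003) (nat_lit 152) (nat_lit 114318017796) (nat_lit 215) (nat_lit 1) (nat_lit 212) (nat_lit 1) (nat_lit 214) (nat_lit 1) (nat_lit 237) (nat_lit 406) (nat_lit 377))))))))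
noncomputable def ec203 : XT := (XT.nd (nat_lit 2106) (nat_lit 3268) (nat_lit 0) (XT.nd (nat_lit 1014) (nat_lit 1596) (nat_lit 0) (XT.nd (nat_lit 468) (nat_lit 912) (nat_lit 0) (XT.nd (nat_lit 234) (nat_lit 532) (nat_lit 0) (XT.nd (nat_lit 78) (nat_lit 228) (nat_lit 0) (XT.lf (nat_lit 76) (nat_lit 31316390864) (nat_lit 0) (nat_lit 17212899577) (nat_lit 152) (nat_lit 198876312553) (nat_lit 211) (nat_lit 1) (nat_lit 210) (nat_lit 1) (nat_lit 212) (nat_lit 1) (nat_lit 238) (nat_lit 406) (nat_lit 376)) (XT.nd (nat_lit 78) (nat_lit 76) (nat_lit 0) (XT.lf (nat_lit 228) (nat_lit 119954086257) (nat_lit 0) (nat_lit 48015419274) (nat_lit 152) (nat_lit 72603441729) (nat_lit 211) (nat_lit 1) (nat_lit 208) (nat_lit 1) (nat_lit 210) (nat_lit 1) (nat_lit 239) (nat_lit 406) (nat_lit 375)) (XT.lf (nat_lit 152) (nat_lit 12917350564) (nat_lit 0) (nat_lit 49194740020) (nat_lit 76) (nat_lit 171897945398) (nat_lit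 209) (nat_lit 1) (nat_lit 207) (nat_lit 1) (nat_lit 208) (nat_lit 1) (nat_lit 240) (nat_lit 406) (nat_lit 374)))) (XT.nd (nat_lit 78) (nat_lit 304) (nat_lit 0) (XT.lf (nat_lit 228) (nat_lit 139438030310) (nat_lit 0) (nat_lit 50313091256) (nat_lit 152) (nat_lit 37876962866) (nat_lit 207) (nat_lit 1) (nat_lit 204) (nat_lit 1) (nat_lit 206) (nat_lit 1) (nat_lit 241) (nat_lit 406) (nat_lit 373)) (XT.nd (nat_lit 78) (nat_lit 228) (nat_lit 0) (XT.lf (nat_lit 152) (nat_lit 35069692836) (nat_lit 0) (nat_lit 52194348437) (nat_lit 76) (nat_lit 134197176198) (nat_lit 205) (nat_lit 1) (nat_lit 203) (nat_lit 1) (nat_lit 204) (nat_lit 1) (nat_lit 242) (nat_lit 406) (nat_lit 372)) (XT.lf (nat_lit 228) (nat_lit 151808075695) (nat_lit 0) (nat_lit 54711697304) (nat_lit 152) (nat_lit 8978657885) (nat_lit 203) (nat_lit 1) (nat_lit 200) (nat_lit 1) (nat_lit 202) (nat_lit 1) (nat_lit 243) (nat_lit 406) (nat_lit 371)))))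 (XT.nd (nat_lit 234) (nat_lit 532) (nat_lit 0) (XT.nd (nat_lit 78) (nat_lit 304) (nat_lit 0) (XT.lf (nat_lit 152) (nat_lit 50470099272) (nat_lit 0) (nat_lit 57037601868) (nat_lit 76) (nat_lit 102187789550) (nat_lit 201) (nat_lit 1) (nat_lit 199) (nat_lit 1) (nat_lit 200) (nat_lit 1) (nat_lit 244) (nat_lit 406) (nat_lit 370)) (XT.nd (nat_lit 78) (nat_lit 76) (nat_lit 0) (XT.lf (nat_lit 76) (nat_lit 14567679174) (nat_lit 0) (nat_lit 45724061749) (nat_lit 228) (nat_lit 143809280591) (nat_lit 197) (nat_lit 1) (nat_lit 196) (nat_lit 1) (nat_lit 199) (nat_lit 1) (nat_lit 245) (nat_lit 406) (nat_lit 369)) (XT.lf (nat_lit 152) (nat_lit 60568672677) (nat_lit 0) (nat_lit 63109686040) (nat_lit 76) (nat_lit 74967128820) (nat_lit 197) (nat_lit 1) (nat_lit 195) (nat_lit 1) (nat_lit 196) (nat_lit 1) (nat_lit 246) (nat_lit 406) (nat_lit 368)))) (XT.nd (nat_lit 156) (nat_lit 228) (nat_lit 0) (XT.nd (nat_lit 78)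 (nat_lit 76) (nat_lit 0) (XT.lf (nat_lit 76) (nat_lit 33878997479) (nat_lit 0) (nat_lit 32814099950) (nat_lit 228) (nat_lit 126688576957) (nat_lit 193) (nat_lit 1) (nat_lit 192) (nat_lit 1) (nat_lit 195) (nat_lit 1) (nat_lit 247) (nat_lit 406) (nat_lit 367)) (XT.lf (nat_lit 152) (nat_lit 66534822841) (nat_lit 0) (nat_lit 69930669017) (nat_lit 76) (nat_lit 51786857809) (nat_lit 193) (nat_lit 1) (nat_lit 191) (nat_lit 1) (nat_lit 192) (nat_lit 1) (nat_lit 248) (nat_lit 406) (nat_lit 366))) (XT.nd (nat_lit 78) (nat_lit 76) (nat_lit 0) (XT.lf (nat_lit 76) (nat_lit 49877718471) (nat_lit 0) (nat_lit 23765840396) (nat_lit 152) (nat_lit 109648864028) (nat_lit 190) (nat_lit 1) (nat_lit 189) (nat_lit 1) (nat_lit 191) (nat_lit 1) (nat_lit 249) (nat_lit 406) (nat_lit 365)) (XT.lf (nat_lit 152) (nat_lit 69309715963) (nat_lit 0) (nat_lit 77129213225) (nat_lit 76) (nat_lit 32025433172) (nat_lit 190) (nat_lit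 1) (nat_lit 188) (nat_lit 1) (nat_lit 189) (nat_lit 1) (nat_lit 250) (nat_lit 406) (nat_lit 364)))))) (XT.nd (nat_lit 546) (nat_lit 760) (nat_lit 0) (XT.nd (nat_lit 234) (nat_lit 456) (nat_lit 0) (XT.nd (nat_lit 78) (nat_lit 228) (nat_lit 0) (XT.lf (nat_lit 76) (nat_lit 63090676322) (nat_lit 0) (nat_lit 17729626825) (nat_lit 152) (nat_lit 92964504770) (nat_lit 187) (nat_lit 1) (nat_lit 186) (nat_lit 1) (nat_lit 188) (nat_lit 1) (nat_lit 251) (nat_lit 406) (nat_lit 363)) (XT.nd (nat_lit 78) (nat_lit 152) (nat_lit 0) (XT.lf (nat_lit 152) (nat_lit 69649041563) (nat_lit 0) (nat_lit 84421210979) (nat_lit 76) (nat_lit 15165576563) (nat_lit 187) (nat_lit 1) (nat_lit 185) (nat_lit 1) (nat_lit 186) (nat_lit 1) (nat_lit 252) (nat_lit 406) (nat_lit 362)) (XT.lf (nat_lit 76) (nat_lit 73955729013) (nat_lit 0) (nat_lit 14022256611) (nat_lit 152) (nat_lit 76837886717) (nat_lit 184) (nat_lit 1) (nat_lit 183)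 (nat_lit 1) (nat_lit 185) (nat_lit 1) (nat_lit 253) (nat_lit 406) (nat_lit 361)))) (XT.nd (nat_lit 156) (nat_lit 228) (nat_lit 0) (XT.nd (nat_lit 78) (nat_lit 152) (nat_lit 0) (XT.lf (nat_lit 152) (nat_lit 68157877049) (nat_lit 0) (nat_lit 91592433879) (nat_lit 76) (nat_lit 775832317) (nat_lit 184) (nat_lit 1) (nat_lit 182) (nat_lit 1) (nat_lit 183) (nat_lit 1) (nat_lit 254) (nat_lit 406) (nat_lit 360)) (XT.lf (nat_lit 76) (nat_lit 82837507994) (nat_lit 0) (nat_lit 12095726125) (nat_lit 152) (nat_lit 61414089330) (nat_lit 181) (nat_lit 1) (nat_lit 180) (nat_lit 1) (nat_lit 182) (nat_lit 1) (nat_lit 255) (nat_lit 406) (nat_lit 359))) (XT.nd (nat_lit 78) (nat_lit 152) (nat_lit 0) (XT.lf (nat_lit 0) (nat_lit 11136318982) (nat_lit 0) (nat_lit 87159535815) (nat_lit 152) (nat_lit 53994185301) (nat_lit 179) (nat_lit 3) (nat_lit 179) (nat_lit 1) (nat_lit 181) (nat_lit 1) (nat_lit 256) (nat_lit 406) (nat_lit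 358)) (XT.lf (nat_lit 76) (nat_lit 90040316926) (nat_lit 0) (nat_lit 11511756344) (nat_lit 152) (nat_lit 46792766931) (nat_lit 178) (nat_lit 1) (nat_lit 177) (nat_lit 1) (nat_lit 179) (nat_lit 1) (nat_lit 257) (nat_lit 406) (nat_lit 357))))) (XT.nd (nat_lit 234) (nat_lit 456) (nat_lit 0) (XT.nd (nat_lit 78) (nat_lit 228) (nat_lit 0) (XT.lf (nat_lit 0) (nat_lit 21274489184) (nat_lit 0) (nat_lit 83348446360) (nat_lit 152) (nat_lit 39881774328) (nat_lit 176) (nat_lit 3) (nat_lit 176) (nat_lit 1) (nat_lit 178) (nat_lit 1) (nat_lit 258) (nat_lit 406) (nat_lit 356)) (XT.nd (nat_lit 78) (nat_lit 76) (nat_lit 0) (XT.lf (nat_lit 76) (nat_lit 95818700145) (nat_lit 0) (nat_lit 11921035328) (nat_lit 152) (nat_lit 33037763850) (nat_lit 175) (nat_lit 1) (nat_lit 174) (nat_lit 1) (nat_lit 176) (nat_lit 1) (nat_lit 259) (nat_lit 406) (nat_lit 355)) (XT.lf (nat_lit 0) (nat_lit 29909564177) (nat_lit 0) (nat_lit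 80593767241) (nat_lit 152) (nat_lit 26637794498) (nat_lit 173) (nat_lit 3) (nat_lit 173) (nat_lit 1) (nat_lit 175) (nat_lit 1) (nat_lit 260) (nat_lit 406) (nat_lit 354)))) (XT.nd (nat_lit 156) (nat_lit 228) (nat_lit 0) (XT.nd (nat_lit 78) (nat_lit 76) (nat_lit 0) (XT.lf (nat_lit 76) (nat_lit 100386106092) (nat_lit 0) (nat_lit 13046309450) (nat_lit 152) (nat_lit 20184883279) (nat_lit 172) (nat_lit 1) (nat_lit 171) (nat_lit 1) (nat_lit 173) (nat_lit 1) (nat_lit 261) (nat_lit 406) (nat_lit 353)) (XT.lf (nat_lit 0) (nat_lit 37248992713) (nat_lit 0) (nat_lit 78633311630) (nat_lit 152) (nat_lit 14290107092) (nat_lit 170) (nat_lit 3) (nat_lit 170) (nat_lit 1) (nat_lit 172) (nat_lit 1) (nat_lit 262) (nat_lit 406) (nat_lit 352))) (XT.nd (nat_lit 78) (nat_lit 76) (nat_lit 0) (XT.lf (nat_lit 76) (nat_lit 103921993052) (nat_lit 0) (nat_lit 14668614709) (nat_lit 152) (nat_lit 8248153658) (nat_lit 169) (nat_lit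 1) (nat_lit 168) (nat_lit 1) (nat_lit 170) (nat_lit 1) (nat_lit 263) (nat_lit 406) (nat_lit 351)) (XT.lf (nat_lit 0) (nat_lit 43468226962) (nat_lit 0) (nat_lit 77259068066) (nat_lit 152) (nat_lit 2846780357) (nat_lit 167) (nat_lit 3) (nat_lit 167) (nat_lit 1) (nat_lit 169) (nat_lit 1) (nat_lit 264) (nat_lit 406) (nat_lit 350))))))) (XT.nd (nat_lit 1014) (nat_lit 1672) (nat_lit 0) (XT.nd (nat_lit 468) (nat_lit 836) (nat_lit 0) (XT.nd (nat_lit 234) (nat_lit 304) (nat_lit 0) (XT.nd (nat_lit 78) (nat_lit 228) (nat_lit 0) (XT.lf (nat_lit 152) (nat_lit 103755535913) (nat_lit 0) (nat_lit 2866885184) (nat_lit 76) (nat_lit 13793944582) (nat_lit 166) (nat_lit 1) (nat_lit 164) (nat_lit 1) (nat_lit 165) (nat_lit 1) (nat_lit 265) (nat_lit 406) (nat_lit 349)) (XT.nd (nat_lit 78) (nat_lit 152) (nat_lit 0) (XT.lf (nat_lit 76) (nat_lit 40886495939) (nat_lit 0) (nat_lit 7953836169) (nat_lit 76) (nat_lit 68477162462)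 (nat_lit 164) (nat_lit 3) (nat_lit 163) (nat_lit 1) (nat_lit 164) (nat_lit 1) (nat_lit 266) (nat_lit 406) (nat_lit 348)) (XT.lf (nat_lit 152) (nat_lit 95362227912) (nat_lit 0) (nat_lit 13326883340) (nat_lit 76) (nat_lit 5635944360) (nat_lit 163) (nat_lit 1) (nat_lit 161) (nat_lit 1) (nat_lit 162) (nat_lit 1) (nat_lit 267) (nat_lit 406) (nat_lit 347)))) (XT.nd (nat_lit 78) (nat_lit 228) (nat_lit 0) (XT.lf (nat_lit 76) (nat_lit 35458908032) (nat_lit 0) (nat_lit 17940736641) (nat_lit 76) (nat_lit 57987050402) (nat_lit 161) (nat_lit 3) (nat_lit 160) (nat_lit 1) (nat_lit 161) (nat_lit 1) (nat_lit 268) (nat_lit 406) (nat_lit 346)) (XT.nd (nat_lit 78) (nat_lit 76) (nat_lit 0) (XT.lf (nat_lit 0) (nat_lit 1496661582) (nat_lit 0) (nat_lit 21362748328) (nat_lit 152) (nat_lit 85691163973) (nat_lit 158) (nat_lit 3) (nat_lit 158) (nat_lit 1) (nat_lit 160) (nat_lit 1) (nat_lit 269) (nat_lit 406) (nat_lit 345))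 (XT.lf (nat_lit 76) (nat_lit 30161408061) (nat_lit 0) (nat_lit 27047614925) (nat_lit 76) (nat_lit 48555932826) (nat_lit 158) (nat_lit 3) (nat_lit 157) (nat_lit 1) (nat_lit 158) (nat_lit 1) (nat_lit 270) (nat_lit 406) (nat_lit 344))))) (XT.nd (nat_lit 234) (nat_lit 456) (nat_lit 0) (XT.nd (nat_lit 78) (nat_lit 228) (nat_lit 0) (XT.lf (nat_lit 0) (nat_lit 7611692583) (nat_lit 0) (nat_lit 23832613892) (nat_lit 152) (nat_lit 71627877431) (nat_lit 155) (nat_lit 3) (nat_lit 155) (nat_lit 1) (nat_lit 157) (nat_lit 1) (nat_lit 271) (nat_lit 406) (nat_lit 343)) (XT.nd (nat_lit 78) (nat_lit 152) (nat_lit 0) (XT.lf (nat_lit 76) (nat_lit 25053375434) (nat_lit 0) (nat_lit 35308549822) (nat_lit 76) (nat_lit 40072747016) (nat_lit 155) (nat_lit 3) (nat_lit 154) (nat_lit 1) (nat_lit 155) (nat_lit 1) (nat_lit 272) (nat_lit 406) (nat_lit 342)) (XT.lf (nat_lit 0) (nat_lit 12982723332) (nat_lit 0) (nat_lit 26227319083)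 (nat_lit 152) (nat_lit 58667267642) (nat_lit 152) (nat_lit 3) (nat_lit 152) (nat_lit 1) (nat_lit 154) (nat_lit 1) (nat_lit 273) (nat_lit 406) (nat_lit 341)))) (XT.nd (nat_lit 156) (nat_lit 228) (nat_lit 0) (XT.nd (nat_lit 78) (nat_lit 152) (nat_lit 0) (XT.lf (nat_lit 76) (nat_lit 20177027960) (nat_lit 0) (nat_lit 42761927924) (nat_lit 76) (nat_lit 32440542545) (nat_lit 152) (nat_lit 3) (nat_lit 151) (nat_lit 1) (nat_lit 152) (nat_lit 1) (nat_lit 274) (nat_lit 406) (nat_lit 340)) (XT.lf (nat_lit 0) (nat_lit 17690887881) (nat_lit 0) (nat_lit 28505274641) (nat_lit 152) (nat_lit 46754003773) (nat_lit 149) (nat_lit 3) (nat_lit 149) (nat_lit 1) (nat_lit 151) (nat_lit 1) (nat_lit 275) (nat_lit 406) (nat_lit 339))) (XT.nd (nat_lit 78) (nat_lit 152) (nat_lit 0) (XT.lf (nat_lit 76) (nat_lit 15560995288) (nat_lit 0) (nat_lit 49448904072) (nat_lit 76) (nat_lit 25574316361) (nat_lit 149) (nat_lit 3) (nat_lit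 148) (nat_lit 1) (nat_lit 149) (nat_lit 1) (nat_lit 276) (nat_lit 406) (nat_lit 338)) (XT.lf (nat_lit 0) (nat_lit 21807118169) (nat_lit 0) (nat_lit 30637207299) (nat_lit 152) (nat_lit 35831709755) (nat_lit 146) (nat_lit 3) (nat_lit 146) (nat_lit 1) (nat_lit 148) (nat_lit 1) (nat_lit 277) (nat_lit 406) (nat_lit 337)))))) (XT.nd (nat_lit 546) (nat_lit 836) (nat_lit 0) (XT.nd (nat_lit 234) (nat_lit 532) (nat_lit 0) (XT.nd (nat_lit 78) (nat_lit 228) (nat_lit 0) (XT.lf (nat_lit 76) (nat_lit 11223209533) (nat_lit 0) (nat_lit 55412193463) (nat_lit 76) (nat_lit 19399217987) (nat_lit 146) (nat_lit 3) (nat_lit 145) (nat_lit 1) (nat_lit 146) (nat_lit 1) (nat_lit 278) (nat_lit 406) (nat_lit 336)) (XT.nd (nat_lit 78) (nat_lit 76) (nat_lit 0) (XT.lf (nat_lit 0) (nat_lit 25393680696) (nat_lit 0) (nat_lit 32603564693) (nat_lit 152) (nat_lit 25843919273) (nat_lit 143) (nat_lit 3) (nat_lit 143) (nat_lit 1) (nat_lit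 145) (nat_lit 1) (nat_lit 279) (nat_lit 406) (nat_lit 335)) (XT.lf (nat_lit 76) (nat_lit 7173240068) (nat_lit 0) (nat_lit 60695131467) (nat_lit 76) (nat_lit 13849058585) (nat_lit 143) (nat_lit 3) (nat_lit 142) (nat_lit 1) (nat_lit 143) (nat_lit 1) (nat_lit 280) (nat_lit 406) (nat_lit 334)))) (XT.nd (nat_lit 156) (nat_lit 304) (nat_lit 0) (XT.nd (nat_lit 78) (nat_lit 76) (nat_lit 0) (XT.lf (nat_lit 0) (nat_lit 28505453354) (nat_lit 0) (nat_lit 34392418536) (nat_lit 152) (nat_lit 16734806583) (nat_lit 140) (nat_lit 3) (nat_lit 140) (nat_lit 1) (nat_lit 142) (nat_lit 1) (nat_lit 281) (nat_lit 406) (nat_lit 333)) (XT.lf (nat_lit 76) (nat_lit 3414176023) (nat_lit 0) (nat_lit 65340949149) (nat_lit 76) (nat_lit 8865069710) (nat_lit 140) (nat_lit 3) (nat_lit 139) (nat_lit 1) (nat_lit 140) (nat_lit 1) (nat_lit 282) (nat_lit 406) (nat_lit 332))) (XT.nd (nat_lit 78) (nat_lit 152) (nat_lit 0) (XT.lf (nat_lit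 0) (nat_lit 31190988699) (nat_lit 0) (nat_lit 35997773255) (nat_lit 152) (nat_lit 8449737316) (nat_lit 137) (nat_lit 3) (nat_lit 137) (nat_lit 1) (nat_lit 139) (nat_lit 1) (nat_lit 283) (nat_lit 406) (nat_lit 331)) (XT.lf (nat_lit 76) (nat_lit 69337235265) (nat_lit 0) (nat_lit 54071203) (nat_lit 152) (nat_lit 4339880473) (nat_lit 136) (nat_lit 1) (nat_lit 135) (nat_lit 1) (nat_lit 137) (nat_lit 1) (nat_lit 284) (nat_lit 406) (nat_lit 330))))) (XT.nd (nat_lit 234) (nat_lit 456) (nat_lit 0) (XT.nd (nat_lit 78) (nat_lit 304) (nat_lit 0) (XT.lf (nat_lit 0) (nat_lit 33493401538) (nat_lit 0) (nat_lit 37418204397) (nat_lit 152) (nat_lit 935675136) (nat_lit 134) (nat_lit 3) (nat_lit 134) (nat_lit 1) (nat_lit 136) (nat_lit 1) (nat_lit 285) (nat_lit 406) (nat_lit 329)) (XT.nd (nat_lit 78) (nat_lit 76) (nat_lit 0) (XT.lf (nat_lit 152) (nat_lit 66850886008) (nat_lit 0) (nat_lit 2892871657) (nat_lit 76) (nat_lit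 291005600) (nat_lit 133) (nat_lit 1) (nat_lit 131) (nat_lit 1) (nat_lit 132) (nat_lit 1) (nat_lit 286) (nat_lit 406) (nat_lit 328)) (XT.lf (nat_lit 76) (nat_lit 29493368233) (nat_lit 0) (nat_lit 6052235985) (nat_lit 76) (nat_lit 32698021426) (nat_lit 131) (nat_lit 3) (nat_lit 130) (nat_lit 1) (nat_lit 131) (nat_lit 1) (nat_lit 287) (nat_lit 406) (nat_lit 327)))) (XT.nd (nat_lit 156) (nat_lit 228) (nat_lit 0) (XT.nd (nat_lit 78) (nat_lit 76) (nat_lit 0) (XT.lf (nat_lit 0) (nat_lit 3334067438) (nat_lit 0) (nat_lit 6160040271) (nat_lit 152) (nat_lit 57025765924) (nat_lit 128) (nat_lit 3) (nat_lit 128) (nat_lit 1) (nat_lit 130) (nat_lit 1) (nat_lit 288) (nat_lit 406) (nat_lit 326)) (XT.lf (nat_lit 76) (nat_lit 24913623932) (nat_lit 0) (nat_lit 12378101364) (nat_lit 76) (nat_lit 27530265444) (nat_lit 128) (nat_lit 3) (nat_lit 127) (nat_lit 1) (nat_lit 128) (nat_lit 1) (nat_lit 289) (nat_lit 406) (nat_lit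 325))) (XT.nd (nat_lit 78) (nat_lit 76) (nat_lit 0) (XT.lf (nat_lit 0) (nat_lit 6560453668) (nat_lit 0) (nat_lit 8867897682) (nat_lit 152) (nat_lit 47754651685) (nat_lit 125) (nat_lit 3) (nat_lit 125) (nat_lit 1) (nat_lit 127) (nat_lit 1) (nat_lit 290) (nat_lit 406) (nat_lit 324)) (XT.lf (nat_lit 76) (nat_lit 20688860411) (nat_lit 0) (nat_lit 18059371086) (nat_lit 76) (nat_lit 22825382647) (nat_lit 125) (nat_lit 3) (nat_lit 124) (nat_lit 1) (nat_lit 125) (nat_lit 1) (nat_lit 291) (nat_lit 406) (nat_lit 323))))))))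
noncomputable def ec204 : XT := (XT.nd (nat_lit 2028) (nat_lit 3268) (nat_lit 0) (XT.nd (nat_lit 1014) (nat_lit 1596) (nat_lit 0) (XT.nd (nat_lit 468) (nat_lit 836) (nat_lit 0) (XT.nd (nat_lit 234) (nat_lit 304) (nat_lit 0) (XT.nd (nat_lit 78) (nat_lit 228) (nat_lit 0) (XT.lf (nat_lit 0) (nat_lit 9431548333) (nat_lit 0) (nat_lit 11315606742) (nat_lit 152) (nat_lit 39267958668) (nat_lit 122) (nat_lit 3) (nat_lit 122) (nat_lit 1) (nat_lit 124) (nat_lit 1) (nat_lit 292) (nat_lit 406) (nat_lit 322)) (XT.nd (nat_lit 78) (nat_lit 152) (nat_lit 0) (XT.lf (nat_lit 76) (nat_lit 16801473619) (nat_lit 0) (nat_lit 23142068299) (nat_lit 76) (nat_lit 18545972146) (nat_lit 122) (nat_lit 3) (nat_lit 121) (nat_lit 1) (nat_lit 122) (nat_lit 1) (nat_lit 293) (nat_lit 406) (nat_lit 321)) (XT.lf (nat_lit 0) (nat_lit 11978290373) (nat_lit 0) (nat_lit 13516648862) (nat_lit 152) (nat_lit 31512518780) (nat_lit 119) (nat_lit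 3) (nat_lit 119) (nat_lit 1) (nat_lit 121) (nat_lit 1) (nat_lit 294) (nat_lit 406) (nat_lit 320)))) (XT.nd (nat_lit 78) (nat_lit 228) (nat_lit 0) (XT.lf (nat_lit 76) (nat_lit 13233488517) (nat_lit 0) (nat_lit 27669823871) (nat_lit 76) (nat_lit 14657894526) (nat_lit 119) (nat_lit 3) (nat_lit 118) (nat_lit 1) (nat_lit 119) (nat_lit 1) (nat_lit 295) (nat_lit 406) (nat_lit 319)) (XT.nd (nat_lit 78) (nat_lit 76) (nat_lit 0) (XT.lf (nat_lit 0) (nat_lit 14228831870) (nat_lit 0) (nat_lit 15484921825) (nat_lit 152) (nat_lit 24438016648) (nat_lit 116) (nat_lit 3) (nat_lit 116) (nat_lit 1) (nat_lit 118) (nat_lit 1) (nat_lit 296) (nat_lit 406) (nat_lit 318)) (XT.lf (nat_lit 76) (nat_lit 9966871918) (nat_lit 0) (nat_lit 31683884049) (nat_lit 76) (nat_lit 11129918172) (nat_lit 116) (nat_lit 3) (nat_lit 115) (nat_lit 1) (nat_lit 116) (nat_lit 1) (nat_lit 297) (nat_lit 406) (nat_lit 317))))) (XT.nd (nat_lit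 234) (nat_lit 456) (nat_lit 0) (XT.nd (nat_lit 78) (nat_lit 228) (nat_lit 0) (XT.lf (nat_lit 0) (nat_lit 16208842815) (nat_lit 0) (nat_lit 17234456796) (nat_lit 152) (nat_lit 17996936283) (nat_lit 113) (nat_lit 3) (nat_lit 113) (nat_lit 1) (nat_lit 115) (nat_lit 1) (nat_lit 298) (nat_lit 406) (nat_lit 316)) (XT.nd (nat_lit 78) (nat_lit 152) (nat_lit 0) (XT.lf (nat_lit 76) (nat_lit 6983772253) (nat_lit 0) (nat_lit 35223145087) (nat_lit 76) (nat_lit 7933414828) (nat_lit 113) (nat_lit 3) (nat_lit 112) (nat_lit 1) (nat_lit 113) (nat_lit 1) (nat_lit 299) (nat_lit 406) (nat_lit 315)) (XT.lf (nat_lit 0) (nat_lit 17941773556) (nat_lit 0) (nat_lit 18779200870) (nat_lit 152) (nat_lit 12144487405) (nat_lit 110) (nat_lit 3) (nat_lit 110) (nat_lit 1) (nat_lit 112) (nat_lit 1) (nat_lit 300) (nat_lit 406) (nat_lit 314)))) (XT.nd (nat_lit 156) (nat_lit 228) (nat_lit 0) (XT.nd (nat_lit 78) (nat_lit 152) (nat_lit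 0) (XT.lf (nat_lit 76) (nat_lit 4266700643) (nat_lit 0) (nat_lit 38324208123) (nat_lit 76) (nat_lit 5042096305) (nat_lit 110) (nat_lit 3) (nat_lit 109) (nat_lit 1) (nat_lit 110) (nat_lit 1) (nat_lit 301) (nat_lit 406) (nat_lit 313)) (XT.lf (nat_lit 0) (nat_lit 19449081863) (nat_lit 0) (nat_lit 20132852287) (nat_lit 152) (nat_lit 6838517003) (nat_lit 107) (nat_lit 3) (nat_lit 107) (nat_lit 1) (nat_lit 109) (nat_lit 1) (nat_lit 302) (nat_lit 406) (nat_lit 312))) (XT.nd (nat_lit 78) (nat_lit 152) (nat_lit 0) (XT.lf (nat_lit 76) (nat_lit 1798664944) (nat_lit 0) (nat_lit 41021448903) (nat_lit 76) (nat_lit 2431785707) (nat_lit 107) (nat_lit 3) (nat_lit 106) (nat_lit 1) (nat_lit 107) (nat_lit 1) (nat_lit 303) (nat_lit 406) (nat_lit 311)) (XT.lf (nat_lit 0) (nat_lit 20750430281) (nat_lit 0) (nat_lit 21308737833) (nat_lit 152) (nat_lit 2039410606) (nat_lit 104) (nat_lit 3) (nat_lit 104) (nat_lit 1) (nat_lit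 106) (nat_lit 1) (nat_lit 304) (nat_lit 406) (nat_lit 310)))))) (XT.nd (nat_lit 468) (nat_lit 836) (nat_lit 0) (XT.nd (nat_lit 234) (nat_lit 304) (nat_lit 0) (XT.nd (nat_lit 78) (nat_lit 228) (nat_lit 0) (XT.lf (nat_lit 152) (nat_lit 42561563259) (nat_lit 0) (nat_lit 361259984) (nat_lit 76) (nat_lit 67135830) (nat_lit 103) (nat_lit 1) (nat_lit 101) (nat_lit 1) (nat_lit 102) (nat_lit 1) (nat_lit 305) (nat_lit 406) (nat_lit 309)) (XT.nd (nat_lit 78) (nat_lit 152) (nat_lit 0) (XT.lf (nat_lit 76) (nat_lit 19535062780) (nat_lit 0) (nat_lit 2365731395) (nat_lit 76) (nat_lit 19990928245) (nat_lit 101) (nat_lit 3) (nat_lit 100) (nat_lit 1) (nat_lit 101) (nat_lit 1) (nat_lit 306) (nat_lit 406) (nat_lit 308)) (XT.lf (nat_lit 0) (nat_lit 2079976624) (nat_lit 0) (nat_lit 2481974388) (nat_lit 152) (nat_lit 36273823613) (nat_lit 98) (nat_lit 3) (nat_lit 98) (nat_lit 1) (nat_lit 100) (nat_lit 1) (nat_lit 307)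 (nat_lit 406) (nat_lit 307)))) (XT.nd (nat_lit 78) (nat_lit 228) (nat_lit 0) (XT.lf (nat_lit 76) (nat_lit 16516582719) (nat_lit 0) (nat_lit 6389103552) (nat_lit 76) (nat_lit 16888802871) (nat_lit 98) (nat_lit 3) (nat_lit 97) (nat_lit 1) (nat_lit 98) (nat_lit 1) (nat_lit 308) (nat_lit 406) (nat_lit 306)) (XT.nd (nat_lit 78) (nat_lit 76) (nat_lit 0) (XT.lf (nat_lit 0) (nat_lit 4002636431) (nat_lit 0) (nat_lit 4330872897) (nat_lit 152) (nat_lit 30456619284) (nat_lit 95) (nat_lit 3) (nat_lit 95) (nat_lit 1) (nat_lit 97) (nat_lit 1) (nat_lit 309) (nat_lit 406) (nat_lit 305)) (XT.lf (nat_lit 76) (nat_lit 13750970291) (nat_lit 0) (nat_lit 9996998747) (nat_lit 76) (nat_lit 14054892944) (nat_lit 95) (nat_lit 3) (nat_lit 94) (nat_lit 1) (nat_lit 95) (nat_lit 1) (nat_lit 310) (nat_lit 406) (nat_lit 304))))) (XT.nd (nat_lit 234) (nat_lit 456) (nat_lit 0) (XT.nd (nat_lit 78) (nat_lit 228) (nat_lit 0) (XT.lf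 (nat_lit 0) (nat_lit 5720679176) (nat_lit 0) (nat_lit 5988688570) (nat_lit 152) (nat_lit 25138179660) (nat_lit 92) (nat_lit 3) (nat_lit 92) (nat_lit 1) (nat_lit 94) (nat_lit 1) (nat_lit 311) (nat_lit 406) (nat_lit 303)) (XT.nd (nat_lit 78) (nat_lit 152) (nat_lit 0) (XT.lf (nat_lit 76) (nat_lit 11221172831) (nat_lit 0) (nat_lit 13220971633) (nat_lit 76) (nat_lit 11469329678) (nat_lit 92) (nat_lit 3) (nat_lit 91) (nat_lit 1) (nat_lit 92) (nat_lit 1) (nat_lit 312) (nat_lit 406) (nat_lit 302)) (XT.lf (nat_lit 0) (nat_lit 7250465397) (nat_lit 0) (nat_lit 7469298595) (nat_lit 152) (nat_lit 20283028324) (nat_lit 89) (nat_lit 3) (nat_lit 89) (nat_lit 1) (nat_lit 91) (nat_lit 1) (nat_lit 313) (nat_lit 406) (nat_lit 301)))) (XT.nd (nat_lit 156) (nat_lit 228) (nat_lit 0) (XT.nd (nat_lit 78) (nat_lit 152) (nat_lit 0) (XT.lf (nat_lit 76) (nat_lit 8911046769) (nat_lit 0) (nat_lit 16090520359) (nat_lit 76)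 (nat_lit 9113670101) (nat_lit 89) (nat_lit 3) (nat_lit 88) (nat_lit 1) (nat_lit 89) (nat_lit 1) (nat_lit 314) (nat_lit 406) (nat_lit 300)) (XT.lf (nat_lit 0) (nat_lit 8607136467) (nat_lit 0) (nat_lit 8785816653) (nat_lit 152) (nat_lit 15857942996) (nat_lit 86) (nat_lit 3) (nat_lit 86) (nat_lit 1) (nat_lit 88) (nat_lit 1) (nat_lit 315) (nat_lit 406) (nat_lit 299))) (XT.nd (nat_lit 78) (nat_lit 152) (nat_lit 0) (XT.lf (nat_lit 76) (nat_lit 6805341588) (nat_lit 0) (nat_lit 18633198158) (nat_lit 76) (nat_lit 6970786206) (nat_lit 86) (nat_lit 3) (nat_lit 85) (nat_lit 1) (nat_lit 86) (nat_lit 1) (nat_lit 316) (nat_lit 406) (nat_lit 298)) (XT.lf (nat_lit 0) (nat_lit 9804710993) (nat_lit 0) (nat_lit 9950605717) (nat_lit 152) (nat_lit 11831831492) (nat_lit 83) (nat_lit 3) (nat_lit 83) (nat_lit 1) (nat_lit 85) (nat_lit 1) (nat_lit 317) (nat_lit 406) (nat_lit 297))))))) (XT.nd (nat_lit 1014) (nat_lit 1672)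 (nat_lit 0) (XT.nd (nat_lit 468) (nat_lit 912) (nat_lit 0) (XT.nd (nat_lit 234) (nat_lit 380) (nat_lit 0) (XT.nd (nat_lit 78) (nat_lit 228) (nat_lit 0) (XT.lf (nat_lit 76) (nat_lit 4889677077) (nat_lit 0) (nat_lit 20874721940) (nat_lit 76) (nat_lit 5024764784) (nat_lit 83) (nat_lit 3) (nat_lit 82) (nat_lit 1) (nat_lit 83) (nat_lit 1) (nat_lit 318) (nat_lit 406) (nat_lit 296)) (XT.nd (nat_lit 78) (nat_lit 76) (nat_lit 0) (XT.lf (nat_lit 0) (nat_lit 10856171920) (nat_lit 0) (nat_lit 10975296882) (nat_lit 152) (nat_lit 8175611889) (nat_lit 80) (nat_lit 3) (nat_lit 80) (nat_lit 1) (nat_lit 82) (nat_lit 1) (nat_lit 319) (nat_lit 406) (nat_lit 295)) (XT.lf (nat_lit 76) (nat_lit 3150515702) (nat_lit 0) (nat_lit 22839077339) (nat_lit 76) (nat_lit 3260816593) (nat_lit 80) (nat_lit 3) (nat_lit 79) (nat_lit 1) (nat_lit 80) (nat_lit 1) (nat_lit 320) (nat_lit 406) (nat_lit 294)))) (XT.nd (nat_lit 78) (nat_lit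 228) (nat_lit 0) (XT.lf (nat_lit 0) (nat_lit 11773545503) (nat_lit 0) (nat_lit 11870812603) (nat_lit 152) (nat_lit 4862097273) (nat_lit 77) (nat_lit 3) (nat_lit 77) (nat_lit 1) (nat_lit 79) (nat_lit 1) (nat_lit 321) (nat_lit 406) (nat_lit 293)) (XT.nd (nat_lit 78) (nat_lit 152) (nat_lit 0) (XT.lf (nat_lit 76) (nat_lit 1575131561) (nat_lit 0) (nat_lit 24548619833) (nat_lit 76) (nat_lit 1665193690) (nat_lit 77) (nat_lit 3) (nat_lit 76) (nat_lit 1) (nat_lit 77) (nat_lit 1) (nat_lit 322) (nat_lit 406) (nat_lit 292)) (XT.lf (nat_lit 0) (nat_lit 12567973159) (nat_lit 0) (nat_lit 12647393026) (nat_lit 152) (nat_lit 1865885304) (nat_lit 74) (nat_lit 3) (nat_lit 74) (nat_lit 1) (nat_lit 76) (nat_lit 1) (nat_lit 323) (nat_lit 406) (nat_lit 291))))) (XT.nd (nat_lit 234) (nat_lit 456) (nat_lit 0) (XT.nd (nat_lit 78) (nat_lit 380) (nat_lit 0) (XT.lf (nat_lit 76) (nat_lit 151577054) (nat_lit 0) (nat_lit 26024171687)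 (nat_lit 76) (nat_lit 225113968) (nat_lit 74) (nat_lit 3) (nat_lit 73) (nat_lit 1) (nat_lit 74) (nat_lit 1) (nat_lit 324) (nat_lit 406) (nat_lit 290)) (XT.nd (nat_lit 78) (nat_lit 152) (nat_lit 0) (XT.lf (nat_lit 76) (nat_lit 12398859029) (nat_lit 0) (nat_lit 864413924) (nat_lit 76) (nat_lit 12463706396) (nat_lit 71) (nat_lit 3) (nat_lit 70) (nat_lit 1) (nat_lit 71) (nat_lit 1) (nat_lit 325) (nat_lit 406) (nat_lit 289)) (XT.lf (nat_lit 0) (nat_lit 1090792139) (nat_lit 0) (nat_lit 1147976766) (nat_lit 152) (nat_lit 22840161009) (nat_lit 68) (nat_lit 3) (nat_lit 68) (nat_lit 1) (nat_lit 70) (nat_lit 1) (nat_lit 326) (nat_lit 406) (nat_lit 288)))) (XT.nd (nat_lit 156) (nat_lit 228) (nat_lit 0) (XT.nd (nat_lit 78) (nat_lit 152) (nat_lit 0) (XT.lf (nat_lit 76) (nat_lit 10505230579) (nat_lit 0) (nat_lit 3375998196) (nat_lit 76) (nat_lit 10558179308) (nat_lit 68) (nat_lit 3) (nat_lit 67) (nat_lit 1)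 (nat_lit 68) (nat_lit 1) (nat_lit 327) (nat_lit 406) (nat_lit 287)) (XT.lf (nat_lit 0) (nat_lit 2273334603) (nat_lit 0) (nat_lit 2320026604) (nat_lit 152) (nat_lit 19229609701) (nat_lit 65) (nat_lit 3) (nat_lit 65) (nat_lit 1) (nat_lit 67) (nat_lit 1) (nat_lit 328) (nat_lit 406) (nat_lit 286))) (XT.nd (nat_lit 78) (nat_lit 152) (nat_lit 0) (XT.lf (nat_lit 76) (nat_lit 8772419842) (nat_lit 0) (nat_lit 5628517742) (nat_lit 76) (nat_lit 8815653176) (nat_lit 65) (nat_lit 3) (nat_lit 64) (nat_lit 1) (nat_lit 65) (nat_lit 1) (nat_lit 329) (nat_lit 406) (nat_lit 285)) (XT.lf (nat_lit 0) (nat_lit 3331607703) (nat_lit 0) (nat_lit 3369732336) (nat_lit 152) (nat_lit 15928877327) (nat_lit 62) (nat_lit 3) (nat_lit 62) (nat_lit 1) (nat_lit 64) (nat_lit 1) (nat_lit 330) (nat_lit 406) (nat_lit 284)))))) (XT.nd (nat_lit 546) (nat_lit 912) (nat_lit 0) (XT.nd (nat_lit 234) (nat_lit 456) (nat_lit 0) (XT.nd (nat_lit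 78) (nat_lit 228) (nat_lit 0) (XT.lf (nat_lit 76) (nat_lit 7189036216) (nat_lit 0) (nat_lit 7641878974) (nat_lit 76) (nat_lit 7224336802) (nat_lit 62) (nat_lit 3) (nat_lit 61) (nat_lit 1) (nat_lit 62) (nat_lit 1) (nat_lit 331) (nat_lit 406) (nat_lit 283)) (XT.nd (nat_lit 78) (nat_lit 76) (nat_lit 0) (XT.lf (nat_lit 0) (nat_lit 4275312181) (nat_lit 0) (nat_lit 4306441446) (nat_lit 152) (nat_lit 12915716717) (nat_lit 59) (nat_lit 3) (nat_lit 59) (nat_lit 1) (nat_lit 61) (nat_lit 1) (nat_lit 332) (nat_lit 406) (nat_lit 282)) (XT.lf (nat_lit 76) (nat_lit 5744410749) (nat_lit 0) (nat_lit 9434638596) (nat_lit 76) (nat_lit 5773234142) (nat_lit 59) (nat_lit 3) (nat_lit 58) (nat_lit 1) (nat_lit 59) (nat_lit 1) (nat_lit 333) (nat_lit 406) (nat_lit 281)))) (XT.nd (nat_lit 156) (nat_lit 228) (nat_lit 0) (XT.nd (nat_lit 78) (nat_lit 76) (nat_lit 0) (XT.lf (nat_lit 0) (nat_lit 5113468548) (nat_lit 0) (nat_lit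 5138886002) (nat_lit 152) (nat_lit 10169339597) (nat_lit 56) (nat_lit 3) (nat_lit 56) (nat_lit 1) (nat_lit 58) (nat_lit 1) (nat_lit 334) (nat_lit 406) (nat_lit 280)) (XT.lf (nat_lit 76) (nat_lit 4428556588) (nat_lit 0) (nat_lit 11024087513) (nat_lit 76) (nat_lit 4452091268) (nat_lit 56) (nat_lit 3) (nat_lit 55) (nat_lit 1) (nat_lit 56) (nat_lit 1) (nat_lit 335) (nat_lit 406) (nat_lit 279))) (XT.nd (nat_lit 78) (nat_lit 76) (nat_lit 0) (XT.lf (nat_lit 0) (nat_lit 5854463455) (nat_lit 0) (nat_lit 5875217141) (nat_lit 152) (nat_lit 7670327255) (nat_lit 53) (nat_lit 3) (nat_lit 53) (nat_lit 1) (nat_lit 55) (nat_lit 1) (nat_lit 336) (nat_lit 406) (nat_lit 278)) (XT.lf (nat_lit 76) (nat_lit 3232130748) (nat_lit 0) (nat_lit 12426330109) (nat_lit 76) (nat_lit 3251347123) (nat_lit 53) (nat_lit 3) (nat_lit 52) (nat_lit 1) (nat_lit 53) (nat_lit 1) (nat_lit 337) (nat_lit 406) (nat_lit 277))))) (XT.nd (nat_lit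 234) (nat_lit 532) (nat_lit 0) (XT.nd (nat_lit 78) (nat_lit 228) (nat_lit 0) (XT.lf (nat_lit 0) (nat_lit 6506092726) (nat_lit 0) (nat_lit 6523038383) (nat_lit 152) (nat_lit 5400546182) (nat_lit 50) (nat_lit 3) (nat_lit 50) (nat_lit 1) (nat_lit 52) (nat_lit 1) (nat_lit 338) (nat_lit 406) (nat_lit 276)) (XT.nd (nat_lit 78) (nat_lit 152) (nat_lit 0) (XT.lf (nat_lit 76) (nat_lit 2146397313) (nat_lit 0) (nat_lit 13656359059) (nat_lit 76) (nat_lit 2162087737) (nat_lit 50) (nat_lit 3) (nat_lit 49) (nat_lit 1) (nat_lit 50) (nat_lit 1) (nat_lit 339) (nat_lit 406) (nat_lit 275)) (XT.lf (nat_lit 0) (nat_lit 7075601331) (nat_lit 0) (nat_lit 7089437683) (nat_lit 152) (nat_lit 3343068469) (nat_lit 47) (nat_lit 3) (nat_lit 47) (nat_lit 1) (nat_lit 49) (nat_lit 1) (nat_lit 340) (nat_lit 406) (nat_lit 274)))) (XT.nd (nat_lit 156) (nat_lit 304) (nat_lit 0) (XT.nd (nat_lit 78) (nat_lit 152) (nat_lit 0) (XT.lf (nat_lit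 76) (nat_lit 1163192172) (nat_lit 0) (nat_lit 14728125865) (nat_lit 76) (nat_lit 1176003610) (nat_lit 47) (nat_lit 3) (nat_lit 46) (nat_lit 1) (nat_lit 47) (nat_lit 1) (nat_lit 341) (nat_lit 406) (nat_lit 273)) (XT.lf (nat_lit 0) (nat_lit 7569720561) (nat_lit 0) (nat_lit 7581018125) (nat_lit 152) (nat_lit 1482096762) (nat_lit 44) (nat_lit 3) (nat_lit 44) (nat_lit 1) (nat_lit 46) (nat_lit 1) (nat_lit 342) (nat_lit 406) (nat_lit 272))) (XT.nd (nat_lit 78) (nat_lit 228) (nat_lit 0) (XT.lf (nat_lit 76) (nat_lit 274889312) (nat_lit 0) (nat_lit 15654607312) (nat_lit 76) (nat_lit 285350020) (nat_lit 44) (nat_lit 3) (nat_lit 43) (nat_lit 1) (nat_lit 44) (nat_lit 1) (nat_lit 343) (nat_lit 406) (nat_lit 271)) (XT.lf (nat_lit 76) (nat_lit 7794258084) (nat_lit 0) (nat_lit 203623681) (nat_lit 76) (nat_lit 7803482694) (nat_lit 41) (nat_lit 3) (nat_lit 40) (nat_lit 1) (nat_lit 41) (nat_lit 1) (nat_lit 344)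 (nat_lit 406) (nat_lit 270))))))))
noncomputable def ec205 : XT := (XT.nd (nat_lit 2106) (nat_lit 0) (nat_lit 0) (XT.nd (nat_lit 1014) (nat_lit 1520) (nat_lit 0) (XT.nd (nat_lit 468) (nat_lit 836) (nat_lit 0) (XT.nd (nat_lit 234) (nat_lit 304) (nat_lit 0) (XT.nd (nat_lit 78) (nat_lit 228) (nat_lit 0) (XT.lf (nat_lit 0) (nat_lit 525840262) (nat_lit 0) (nat_lit 533974838) (nat_lit 152) (nat_lit 14343662933) (nat_lit 38) (nat_lit 3) (nat_lit 38) (nat_lit 1) (nat_lit 40) (nat_lit 1) (nat_lit 345) (nat_lit 406) (nat_lit 269)) (XT.nd (nat_lit 78) (nat_lit 152) (nat_lit 0) (XT.lf (nat_lit 76) (nat_lit 6619136838) (nat_lit 0) (nat_lit 1764769060) (nat_lit 76) (nat_lit 6626668853) (nat_lit 38) (nat_lit 3) (nat_lit 37) (nat_lit 1) (nat_lit 38) (nat_lit 1) (nat_lit 346) (nat_lit 406) (nat_lit 268)) (XT.lf (nat_lit 0) (nat_lit 1258559167) (nat_lit 0) (nat_lit 1265201156) (nat_lit 152) (nat_lit 12108330810)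 (nat_lit 35) (nat_lit 3) (nat_lit 35) (nat_lit 1) (nat_lit 37) (nat_lit 1) (nat_lit 347) (nat_lit 406) (nat_lit 267)))) (XT.nd (nat_lit 78) (nat_lit 228) (nat_lit 0) (XT.lf (nat_lit 76) (nat_lit 5543911514) (nat_lit 0) (nat_lit 3165571902) (nat_lit 76) (nat_lit 5550061504) (nat_lit 35) (nat_lit 3) (nat_lit 34) (nat_lit 1) (nat_lit 35) (nat_lit 1) (nat_lit 348) (nat_lit 406) (nat_lit 266)) (XT.nd (nat_lit 78) (nat_lit 76) (nat_lit 0) (XT.lf (nat_lit 0) (nat_lit 1914827031) (nat_lit 0) (nat_lit 1920250302) (nat_lit 152) (nat_lit 10064437593) (nat_lit 32) (nat_lit 3) (nat_lit 32) (nat_lit 1) (nat_lit 34) (nat_lit 1) (nat_lit 349) (nat_lit 406) (nat_lit 265)) (XT.lf (nat_lit 76) (nat_lit 4561437653) (nat_lit 0) (nat_lit 4418369087) (nat_lit 76) (nat_lit 4566459200) (nat_lit 32) (nat_lit 3) (nat_lit 31) (nat_lit 1) (nat_lit 32) (nat_lit 1) (nat_lit 350) (nat_lit 406) (nat_lit 264))))) (XT.nd (nat_lit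 234) (nat_lit 456) (nat_lit 0) (XT.nd (nat_lit 78) (nat_lit 228) (nat_lit 0) (XT.lf (nat_lit 0) (nat_lit 2500569739) (nat_lit 0) (nat_lit 2504997911) (nat_lit 152) (nat_lit 8198219365) (nat_lit 29) (nat_lit 3) (nat_lit 29) (nat_lit 1) (nat_lit 31) (nat_lit 1) (nat_lit 351) (nat_lit 406) (nat_lit 263)) (XT.nd (nat_lit 78) (nat_lit 152) (nat_lit 0) (XT.lf (nat_lit 76) (nat_lit 3665038212) (nat_lit 0) (nat_lit 5534654293) (nat_lit 76) (nat_lit 3669138372) (nat_lit 29) (nat_lit 3) (nat_lit 28) (nat_lit 1) (nat_lit 29) (nat_lit 1) (nat_lit 352) (nat_lit 406) (nat_lit 262)) (XT.lf (nat_lit 0) (nat_lit 3021304221) (nat_lit 0) (nat_lit 3024919882) (nat_lit 152) (nat_lit 6496820688) (nat_lit 26) (nat_lit 3) (nat_lit 26) (nat_lit 1) (nat_lit 28) (nat_lit 1) (nat_lit 353) (nat_lit 406) (nat_lit 261)))) (XT.nd (nat_lit 156) (nat_lit 228) (nat_lit 0) (XT.nd (nat_lit 78) (nat_lit 152) (nat_lit 0) (XT.lf (nat_lit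 76) (nat_lit 2848475000) (nat_lit 0) (nat_lit 6525131827) (nat_lit 76) (nat_lit 2851822834) (nat_lit 26) (nat_lit 3) (nat_lit 25) (nat_lit 1) (nat_lit 26) (nat_lit 1) (nat_lit 354) (nat_lit 406) (nat_lit 260)) (XT.lf (nat_lit 0) (nat_lit 3482165158) (nat_lit 0) (nat_lit 3485117392) (nat_lit 152) (nat_lit 4948237765) (nat_lit 23) (nat_lit 3) (nat_lit 23) (nat_lit 1) (nat_lit 25) (nat_lit 1) (nat_lit 355) (nat_lit 406) (nat_lit 259))) (XT.nd (nat_lit 78) (nat_lit 152) (nat_lit 0) (XT.lf (nat_lit 76) (nat_lit 2105921692) (nat_lit 0) (nat_lit 7399767194) (nat_lit 76) (nat_lit 2108655243) (nat_lit 23) (nat_lit 3) (nat_lit 22) (nat_lit 1) (nat_lit 23) (nat_lit 1) (nat_lit 356) (nat_lit 406) (nat_lit 258)) (XT.lf (nat_lit 0) (nat_lit 3887929966) (nat_lit 0) (nat_lit 3890340505) (nat_lit 152) (nat_lit 3541265004) (nat_lit 20) (nat_lit 3) (nat_lit 20) (nat_lit 1) (nat_lit 22) (nat_lit 1) (nat_lit 357)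 (nat_lit 406) (nat_lit 257)))))) (XT.nd (nat_lit 546) (nat_lit 608) (nat_lit 0) (XT.nd (nat_lit 234) (nat_lit 608) (nat_lit 0) (XT.nd (nat_lit 78) (nat_lit 228) (nat_lit 0) (XT.lf (nat_lit 76) (nat_lit 1431938370) (nat_lit 0) (nat_lit 8167834605) (nat_lit 76) (nat_lit 1434170350) (nat_lit 20) (nat_lit 3) (nat_lit 19) (nat_lit 1) (nat_lit 20) (nat_lit 1) (nat_lit 358) (nat_lit 406) (nat_lit 256)) (XT.nd (nat_lit 78) (nat_lit 76) (nat_lit 0) (XT.lf (nat_lit 0) (nat_lit 4243042185) (nat_lit 0) (nat_lit 4245010421) (nat_lit 152) (nat_lit 2265444784) (nat_lit 17) (nat_lit 3) (nat_lit 17) (nat_lit 1) (nat_lit 19) (nat_lit 1) (nat_lit 359) (nat_lit 406) (nat_lit 255)) (XT.lf (nat_lit 76) (nat_lit 821447507) (nat_lit 0) (nat_lit 8837961588) (nat_lit 76) (nat_lit 823269949) (nat_lit 17) (nat_lit 3) (nat_lit 16) (nat_lit 1) (nat_lit 17) (nat_lit 1) (nat_lit 360) (nat_lit 406) (nat_lit 254)))) (XT.nd (nat_lit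 156) (nat_lit 380) (nat_lit 0) (XT.nd (nat_lit 78) (nat_lit 76) (nat_lit 0) (XT.lf (nat_lit 0) (nat_lit 4551633352) (nat_lit 0) (nat_lit 4553240443) (nat_lit 152) (nat_lit 1111020250) (nat_lit 14) (nat_lit 3) (nat_lit 14) (nat_lit 1) (nat_lit 16) (nat_lit 1) (nat_lit 361) (nat_lit 406) (nat_lit 253)) (XT.lf (nat_lit 76) (nat_lit 269711347) (nat_lit 0) (nat_lit 9418170862) (nat_lit 76) (nat_lit 271199394) (nat_lit 14) (nat_lit 3) (nat_lit 13) (nat_lit 1) (nat_lit 14) (nat_lit 1) (nat_lit 362) (nat_lit 406) (nat_lit 252))) (XT.nd (nat_lit 78) (nat_lit 228) (nat_lit 0) (XT.lf (nat_lit 0) (nat_lit 4817543498) (nat_lit 0) (nat_lit 4818855709) (nat_lit 152) (nat_lit 68890965) (nat_lit 11) (nat_lit 3) (nat_lit 11) (nat_lit 1) (nat_lit 13) (nat_lit 1) (nat_lit 363) (nat_lit 406) (nat_lit 251)) (XT.lf (nat_lit 0) (nat_lit 230225982) (nat_lit 0) (nat_lit 231383135) (nat_lit 152) (nat_lit 8999419914) (nat_lit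 8) (nat_lit 3) (nat_lit 8) (nat_lit 1) (nat_lit 10) (nat_lit 1) (nat_lit 364) (nat_lit 406) (nat_lit 250))))) (XT.nd (nat_lit 234) (nat_lit 304) (nat_lit 0) (XT.nd (nat_lit 78) (nat_lit 228) (nat_lit 0) (XT.lf (nat_lit 76) (nat_lit 4160187364) (nat_lit 0) (nat_lit 898175996) (nat_lit 76) (nat_lit 4161258801) (nat_lit 8) (nat_lit 3) (nat_lit 7) (nat_lit 1) (nat_lit 8) (nat_lit 1) (nat_lit 365) (nat_lit 406) (nat_lit 249)) (XT.nd (nat_lit 78) (nat_lit 76) (nat_lit 0) (XT.lf (nat_lit 0) (nat_lit 684962609) (nat_lit 0) (nat_lit 685907439) (nat_lit 152) (nat_lit 7616348801) (nat_lit 5) (nat_lit 3) (nat_lit 5) (nat_lit 1) (nat_lit 7) (nat_lit 1) (nat_lit 366) (nat_lit 406) (nat_lit 248)) (XT.lf (nat_lit 76) (nat_lit 3494497167) (nat_lit 0) (nat_lit 1768450424) (nat_lit 76) (nat_lit 3495372010) (nat_lit 5) (nat_lit 3) (nat_lit 4) (nat_lit 1) (nat_lit 5) (nat_lit 1) (nat_lit 367) (nat_lit 406) (nat_lit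 247)))) (XT.nd (nat_lit 156) (nat_lit 76) (nat_lit 0) (XT.nd (nat_lit 78) (nat_lit 76) (nat_lit 0) (XT.lf (nat_lit 0) (nat_lit 1092525604) (nat_lit 0) (nat_lit 1093297070) (nat_lit 152) (nat_lit 6351424361) (nat_lit 2) (nat_lit 3) (nat_lit 2) (nat_lit 1) (nat_lit 4) (nat_lit 1) (nat_lit 368) (nat_lit 406) (nat_lit 246)) (XT.lf (nat_lit 76) (nat_lit 2886110324) (nat_lit 0) (nat_lit 2547269362) (nat_lit 76) (nat_lit 2886824644) (nat_lit 2) (nat_lit 3) (nat_lit 1) (nat_lit 1) (nat_lit 2) (nat_lit 1) (nat_lit 369) (nat_lit 406) (nat_lit 245))) (XT.nd (nat_lit 78) (nat_lit 0) (nat_lit 0) (XT.lf (nat_lit 0) (nat_lit 172531899472) (nat_lit 0) (nat_lit 0) (nat_lit 0) (nat_lit 0) (nat_lit 0) (nat_lit 0) (nat_lit 1) (nat_lit 0) (nat_lit 1) (nat_lit 0) (nat_lit 370) (nat_lit 406) (nat_lit 244)) (XT.lf (nat_lit 0) (nat_lit 172531850281) (nat_lit 0) (nat_lit 0) (nat_lit 0) (nat_lit 0) (nat_lit 0) (nat_lit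 0) (nat_lit 1) (nat_lit 0) (nat_lit 1) (nat_lit 0) (nat_lit 371) (nat_lit 406) (nat_lit 243))))))) (XT.nd (nat_lit 1014) (nat_lit 0) (nat_lit 0) (XT.nd (nat_lit 468) (nat_lit 0) (nat_lit 0) (XT.nd (nat_lit 234) (nat_lit 0) (nat_lit 0) (XT.nd (nat_lit 78) (nat_lit 0) (nat_lit 0) (XT.lf (nat_lit 0) (nat_lit 172531804734) (nat_lit 0) (nat_lit 0) (nat_lit 0) (nat_lit 0) (nat_lit 0) (nat_lit 0) (nat_lit 1) (nat_lit 0) (nat_lit 1) (nat_lit 0) (nat_lit 372) (nat_lit 406) (nat_lit 242)) (XT.nd (nat_lit 78) (nat_lit 0) (nat_lit 0) (XT.lf (nat_lit 0) (nat_lit 172531762560) (nat_lit 0) (nat_lit 0) (nat_lit 0) (nat_lit 0) (nat_lit 0) (nat_lit 0) (nat_lit 1) (nat_lit 0) (nat_lit 1) (nat_lit 0) (nat_lit 373) (nat_lit 406) (nat_lit 241)) (XT.lf (nat_lit 0) (nat_lit 172531723511) (nat_lit 0) (nat_lit 0) (nat_lit 0) (nat_lit 0) (nat_lit 0) (nat_lit 0) (nat_lit 1) (nat_lit 0) (nat_lit 1) (nat_lit 0) (nat_lit 374)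 (nat_lit 406) (nat_lit 240)))) (XT.nd (nat_lit 78) (nat_lit 0) (nat_lit 0) (XT.lf (nat_lit 0) (nat_lit 172531687354) (nat_lit 0) (nat_lit 0) (nat_lit 0) (nat_lit 0) (nat_lit 0) (nat_lit 0) (nat_lit 1) (nat_lit 0) (nat_lit 1) (nat_lit 0) (nat_lit 375) (nat_lit 406) (nat_lit 239)) (XT.nd (nat_lit 78) (nat_lit 0) (nat_lit 0) (XT.lf (nat_lit 0) (nat_lit 172531653875) (nat_lit 0) (nat_lit 0) (nat_lit 0) (nat_lit 0) (nat_lit 0) (nat_lit 0) (nat_lit 1) (nat_lit 0) (nat_lit 1) (nat_lit 0) (nat_lit 376) (nat_lit 406) (nat_lit 238)) (XT.lf (nat_lit 0) (nat_lit 172531622877) (nat_lit 0) (nat_lit 0) (nat_lit 0) (nat_lit 0) (nat_lit 0) (nat_lit 0) (nat_lit 1) (nat_lit 0) (nat_lit 1) (nat_lit 0) (nat_lit 377) (nat_lit 406) (nat_lit 237))))) (XT.nd (nat_lit 234) (nat_lit 0) (nat_lit 0) (XT.nd (nat_lit 78) (nat_lit 0) (nat_lit 0) (XT.lf (nat_lit 0) (nat_lit 172531594174) (nat_lit 0) (nat_lit 0) (nat_lit 0) (nat_lit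 0) (nat_lit 0) (nat_lit 0) (nat_lit 1) (nat_lit 0) (nat_lit 1) (nat_lit 0) (nat_lit 378) (nat_lit 406) (nat_lit 236)) (XT.nd (nat_lit 78) (nat_lit 0) (nat_lit 0) (XT.lf (nat_lit 0) (nat_lit 172531567598) (nat_lit 0) (nat_lit 0) (nat_lit 0) (nat_lit 0) (nat_lit 0) (nat_lit 0) (nat_lit 1) (nat_lit 0) (nat_lit 1) (nat_lit 0) (nat_lit 379) (nat_lit 406) (nat_lit 235)) (XT.lf (nat_lit 0) (nat_lit 172531542990) (nat_lit 0) (nat_lit 0) (nat_lit 0) (nat_lit 0) (nat_lit 0) (nat_lit 0) (nat_lit 1) (nat_lit 0) (nat_lit 1) (nat_lit 0) (nat_lit 380) (nat_lit 406) (nat_lit 234)))) (XT.nd (nat_lit 156) (nat_lit 0) (nat_lit 0) (XT.nd (nat_lit 78) (nat_lit 0) (nat_lit 0) (XT.lf (nat_lit 0) (nat_lit 172531520205) (nat_lit 0) (nat_lit 0) (nat_lit 0) (nat_lit 0) (nat_lit 0) (nat_lit 0) (nat_lit 1) (nat_lit 0) (nat_lit 1) (nat_lit 0) (nat_lit 381) (nat_lit 406) (nat_lit 233)) (XT.lf (nat_lit 0) (nat_lit 172531499108)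 (nat_lit 0) (nat_lit 0) (nat_lit 0) (nat_lit 0) (nat_lit 0) (nat_lit 0) (nat_lit 1) (nat_lit 0) (nat_lit 1) (nat_lit 0) (nat_lit 382) (nat_lit 406) (nat_lit 232))) (XT.nd (nat_lit 78) (nat_lit 0) (nat_lit 0) (XT.lf (nat_lit 0) (nat_lit 172531479574) (nat_lit 0) (nat_lit 0) (nat_lit 0) (nat_lit 0) (nat_lit 0) (nat_lit 0) (nat_lit 1) (nat_lit 0) (nat_lit 1) (nat_lit 0) (nat_lit 383) (nat_lit 406) (nat_lit 231)) (XT.lf (nat_lit 0) (nat_lit 172531461486) (nat_lit 0) (nat_lit 0) (nat_lit 0) (nat_lit 0) (nat_lit 0) (nat_lit 0) (nat_lit 1) (nat_lit 0) (nat_lit 1) (nat_lit 0) (nat_lit 384) (nat_lit 406) (nat_lit 230)))))) (XT.nd (nat_lit 546) (nat_lit 0) (nat_lit 0) (XT.nd (nat_lit 234) (nat_lit 0) (nat_lit 0) (XT.nd (nat_lit 78) (nat_lit 0) (nat_lit 0) (XT.lf (nat_lit 0) (nat_lit 172531444739) (nat_lit 0) (nat_lit 0) (nat_lit 0) (nat_lit 0) (nat_lit 0) (nat_lit 0) (nat_lit 1) (nat_lit 0) (nat_lit 1)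 (nat_lit 0) (nat_lit 385) (nat_lit 406) (nat_lit 229)) (XT.nd (nat_lit 78) (nat_lit 0) (nat_lit 0) (XT.lf (nat_lit 0) (nat_lit 172531429232) (nat_lit 0) (nat_lit 0) (nat_lit 0) (nat_lit 0) (nat_lit 0) (nat_lit 0) (nat_lit 1) (nat_lit 0) (nat_lit 1) (nat_lit 0) (nat_lit 386) (nat_lit 406) (nat_lit 228)) (XT.lf (nat_lit 0) (nat_lit 172531414873) (nat_lit 0) (nat_lit 0) (nat_lit 0) (nat_lit 0) (nat_lit 0) (nat_lit 0) (nat_lit 1) (nat_lit 0) (nat_lit 1) (nat_lit 0) (nat_lit 387) (nat_lit 406) (nat_lit 227)))) (XT.nd (nat_lit 156) (nat_lit 0) (nat_lit 0) (XT.nd (nat_lit 78) (nat_lit 0) (nat_lit 0) (XT.lf (nat_lit 0) (nat_lit 172531401578) (nat_lit 0) (nat_lit 0) (nat_lit 0) (nat_lit 0) (nat_lit 0) (nat_lit 0) (nat_lit 1) (nat_lit 0) (nat_lit 1) (nat_lit 0) (nat_lit 388) (nat_lit 406) (nat_lit 226)) (XT.lf (nat_lit 0) (nat_lit 172531389268) (nat_lit 0) (nat_lit 0) (nat_lit 0) (nat_lit 0) (nat_lit 0)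 (nat_lit 0) (nat_lit 1) (nat_lit 0) (nat_lit 1) (nat_lit 0) (nat_lit 389) (nat_lit 406) (nat_lit 225))) (XT.nd (nat_lit 78) (nat_lit 0) (nat_lit 0) (XT.lf (nat_lit 0) (nat_lit 172531377870) (nat_lit 0) (nat_lit 0) (nat_lit 0) (nat_lit 0) (nat_lit 0) (nat_lit 0) (nat_lit 1) (nat_lit 0) (nat_lit 1) (nat_lit 0) (nat_lit 390) (nat_lit 406) (nat_lit 224)) (XT.lf (nat_lit 0) (nat_lit 172531367316) (nat_lit 0) (nat_lit 0) (nat_lit 0) (nat_lit 0) (nat_lit 0) (nat_lit 0) (nat_lit 1) (nat_lit 0) (nat_lit 1) (nat_lit 0) (nat_lit 391) (nat_lit 406) (nat_lit 223))))) (XT.nd (nat_lit 234) (nat_lit 0) (nat_lit 0) (XT.nd (nat_lit 78) (nat_lit 0) (nat_lit 0) (XT.lf (nat_lit 0) (nat_lit 172531357544) (nat_lit 0) (nat_lit 0) (nat_lit 0) (nat_lit 0) (nat_lit 0) (nat_lit 0) (nat_lit 1) (nat_lit 0) (nat_lit 1) (nat_lit 0) (nat_lit 392) (nat_lit 406) (nat_lit 222)) (XT.nd (nat_lit 78) (nat_lit 0) (nat_lit 0) (XT.lf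 (nat_lit 0) (nat_lit 172531348496) (nat_lit 0) (nat_lit 0) (nat_lit 0) (nat_lit 0) (nat_lit 0) (nat_lit 0) (nat_lit 1) (nat_lit 0) (nat_lit 1) (nat_lit 0) (nat_lit 393) (nat_lit 406) (nat_lit 221)) (XT.lf (nat_lit 0) (nat_lit 172531340118) (nat_lit 0) (nat_lit 0) (nat_lit 0) (nat_lit 0) (nat_lit 0) (nat_lit 0) (nat_lit 1) (nat_lit 0) (nat_lit 1) (nat_lit 0) (nat_lit 394) (nat_lit 406) (nat_lit 220)))) (XT.nd (nat_lit 156) (nat_lit 0) (nat_lit 0) (XT.nd (nat_lit 78) (nat_lit 0) (nat_lit 0) (XT.lf (nat_lit 0) (nat_lit 172531332361) (nat_lit 0) (nat_lit 0) (nat_lit 0) (nat_lit 0) (nat_lit 0) (nat_lit 0) (nat_lit 1) (nat_lit 0) (nat_lit 1) (nat_lit 0) (nat_lit 395) (nat_lit 406) (nat_lit 219)) (XT.lf (nat_lit 0) (nat_lit 172531325178) (nat_lit 0) (nat_lit 0) (nat_lit 0) (nat_lit 0) (nat_lit 0) (nat_lit 0) (nat_lit 1) (nat_lit 0) (nat_lit 1) (nat_lit 0) (nat_lit 396) (nat_lit 406) (nat_lit 218)))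 (XT.nd (nat_lit 78) (nat_lit 0) (nat_lit 0) (XT.lf (nat_lit 0) (nat_lit 172531318527) (nat_lit 0) (nat_lit 0) (nat_lit 0) (nat_lit 0) (nat_lit 0) (nat_lit 0) (nat_lit 1) (nat_lit 0) (nat_lit 1) (nat_lit 0) (nat_lit 397) (nat_lit 406) (nat_lit 217)) (XT.lf (nat_lit 0) (nat_lit 172531312369) (nat_lit 0) (nat_lit 0) (nat_lit 0) (nat_lit 0) (nat_lit 0) (nat_lit 0) (nat_lit 1) (nat_lit 0) (nat_lit 1) (nat_lit 0) (nat_lit 398) (nat_lit 406) (nat_lit 216))))))))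
noncomputable def ec206 : XT := (XT.nd (nat_lit 38766) (nat_lit 0) (nat_lit 15200) (XT.nd (nat_lit 1014) (nat_lit 0) (nat_lit 0) (XT.nd (nat_lit 468) (nat_lit 0) (nat_lit 0) (XT.nd (nat_lit 234) (nat_lit 0) (nat_lit 0) (XT.nd (nat_lit 78) (nat_lit 0) (nat_lit 0) (XT.lf (nat_lit 0) (nat_lit 172531306667) (nat_lit 0) (nat_lit 0) (nat_lit 0) (nat_lit 0) (nat_lit 0) (nat_lit 0) (nat_lit 1) (nat_lit 0) (nat_lit 1) (nat_lit 0) (nat_lit 399) (nat_lit 406) (nat_lit 215)) (XT.nd (nat_lit 78) (nat_lit 0) (nat_lit 0) (XT.lf (nat_lit 0) (nat_lit 172531301388) (nat_lit 0) (nat_lit 0) (nat_lit 0) (nat_lit 0) (nat_lit 0) (nat_lit 0) (nat_lit 1) (nat_lit 0) (nat_lit 1) (nat_lit 0) (nat_lit 400) (nat_lit 406) (nat_lit 214)) (XT.lf (nat_lit 0) (nat_lit 172531296499) (nat_lit 0) (nat_lit 0) (nat_lit 0) (nat_lit 0) (nat_lit 0) (nat_lit 0) (nat_lit 1) (nat_lit 0) (nat_lit 1) (nat_lit 0) (nat_lit 401) (nat_lit 406)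 (nat_lit 213)))) (XT.nd (nat_lit 78) (nat_lit 0) (nat_lit 0) (XT.lf (nat_lit 0) (nat_lit 172531291973) (nat_lit 0) (nat_lit 0) (nat_lit 0) (nat_lit 0) (nat_lit 0) (nat_lit 0) (nat_lit 1) (nat_lit 0) (nat_lit 1) (nat_lit 0) (nat_lit 402) (nat_lit 406) (nat_lit 212)) (XT.nd (nat_lit 78) (nat_lit 0) (nat_lit 0) (XT.lf (nat_lit 0) (nat_lit 172531287782) (nat_lit 0) (nat_lit 0) (nat_lit 0) (nat_lit 0) (nat_lit 0) (nat_lit 0) (nat_lit 1) (nat_lit 0) (nat_lit 1) (nat_lit 0) (nat_lit 403) (nat_lit 406) (nat_lit 211)) (XT.lf (nat_lit 0) (nat_lit 172531283901) (nat_lit 0) (nat_lit 0) (nat_lit 0) (nat_lit 0) (nat_lit 0) (nat_lit 0) (nat_lit 1) (nat_lit 0) (nat_lit 1) (nat_lit 0) (nat_lit 404) (nat_lit 406) (nat_lit 210))))) (XT.nd (nat_lit 234) (nat_lit 0) (nat_lit 0) (XT.nd (nat_lit 78) (nat_lit 0) (nat_lit 0) (XT.lf (nat_lit 0) (nat_lit 172531280308) (nat_lit 0) (nat_lit 0) (nat_lit 0) (nat_lit 0) (nat_lit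 0) (nat_lit 0) (nat_lit 1) (nat_lit 0) (nat_lit 1) (nat_lit 0) (nat_lit 405) (nat_lit 406) (nat_lit 209)) (XT.nd (nat_lit 78) (nat_lit 0) (nat_lit 0) (XT.lf (nat_lit 0) (nat_lit 172531276981) (nat_lit 0) (nat_lit 0) (nat_lit 0) (nat_lit 0) (nat_lit 0) (nat_lit 0) (nat_lit 1) (nat_lit 0) (nat_lit 1) (nat_lit 0) (nat_lit 406) (nat_lit 406) (nat_lit 208)) (XT.lf (nat_lit 0) (nat_lit 172531273900) (nat_lit 0) (nat_lit 0) (nat_lit 0) (nat_lit 0) (nat_lit 0) (nat_lit 0) (nat_lit 1) (nat_lit 0) (nat_lit 1) (nat_lit 0) (nat_lit 407) (nat_lit 406) (nat_lit 207)))) (XT.nd (nat_lit 156) (nat_lit 0) (nat_lit 0) (XT.nd (nat_lit 78) (nat_lit 0) (nat_lit 0) (XT.lf (nat_lit 0) (nat_lit 172531271048) (nat_lit 0) (nat_lit 0) (nat_lit 0) (nat_lit 0) (nat_lit 0) (nat_lit 0) (nat_lit 1) (nat_lit 0) (nat_lit 1) (nat_lit 0) (nat_lit 408) (nat_lit 406) (nat_lit 206)) (XT.lf (nat_lit 0) (nat_lit 172531268407) (nat_lit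 0) (nat_lit 0) (nat_lit 0) (nat_lit 0) (nat_lit 0) (nat_lit 0) (nat_lit 1) (nat_lit 0) (nat_lit 1) (nat_lit 0) (nat_lit 409) (nat_lit 406) (nat_lit 205))) (XT.nd (nat_lit 78) (nat_lit 0) (nat_lit 0) (XT.lf (nat_lit 0) (nat_lit 172531265962) (nat_lit 0) (nat_lit 0) (nat_lit 0) (nat_lit 0) (nat_lit 0) (nat_lit 0) (nat_lit 1) (nat_lit 0) (nat_lit 1) (nat_lit 0) (nat_lit 410) (nat_lit 406) (nat_lit 204)) (XT.lf (nat_lit 0) (nat_lit 172531263697) (nat_lit 0) (nat_lit 0) (nat_lit 0) (nat_lit 0) (nat_lit 0) (nat_lit 0) (nat_lit 1) (nat_lit 0) (nat_lit 1) (nat_lit 0) (nat_lit 411) (nat_lit 406) (nat_lit 203)))))) (XT.nd (nat_lit 37206) (nat_lit 0) (nat_lit 21280) (XT.nd (nat_lit 234) (nat_lit 0) (nat_lit 0) (XT.nd (nat_lit 78) (nat_lit 0) (nat_lit 0) (XT.lf (nat_lit 0) (nat_lit 172531261601) (nat_lit 0) (nat_lit 0) (nat_lit 0) (nat_lit 0) (nat_lit 0) (nat_lit 0) (nat_lit 1) (nat_lit 0) (nat_lit 1) (nat_lit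 0) (nat_lit 412) (nat_lit 406) (nat_lit 202)) (XT.nd (nat_lit 78) (nat_lit 0) (nat_lit 0) (XT.lf (nat_lit 0) (nat_lit 172531259659) (nat_lit 0) (nat_lit 0) (nat_lit 0) (nat_lit 0) (nat_lit 0) (nat_lit 0) (nat_lit 1) (nat_lit 0) (nat_lit 1) (nat_lit 0) (nat_lit 413) (nat_lit 406) (nat_lit 201)) (XT.lf (nat_lit 0) (nat_lit 172531257862) (nat_lit 0) (nat_lit 0) (nat_lit 0) (nat_lit 0) (nat_lit 0) (nat_lit 0) (nat_lit 1) (nat_lit 0) (nat_lit 1) (nat_lit 0) (nat_lit 414) (nat_lit 406) (nat_lit 200)))) (XT.nd (nat_lit 36816) (nat_lit 0) (nat_lit 22192) (XT.lf (nat_lit 0) (nat_lit 172531256198) (nat_lit 0) (nat_lit 0) (nat_lit 0) (nat_lit 0) (nat_lit 0) (nat_lit 0) (nat_lit 1) (nat_lit 0) (nat_lit 1) (nat_lit 0) (nat_lit 415) (nat_lit 406) (nat_lit 199)) (XT.nd (nat_lit 78) (nat_lit 0) (nat_lit 76) (XT.lf (nat_lit 836) (nat_lit 93248380220) (nat_lit 0) (nat_lit 165562284742) (nat_lit 836) (nat_lit 93248380220)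 (nat_lit 303) (nat_lit 1) (nat_lit 292) (nat_lit 0) (nat_lit 303) (nat_lit 0) (nat_lit 206) (nat_lit 407) (nat_lit 407)) (XT.lf (nat_lit 836) (nat_lit 34784507068) (nat_lit 0) (nat_lit 325048942949) (nat_lit 760) (nat_lit 317896780239) (nat_lit 304) (nat_lit 1) (nat_lit 293) (nat_lit 1) (nat_lit 303) (nat_lit 1) (nat_lit 207) (nat_lit 407) (nat_lit 406))))) (XT.nd (nat_lit 234) (nat_lit 988) (nat_lit 0) (XT.nd (nat_lit 78) (nat_lit 0) (nat_lit 76) (XT.lf (nat_lit 836) (nat_lit 319475619516) (nat_lit 76) (nat_lit 217685386659) (nat_lit 0) (nat_lit 115450399125) (nat_lit 304) (nat_lit 1) (nat_lit 294) (nat_lit 1) (nat_lit 293) (nat_lit 1) (nat_lit 208) (nat_lit 407) (nat_lit 405)) (XT.nd (nat_lit 78) (nat_lit 0) (nat_lit 76) (XT.lf (nat_lit 836) (nat_lit 276053107081) (nat_lit 76) (nat_lit 91230436696) (nat_lit 0) (nat_lit 261466046280) (nat_lit 305) (nat_lit 1) (nat_lit 295) (nat_lit 1) (nat_lit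 294) (nat_lit 1) (nat_lit 209) (nat_lit 407) (nat_lit 404)) (XT.lf (nat_lit 836) (nat_lit 204302768460) (nat_lit 0) (nat_lit 382240822815) (nat_lit 760) (nat_lit 19540096251) (nat_lit 306) (nat_lit 1) (nat_lit 295) (nat_lit 1) (nat_lit 305) (nat_lit 1) (nat_lit 210) (nat_lit 407) (nat_lit 403)))) (XT.nd (nat_lit 156) (nat_lit 1216) (nat_lit 0) (XT.nd (nat_lit 78) (nat_lit 0) (nat_lit 0) (XT.lf (nat_lit 836) (nat_lit 49020446158) (nat_lit 0) (nat_lit 421526697772) (nat_lit 760) (nat_lit 113953096570) (nat_lit 307) (nat_lit 1) (nat_lit 296) (nat_lit 1) (nat_lit 306) (nat_lit 1) (nat_lit 211) (nat_lit 407) (nat_lit 402)) (XT.lf (nat_lit 836) (nat_lit 94197359213) (nat_lit 76) (nat_lit 366341026756) (nat_lit 0) (nat_lit 103385957540) (nat_lit 307) (nat_lit 1) (nat_lit 297) (nat_lit 1) (nat_lit 296) (nat_lit 1) (nat_lit 212) (nat_lit 407) (nat_lit 401))) (XT.nd (nat_lit 78) (nat_lit 532) (nat_lit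 0) (XT.lf (nat_lit 836) (nat_lit 19345989594) (nat_lit 0) (nat_lit 273864150028) (nat_lit 760) (nat_lit 251130556071) (nat_lit 298) (nat_lit 1) (nat_lit 287) (nat_lit 1) (nat_lit 297) (nat_lit 1) (nat_lit 213) (nat_lit 407) (nat_lit 400)) (XT.lf (nat_lit 76) (nat_lit 133955661882) (nat_lit 0) (nat_lit 58049222085) (nat_lit 532) (nat_lit 333679430724) (nat_lit 281) (nat_lit 1) (nat_lit 280) (nat_lit 1) (nat_lit 287) (nat_lit 1) (nat_lit 214) (nat_lit 407) (nat_lit 399))))))) (XT.nd (nat_lit 1014) (nat_lit 2432) (nat_lit 0) (XT.nd (nat_lit 468) (nat_lit 1900) (nat_lit 0) (XT.nd (nat_lit 234) (nat_lit 684) (nat_lit 0) (XT.nd (nat_lit 78) (nat_lit 684) (nat_lit 0) (XT.lf (nat_lit 456) (nat_lit 369164943576) (nat_lit 0) (nat_lit 120171147688) (nat_lit 380) (nat_lit 18579201958) (nat_lit 281) (nat_lit 1) (nat_lit 275) (nat_lit 1) (nat_lit 280) (nat_lit 1) (nat_lit 215) (nat_lit 407) (nat_lit 398))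 (XT.nd (nat_lit 78) (nat_lit 304) (nat_lit 0) (XT.lf (nat_lit 456) (nat_lit 266392938740) (nat_lit 0) (nat_lit 56012289591) (nat_lit 380) (nat_lit 168505079572) (nat_lit 276) (nat_lit 1) (nat_lit 270) (nat_lit 1) (nat_lit 275) (nat_lit 1) (nat_lit 216) (nat_lit 407) (nat_lit 397)) (XT.lf (nat_lit 380) (nat_lit 162096705664) (nat_lit 0) (nat_lit 1031277276) (nat_lit 304) (nat_lit 311601874408) (nat_lit 271) (nat_lit 1) (nat_lit 266) (nat_lit 1) (nat_lit 270) (nat_lit 1) (nat_lit 217) (nat_lit 407) (nat_lit 396)))) (XT.nd (nat_lit 78) (nat_lit 684) (nat_lit 0) (XT.lf (nat_lit 76) (nat_lit 11958728876) (nat_lit 0) (nat_lit 403306284748) (nat_lit 380) (nat_lit 44028722784) (nat_lit 267) (nat_lit 1) (nat_lit 266) (nat_lit 1) (nat_lit 271) (nat_lit 1) (nat_lit 218) (nat_lit 407) (nat_lit 395)) (XT.nd (nat_lit 78) (nat_lit 304) (nat_lit 0) (XT.lf (nat_lit 76) (nat_lit 308777481336) (nat_lit 0) (nat_lit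 51214049178) (nat_lit 380) (nat_lit 84461268271) (nat_lit 262) (nat_lit 1) (nat_lit 261) (nat_lit 1) (nat_lit 266) (nat_lit 1) (nat_lit 219) (nat_lit 407) (nat_lit 394)) (XT.lf (nat_lit 76) (nat_lit 154489198533) (nat_lit 0) (nat_lit 156877723958) (nat_lit 380) (nat_lit 118900686964) (nat_lit 258) (nat_lit 1) (nat_lit 257) (nat_lit 1) (nat_lit 262) (nat_lit 1) (nat_lit 220) (nat_lit 407) (nat_lit 393))))) (XT.nd (nat_lit 234) (nat_lit 988) (nat_lit 0) (XT.nd (nat_lit 78) (nat_lit 608) (nat_lit 0) (XT.lf (nat_lit 76) (nat_lit 7625244265) (nat_lit 0) (nat_lit 262297118493) (nat_lit 380) (nat_lit 146831679202) (nat_lit 254) (nat_lit 1) (nat_lit 253) (nat_lit 1) (nat_lit 258) (nat_lit 1) (nat_lit 221) (nat_lit 407) (nat_lit 392)) (XT.nd (nat_lit 78) (nat_lit 380) (nat_lit 0) (XT.lf (nat_lit 304) (nat_lit 34435173347) (nat_lit 0) (nat_lit 232868594288) (nat_lit 228) (nat_lit 136466348157) (nat_lit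 254) (nat_lit 1) (nat_lit 250) (nat_lit 1) (nat_lit 253) (nat_lit 1) (nat_lit 222) (nat_lit 407) (nat_lit 391)) (XT.lf (nat_lit 76) (nat_lit 118982782147) (nat_lit 0) (nat_lit 81551538210) (nat_lit 380) (nat_lit 190788258796) (nat_lit 246) (nat_lit 1) (nat_lit 245) (nat_lit 1) (nat_lit 250) (nat_lit 1) (nat_lit 223) (nat_lit 407) (nat_lit 390)))) (XT.nd (nat_lit 156) (nat_lit 532) (nat_lit 0) (XT.nd (nat_lit 78) (nat_lit 228) (nat_lit 0) (XT.lf (nat_lit 304) (nat_lit 184213965835) (nat_lit 0) (nat_lit 173045211807) (nat_lit 228) (nat_lit 22149581736) (nat_lit 246) (nat_lit 1) (nat_lit 242) (nat_lit 1) (nat_lit 245) (nat_lit 1) (nat_lit 224) (nat_lit 407) (nat_lit 389)) (XT.lf (nat_lit 304) (nat_lit 59039686101) (nat_lit 0) (nat_lit 148984841234) (nat_lit 228) (nat_lit 159928263690) (nat_lit 243) (nat_lit 1) (nat_lit 239) (nat_lit 1) (nat_lit 242) (nat_lit 1) (nat_lit 225) (nat_lit 407) (nat_lit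 388))) (XT.nd (nat_lit 78) (nat_lit 228) (nat_lit 0) (XT.lf (nat_lit 76) (nat_lit 67290976265) (nat_lit 0) (nat_lit 61610736486) (nat_lit 304) (nat_lit 228070897856) (nat_lit 236) (nat_lit 1) (nat_lit 235) (nat_lit 1) (nat_lit 239) (nat_lit 1) (nat_lit 226) (nat_lit 407) (nat_lit 387)) (XT.lf (nat_lit 304) (nat_lit 167444762517) (nat_lit 0) (nat_lit 111411539956) (nat_lit 228) (nat_lit 67538041824) (nat_lit 236) (nat_lit 1) (nat_lit 232) (nat_lit 1) (nat_lit 235) (nat_lit 1) (nat_lit 227) (nat_lit 407) (nat_lit 386)))))) (XT.nd (nat_lit 546) (nat_lit 1064) (nat_lit 0) (XT.nd (nat_lit 234) (nat_lit 760) (nat_lit 0) (XT.nd (nat_lit 78) (nat_lit 456) (nat_lit 0) (XT.lf (nat_lit 228) (nat_lit 41509803871) (nat_lit 0) (nat_lit 97198442231) (nat_lit 152) (nat_lit 197534588659) (nat_lit 233) (nat_lit 1) (nat_lit 230) (nat_lit 1) (nat_lit 232) (nat_lit 1) (nat_lit 228) (nat_lit 407) (nat_lit 385)) (XT.nd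 (nat_lit 78) (nat_lit 152) (nat_lit 0) (XT.lf (nat_lit 76) (nat_lit 7032025972) (nat_lit 0) (nat_lit 78689897210) (nat_lit 304) (nat_lit 240762901296) (nat_lit 227) (nat_lit 1) (nat_lit 226) (nat_lit 1) (nat_lit 230) (nat_lit 1) (nat_lit 229) (nat_lit 407) (nat_lit 384)) (XT.lf (nat_lit 228) (nat_lit 120619873538) (nat_lit 0) (nat_lit 75377073002) (nat_lit 152) (nat_lit 121039631911) (nat_lit 227) (nat_lit 1) (nat_lit 224) (nat_lit 1) (nat_lit 226) (nat_lit 1) (nat_lit 230) (nat_lit 407) (nat_lit 383)))) (XT.nd (nat_lit 156) (nat_lit 380) (nat_lit 0) (XT.nd (nat_lit 78) (nat_lit 152) (nat_lit 0) (XT.lf (nat_lit 76) (nat_lit 65443302646) (nat_lit 0) (nat_lit 3022867178) (nat_lit 228) (nat_lit 239534451498) (nat_lit 222) (nat_lit 1) (nat_lit 221) (nat_lit 1) (nat_lit 224) (nat_lit 1) (nat_lit 231) (nat_lit 407) (nat_lit 382)) (XT.lf (nat_lit 228) (nat_lit 178909352032) (nat_lit 0) (nat_lit 61996101963)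 (nat_lit 152) (nat_lit 58322059760) (nat_lit 222) (nat_lit 1) (nat_lit 219) (nat_lit 1) (nat_lit 221) (nat_lit 1) (nat_lit 232) (nat_lit 407) (nat_lit 381))) (XT.nd (nat_lit 78) (nat_lit 228) (nat_lit 0) (XT.lf (nat_lit 228) (nat_lit 55576414139) (nat_lit 0) (nat_lit 57632232408) (nat_lit 152) (nat_lit 177581193940) (nat_lit 220) (nat_lit 1) (nat_lit 217) (nat_lit 1) (nat_lit 219) (nat_lit 1) (nat_lit 233) (nat_lit 407) (nat_lit 380)) (XT.lf (nat_lit 228) (nat_lit 220617939227) (nat_lit 0) (nat_lit 55062920342) (nat_lit 152) (nat_lit 6985370267) (nat_lit 217) (nat_lit 1) (nat_lit 214) (nat_lit 1) (nat_lit 216) (nat_lit 1) (nat_lit 234) (nat_lit 407) (nat_lit 379))))) (XT.nd (nat_lit 234) (nat_lit 608) (nat_lit 0) (XT.nd (nat_lit 78) (nat_lit 304) (nat_lit 0) (XT.lf (nat_lit 228) (nat_lit 98738364821) (nat_lit 0) (nat_lit 52566524643) (nat_lit 152) (nat_lit 123463459219) (nat_lit 215) (nat_lit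 1) (nat_lit 212) (nat_lit 1) (nat_lit 214) (nat_lit 1) (nat_lit 235) (nat_lit 407) (nat_lit 378)) (XT.nd (nat_lit 78) (nat_lit 152) (nat_lit 0) (XT.lf (nat_lit 76) (nat_lit 33821702133) (nat_lit 0) (nat_lit 18589931543) (nat_lit 152) (nat_lit 214786417557) (nat_lit 211) (nat_lit 1) (nat_lit 210) (nat_lit 1) (nat_lit 212) (nat_lit 1) (nat_lit 236) (nat_lit 407) (nat_lit 377)) (XT.lf (nat_lit 228) (nat_lit 129550413158) (nat_lit 0) (nat_lit 51856652816) (nat_lit 152) (nat_lit 78411717067) (nat_lit 211) (nat_lit 1) (nat_lit 208) (nat_lit 1) (nat_lit 210) (nat_lit 1) (nat_lit 237) (nat_lit 407) (nat_lit 376)))) (XT.nd (nat_lit 156) (nat_lit 304) (nat_lit 0) (XT.nd (nat_lit 78) (nat_lit 228) (nat_lit 0) (XT.lf (nat_lit 152) (nat_lit 13950738609) (nat_lit 0) (nat_lit 53130319222) (nat_lit 76) (nat_lit 185649781030) (nat_lit 209) (nat_lit 1) (nat_lit 207) (nat_lit 1) (nat_lit 208) (nat_lit 1) (nat_lit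 238) (nat_lit 407) (nat_lit 375)) (XT.lf (nat_lit 228) (nat_lit 150593072735) (nat_lit 0) (nat_lit 54338138556) (nat_lit 152) (nat_lit 40907119896) (nat_lit 207) (nat_lit 1) (nat_lit 204) (nat_lit 1) (nat_lit 206) (nat_lit 1) (nat_lit 239) (nat_lit 407) (nat_lit 374))) (XT.nd (nat_lit 78) (nat_lit 228) (nat_lit 0) (XT.lf (nat_lit 152) (nat_lit 37875268262) (nat_lit 0) (nat_lit 56369896312) (nat_lit 76) (nat_lit 144932950294) (nat_lit 205) (nat_lit 1) (nat_lit 203) (nat_lit 1) (nat_lit 204) (nat_lit 1) (nat_lit 240) (nat_lit 407) (nat_lit 373)) (XT.lf (nat_lit 228) (nat_lit 163952721750) (nat_lit 0) (nat_lit 59088633088) (nat_lit 152) (nat_lit 9696950516) (nat_lit 203) (nat_lit 1) (nat_lit 200) (nat_lit 1) (nat_lit 202) (nat_lit 1) (nat_lit 241) (nat_lit 407) (nat_lit 372))))))))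
noncomputable def ec207 : XT := (XT.nd (nat_lit 2106) (nat_lit 3192) (nat_lit 0) (XT.nd (nat_lit 1014) (nat_lit 1672) (nat_lit 0) (XT.nd (nat_lit 468) (nat_lit 760) (nat_lit 0) (XT.nd (nat_lit 234) (nat_lit 456) (nat_lit 0) (XT.nd (nat_lit 78) (nat_lit 304) (nat_lit 0) (XT.lf (nat_lit 152) (nat_lit 54507707213) (nat_lit 0) (nat_lit 61600610017) (nat_lit 76) (nat_lit 110362812714) (nat_lit 201) (nat_lit 1) (nat_lit 199) (nat_lit 1) (nat_lit 200) (nat_lit 1) (nat_lit 242) (nat_lit 407) (nat_lit 371)) (XT.nd (nat_lit 78) (nat_lit 76) (nat_lit 0) (XT.lf (nat_lit 76) (nat_lit 15733093508) (nat_lit 0) (nat_lit 49381986689) (nat_lit 228) (nat_lit 155314023038) (nat_lit 197) (nat_lit 1) (nat_lit 196) (nat_lit 1) (nat_lit 199) (nat_lit 1) (nat_lit 243) (nat_lit 407) (nat_lit 370)) (XT.lf (nat_lit 152) (nat_lit 65414166491) (nat_lit 0) (nat_lit 68158460923) (nat_lit 76) (nat_lit 80964499126) (nat_lit 197)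 (nat_lit 1) (nat_lit 195) (nat_lit 1) (nat_lit 196) (nat_lit 1) (nat_lit 244) (nat_lit 407) (nat_lit 369)))) (XT.nd (nat_lit 78) (nat_lit 228) (nat_lit 0) (XT.lf (nat_lit 76) (nat_lit 36589317277) (nat_lit 0) (nat_lit 35439227946) (nat_lit 228) (nat_lit 136823663114) (nat_lit 193) (nat_lit 1) (nat_lit 192) (nat_lit 1) (nat_lit 195) (nat_lit 1) (nat_lit 245) (nat_lit 407) (nat_lit 368)) (XT.nd (nat_lit 78) (nat_lit 152) (nat_lit 0) (XT.lf (nat_lit 152) (nat_lit 71857608668) (nat_lit 0) (nat_lit 75525122538) (nat_lit 76) (nat_lit 55929806434) (nat_lit 193) (nat_lit 1) (nat_lit 191) (nat_lit 1) (nat_lit 192) (nat_lit 1) (nat_lit 246) (nat_lit 407) (nat_lit 367)) (XT.lf (nat_lit 76) (nat_lit 53867935949) (nat_lit 0) (nat_lit 25667107627) (nat_lit 152) (nat_lit 118420773150) (nat_lit 190) (nat_lit 1) (nat_lit 189) (nat_lit 1) (nat_lit 191) (nat_lit 1) (nat_lit 247) (nat_lit 407) (nat_lit 366)))))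 (XT.nd (nat_lit 234) (nat_lit 456) (nat_lit 0) (XT.nd (nat_lit 78) (nat_lit 228) (nat_lit 0) (XT.lf (nat_lit 152) (nat_lit 74854493240) (nat_lit 0) (nat_lit 83299550283) (nat_lit 76) (nat_lit 34587467825) (nat_lit 190) (nat_lit 1) (nat_lit 188) (nat_lit 1) (nat_lit 189) (nat_lit 1) (nat_lit 248) (nat_lit 407) (nat_lit 365)) (XT.nd (nat_lit 78) (nat_lit 76) (nat_lit 0) (XT.lf (nat_lit 76) (nat_lit 68137930427) (nat_lit 0) (nat_lit 19147996971) (nat_lit 152) (nat_lit 100401665151) (nat_lit 187) (nat_lit 1) (nat_lit 186) (nat_lit 1) (nat_lit 188) (nat_lit 1) (nat_lit 249) (nat_lit 407) (nat_lit 364)) (XT.lf (nat_lit 152) (nat_lit 75220964888) (nat_lit 0) (nat_lit 91174907857) (nat_lit 76) (nat_lit 16378822688) (nat_lit 187) (nat_lit 1) (nat_lit 185) (nat_lit 1) (nat_lit 186) (nat_lit 1) (nat_lit 250) (nat_lit 407) (nat_lit 363)))) (XT.nd (nat_lit 156) (nat_lit 228) (nat_lit 0) (XT.nd (nat_lit 78)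 (nat_lit 76) (nat_lit 0) (XT.lf (nat_lit 76) (nat_lit 79872187334) (nat_lit 0) (nat_lit 15144037140) (nat_lit 152) (nat_lit 82984917655) (nat_lit 184) (nat_lit 1) (nat_lit 183) (nat_lit 1) (nat_lit 185) (nat_lit 1) (nat_lit 251) (nat_lit 407) (nat_lit 362)) (XT.lf (nat_lit 152) (nat_lit 73610507213) (nat_lit 0) (nat_lit 98919828590) (nat_lit 76) (nat_lit 837898903) (nat_lit 184) (nat_lit 1) (nat_lit 182) (nat_lit 1) (nat_lit 183) (nat_lit 1) (nat_lit 252) (nat_lit 407) (nat_lit 361))) (XT.nd (nat_lit 78) (nat_lit 76) (nat_lit 0) (XT.lf (nat_lit 76) (nat_lit 89464508634) (nat_lit 0) (nat_lit 13063384215) (nat_lit 152) (nat_lit 66327216477) (nat_lit 181) (nat_lit 1) (nat_lit 180) (nat_lit 1) (nat_lit 182) (nat_lit 1) (nat_lit 253) (nat_lit 407) (nat_lit 360)) (XT.lf (nat_lit 0) (nat_lit 12027224501) (nat_lit 0) (nat_lit 94132298680) (nat_lit 152) (nat_lit 58313720125) (nat_lit 179) (nat_lit 3)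 (nat_lit 179) (nat_lit 1) (nat_lit 181) (nat_lit 1) (nat_lit 254) (nat_lit 407) (nat_lit 359)))))) (XT.nd (nat_lit 546) (nat_lit 836) (nat_lit 0) (XT.nd (nat_lit 234) (nat_lit 456) (nat_lit 0) (XT.nd (nat_lit 78) (nat_lit 228) (nat_lit 0) (XT.lf (nat_lit 76) (nat_lit 97243542280) (nat_lit 0) (nat_lit 12432696852) (nat_lit 152) (nat_lit 50536188286) (nat_lit 178) (nat_lit 1) (nat_lit 177) (nat_lit 1) (nat_lit 179) (nat_lit 1) (nat_lit 255) (nat_lit 407) (nat_lit 358)) (XT.nd (nat_lit 78) (nat_lit 152) (nat_lit 0) (XT.lf (nat_lit 0) (nat_lit 22976448319) (nat_lit 0) (nat_lit 90016322069) (nat_lit 152) (nat_lit 43072316274) (nat_lit 176) (nat_lit 3) (nat_lit 176) (nat_lit 1) (nat_lit 178) (nat_lit 1) (nat_lit 256) (nat_lit 407) (nat_lit 357)) (XT.lf (nat_lit 76) (nat_lit 103484196157) (nat_lit 0) (nat_lit 12874718154) (nat_lit 152) (nat_lit 35680784958) (nat_lit 175) (nat_lit 1) (nat_lit 174) (nat_lit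 1) (nat_lit 176) (nat_lit 1) (nat_lit 257) (nat_lit 407) (nat_lit 356)))) (XT.nd (nat_lit 156) (nat_lit 228) (nat_lit 0) (XT.nd (nat_lit 78) (nat_lit 152) (nat_lit 0) (XT.lf (nat_lit 0) (nat_lit 32302329311) (nat_lit 0) (nat_lit 87041268620) (nat_lit 152) (nat_lit 28768818058) (nat_lit 173) (nat_lit 3) (nat_lit 173) (nat_lit 1) (nat_lit 175) (nat_lit 1) (nat_lit 258) (nat_lit 407) (nat_lit 355)) (XT.lf (nat_lit 76) (nat_lit 108416994579) (nat_lit 0) (nat_lit 14090014206) (nat_lit 152) (nat_lit 21799673941) (nat_lit 172) (nat_lit 1) (nat_lit 171) (nat_lit 1) (nat_lit 173) (nat_lit 1) (nat_lit 259) (nat_lit 407) (nat_lit 354))) (XT.nd (nat_lit 78) (nat_lit 152) (nat_lit 0) (XT.lf (nat_lit 0) (nat_lit 40228912130) (nat_lit 0) (nat_lit 84923976560) (nat_lit 152) (nat_lit 15433315659) (nat_lit 170) (nat_lit 3) (nat_lit 170) (nat_lit 1) (nat_lit 172) (nat_lit 1) (nat_lit 260) (nat_lit 407) (nat_lit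 353)) (XT.lf (nat_lit 76) (nat_lit 112235752496) (nat_lit 0) (nat_lit 15842103885) (nat_lit 152) (nat_lit 8908005950) (nat_lit 169) (nat_lit 1) (nat_lit 168) (nat_lit 1) (nat_lit 170) (nat_lit 1) (nat_lit 261) (nat_lit 407) (nat_lit 352))))) (XT.nd (nat_lit 234) (nat_lit 456) (nat_lit 0) (XT.nd (nat_lit 78) (nat_lit 304) (nat_lit 0) (XT.lf (nat_lit 0) (nat_lit 46945685119) (nat_lit 0) (nat_lit 83439793511) (nat_lit 152) (nat_lit 3074522786) (nat_lit 167) (nat_lit 3) (nat_lit 167) (nat_lit 1) (nat_lit 169) (nat_lit 1) (nat_lit 262) (nat_lit 407) (nat_lit 351)) (XT.nd (nat_lit 78) (nat_lit 76) (nat_lit 0) (XT.lf (nat_lit 152) (nat_lit 112055978787) (nat_lit 0) (nat_lit 3096235999) (nat_lit 76) (nat_lit 14897460148) (nat_lit 166) (nat_lit 1) (nat_lit 164) (nat_lit 1) (nat_lit 165) (nat_lit 1) (nat_lit 263) (nat_lit 407) (nat_lit 350)) (XT.lf (nat_lit 76) (nat_lit 44157415614) (nat_lit 0) (nat_lit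 8590143062) (nat_lit 76) (nat_lit 73955335459) (nat_lit 164) (nat_lit 3) (nat_lit 163) (nat_lit 1) (nat_lit 164) (nat_lit 1) (nat_lit 264) (nat_lit 407) (nat_lit 349)))) (XT.nd (nat_lit 156) (nat_lit 228) (nat_lit 0) (XT.nd (nat_lit 78) (nat_lit 76) (nat_lit 0) (XT.lf (nat_lit 152) (nat_lit 102991206145) (nat_lit 0) (nat_lit 14393034007) (nat_lit 76) (nat_lit 6086819909) (nat_lit 163) (nat_lit 1) (nat_lit 161) (nat_lit 1) (nat_lit 162) (nat_lit 1) (nat_lit 265) (nat_lit 407) (nat_lit 348)) (XT.lf (nat_lit 76) (nat_lit 38295620675) (nat_lit 0) (nat_lit 19375995573) (nat_lit 76) (nat_lit 62626014434) (nat_lit 161) (nat_lit 3) (nat_lit 160) (nat_lit 1) (nat_lit 161) (nat_lit 1) (nat_lit 266) (nat_lit 407) (nat_lit 347))) (XT.nd (nat_lit 78) (nat_lit 76) (nat_lit 0) (XT.lf (nat_lit 0) (nat_lit 1616394509) (nat_lit 0) (nat_lit 23071768194) (nat_lit 152) (nat_lit 92546457090) (nat_lit 158) (nat_lit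 3) (nat_lit 158) (nat_lit 1) (nat_lit 160) (nat_lit 1) (nat_lit 267) (nat_lit 407) (nat_lit 346)) (XT.lf (nat_lit 76) (nat_lit 32574320706) (nat_lit 0) (nat_lit 29211424119) (nat_lit 76) (nat_lit 52440407452) (nat_lit 158) (nat_lit 3) (nat_lit 157) (nat_lit 1) (nat_lit 158) (nat_lit 1) (nat_lit 268) (nat_lit 407) (nat_lit 345))))))) (XT.nd (nat_lit 1014) (nat_lit 1672) (nat_lit 0) (XT.nd (nat_lit 468) (nat_lit 836) (nat_lit 0) (XT.nd (nat_lit 234) (nat_lit 304) (nat_lit 0) (XT.nd (nat_lit 78) (nat_lit 228) (nat_lit 0) (XT.lf (nat_lit 0) (nat_lit 8220627989) (nat_lit 0) (nat_lit 25739223003) (nat_lit 152) (nat_lit 77358107626) (nat_lit 155) (nat_lit 3) (nat_lit 155) (nat_lit 1) (nat_lit 157) (nat_lit 1) (nat_lit 269) (nat_lit 407) (nat_lit 344)) (XT.nd (nat_lit 78) (nat_lit 152) (nat_lit 0) (XT.lf (nat_lit 76) (nat_lit 27057645468) (nat_lit 0) (nat_lit 38133233808) (nat_lit 76) (nat_lit 43278566777)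 (nat_lit 155) (nat_lit 3) (nat_lit 154) (nat_lit 1) (nat_lit 155) (nat_lit 1) (nat_lit 270) (nat_lit 407) (nat_lit 343)) (XT.lf (nat_lit 0) (nat_lit 14021341198) (nat_lit 0) (nat_lit 28325504610) (nat_lit 152) (nat_lit 63360649053) (nat_lit 152) (nat_lit 3) (nat_lit 152) (nat_lit 1) (nat_lit 154) (nat_lit 1) (nat_lit 271) (nat_lit 407) (nat_lit 342)))) (XT.nd (nat_lit 78) (nat_lit 228) (nat_lit 0) (XT.lf (nat_lit 76) (nat_lit 21791190197) (nat_lit 0) (nat_lit 46182882158) (nat_lit 76) (nat_lit 35035785949) (nat_lit 152) (nat_lit 3) (nat_lit 151) (nat_lit 1) (nat_lit 152) (nat_lit 1) (nat_lit 272) (nat_lit 407) (nat_lit 341)) (XT.nd (nat_lit 78) (nat_lit 76) (nat_lit 0) (XT.lf (nat_lit 0) (nat_lit 19106158912) (nat_lit 0) (nat_lit 30785696612) (nat_lit 152) (nat_lit 50494324075) (nat_lit 149) (nat_lit 3) (nat_lit 149) (nat_lit 1) (nat_lit 151) (nat_lit 1) (nat_lit 273) (nat_lit 407) (nat_lit 340))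 (XT.lf (nat_lit 76) (nat_lit 16805874911) (nat_lit 0) (nat_lit 53404816398) (nat_lit 76) (nat_lit 27620261670) (nat_lit 149) (nat_lit 3) (nat_lit 148) (nat_lit 1) (nat_lit 149) (nat_lit 1) (nat_lit 274) (nat_lit 407) (nat_lit 339))))) (XT.nd (nat_lit 234) (nat_lit 456) (nat_lit 0) (XT.nd (nat_lit 78) (nat_lit 228) (nat_lit 0) (XT.lf (nat_lit 0) (nat_lit 23551687623) (nat_lit 0) (nat_lit 33088183883) (nat_lit 152) (nat_lit 38698246536) (nat_lit 146) (nat_lit 3) (nat_lit 146) (nat_lit 1) (nat_lit 148) (nat_lit 1) (nat_lit 275) (nat_lit 407) (nat_lit 338)) (XT.nd (nat_lit 78) (nat_lit 152) (nat_lit 0) (XT.lf (nat_lit 76) (nat_lit 12121066296) (nat_lit 0) (nat_lit 59845168940) (nat_lit 76) (nat_lit 20951155425) (nat_lit 146) (nat_lit 3) (nat_lit 145) (nat_lit 1) (nat_lit 146) (nat_lit 1) (nat_lit 276) (nat_lit 407) (nat_lit 337)) (XT.lf (nat_lit 0) (nat_lit 27425175151) (nat_lit 0) (nat_lit 35211849869)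 (nat_lit 152) (nat_lit 27911432815) (nat_lit 143) (nat_lit 3) (nat_lit 143) (nat_lit 1) (nat_lit 145) (nat_lit 1) (nat_lit 277) (nat_lit 407) (nat_lit 336)))) (XT.nd (nat_lit 156) (nat_lit 228) (nat_lit 0) (XT.nd (nat_lit 78) (nat_lit 152) (nat_lit 0) (XT.lf (nat_lit 76) (nat_lit 7747099274) (nat_lit 0) (nat_lit 65550741984) (nat_lit 76) (nat_lit 14956983272) (nat_lit 143) (nat_lit 3) (nat_lit 142) (nat_lit 1) (nat_lit 143) (nat_lit 1) (nat_lit 278) (nat_lit 407) (nat_lit 335)) (XT.lf (nat_lit 0) (nat_lit 30785889622) (nat_lit 0) (nat_lit 37143812019) (nat_lit 152) (nat_lit 18073591110) (nat_lit 140) (nat_lit 3) (nat_lit 140) (nat_lit 1) (nat_lit 142) (nat_lit 1) (nat_lit 279) (nat_lit 407) (nat_lit 334))) (XT.nd (nat_lit 78) (nat_lit 152) (nat_lit 0) (XT.lf (nat_lit 76) (nat_lit 3687310105) (nat_lit 0) (nat_lit 70568225081) (nat_lit 76) (nat_lit 9574275287) (nat_lit 140) (nat_lit 3) (nat_lit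 139) (nat_lit 1) (nat_lit 140) (nat_lit 1) (nat_lit 280) (nat_lit 407) (nat_lit 333)) (XT.lf (nat_lit 0) (nat_lit 33686267795) (nat_lit 0) (nat_lit 38877595116) (nat_lit 152) (nat_lit 9125716301) (nat_lit 137) (nat_lit 3) (nat_lit 137) (nat_lit 1) (nat_lit 139) (nat_lit 1) (nat_lit 281) (nat_lit 407) (nat_lit 332)))))) (XT.nd (nat_lit 546) (nat_lit 760) (nat_lit 0) (XT.nd (nat_lit 234) (nat_lit 456) (nat_lit 0) (XT.nd (nat_lit 78) (nat_lit 304) (nat_lit 0) (XT.lf (nat_lit 76) (nat_lit 74884214086) (nat_lit 0) (nat_lit 58396900) (nat_lit 152) (nat_lit 4687070911) (nat_lit 136) (nat_lit 1) (nat_lit 135) (nat_lit 1) (nat_lit 137) (nat_lit 1) (nat_lit 282) (nat_lit 407) (nat_lit 331)) (XT.nd (nat_lit 78) (nat_lit 228) (nat_lit 0) (XT.lf (nat_lit 0) (nat_lit 36172873661) (nat_lit 0) (nat_lit 40411660748) (nat_lit 152) (nat_lit 1010529147) (nat_lit 134) (nat_lit 3) (nat_lit 134) (nat_lit 1) (nat_lit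 136) (nat_lit 1) (nat_lit 283) (nat_lit 407) (nat_lit 330)) (XT.lf (nat_lit 152) (nat_lit 72198956888) (nat_lit 0) (nat_lit 3124301389) (nat_lit 76) (nat_lit 314286048) (nat_lit 133) (nat_lit 1) (nat_lit 131) (nat_lit 1) (nat_lit 132) (nat_lit 1) (nat_lit 284) (nat_lit 407) (nat_lit 329)))) (XT.nd (nat_lit 156) (nat_lit 228) (nat_lit 0) (XT.nd (nat_lit 78) (nat_lit 152) (nat_lit 0) (XT.lf (nat_lit 76) (nat_lit 31852837691) (nat_lit 0) (nat_lit 6536414864) (nat_lit 76) (nat_lit 35313863140) (nat_lit 131) (nat_lit 3) (nat_lit 130) (nat_lit 1) (nat_lit 131) (nat_lit 1) (nat_lit 285) (nat_lit 407) (nat_lit 328)) (XT.lf (nat_lit 0) (nat_lit 3600792833) (nat_lit 0) (nat_lit 6652843493) (nat_lit 152) (nat_lit 61587827198) (nat_lit 128) (nat_lit 3) (nat_lit 128) (nat_lit 1) (nat_lit 130) (nat_lit 1) (nat_lit 286) (nat_lit 407) (nat_lit 327))) (XT.nd (nat_lit 78) (nat_lit 152) (nat_lit 0) (XT.lf (nat_lit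 76) (nat_lit 26906713846) (nat_lit 0) (nat_lit 13368349473) (nat_lit 76) (nat_lit 29732686680) (nat_lit 128) (nat_lit 3) (nat_lit 127) (nat_lit 1) (nat_lit 128) (nat_lit 1) (nat_lit 287) (nat_lit 407) (nat_lit 326)) (XT.lf (nat_lit 0) (nat_lit 7085289961) (nat_lit 0) (nat_lit 9577329497) (nat_lit 152) (nat_lit 51575023820) (nat_lit 125) (nat_lit 3) (nat_lit 125) (nat_lit 1) (nat_lit 127) (nat_lit 1) (nat_lit 288) (nat_lit 407) (nat_lit 325))))) (XT.nd (nat_lit 234) (nat_lit 456) (nat_lit 0) (XT.nd (nat_lit 78) (nat_lit 228) (nat_lit 0) (XT.lf (nat_lit 76) (nat_lit 22343969244) (nat_lit 0) (nat_lit 19504120773) (nat_lit 76) (nat_lit 24651413258) (nat_lit 125) (nat_lit 3) (nat_lit 124) (nat_lit 1) (nat_lit 125) (nat_lit 1) (nat_lit 289) (nat_lit 407) (nat_lit 324)) (XT.nd (nat_lit 78) (nat_lit 76) (nat_lit 0) (XT.lf (nat_lit 0) (nat_lit 10186072200) (nat_lit 0) (nat_lit 12220855281) (nat_lit 152)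 (nat_lit 42409395362) (nat_lit 122) (nat_lit 3) (nat_lit 122) (nat_lit 1) (nat_lit 124) (nat_lit 1) (nat_lit 290) (nat_lit 407) (nat_lit 323)) (XT.lf (nat_lit 76) (nat_lit 18145591509) (nat_lit 0) (nat_lit 24993433763) (nat_lit 76) (nat_lit 20029649918) (nat_lit 122) (nat_lit 3) (nat_lit 121) (nat_lit 1) (nat_lit 122) (nat_lit 1) (nat_lit 291) (nat_lit 407) (nat_lit 322)))) (XT.nd (nat_lit 156) (nat_lit 228) (nat_lit 0) (XT.nd (nat_lit 78) (nat_lit 76) (nat_lit 0) (XT.lf (nat_lit 0) (nat_lit 12936553603) (nat_lit 0) (nat_lit 14597980771) (nat_lit 152) (nat_lit 34033520283) (nat_lit 119) (nat_lit 3) (nat_lit 119) (nat_lit 1) (nat_lit 121) (nat_lit 1) (nat_lit 292) (nat_lit 407) (nat_lit 321)) (XT.lf (nat_lit 76) (nat_lit 14292167599) (nat_lit 0) (nat_lit 29883409781) (nat_lit 76) (nat_lit 15830526088) (nat_lit 119) (nat_lit 3) (nat_lit 118) (nat_lit 1) (nat_lit 119) (nat_lit 1) (nat_lit 293) (nat_lit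 407) (nat_lit 320))) (XT.nd (nat_lit 78) (nat_lit 76) (nat_lit 0) (XT.lf (nat_lit 0) (nat_lit 15367138420) (nat_lit 0) (nat_lit 16723715571) (nat_lit 152) (nat_lit 26393057979) (nat_lit 116) (nat_lit 3) (nat_lit 116) (nat_lit 1) (nat_lit 118) (nat_lit 1) (nat_lit 294) (nat_lit 407) (nat_lit 319)) (XT.lf (nat_lit 76) (nat_lit 10764221671) (nat_lit 0) (nat_lit 34218594773) (nat_lit 76) (nat_lit 12020311626) (nat_lit 116) (nat_lit 3) (nat_lit 115) (nat_lit 1) (nat_lit 116) (nat_lit 1) (nat_lit 295) (nat_lit 407) (nat_lit 318))))))))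
noncomputable def ec208 : XT := (XT.nd (nat_lit 2028) (nat_lit 3268) (nat_lit 0) (XT.nd (nat_lit 1014) (nat_lit 1520) (nat_lit 0) (XT.nd (nat_lit 468) (nat_lit 912) (nat_lit 0) (XT.nd (nat_lit 234) (nat_lit 304) (nat_lit 0) (XT.nd (nat_lit 78) (nat_lit 228) (nat_lit 0) (XT.lf (nat_lit 0) (nat_lit 17505550240) (nat_lit 0) (nat_lit 18613213339) (nat_lit 152) (nat_lit 19436691186) (nat_lit 113) (nat_lit 3) (nat_lit 113) (nat_lit 1) (nat_lit 115) (nat_lit 1) (nat_lit 296) (nat_lit 407) (nat_lit 317)) (XT.nd (nat_lit 78) (nat_lit 152) (nat_lit 0) (XT.lf (nat_lit 76) (nat_lit 7542474033) (nat_lit 0) (nat_lit 38040996694) (nat_lit 76) (nat_lit 8568088014) (nat_lit 113) (nat_lit 3) (nat_lit 112) (nat_lit 1) (nat_lit 113) (nat_lit 1) (nat_lit 297) (nat_lit 407) (nat_lit 316)) (XT.lf (nat_lit 0) (nat_lit 19377115440) (nat_lit 0) (nat_lit 20281536940) (nat_lit 152) (nat_lit 13116046398) (nat_lit 110) (nat_lit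 3) (nat_lit 110) (nat_lit 1) (nat_lit 112) (nat_lit 1) (nat_lit 298) (nat_lit 407) (nat_lit 315)))) (XT.nd (nat_lit 78) (nat_lit 228) (nat_lit 0) (XT.lf (nat_lit 76) (nat_lit 4608036694) (nat_lit 0) (nat_lit 41390144773) (nat_lit 76) (nat_lit 5445464009) (nat_lit 110) (nat_lit 3) (nat_lit 109) (nat_lit 1) (nat_lit 110) (nat_lit 1) (nat_lit 299) (nat_lit 407) (nat_lit 314)) (XT.nd (nat_lit 78) (nat_lit 76) (nat_lit 0) (XT.lf (nat_lit 0) (nat_lit 21005008412) (nat_lit 0) (nat_lit 21743480471) (nat_lit 152) (nat_lit 7385598364) (nat_lit 107) (nat_lit 3) (nat_lit 107) (nat_lit 1) (nat_lit 109) (nat_lit 1) (nat_lit 300) (nat_lit 407) (nat_lit 313)) (XT.lf (nat_lit 76) (nat_lit 1942558139) (nat_lit 0) (nat_lit 44303164815) (nat_lit 76) (nat_lit 2626328564) (nat_lit 107) (nat_lit 3) (nat_lit 106) (nat_lit 1) (nat_lit 107) (nat_lit 1) (nat_lit 301) (nat_lit 407) (nat_lit 312))))) (XT.nd (nat_lit 234)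 (nat_lit 456) (nat_lit 0) (XT.nd (nat_lit 78) (nat_lit 304) (nat_lit 0) (XT.lf (nat_lit 0) (nat_lit 22410464704) (nat_lit 0) (nat_lit 23013436860) (nat_lit 152) (nat_lit 2202563455) (nat_lit 104) (nat_lit 3) (nat_lit 104) (nat_lit 1) (nat_lit 106) (nat_lit 1) (nat_lit 302) (nat_lit 407) (nat_lit 311)) (XT.nd (nat_lit 78) (nat_lit 76) (nat_lit 0) (XT.lf (nat_lit 152) (nat_lit 45966488320) (nat_lit 0) (nat_lit 390160782) (nat_lit 76) (nat_lit 72506697) (nat_lit 103) (nat_lit 1) (nat_lit 101) (nat_lit 1) (nat_lit 102) (nat_lit 1) (nat_lit 303) (nat_lit 407) (nat_lit 310)) (XT.lf (nat_lit 76) (nat_lit 21097867803) (nat_lit 0) (nat_lit 2554989906) (nat_lit 76) (nat_lit 21590202504) (nat_lit 101) (nat_lit 3) (nat_lit 100) (nat_lit 1) (nat_lit 101) (nat_lit 1) (nat_lit 304) (nat_lit 407) (nat_lit 309)))) (XT.nd (nat_lit 156) (nat_lit 228) (nat_lit 0) (XT.nd (nat_lit 78) (nat_lit 76) (nat_lit 0) (XT.lf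 (nat_lit 0) (nat_lit 2246374754) (nat_lit 0) (nat_lit 2680532339) (nat_lit 152) (nat_lit 39175729502) (nat_lit 98) (nat_lit 3) (nat_lit 98) (nat_lit 1) (nat_lit 100) (nat_lit 1) (nat_lit 305) (nat_lit 407) (nat_lit 308)) (XT.lf (nat_lit 76) (nat_lit 17837909336) (nat_lit 0) (nat_lit 6900231837) (nat_lit 76) (nat_lit 18239907101) (nat_lit 98) (nat_lit 3) (nat_lit 97) (nat_lit 1) (nat_lit 98) (nat_lit 1) (nat_lit 306) (nat_lit 407) (nat_lit 307))) (XT.nd (nat_lit 78) (nat_lit 76) (nat_lit 0) (XT.lf (nat_lit 0) (nat_lit 4322847346) (nat_lit 0) (nat_lit 4677342729) (nat_lit 152) (nat_lit 32893148826) (nat_lit 95) (nat_lit 3) (nat_lit 95) (nat_lit 1) (nat_lit 97) (nat_lit 1) (nat_lit 307) (nat_lit 407) (nat_lit 306)) (XT.lf (nat_lit 76) (nat_lit 14851047914) (nat_lit 0) (nat_lit 10796758646) (nat_lit 76) (nat_lit 15179284380) (nat_lit 95) (nat_lit 3) (nat_lit 94) (nat_lit 1) (nat_lit 95) (nat_lit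 1) (nat_lit 308) (nat_lit 407) (nat_lit 305)))))) (XT.nd (nat_lit 468) (nat_lit 836) (nat_lit 0) (XT.nd (nat_lit 234) (nat_lit 304) (nat_lit 0) (XT.nd (nat_lit 78) (nat_lit 228) (nat_lit 0) (XT.lf (nat_lit 0) (nat_lit 6178333510) (nat_lit 0) (nat_lit 6467783656) (nat_lit 152) (nat_lit 27149234033) (nat_lit 92) (nat_lit 3) (nat_lit 92) (nat_lit 1) (nat_lit 94) (nat_lit 1) (nat_lit 309) (nat_lit 407) (nat_lit 304)) (XT.nd (nat_lit 78) (nat_lit 152) (nat_lit 0) (XT.lf (nat_lit 76) (nat_lit 12118866658) (nat_lit 0) (nat_lit 14278649364) (nat_lit 76) (nat_lit 12386876052) (nat_lit 92) (nat_lit 3) (nat_lit 91) (nat_lit 1) (nat_lit 92) (nat_lit 1) (nat_lit 310) (nat_lit 407) (nat_lit 303)) (XT.lf (nat_lit 0) (nat_lit 7830502629) (nat_lit 0) (nat_lit 8066842483) (nat_lit 152) (nat_lit 21905670590) (nat_lit 89) (nat_lit 3) (nat_lit 89) (nat_lit 1) (nat_lit 91) (nat_lit 1) (nat_lit 311) (nat_lit 407) (nat_lit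 302)))) (XT.nd (nat_lit 78) (nat_lit 228) (nat_lit 0) (XT.lf (nat_lit 76) (nat_lit 9623930511) (nat_lit 0) (nat_lit 17377761988) (nat_lit 76) (nat_lit 9842763709) (nat_lit 89) (nat_lit 3) (nat_lit 88) (nat_lit 1) (nat_lit 89) (nat_lit 1) (nat_lit 312) (nat_lit 407) (nat_lit 301)) (XT.nd (nat_lit 78) (nat_lit 76) (nat_lit 0) (XT.lf (nat_lit 0) (nat_lit 9295707384) (nat_lit 0) (nat_lit 9488681985) (nat_lit 152) (nat_lit 17126578436) (nat_lit 86) (nat_lit 3) (nat_lit 86) (nat_lit 1) (nat_lit 88) (nat_lit 1) (nat_lit 313) (nat_lit 407) (nat_lit 300)) (XT.lf (nat_lit 76) (nat_lit 7349768915) (nat_lit 0) (nat_lit 20123854010) (nat_lit 76) (nat_lit 7528449102) (nat_lit 86) (nat_lit 3) (nat_lit 85) (nat_lit 1) (nat_lit 86) (nat_lit 1) (nat_lit 314) (nat_lit 407) (nat_lit 299))))) (XT.nd (nat_lit 234) (nat_lit 456) (nat_lit 0) (XT.nd (nat_lit 78) (nat_lit 228) (nat_lit 0) (XT.lf (nat_lit 0) (nat_lit 10589087872)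 (nat_lit 0) (nat_lit 10746654174) (nat_lit 152) (nat_lit 12778378011) (nat_lit 83) (nat_lit 3) (nat_lit 83) (nat_lit 1) (nat_lit 85) (nat_lit 1) (nat_lit 315) (nat_lit 407) (nat_lit 298)) (XT.nd (nat_lit 78) (nat_lit 152) (nat_lit 0) (XT.lf (nat_lit 76) (nat_lit 5280851243) (nat_lit 0) (nat_lit 22544699695) (nat_lit 76) (nat_lit 5426745967) (nat_lit 83) (nat_lit 3) (nat_lit 82) (nat_lit 1) (nat_lit 83) (nat_lit 1) (nat_lit 316) (nat_lit 407) (nat_lit 297)) (XT.lf (nat_lit 0) (nat_lit 11724665673) (nat_lit 0) (nat_lit 11853320633) (nat_lit 152) (nat_lit 8829660840) (nat_lit 80) (nat_lit 3) (nat_lit 80) (nat_lit 1) (nat_lit 82) (nat_lit 1) (nat_lit 317) (nat_lit 407) (nat_lit 296)))) (XT.nd (nat_lit 156) (nat_lit 228) (nat_lit 0) (XT.nd (nat_lit 78) (nat_lit 152) (nat_lit 0) (XT.lf (nat_lit 76) (nat_lit 3402556958) (nat_lit 0) (nat_lit 24666203526) (nat_lit 76) (nat_lit 3521681921) (nat_lit 80)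 (nat_lit 3) (nat_lit 79) (nat_lit 1) (nat_lit 80) (nat_lit 1) (nat_lit 318) (nat_lit 407) (nat_lit 295)) (XT.lf (nat_lit 0) (nat_lit 12715429143) (nat_lit 0) (nat_lit 12820477611) (nat_lit 152) (nat_lit 5251065055) (nat_lit 77) (nat_lit 3) (nat_lit 77) (nat_lit 1) (nat_lit 79) (nat_lit 1) (nat_lit 319) (nat_lit 407) (nat_lit 294))) (XT.nd (nat_lit 78) (nat_lit 152) (nat_lit 0) (XT.lf (nat_lit 76) (nat_lit 1701142086) (nat_lit 0) (nat_lit 26512509420) (nat_lit 76) (nat_lit 1798409186) (nat_lit 77) (nat_lit 3) (nat_lit 76) (nat_lit 1) (nat_lit 77) (nat_lit 1) (nat_lit 320) (nat_lit 407) (nat_lit 293)) (XT.lf (nat_lit 0) (nat_lit 13573411012) (nat_lit 0) (nat_lit 13659184468) (nat_lit 152) (nat_lit 2015156128) (nat_lit 74) (nat_lit 3) (nat_lit 74) (nat_lit 1) (nat_lit 76) (nat_lit 1) (nat_lit 321) (nat_lit 407) (nat_lit 292))))))) (XT.nd (nat_lit 1014) (nat_lit 1672) (nat_lit 0) (XT.nd (nat_lit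 468) (nat_lit 836) (nat_lit 0) (XT.nd (nat_lit 234) (nat_lit 304) (nat_lit 0) (XT.nd (nat_lit 78) (nat_lit 380) (nat_lit 0) (XT.lf (nat_lit 76) (nat_lit 163703218) (nat_lit 0) (nat_lit 28106105423) (nat_lit 76) (nat_lit 243123086) (nat_lit 74) (nat_lit 3) (nat_lit 73) (nat_lit 1) (nat_lit 74) (nat_lit 1) (nat_lit 322) (nat_lit 407) (nat_lit 291)) (XT.nd (nat_lit 78) (nat_lit 152) (nat_lit 0) (XT.lf (nat_lit 76) (nat_lit 13390767751) (nat_lit 0) (nat_lit 933567038) (nat_lit 76) (nat_lit 13460802908) (nat_lit 71) (nat_lit 3) (nat_lit 70) (nat_lit 1) (nat_lit 71) (nat_lit 1) (nat_lit 323) (nat_lit 407) (nat_lit 290)) (XT.lf (nat_lit 0) (nat_lit 1178055510) (nat_lit 0) (nat_lit 1239814907) (nat_lit 152) (nat_lit 24667373890) (nat_lit 68) (nat_lit 3) (nat_lit 68) (nat_lit 1) (nat_lit 70) (nat_lit 1) (nat_lit 324) (nat_lit 407) (nat_lit 289)))) (XT.nd (nat_lit 78) (nat_lit 228) (nat_lit 0) (XT.lf (nat_lit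 76) (nat_lit 11345649025) (nat_lit 0) (nat_lit 3646078051) (nat_lit 76) (nat_lit 11402833652) (nat_lit 68) (nat_lit 3) (nat_lit 67) (nat_lit 1) (nat_lit 68) (nat_lit 1) (nat_lit 325) (nat_lit 407) (nat_lit 288)) (XT.nd (nat_lit 78) (nat_lit 76) (nat_lit 0) (XT.lf (nat_lit 0) (nat_lit 2455201372) (nat_lit 0) (nat_lit 2505628732) (nat_lit 152) (nat_lit 20767978477) (nat_lit 65) (nat_lit 3) (nat_lit 65) (nat_lit 1) (nat_lit 67) (nat_lit 1) (nat_lit 326) (nat_lit 407) (nat_lit 287)) (XT.lf (nat_lit 76) (nat_lit 9474213429) (nat_lit 0) (nat_lit 6078799161) (nat_lit 76) (nat_lit 9520905430) (nat_lit 65) (nat_lit 3) (nat_lit 64) (nat_lit 1) (nat_lit 65) (nat_lit 1) (nat_lit 327) (nat_lit 407) (nat_lit 286))))) (XT.nd (nat_lit 234) (nat_lit 456) (nat_lit 0) (XT.nd (nat_lit 78) (nat_lit 228) (nat_lit 0) (XT.lf (nat_lit 0) (nat_lit 3598136319) (nat_lit 0) (nat_lit 3639310923) (nat_lit 152) (nat_lit 17203187513)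 (nat_lit 62) (nat_lit 3) (nat_lit 62) (nat_lit 1) (nat_lit 64) (nat_lit 1) (nat_lit 328) (nat_lit 407) (nat_lit 285)) (XT.nd (nat_lit 78) (nat_lit 152) (nat_lit 0) (XT.lf (nat_lit 76) (nat_lit 7764159113) (nat_lit 0) (nat_lit 8253229292) (nat_lit 76) (nat_lit 7802283746) (nat_lit 62) (nat_lit 3) (nat_lit 61) (nat_lit 1) (nat_lit 62) (nat_lit 1) (nat_lit 329) (nat_lit 407) (nat_lit 284)) (XT.lf (nat_lit 0) (nat_lit 4617337156) (nat_lit 0) (nat_lit 4650956762) (nat_lit 152) (nat_lit 13948974055) (nat_lit 59) (nat_lit 3) (nat_lit 59) (nat_lit 1) (nat_lit 61) (nat_lit 1) (nat_lit 330) (nat_lit 407) (nat_lit 283)))) (XT.nd (nat_lit 156) (nat_lit 228) (nat_lit 0) (XT.nd (nat_lit 78) (nat_lit 152) (nat_lit 0) (XT.lf (nat_lit 76) (nat_lit 6203963608) (nat_lit 0) (nat_lit 10189409683) (nat_lit 76) (nat_lit 6235092873) (nat_lit 59) (nat_lit 3) (nat_lit 58) (nat_lit 1) (nat_lit 59) (nat_lit 1) (nat_lit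 331) (nat_lit 407) (nat_lit 282)) (XT.lf (nat_lit 0) (nat_lit 5522546032) (nat_lit 0) (nat_lit 5549996883) (nat_lit 152) (nat_lit 10982886765) (nat_lit 56) (nat_lit 3) (nat_lit 56) (nat_lit 1) (nat_lit 58) (nat_lit 1) (nat_lit 332) (nat_lit 407) (nat_lit 281))) (XT.nd (nat_lit 78) (nat_lit 152) (nat_lit 0) (XT.lf (nat_lit 76) (nat_lit 4782841115) (nat_lit 0) (nat_lit 11906014514) (nat_lit 76) (nat_lit 4808258570) (nat_lit 56) (nat_lit 3) (nat_lit 55) (nat_lit 1) (nat_lit 56) (nat_lit 1) (nat_lit 333) (nat_lit 407) (nat_lit 280)) (XT.lf (nat_lit 0) (nat_lit 6322820531) (nat_lit 0) (nat_lit 6345234512) (nat_lit 152) (nat_lit 8283953435) (nat_lit 53) (nat_lit 3) (nat_lit 53) (nat_lit 1) (nat_lit 55) (nat_lit 1) (nat_lit 334) (nat_lit 407) (nat_lit 279)))))) (XT.nd (nat_lit 546) (nat_lit 912) (nat_lit 0) (XT.nd (nat_lit 234) (nat_lit 456) (nat_lit 0) (XT.nd (nat_lit 78) (nat_lit 228) (nat_lit 0)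 (XT.lf (nat_lit 76) (nat_lit 3490701207) (nat_lit 0) (nat_lit 13420436518) (nat_lit 76) (nat_lit 3511454893) (nat_lit 53) (nat_lit 3) (nat_lit 52) (nat_lit 1) (nat_lit 53) (nat_lit 1) (nat_lit 335) (nat_lit 407) (nat_lit 278)) (XT.nd (nat_lit 78) (nat_lit 76) (nat_lit 0) (XT.lf (nat_lit 0) (nat_lit 7026580144) (nat_lit 0) (nat_lit 7044881454) (nat_lit 152) (nat_lit 5832589876) (nat_lit 50) (nat_lit 3) (nat_lit 50) (nat_lit 1) (nat_lit 52) (nat_lit 1) (nat_lit 336) (nat_lit 407) (nat_lit 277)) (XT.lf (nat_lit 76) (nat_lit 2318109098) (nat_lit 0) (nat_lit 14748867784) (nat_lit 76) (nat_lit 2335054756) (nat_lit 50) (nat_lit 3) (nat_lit 49) (nat_lit 1) (nat_lit 50) (nat_lit 1) (nat_lit 337) (nat_lit 407) (nat_lit 276)))) (XT.nd (nat_lit 156) (nat_lit 228) (nat_lit 0) (XT.nd (nat_lit 78) (nat_lit 76) (nat_lit 0) (XT.lf (nat_lit 0) (nat_lit 7641649437) (nat_lit 0) (nat_lit 7656592698) (nat_lit 152)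 (nat_lit 3610513946) (nat_lit 47) (nat_lit 3) (nat_lit 47) (nat_lit 1) (nat_lit 49) (nat_lit 1) (nat_lit 338) (nat_lit 407) (nat_lit 275)) (XT.lf (nat_lit 76) (nat_lit 1256247546) (nat_lit 0) (nat_lit 15906375934) (nat_lit 76) (nat_lit 1270083899) (nat_lit 47) (nat_lit 3) (nat_lit 46) (nat_lit 1) (nat_lit 47) (nat_lit 1) (nat_lit 339) (nat_lit 407) (nat_lit 274))) (XT.nd (nat_lit 78) (nat_lit 76) (nat_lit 0) (XT.lf (nat_lit 0) (nat_lit 8175298206) (nat_lit 0) (nat_lit 8187499575) (nat_lit 152) (nat_lit 1600664503) (nat_lit 44) (nat_lit 3) (nat_lit 44) (nat_lit 1) (nat_lit 46) (nat_lit 1) (nat_lit 340) (nat_lit 407) (nat_lit 273)) (XT.lf (nat_lit 76) (nat_lit 296880458) (nat_lit 0) (nat_lit 16906975897) (nat_lit 76) (nat_lit 308178022) (nat_lit 44) (nat_lit 3) (nat_lit 43) (nat_lit 1) (nat_lit 44) (nat_lit 1) (nat_lit 341) (nat_lit 407) (nat_lit 272))))) (XT.nd (nat_lit 234) (nat_lit 456) (nat_lit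 0) (XT.nd (nat_lit 78) (nat_lit 228) (nat_lit 0) (XT.lf (nat_lit 76) (nat_lit 8417798731) (nat_lit 0) (nat_lit 219913576) (nat_lit 76) (nat_lit 8427761310) (nat_lit 41) (nat_lit 3) (nat_lit 40) (nat_lit 1) (nat_lit 41) (nat_lit 1) (nat_lit 342) (nat_lit 407) (nat_lit 271)) (XT.nd (nat_lit 78) (nat_lit 76) (nat_lit 0) (XT.lf (nat_lit 0) (nat_lit 567907483) (nat_lit 0) (nat_lit 576692825) (nat_lit 152) (nat_lit 15491155967) (nat_lit 38) (nat_lit 3) (nat_lit 38) (nat_lit 1) (nat_lit 40) (nat_lit 1) (nat_lit 343) (nat_lit 407) (nat_lit 270)) (XT.lf (nat_lit 76) (nat_lit 7148667785) (nat_lit 0) (nat_lit 1905950585) (nat_lit 76) (nat_lit 7156802361) (nat_lit 38) (nat_lit 3) (nat_lit 37) (nat_lit 1) (nat_lit 38) (nat_lit 1) (nat_lit 344) (nat_lit 407) (nat_lit 269)))) (XT.nd (nat_lit 156) (nat_lit 228) (nat_lit 0) (XT.nd (nat_lit 78) (nat_lit 76) (nat_lit 0) (XT.lf (nat_lit 0) (nat_lit 1359243900) (nat_lit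 0) (nat_lit 1366417248) (nat_lit 152) (nat_lit 13076997275) (nat_lit 35) (nat_lit 3) (nat_lit 35) (nat_lit 1) (nat_lit 37) (nat_lit 1) (nat_lit 345) (nat_lit 407) (nat_lit 268)) (XT.lf (nat_lit 76) (nat_lit 5987424435) (nat_lit 0) (nat_lit 3418817655) (nat_lit 76) (nat_lit 5994066424) (nat_lit 35) (nat_lit 3) (nat_lit 34) (nat_lit 1) (nat_lit 35) (nat_lit 1) (nat_lit 346) (nat_lit 407) (nat_lit 267))) (XT.nd (nat_lit 78) (nat_lit 76) (nat_lit 0) (XT.lf (nat_lit 0) (nat_lit 2068013193) (nat_lit 0) (nat_lit 2073870326) (nat_lit 152) (nat_lit 10869592600) (nat_lit 32) (nat_lit 3) (nat_lit 32) (nat_lit 1) (nat_lit 34) (nat_lit 1) (nat_lit 347) (nat_lit 407) (nat_lit 266)) (XT.lf (nat_lit 76) (nat_lit 4926352665) (nat_lit 0) (nat_lit 4771838614) (nat_lit 76) (nat_lit 4931775936) (nat_lit 32) (nat_lit 3) (nat_lit 31) (nat_lit 1) (nat_lit 32) (nat_lit 1) (nat_lit 348) (nat_lit 407) (nat_lit 265))))))))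
noncomputable def ec209 : XT := (XT.nd (nat_lit 2028) (nat_lit 0) (nat_lit 0) (XT.nd (nat_lit 1014) (nat_lit 836) (nat_lit 0) (XT.nd (nat_lit 468) (nat_lit 836) (nat_lit 0) (XT.nd (nat_lit 234) (nat_lit 304) (nat_lit 0) (XT.nd (nat_lit 78) (nat_lit 228) (nat_lit 0) (XT.lf (nat_lit 0) (nat_lit 2700615318) (nat_lit 0) (nat_lit 2705397744) (nat_lit 152) (nat_lit 8854076914) (nat_lit 29) (nat_lit 3) (nat_lit 29) (nat_lit 1) (nat_lit 31) (nat_lit 1) (nat_lit 349) (nat_lit 407) (nat_lit 264)) (XT.nd (nat_lit 78) (nat_lit 152) (nat_lit 0) (XT.lf (nat_lit 76) (nat_lit 3958241269) (nat_lit 0) (nat_lit 5977426636) (nat_lit 76) (nat_lit 3962669441) (nat_lit 29) (nat_lit 3) (nat_lit 28) (nat_lit 1) (nat_lit 29) (nat_lit 1) (nat_lit 350) (nat_lit 407) (nat_lit 263)) (XT.lf (nat_lit 0) (nat_lit 3263008559) (nat_lit 0) (nat_lit 3266913473) (nat_lit 152) (nat_lit 7016566343) (nat_lit 26) (nat_lit 3) (nat_lit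 26) (nat_lit 1) (nat_lit 28) (nat_lit 1) (nat_lit 351) (nat_lit 407) (nat_lit 262)))) (XT.nd (nat_lit 78) (nat_lit 228) (nat_lit 0) (XT.lf (nat_lit 76) (nat_lit 3076353000) (nat_lit 0) (nat_lit 7047142373) (nat_lit 76) (nat_lit 3079968661) (nat_lit 26) (nat_lit 3) (nat_lit 25) (nat_lit 1) (nat_lit 26) (nat_lit 1) (nat_lit 352) (nat_lit 407) (nat_lit 261)) (XT.nd (nat_lit 78) (nat_lit 76) (nat_lit 0) (XT.lf (nat_lit 0) (nat_lit 3760738370) (nat_lit 0) (nat_lit 3763926784) (nat_lit 152) (nat_lit 5344096787) (nat_lit 23) (nat_lit 3) (nat_lit 23) (nat_lit 1) (nat_lit 25) (nat_lit 1) (nat_lit 353) (nat_lit 407) (nat_lit 260)) (XT.lf (nat_lit 76) (nat_lit 2274395428) (nat_lit 0) (nat_lit 7991748569) (nat_lit 76) (nat_lit 2277347662) (nat_lit 23) (nat_lit 3) (nat_lit 22) (nat_lit 1) (nat_lit 23) (nat_lit 1) (nat_lit 354) (nat_lit 407) (nat_lit 259))))) (XT.nd (nat_lit 234) (nat_lit 456) (nat_lit 0)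 (XT.nd (nat_lit 78) (nat_lit 228) (nat_lit 0) (XT.lf (nat_lit 0) (nat_lit 4198964364) (nat_lit 0) (nat_lit 4201567745) (nat_lit 152) (nat_lit 3824566205) (nat_lit 20) (nat_lit 3) (nat_lit 20) (nat_lit 1) (nat_lit 22) (nat_lit 1) (nat_lit 355) (nat_lit 407) (nat_lit 258)) (XT.nd (nat_lit 78) (nat_lit 152) (nat_lit 0) (XT.lf (nat_lit 76) (nat_lit 1546493440) (nat_lit 0) (nat_lit 8821261374) (nat_lit 76) (nat_lit 1548903978) (nat_lit 20) (nat_lit 3) (nat_lit 19) (nat_lit 1) (nat_lit 20) (nat_lit 1) (nat_lit 356) (nat_lit 407) (nat_lit 257)) (XT.lf (nat_lit 0) (nat_lit 4582485559) (nat_lit 0) (nat_lit 4584611255) (nat_lit 152) (nat_lit 2446680367) (nat_lit 17) (nat_lit 3) (nat_lit 17) (nat_lit 1) (nat_lit 19) (nat_lit 1) (nat_lit 357) (nat_lit 407) (nat_lit 256)))) (XT.nd (nat_lit 156) (nat_lit 228) (nat_lit 0) (XT.nd (nat_lit 78) (nat_lit 152) (nat_lit 0) (XT.lf (nat_lit 76) (nat_lit 887163308)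 (nat_lit 0) (nat_lit 9544998516) (nat_lit 76) (nat_lit 889131545) (nat_lit 17) (nat_lit 3) (nat_lit 16) (nat_lit 1) (nat_lit 17) (nat_lit 1) (nat_lit 358) (nat_lit 407) (nat_lit 255)) (XT.lf (nat_lit 0) (nat_lit 4915764020) (nat_lit 0) (nat_lit 4917499679) (nat_lit 152) (nat_lit 1199901870) (nat_lit 14) (nat_lit 3) (nat_lit 14) (nat_lit 1) (nat_lit 16) (nat_lit 1) (nat_lit 359) (nat_lit 407) (nat_lit 254))) (XT.nd (nat_lit 78) (nat_lit 152) (nat_lit 0) (XT.lf (nat_lit 76) (nat_lit 291288254) (nat_lit 0) (nat_lit 10171624531) (nat_lit 76) (nat_lit 292895345) (nat_lit 14) (nat_lit 3) (nat_lit 13) (nat_lit 1) (nat_lit 14) (nat_lit 1) (nat_lit 360) (nat_lit 407) (nat_lit 253)) (XT.lf (nat_lit 0) (nat_lit 5202946978) (nat_lit 0) (nat_lit 5204364165) (nat_lit 152) (nat_lit 74402242) (nat_lit 11) (nat_lit 3) (nat_lit 11) (nat_lit 1) (nat_lit 13) (nat_lit 1) (nat_lit 361) (nat_lit 407) (nat_lit 252))))))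 (XT.nd (nat_lit 468) (nat_lit 76) (nat_lit 0) (XT.nd (nat_lit 234) (nat_lit 304) (nat_lit 0) (XT.nd (nat_lit 78) (nat_lit 228) (nat_lit 0) (XT.lf (nat_lit 0) (nat_lit 248644061) (nat_lit 0) (nat_lit 249893785) (nat_lit 152) (nat_lit 9719373507) (nat_lit 8) (nat_lit 3) (nat_lit 8) (nat_lit 1) (nat_lit 10) (nat_lit 1) (nat_lit 362) (nat_lit 407) (nat_lit 251)) (XT.nd (nat_lit 78) (nat_lit 152) (nat_lit 0) (XT.lf (nat_lit 76) (nat_lit 4493002353) (nat_lit 0) (nat_lit 970030076) (nat_lit 76) (nat_lit 4494159506) (nat_lit 8) (nat_lit 3) (nat_lit 7) (nat_lit 1) (nat_lit 8) (nat_lit 1) (nat_lit 363) (nat_lit 407) (nat_lit 250)) (XT.lf (nat_lit 0) (nat_lit 739759618) (nat_lit 0) (nat_lit 740780035) (nat_lit 152) (nat_lit 8225656706) (nat_lit 5) (nat_lit 3) (nat_lit 5) (nat_lit 1) (nat_lit 7) (nat_lit 1) (nat_lit 364) (nat_lit 407) (nat_lit 249)))) (XT.nd (nat_lit 78) (nat_lit 228) (nat_lit 0) (XT.lf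 (nat_lit 76) (nat_lit 3774056940) (nat_lit 0) (nat_lit 1909926458) (nat_lit 76) (nat_lit 3775001771) (nat_lit 5) (nat_lit 3) (nat_lit 4) (nat_lit 1) (nat_lit 5) (nat_lit 1) (nat_lit 365) (nat_lit 407) (nat_lit 248)) (XT.nd (nat_lit 78) (nat_lit 76) (nat_lit 0) (XT.lf (nat_lit 0) (nat_lit 1179927652) (nat_lit 0) (nat_lit 1180760836) (nat_lit 152) (nat_lit 6859538309) (nat_lit 2) (nat_lit 3) (nat_lit 2) (nat_lit 1) (nat_lit 4) (nat_lit 1) (nat_lit 366) (nat_lit 407) (nat_lit 247)) (XT.lf (nat_lit 76) (nat_lit 3116999150) (nat_lit 0) (nat_lit 2751050911) (nat_lit 76) (nat_lit 3117770616) (nat_lit 2) (nat_lit 3) (nat_lit 1) (nat_lit 1) (nat_lit 2) (nat_lit 1) (nat_lit 367) (nat_lit 407) (nat_lit 246))))) (XT.nd (nat_lit 234) (nat_lit 0) (nat_lit 0) (XT.nd (nat_lit 78) (nat_lit 0) (nat_lit 0) (XT.lf (nat_lit 0) (nat_lit 186334451430) (nat_lit 0) (nat_lit 0) (nat_lit 0) (nat_lit 0) (nat_lit 0) (nat_lit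 0) (nat_lit 1) (nat_lit 0) (nat_lit 1) (nat_lit 0) (nat_lit 368) (nat_lit 407) (nat_lit 245)) (XT.nd (nat_lit 78) (nat_lit 0) (nat_lit 0) (XT.lf (nat_lit 0) (nat_lit 186334398303) (nat_lit 0) (nat_lit 0) (nat_lit 0) (nat_lit 0) (nat_lit 0) (nat_lit 0) (nat_lit 1) (nat_lit 0) (nat_lit 1) (nat_lit 0) (nat_lit 369) (nat_lit 407) (nat_lit 244)) (XT.lf (nat_lit 0) (nat_lit 186334349112) (nat_lit 0) (nat_lit 0) (nat_lit 0) (nat_lit 0) (nat_lit 0) (nat_lit 0) (nat_lit 1) (nat_lit 0) (nat_lit 1) (nat_lit 0) (nat_lit 370) (nat_lit 407) (nat_lit 243)))) (XT.nd (nat_lit 156) (nat_lit 0) (nat_lit 0) (XT.nd (nat_lit 78) (nat_lit 0) (nat_lit 0) (XT.lf (nat_lit 0) (nat_lit 186334303565) (nat_lit 0) (nat_lit 0) (nat_lit 0) (nat_lit 0) (nat_lit 0) (nat_lit 0) (nat_lit 1) (nat_lit 0) (nat_lit 1) (nat_lit 0) (nat_lit 371) (nat_lit 407) (nat_lit 242)) (XT.lf (nat_lit 0) (nat_lit 186334261392) (nat_lit 0) (nat_lit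 0) (nat_lit 0) (nat_lit 0) (nat_lit 0) (nat_lit 0) (nat_lit 1) (nat_lit 0) (nat_lit 1) (nat_lit 0) (nat_lit 372) (nat_lit 407) (nat_lit 241))) (XT.nd (nat_lit 78) (nat_lit 0) (nat_lit 0) (XT.lf (nat_lit 0) (nat_lit 186334222342) (nat_lit 0) (nat_lit 0) (nat_lit 0) (nat_lit 0) (nat_lit 0) (nat_lit 0) (nat_lit 1) (nat_lit 0) (nat_lit 1) (nat_lit 0) (nat_lit 373) (nat_lit 407) (nat_lit 240)) (XT.lf (nat_lit 0) (nat_lit 186334186185) (nat_lit 0) (nat_lit 0) (nat_lit 0) (nat_lit 0) (nat_lit 0) (nat_lit 0) (nat_lit 1) (nat_lit 0) (nat_lit 1) (nat_lit 0) (nat_lit 374) (nat_lit 407) (nat_lit 239))))))) (XT.nd (nat_lit 1014) (nat_lit 0) (nat_lit 0) (XT.nd (nat_lit 468) (nat_lit 0) (nat_lit 0) (XT.nd (nat_lit 234) (nat_lit 0) (nat_lit 0) (XT.nd (nat_lit 78) (nat_lit 0) (nat_lit 0) (XT.lf (nat_lit 0) (nat_lit 186334152707) (nat_lit 0) (nat_lit 0) (nat_lit 0) (nat_lit 0) (nat_lit 0) (nat_lit 0) (nat_lit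 1) (nat_lit 0) (nat_lit 1) (nat_lit 0) (nat_lit 375) (nat_lit 407) (nat_lit 238)) (XT.nd (nat_lit 78) (nat_lit 0) (nat_lit 0) (XT.lf (nat_lit 0) (nat_lit 186334121708) (nat_lit 0) (nat_lit 0) (nat_lit 0) (nat_lit 0) (nat_lit 0) (nat_lit 0) (nat_lit 1) (nat_lit 0) (nat_lit 1) (nat_lit 0) (nat_lit 376) (nat_lit 407) (nat_lit 237)) (XT.lf (nat_lit 0) (nat_lit 186334093006) (nat_lit 0) (nat_lit 0) (nat_lit 0) (nat_lit 0) (nat_lit 0) (nat_lit 0) (nat_lit 1) (nat_lit 0) (nat_lit 1) (nat_lit 0) (nat_lit 377) (nat_lit 407) (nat_lit 236)))) (XT.nd (nat_lit 78) (nat_lit 0) (nat_lit 0) (XT.lf (nat_lit 0) (nat_lit 186334066429) (nat_lit 0) (nat_lit 0) (nat_lit 0) (nat_lit 0) (nat_lit 0) (nat_lit 0) (nat_lit 1) (nat_lit 0) (nat_lit 1) (nat_lit 0) (nat_lit 378) (nat_lit 407) (nat_lit 235)) (XT.nd (nat_lit 78) (nat_lit 0) (nat_lit 0) (XT.lf (nat_lit 0) (nat_lit 186334041822) (nat_lit 0) (nat_lit 0) (nat_lit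 0) (nat_lit 0) (nat_lit 0) (nat_lit 0) (nat_lit 1) (nat_lit 0) (nat_lit 1) (nat_lit 0) (nat_lit 379) (nat_lit 407) (nat_lit 234)) (XT.lf (nat_lit 0) (nat_lit 186334019037) (nat_lit 0) (nat_lit 0) (nat_lit 0) (nat_lit 0) (nat_lit 0) (nat_lit 0) (nat_lit 1) (nat_lit 0) (nat_lit 1) (nat_lit 0) (nat_lit 380) (nat_lit 407) (nat_lit 233))))) (XT.nd (nat_lit 234) (nat_lit 0) (nat_lit 0) (XT.nd (nat_lit 78) (nat_lit 0) (nat_lit 0) (XT.lf (nat_lit 0) (nat_lit 186333997940) (nat_lit 0) (nat_lit 0) (nat_lit 0) (nat_lit 0) (nat_lit 0) (nat_lit 0) (nat_lit 1) (nat_lit 0) (nat_lit 1) (nat_lit 0) (nat_lit 381) (nat_lit 407) (nat_lit 232)) (XT.nd (nat_lit 78) (nat_lit 0) (nat_lit 0) (XT.lf (nat_lit 0) (nat_lit 186333978405) (nat_lit 0) (nat_lit 0) (nat_lit 0) (nat_lit 0) (nat_lit 0) (nat_lit 0) (nat_lit 1) (nat_lit 0) (nat_lit 1) (nat_lit 0) (nat_lit 382) (nat_lit 407) (nat_lit 231)) (XT.lf (nat_lit 0) (nat_lit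 186333960318) (nat_lit 0) (nat_lit 0) (nat_lit 0) (nat_lit 0) (nat_lit 0) (nat_lit 0) (nat_lit 1) (nat_lit 0) (nat_lit 1) (nat_lit 0) (nat_lit 383) (nat_lit 407) (nat_lit 230)))) (XT.nd (nat_lit 156) (nat_lit 0) (nat_lit 0) (XT.nd (nat_lit 78) (nat_lit 0) (nat_lit 0) (XT.lf (nat_lit 0) (nat_lit 186333943570) (nat_lit 0) (nat_lit 0) (nat_lit 0) (nat_lit 0) (nat_lit 0) (nat_lit 0) (nat_lit 1) (nat_lit 0) (nat_lit 1) (nat_lit 0) (nat_lit 384) (nat_lit 407) (nat_lit 229)) (XT.lf (nat_lit 0) (nat_lit 186333928063) (nat_lit 0) (nat_lit 0) (nat_lit 0) (nat_lit 0) (nat_lit 0) (nat_lit 0) (nat_lit 1) (nat_lit 0) (nat_lit 1) (nat_lit 0) (nat_lit 385) (nat_lit 407) (nat_lit 228))) (XT.nd (nat_lit 78) (nat_lit 0) (nat_lit 0) (XT.lf (nat_lit 0) (nat_lit 186333913705) (nat_lit 0) (nat_lit 0) (nat_lit 0) (nat_lit 0) (nat_lit 0) (nat_lit 0) (nat_lit 1) (nat_lit 0) (nat_lit 1) (nat_lit 0) (nat_lit 386) (nat_lit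 407) (nat_lit 227)) (XT.lf (nat_lit 0) (nat_lit 186333900410) (nat_lit 0) (nat_lit 0) (nat_lit 0) (nat_lit 0) (nat_lit 0) (nat_lit 0) (nat_lit 1) (nat_lit 0) (nat_lit 1) (nat_lit 0) (nat_lit 387) (nat_lit 407) (nat_lit 226)))))) (XT.nd (nat_lit 546) (nat_lit 0) (nat_lit 0) (XT.nd (nat_lit 234) (nat_lit 0) (nat_lit 0) (XT.nd (nat_lit 78) (nat_lit 0) (nat_lit 0) (XT.lf (nat_lit 0) (nat_lit 186333888100) (nat_lit 0) (nat_lit 0) (nat_lit 0) (nat_lit 0) (nat_lit 0) (nat_lit 0) (nat_lit 1) (nat_lit 0) (nat_lit 1) (nat_lit 0) (nat_lit 388) (nat_lit 407) (nat_lit 225)) (XT.nd (nat_lit 78) (nat_lit 0) (nat_lit 0) (XT.lf (nat_lit 0) (nat_lit 186333876702) (nat_lit 0) (nat_lit 0) (nat_lit 0) (nat_lit 0) (nat_lit 0) (nat_lit 0) (nat_lit 1) (nat_lit 0) (nat_lit 1) (nat_lit 0) (nat_lit 389) (nat_lit 407) (nat_lit 224)) (XT.lf (nat_lit 0) (nat_lit 186333866148) (nat_lit 0) (nat_lit 0) (nat_lit 0) (nat_lit 0)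 (nat_lit 0) (nat_lit 0) (nat_lit 1) (nat_lit 0) (nat_lit 1) (nat_lit 0) (nat_lit 390) (nat_lit 407) (nat_lit 223)))) (XT.nd (nat_lit 156) (nat_lit 0) (nat_lit 0) (XT.nd (nat_lit 78) (nat_lit 0) (nat_lit 0) (XT.lf (nat_lit 0) (nat_lit 186333856376) (nat_lit 0) (nat_lit 0) (nat_lit 0) (nat_lit 0) (nat_lit 0) (nat_lit 0) (nat_lit 1) (nat_lit 0) (nat_lit 1) (nat_lit 0) (nat_lit 391) (nat_lit 407) (nat_lit 222)) (XT.lf (nat_lit 0) (nat_lit 186333847328) (nat_lit 0) (nat_lit 0) (nat_lit 0) (nat_lit 0) (nat_lit 0) (nat_lit 0) (nat_lit 1) (nat_lit 0) (nat_lit 1) (nat_lit 0) (nat_lit 392) (nat_lit 407) (nat_lit 221))) (XT.nd (nat_lit 78) (nat_lit 0) (nat_lit 0) (XT.lf (nat_lit 0) (nat_lit 186333838950) (nat_lit 0) (nat_lit 0) (nat_lit 0) (nat_lit 0) (nat_lit 0) (nat_lit 0) (nat_lit 1) (nat_lit 0) (nat_lit 1) (nat_lit 0) (nat_lit 393) (nat_lit 407) (nat_lit 220)) (XT.lf (nat_lit 0) (nat_lit 186333831192)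 (nat_lit 0) (nat_lit 0) (nat_lit 0) (nat_lit 0) (nat_lit 0) (nat_lit 0) (nat_lit 1) (nat_lit 0) (nat_lit 1) (nat_lit 0) (nat_lit 394) (nat_lit 407) (nat_lit 219))))) (XT.nd (nat_lit 234) (nat_lit 0) (nat_lit 0) (XT.nd (nat_lit 78) (nat_lit 0) (nat_lit 0) (XT.lf (nat_lit 0) (nat_lit 186333824009) (nat_lit 0) (nat_lit 0) (nat_lit 0) (nat_lit 0) (nat_lit 0) (nat_lit 0) (nat_lit 1) (nat_lit 0) (nat_lit 1) (nat_lit 0) (nat_lit 395) (nat_lit 407) (nat_lit 218)) (XT.nd (nat_lit 78) (nat_lit 0) (nat_lit 0) (XT.lf (nat_lit 0) (nat_lit 186333817359) (nat_lit 0) (nat_lit 0) (nat_lit 0) (nat_lit 0) (nat_lit 0) (nat_lit 0) (nat_lit 1) (nat_lit 0) (nat_lit 1) (nat_lit 0) (nat_lit 396) (nat_lit 407) (nat_lit 217)) (XT.lf (nat_lit 0) (nat_lit 186333811201) (nat_lit 0) (nat_lit 0) (nat_lit 0) (nat_lit 0) (nat_lit 0) (nat_lit 0) (nat_lit 1) (nat_lit 0) (nat_lit 1) (nat_lit 0) (nat_lit 397) (nat_lit 407) (nat_lit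 216)))) (XT.nd (nat_lit 156) (nat_lit 0) (nat_lit 0) (XT.nd (nat_lit 78) (nat_lit 0) (nat_lit 0) (XT.lf (nat_lit 0) (nat_lit 186333805499) (nat_lit 0) (nat_lit 0) (nat_lit 0) (nat_lit 0) (nat_lit 0) (nat_lit 0) (nat_lit 1) (nat_lit 0) (nat_lit 1) (nat_lit 0) (nat_lit 398) (nat_lit 407) (nat_lit 215)) (XT.lf (nat_lit 0) (nat_lit 186333800219) (nat_lit 0) (nat_lit 0) (nat_lit 0) (nat_lit 0) (nat_lit 0) (nat_lit 0) (nat_lit 1) (nat_lit 0) (nat_lit 1) (nat_lit 0) (nat_lit 399) (nat_lit 407) (nat_lit 214))) (XT.nd (nat_lit 78) (nat_lit 0) (nat_lit 0) (XT.lf (nat_lit 0) (nat_lit 186333795331) (nat_lit 0) (nat_lit 0) (nat_lit 0) (nat_lit 0) (nat_lit 0) (nat_lit 0) (nat_lit 1) (nat_lit 0) (nat_lit 1) (nat_lit 0) (nat_lit 400) (nat_lit 407) (nat_lit 213)) (XT.lf (nat_lit 0) (nat_lit 186333790804) (nat_lit 0) (nat_lit 0) (nat_lit 0) (nat_lit 0) (nat_lit 0) (nat_lit 0) (nat_lit 1) (nat_lit 0) (nat_lit 1)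 (nat_lit 0) (nat_lit 401) (nat_lit 407) (nat_lit 212))))))))
noncomputable def ec210 : XT := (XT.nd (nat_lit 38688) (nat_lit 0) (nat_lit 14592) (XT.nd (nat_lit 37674) (nat_lit 0) (nat_lit 20216) (XT.nd (nat_lit 468) (nat_lit 0) (nat_lit 0) (XT.nd (nat_lit 234) (nat_lit 0) (nat_lit 0) (XT.nd (nat_lit 78) (nat_lit 0) (nat_lit 0) (XT.lf (nat_lit 0) (nat_lit 186333786613) (nat_lit 0) (nat_lit 0) (nat_lit 0) (nat_lit 0) (nat_lit 0) (nat_lit 0) (nat_lit 1) (nat_lit 0) (nat_lit 1) (nat_lit 0) (nat_lit 402) (nat_lit 407) (nat_lit 211)) (XT.nd (nat_lit 78) (nat_lit 0) (nat_lit 0) (XT.lf (nat_lit 0) (nat_lit 186333782733) (nat_lit 0) (nat_lit 0) (nat_lit 0) (nat_lit 0) (nat_lit 0) (nat_lit 0) (nat_lit 1) (nat_lit 0) (nat_lit 1) (nat_lit 0) (nat_lit 403) (nat_lit 407) (nat_lit 210)) (XT.lf (nat_lit 0) (nat_lit 186333779140) (nat_lit 0) (nat_lit 0) (nat_lit 0) (nat_lit 0) (nat_lit 0) (nat_lit 0) (nat_lit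 1) (nat_lit 0) (nat_lit 1) (nat_lit 0) (nat_lit 404) (nat_lit 407) (nat_lit 209)))) (XT.nd (nat_lit 78) (nat_lit 0) (nat_lit 0) (XT.lf (nat_lit 0) (nat_lit 186333775813) (nat_lit 0) (nat_lit 0) (nat_lit 0) (nat_lit 0) (nat_lit 0) (nat_lit 0) (nat_lit 1) (nat_lit 0) (nat_lit 1) (nat_lit 0) (nat_lit 405) (nat_lit 407) (nat_lit 208)) (XT.nd (nat_lit 78) (nat_lit 0) (nat_lit 0) (XT.lf (nat_lit 0) (nat_lit 186333772732) (nat_lit 0) (nat_lit 0) (nat_lit 0) (nat_lit 0) (nat_lit 0) (nat_lit 0) (nat_lit 1) (nat_lit 0) (nat_lit 1) (nat_lit 0) (nat_lit 406) (nat_lit 407) (nat_lit 207)) (XT.lf (nat_lit 0) (nat_lit 186333769880) (nat_lit 0) (nat_lit 0) (nat_lit 0) (nat_lit 0) (nat_lit 0) (nat_lit 0) (nat_lit 1) (nat_lit 0) (nat_lit 1) (nat_lit 0) (nat_lit 407) (nat_lit 407) (nat_lit 206))))) (XT.nd (nat_lit 234) (nat_lit 0) (nat_lit 0) (XT.nd (nat_lit 78) (nat_lit 0) (nat_lit 0) (XT.lf (nat_lit 0) (nat_lit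 186333767238) (nat_lit 0) (nat_lit 0) (nat_lit 0) (nat_lit 0) (nat_lit 0) (nat_lit 0) (nat_lit 1) (nat_lit 0) (nat_lit 1) (nat_lit 0) (nat_lit 408) (nat_lit 407) (nat_lit 205)) (XT.nd (nat_lit 78) (nat_lit 0) (nat_lit 0) (XT.lf (nat_lit 0) (nat_lit 186333764793) (nat_lit 0) (nat_lit 0) (nat_lit 0) (nat_lit 0) (nat_lit 0) (nat_lit 0) (nat_lit 1) (nat_lit 0) (nat_lit 1) (nat_lit 0) (nat_lit 409) (nat_lit 407) (nat_lit 204)) (XT.lf (nat_lit 0) (nat_lit 186333762529) (nat_lit 0) (nat_lit 0) (nat_lit 0) (nat_lit 0) (nat_lit 0) (nat_lit 0) (nat_lit 1) (nat_lit 0) (nat_lit 1) (nat_lit 0) (nat_lit 410) (nat_lit 407) (nat_lit 203)))) (XT.nd (nat_lit 156) (nat_lit 0) (nat_lit 0) (XT.nd (nat_lit 78) (nat_lit 0) (nat_lit 0) (XT.lf (nat_lit 0) (nat_lit 186333760432) (nat_lit 0) (nat_lit 0) (nat_lit 0) (nat_lit 0) (nat_lit 0) (nat_lit 0) (nat_lit 1) (nat_lit 0) (nat_lit 1) (nat_lit 0) (nat_lit 411) (nat_lit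 407) (nat_lit 202)) (XT.lf (nat_lit 0) (nat_lit 186333758491) (nat_lit 0) (nat_lit 0) (nat_lit 0) (nat_lit 0) (nat_lit 0) (nat_lit 0) (nat_lit 1) (nat_lit 0) (nat_lit 1) (nat_lit 0) (nat_lit 412) (nat_lit 407) (nat_lit 201))) (XT.nd (nat_lit 78) (nat_lit 0) (nat_lit 0) (XT.lf (nat_lit 0) (nat_lit 186333756693) (nat_lit 0) (nat_lit 0) (nat_lit 0) (nat_lit 0) (nat_lit 0) (nat_lit 0) (nat_lit 1) (nat_lit 0) (nat_lit 1) (nat_lit 0) (nat_lit 413) (nat_lit 407) (nat_lit 200)) (XT.lf (nat_lit 0) (nat_lit 186333755029) (nat_lit 0) (nat_lit 0) (nat_lit 0) (nat_lit 0) (nat_lit 0) (nat_lit 0) (nat_lit 1) (nat_lit 0) (nat_lit 1) (nat_lit 0) (nat_lit 414) (nat_lit 407) (nat_lit 199)))))) (XT.nd (nat_lit 468) (nat_lit 1976) (nat_lit 0) (XT.nd (nat_lit 234) (nat_lit 0) (nat_lit 152) (XT.nd (nat_lit 78) (nat_lit 0) (nat_lit 76) (XT.lf (nat_lit 836) (nat_lit 100708250638) (nat_lit 0) (nat_lit 178807267521) (nat_lit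 836) (nat_lit 100708250638) (nat_lit 303) (nat_lit 1) (nat_lit 292) (nat_lit 0) (nat_lit 303) (nat_lit 0) (nat_lit 204) (nat_lit 408) (nat_lit 408)) (XT.nd (nat_lit 78) (nat_lit 0) (nat_lit 0) (XT.lf (nat_lit 836) (nat_lit 37567267633) (nat_lit 0) (nat_lit 351052858384) (nat_lit 760) (nat_lit 343328522658) (nat_lit 304) (nat_lit 1) (nat_lit 293) (nat_lit 1) (nat_lit 303) (nat_lit 1) (nat_lit 205) (nat_lit 408) (nat_lit 407)) (XT.lf (nat_lit 836) (nat_lit 345033669077) (nat_lit 76) (nat_lit 235100217592) (nat_lit 0) (nat_lit 124686431055) (nat_lit 304) (nat_lit 1) (nat_lit 294) (nat_lit 1) (nat_lit 293) (nat_lit 1) (nat_lit 206) (nat_lit 408) (nat_lit 406)))) (XT.nd (nat_lit 78) (nat_lit 0) (nat_lit 76) (XT.lf (nat_lit 836) (nat_lit 298137355648) (nat_lit 76) (nat_lit 98528871632) (nat_lit 0) (nat_lit 282383329983) (nat_lit 305) (nat_lit 1) (nat_lit 295) (nat_lit 1) (nat_lit 294) (nat_lit 1) (nat_lit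 207) (nat_lit 408) (nat_lit 405)) (XT.nd (nat_lit 78) (nat_lit 0) (nat_lit 76) (XT.lf (nat_lit 836) (nat_lit 220646989937) (nat_lit 0) (nat_lit 412820088640) (nat_lit 760) (nat_lit 21103303951) (nat_lit 306) (nat_lit 1) (nat_lit 295) (nat_lit 1) (nat_lit 305) (nat_lit 1) (nat_lit 208) (nat_lit 408) (nat_lit 404)) (XT.lf (nat_lit 836) (nat_lit 52942081851) (nat_lit 0) (nat_lit 455248833594) (nat_lit 760) (nat_lit 123069344296) (nat_lit 307) (nat_lit 1) (nat_lit 296) (nat_lit 1) (nat_lit 306) (nat_lit 1) (nat_lit 209) (nat_lit 408) (nat_lit 403))))) (XT.nd (nat_lit 234) (nat_lit 1064) (nat_lit 0) (XT.nd (nat_lit 78) (nat_lit 1216) (nat_lit 0) (XT.lf (nat_lit 836) (nat_lit 101733147950) (nat_lit 76) (nat_lit 395648308897) (nat_lit 0) (nat_lit 111656834143) (nat_lit 307) (nat_lit 1) (nat_lit 297) (nat_lit 1) (nat_lit 296) (nat_lit 1) (nat_lit 210) (nat_lit 408) (nat_lit 402)) (XT.nd (nat_lit 78)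 (nat_lit 532) (nat_lit 0) (XT.lf (nat_lit 836) (nat_lit 20893668762) (nat_lit 0) (nat_lit 295773282030) (nat_lit 760) (nat_lit 271221000557) (nat_lit 298) (nat_lit 1) (nat_lit 287) (nat_lit 1) (nat_lit 297) (nat_lit 1) (nat_lit 211) (nat_lit 408) (nat_lit 401)) (XT.lf (nat_lit 76) (nat_lit 144672114833) (nat_lit 0) (nat_lit 62693159852) (nat_lit 532) (nat_lit 360373785182) (nat_lit 281) (nat_lit 1) (nat_lit 280) (nat_lit 1) (nat_lit 287) (nat_lit 1) (nat_lit 212) (nat_lit 408) (nat_lit 400)))) (XT.nd (nat_lit 156) (nat_lit 304) (nat_lit 0) (XT.nd (nat_lit 78) (nat_lit 380) (nat_lit 0) (XT.lf (nat_lit 456) (nat_lit 398698139062) (nat_lit 0) (nat_lit 129784839503) (nat_lit 380) (nat_lit 20065538115) (nat_lit 281) (nat_lit 1) (nat_lit 275) (nat_lit 1) (nat_lit 280) (nat_lit 1) (nat_lit 213) (nat_lit 408) (nat_lit 399)) (XT.lf (nat_lit 456) (nat_lit 287704373839) (nat_lit 0) (nat_lit 60493272759)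 (nat_lit 380) (nat_lit 181985485937) (nat_lit 276) (nat_lit 1) (nat_lit 270) (nat_lit 1) (nat_lit 275) (nat_lit 1) (nat_lit 214) (nat_lit 408) (nat_lit 398))) (XT.nd (nat_lit 78) (nat_lit 0) (nat_lit 0) (XT.lf (nat_lit 380) (nat_lit 175064442117) (nat_lit 0) (nat_lit 1113779458) (nat_lit 304) (nat_lit 336530024360) (nat_lit 271) (nat_lit 1) (nat_lit 266) (nat_lit 1) (nat_lit 270) (nat_lit 1) (nat_lit 215) (nat_lit 408) (nat_lit 397)) (XT.lf (nat_lit 76) (nat_lit 12915427187) (nat_lit 0) (nat_lit 435570787528) (nat_lit 380) (nat_lit 47551020607) (nat_lit 267) (nat_lit 1) (nat_lit 266) (nat_lit 1) (nat_lit 271) (nat_lit 1) (nat_lit 216) (nat_lit 408) (nat_lit 396))))))) (XT.nd (nat_lit 1014) (nat_lit 2204) (nat_lit 0) (XT.nd (nat_lit 468) (nat_lit 1596) (nat_lit 0) (XT.nd (nat_lit 234) (nat_lit 836) (nat_lit 0) (XT.nd (nat_lit 78) (nat_lit 608) (nat_lit 0) (XT.lf (nat_lit 76) (nat_lit 333479679842)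 (nat_lit 0) (nat_lit 55311173112) (nat_lit 380) (nat_lit 91218169733) (nat_lit 262) (nat_lit 1) (nat_lit 261) (nat_lit 1) (nat_lit 266) (nat_lit 1) (nat_lit 217) (nat_lit 408) (nat_lit 395)) (XT.nd (nat_lit 78) (nat_lit 304) (nat_lit 0) (XT.lf (nat_lit 76) (nat_lit 166848334416) (nat_lit 0) (nat_lit 169427941875) (nat_lit 380) (nat_lit 128412741922) (nat_lit 258) (nat_lit 1) (nat_lit 257) (nat_lit 1) (nat_lit 262) (nat_lit 1) (nat_lit 218) (nat_lit 408) (nat_lit 394)) (XT.lf (nat_lit 76) (nat_lit 8235263807) (nat_lit 0) (nat_lit 283280887973) (nat_lit 380) (nat_lit 158578213538) (nat_lit 254) (nat_lit 1) (nat_lit 253) (nat_lit 1) (nat_lit 258) (nat_lit 1) (nat_lit 219) (nat_lit 408) (nat_lit 393)))) (XT.nd (nat_lit 78) (nat_lit 608) (nat_lit 0) (XT.lf (nat_lit 304) (nat_lit 37189987215) (nat_lit 0) (nat_lit 251498081831) (nat_lit 228) (nat_lit 147383656009) (nat_lit 254) (nat_lit 1) (nat_lit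 250) (nat_lit 1) (nat_lit 253) (nat_lit 1) (nat_lit 220) (nat_lit 408) (nat_lit 392)) (XT.nd (nat_lit 78) (nat_lit 228) (nat_lit 0) (XT.lf (nat_lit 76) (nat_lit 128501404719) (nat_lit 0) (nat_lit 88075661267) (nat_lit 380) (nat_lit 206051319499) (nat_lit 246) (nat_lit 1) (nat_lit 245) (nat_lit 1) (nat_lit 250) (nat_lit 1) (nat_lit 221) (nat_lit 408) (nat_lit 391)) (XT.lf (nat_lit 304) (nat_lit 198951083102) (nat_lit 0) (nat_lit 186888828752) (nat_lit 228) (nat_lit 23921548275) (nat_lit 246) (nat_lit 1) (nat_lit 242) (nat_lit 1) (nat_lit 245) (nat_lit 1) (nat_lit 222) (nat_lit 408) (nat_lit 390))))) (XT.nd (nat_lit 234) (nat_lit 836) (nat_lit 0) (XT.nd (nat_lit 78) (nat_lit 532) (nat_lit 0) (XT.lf (nat_lit 304) (nat_lit 63762860989) (nat_lit 0) (nat_lit 160903628533) (nat_lit 228) (nat_lit 172722524785) (nat_lit 243) (nat_lit 1) (nat_lit 239) (nat_lit 1) (nat_lit 242) (nat_lit 1) (nat_lit 223)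 (nat_lit 408) (nat_lit 389)) (XT.nd (nat_lit 78) (nat_lit 228) (nat_lit 0) (XT.lf (nat_lit 76) (nat_lit 72674254366) (nat_lit 0) (nat_lit 66539595405) (nat_lit 304) (nat_lit 246316569684) (nat_lit 236) (nat_lit 1) (nat_lit 235) (nat_lit 1) (nat_lit 239) (nat_lit 1) (nat_lit 224) (nat_lit 408) (nat_lit 388)) (XT.lf (nat_lit 304) (nat_lit 180840343518) (nat_lit 0) (nat_lit 120324463152) (nat_lit 228) (nat_lit 72941085170) (nat_lit 236) (nat_lit 1) (nat_lit 232) (nat_lit 1) (nat_lit 235) (nat_lit 1) (nat_lit 225) (nat_lit 408) (nat_lit 387)))) (XT.nd (nat_lit 156) (nat_lit 380) (nat_lit 0) (XT.nd (nat_lit 78) (nat_lit 304) (nat_lit 0) (XT.lf (nat_lit 228) (nat_lit 44830588181) (nat_lit 0) (nat_lit 104974317610) (nat_lit 152) (nat_lit 213337355752) (nat_lit 233) (nat_lit 1) (nat_lit 230) (nat_lit 1) (nat_lit 232) (nat_lit 1) (nat_lit 226) (nat_lit 408) (nat_lit 386)) (XT.lf (nat_lit 76) (nat_lit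 7594588050) (nat_lit 0) (nat_lit 84985088987) (nat_lit 304) (nat_lit 260023933400) (nat_lit 227) (nat_lit 1) (nat_lit 226) (nat_lit 1) (nat_lit 230) (nat_lit 1) (nat_lit 227) (nat_lit 408) (nat_lit 385))) (XT.nd (nat_lit 78) (nat_lit 228) (nat_lit 0) (XT.lf (nat_lit 228) (nat_lit 130269463421) (nat_lit 0) (nat_lit 81407238842) (nat_lit 152) (nat_lit 130722802464) (nat_lit 227) (nat_lit 1) (nat_lit 224) (nat_lit 1) (nat_lit 226) (nat_lit 1) (nat_lit 228) (nat_lit 408) (nat_lit 384)) (XT.lf (nat_lit 76) (nat_lit 70678766858) (nat_lit 0) (nat_lit 3264696552) (nat_lit 228) (nat_lit 258697207618) (nat_lit 222) (nat_lit 1) (nat_lit 221) (nat_lit 1) (nat_lit 224) (nat_lit 1) (nat_lit 229) (nat_lit 408) (nat_lit 383)))))) (XT.nd (nat_lit 546) (nat_lit 1140) (nat_lit 0) (XT.nd (nat_lit 234) (nat_lit 532) (nat_lit 0) (XT.nd (nat_lit 78) (nat_lit 380) (nat_lit 0) (XT.lf (nat_lit 228) (nat_lit 193222100194)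 (nat_lit 0) (nat_lit 66955790120) (nat_lit 152) (nat_lit 62987824541) (nat_lit 222) (nat_lit 1) (nat_lit 219) (nat_lit 1) (nat_lit 221) (nat_lit 1) (nat_lit 230) (nat_lit 408) (nat_lit 382)) (XT.nd (nat_lit 78) (nat_lit 228) (nat_lit 0) (XT.lf (nat_lit 228) (nat_lit 60022527270) (nat_lit 0) (nat_lit 62242811000) (nat_lit 152) (nat_lit 191787689455) (nat_lit 220) (nat_lit 1) (nat_lit 217) (nat_lit 1) (nat_lit 219) (nat_lit 1) (nat_lit 231) (nat_lit 408) (nat_lit 381)) (XT.lf (nat_lit 228) (nat_lit 238267374365) (nat_lit 0) (nat_lit 59467953969) (nat_lit 152) (nat_lit 7544199888) (nat_lit 217) (nat_lit 1) (nat_lit 214) (nat_lit 1) (nat_lit 216) (nat_lit 1) (nat_lit 232) (nat_lit 408) (nat_lit 380)))) (XT.nd (nat_lit 156) (nat_lit 228) (nat_lit 0) (XT.nd (nat_lit 78) (nat_lit 152) (nat_lit 0) (XT.lf (nat_lit 228) (nat_lit 106637434006) (nat_lit 0) (nat_lit 56771846615) (nat_lit 152) (nat_lit 133340535957)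 (nat_lit 215) (nat_lit 1) (nat_lit 212) (nat_lit 1) (nat_lit 214) (nat_lit 1) (nat_lit 233) (nat_lit 408) (nat_lit 379)) (XT.lf (nat_lit 76) (nat_lit 36527438303) (nat_lit 0) (nat_lit 20077126066) (nat_lit 152) (nat_lit 231969330962) (nat_lit 211) (nat_lit 1) (nat_lit 210) (nat_lit 1) (nat_lit 212) (nat_lit 1) (nat_lit 234) (nat_lit 408) (nat_lit 378))) (XT.nd (nat_lit 78) (nat_lit 76) (nat_lit 0) (XT.lf (nat_lit 228) (nat_lit 139914446210) (nat_lit 0) (nat_lit 56005185041) (nat_lit 152) (nat_lit 84684654432) (nat_lit 211) (nat_lit 1) (nat_lit 208) (nat_lit 1) (nat_lit 210) (nat_lit 1) (nat_lit 235) (nat_lit 408) (nat_lit 377)) (XT.lf (nat_lit 152) (nat_lit 15066797697) (nat_lit 0) (nat_lit 57380744759) (nat_lit 76) (nat_lit 200501763512) (nat_lit 209) (nat_lit 1) (nat_lit 207) (nat_lit 1) (nat_lit 208) (nat_lit 1) (nat_lit 236) (nat_lit 408) (nat_lit 376))))) (XT.nd (nat_lit 234) (nat_lit 608)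 (nat_lit 0) (XT.nd (nat_lit 78) (nat_lit 304) (nat_lit 0) (XT.lf (nat_lit 228) (nat_lit 162640518554) (nat_lit 0) (nat_lit 58685189641) (nat_lit 152) (nat_lit 44179689487) (nat_lit 207) (nat_lit 1) (nat_lit 204) (nat_lit 1) (nat_lit 206) (nat_lit 1) (nat_lit 237) (nat_lit 408) (nat_lit 375)) (XT.nd (nat_lit 78) (nat_lit 228) (nat_lit 0) (XT.lf (nat_lit 152) (nat_lit 40905289723) (nat_lit 0) (nat_lit 60879488017) (nat_lit 76) (nat_lit 156527586317) (nat_lit 205) (nat_lit 1) (nat_lit 203) (nat_lit 1) (nat_lit 204) (nat_lit 1) (nat_lit 238) (nat_lit 408) (nat_lit 374)) (XT.lf (nat_lit 228) (nat_lit 177068939490) (nat_lit 0) (nat_lit 63815723735) (nat_lit 152) (nat_lit 10472706558) (nat_lit 203) (nat_lit 1) (nat_lit 200) (nat_lit 1) (nat_lit 202) (nat_lit 1) (nat_lit 239) (nat_lit 408) (nat_lit 373)))) (XT.nd (nat_lit 156) (nat_lit 304) (nat_lit 0) (XT.nd (nat_lit 78) (nat_lit 228) (nat_lit 0) (XT.lf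 (nat_lit 152) (nat_lit 58868323791) (nat_lit 0) (nat_lit 66528658818) (nat_lit 76) (nat_lit 119191837731) (nat_lit 201) (nat_lit 1) (nat_lit 199) (nat_lit 1) (nat_lit 200) (nat_lit 1) (nat_lit 240) (nat_lit 408) (nat_lit 372)) (XT.lf (nat_lit 76) (nat_lit 16991740989) (nat_lit 0) (nat_lit 53332545625) (nat_lit 228) (nat_lit 167739144881) (nat_lit 197) (nat_lit 1) (nat_lit 196) (nat_lit 1) (nat_lit 199) (nat_lit 1) (nat_lit 241) (nat_lit 408) (nat_lit 371))) (XT.nd (nat_lit 78) (nat_lit 228) (nat_lit 0) (XT.lf (nat_lit 152) (nat_lit 70647299811) (nat_lit 0) (nat_lit 73611137797) (nat_lit 76) (nat_lit 87441659056) (nat_lit 197) (nat_lit 1) (nat_lit 195) (nat_lit 1) (nat_lit 196) (nat_lit 1) (nat_lit 242) (nat_lit 408) (nat_lit 370)) (XT.lf (nat_lit 76) (nat_lit 39516462659) (nat_lit 0) (nat_lit 38274366181) (nat_lit 228) (nat_lit 147769556163) (nat_lit 193) (nat_lit 1) (nat_lit 192) (nat_lit 1)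 (nat_lit 195) (nat_lit 1) (nat_lit 243) (nat_lit 408) (nat_lit 369))))))))
noncomputable def ec211 : XT := (XT.nd (nat_lit 2106) (nat_lit 3192) (nat_lit 0) (XT.nd (nat_lit 1014) (nat_lit 1672) (nat_lit 0) (XT.nd (nat_lit 468) (nat_lit 760) (nat_lit 0) (XT.nd (nat_lit 234) (nat_lit 380) (nat_lit 0) (XT.nd (nat_lit 78) (nat_lit 228) (nat_lit 0) (XT.lf (nat_lit 152) (nat_lit 77606217362) (nat_lit 0) (nat_lit 81567132341) (nat_lit 76) (nat_lit 60404190949) (nat_lit 193) (nat_lit 1) (nat_lit 191) (nat_lit 1) (nat_lit 192) (nat_lit 1) (nat_lit 244) (nat_lit 408) (nat_lit 368)) (XT.nd (nat_lit 78) (nat_lit 76) (nat_lit 0) (XT.lf (nat_lit 76) (nat_lit 58177370825) (nat_lit 0) (nat_lit 27720476238) (nat_lit 152) (nat_lit 127894435002) (nat_lit 190) (nat_lit 1) (nat_lit 189) (nat_lit 1) (nat_lit 191) (nat_lit 1) (nat_lit 245) (nat_lit 408) (nat_lit 367)) (XT.lf (nat_lit 152) (nat_lit 80842852699) (nat_lit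 0) (nat_lit 89963514306) (nat_lit 76) (nat_lit 37354465252) (nat_lit 190) (nat_lit 1) (nat_lit 188) (nat_lit 1) (nat_lit 189) (nat_lit 1) (nat_lit 246) (nat_lit 408) (nat_lit 366)))) (XT.nd (nat_lit 78) (nat_lit 228) (nat_lit 0) (XT.lf (nat_lit 76) (nat_lit 73588964861) (nat_lit 0) (nat_lit 20679836728) (nat_lit 152) (nat_lit 108433798364) (nat_lit 187) (nat_lit 1) (nat_lit 186) (nat_lit 1) (nat_lit 188) (nat_lit 1) (nat_lit 247) (nat_lit 408) (nat_lit 365)) (XT.nd (nat_lit 78) (nat_lit 152) (nat_lit 0) (XT.lf (nat_lit 152) (nat_lit 81238642079) (nat_lit 0) (nat_lit 98468900486) (nat_lit 76) (nat_lit 17689128503) (nat_lit 187) (nat_lit 1) (nat_lit 185) (nat_lit 1) (nat_lit 186) (nat_lit 1) (nat_lit 248) (nat_lit 408) (nat_lit 364)) (XT.lf (nat_lit 76) (nat_lit 86261962321) (nat_lit 0) (nat_lit 16355560111) (nat_lit 152) (nat_lit 89623711067) (nat_lit 184) (nat_lit 1) (nat_lit 183) (nat_lit 1)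 (nat_lit 185) (nat_lit 1) (nat_lit 249) (nat_lit 408) (nat_lit 363))))) (XT.nd (nat_lit 234) (nat_lit 456) (nat_lit 0) (XT.nd (nat_lit 78) (nat_lit 228) (nat_lit 0) (XT.lf (nat_lit 152) (nat_lit 79499347790) (nat_lit 0) (nat_lit 106833414877) (nat_lit 76) (nat_lit 904930815) (nat_lit 184) (nat_lit 1) (nat_lit 182) (nat_lit 1) (nat_lit 183) (nat_lit 1) (nat_lit 250) (nat_lit 408) (nat_lit 362)) (XT.nd (nat_lit 78) (nat_lit 76) (nat_lit 0) (XT.lf (nat_lit 76) (nat_lit 96621669325) (nat_lit 0) (nat_lit 14108454952) (nat_lit 152) (nat_lit 71633393795) (nat_lit 181) (nat_lit 1) (nat_lit 180) (nat_lit 1) (nat_lit 182) (nat_lit 1) (nat_lit 251) (nat_lit 408) (nat_lit 361)) (XT.lf (nat_lit 0) (nat_lit 12989402461) (nat_lit 0) (nat_lit 101662882575) (nat_lit 152) (nat_lit 62978817735) (nat_lit 179) (nat_lit 3) (nat_lit 179) (nat_lit 1) (nat_lit 181) (nat_lit 1) (nat_lit 252) (nat_lit 408) (nat_lit 360))))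 (XT.nd (nat_lit 156) (nat_lit 228) (nat_lit 0) (XT.nd (nat_lit 78) (nat_lit 76) (nat_lit 0) (XT.lf (nat_lit 76) (nat_lit 105023025662) (nat_lit 0) (nat_lit 13427312600) (nat_lit 152) (nat_lit 54579083349) (nat_lit 178) (nat_lit 1) (nat_lit 177) (nat_lit 1) (nat_lit 179) (nat_lit 1) (nat_lit 253) (nat_lit 408) (nat_lit 359)) (XT.lf (nat_lit 0) (nat_lit 24814564184) (nat_lit 0) (nat_lit 97217627834) (nat_lit 152) (nat_lit 46518101576) (nat_lit 176) (nat_lit 3) (nat_lit 176) (nat_lit 1) (nat_lit 178) (nat_lit 1) (nat_lit 254) (nat_lit 408) (nat_lit 358))) (XT.nd (nat_lit 78) (nat_lit 76) (nat_lit 0) (XT.lf (nat_lit 76) (nat_lit 111762931849) (nat_lit 0) (nat_lit 13904695607) (nat_lit 152) (nat_lit 38535247755) (nat_lit 175) (nat_lit 1) (nat_lit 174) (nat_lit 1) (nat_lit 176) (nat_lit 1) (nat_lit 255) (nat_lit 408) (nat_lit 357)) (XT.lf (nat_lit 0) (nat_lit 34886515656) (nat_lit 0) (nat_lit 94004570109)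 (nat_lit 152) (nat_lit 31070323503) (nat_lit 173) (nat_lit 3) (nat_lit 173) (nat_lit 1) (nat_lit 175) (nat_lit 1) (nat_lit 256) (nat_lit 408) (nat_lit 356)))))) (XT.nd (nat_lit 546) (nat_lit 760) (nat_lit 0) (XT.nd (nat_lit 234) (nat_lit 532) (nat_lit 0) (XT.nd (nat_lit 78) (nat_lit 228) (nat_lit 0) (XT.lf (nat_lit 76) (nat_lit 117090354145) (nat_lit 0) (nat_lit 15217215342) (nat_lit 152) (nat_lit 23543647856) (nat_lit 172) (nat_lit 1) (nat_lit 171) (nat_lit 1) (nat_lit 173) (nat_lit 1) (nat_lit 257) (nat_lit 408) (nat_lit 355)) (XT.nd (nat_lit 78) (nat_lit 152) (nat_lit 0) (XT.lf (nat_lit 0) (nat_lit 43447225101) (nat_lit 0) (nat_lit 91717894685) (nat_lit 152) (nat_lit 16667980912) (nat_lit 170) (nat_lit 3) (nat_lit 170) (nat_lit 1) (nat_lit 172) (nat_lit 1) (nat_lit 258) (nat_lit 408) (nat_lit 354)) (XT.lf (nat_lit 76) (nat_lit 121214612696) (nat_lit 0) (nat_lit 17109472196) (nat_lit 152) (nat_lit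 9620646426) (nat_lit 169) (nat_lit 1) (nat_lit 168) (nat_lit 1) (nat_lit 170) (nat_lit 1) (nat_lit 259) (nat_lit 408) (nat_lit 353)))) (XT.nd (nat_lit 156) (nat_lit 228) (nat_lit 0) (XT.nd (nat_lit 78) (nat_lit 228) (nat_lit 0) (XT.lf (nat_lit 0) (nat_lit 50701339929) (nat_lit 0) (nat_lit 90114976992) (nat_lit 152) (nat_lit 3320484609) (nat_lit 167) (nat_lit 3) (nat_lit 167) (nat_lit 1) (nat_lit 169) (nat_lit 1) (nat_lit 260) (nat_lit 408) (nat_lit 352)) (XT.lf (nat_lit 152) (nat_lit 121020457090) (nat_lit 0) (nat_lit 3343934879) (nat_lit 76) (nat_lit 16089256960) (nat_lit 166) (nat_lit 1) (nat_lit 164) (nat_lit 1) (nat_lit 165) (nat_lit 1) (nat_lit 261) (nat_lit 408) (nat_lit 351))) (XT.nd (nat_lit 78) (nat_lit 152) (nat_lit 0) (XT.lf (nat_lit 76) (nat_lit 47690008863) (nat_lit 0) (nat_lit 9277354507) (nat_lit 76) (nat_lit 79871762296) (nat_lit 164) (nat_lit 3) (nat_lit 163) (nat_lit 1) (nat_lit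 164) (nat_lit 1) (nat_lit 262) (nat_lit 408) (nat_lit 350)) (XT.lf (nat_lit 152) (nat_lit 111230502637) (nat_lit 0) (nat_lit 15544476728) (nat_lit 76) (nat_lit 6573765502) (nat_lit 163) (nat_lit 1) (nat_lit 161) (nat_lit 1) (nat_lit 162) (nat_lit 1) (nat_lit 263) (nat_lit 408) (nat_lit 349))))) (XT.nd (nat_lit 234) (nat_lit 456) (nat_lit 0) (XT.nd (nat_lit 78) (nat_lit 228) (nat_lit 0) (XT.lf (nat_lit 76) (nat_lit 41359270329) (nat_lit 0) (nat_lit 20926075219) (nat_lit 76) (nat_lit 67636095589) (nat_lit 161) (nat_lit 3) (nat_lit 160) (nat_lit 1) (nat_lit 161) (nat_lit 1) (nat_lit 264) (nat_lit 408) (nat_lit 348)) (XT.nd (nat_lit 78) (nat_lit 76) (nat_lit 0) (XT.lf (nat_lit 0) (nat_lit 1745706069) (nat_lit 0) (nat_lit 24917509649) (nat_lit 152) (nat_lit 99950173658) (nat_lit 158) (nat_lit 3) (nat_lit 158) (nat_lit 1) (nat_lit 160) (nat_lit 1) (nat_lit 265) (nat_lit 408) (nat_lit 347)) (XT.lf (nat_lit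 76) (nat_lit 35180266363) (nat_lit 0) (nat_lit 31548338049) (nat_lit 76) (nat_lit 56635640048) (nat_lit 158) (nat_lit 3) (nat_lit 157) (nat_lit 1) (nat_lit 158) (nat_lit 1) (nat_lit 266) (nat_lit 408) (nat_lit 346)))) (XT.nd (nat_lit 156) (nat_lit 228) (nat_lit 0) (XT.nd (nat_lit 78) (nat_lit 76) (nat_lit 0) (XT.lf (nat_lit 0) (nat_lit 8878278228) (nat_lit 0) (nat_lit 27798360843) (nat_lit 152) (nat_lit 83546756236) (nat_lit 155) (nat_lit 3) (nat_lit 155) (nat_lit 1) (nat_lit 157) (nat_lit 1) (nat_lit 267) (nat_lit 408) (nat_lit 345)) (XT.lf (nat_lit 76) (nat_lit 29222257106) (nat_lit 0) (nat_lit 41183892513) (nat_lit 76) (nat_lit 46740852120) (nat_lit 155) (nat_lit 3) (nat_lit 154) (nat_lit 1) (nat_lit 155) (nat_lit 1) (nat_lit 268) (nat_lit 408) (nat_lit 344))) (XT.nd (nat_lit 78) (nat_lit 76) (nat_lit 0) (XT.lf (nat_lit 0) (nat_lit 15143048494) (nat_lit 0) (nat_lit 30591544979) (nat_lit 152)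 (nat_lit 68429500977) (nat_lit 152) (nat_lit 3) (nat_lit 152) (nat_lit 1) (nat_lit 154) (nat_lit 1) (nat_lit 269) (nat_lit 408) (nat_lit 343)) (XT.lf (nat_lit 76) (nat_lit 23534485413) (nat_lit 0) (nat_lit 49877512731) (nat_lit 76) (nat_lit 37838648825) (nat_lit 152) (nat_lit 3) (nat_lit 151) (nat_lit 1) (nat_lit 152) (nat_lit 1) (nat_lit 270) (nat_lit 408) (nat_lit 342))))))) (XT.nd (nat_lit 1014) (nat_lit 1596) (nat_lit 0) (XT.nd (nat_lit 468) (nat_lit 912) (nat_lit 0) (XT.nd (nat_lit 234) (nat_lit 304) (nat_lit 0) (XT.nd (nat_lit 78) (nat_lit 228) (nat_lit 0) (XT.lf (nat_lit 0) (nat_lit 20634651625) (nat_lit 0) (nat_lit 33248552341) (nat_lit 152) (nat_lit 54533870001) (nat_lit 149) (nat_lit 3) (nat_lit 149) (nat_lit 1) (nat_lit 151) (nat_lit 1) (nat_lit 271) (nat_lit 408) (nat_lit 341)) (XT.nd (nat_lit 78) (nat_lit 152) (nat_lit 0) (XT.lf (nat_lit 76) (nat_lit 18150344904) (nat_lit 0) (nat_lit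 57677201710) (nat_lit 76) (nat_lit 29829882603) (nat_lit 149) (nat_lit 3) (nat_lit 148) (nat_lit 1) (nat_lit 149) (nat_lit 1) (nat_lit 272) (nat_lit 408) (nat_lit 340)) (XT.lf (nat_lit 0) (nat_lit 25435822633) (nat_lit 0) (nat_lit 35735238594) (nat_lit 152) (nat_lit 41794106259) (nat_lit 146) (nat_lit 3) (nat_lit 146) (nat_lit 1) (nat_lit 148) (nat_lit 1) (nat_lit 273) (nat_lit 408) (nat_lit 339)))) (XT.nd (nat_lit 78) (nat_lit 228) (nat_lit 0) (XT.lf (nat_lit 76) (nat_lit 13090751599) (nat_lit 0) (nat_lit 64632782455) (nat_lit 76) (nat_lit 22627247860) (nat_lit 146) (nat_lit 3) (nat_lit 145) (nat_lit 1) (nat_lit 146) (nat_lit 1) (nat_lit 274) (nat_lit 408) (nat_lit 338)) (XT.nd (nat_lit 78) (nat_lit 76) (nat_lit 0) (XT.lf (nat_lit 0) (nat_lit 29619189163) (nat_lit 0) (nat_lit 38028797859) (nat_lit 152) (nat_lit 30144347441) (nat_lit 143) (nat_lit 3) (nat_lit 143) (nat_lit 1) (nat_lit 145) (nat_lit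 1) (nat_lit 275) (nat_lit 408) (nat_lit 337)) (XT.lf (nat_lit 76) (nat_lit 8366867216) (nat_lit 0) (nat_lit 70794801343) (nat_lit 76) (nat_lit 16153541934) (nat_lit 143) (nat_lit 3) (nat_lit 142) (nat_lit 1) (nat_lit 143) (nat_lit 1) (nat_lit 276) (nat_lit 408) (nat_lit 336))))) (XT.nd (nat_lit 234) (nat_lit 532) (nat_lit 0) (XT.nd (nat_lit 78) (nat_lit 228) (nat_lit 0) (XT.lf (nat_lit 0) (nat_lit 33248760792) (nat_lit 0) (nat_lit 40115316980) (nat_lit 152) (nat_lit 19519478399) (nat_lit 140) (nat_lit 3) (nat_lit 140) (nat_lit 1) (nat_lit 142) (nat_lit 1) (nat_lit 277) (nat_lit 408) (nat_lit 335)) (XT.nd (nat_lit 78) (nat_lit 152) (nat_lit 0) (XT.lf (nat_lit 76) (nat_lit 3982294913) (nat_lit 0) (nat_lit 76213683087) (nat_lit 76) (nat_lit 10340217310) (nat_lit 140) (nat_lit 3) (nat_lit 139) (nat_lit 1) (nat_lit 140) (nat_lit 1) (nat_lit 278) (nat_lit 408) (nat_lit 334)) (XT.lf (nat_lit 0) (nat_lit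 36381169218) (nat_lit 0) (nat_lit 41987802725) (nat_lit 152) (nat_lit 9855773606) (nat_lit 137) (nat_lit 3) (nat_lit 137) (nat_lit 1) (nat_lit 139) (nat_lit 1) (nat_lit 279) (nat_lit 408) (nat_lit 333)))) (XT.nd (nat_lit 156) (nat_lit 304) (nat_lit 0) (XT.nd (nat_lit 78) (nat_lit 76) (nat_lit 0) (XT.lf (nat_lit 76) (nat_lit 80874951213) (nat_lit 0) (nat_lit 63068652) (nat_lit 152) (nat_lit 5062036584) (nat_lit 136) (nat_lit 1) (nat_lit 135) (nat_lit 1) (nat_lit 137) (nat_lit 1) (nat_lit 280) (nat_lit 408) (nat_lit 332)) (XT.lf (nat_lit 0) (nat_lit 39066703554) (nat_lit 0) (nat_lit 43644593608) (nat_lit 152) (nat_lit 1091371478) (nat_lit 134) (nat_lit 3) (nat_lit 134) (nat_lit 1) (nat_lit 136) (nat_lit 1) (nat_lit 281) (nat_lit 408) (nat_lit 331))) (XT.nd (nat_lit 78) (nat_lit 76) (nat_lit 0) (XT.lf (nat_lit 152) (nat_lit 77974873439) (nat_lit 0) (nat_lit 3374245501) (nat_lit 76) (nat_lit 339428932)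 (nat_lit 133) (nat_lit 1) (nat_lit 131) (nat_lit 1) (nat_lit 132) (nat_lit 1) (nat_lit 282) (nat_lit 408) (nat_lit 330)) (XT.lf (nat_lit 76) (nat_lit 34401064707) (nat_lit 0) (nat_lit 7059328053) (nat_lit 76) (nat_lit 38138972191) (nat_lit 131) (nat_lit 3) (nat_lit 130) (nat_lit 1) (nat_lit 131) (nat_lit 1) (nat_lit 283) (nat_lit 408) (nat_lit 329)))))) (XT.nd (nat_lit 546) (nat_lit 760) (nat_lit 0) (XT.nd (nat_lit 234) (nat_lit 456) (nat_lit 0) (XT.nd (nat_lit 78) (nat_lit 228) (nat_lit 0) (XT.lf (nat_lit 0) (nat_lit 3888856260) (nat_lit 0) (nat_lit 7185070972) (nat_lit 152) (nat_lit 66514853373) (nat_lit 128) (nat_lit 3) (nat_lit 128) (nat_lit 1) (nat_lit 130) (nat_lit 1) (nat_lit 284) (nat_lit 408) (nat_lit 328)) (XT.nd (nat_lit 78) (nat_lit 152) (nat_lit 0) (XT.lf (nat_lit 76) (nat_lit 29059250954) (nat_lit 0) (nat_lit 14437817431) (nat_lit 76) (nat_lit 32111301614) (nat_lit 128) (nat_lit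 3) (nat_lit 127) (nat_lit 1) (nat_lit 128) (nat_lit 1) (nat_lit 285) (nat_lit 408) (nat_lit 327)) (XT.lf (nat_lit 0) (nat_lit 7652113158) (nat_lit 0) (nat_lit 10343515857) (nat_lit 152) (nat_lit 55701025725) (nat_lit 125) (nat_lit 3) (nat_lit 125) (nat_lit 1) (nat_lit 127) (nat_lit 1) (nat_lit 286) (nat_lit 408) (nat_lit 326)))) (XT.nd (nat_lit 156) (nat_lit 228) (nat_lit 0) (XT.nd (nat_lit 78) (nat_lit 152) (nat_lit 0) (XT.lf (nat_lit 76) (nat_lit 24131486784) (nat_lit 0) (nat_lit 21064450434) (nat_lit 76) (nat_lit 26623526319) (nat_lit 125) (nat_lit 3) (nat_lit 124) (nat_lit 1) (nat_lit 125) (nat_lit 1) (nat_lit 287) (nat_lit 408) (nat_lit 325)) (XT.lf (nat_lit 0) (nat_lit 11000957976) (nat_lit 0) (nat_lit 13198523704) (nat_lit 152) (nat_lit 45802146991) (nat_lit 122) (nat_lit 3) (nat_lit 122) (nat_lit 1) (nat_lit 124) (nat_lit 1) (nat_lit 288) (nat_lit 408) (nat_lit 324))) (XT.nd (nat_lit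 78) (nat_lit 152) (nat_lit 0) (XT.lf (nat_lit 76) (nat_lit 19597238830) (nat_lit 0) (nat_lit 26992908464) (nat_lit 76) (nat_lit 21632021911) (nat_lit 122) (nat_lit 3) (nat_lit 121) (nat_lit 1) (nat_lit 122) (nat_lit 1) (nat_lit 289) (nat_lit 408) (nat_lit 323)) (XT.lf (nat_lit 0) (nat_lit 13971477891) (nat_lit 0) (nat_lit 15765819233) (nat_lit 152) (nat_lit 36756201905) (nat_lit 119) (nat_lit 3) (nat_lit 119) (nat_lit 1) (nat_lit 121) (nat_lit 1) (nat_lit 290) (nat_lit 408) (nat_lit 322))))) (XT.nd (nat_lit 234) (nat_lit 456) (nat_lit 0) (XT.nd (nat_lit 78) (nat_lit 228) (nat_lit 0) (XT.lf (nat_lit 76) (nat_lit 15435541007) (nat_lit 0) (nat_lit 32274082563) (nat_lit 76) (nat_lit 17096968175) (nat_lit 119) (nat_lit 3) (nat_lit 118) (nat_lit 1) (nat_lit 119) (nat_lit 1) (nat_lit 291) (nat_lit 408) (nat_lit 321)) (XT.nd (nat_lit 78) (nat_lit 76) (nat_lit 0) (XT.lf (nat_lit 0) (nat_lit 16596509494)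 (nat_lit 0) (nat_lit 18061612817) (nat_lit 152) (nat_lit 28504502618) (nat_lit 116) (nat_lit 3) (nat_lit 116) (nat_lit 1) (nat_lit 118) (nat_lit 1) (nat_lit 292) (nat_lit 408) (nat_lit 320)) (XT.lf (nat_lit 76) (nat_lit 11625359405) (nat_lit 0) (nat_lit 36956082354) (nat_lit 76) (nat_lit 12981936556) (nat_lit 116) (nat_lit 3) (nat_lit 115) (nat_lit 1) (nat_lit 116) (nat_lit 1) (nat_lit 293) (nat_lit 408) (nat_lit 319)))) (XT.nd (nat_lit 156) (nat_lit 228) (nat_lit 0) (XT.nd (nat_lit 78) (nat_lit 76) (nat_lit 0) (XT.lf (nat_lit 0) (nat_lit 18905994260) (nat_lit 0) (nat_lit 20102270407) (nat_lit 152) (nat_lit 20991626481) (nat_lit 113) (nat_lit 3) (nat_lit 113) (nat_lit 1) (nat_lit 115) (nat_lit 1) (nat_lit 294) (nat_lit 408) (nat_lit 318)) (XT.lf (nat_lit 76) (nat_lit 8145871956) (nat_lit 0) (nat_lit 41084276430) (nat_lit 76) (nat_lit 9253535055) (nat_lit 113) (nat_lit 3) (nat_lit 112) (nat_lit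 1) (nat_lit 113) (nat_lit 1) (nat_lit 295) (nat_lit 408) (nat_lit 317))) (XT.nd (nat_lit 78) (nat_lit 76) (nat_lit 0) (XT.lf (nat_lit 0) (nat_lit 20927284676) (nat_lit 0) (nat_lit 21904059895) (nat_lit 152) (nat_lit 14165330110) (nat_lit 110) (nat_lit 3) (nat_lit 110) (nat_lit 1) (nat_lit 112) (nat_lit 1) (nat_lit 296) (nat_lit 408) (nat_lit 316)) (XT.lf (nat_lit 76) (nat_lit 4976679630) (nat_lit 0) (nat_lit 44701356355) (nat_lit 76) (nat_lit 5881101130) (nat_lit 110) (nat_lit 3) (nat_lit 109) (nat_lit 1) (nat_lit 110) (nat_lit 1) (nat_lit 297) (nat_lit 408) (nat_lit 315))))))))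
noncomputable def ec212 : XT := (XT.nd (nat_lit 2028) (nat_lit 3192) (nat_lit 0) (XT.nd (nat_lit 1014) (nat_lit 1596) (nat_lit 0) (XT.nd (nat_lit 468) (nat_lit 760) (nat_lit 0) (XT.nd (nat_lit 234) (nat_lit 456) (nat_lit 0) (XT.nd (nat_lit 78) (nat_lit 228) (nat_lit 0) (XT.lf (nat_lit 0) (nat_lit 22685409085) (nat_lit 0) (nat_lit 23482958908) (nat_lit 152) (nat_lit 7976446233) (nat_lit 107) (nat_lit 3) (nat_lit 107) (nat_lit 1) (nat_lit 109) (nat_lit 1) (nat_lit 298) (nat_lit 408) (nat_lit 314)) (XT.nd (nat_lit 78) (nat_lit 152) (nat_lit 0) (XT.lf (nat_lit 76) (nat_lit 2097962791) (nat_lit 0) (nat_lit 47847418001) (nat_lit 76) (nat_lit 2836434849) (nat_lit 107) (nat_lit 3) (nat_lit 106) (nat_lit 1) (nat_lit 107) (nat_lit 1) (nat_lit 299) (nat_lit 408) (nat_lit 313)) (XT.lf (nat_lit 0) (nat_lit 24203301880) (nat_lit 0) (nat_lit 24854511809) (nat_lit 152) (nat_lit 2378768531) (nat_lit 104) (nat_lit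 3) (nat_lit 104) (nat_lit 1) (nat_lit 106) (nat_lit 1) (nat_lit 300) (nat_lit 408) (nat_lit 312)))) (XT.nd (nat_lit 78) (nat_lit 228) (nat_lit 0) (XT.lf (nat_lit 152) (nat_lit 49643807385) (nat_lit 0) (nat_lit 421373645) (nat_lit 76) (nat_lit 78307233) (nat_lit 103) (nat_lit 1) (nat_lit 101) (nat_lit 1) (nat_lit 102) (nat_lit 1) (nat_lit 301) (nat_lit 408) (nat_lit 311)) (XT.nd (nat_lit 78) (nat_lit 152) (nat_lit 0) (XT.lf (nat_lit 76) (nat_lit 22785697227) (nat_lit 0) (nat_lit 2759389099) (nat_lit 76) (nat_lit 23317418705) (nat_lit 101) (nat_lit 3) (nat_lit 100) (nat_lit 1) (nat_lit 101) (nat_lit 1) (nat_lit 302) (nat_lit 408) (nat_lit 310)) (XT.lf (nat_lit 0) (nat_lit 2426084734) (nat_lit 0) (nat_lit 2894974926) (nat_lit 152) (nat_lit 42309787862) (nat_lit 98) (nat_lit 3) (nat_lit 98) (nat_lit 1) (nat_lit 100) (nat_lit 1) (nat_lit 303) (nat_lit 408) (nat_lit 309))))) (XT.nd (nat_lit 234) (nat_lit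 456) (nat_lit 0) (XT.nd (nat_lit 78) (nat_lit 228) (nat_lit 0) (XT.lf (nat_lit 76) (nat_lit 19264942083) (nat_lit 0) (nat_lit 7452250383) (nat_lit 76) (nat_lit 19699099669) (nat_lit 98) (nat_lit 3) (nat_lit 97) (nat_lit 1) (nat_lit 98) (nat_lit 1) (nat_lit 304) (nat_lit 408) (nat_lit 308)) (XT.nd (nat_lit 78) (nat_lit 76) (nat_lit 0) (XT.lf (nat_lit 0) (nat_lit 4668675134) (nat_lit 0) (nat_lit 5051530147) (nat_lit 152) (nat_lit 35524600733) (nat_lit 95) (nat_lit 3) (nat_lit 95) (nat_lit 1) (nat_lit 97) (nat_lit 1) (nat_lit 305) (nat_lit 408) (nat_lit 307)) (XT.lf (nat_lit 76) (nat_lit 16039131748) (nat_lit 0) (nat_lit 11660499338) (nat_lit 76) (nat_lit 16393627130) (nat_lit 95) (nat_lit 3) (nat_lit 94) (nat_lit 1) (nat_lit 95) (nat_lit 1) (nat_lit 306) (nat_lit 408) (nat_lit 306)))) (XT.nd (nat_lit 156) (nat_lit 228) (nat_lit 0) (XT.nd (nat_lit 78) (nat_lit 76) (nat_lit 0) (XT.lf (nat_lit 0)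 (nat_lit 6672600191) (nat_lit 0) (nat_lit 6985206349) (nat_lit 152) (nat_lit 29321172756) (nat_lit 92) (nat_lit 3) (nat_lit 92) (nat_lit 1) (nat_lit 94) (nat_lit 1) (nat_lit 307) (nat_lit 408) (nat_lit 305)) (XT.lf (nat_lit 76) (nat_lit 13088375990) (nat_lit 0) (nat_lit 15420941313) (nat_lit 76) (nat_lit 13377826136) (nat_lit 92) (nat_lit 3) (nat_lit 91) (nat_lit 1) (nat_lit 92) (nat_lit 1) (nat_lit 308) (nat_lit 408) (nat_lit 304))) (XT.nd (nat_lit 78) (nat_lit 76) (nat_lit 0) (XT.lf (nat_lit 0) (nat_lit 8456942839) (nat_lit 0) (nat_lit 8712189882) (nat_lit 152) (nat_lit 23658124237) (nat_lit 89) (nat_lit 3) (nat_lit 89) (nat_lit 1) (nat_lit 91) (nat_lit 1) (nat_lit 309) (nat_lit 408) (nat_lit 303)) (XT.lf (nat_lit 76) (nat_lit 10393844952) (nat_lit 0) (nat_lit 18767982947) (nat_lit 76) (nat_lit 10630184806) (nat_lit 89) (nat_lit 3) (nat_lit 88) (nat_lit 1) (nat_lit 89) (nat_lit 1) (nat_lit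 310) (nat_lit 408) (nat_lit 302)))))) (XT.nd (nat_lit 468) (nat_lit 912) (nat_lit 0) (XT.nd (nat_lit 234) (nat_lit 304) (nat_lit 0) (XT.nd (nat_lit 78) (nat_lit 228) (nat_lit 0) (XT.lf (nat_lit 0) (nat_lit 10039363975) (nat_lit 0) (nat_lit 10247776544) (nat_lit 152) (nat_lit 18496704711) (nat_lit 86) (nat_lit 3) (nat_lit 86) (nat_lit 1) (nat_lit 88) (nat_lit 1) (nat_lit 311) (nat_lit 408) (nat_lit 301)) (XT.nd (nat_lit 78) (nat_lit 152) (nat_lit 0) (XT.lf (nat_lit 76) (nat_lit 7937750429) (nat_lit 0) (nat_lit 21733762331) (nat_lit 76) (nat_lit 8130725030) (nat_lit 86) (nat_lit 3) (nat_lit 85) (nat_lit 1) (nat_lit 86) (nat_lit 1) (nat_lit 312) (nat_lit 408) (nat_lit 300)) (XT.lf (nat_lit 0) (nat_lit 11436214902) (nat_lit 0) (nat_lit 11606386508) (nat_lit 152) (nat_lit 13800648252) (nat_lit 83) (nat_lit 3) (nat_lit 83) (nat_lit 1) (nat_lit 85) (nat_lit 1) (nat_lit 313) (nat_lit 408) (nat_lit 299))))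 (XT.nd (nat_lit 78) (nat_lit 228) (nat_lit 0) (XT.lf (nat_lit 76) (nat_lit 5703319342) (nat_lit 0) (nat_lit 24348275670) (nat_lit 76) (nat_lit 5860885644) (nat_lit 83) (nat_lit 3) (nat_lit 82) (nat_lit 1) (nat_lit 83) (nat_lit 1) (nat_lit 314) (nat_lit 408) (nat_lit 298)) (XT.nd (nat_lit 78) (nat_lit 76) (nat_lit 0) (XT.lf (nat_lit 0) (nat_lit 12662638927) (nat_lit 0) (nat_lit 12801586284) (nat_lit 152) (nat_lit 9536033707) (nat_lit 80) (nat_lit 3) (nat_lit 80) (nat_lit 1) (nat_lit 82) (nat_lit 1) (nat_lit 315) (nat_lit 408) (nat_lit 297)) (XT.lf (nat_lit 76) (nat_lit 3674761515) (nat_lit 0) (nat_lit 26639499809) (nat_lit 76) (nat_lit 3803416475) (nat_lit 80) (nat_lit 3) (nat_lit 79) (nat_lit 1) (nat_lit 80) (nat_lit 1) (nat_lit 316) (nat_lit 408) (nat_lit 296))))) (XT.nd (nat_lit 234) (nat_lit 532) (nat_lit 0) (XT.nd (nat_lit 78) (nat_lit 228) (nat_lit 0) (XT.lf (nat_lit 0) (nat_lit 13732663475)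 (nat_lit 0) (nat_lit 13846115820) (nat_lit 152) (nat_lit 5671150260) (nat_lit 77) (nat_lit 3) (nat_lit 77) (nat_lit 1) (nat_lit 79) (nat_lit 1) (nat_lit 317) (nat_lit 408) (nat_lit 295)) (XT.nd (nat_lit 78) (nat_lit 152) (nat_lit 0) (XT.lf (nat_lit 76) (nat_lit 1837233453) (nat_lit 0) (nat_lit 28633510174) (nat_lit 76) (nat_lit 1942281920) (nat_lit 77) (nat_lit 3) (nat_lit 76) (nat_lit 1) (nat_lit 77) (nat_lit 1) (nat_lit 318) (nat_lit 408) (nat_lit 294)) (XT.lf (nat_lit 0) (nat_lit 14659283893) (nat_lit 0) (nat_lit 14751919226) (nat_lit 152) (nat_lit 2176368618) (nat_lit 74) (nat_lit 3) (nat_lit 74) (nat_lit 1) (nat_lit 76) (nat_lit 1) (nat_lit 319) (nat_lit 408) (nat_lit 293)))) (XT.nd (nat_lit 156) (nat_lit 228) (nat_lit 0) (XT.nd (nat_lit 78) (nat_lit 228) (nat_lit 0) (XT.lf (nat_lit 76) (nat_lit 176799476) (nat_lit 0) (nat_lit 30354593856) (nat_lit 76) (nat_lit 262572933) (nat_lit 74) (nat_lit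 3) (nat_lit 73) (nat_lit 1) (nat_lit 74) (nat_lit 1) (nat_lit 320) (nat_lit 408) (nat_lit 292)) (XT.lf (nat_lit 76) (nat_lit 14462029171) (nat_lit 0) (nat_lit 1008252401) (nat_lit 76) (nat_lit 14537667140) (nat_lit 71) (nat_lit 3) (nat_lit 70) (nat_lit 1) (nat_lit 71) (nat_lit 1) (nat_lit 321) (nat_lit 408) (nat_lit 291))) (XT.nd (nat_lit 78) (nat_lit 76) (nat_lit 0) (XT.lf (nat_lit 0) (nat_lit 1272299951) (nat_lit 0) (nat_lit 1339000100) (nat_lit 152) (nat_lit 26640763801) (nat_lit 68) (nat_lit 3) (nat_lit 68) (nat_lit 1) (nat_lit 70) (nat_lit 1) (nat_lit 322) (nat_lit 408) (nat_lit 290)) (XT.lf (nat_lit 76) (nat_lit 12253300947) (nat_lit 0) (nat_lit 3937764295) (nat_lit 76) (nat_lit 12315060344) (nat_lit 68) (nat_lit 3) (nat_lit 67) (nat_lit 1) (nat_lit 68) (nat_lit 1) (nat_lit 323) (nat_lit 408) (nat_lit 289))))))) (XT.nd (nat_lit 1014) (nat_lit 1672) (nat_lit 0) (XT.nd (nat_lit 468) (nat_lit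 836) (nat_lit 0) (XT.nd (nat_lit 234) (nat_lit 304) (nat_lit 0) (XT.nd (nat_lit 78) (nat_lit 228) (nat_lit 0) (XT.lf (nat_lit 0) (nat_lit 2651617481) (nat_lit 0) (nat_lit 2706079031) (nat_lit 152) (nat_lit 22429416756) (nat_lit 65) (nat_lit 3) (nat_lit 65) (nat_lit 1) (nat_lit 67) (nat_lit 1) (nat_lit 324) (nat_lit 408) (nat_lit 288)) (XT.nd (nat_lit 78) (nat_lit 152) (nat_lit 0) (XT.lf (nat_lit 76) (nat_lit 10232150504) (nat_lit 0) (nat_lit 6565103094) (nat_lit 76) (nat_lit 10282577864) (nat_lit 65) (nat_lit 3) (nat_lit 64) (nat_lit 1) (nat_lit 65) (nat_lit 1) (nat_lit 325) (nat_lit 408) (nat_lit 287)) (XT.lf (nat_lit 0) (nat_lit 3885987225) (nat_lit 0) (nat_lit 3930455797) (nat_lit 152) (nat_lit 18579442514) (nat_lit 62) (nat_lit 3) (nat_lit 62) (nat_lit 1) (nat_lit 64) (nat_lit 1) (nat_lit 326) (nat_lit 408) (nat_lit 286)))) (XT.nd (nat_lit 78) (nat_lit 228) (nat_lit 0) (XT.lf (nat_lit 76)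 (nat_lit 8385291842) (nat_lit 0) (nat_lit 8913487636) (nat_lit 76) (nat_lit 8426466446) (nat_lit 62) (nat_lit 3) (nat_lit 61) (nat_lit 1) (nat_lit 62) (nat_lit 1) (nat_lit 327) (nat_lit 408) (nat_lit 285)) (XT.nd (nat_lit 78) (nat_lit 76) (nat_lit 0) (XT.lf (nat_lit 0) (nat_lit 4986724128) (nat_lit 0) (nat_lit 5023033303) (nat_lit 152) (nat_lit 15064891979) (nat_lit 59) (nat_lit 3) (nat_lit 59) (nat_lit 1) (nat_lit 61) (nat_lit 1) (nat_lit 328) (nat_lit 408) (nat_lit 284)) (XT.lf (nat_lit 76) (nat_lit 6700280697) (nat_lit 0) (nat_lit 11004562458) (nat_lit 76) (nat_lit 6733900303) (nat_lit 59) (nat_lit 3) (nat_lit 58) (nat_lit 1) (nat_lit 59) (nat_lit 1) (nat_lit 329) (nat_lit 408) (nat_lit 283))))) (XT.nd (nat_lit 234) (nat_lit 456) (nat_lit 0) (XT.nd (nat_lit 78) (nat_lit 228) (nat_lit 0) (XT.lf (nat_lit 0) (nat_lit 5964349714) (nat_lit 0) (nat_lit 5993996633) (nat_lit 152) (nat_lit 11861517706)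 (nat_lit 56) (nat_lit 3) (nat_lit 56) (nat_lit 1) (nat_lit 58) (nat_lit 1) (nat_lit 330) (nat_lit 408) (nat_lit 282)) (XT.nd (nat_lit 78) (nat_lit 152) (nat_lit 0) (XT.lf (nat_lit 76) (nat_lit 5165468405) (nat_lit 0) (nat_lit 12858495675) (nat_lit 76) (nat_lit 5192919255) (nat_lit 56) (nat_lit 3) (nat_lit 55) (nat_lit 1) (nat_lit 56) (nat_lit 1) (nat_lit 331) (nat_lit 408) (nat_lit 281)) (XT.lf (nat_lit 0) (nat_lit 6828646174) (nat_lit 0) (nat_lit 6852853273) (nat_lit 152) (nat_lit 8946669710) (nat_lit 53) (nat_lit 3) (nat_lit 53) (nat_lit 1) (nat_lit 55) (nat_lit 1) (nat_lit 332) (nat_lit 408) (nat_lit 280)))) (XT.nd (nat_lit 156) (nat_lit 228) (nat_lit 0) (XT.nd (nat_lit 78) (nat_lit 152) (nat_lit 0) (XT.lf (nat_lit 76) (nat_lit 3769957304) (nat_lit 0) (nat_lit 14494071440) (nat_lit 76) (nat_lit 3792371285) (nat_lit 53) (nat_lit 3) (nat_lit 52) (nat_lit 1) (nat_lit 53) (nat_lit 1) (nat_lit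 333) (nat_lit 408) (nat_lit 279)) (XT.lf (nat_lit 0) (nat_lit 7588706555) (nat_lit 0) (nat_lit 7608471970) (nat_lit 152) (nat_lit 6299197066) (nat_lit 50) (nat_lit 3) (nat_lit 50) (nat_lit 1) (nat_lit 52) (nat_lit 1) (nat_lit 334) (nat_lit 408) (nat_lit 278))) (XT.nd (nat_lit 78) (nat_lit 152) (nat_lit 0) (XT.lf (nat_lit 76) (nat_lit 2503557826) (nat_lit 0) (nat_lit 15928777207) (nat_lit 76) (nat_lit 2521859136) (nat_lit 50) (nat_lit 3) (nat_lit 49) (nat_lit 1) (nat_lit 50) (nat_lit 1) (nat_lit 335) (nat_lit 408) (nat_lit 277)) (XT.lf (nat_lit 0) (nat_lit 8252981392) (nat_lit 0) (nat_lit 8269120114) (nat_lit 152) (nat_lit 3899355062) (nat_lit 47) (nat_lit 3) (nat_lit 47) (nat_lit 1) (nat_lit 49) (nat_lit 1) (nat_lit 336) (nat_lit 408) (nat_lit 276)))))) (XT.nd (nat_lit 546) (nat_lit 760) (nat_lit 0) (XT.nd (nat_lit 234) (nat_lit 608) (nat_lit 0) (XT.nd (nat_lit 78) (nat_lit 228) (nat_lit 0) (XT.lf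 (nat_lit 76) (nat_lit 1356747350) (nat_lit 0) (nat_lit 17178886009) (nat_lit 76) (nat_lit 1371690611) (nat_lit 47) (nat_lit 3) (nat_lit 46) (nat_lit 1) (nat_lit 47) (nat_lit 1) (nat_lit 337) (nat_lit 408) (nat_lit 275)) (XT.nd (nat_lit 78) (nat_lit 76) (nat_lit 0) (XT.lf (nat_lit 0) (nat_lit 8829322062) (nat_lit 0) (nat_lit 8842499541) (nat_lit 152) (nat_lit 1728717663) (nat_lit 44) (nat_lit 3) (nat_lit 44) (nat_lit 1) (nat_lit 46) (nat_lit 1) (nat_lit 338) (nat_lit 408) (nat_lit 274)) (XT.lf (nat_lit 76) (nat_lit 320630894) (nat_lit 0) (nat_lit 18259533969) (nat_lit 76) (nat_lit 332832263) (nat_lit 44) (nat_lit 3) (nat_lit 43) (nat_lit 1) (nat_lit 44) (nat_lit 1) (nat_lit 339) (nat_lit 408) (nat_lit 273)))) (XT.nd (nat_lit 156) (nat_lit 228) (nat_lit 0) (XT.nd (nat_lit 78) (nat_lit 152) (nat_lit 0) (XT.lf (nat_lit 76) (nat_lit 9091222630) (nat_lit 0) (nat_lit 237506662) (nat_lit 76) (nat_lit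 9101982214) (nat_lit 41) (nat_lit 3) (nat_lit 40) (nat_lit 1) (nat_lit 41) (nat_lit 1) (nat_lit 340) (nat_lit 408) (nat_lit 272)) (XT.lf (nat_lit 0) (nat_lit 613340081) (nat_lit 0) (nat_lit 622828251) (nat_lit 152) (nat_lit 16730448445) (nat_lit 38) (nat_lit 3) (nat_lit 38) (nat_lit 1) (nat_lit 40) (nat_lit 1) (nat_lit 341) (nat_lit 408) (nat_lit 271))) (XT.nd (nat_lit 78) (nat_lit 152) (nat_lit 0) (XT.lf (nat_lit 76) (nat_lit 7720561208) (nat_lit 0) (nat_lit 2058426632) (nat_lit 76) (nat_lit 7729346550) (nat_lit 38) (nat_lit 3) (nat_lit 37) (nat_lit 1) (nat_lit 38) (nat_lit 1) (nat_lit 342) (nat_lit 408) (nat_lit 270)) (XT.lf (nat_lit 0) (nat_lit 1467983413) (nat_lit 0) (nat_lit 1475730628) (nat_lit 152) (nat_lit 14123157057) (nat_lit 35) (nat_lit 3) (nat_lit 35) (nat_lit 1) (nat_lit 37) (nat_lit 1) (nat_lit 343) (nat_lit 408) (nat_lit 269))))) (XT.nd (nat_lit 234) (nat_lit 456) (nat_lit 0)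 (XT.nd (nat_lit 78) (nat_lit 228) (nat_lit 0) (XT.lf (nat_lit 76) (nat_lit 6466418390) (nat_lit 0) (nat_lit 3692323067) (nat_lit 76) (nat_lit 6473591738) (nat_lit 35) (nat_lit 3) (nat_lit 34) (nat_lit 1) (nat_lit 35) (nat_lit 1) (nat_lit 344) (nat_lit 408) (nat_lit 268)) (XT.nd (nat_lit 78) (nat_lit 76) (nat_lit 0) (XT.lf (nat_lit 0) (nat_lit 2233454249) (nat_lit 0) (nat_lit 2239779952) (nat_lit 152) (nat_lit 11739160008) (nat_lit 32) (nat_lit 3) (nat_lit 32) (nat_lit 1) (nat_lit 34) (nat_lit 1) (nat_lit 345) (nat_lit 408) (nat_lit 267)) (XT.lf (nat_lit 76) (nat_lit 5320460878) (nat_lit 0) (nat_lit 5153585703) (nat_lit 76) (nat_lit 5326318011) (nat_lit 32) (nat_lit 3) (nat_lit 31) (nat_lit 1) (nat_lit 32) (nat_lit 1) (nat_lit 346) (nat_lit 408) (nat_lit 266)))) (XT.nd (nat_lit 156) (nat_lit 228) (nat_lit 0) (XT.nd (nat_lit 78) (nat_lit 76) (nat_lit 0) (XT.lf (nat_lit 0) (nat_lit 2916664544) (nat_lit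 0) (nat_lit 2921829564) (nat_lit 152) (nat_lit 9562403067) (nat_lit 29) (nat_lit 3) (nat_lit 29) (nat_lit 1) (nat_lit 31) (nat_lit 1) (nat_lit 347) (nat_lit 408) (nat_lit 265)) (XT.lf (nat_lit 76) (nat_lit 4274900571) (nat_lit 0) (nat_lit 6455620767) (nat_lit 76) (nat_lit 4279682997) (nat_lit 29) (nat_lit 3) (nat_lit 28) (nat_lit 1) (nat_lit 29) (nat_lit 1) (nat_lit 348) (nat_lit 408) (nat_lit 264))) (XT.nd (nat_lit 78) (nat_lit 76) (nat_lit 0) (XT.lf (nat_lit 0) (nat_lit 3524049243) (nat_lit 0) (nat_lit 3528266550) (nat_lit 152) (nat_lit 7577891650) (nat_lit 26) (nat_lit 3) (nat_lit 26) (nat_lit 1) (nat_lit 28) (nat_lit 1) (nat_lit 349) (nat_lit 408) (nat_lit 263)) (XT.lf (nat_lit 76) (nat_lit 3322461240) (nat_lit 0) (nat_lit 7610913763) (nat_lit 76) (nat_lit 3326366154) (nat_lit 26) (nat_lit 3) (nat_lit 25) (nat_lit 1) (nat_lit 26) (nat_lit 1) (nat_lit 350) (nat_lit 408) (nat_lit 262))))))))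
noncomputable def ec213 : XT := (XT.nd (nat_lit 2106) (nat_lit 0) (nat_lit 0) (XT.nd (nat_lit 1014) (nat_lit 304) (nat_lit 0) (XT.nd (nat_lit 468) (nat_lit 912) (nat_lit 0) (XT.nd (nat_lit 234) (nat_lit 304) (nat_lit 0) (XT.nd (nat_lit 78) (nat_lit 228) (nat_lit 0) (XT.lf (nat_lit 0) (nat_lit 4061597440) (nat_lit 0) (nat_lit 4065040927) (nat_lit 152) (nat_lit 5771624530) (nat_lit 23) (nat_lit 3) (nat_lit 23) (nat_lit 1) (nat_lit 25) (nat_lit 1) (nat_lit 351) (nat_lit 408) (nat_lit 261)) (XT.nd (nat_lit 78) (nat_lit 152) (nat_lit 0) (XT.lf (nat_lit 76) (nat_lit 2456347062) (nat_lit 0) (nat_lit 8631088455) (nat_lit 76) (nat_lit 2459535475) (nat_lit 23) (nat_lit 3) (nat_lit 22) (nat_lit 1) (nat_lit 23) (nat_lit 1) (nat_lit 352) (nat_lit 408) (nat_lit 260)) (XT.lf (nat_lit 0) (nat_lit 4534881513) (nat_lit 0) (nat_lit 4537693165) (nat_lit 152) (nat_lit 4130531501) (nat_lit 20) (nat_lit 3) (nat_lit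 20) (nat_lit 1) (nat_lit 22) (nat_lit 1) (nat_lit 353) (nat_lit 408) (nat_lit 259)))) (XT.nd (nat_lit 78) (nat_lit 228) (nat_lit 0) (XT.lf (nat_lit 76) (nat_lit 1670212915) (nat_lit 0) (nat_lit 9526962284) (nat_lit 76) (nat_lit 1672816297) (nat_lit 20) (nat_lit 3) (nat_lit 19) (nat_lit 1) (nat_lit 20) (nat_lit 1) (nat_lit 354) (nat_lit 408) (nat_lit 258)) (XT.nd (nat_lit 78) (nat_lit 76) (nat_lit 0) (XT.lf (nat_lit 0) (nat_lit 4949084404) (nat_lit 0) (nat_lit 4951380155) (nat_lit 152) (nat_lit 2642414796) (nat_lit 17) (nat_lit 3) (nat_lit 17) (nat_lit 1) (nat_lit 19) (nat_lit 1) (nat_lit 355) (nat_lit 408) (nat_lit 257)) (XT.lf (nat_lit 76) (nat_lit 958136373) (nat_lit 0) (nat_lit 10308598397) (nat_lit 76) (nat_lit 960262068) (nat_lit 17) (nat_lit 3) (nat_lit 16) (nat_lit 1) (nat_lit 17) (nat_lit 1) (nat_lit 356) (nat_lit 408) (nat_lit 256))))) (XT.nd (nat_lit 234) (nat_lit 532) (nat_lit 0) (XT.nd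 (nat_lit 78) (nat_lit 228) (nat_lit 0) (XT.lf (nat_lit 0) (nat_lit 5309025142) (nat_lit 0) (nat_lit 5310899653) (nat_lit 152) (nat_lit 1295894020) (nat_lit 14) (nat_lit 3) (nat_lit 14) (nat_lit 1) (nat_lit 16) (nat_lit 1) (nat_lit 357) (nat_lit 408) (nat_lit 255)) (XT.nd (nat_lit 78) (nat_lit 152) (nat_lit 0) (XT.lf (nat_lit 76) (nat_lit 314591315) (nat_lit 0) (nat_lit 10985354494) (nat_lit 76) (nat_lit 316326973) (nat_lit 14) (nat_lit 3) (nat_lit 13) (nat_lit 1) (nat_lit 14) (nat_lit 1) (nat_lit 358) (nat_lit 408) (nat_lit 254)) (XT.lf (nat_lit 0) (nat_lit 5619182736) (nat_lit 0) (nat_lit 5620713299) (nat_lit 152) (nat_lit 80354421) (nat_lit 11) (nat_lit 3) (nat_lit 11) (nat_lit 1) (nat_lit 13) (nat_lit 1) (nat_lit 359) (nat_lit 408) (nat_lit 253)))) (XT.nd (nat_lit 156) (nat_lit 228) (nat_lit 0) (XT.nd (nat_lit 78) (nat_lit 76) (nat_lit 0) (XT.lf (nat_lit 0) (nat_lit 268535585) (nat_lit 0)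 (nat_lit 269885288) (nat_lit 152) (nat_lit 10496923388) (nat_lit 8) (nat_lit 3) (nat_lit 8) (nat_lit 1) (nat_lit 10) (nat_lit 1) (nat_lit 360) (nat_lit 408) (nat_lit 252)) (XT.lf (nat_lit 76) (nat_lit 4852442541) (nat_lit 0) (nat_lit 1047632482) (nat_lit 76) (nat_lit 4853692266) (nat_lit 8) (nat_lit 3) (nat_lit 7) (nat_lit 1) (nat_lit 8) (nat_lit 1) (nat_lit 361) (nat_lit 408) (nat_lit 251))) (XT.nd (nat_lit 78) (nat_lit 76) (nat_lit 0) (XT.lf (nat_lit 0) (nat_lit 798940387) (nat_lit 0) (nat_lit 800042437) (nat_lit 152) (nat_lit 8883709242) (nat_lit 5) (nat_lit 3) (nat_lit 5) (nat_lit 1) (nat_lit 7) (nat_lit 1) (nat_lit 362) (nat_lit 408) (nat_lit 250)) (XT.lf (nat_lit 76) (nat_lit 4075981496) (nat_lit 0) (nat_lit 2062720575) (nat_lit 76) (nat_lit 4077001912) (nat_lit 5) (nat_lit 3) (nat_lit 4) (nat_lit 1) (nat_lit 5) (nat_lit 1) (nat_lit 363) (nat_lit 408) (nat_lit 249)))))) (XT.nd (nat_lit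 546) (nat_lit 0) (nat_lit 0) (XT.nd (nat_lit 234) (nat_lit 0) (nat_lit 0) (XT.nd (nat_lit 78) (nat_lit 152) (nat_lit 0) (XT.lf (nat_lit 0) (nat_lit 1274321864) (nat_lit 0) (nat_lit 1275221703) (nat_lit 152) (nat_lit 7408301374) (nat_lit 2) (nat_lit 3) (nat_lit 2) (nat_lit 1) (nat_lit 4) (nat_lit 1) (nat_lit 364) (nat_lit 408) (nat_lit 248)) (XT.nd (nat_lit 78) (nat_lit 76) (nat_lit 0) (XT.lf (nat_lit 76) (nat_lit 3366359082) (nat_lit 0) (nat_lit 2971134984) (nat_lit 76) (nat_lit 3367192265) (nat_lit 2) (nat_lit 3) (nat_lit 1) (nat_lit 1) (nat_lit 2) (nat_lit 1) (nat_lit 365) (nat_lit 408) (nat_lit 247)) (XT.lf (nat_lit 0) (nat_lit 201241207544) (nat_lit 0) (nat_lit 0) (nat_lit 0) (nat_lit 0) (nat_lit 0) (nat_lit 0) (nat_lit 1) (nat_lit 0) (nat_lit 1) (nat_lit 0) (nat_lit 366) (nat_lit 408) (nat_lit 246)))) (XT.nd (nat_lit 156) (nat_lit 0) (nat_lit 0) (XT.nd (nat_lit 78) (nat_lit 0) (nat_lit 0)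 (XT.lf (nat_lit 0) (nat_lit 201241150168) (nat_lit 0) (nat_lit 0) (nat_lit 0) (nat_lit 0) (nat_lit 0) (nat_lit 0) (nat_lit 1) (nat_lit 0) (nat_lit 1) (nat_lit 0) (nat_lit 367) (nat_lit 408) (nat_lit 245)) (XT.lf (nat_lit 0) (nat_lit 201241097041) (nat_lit 0) (nat_lit 0) (nat_lit 0) (nat_lit 0) (nat_lit 0) (nat_lit 0) (nat_lit 1) (nat_lit 0) (nat_lit 1) (nat_lit 0) (nat_lit 368) (nat_lit 408) (nat_lit 244))) (XT.nd (nat_lit 78) (nat_lit 0) (nat_lit 0) (XT.lf (nat_lit 0) (nat_lit 201241047850) (nat_lit 0) (nat_lit 0) (nat_lit 0) (nat_lit 0) (nat_lit 0) (nat_lit 0) (nat_lit 1) (nat_lit 0) (nat_lit 1) (nat_lit 0) (nat_lit 369) (nat_lit 408) (nat_lit 243)) (XT.lf (nat_lit 0) (nat_lit 201241002303) (nat_lit 0) (nat_lit 0) (nat_lit 0) (nat_lit 0) (nat_lit 0) (nat_lit 0) (nat_lit 1) (nat_lit 0) (nat_lit 1) (nat_lit 0) (nat_lit 370) (nat_lit 408) (nat_lit 242))))) (XT.nd (nat_lit 234) (nat_lit 0) (nat_lit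 0) (XT.nd (nat_lit 78) (nat_lit 0) (nat_lit 0) (XT.lf (nat_lit 0) (nat_lit 201240960130) (nat_lit 0) (nat_lit 0) (nat_lit 0) (nat_lit 0) (nat_lit 0) (nat_lit 0) (nat_lit 1) (nat_lit 0) (nat_lit 1) (nat_lit 0) (nat_lit 371) (nat_lit 408) (nat_lit 241)) (XT.nd (nat_lit 78) (nat_lit 0) (nat_lit 0) (XT.lf (nat_lit 0) (nat_lit 201240921080) (nat_lit 0) (nat_lit 0) (nat_lit 0) (nat_lit 0) (nat_lit 0) (nat_lit 0) (nat_lit 1) (nat_lit 0) (nat_lit 1) (nat_lit 0) (nat_lit 372) (nat_lit 408) (nat_lit 240)) (XT.lf (nat_lit 0) (nat_lit 201240884923) (nat_lit 0) (nat_lit 0) (nat_lit 0) (nat_lit 0) (nat_lit 0) (nat_lit 0) (nat_lit 1) (nat_lit 0) (nat_lit 1) (nat_lit 0) (nat_lit 373) (nat_lit 408) (nat_lit 239)))) (XT.nd (nat_lit 156) (nat_lit 0) (nat_lit 0) (XT.nd (nat_lit 78) (nat_lit 0) (nat_lit 0) (XT.lf (nat_lit 0) (nat_lit 201240851445) (nat_lit 0) (nat_lit 0) (nat_lit 0) (nat_lit 0) (nat_lit 0) (nat_lit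 0) (nat_lit 1) (nat_lit 0) (nat_lit 1) (nat_lit 0) (nat_lit 374) (nat_lit 408) (nat_lit 238)) (XT.lf (nat_lit 0) (nat_lit 201240820446) (nat_lit 0) (nat_lit 0) (nat_lit 0) (nat_lit 0) (nat_lit 0) (nat_lit 0) (nat_lit 1) (nat_lit 0) (nat_lit 1) (nat_lit 0) (nat_lit 375) (nat_lit 408) (nat_lit 237))) (XT.nd (nat_lit 78) (nat_lit 0) (nat_lit 0) (XT.lf (nat_lit 0) (nat_lit 201240791744) (nat_lit 0) (nat_lit 0) (nat_lit 0) (nat_lit 0) (nat_lit 0) (nat_lit 0) (nat_lit 1) (nat_lit 0) (nat_lit 1) (nat_lit 0) (nat_lit 376) (nat_lit 408) (nat_lit 236)) (XT.lf (nat_lit 0) (nat_lit 201240765167) (nat_lit 0) (nat_lit 0) (nat_lit 0) (nat_lit 0) (nat_lit 0) (nat_lit 0) (nat_lit 1) (nat_lit 0) (nat_lit 1) (nat_lit 0) (nat_lit 377) (nat_lit 408) (nat_lit 235))))))) (XT.nd (nat_lit 1014) (nat_lit 0) (nat_lit 0) (XT.nd (nat_lit 468) (nat_lit 0) (nat_lit 0) (XT.nd (nat_lit 234) (nat_lit 0) (nat_lit 0) (XT.nd (nat_lit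 78) (nat_lit 0) (nat_lit 0) (XT.lf (nat_lit 0) (nat_lit 201240740560) (nat_lit 0) (nat_lit 0) (nat_lit 0) (nat_lit 0) (nat_lit 0) (nat_lit 0) (nat_lit 1) (nat_lit 0) (nat_lit 1) (nat_lit 0) (nat_lit 378) (nat_lit 408) (nat_lit 234)) (XT.nd (nat_lit 78) (nat_lit 0) (nat_lit 0) (XT.lf (nat_lit 0) (nat_lit 201240717775) (nat_lit 0) (nat_lit 0) (nat_lit 0) (nat_lit 0) (nat_lit 0) (nat_lit 0) (nat_lit 1) (nat_lit 0) (nat_lit 1) (nat_lit 0) (nat_lit 379) (nat_lit 408) (nat_lit 233)) (XT.lf (nat_lit 0) (nat_lit 201240696678) (nat_lit 0) (nat_lit 0) (nat_lit 0) (nat_lit 0) (nat_lit 0) (nat_lit 0) (nat_lit 1) (nat_lit 0) (nat_lit 1) (nat_lit 0) (nat_lit 380) (nat_lit 408) (nat_lit 232)))) (XT.nd (nat_lit 78) (nat_lit 0) (nat_lit 0) (XT.lf (nat_lit 0) (nat_lit 201240677143) (nat_lit 0) (nat_lit 0) (nat_lit 0) (nat_lit 0) (nat_lit 0) (nat_lit 0) (nat_lit 1) (nat_lit 0) (nat_lit 1) (nat_lit 0) (nat_lit 381)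 (nat_lit 408) (nat_lit 231)) (XT.nd (nat_lit 78) (nat_lit 0) (nat_lit 0) (XT.lf (nat_lit 0) (nat_lit 201240659056) (nat_lit 0) (nat_lit 0) (nat_lit 0) (nat_lit 0) (nat_lit 0) (nat_lit 0) (nat_lit 1) (nat_lit 0) (nat_lit 1) (nat_lit 0) (nat_lit 382) (nat_lit 408) (nat_lit 230)) (XT.lf (nat_lit 0) (nat_lit 201240642308) (nat_lit 0) (nat_lit 0) (nat_lit 0) (nat_lit 0) (nat_lit 0) (nat_lit 0) (nat_lit 1) (nat_lit 0) (nat_lit 1) (nat_lit 0) (nat_lit 383) (nat_lit 408) (nat_lit 229))))) (XT.nd (nat_lit 234) (nat_lit 0) (nat_lit 0) (XT.nd (nat_lit 78) (nat_lit 0) (nat_lit 0) (XT.lf (nat_lit 0) (nat_lit 201240626801) (nat_lit 0) (nat_lit 0) (nat_lit 0) (nat_lit 0) (nat_lit 0) (nat_lit 0) (nat_lit 1) (nat_lit 0) (nat_lit 1) (nat_lit 0) (nat_lit 384) (nat_lit 408) (nat_lit 228)) (XT.nd (nat_lit 78) (nat_lit 0) (nat_lit 0) (XT.lf (nat_lit 0) (nat_lit 201240612443) (nat_lit 0) (nat_lit 0) (nat_lit 0) (nat_lit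 0) (nat_lit 0) (nat_lit 0) (nat_lit 1) (nat_lit 0) (nat_lit 1) (nat_lit 0) (nat_lit 385) (nat_lit 408) (nat_lit 227)) (XT.lf (nat_lit 0) (nat_lit 201240599148) (nat_lit 0) (nat_lit 0) (nat_lit 0) (nat_lit 0) (nat_lit 0) (nat_lit 0) (nat_lit 1) (nat_lit 0) (nat_lit 1) (nat_lit 0) (nat_lit 386) (nat_lit 408) (nat_lit 226)))) (XT.nd (nat_lit 156) (nat_lit 0) (nat_lit 0) (XT.nd (nat_lit 78) (nat_lit 0) (nat_lit 0) (XT.lf (nat_lit 0) (nat_lit 201240586838) (nat_lit 0) (nat_lit 0) (nat_lit 0) (nat_lit 0) (nat_lit 0) (nat_lit 0) (nat_lit 1) (nat_lit 0) (nat_lit 1) (nat_lit 0) (nat_lit 387) (nat_lit 408) (nat_lit 225)) (XT.lf (nat_lit 0) (nat_lit 201240575440) (nat_lit 0) (nat_lit 0) (nat_lit 0) (nat_lit 0) (nat_lit 0) (nat_lit 0) (nat_lit 1) (nat_lit 0) (nat_lit 1) (nat_lit 0) (nat_lit 388) (nat_lit 408) (nat_lit 224))) (XT.nd (nat_lit 78) (nat_lit 0) (nat_lit 0) (XT.lf (nat_lit 0) (nat_lit 201240564886)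 (nat_lit 0) (nat_lit 0) (nat_lit 0) (nat_lit 0) (nat_lit 0) (nat_lit 0) (nat_lit 1) (nat_lit 0) (nat_lit 1) (nat_lit 0) (nat_lit 389) (nat_lit 408) (nat_lit 223)) (XT.lf (nat_lit 0) (nat_lit 201240555114) (nat_lit 0) (nat_lit 0) (nat_lit 0) (nat_lit 0) (nat_lit 0) (nat_lit 0) (nat_lit 1) (nat_lit 0) (nat_lit 1) (nat_lit 0) (nat_lit 390) (nat_lit 408) (nat_lit 222)))))) (XT.nd (nat_lit 546) (nat_lit 0) (nat_lit 0) (XT.nd (nat_lit 234) (nat_lit 0) (nat_lit 0) (XT.nd (nat_lit 78) (nat_lit 0) (nat_lit 0) (XT.lf (nat_lit 0) (nat_lit 201240546066) (nat_lit 0) (nat_lit 0) (nat_lit 0) (nat_lit 0) (nat_lit 0) (nat_lit 0) (nat_lit 1) (nat_lit 0) (nat_lit 1) (nat_lit 0) (nat_lit 391) (nat_lit 408) (nat_lit 221)) (XT.nd (nat_lit 78) (nat_lit 0) (nat_lit 0) (XT.lf (nat_lit 0) (nat_lit 201240537688) (nat_lit 0) (nat_lit 0) (nat_lit 0) (nat_lit 0) (nat_lit 0) (nat_lit 0) (nat_lit 1) (nat_lit 0) (nat_lit 1)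 (nat_lit 0) (nat_lit 392) (nat_lit 408) (nat_lit 220)) (XT.lf (nat_lit 0) (nat_lit 201240529930) (nat_lit 0) (nat_lit 0) (nat_lit 0) (nat_lit 0) (nat_lit 0) (nat_lit 0) (nat_lit 1) (nat_lit 0) (nat_lit 1) (nat_lit 0) (nat_lit 393) (nat_lit 408) (nat_lit 219)))) (XT.nd (nat_lit 156) (nat_lit 0) (nat_lit 0) (XT.nd (nat_lit 78) (nat_lit 0) (nat_lit 0) (XT.lf (nat_lit 0) (nat_lit 201240522747) (nat_lit 0) (nat_lit 0) (nat_lit 0) (nat_lit 0) (nat_lit 0) (nat_lit 0) (nat_lit 1) (nat_lit 0) (nat_lit 1) (nat_lit 0) (nat_lit 394) (nat_lit 408) (nat_lit 218)) (XT.lf (nat_lit 0) (nat_lit 201240516097) (nat_lit 0) (nat_lit 0) (nat_lit 0) (nat_lit 0) (nat_lit 0) (nat_lit 0) (nat_lit 1) (nat_lit 0) (nat_lit 1) (nat_lit 0) (nat_lit 395) (nat_lit 408) (nat_lit 217))) (XT.nd (nat_lit 78) (nat_lit 0) (nat_lit 0) (XT.lf (nat_lit 0) (nat_lit 201240509939) (nat_lit 0) (nat_lit 0) (nat_lit 0) (nat_lit 0) (nat_lit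 0) (nat_lit 0) (nat_lit 1) (nat_lit 0) (nat_lit 1) (nat_lit 0) (nat_lit 396) (nat_lit 408) (nat_lit 216)) (XT.lf (nat_lit 0) (nat_lit 201240504237) (nat_lit 0) (nat_lit 0) (nat_lit 0) (nat_lit 0) (nat_lit 0) (nat_lit 0) (nat_lit 1) (nat_lit 0) (nat_lit 1) (nat_lit 0) (nat_lit 397) (nat_lit 408) (nat_lit 215))))) (XT.nd (nat_lit 234) (nat_lit 0) (nat_lit 0) (XT.nd (nat_lit 78) (nat_lit 0) (nat_lit 0) (XT.lf (nat_lit 0) (nat_lit 201240498957) (nat_lit 0) (nat_lit 0) (nat_lit 0) (nat_lit 0) (nat_lit 0) (nat_lit 0) (nat_lit 1) (nat_lit 0) (nat_lit 1) (nat_lit 0) (nat_lit 398) (nat_lit 408) (nat_lit 214)) (XT.nd (nat_lit 78) (nat_lit 0) (nat_lit 0) (XT.lf (nat_lit 0) (nat_lit 201240494069) (nat_lit 0) (nat_lit 0) (nat_lit 0) (nat_lit 0) (nat_lit 0) (nat_lit 0) (nat_lit 1) (nat_lit 0) (nat_lit 1) (nat_lit 0) (nat_lit 399) (nat_lit 408) (nat_lit 213)) (XT.lf (nat_lit 0) (nat_lit 201240489542) (nat_lit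 0) (nat_lit 0) (nat_lit 0) (nat_lit 0) (nat_lit 0) (nat_lit 0) (nat_lit 1) (nat_lit 0) (nat_lit 1) (nat_lit 0) (nat_lit 400) (nat_lit 408) (nat_lit 212)))) (XT.nd (nat_lit 156) (nat_lit 0) (nat_lit 0) (XT.nd (nat_lit 78) (nat_lit 0) (nat_lit 0) (XT.lf (nat_lit 0) (nat_lit 201240485351) (nat_lit 0) (nat_lit 0) (nat_lit 0) (nat_lit 0) (nat_lit 0) (nat_lit 0) (nat_lit 1) (nat_lit 0) (nat_lit 1) (nat_lit 0) (nat_lit 401) (nat_lit 408) (nat_lit 211)) (XT.lf (nat_lit 0) (nat_lit 201240481471) (nat_lit 0) (nat_lit 0) (nat_lit 0) (nat_lit 0) (nat_lit 0) (nat_lit 0) (nat_lit 1) (nat_lit 0) (nat_lit 1) (nat_lit 0) (nat_lit 402) (nat_lit 408) (nat_lit 210))) (XT.nd (nat_lit 78) (nat_lit 0) (nat_lit 0) (XT.lf (nat_lit 0) (nat_lit 201240477878) (nat_lit 0) (nat_lit 0) (nat_lit 0) (nat_lit 0) (nat_lit 0) (nat_lit 0) (nat_lit 1) (nat_lit 0) (nat_lit 1) (nat_lit 0) (nat_lit 403) (nat_lit 408) (nat_lit 209))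 (XT.lf (nat_lit 0) (nat_lit 201240474551) (nat_lit 0) (nat_lit 0) (nat_lit 0) (nat_lit 0) (nat_lit 0) (nat_lit 0) (nat_lit 1) (nat_lit 0) (nat_lit 1) (nat_lit 0) (nat_lit 404) (nat_lit 408) (nat_lit 208))))))))
noncomputable def ec214 : XT := (XT.nd (nat_lit 38532) (nat_lit 0) (nat_lit 14288) (XT.nd (nat_lit 37518) (nat_lit 0) (nat_lit 19228) (XT.nd (nat_lit 468) (nat_lit 0) (nat_lit 0) (XT.nd (nat_lit 234) (nat_lit 0) (nat_lit 0) (XT.nd (nat_lit 78) (nat_lit 0) (nat_lit 0) (XT.lf (nat_lit 0) (nat_lit 201240471470) (nat_lit 0) (nat_lit 0) (nat_lit 0) (nat_lit 0) (nat_lit 0) (nat_lit 0) (nat_lit 1) (nat_lit 0) (nat_lit 1) (nat_lit 0) (nat_lit 405) (nat_lit 408) (nat_lit 207)) (XT.nd (nat_lit 78) (nat_lit 0) (nat_lit 0) (XT.lf (nat_lit 0) (nat_lit 201240468618) (nat_lit 0) (nat_lit 0) (nat_lit 0) (nat_lit 0) (nat_lit 0) (nat_lit 0) (nat_lit 1) (nat_lit 0) (nat_lit 1) (nat_lit 0) (nat_lit 406) (nat_lit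 408) (nat_lit 206)) (XT.lf (nat_lit 0) (nat_lit 201240465977) (nat_lit 0) (nat_lit 0) (nat_lit 0) (nat_lit 0) (nat_lit 0) (nat_lit 0) (nat_lit 1) (nat_lit 0) (nat_lit 1) (nat_lit 0) (nat_lit 407) (nat_lit 408) (nat_lit 205)))) (XT.nd (nat_lit 78) (nat_lit 0) (nat_lit 0) (XT.lf (nat_lit 0) (nat_lit 201240463531) (nat_lit 0) (nat_lit 0) (nat_lit 0) (nat_lit 0) (nat_lit 0) (nat_lit 0) (nat_lit 1) (nat_lit 0) (nat_lit 1) (nat_lit 0) (nat_lit 408) (nat_lit 408) (nat_lit 204)) (XT.nd (nat_lit 78) (nat_lit 0) (nat_lit 0) (XT.lf (nat_lit 0) (nat_lit 201240461267) (nat_lit 0) (nat_lit 0) (nat_lit 0) (nat_lit 0) (nat_lit 0) (nat_lit 0) (nat_lit 1) (nat_lit 0) (nat_lit 1) (nat_lit 0) (nat_lit 409) (nat_lit 408) (nat_lit 203)) (XT.lf (nat_lit 0) (nat_lit 201240459170) (nat_lit 0) (nat_lit 0) (nat_lit 0) (nat_lit 0) (nat_lit 0) (nat_lit 0) (nat_lit 1) (nat_lit 0) (nat_lit 1) (nat_lit 0) (nat_lit 410) (nat_lit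 408) (nat_lit 202))))) (XT.nd (nat_lit 234) (nat_lit 0) (nat_lit 0) (XT.nd (nat_lit 78) (nat_lit 0) (nat_lit 0) (XT.lf (nat_lit 0) (nat_lit 201240457229) (nat_lit 0) (nat_lit 0) (nat_lit 0) (nat_lit 0) (nat_lit 0) (nat_lit 0) (nat_lit 1) (nat_lit 0) (nat_lit 1) (nat_lit 0) (nat_lit 411) (nat_lit 408) (nat_lit 201)) (XT.nd (nat_lit 78) (nat_lit 0) (nat_lit 0) (XT.lf (nat_lit 0) (nat_lit 201240455431) (nat_lit 0) (nat_lit 0) (nat_lit 0) (nat_lit 0) (nat_lit 0) (nat_lit 0) (nat_lit 1) (nat_lit 0) (nat_lit 1) (nat_lit 0) (nat_lit 412) (nat_lit 408) (nat_lit 200)) (XT.lf (nat_lit 0) (nat_lit 201240453767) (nat_lit 0) (nat_lit 0) (nat_lit 0) (nat_lit 0) (nat_lit 0) (nat_lit 0) (nat_lit 1) (nat_lit 0) (nat_lit 1) (nat_lit 0) (nat_lit 413) (nat_lit 408) (nat_lit 199)))) (XT.nd (nat_lit 36660) (nat_lit 0) (nat_lit 22268) (XT.nd (nat_lit 36582) (nat_lit 0) (nat_lit 22192) (XT.lf (nat_lit 0) (nat_lit 201240452226)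 (nat_lit 0) (nat_lit 0) (nat_lit 0) (nat_lit 0) (nat_lit 0) (nat_lit 0) (nat_lit 1) (nat_lit 0) (nat_lit 1) (nat_lit 0) (nat_lit 414) (nat_lit 408) (nat_lit 198)) (XT.lf (nat_lit 836) (nat_lit 108764910689) (nat_lit 0) (nat_lit 193111848923) (nat_lit 836) (nat_lit 108764910689) (nat_lit 303) (nat_lit 1) (nat_lit 292) (nat_lit 0) (nat_lit 303) (nat_lit 0) (nat_lit 202) (nat_lit 409) (nat_lit 409))) (XT.nd (nat_lit 78) (nat_lit 0) (nat_lit 0) (XT.lf (nat_lit 836) (nat_lit 40572649044) (nat_lit 0) (nat_lit 379137087055) (nat_lit 760) (nat_lit 370794804471) (nat_lit 304) (nat_lit 1) (nat_lit 293) (nat_lit 1) (nat_lit 303) (nat_lit 1) (nat_lit 203) (nat_lit 409) (nat_lit 408)) (XT.lf (nat_lit 836) (nat_lit 372636362603) (nat_lit 76) (nat_lit 253908234999) (nat_lit 0) (nat_lit 134661345540) (nat_lit 304) (nat_lit 1) (nat_lit 294) (nat_lit 1) (nat_lit 293) (nat_lit 1) (nat_lit 204) (nat_lit 409) (nat_lit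 407)))))) (XT.nd (nat_lit 468) (nat_lit 2052) (nat_lit 0) (XT.nd (nat_lit 234) (nat_lit 1064) (nat_lit 0) (XT.nd (nat_lit 78) (nat_lit 0) (nat_lit 76) (XT.lf (nat_lit 836) (nat_lit 321988344099) (nat_lit 76) (nat_lit 106411181362) (nat_lit 0) (nat_lit 304973996381) (nat_lit 305) (nat_lit 1) (nat_lit 295) (nat_lit 1) (nat_lit 294) (nat_lit 1) (nat_lit 205) (nat_lit 409) (nat_lit 406)) (XT.nd (nat_lit 78) (nat_lit 0) (nat_lit 76) (XT.lf (nat_lit 836) (nat_lit 238298749132) (nat_lit 0) (nat_lit 445845695732) (nat_lit 760) (nat_lit 22791568267) (nat_lit 306) (nat_lit 1) (nat_lit 295) (nat_lit 1) (nat_lit 305) (nat_lit 1) (nat_lit 206) (nat_lit 409) (nat_lit 405)) (XT.lf (nat_lit 836) (nat_lit 57177448399) (nat_lit 0) (nat_lit 491668740282) (nat_lit 760) (nat_lit 132914891839) (nat_lit 307) (nat_lit 1) (nat_lit 296) (nat_lit 1) (nat_lit 306) (nat_lit 1) (nat_lit 207) (nat_lit 409) (nat_lit 404))))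 (XT.nd (nat_lit 78) (nat_lit 1216) (nat_lit 0) (XT.lf (nat_lit 836) (nat_lit 109871799787) (nat_lit 76) (nat_lit 427300173609) (nat_lit 0) (nat_lit 120589380875) (nat_lit 307) (nat_lit 1) (nat_lit 297) (nat_lit 1) (nat_lit 296) (nat_lit 1) (nat_lit 208) (nat_lit 409) (nat_lit 403)) (XT.nd (nat_lit 78) (nat_lit 532) (nat_lit 0) (XT.lf (nat_lit 836) (nat_lit 22565162263) (nat_lit 0) (nat_lit 319435144593) (nat_lit 760) (nat_lit 292918680602) (nat_lit 298) (nat_lit 1) (nat_lit 287) (nat_lit 1) (nat_lit 297) (nat_lit 1) (nat_lit 209) (nat_lit 409) (nat_lit 402)) (XT.lf (nat_lit 76) (nat_lit 156245884019) (nat_lit 0) (nat_lit 67708612640) (nat_lit 532) (nat_lit 389203687997) (nat_lit 281) (nat_lit 1) (nat_lit 280) (nat_lit 1) (nat_lit 287) (nat_lit 1) (nat_lit 210) (nat_lit 409) (nat_lit 401))))) (XT.nd (nat_lit 234) (nat_lit 988) (nat_lit 0) (XT.nd (nat_lit 78) (nat_lit 684) (nat_lit 0) (XT.lf (nat_lit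 456) (nat_lit 430593990187) (nat_lit 0) (nat_lit 140167626663) (nat_lit 380) (nat_lit 21670781164) (nat_lit 281) (nat_lit 1) (nat_lit 275) (nat_lit 1) (nat_lit 280) (nat_lit 1) (nat_lit 211) (nat_lit 409) (nat_lit 400)) (XT.nd (nat_lit 78) (nat_lit 304) (nat_lit 0) (XT.lf (nat_lit 456) (nat_lit 310720723746) (nat_lit 0) (nat_lit 65332734580) (nat_lit 380) (nat_lit 196544324813) (nat_lit 276) (nat_lit 1) (nat_lit 270) (nat_lit 1) (nat_lit 275) (nat_lit 1) (nat_lit 212) (nat_lit 409) (nat_lit 399)) (XT.lf (nat_lit 380) (nat_lit 189069597486) (nat_lit 0) (nat_lit 1202881815) (nat_lit 304) (nat_lit 363452426309) (nat_lit 271) (nat_lit 1) (nat_lit 266) (nat_lit 1) (nat_lit 270) (nat_lit 1) (nat_lit 213) (nat_lit 409) (nat_lit 398)))) (XT.nd (nat_lit 156) (nat_lit 608) (nat_lit 0) (XT.nd (nat_lit 78) (nat_lit 380) (nat_lit 0) (XT.lf (nat_lit 76) (nat_lit 13948661362) (nat_lit 0) (nat_lit 470416450530)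 (nat_lit 380) (nat_lit 51355102255) (nat_lit 267) (nat_lit 1) (nat_lit 266) (nat_lit 1) (nat_lit 271) (nat_lit 1) (nat_lit 214) (nat_lit 409) (nat_lit 397)) (XT.lf (nat_lit 76) (nat_lit 360158054230) (nat_lit 0) (nat_lit 59736066961) (nat_lit 380) (nat_lit 98515623312) (nat_lit 262) (nat_lit 1) (nat_lit 261) (nat_lit 1) (nat_lit 266) (nat_lit 1) (nat_lit 215) (nat_lit 409) (nat_lit 396))) (XT.nd (nat_lit 78) (nat_lit 304) (nat_lit 0) (XT.lf (nat_lit 76) (nat_lit 180196201169) (nat_lit 0) (nat_lit 182982177225) (nat_lit 380) (nat_lit 138685761275) (nat_lit 258) (nat_lit 1) (nat_lit 257) (nat_lit 1) (nat_lit 262) (nat_lit 1) (nat_lit 216) (nat_lit 409) (nat_lit 395)) (XT.lf (nat_lit 76) (nat_lit 8894084911) (nat_lit 0) (nat_lit 305943359011) (nat_lit 380) (nat_lit 171264470621) (nat_lit 254) (nat_lit 1) (nat_lit 253) (nat_lit 1) (nat_lit 258) (nat_lit 1) (nat_lit 217) (nat_lit 409) (nat_lit 394)))))))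 (XT.nd (nat_lit 1014) (nat_lit 1976) (nat_lit 0) (XT.nd (nat_lit 468) (nat_lit 1368) (nat_lit 0) (XT.nd (nat_lit 234) (nat_lit 760) (nat_lit 0) (XT.nd (nat_lit 78) (nat_lit 608) (nat_lit 0) (XT.lf (nat_lit 304) (nat_lit 40165186192) (nat_lit 0) (nat_lit 271617928378) (nat_lit 228) (nat_lit 159174348490) (nat_lit 254) (nat_lit 1) (nat_lit 250) (nat_lit 1) (nat_lit 253) (nat_lit 1) (nat_lit 218) (nat_lit 409) (nat_lit 393)) (XT.nd (nat_lit 78) (nat_lit 228) (nat_lit 0) (XT.lf (nat_lit 76) (nat_lit 138781517097) (nat_lit 0) (nat_lit 95121714169) (nat_lit 380) (nat_lit 222535425059) (nat_lit 246) (nat_lit 1) (nat_lit 245) (nat_lit 1) (nat_lit 250) (nat_lit 1) (nat_lit 219) (nat_lit 409) (nat_lit 392)) (XT.lf (nat_lit 304) (nat_lit 214867169750) (nat_lit 0) (nat_lit 201839935052) (nat_lit 228) (nat_lit 25835272137) (nat_lit 246) (nat_lit 1) (nat_lit 242) (nat_lit 1) (nat_lit 245) (nat_lit 1) (nat_lit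 220) (nat_lit 409) (nat_lit 391)))) (XT.nd (nat_lit 78) (nat_lit 532) (nat_lit 0) (XT.lf (nat_lit 304) (nat_lit 68863889868) (nat_lit 0) (nat_lit 173775918815) (nat_lit 228) (nat_lit 186540326768) (nat_lit 243) (nat_lit 1) (nat_lit 239) (nat_lit 1) (nat_lit 242) (nat_lit 1) (nat_lit 221) (nat_lit 409) (nat_lit 390)) (XT.nd (nat_lit 78) (nat_lit 228) (nat_lit 0) (XT.lf (nat_lit 76) (nat_lit 78488194715) (nat_lit 0) (nat_lit 71862763038) (nat_lit 304) (nat_lit 266021895259) (nat_lit 236) (nat_lit 1) (nat_lit 235) (nat_lit 1) (nat_lit 239) (nat_lit 1) (nat_lit 222) (nat_lit 409) (nat_lit 389)) (XT.lf (nat_lit 304) (nat_lit 195307571000) (nat_lit 0) (nat_lit 129950420205) (nat_lit 228) (nat_lit 78776371983) (nat_lit 236) (nat_lit 1) (nat_lit 232) (nat_lit 1) (nat_lit 235) (nat_lit 1) (nat_lit 223) (nat_lit 409) (nat_lit 388))))) (XT.nd (nat_lit 234) (nat_lit 760) (nat_lit 0) (XT.nd (nat_lit 78) (nat_lit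 456) (nat_lit 0) (XT.lf (nat_lit 228) (nat_lit 48417035235) (nat_lit 0) (nat_lit 113372263019) (nat_lit 152) (nat_lit 230404344212) (nat_lit 233) (nat_lit 1) (nat_lit 230) (nat_lit 1) (nat_lit 232) (nat_lit 1) (nat_lit 224) (nat_lit 409) (nat_lit 387)) (XT.nd (nat_lit 78) (nat_lit 152) (nat_lit 0) (XT.lf (nat_lit 76) (nat_lit 8202155094) (nat_lit 0) (nat_lit 91783896106) (nat_lit 304) (nat_lit 280825848072) (nat_lit 227) (nat_lit 1) (nat_lit 226) (nat_lit 1) (nat_lit 230) (nat_lit 1) (nat_lit 225) (nat_lit 409) (nat_lit 386)) (XT.lf (nat_lit 228) (nat_lit 140691020494) (nat_lit 0) (nat_lit 87919817949) (nat_lit 152) (nat_lit 141180626662) (nat_lit 227) (nat_lit 1) (nat_lit 224) (nat_lit 1) (nat_lit 226) (nat_lit 1) (nat_lit 226) (nat_lit 409) (nat_lit 385)))) (XT.nd (nat_lit 156) (nat_lit 380) (nat_lit 0) (XT.nd (nat_lit 78) (nat_lit 152) (nat_lit 0) (XT.lf (nat_lit 76) (nat_lit 76333068206)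 (nat_lit 0) (nat_lit 3525872277) (nat_lit 228) (nat_lit 279392984228) (nat_lit 222) (nat_lit 1) (nat_lit 221) (nat_lit 1) (nat_lit 224) (nat_lit 1) (nat_lit 227) (nat_lit 409) (nat_lit 384)) (XT.lf (nat_lit 228) (nat_lit 208679868210) (nat_lit 0) (nat_lit 72312253330) (nat_lit 152) (nat_lit 68026850505) (nat_lit 222) (nat_lit 1) (nat_lit 219) (nat_lit 1) (nat_lit 221) (nat_lit 1) (nat_lit 228) (nat_lit 409) (nat_lit 383))) (XT.nd (nat_lit 78) (nat_lit 228) (nat_lit 0) (XT.lf (nat_lit 228) (nat_lit 64824329452) (nat_lit 0) (nat_lit 67222235880) (nat_lit 152) (nat_lit 207130704611) (nat_lit 220) (nat_lit 1) (nat_lit 217) (nat_lit 1) (nat_lit 219) (nat_lit 1) (nat_lit 229) (nat_lit 409) (nat_lit 382)) (XT.lf (nat_lit 228) (nat_lit 257328764314) (nat_lit 0) (nat_lit 64225390287) (nat_lit 152) (nat_lit 8147735880) (nat_lit 217) (nat_lit 1) (nat_lit 214) (nat_lit 1) (nat_lit 216) (nat_lit 1) (nat_lit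 230) (nat_lit 409) (nat_lit 381)))))) (XT.nd (nat_lit 546) (nat_lit 912) (nat_lit 0) (XT.nd (nat_lit 234) (nat_lit 608) (nat_lit 0) (XT.nd (nat_lit 78) (nat_lit 304) (nat_lit 0) (XT.lf (nat_lit 228) (nat_lit 115168428727) (nat_lit 0) (nat_lit 61313594344) (nat_lit 152) (nat_lit 144007778833) (nat_lit 215) (nat_lit 1) (nat_lit 212) (nat_lit 1) (nat_lit 214) (nat_lit 1) (nat_lit 231) (nat_lit 409) (nat_lit 380)) (XT.nd (nat_lit 78) (nat_lit 152) (nat_lit 0) (XT.lf (nat_lit 76) (nat_lit 39449633368) (nat_lit 0) (nat_lit 21683296152) (nat_lit 152) (nat_lit 250526877439) (nat_lit 211) (nat_lit 1) (nat_lit 210) (nat_lit 1) (nat_lit 212) (nat_lit 1) (nat_lit 232) (nat_lit 409) (nat_lit 379)) (XT.lf (nat_lit 228) (nat_lit 151107601907) (nat_lit 0) (nat_lit 60485599844) (nat_lit 152) (nat_lit 91459426787) (nat_lit 211) (nat_lit 1) (nat_lit 208) (nat_lit 1) (nat_lit 210) (nat_lit 1) (nat_lit 233) (nat_lit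 409) (nat_lit 378)))) (XT.nd (nat_lit 156) (nat_lit 304) (nat_lit 0) (XT.nd (nat_lit 78) (nat_lit 228) (nat_lit 0) (XT.lf (nat_lit 152) (nat_lit 16272141513) (nat_lit 0) (nat_lit 61971204340) (nat_lit 76) (nat_lit 216541904593) (nat_lit 209) (nat_lit 1) (nat_lit 207) (nat_lit 1) (nat_lit 208) (nat_lit 1) (nat_lit 234) (nat_lit 409) (nat_lit 377)) (XT.lf (nat_lit 228) (nat_lit 175651760038) (nat_lit 0) (nat_lit 63380004812) (nat_lit 152) (nat_lit 47714064646) (nat_lit 207) (nat_lit 1) (nat_lit 204) (nat_lit 1) (nat_lit 206) (nat_lit 1) (nat_lit 235) (nat_lit 409) (nat_lit 376))) (XT.nd (nat_lit 78) (nat_lit 228) (nat_lit 0) (XT.lf (nat_lit 152) (nat_lit 44177712901) (nat_lit 0) (nat_lit 65749847058) (nat_lit 76) (nat_lit 169049793223) (nat_lit 205) (nat_lit 1) (nat_lit 203) (nat_lit 1) (nat_lit 204) (nat_lit 1) (nat_lit 236) (nat_lit 409) (nat_lit 375)) (XT.lf (nat_lit 228) (nat_lit 191234454649)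 (nat_lit 0) (nat_lit 68920981634) (nat_lit 152) (nat_lit 11310523082) (nat_lit 203) (nat_lit 1) (nat_lit 200) (nat_lit 1) (nat_lit 202) (nat_lit 1) (nat_lit 237) (nat_lit 409) (nat_lit 374))))) (XT.nd (nat_lit 234) (nat_lit 532) (nat_lit 0) (XT.nd (nat_lit 78) (nat_lit 304) (nat_lit 0) (XT.lf (nat_lit 152) (nat_lit 63577789694) (nat_lit 0) (nat_lit 71850951524) (nat_lit 76) (nat_lit 128727184750) (nat_lit 201) (nat_lit 1) (nat_lit 199) (nat_lit 1) (nat_lit 200) (nat_lit 1) (nat_lit 238) (nat_lit 409) (nat_lit 373)) (XT.nd (nat_lit 78) (nat_lit 76) (nat_lit 0) (XT.lf (nat_lit 76) (nat_lit 18351080268) (nat_lit 0) (nat_lit 57599149275) (nat_lit 228) (nat_lit 181158276471) (nat_lit 197) (nat_lit 1) (nat_lit 196) (nat_lit 1) (nat_lit 199) (nat_lit 1) (nat_lit 239) (nat_lit 409) (nat_lit 372)) (XT.lf (nat_lit 152) (nat_lit 76299083795) (nat_lit 0) (nat_lit 79500028820) (nat_lit 76) (nat_lit 94436991780)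 (nat_lit 197) (nat_lit 1) (nat_lit 195) (nat_lit 1) (nat_lit 196) (nat_lit 1) (nat_lit 240) (nat_lit 409) (nat_lit 371)))) (XT.nd (nat_lit 156) (nat_lit 228) (nat_lit 0) (XT.nd (nat_lit 78) (nat_lit 76) (nat_lit 0) (XT.lf (nat_lit 76) (nat_lit 42677779672) (nat_lit 0) (nat_lit 41336315476) (nat_lit 228) (nat_lit 159591120656) (nat_lit 193) (nat_lit 1) (nat_lit 192) (nat_lit 1) (nat_lit 195) (nat_lit 1) (nat_lit 241) (nat_lit 409) (nat_lit 370)) (XT.lf (nat_lit 152) (nat_lit 83814714751) (nat_lit 0) (nat_lit 88092502928) (nat_lit 76) (nat_lit 65236526225) (nat_lit 193) (nat_lit 1) (nat_lit 191) (nat_lit 1) (nat_lit 192) (nat_lit 1) (nat_lit 242) (nat_lit 409) (nat_lit 369))) (XT.nd (nat_lit 78) (nat_lit 76) (nat_lit 0) (XT.lf (nat_lit 76) (nat_lit 62831560491) (nat_lit 0) (nat_lit 29938114337) (nat_lit 152) (nat_lit 138125989803) (nat_lit 190) (nat_lit 1) (nat_lit 189) (nat_lit 1) (nat_lit 191)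 (nat_lit 1) (nat_lit 243) (nat_lit 409) (nat_lit 368)) (XT.lf (nat_lit 152) (nat_lit 87310280915) (nat_lit 0) (nat_lit 97160595450) (nat_lit 76) (nat_lit 40342822472) (nat_lit 190) (nat_lit 1) (nat_lit 188) (nat_lit 1) (nat_lit 189) (nat_lit 1) (nat_lit 244) (nat_lit 409) (nat_lit 367))))))))
noncomputable def ec215 : XT := (XT.nd (nat_lit 2106) (nat_lit 3192) (nat_lit 0) (XT.nd (nat_lit 1014) (nat_lit 1672) (nat_lit 0) (XT.nd (nat_lit 468) (nat_lit 836) (nat_lit 0) (XT.nd (nat_lit 234) (nat_lit 304) (nat_lit 0) (XT.nd (nat_lit 78) (nat_lit 228) (nat_lit 0) (XT.lf (nat_lit 76) (nat_lit 79476082050) (nat_lit 0) (nat_lit 22334223667) (nat_lit 152) (nat_lit 117108502233) (nat_lit 187) (nat_lit 1) (nat_lit 186) (nat_lit 1) (nat_lit 188) (nat_lit 1) (nat_lit 245) (nat_lit 409) (nat_lit 366)) (XT.nd (nat_lit 78) (nat_lit 152) (nat_lit 0) (XT.lf (nat_lit 152) (nat_lit 87737733446) (nat_lit 0) (nat_lit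 106346412525) (nat_lit 76) (nat_lit 19104258783) (nat_lit 187) (nat_lit 1) (nat_lit 185) (nat_lit 1) (nat_lit 186) (nat_lit 1) (nat_lit 246) (nat_lit 409) (nat_lit 365)) (XT.lf (nat_lit 76) (nat_lit 93162919307) (nat_lit 0) (nat_lit 17664004920) (nat_lit 152) (nat_lit 96793607952) (nat_lit 184) (nat_lit 1) (nat_lit 183) (nat_lit 1) (nat_lit 185) (nat_lit 1) (nat_lit 247) (nat_lit 409) (nat_lit 364)))) (XT.nd (nat_lit 78) (nat_lit 228) (nat_lit 0) (XT.lf (nat_lit 152) (nat_lit 85859295613) (nat_lit 0) (nat_lit 115380088067) (nat_lit 76) (nat_lit 977325280) (nat_lit 184) (nat_lit 1) (nat_lit 182) (nat_lit 1) (nat_lit 183) (nat_lit 1) (nat_lit 248) (nat_lit 409) (nat_lit 363)) (XT.nd (nat_lit 78) (nat_lit 76) (nat_lit 0) (XT.lf (nat_lit 76) (nat_lit 104351402871) (nat_lit 0) (nat_lit 15237131349) (nat_lit 152) (nat_lit 77364065299) (nat_lit 181) (nat_lit 1) (nat_lit 180) (nat_lit 1) (nat_lit 182)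 (nat_lit 1) (nat_lit 249) (nat_lit 409) (nat_lit 362)) (XT.lf (nat_lit 0) (nat_lit 14028554658) (nat_lit 0) (nat_lit 109795913181) (nat_lit 152) (nat_lit 68017123154) (nat_lit 179) (nat_lit 3) (nat_lit 179) (nat_lit 1) (nat_lit 181) (nat_lit 1) (nat_lit 250) (nat_lit 409) (nat_lit 361))))) (XT.nd (nat_lit 234) (nat_lit 456) (nat_lit 0) (XT.nd (nat_lit 78) (nat_lit 228) (nat_lit 0) (XT.lf (nat_lit 76) (nat_lit 113424867715) (nat_lit 0) (nat_lit 14501497608) (nat_lit 152) (nat_lit 58945410017) (nat_lit 178) (nat_lit 1) (nat_lit 177) (nat_lit 1) (nat_lit 179) (nat_lit 1) (nat_lit 251) (nat_lit 409) (nat_lit 360)) (XT.nd (nat_lit 78) (nat_lit 152) (nat_lit 0) (XT.lf (nat_lit 0) (nat_lit 26799729319) (nat_lit 0) (nat_lit 104995038061) (nat_lit 152) (nat_lit 50239549702) (nat_lit 176) (nat_lit 3) (nat_lit 176) (nat_lit 1) (nat_lit 178) (nat_lit 1) (nat_lit 252) (nat_lit 409) (nat_lit 359)) (XT.lf (nat_lit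 76) (nat_lit 120703966397) (nat_lit 0) (nat_lit 15017071255) (nat_lit 152) (nat_lit 41618067575) (nat_lit 175) (nat_lit 1) (nat_lit 174) (nat_lit 1) (nat_lit 176) (nat_lit 1) (nat_lit 253) (nat_lit 409) (nat_lit 358)))) (XT.nd (nat_lit 156) (nat_lit 228) (nat_lit 0) (XT.nd (nat_lit 78) (nat_lit 152) (nat_lit 0) (XT.lf (nat_lit 0) (nat_lit 37677436908) (nat_lit 0) (nat_lit 101524935718) (nat_lit 152) (nat_lit 33555949383) (nat_lit 173) (nat_lit 3) (nat_lit 173) (nat_lit 1) (nat_lit 175) (nat_lit 1) (nat_lit 254) (nat_lit 409) (nat_lit 357)) (XT.lf (nat_lit 76) (nat_lit 126457582477) (nat_lit 0) (nat_lit 16434592569) (nat_lit 152) (nat_lit 25427139685) (nat_lit 172) (nat_lit 1) (nat_lit 171) (nat_lit 1) (nat_lit 173) (nat_lit 1) (nat_lit 255) (nat_lit 409) (nat_lit 356))) (XT.nd (nat_lit 78) (nat_lit 152) (nat_lit 0) (XT.lf (nat_lit 0) (nat_lit 46923003109) (nat_lit 0) (nat_lit 99055326260) (nat_lit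 152) (nat_lit 18001419385) (nat_lit 170) (nat_lit 3) (nat_lit 170) (nat_lit 1) (nat_lit 172) (nat_lit 1) (nat_lit 256) (nat_lit 409) (nat_lit 355)) (XT.lf (nat_lit 76) (nat_lit 130911781712) (nat_lit 0) (nat_lit 18478229972) (nat_lit 152) (nat_lit 10390298140) (nat_lit 169) (nat_lit 1) (nat_lit 168) (nat_lit 1) (nat_lit 170) (nat_lit 1) (nat_lit 257) (nat_lit 409) (nat_lit 354)))))) (XT.nd (nat_lit 546) (nat_lit 836) (nat_lit 0) (XT.nd (nat_lit 234) (nat_lit 456) (nat_lit 0) (XT.nd (nat_lit 78) (nat_lit 304) (nat_lit 0) (XT.lf (nat_lit 0) (nat_lit 54757447123) (nat_lit 0) (nat_lit 97324175152) (nat_lit 152) (nat_lit 3586123378) (nat_lit 167) (nat_lit 3) (nat_lit 167) (nat_lit 1) (nat_lit 169) (nat_lit 1) (nat_lit 258) (nat_lit 409) (nat_lit 353)) (XT.nd (nat_lit 78) (nat_lit 76) (nat_lit 0) (XT.lf (nat_lit 152) (nat_lit 130702093657) (nat_lit 0) (nat_lit 3611449669) (nat_lit 76) (nat_lit 17376397517)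 (nat_lit 166) (nat_lit 1) (nat_lit 164) (nat_lit 1) (nat_lit 165) (nat_lit 1) (nat_lit 259) (nat_lit 409) (nat_lit 352)) (XT.lf (nat_lit 76) (nat_lit 51505209573) (nat_lit 0) (nat_lit 10019542868) (nat_lit 76) (nat_lit 86261503279) (nat_lit 164) (nat_lit 3) (nat_lit 163) (nat_lit 1) (nat_lit 164) (nat_lit 1) (nat_lit 260) (nat_lit 409) (nat_lit 351)))) (XT.nd (nat_lit 156) (nat_lit 228) (nat_lit 0) (XT.nd (nat_lit 78) (nat_lit 76) (nat_lit 0) (XT.lf (nat_lit 152) (nat_lit 120128942848) (nat_lit 0) (nat_lit 16788034866) (nat_lit 76) (nat_lit 7099666742) (nat_lit 163) (nat_lit 1) (nat_lit 161) (nat_lit 1) (nat_lit 162) (nat_lit 1) (nat_lit 261) (nat_lit 409) (nat_lit 350)) (XT.lf (nat_lit 76) (nat_lit 44668011955) (nat_lit 0) (nat_lit 22600161236) (nat_lit 76) (nat_lit 73046983236) (nat_lit 161) (nat_lit 3) (nat_lit 160) (nat_lit 1) (nat_lit 161) (nat_lit 1) (nat_lit 262) (nat_lit 409) (nat_lit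 349))) (XT.nd (nat_lit 78) (nat_lit 76) (nat_lit 0) (XT.lf (nat_lit 0) (nat_lit 1885362555) (nat_lit 0) (nat_lit 26910910421) (nat_lit 152) (nat_lit 107946187550) (nat_lit 158) (nat_lit 3) (nat_lit 158) (nat_lit 1) (nat_lit 160) (nat_lit 1) (nat_lit 263) (nat_lit 409) (nat_lit 348)) (XT.lf (nat_lit 76) (nat_lit 37994687672) (nat_lit 0) (nat_lit 34072205093) (nat_lit 76) (nat_lit 61166491252) (nat_lit 158) (nat_lit 3) (nat_lit 157) (nat_lit 1) (nat_lit 158) (nat_lit 1) (nat_lit 264) (nat_lit 409) (nat_lit 347))))) (XT.nd (nat_lit 234) (nat_lit 456) (nat_lit 0) (XT.nd (nat_lit 78) (nat_lit 228) (nat_lit 0) (XT.lf (nat_lit 0) (nat_lit 9588540487) (nat_lit 0) (nat_lit 30022229711) (nat_lit 152) (nat_lit 90230496735) (nat_lit 155) (nat_lit 3) (nat_lit 155) (nat_lit 1) (nat_lit 157) (nat_lit 1) (nat_lit 265) (nat_lit 409) (nat_lit 346)) (XT.nd (nat_lit 78) (nat_lit 152) (nat_lit 0) (XT.lf (nat_lit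 76) (nat_lit 31560037674) (nat_lit 0) (nat_lit 44478603914) (nat_lit 76) (nat_lit 50480120289) (nat_lit 155) (nat_lit 3) (nat_lit 154) (nat_lit 1) (nat_lit 155) (nat_lit 1) (nat_lit 266) (nat_lit 409) (nat_lit 345)) (XT.lf (nat_lit 0) (nat_lit 16354492374) (nat_lit 0) (nat_lit 33038868577) (nat_lit 152) (nat_lit 73903861056) (nat_lit 152) (nat_lit 3) (nat_lit 152) (nat_lit 1) (nat_lit 154) (nat_lit 1) (nat_lit 267) (nat_lit 409) (nat_lit 344)))) (XT.nd (nat_lit 156) (nat_lit 228) (nat_lit 0) (XT.nd (nat_lit 78) (nat_lit 152) (nat_lit 0) (XT.lf (nat_lit 76) (nat_lit 25417244246) (nat_lit 0) (nat_lit 53867713749) (nat_lit 76) (nat_lit 40865740731) (nat_lit 152) (nat_lit 3) (nat_lit 151) (nat_lit 1) (nat_lit 152) (nat_lit 1) (nat_lit 268) (nat_lit 409) (nat_lit 343)) (XT.lf (nat_lit 0) (nat_lit 22285423755) (nat_lit 0) (nat_lit 35908436528) (nat_lit 152) (nat_lit 58896579601) (nat_lit 149) (nat_lit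 3) (nat_lit 149) (nat_lit 1) (nat_lit 151) (nat_lit 1) (nat_lit 269) (nat_lit 409) (nat_lit 342))) (XT.nd (nat_lit 78) (nat_lit 152) (nat_lit 0) (XT.lf (nat_lit 76) (nat_lit 19602372496) (nat_lit 0) (nat_lit 62291377847) (nat_lit 76) (nat_lit 32216273212) (nat_lit 149) (nat_lit 3) (nat_lit 148) (nat_lit 1) (nat_lit 149) (nat_lit 1) (nat_lit 270) (nat_lit 409) (nat_lit 341)) (XT.lf (nat_lit 0) (nat_lit 27470688443) (nat_lit 0) (nat_lit 38594057681) (nat_lit 152) (nat_lit 45137634760) (nat_lit 146) (nat_lit 3) (nat_lit 146) (nat_lit 1) (nat_lit 148) (nat_lit 1) (nat_lit 271) (nat_lit 409) (nat_lit 340))))))) (XT.nd (nat_lit 1014) (nat_lit 1596) (nat_lit 0) (XT.nd (nat_lit 468) (nat_lit 912) (nat_lit 0) (XT.nd (nat_lit 234) (nat_lit 380) (nat_lit 0) (XT.nd (nat_lit 78) (nat_lit 228) (nat_lit 0) (XT.lf (nat_lit 76) (nat_lit 14138011727) (nat_lit 0) (nat_lit 69803405052) (nat_lit 76) (nat_lit 24437427688)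 (nat_lit 146) (nat_lit 3) (nat_lit 145) (nat_lit 1) (nat_lit 146) (nat_lit 1) (nat_lit 272) (nat_lit 409) (nat_lit 339)) (XT.nd (nat_lit 78) (nat_lit 76) (nat_lit 0) (XT.lf (nat_lit 0) (nat_lit 31988724296) (nat_lit 0) (nat_lit 41071101687) (nat_lit 152) (nat_lit 32555895236) (nat_lit 143) (nat_lit 3) (nat_lit 143) (nat_lit 1) (nat_lit 145) (nat_lit 1) (nat_lit 273) (nat_lit 409) (nat_lit 338)) (XT.lf (nat_lit 76) (nat_lit 9036216593) (nat_lit 0) (nat_lit 76458385451) (nat_lit 76) (nat_lit 17445825288) (nat_lit 143) (nat_lit 3) (nat_lit 142) (nat_lit 1) (nat_lit 143) (nat_lit 1) (nat_lit 274) (nat_lit 409) (nat_lit 337)))) (XT.nd (nat_lit 78) (nat_lit 228) (nat_lit 0) (XT.lf (nat_lit 0) (nat_lit 35908661655) (nat_lit 0) (nat_lit 43324542339) (nat_lit 152) (nat_lit 21081036670) (nat_lit 140) (nat_lit 3) (nat_lit 140) (nat_lit 1) (nat_lit 142) (nat_lit 1) (nat_lit 275) (nat_lit 409) (nat_lit 336))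 (XT.nd (nat_lit 78) (nat_lit 152) (nat_lit 0) (XT.lf (nat_lit 76) (nat_lit 4300878506) (nat_lit 0) (nat_lit 82310777734) (nat_lit 76) (nat_lit 11167434695) (nat_lit 140) (nat_lit 3) (nat_lit 139) (nat_lit 1) (nat_lit 140) (nat_lit 1) (nat_lit 276) (nat_lit 409) (nat_lit 335)) (XT.lf (nat_lit 0) (nat_lit 39291662756) (nat_lit 0) (nat_lit 45346826943) (nat_lit 152) (nat_lit 10644235494) (nat_lit 137) (nat_lit 3) (nat_lit 137) (nat_lit 1) (nat_lit 139) (nat_lit 1) (nat_lit 277) (nat_lit 409) (nat_lit 334))))) (XT.nd (nat_lit 234) (nat_lit 456) (nat_lit 0) (XT.nd (nat_lit 78) (nat_lit 304) (nat_lit 0) (XT.lf (nat_lit 76) (nat_lit 87344947310) (nat_lit 0) (nat_lit 68114144) (nat_lit 152) (nat_lit 5466999511) (nat_lit 136) (nat_lit 1) (nat_lit 135) (nat_lit 1) (nat_lit 137) (nat_lit 1) (nat_lit 278) (nat_lit 409) (nat_lit 333)) (XT.nd (nat_lit 78) (nat_lit 228) (nat_lit 0) (XT.lf (nat_lit 0) (nat_lit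 42192039839) (nat_lit 0) (nat_lit 47136161097) (nat_lit 152) (nat_lit 1178681197) (nat_lit 134) (nat_lit 3) (nat_lit 134) (nat_lit 1) (nat_lit 136) (nat_lit 1) (nat_lit 279) (nat_lit 409) (nat_lit 332)) (XT.lf (nat_lit 152) (nat_lit 84212863314) (nat_lit 0) (nat_lit 3644185141) (nat_lit 76) (nat_lit 366583246) (nat_lit 133) (nat_lit 1) (nat_lit 131) (nat_lit 1) (nat_lit 132) (nat_lit 1) (nat_lit 280) (nat_lit 409) (nat_lit 331)))) (XT.nd (nat_lit 156) (nat_lit 228) (nat_lit 0) (XT.nd (nat_lit 78) (nat_lit 152) (nat_lit 0) (XT.lf (nat_lit 76) (nat_lit 37153149883) (nat_lit 0) (nat_lit 7624074298) (nat_lit 76) (nat_lit 41190089966) (nat_lit 131) (nat_lit 3) (nat_lit 130) (nat_lit 1) (nat_lit 131) (nat_lit 1) (nat_lit 281) (nat_lit 409) (nat_lit 330)) (XT.lf (nat_lit 0) (nat_lit 4199964760) (nat_lit 0) (nat_lit 7759876650) (nat_lit 152) (nat_lit 71836041643) (nat_lit 128) (nat_lit 3) (nat_lit 128)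 (nat_lit 1) (nat_lit 130) (nat_lit 1) (nat_lit 282) (nat_lit 409) (nat_lit 329))) (XT.nd (nat_lit 78) (nat_lit 152) (nat_lit 0) (XT.lf (nat_lit 76) (nat_lit 31383991030) (nat_lit 0) (nat_lit 15592842825) (nat_lit 76) (nat_lit 34680205743) (nat_lit 128) (nat_lit 3) (nat_lit 127) (nat_lit 1) (nat_lit 128) (nat_lit 1) (nat_lit 283) (nat_lit 409) (nat_lit 328)) (XT.lf (nat_lit 0) (nat_lit 8264282211) (nat_lit 0) (nat_lit 11170997125) (nat_lit 152) (nat_lit 60157107783) (nat_lit 125) (nat_lit 3) (nat_lit 125) (nat_lit 1) (nat_lit 127) (nat_lit 1) (nat_lit 284) (nat_lit 409) (nat_lit 327)))))) (XT.nd (nat_lit 546) (nat_lit 836) (nat_lit 0) (XT.nd (nat_lit 234) (nat_lit 456) (nat_lit 0) (XT.nd (nat_lit 78) (nat_lit 228) (nat_lit 0) (XT.lf (nat_lit 76) (nat_lit 26062005726) (nat_lit 0) (nat_lit 22749606469) (nat_lit 76) (nat_lit 28753408425) (nat_lit 125) (nat_lit 3) (nat_lit 124) (nat_lit 1) (nat_lit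 125) (nat_lit 1) (nat_lit 285) (nat_lit 409) (nat_lit 326)) (XT.nd (nat_lit 78) (nat_lit 76) (nat_lit 0) (XT.lf (nat_lit 0) (nat_lit 11881034614) (nat_lit 0) (nat_lit 14254405600) (nat_lit 152) (nat_lit 49466318750) (nat_lit 122) (nat_lit 3) (nat_lit 122) (nat_lit 1) (nat_lit 124) (nat_lit 1) (nat_lit 286) (nat_lit 409) (nat_lit 325)) (XT.lf (nat_lit 76) (nat_lit 21165017936) (nat_lit 0) (nat_lit 29152341141) (nat_lit 76) (nat_lit 23362583664) (nat_lit 122) (nat_lit 3) (nat_lit 121) (nat_lit 1) (nat_lit 122) (nat_lit 1) (nat_lit 287) (nat_lit 409) (nat_lit 324)))) (XT.nd (nat_lit 156) (nat_lit 228) (nat_lit 0) (XT.nd (nat_lit 78) (nat_lit 76) (nat_lit 0) (XT.lf (nat_lit 0) (nat_lit 15089196122) (nat_lit 0) (nat_lit 17027084771) (nat_lit 152) (nat_lit 39696698058) (nat_lit 119) (nat_lit 3) (nat_lit 119) (nat_lit 1) (nat_lit 121) (nat_lit 1) (nat_lit 288) (nat_lit 409) (nat_lit 323)) (XT.lf (nat_lit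 76) (nat_lit 16670384287) (nat_lit 0) (nat_lit 34856009169) (nat_lit 76) (nat_lit 18464725629) (nat_lit 119) (nat_lit 3) (nat_lit 118) (nat_lit 1) (nat_lit 119) (nat_lit 1) (nat_lit 289) (nat_lit 409) (nat_lit 322))) (XT.nd (nat_lit 78) (nat_lit 76) (nat_lit 0) (XT.lf (nat_lit 0) (nat_lit 17924230253) (nat_lit 0) (nat_lit 19506541842) (nat_lit 152) (nat_lit 30784862827) (nat_lit 116) (nat_lit 3) (nat_lit 116) (nat_lit 1) (nat_lit 118) (nat_lit 1) (nat_lit 290) (nat_lit 409) (nat_lit 321)) (XT.lf (nat_lit 76) (nat_lit 12555388157) (nat_lit 0) (nat_lit 39912568943) (nat_lit 76) (nat_lit 14020491480) (nat_lit 116) (nat_lit 3) (nat_lit 115) (nat_lit 1) (nat_lit 116) (nat_lit 1) (nat_lit 291) (nat_lit 409) (nat_lit 320))))) (XT.nd (nat_lit 234) (nat_lit 456) (nat_lit 0) (XT.nd (nat_lit 78) (nat_lit 228) (nat_lit 0) (XT.lf (nat_lit 0) (nat_lit 20418473800) (nat_lit 0) (nat_lit 21710452039) (nat_lit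 152) (nat_lit 22670956599) (nat_lit 113) (nat_lit 3) (nat_lit 113) (nat_lit 1) (nat_lit 115) (nat_lit 1) (nat_lit 292) (nat_lit 409) (nat_lit 319)) (XT.nd (nat_lit 78) (nat_lit 152) (nat_lit 0) (XT.lf (nat_lit 76) (nat_lit 8797541712) (nat_lit 0) (nat_lit 44371018544) (nat_lit 76) (nat_lit 9993817860) (nat_lit 113) (nat_lit 3) (nat_lit 112) (nat_lit 1) (nat_lit 113) (nat_lit 1) (nat_lit 293) (nat_lit 409) (nat_lit 318)) (XT.lf (nat_lit 0) (nat_lit 22601467450) (nat_lit 0) (nat_lit 23656384687) (nat_lit 152) (nat_lit 15298556518) (nat_lit 110) (nat_lit 3) (nat_lit 110) (nat_lit 1) (nat_lit 112) (nat_lit 1) (nat_lit 294) (nat_lit 409) (nat_lit 317)))) (XT.nd (nat_lit 156) (nat_lit 228) (nat_lit 0) (XT.nd (nat_lit 78) (nat_lit 152) (nat_lit 0) (XT.lf (nat_lit 76) (nat_lit 5374814000) (nat_lit 0) (nat_lit 48277464864) (nat_lit 76) (nat_lit 6351589220) (nat_lit 110) (nat_lit 3) (nat_lit 109) (nat_lit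 1) (nat_lit 110) (nat_lit 1) (nat_lit 295) (nat_lit 409) (nat_lit 316)) (XT.lf (nat_lit 0) (nat_lit 24500241812) (nat_lit 0) (nat_lit 25361595621) (nat_lit 152) (nat_lit 8614561932) (nat_lit 107) (nat_lit 3) (nat_lit 107) (nat_lit 1) (nat_lit 109) (nat_lit 1) (nat_lit 296) (nat_lit 409) (nat_lit 315))) (XT.nd (nat_lit 78) (nat_lit 152) (nat_lit 0) (XT.lf (nat_lit 76) (nat_lit 2265799814) (nat_lit 0) (nat_lit 51675211441) (nat_lit 76) (nat_lit 3063349637) (nat_lit 107) (nat_lit 3) (nat_lit 106) (nat_lit 1) (nat_lit 107) (nat_lit 1) (nat_lit 297) (nat_lit 409) (nat_lit 314)) (XT.lf (nat_lit 0) (nat_lit 26139566031) (nat_lit 0) (nat_lit 26842872753) (nat_lit 152) (nat_lit 2569070014) (nat_lit 104) (nat_lit 3) (nat_lit 104) (nat_lit 1) (nat_lit 106) (nat_lit 1) (nat_lit 298) (nat_lit 409) (nat_lit 313))))))))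
noncomputable def ec216 : XT := (XT.nd (nat_lit 2028) (nat_lit 3192) (nat_lit 0) (XT.nd (nat_lit 1014) (nat_lit 1596) (nat_lit 0) (XT.nd (nat_lit 468) (nat_lit 836) (nat_lit 0) (XT.nd (nat_lit 234) (nat_lit 304) (nat_lit 0) (XT.nd (nat_lit 78) (nat_lit 228) (nat_lit 0) (XT.lf (nat_lit 152) (nat_lit 53615311976) (nat_lit 0) (nat_lit 455083537) (nat_lit 76) (nat_lit 84571811) (nat_lit 103) (nat_lit 1) (nat_lit 101) (nat_lit 1) (nat_lit 102) (nat_lit 1) (nat_lit 299) (nat_lit 409) (nat_lit 312)) (XT.nd (nat_lit 78) (nat_lit 152) (nat_lit 0) (XT.lf (nat_lit 76) (nat_lit 24608553005) (nat_lit 0) (nat_lit 2980140227) (nat_lit 76) (nat_lit 25182812201) (nat_lit 101) (nat_lit 3) (nat_lit 100) (nat_lit 1) (nat_lit 101) (nat_lit 1) (nat_lit 300) (nat_lit 409) (nat_lit 311)) (XT.lf (nat_lit 0) (nat_lit 2620171513) (nat_lit 0) (nat_lit 3126572920) (nat_lit 152) (nat_lit 45694570891) (nat_lit 98) (nat_lit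 3) (nat_lit 98) (nat_lit 1) (nat_lit 100) (nat_lit 1) (nat_lit 301) (nat_lit 409) (nat_lit 310)))) (XT.nd (nat_lit 78) (nat_lit 228) (nat_lit 0) (XT.lf (nat_lit 76) (nat_lit 20806137450) (nat_lit 0) (nat_lit 8048430414) (nat_lit 76) (nat_lit 21275027642) (nat_lit 98) (nat_lit 3) (nat_lit 97) (nat_lit 1) (nat_lit 98) (nat_lit 1) (nat_lit 302) (nat_lit 409) (nat_lit 309)) (XT.nd (nat_lit 78) (nat_lit 76) (nat_lit 0) (XT.lf (nat_lit 0) (nat_lit 5042169145) (nat_lit 0) (nat_lit 5455652559) (nat_lit 152) (nat_lit 38366568791) (nat_lit 95) (nat_lit 3) (nat_lit 95) (nat_lit 1) (nat_lit 97) (nat_lit 1) (nat_lit 303) (nat_lit 409) (nat_lit 308)) (XT.lf (nat_lit 76) (nat_lit 17322262287) (nat_lit 0) (nat_lit 12593339285) (nat_lit 76) (nat_lit 17705117301) (nat_lit 95) (nat_lit 3) (nat_lit 94) (nat_lit 1) (nat_lit 95) (nat_lit 1) (nat_lit 304) (nat_lit 409) (nat_lit 307))))) (XT.nd (nat_lit 234) (nat_lit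 456) (nat_lit 0) (XT.nd (nat_lit 78) (nat_lit 228) (nat_lit 0) (XT.lf (nat_lit 0) (nat_lit 7206408206) (nat_lit 0) (nat_lit 7544022857) (nat_lit 152) (nat_lit 31666866576) (nat_lit 92) (nat_lit 3) (nat_lit 92) (nat_lit 1) (nat_lit 94) (nat_lit 1) (nat_lit 305) (nat_lit 409) (nat_lit 306)) (XT.nd (nat_lit 78) (nat_lit 152) (nat_lit 0) (XT.lf (nat_lit 76) (nat_lit 14135446070) (nat_lit 0) (nat_lit 16654616618) (nat_lit 76) (nat_lit 14448052227) (nat_lit 92) (nat_lit 3) (nat_lit 91) (nat_lit 1) (nat_lit 92) (nat_lit 1) (nat_lit 306) (nat_lit 409) (nat_lit 305)) (XT.lf (nat_lit 0) (nat_lit 9133498266) (nat_lit 0) (nat_lit 9409165072) (nat_lit 152) (nat_lit 25550774176) (nat_lit 89) (nat_lit 3) (nat_lit 89) (nat_lit 1) (nat_lit 91) (nat_lit 1) (nat_lit 307) (nat_lit 409) (nat_lit 304)))) (XT.nd (nat_lit 156) (nat_lit 228) (nat_lit 0) (XT.nd (nat_lit 78) (nat_lit 152) (nat_lit 0) (XT.lf (nat_lit 76)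 (nat_lit 11225352548) (nat_lit 0) (nat_lit 20269421583) (nat_lit 76) (nat_lit 11480599590) (nat_lit 89) (nat_lit 3) (nat_lit 88) (nat_lit 1) (nat_lit 89) (nat_lit 1) (nat_lit 308) (nat_lit 409) (nat_lit 303)) (XT.lf (nat_lit 0) (nat_lit 10842513093) (nat_lit 0) (nat_lit 11067598668) (nat_lit 152) (nat_lit 19976441088) (nat_lit 86) (nat_lit 3) (nat_lit 86) (nat_lit 1) (nat_lit 88) (nat_lit 1) (nat_lit 309) (nat_lit 409) (nat_lit 302))) (XT.nd (nat_lit 78) (nat_lit 152) (nat_lit 0) (XT.lf (nat_lit 76) (nat_lit 8572770463) (nat_lit 0) (nat_lit 23472463318) (nat_lit 76) (nat_lit 8781183033) (nat_lit 86) (nat_lit 3) (nat_lit 85) (nat_lit 1) (nat_lit 86) (nat_lit 1) (nat_lit 310) (nat_lit 409) (nat_lit 301)) (XT.lf (nat_lit 0) (nat_lit 12351112094) (nat_lit 0) (nat_lit 12534897429) (nat_lit 152) (nat_lit 14904700112) (nat_lit 83) (nat_lit 3) (nat_lit 83) (nat_lit 1) (nat_lit 85) (nat_lit 1) (nat_lit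 311) (nat_lit 409) (nat_lit 300)))))) (XT.nd (nat_lit 468) (nat_lit 912) (nat_lit 0) (XT.nd (nat_lit 234) (nat_lit 380) (nat_lit 0) (XT.nd (nat_lit 78) (nat_lit 228) (nat_lit 0) (XT.lf (nat_lit 76) (nat_lit 6159584890) (nat_lit 0) (nat_lit 26296137724) (nat_lit 76) (nat_lit 6329756496) (nat_lit 83) (nat_lit 3) (nat_lit 82) (nat_lit 1) (nat_lit 83) (nat_lit 1) (nat_lit 312) (nat_lit 409) (nat_lit 299)) (XT.nd (nat_lit 78) (nat_lit 76) (nat_lit 0) (XT.lf (nat_lit 0) (nat_lit 13675650041) (nat_lit 0) (nat_lit 13825713186) (nat_lit 152) (nat_lit 10298916404) (nat_lit 80) (nat_lit 3) (nat_lit 80) (nat_lit 1) (nat_lit 82) (nat_lit 1) (nat_lit 313) (nat_lit 409) (nat_lit 298)) (XT.lf (nat_lit 76) (nat_lit 3968742436) (nat_lit 0) (nat_lit 28770659793) (nat_lit 76) (nat_lit 4107689793) (nat_lit 80) (nat_lit 3) (nat_lit 79) (nat_lit 1) (nat_lit 80) (nat_lit 1) (nat_lit 314) (nat_lit 409) (nat_lit 297))))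 (XT.nd (nat_lit 78) (nat_lit 228) (nat_lit 0) (XT.lf (nat_lit 0) (nat_lit 14831276553) (nat_lit 0) (nat_lit 14953805086) (nat_lit 152) (nat_lit 6124842280) (nat_lit 77) (nat_lit 3) (nat_lit 77) (nat_lit 1) (nat_lit 79) (nat_lit 1) (nat_lit 315) (nat_lit 409) (nat_lit 296)) (XT.nd (nat_lit 78) (nat_lit 152) (nat_lit 0) (XT.lf (nat_lit 76) (nat_lit 1984212129) (nat_lit 0) (nat_lit 30924190988) (nat_lit 76) (nat_lit 2097664474) (nat_lit 77) (nat_lit 3) (nat_lit 76) (nat_lit 1) (nat_lit 77) (nat_lit 1) (nat_lit 316) (nat_lit 409) (nat_lit 295)) (XT.lf (nat_lit 0) (nat_lit 15832026604) (nat_lit 0) (nat_lit 15932072764) (nat_lit 152) (nat_lit 2350478108) (nat_lit 74) (nat_lit 3) (nat_lit 74) (nat_lit 1) (nat_lit 76) (nat_lit 1) (nat_lit 317) (nat_lit 409) (nat_lit 294))))) (XT.nd (nat_lit 234) (nat_lit 456) (nat_lit 0) (XT.nd (nat_lit 78) (nat_lit 380) (nat_lit 0) (XT.lf (nat_lit 76) (nat_lit 190943434)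 (nat_lit 0) (nat_lit 32782961365) (nat_lit 76) (nat_lit 283578767) (nat_lit 74) (nat_lit 3) (nat_lit 73) (nat_lit 1) (nat_lit 74) (nat_lit 1) (nat_lit 318) (nat_lit 409) (nat_lit 293)) (XT.nd (nat_lit 78) (nat_lit 152) (nat_lit 0) (XT.lf (nat_lit 76) (nat_lit 15618991505) (nat_lit 0) (nat_lit 1088912593) (nat_lit 76) (nat_lit 15700680512) (nat_lit 71) (nat_lit 3) (nat_lit 70) (nat_lit 1) (nat_lit 71) (nat_lit 1) (nat_lit 319) (nat_lit 409) (nat_lit 292)) (XT.lf (nat_lit 0) (nat_lit 1374083947) (nat_lit 0) (nat_lit 1446120108) (nat_lit 152) (nat_lit 28772024906) (nat_lit 68) (nat_lit 3) (nat_lit 68) (nat_lit 1) (nat_lit 70) (nat_lit 1) (nat_lit 320) (nat_lit 409) (nat_lit 291)))) (XT.nd (nat_lit 156) (nat_lit 228) (nat_lit 0) (XT.nd (nat_lit 78) (nat_lit 152) (nat_lit 0) (XT.lf (nat_lit 76) (nat_lit 13233565023) (nat_lit 0) (nat_lit 4252785439) (nat_lit 76) (nat_lit 13300265172) (nat_lit 68) (nat_lit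 3) (nat_lit 67) (nat_lit 1) (nat_lit 68) (nat_lit 1) (nat_lit 321) (nat_lit 409) (nat_lit 290)) (XT.lf (nat_lit 0) (nat_lit 2863746880) (nat_lit 0) (nat_lit 2922565354) (nat_lit 152) (nat_lit 24223770096) (nat_lit 65) (nat_lit 3) (nat_lit 65) (nat_lit 1) (nat_lit 67) (nat_lit 1) (nat_lit 322) (nat_lit 409) (nat_lit 289))) (XT.nd (nat_lit 78) (nat_lit 152) (nat_lit 0) (XT.lf (nat_lit 76) (nat_lit 11050722544) (nat_lit 0) (nat_lit 7090311342) (nat_lit 76) (nat_lit 11105184093) (nat_lit 65) (nat_lit 3) (nat_lit 64) (nat_lit 1) (nat_lit 65) (nat_lit 1) (nat_lit 323) (nat_lit 409) (nat_lit 288)) (XT.lf (nat_lit 0) (nat_lit 4196866203) (nat_lit 0) (nat_lit 4244892261) (nat_lit 152) (nat_lit 20065797916) (nat_lit 62) (nat_lit 3) (nat_lit 62) (nat_lit 1) (nat_lit 64) (nat_lit 1) (nat_lit 324) (nat_lit 409) (nat_lit 287))))))) (XT.nd (nat_lit 1014) (nat_lit 1748) (nat_lit 0) (XT.nd (nat_lit 468) (nat_lit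 760) (nat_lit 0) (XT.nd (nat_lit 234) (nat_lit 380) (nat_lit 0) (XT.nd (nat_lit 78) (nat_lit 228) (nat_lit 0) (XT.lf (nat_lit 76) (nat_lit 9056115189) (nat_lit 0) (nat_lit 9626566646) (nat_lit 76) (nat_lit 9100583761) (nat_lit 62) (nat_lit 3) (nat_lit 61) (nat_lit 1) (nat_lit 62) (nat_lit 1) (nat_lit 325) (nat_lit 409) (nat_lit 286)) (XT.nd (nat_lit 78) (nat_lit 76) (nat_lit 0) (XT.lf (nat_lit 0) (nat_lit 5385662059) (nat_lit 0) (nat_lit 5424875967) (nat_lit 152) (nat_lit 16270083337) (nat_lit 59) (nat_lit 3) (nat_lit 59) (nat_lit 1) (nat_lit 61) (nat_lit 1) (nat_lit 326) (nat_lit 409) (nat_lit 285)) (XT.lf (nat_lit 76) (nat_lit 7236303153) (nat_lit 0) (nat_lit 11884927455) (nat_lit 76) (nat_lit 7272612327) (nat_lit 59) (nat_lit 3) (nat_lit 58) (nat_lit 1) (nat_lit 59) (nat_lit 1) (nat_lit 327) (nat_lit 409) (nat_lit 284)))) (XT.nd (nat_lit 78) (nat_lit 228) (nat_lit 0) (XT.lf (nat_lit 0) (nat_lit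 6441497692) (nat_lit 0) (nat_lit 6473516364) (nat_lit 152) (nat_lit 12810439122) (nat_lit 56) (nat_lit 3) (nat_lit 56) (nat_lit 1) (nat_lit 58) (nat_lit 1) (nat_lit 328) (nat_lit 409) (nat_lit 283)) (XT.nd (nat_lit 78) (nat_lit 152) (nat_lit 0) (XT.lf (nat_lit 76) (nat_lit 5578705877) (nat_lit 0) (nat_lit 13887175329) (nat_lit 76) (nat_lit 5608352796) (nat_lit 56) (nat_lit 3) (nat_lit 55) (nat_lit 1) (nat_lit 56) (nat_lit 1) (nat_lit 329) (nat_lit 409) (nat_lit 282)) (XT.lf (nat_lit 0) (nat_lit 7374937868) (nat_lit 0) (nat_lit 7401081535) (nat_lit 152) (nat_lit 9662403287) (nat_lit 53) (nat_lit 3) (nat_lit 53) (nat_lit 1) (nat_lit 55) (nat_lit 1) (nat_lit 330) (nat_lit 409) (nat_lit 281))))) (XT.nd (nat_lit 234) (nat_lit 456) (nat_lit 0) (XT.nd (nat_lit 78) (nat_lit 228) (nat_lit 0) (XT.lf (nat_lit 76) (nat_lit 4071553888) (nat_lit 0) (nat_lit 15653597155) (nat_lit 76) (nat_lit 4095760988) (nat_lit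 53) (nat_lit 3) (nat_lit 52) (nat_lit 1) (nat_lit 53) (nat_lit 1) (nat_lit 331) (nat_lit 409) (nat_lit 280)) (XT.nd (nat_lit 78) (nat_lit 76) (nat_lit 0) (XT.lf (nat_lit 0) (nat_lit 8195803080) (nat_lit 0) (nat_lit 8217149728) (nat_lit 152) (nat_lit 6803132832) (nat_lit 50) (nat_lit 3) (nat_lit 50) (nat_lit 1) (nat_lit 52) (nat_lit 1) (nat_lit 332) (nat_lit 409) (nat_lit 279)) (XT.lf (nat_lit 76) (nat_lit 2703842452) (nat_lit 0) (nat_lit 17203079383) (nat_lit 76) (nat_lit 2723607867) (nat_lit 50) (nat_lit 3) (nat_lit 49) (nat_lit 1) (nat_lit 50) (nat_lit 1) (nat_lit 333) (nat_lit 409) (nat_lit 278)))) (XT.nd (nat_lit 156) (nat_lit 228) (nat_lit 0) (XT.nd (nat_lit 78) (nat_lit 76) (nat_lit 0) (XT.lf (nat_lit 0) (nat_lit 8913219904) (nat_lit 0) (nat_lit 8930649723) (nat_lit 152) (nat_lit 4211303467) (nat_lit 47) (nat_lit 3) (nat_lit 47) (nat_lit 1) (nat_lit 49) (nat_lit 1) (nat_lit 334) (nat_lit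 409) (nat_lit 277)) (XT.lf (nat_lit 76) (nat_lit 1465287138) (nat_lit 0) (nat_lit 18553196890) (nat_lit 76) (nat_lit 1481425860) (nat_lit 47) (nat_lit 3) (nat_lit 46) (nat_lit 1) (nat_lit 47) (nat_lit 1) (nat_lit 335) (nat_lit 409) (nat_lit 276))) (XT.nd (nat_lit 78) (nat_lit 76) (nat_lit 0) (XT.lf (nat_lit 0) (nat_lit 9535667827) (nat_lit 0) (nat_lit 9549899504) (nat_lit 152) (nat_lit 1867015076) (nat_lit 44) (nat_lit 3) (nat_lit 44) (nat_lit 1) (nat_lit 46) (nat_lit 1) (nat_lit 336) (nat_lit 409) (nat_lit 275)) (XT.lf (nat_lit 76) (nat_lit 346281366) (nat_lit 0) (nat_lit 19720296686) (nat_lit 76) (nat_lit 359458844) (nat_lit 44) (nat_lit 3) (nat_lit 43) (nat_lit 1) (nat_lit 44) (nat_lit 1) (nat_lit 337) (nat_lit 409) (nat_lit 274)))))) (XT.nd (nat_lit 546) (nat_lit 836) (nat_lit 0) (XT.nd (nat_lit 234) (nat_lit 456) (nat_lit 0) (XT.nd (nat_lit 78) (nat_lit 228) (nat_lit 0) (XT.lf (nat_lit 76)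 (nat_lit 9818520440) (nat_lit 0) (nat_lit 256507195) (nat_lit 76) (nat_lit 9830140792) (nat_lit 41) (nat_lit 3) (nat_lit 40) (nat_lit 1) (nat_lit 41) (nat_lit 1) (nat_lit 338) (nat_lit 409) (nat_lit 273)) (XT.nd (nat_lit 78) (nat_lit 76) (nat_lit 0) (XT.lf (nat_lit 0) (nat_lit 662407288) (nat_lit 0) (nat_lit 672654511) (nat_lit 152) (nat_lit 18068884320) (nat_lit 38) (nat_lit 3) (nat_lit 38) (nat_lit 1) (nat_lit 40) (nat_lit 1) (nat_lit 339) (nat_lit 409) (nat_lit 272)) (XT.lf (nat_lit 76) (nat_lit 8338206104) (nat_lit 0) (nat_lit 2223100762) (nat_lit 76) (nat_lit 8347694274) (nat_lit 38) (nat_lit 3) (nat_lit 37) (nat_lit 1) (nat_lit 38) (nat_lit 1) (nat_lit 340) (nat_lit 409) (nat_lit 271)))) (XT.nd (nat_lit 156) (nat_lit 228) (nat_lit 0) (XT.nd (nat_lit 78) (nat_lit 76) (nat_lit 0) (XT.lf (nat_lit 0) (nat_lit 1585422086) (nat_lit 0) (nat_lit 1593789079) (nat_lit 152) (nat_lit 15253009621) (nat_lit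 35) (nat_lit 3) (nat_lit 35) (nat_lit 1) (nat_lit 37) (nat_lit 1) (nat_lit 341) (nat_lit 409) (nat_lit 270)) (XT.lf (nat_lit 76) (nat_lit 6983731861) (nat_lit 0) (nat_lit 3987708913) (nat_lit 76) (nat_lit 6991479077) (nat_lit 35) (nat_lit 3) (nat_lit 34) (nat_lit 1) (nat_lit 35) (nat_lit 1) (nat_lit 342) (nat_lit 409) (nat_lit 269))) (XT.nd (nat_lit 78) (nat_lit 76) (nat_lit 0) (XT.lf (nat_lit 0) (nat_lit 2412130589) (nat_lit 0) (nat_lit 2418962349) (nat_lit 152) (nat_lit 12678292809) (nat_lit 32) (nat_lit 3) (nat_lit 32) (nat_lit 1) (nat_lit 34) (nat_lit 1) (nat_lit 343) (nat_lit 409) (nat_lit 268)) (XT.lf (nat_lit 76) (nat_lit 5746097749) (nat_lit 0) (nat_lit 5565872559) (nat_lit 76) (nat_lit 5752423452) (nat_lit 32) (nat_lit 3) (nat_lit 31) (nat_lit 1) (nat_lit 32) (nat_lit 1) (nat_lit 344) (nat_lit 409) (nat_lit 267))))) (XT.nd (nat_lit 234) (nat_lit 456) (nat_lit 0) (XT.nd (nat_lit 78) (nat_lit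 228) (nat_lit 0) (XT.lf (nat_lit 0) (nat_lit 3149997707) (nat_lit 0) (nat_lit 3155575929) (nat_lit 152) (nat_lit 10327395312) (nat_lit 29) (nat_lit 3) (nat_lit 29) (nat_lit 1) (nat_lit 31) (nat_lit 1) (nat_lit 345) (nat_lit 409) (nat_lit 266)) (XT.nd (nat_lit 78) (nat_lit 152) (nat_lit 0) (XT.lf (nat_lit 76) (nat_lit 4616892616) (nat_lit 0) (nat_lit 6972070429) (nat_lit 76) (nat_lit 4622057637) (nat_lit 29) (nat_lit 3) (nat_lit 28) (nat_lit 1) (nat_lit 29) (nat_lit 1) (nat_lit 346) (nat_lit 409) (nat_lit 265)) (XT.lf (nat_lit 0) (nat_lit 3805973183) (nat_lit 0) (nat_lit 3810527875) (nat_lit 152) (nat_lit 8184122982) (nat_lit 26) (nat_lit 3) (nat_lit 26) (nat_lit 1) (nat_lit 28) (nat_lit 1) (nat_lit 347) (nat_lit 409) (nat_lit 264)))) (XT.nd (nat_lit 156) (nat_lit 228) (nat_lit 0) (XT.nd (nat_lit 78) (nat_lit 152) (nat_lit 0) (XT.lf (nat_lit 76) (nat_lit 3588258139) (nat_lit 0) (nat_lit 8219786864)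 (nat_lit 76) (nat_lit 3592475446) (nat_lit 26) (nat_lit 3) (nat_lit 25) (nat_lit 1) (nat_lit 26) (nat_lit 1) (nat_lit 348) (nat_lit 409) (nat_lit 263)) (XT.lf (nat_lit 0) (nat_lit 4386525235) (nat_lit 0) (nat_lit 4390244201) (nat_lit 152) (nat_lit 6233354492) (nat_lit 23) (nat_lit 3) (nat_lit 23) (nat_lit 1) (nat_lit 25) (nat_lit 1) (nat_lit 349) (nat_lit 409) (nat_lit 262))) (XT.nd (nat_lit 78) (nat_lit 152) (nat_lit 0) (XT.lf (nat_lit 76) (nat_lit 2652854827) (nat_lit 0) (nat_lit 9321575531) (nat_lit 76) (nat_lit 2656298314) (nat_lit 23) (nat_lit 3) (nat_lit 22) (nat_lit 1) (nat_lit 23) (nat_lit 1) (nat_lit 350) (nat_lit 409) (nat_lit 261)) (XT.lf (nat_lit 0) (nat_lit 4897672034) (nat_lit 0) (nat_lit 4900708618) (nat_lit 152) (nat_lit 4460974021) (nat_lit 20) (nat_lit 3) (nat_lit 20) (nat_lit 1) (nat_lit 22) (nat_lit 1) (nat_lit 351) (nat_lit 409) (nat_lit 260))))))))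
noncomputable def ec217 : XT := (XT.nd (nat_lit 2106) (nat_lit 0) (nat_lit 0) (XT.nd (nat_lit 1014) (nat_lit 0) (nat_lit 0) (XT.nd (nat_lit 468) (nat_lit 836) (nat_lit 0) (XT.nd (nat_lit 234) (nat_lit 380) (nat_lit 0) (XT.nd (nat_lit 78) (nat_lit 228) (nat_lit 0) (XT.lf (nat_lit 76) (nat_lit 1803829948) (nat_lit 0) (nat_lit 10289119266) (nat_lit 76) (nat_lit 1806641600) (nat_lit 20) (nat_lit 3) (nat_lit 19) (nat_lit 1) (nat_lit 20) (nat_lit 1) (nat_lit 352) (nat_lit 409) (nat_lit 259)) (XT.nd (nat_lit 78) (nat_lit 76) (nat_lit 0) (XT.lf (nat_lit 0) (nat_lit 5345011157) (nat_lit 0) (nat_lit 5347490568) (nat_lit 152) (nat_lit 2853807980) (nat_lit 17) (nat_lit 3) (nat_lit 17) (nat_lit 1) (nat_lit 19) (nat_lit 1) (nat_lit 353) (nat_lit 409) (nat_lit 258)) (XT.lf (nat_lit 76) (nat_lit 1034787283) (nat_lit 0) (nat_lit 11133286269) (nat_lit 76) (nat_lit 1037083034) (nat_lit 17) (nat_lit 3) (nat_lit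 16) (nat_lit 1) (nat_lit 17) (nat_lit 1) (nat_lit 354) (nat_lit 409) (nat_lit 257)))) (XT.nd (nat_lit 78) (nat_lit 228) (nat_lit 0) (XT.lf (nat_lit 0) (nat_lit 5733747154) (nat_lit 0) (nat_lit 5735771625) (nat_lit 152) (nat_lit 1399565542) (nat_lit 14) (nat_lit 3) (nat_lit 14) (nat_lit 1) (nat_lit 16) (nat_lit 1) (nat_lit 355) (nat_lit 409) (nat_lit 256)) (XT.nd (nat_lit 78) (nat_lit 152) (nat_lit 0) (XT.lf (nat_lit 76) (nat_lit 339758620) (nat_lit 0) (nat_lit 11864182854) (nat_lit 76) (nat_lit 341633131) (nat_lit 14) (nat_lit 3) (nat_lit 13) (nat_lit 1) (nat_lit 14) (nat_lit 1) (nat_lit 356) (nat_lit 409) (nat_lit 255)) (XT.lf (nat_lit 0) (nat_lit 6068717355) (nat_lit 0) (nat_lit 6070370363) (nat_lit 152) (nat_lit 86782775) (nat_lit 11) (nat_lit 3) (nat_lit 11) (nat_lit 1) (nat_lit 13) (nat_lit 1) (nat_lit 357) (nat_lit 409) (nat_lit 254))))) (XT.nd (nat_lit 234) (nat_lit 380) (nat_lit 0) (XT.nd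 (nat_lit 78) (nat_lit 228) (nat_lit 0) (XT.lf (nat_lit 0) (nat_lit 290018432) (nat_lit 0) (nat_lit 291476111) (nat_lit 152) (nat_lit 11336677259) (nat_lit 8) (nat_lit 3) (nat_lit 8) (nat_lit 1) (nat_lit 10) (nat_lit 1) (nat_lit 358) (nat_lit 409) (nat_lit 253)) (XT.nd (nat_lit 78) (nat_lit 152) (nat_lit 0) (XT.lf (nat_lit 76) (nat_lit 5240637945) (nat_lit 0) (nat_lit 1131443080) (nat_lit 76) (nat_lit 5241987647) (nat_lit 8) (nat_lit 3) (nat_lit 7) (nat_lit 1) (nat_lit 8) (nat_lit 1) (nat_lit 359) (nat_lit 409) (nat_lit 252)) (XT.lf (nat_lit 0) (nat_lit 862855618) (nat_lit 0) (nat_lit 864045832) (nat_lit 152) (nat_lit 9594405981) (nat_lit 5) (nat_lit 3) (nat_lit 5) (nat_lit 1) (nat_lit 7) (nat_lit 1) (nat_lit 360) (nat_lit 409) (nat_lit 251)))) (XT.nd (nat_lit 156) (nat_lit 152) (nat_lit 0) (XT.nd (nat_lit 78) (nat_lit 152) (nat_lit 0) (XT.lf (nat_lit 76) (nat_lit 4402060015) (nat_lit 0) (nat_lit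 2227738221) (nat_lit 76) (nat_lit 4403162065) (nat_lit 5) (nat_lit 3) (nat_lit 4) (nat_lit 1) (nat_lit 5) (nat_lit 1) (nat_lit 361) (nat_lit 409) (nat_lit 250)) (XT.lf (nat_lit 0) (nat_lit 1376267614) (nat_lit 0) (nat_lit 1377239439) (nat_lit 152) (nat_lit 8000965484) (nat_lit 2) (nat_lit 3) (nat_lit 2) (nat_lit 1) (nat_lit 4) (nat_lit 1) (nat_lit 362) (nat_lit 409) (nat_lit 249))) (XT.nd (nat_lit 78) (nat_lit 76) (nat_lit 0) (XT.lf (nat_lit 76) (nat_lit 3635667808) (nat_lit 0) (nat_lit 3208825783) (nat_lit 76) (nat_lit 3636567647) (nat_lit 2) (nat_lit 3) (nat_lit 1) (nat_lit 1) (nat_lit 2) (nat_lit 1) (nat_lit 363) (nat_lit 409) (nat_lit 248)) (XT.lf (nat_lit 0) (nat_lit 217340504147) (nat_lit 0) (nat_lit 0) (nat_lit 0) (nat_lit 0) (nat_lit 0) (nat_lit 0) (nat_lit 1) (nat_lit 0) (nat_lit 1) (nat_lit 0) (nat_lit 364) (nat_lit 409) (nat_lit 247)))))) (XT.nd (nat_lit 546) (nat_lit 0) (nat_lit 0)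 (XT.nd (nat_lit 234) (nat_lit 0) (nat_lit 0) (XT.nd (nat_lit 78) (nat_lit 0) (nat_lit 0) (XT.lf (nat_lit 0) (nat_lit 217340442181) (nat_lit 0) (nat_lit 0) (nat_lit 0) (nat_lit 0) (nat_lit 0) (nat_lit 0) (nat_lit 1) (nat_lit 0) (nat_lit 1) (nat_lit 0) (nat_lit 365) (nat_lit 409) (nat_lit 246)) (XT.nd (nat_lit 78) (nat_lit 0) (nat_lit 0) (XT.lf (nat_lit 0) (nat_lit 217340384805) (nat_lit 0) (nat_lit 0) (nat_lit 0) (nat_lit 0) (nat_lit 0) (nat_lit 0) (nat_lit 1) (nat_lit 0) (nat_lit 1) (nat_lit 0) (nat_lit 366) (nat_lit 409) (nat_lit 245)) (XT.lf (nat_lit 0) (nat_lit 217340331678) (nat_lit 0) (nat_lit 0) (nat_lit 0) (nat_lit 0) (nat_lit 0) (nat_lit 0) (nat_lit 1) (nat_lit 0) (nat_lit 1) (nat_lit 0) (nat_lit 367) (nat_lit 409) (nat_lit 244)))) (XT.nd (nat_lit 156) (nat_lit 0) (nat_lit 0) (XT.nd (nat_lit 78) (nat_lit 0) (nat_lit 0) (XT.lf (nat_lit 0) (nat_lit 217340282487) (nat_lit 0) (nat_lit 0)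 (nat_lit 0) (nat_lit 0) (nat_lit 0) (nat_lit 0) (nat_lit 1) (nat_lit 0) (nat_lit 1) (nat_lit 0) (nat_lit 368) (nat_lit 409) (nat_lit 243)) (XT.lf (nat_lit 0) (nat_lit 217340236940) (nat_lit 0) (nat_lit 0) (nat_lit 0) (nat_lit 0) (nat_lit 0) (nat_lit 0) (nat_lit 1) (nat_lit 0) (nat_lit 1) (nat_lit 0) (nat_lit 369) (nat_lit 409) (nat_lit 242))) (XT.nd (nat_lit 78) (nat_lit 0) (nat_lit 0) (XT.lf (nat_lit 0) (nat_lit 217340194767) (nat_lit 0) (nat_lit 0) (nat_lit 0) (nat_lit 0) (nat_lit 0) (nat_lit 0) (nat_lit 1) (nat_lit 0) (nat_lit 1) (nat_lit 0) (nat_lit 370) (nat_lit 409) (nat_lit 241)) (XT.lf (nat_lit 0) (nat_lit 217340155717) (nat_lit 0) (nat_lit 0) (nat_lit 0) (nat_lit 0) (nat_lit 0) (nat_lit 0) (nat_lit 1) (nat_lit 0) (nat_lit 1) (nat_lit 0) (nat_lit 371) (nat_lit 409) (nat_lit 240))))) (XT.nd (nat_lit 234) (nat_lit 0) (nat_lit 0) (XT.nd (nat_lit 78) (nat_lit 0) (nat_lit 0) (XT.lf (nat_lit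 0) (nat_lit 217340119561) (nat_lit 0) (nat_lit 0) (nat_lit 0) (nat_lit 0) (nat_lit 0) (nat_lit 0) (nat_lit 1) (nat_lit 0) (nat_lit 1) (nat_lit 0) (nat_lit 372) (nat_lit 409) (nat_lit 239)) (XT.nd (nat_lit 78) (nat_lit 0) (nat_lit 0) (XT.lf (nat_lit 0) (nat_lit 217340086082) (nat_lit 0) (nat_lit 0) (nat_lit 0) (nat_lit 0) (nat_lit 0) (nat_lit 0) (nat_lit 1) (nat_lit 0) (nat_lit 1) (nat_lit 0) (nat_lit 373) (nat_lit 409) (nat_lit 238)) (XT.lf (nat_lit 0) (nat_lit 217340055083) (nat_lit 0) (nat_lit 0) (nat_lit 0) (nat_lit 0) (nat_lit 0) (nat_lit 0) (nat_lit 1) (nat_lit 0) (nat_lit 1) (nat_lit 0) (nat_lit 374) (nat_lit 409) (nat_lit 237)))) (XT.nd (nat_lit 156) (nat_lit 0) (nat_lit 0) (XT.nd (nat_lit 78) (nat_lit 0) (nat_lit 0) (XT.lf (nat_lit 0) (nat_lit 217340026381) (nat_lit 0) (nat_lit 0) (nat_lit 0) (nat_lit 0) (nat_lit 0) (nat_lit 0) (nat_lit 1) (nat_lit 0) (nat_lit 1) (nat_lit 0) (nat_lit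 375) (nat_lit 409) (nat_lit 236)) (XT.lf (nat_lit 0) (nat_lit 217339999805) (nat_lit 0) (nat_lit 0) (nat_lit 0) (nat_lit 0) (nat_lit 0) (nat_lit 0) (nat_lit 1) (nat_lit 0) (nat_lit 1) (nat_lit 0) (nat_lit 376) (nat_lit 409) (nat_lit 235))) (XT.nd (nat_lit 78) (nat_lit 0) (nat_lit 0) (XT.lf (nat_lit 0) (nat_lit 217339975197) (nat_lit 0) (nat_lit 0) (nat_lit 0) (nat_lit 0) (nat_lit 0) (nat_lit 0) (nat_lit 1) (nat_lit 0) (nat_lit 1) (nat_lit 0) (nat_lit 377) (nat_lit 409) (nat_lit 234)) (XT.lf (nat_lit 0) (nat_lit 217339952412) (nat_lit 0) (nat_lit 0) (nat_lit 0) (nat_lit 0) (nat_lit 0) (nat_lit 0) (nat_lit 1) (nat_lit 0) (nat_lit 1) (nat_lit 0) (nat_lit 378) (nat_lit 409) (nat_lit 233))))))) (XT.nd (nat_lit 1014) (nat_lit 0) (nat_lit 0) (XT.nd (nat_lit 468) (nat_lit 0) (nat_lit 0) (XT.nd (nat_lit 234) (nat_lit 0) (nat_lit 0) (XT.nd (nat_lit 78) (nat_lit 0) (nat_lit 0) (XT.lf (nat_lit 0) (nat_lit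 217339931315) (nat_lit 0) (nat_lit 0) (nat_lit 0) (nat_lit 0) (nat_lit 0) (nat_lit 0) (nat_lit 1) (nat_lit 0) (nat_lit 1) (nat_lit 0) (nat_lit 379) (nat_lit 409) (nat_lit 232)) (XT.nd (nat_lit 78) (nat_lit 0) (nat_lit 0) (XT.lf (nat_lit 0) (nat_lit 217339911780) (nat_lit 0) (nat_lit 0) (nat_lit 0) (nat_lit 0) (nat_lit 0) (nat_lit 0) (nat_lit 1) (nat_lit 0) (nat_lit 1) (nat_lit 0) (nat_lit 380) (nat_lit 409) (nat_lit 231)) (XT.lf (nat_lit 0) (nat_lit 217339893693) (nat_lit 0) (nat_lit 0) (nat_lit 0) (nat_lit 0) (nat_lit 0) (nat_lit 0) (nat_lit 1) (nat_lit 0) (nat_lit 1) (nat_lit 0) (nat_lit 381) (nat_lit 409) (nat_lit 230)))) (XT.nd (nat_lit 78) (nat_lit 0) (nat_lit 0) (XT.lf (nat_lit 0) (nat_lit 217339876945) (nat_lit 0) (nat_lit 0) (nat_lit 0) (nat_lit 0) (nat_lit 0) (nat_lit 0) (nat_lit 1) (nat_lit 0) (nat_lit 1) (nat_lit 0) (nat_lit 382) (nat_lit 409) (nat_lit 229)) (XT.nd (nat_lit 78) (nat_lit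 0) (nat_lit 0) (XT.lf (nat_lit 0) (nat_lit 217339861438) (nat_lit 0) (nat_lit 0) (nat_lit 0) (nat_lit 0) (nat_lit 0) (nat_lit 0) (nat_lit 1) (nat_lit 0) (nat_lit 1) (nat_lit 0) (nat_lit 383) (nat_lit 409) (nat_lit 228)) (XT.lf (nat_lit 0) (nat_lit 217339847080) (nat_lit 0) (nat_lit 0) (nat_lit 0) (nat_lit 0) (nat_lit 0) (nat_lit 0) (nat_lit 1) (nat_lit 0) (nat_lit 1) (nat_lit 0) (nat_lit 384) (nat_lit 409) (nat_lit 227))))) (XT.nd (nat_lit 234) (nat_lit 0) (nat_lit 0) (XT.nd (nat_lit 78) (nat_lit 0) (nat_lit 0) (XT.lf (nat_lit 0) (nat_lit 217339833785) (nat_lit 0) (nat_lit 0) (nat_lit 0) (nat_lit 0) (nat_lit 0) (nat_lit 0) (nat_lit 1) (nat_lit 0) (nat_lit 1) (nat_lit 0) (nat_lit 385) (nat_lit 409) (nat_lit 226)) (XT.nd (nat_lit 78) (nat_lit 0) (nat_lit 0) (XT.lf (nat_lit 0) (nat_lit 217339821475) (nat_lit 0) (nat_lit 0) (nat_lit 0) (nat_lit 0) (nat_lit 0) (nat_lit 0) (nat_lit 1) (nat_lit 0) (nat_lit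 1) (nat_lit 0) (nat_lit 386) (nat_lit 409) (nat_lit 225)) (XT.lf (nat_lit 0) (nat_lit 217339810077) (nat_lit 0) (nat_lit 0) (nat_lit 0) (nat_lit 0) (nat_lit 0) (nat_lit 0) (nat_lit 1) (nat_lit 0) (nat_lit 1) (nat_lit 0) (nat_lit 387) (nat_lit 409) (nat_lit 224)))) (XT.nd (nat_lit 156) (nat_lit 0) (nat_lit 0) (XT.nd (nat_lit 78) (nat_lit 0) (nat_lit 0) (XT.lf (nat_lit 0) (nat_lit 217339799523) (nat_lit 0) (nat_lit 0) (nat_lit 0) (nat_lit 0) (nat_lit 0) (nat_lit 0) (nat_lit 1) (nat_lit 0) (nat_lit 1) (nat_lit 0) (nat_lit 388) (nat_lit 409) (nat_lit 223)) (XT.lf (nat_lit 0) (nat_lit 217339789751) (nat_lit 0) (nat_lit 0) (nat_lit 0) (nat_lit 0) (nat_lit 0) (nat_lit 0) (nat_lit 1) (nat_lit 0) (nat_lit 1) (nat_lit 0) (nat_lit 389) (nat_lit 409) (nat_lit 222))) (XT.nd (nat_lit 78) (nat_lit 0) (nat_lit 0) (XT.lf (nat_lit 0) (nat_lit 217339780703) (nat_lit 0) (nat_lit 0) (nat_lit 0) (nat_lit 0) (nat_lit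 0) (nat_lit 0) (nat_lit 1) (nat_lit 0) (nat_lit 1) (nat_lit 0) (nat_lit 390) (nat_lit 409) (nat_lit 221)) (XT.lf (nat_lit 0) (nat_lit 217339772325) (nat_lit 0) (nat_lit 0) (nat_lit 0) (nat_lit 0) (nat_lit 0) (nat_lit 0) (nat_lit 1) (nat_lit 0) (nat_lit 1) (nat_lit 0) (nat_lit 391) (nat_lit 409) (nat_lit 220)))))) (XT.nd (nat_lit 546) (nat_lit 0) (nat_lit 0) (XT.nd (nat_lit 234) (nat_lit 0) (nat_lit 0) (XT.nd (nat_lit 78) (nat_lit 0) (nat_lit 0) (XT.lf (nat_lit 0) (nat_lit 217339764567) (nat_lit 0) (nat_lit 0) (nat_lit 0) (nat_lit 0) (nat_lit 0) (nat_lit 0) (nat_lit 1) (nat_lit 0) (nat_lit 1) (nat_lit 0) (nat_lit 392) (nat_lit 409) (nat_lit 219)) (XT.nd (nat_lit 78) (nat_lit 0) (nat_lit 0) (XT.lf (nat_lit 0) (nat_lit 217339757385) (nat_lit 0) (nat_lit 0) (nat_lit 0) (nat_lit 0) (nat_lit 0) (nat_lit 0) (nat_lit 1) (nat_lit 0) (nat_lit 1) (nat_lit 0) (nat_lit 393) (nat_lit 409) (nat_lit 218)) (XT.lf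 (nat_lit 0) (nat_lit 217339750734) (nat_lit 0) (nat_lit 0) (nat_lit 0) (nat_lit 0) (nat_lit 0) (nat_lit 0) (nat_lit 1) (nat_lit 0) (nat_lit 1) (nat_lit 0) (nat_lit 394) (nat_lit 409) (nat_lit 217)))) (XT.nd (nat_lit 156) (nat_lit 0) (nat_lit 0) (XT.nd (nat_lit 78) (nat_lit 0) (nat_lit 0) (XT.lf (nat_lit 0) (nat_lit 217339744576) (nat_lit 0) (nat_lit 0) (nat_lit 0) (nat_lit 0) (nat_lit 0) (nat_lit 0) (nat_lit 1) (nat_lit 0) (nat_lit 1) (nat_lit 0) (nat_lit 395) (nat_lit 409) (nat_lit 216)) (XT.lf (nat_lit 0) (nat_lit 217339738874) (nat_lit 0) (nat_lit 0) (nat_lit 0) (nat_lit 0) (nat_lit 0) (nat_lit 0) (nat_lit 1) (nat_lit 0) (nat_lit 1) (nat_lit 0) (nat_lit 396) (nat_lit 409) (nat_lit 215))) (XT.nd (nat_lit 78) (nat_lit 0) (nat_lit 0) (XT.lf (nat_lit 0) (nat_lit 217339733594) (nat_lit 0) (nat_lit 0) (nat_lit 0) (nat_lit 0) (nat_lit 0) (nat_lit 0) (nat_lit 1) (nat_lit 0) (nat_lit 1) (nat_lit 0)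 (nat_lit 397) (nat_lit 409) (nat_lit 214)) (XT.lf (nat_lit 0) (nat_lit 217339728706) (nat_lit 0) (nat_lit 0) (nat_lit 0) (nat_lit 0) (nat_lit 0) (nat_lit 0) (nat_lit 1) (nat_lit 0) (nat_lit 1) (nat_lit 0) (nat_lit 398) (nat_lit 409) (nat_lit 213))))) (XT.nd (nat_lit 234) (nat_lit 0) (nat_lit 0) (XT.nd (nat_lit 78) (nat_lit 0) (nat_lit 0) (XT.lf (nat_lit 0) (nat_lit 217339724179) (nat_lit 0) (nat_lit 0) (nat_lit 0) (nat_lit 0) (nat_lit 0) (nat_lit 0) (nat_lit 1) (nat_lit 0) (nat_lit 1) (nat_lit 0) (nat_lit 399) (nat_lit 409) (nat_lit 212)) (XT.nd (nat_lit 78) (nat_lit 0) (nat_lit 0) (XT.lf (nat_lit 0) (nat_lit 217339719988) (nat_lit 0) (nat_lit 0) (nat_lit 0) (nat_lit 0) (nat_lit 0) (nat_lit 0) (nat_lit 1) (nat_lit 0) (nat_lit 1) (nat_lit 0) (nat_lit 400) (nat_lit 409) (nat_lit 211)) (XT.lf (nat_lit 0) (nat_lit 217339716108) (nat_lit 0) (nat_lit 0) (nat_lit 0) (nat_lit 0) (nat_lit 0) (nat_lit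 0) (nat_lit 1) (nat_lit 0) (nat_lit 1) (nat_lit 0) (nat_lit 401) (nat_lit 409) (nat_lit 210)))) (XT.nd (nat_lit 156) (nat_lit 0) (nat_lit 0) (XT.nd (nat_lit 78) (nat_lit 0) (nat_lit 0) (XT.lf (nat_lit 0) (nat_lit 217339712515) (nat_lit 0) (nat_lit 0) (nat_lit 0) (nat_lit 0) (nat_lit 0) (nat_lit 0) (nat_lit 1) (nat_lit 0) (nat_lit 1) (nat_lit 0) (nat_lit 402) (nat_lit 409) (nat_lit 209)) (XT.lf (nat_lit 0) (nat_lit 217339709188) (nat_lit 0) (nat_lit 0) (nat_lit 0) (nat_lit 0) (nat_lit 0) (nat_lit 0) (nat_lit 1) (nat_lit 0) (nat_lit 1) (nat_lit 0) (nat_lit 403) (nat_lit 409) (nat_lit 208))) (XT.nd (nat_lit 78) (nat_lit 0) (nat_lit 0) (XT.lf (nat_lit 0) (nat_lit 217339706107) (nat_lit 0) (nat_lit 0) (nat_lit 0) (nat_lit 0) (nat_lit 0) (nat_lit 0) (nat_lit 1) (nat_lit 0) (nat_lit 1) (nat_lit 0) (nat_lit 404) (nat_lit 409) (nat_lit 207)) (XT.lf (nat_lit 0) (nat_lit 217339703255) (nat_lit 0) (nat_lit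 0) (nat_lit 0) (nat_lit 0) (nat_lit 0) (nat_lit 0) (nat_lit 1) (nat_lit 0) (nat_lit 1) (nat_lit 0) (nat_lit 405) (nat_lit 409) (nat_lit 206))))))))
noncomputable def ec218 : XT := (XT.nd (nat_lit 38376) (nat_lit 0) (nat_lit 14136) (XT.nd (nat_lit 37362) (nat_lit 0) (nat_lit 19000) (XT.nd (nat_lit 468) (nat_lit 0) (nat_lit 0) (XT.nd (nat_lit 234) (nat_lit 0) (nat_lit 0) (XT.nd (nat_lit 78) (nat_lit 0) (nat_lit 0) (XT.lf (nat_lit 0) (nat_lit 217339700614) (nat_lit 0) (nat_lit 0) (nat_lit 0) (nat_lit 0) (nat_lit 0) (nat_lit 0) (nat_lit 1) (nat_lit 0) (nat_lit 1) (nat_lit 0) (nat_lit 406) (nat_lit 409) (nat_lit 205)) (XT.nd (nat_lit 78) (nat_lit 0) (nat_lit 0) (XT.lf (nat_lit 0) (nat_lit 217339698168) (nat_lit 0) (nat_lit 0) (nat_lit 0) (nat_lit 0) (nat_lit 0) (nat_lit 0) (nat_lit 1) (nat_lit 0) (nat_lit 1) (nat_lit 0) (nat_lit 407) (nat_lit 409) (nat_lit 204)) (XT.lf (nat_lit 0) (nat_lit 217339695904)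 (nat_lit 0) (nat_lit 0) (nat_lit 0) (nat_lit 0) (nat_lit 0) (nat_lit 0) (nat_lit 1) (nat_lit 0) (nat_lit 1) (nat_lit 0) (nat_lit 408) (nat_lit 409) (nat_lit 203)))) (XT.nd (nat_lit 78) (nat_lit 0) (nat_lit 0) (XT.lf (nat_lit 0) (nat_lit 217339693807) (nat_lit 0) (nat_lit 0) (nat_lit 0) (nat_lit 0) (nat_lit 0) (nat_lit 0) (nat_lit 1) (nat_lit 0) (nat_lit 1) (nat_lit 0) (nat_lit 409) (nat_lit 409) (nat_lit 202)) (XT.nd (nat_lit 78) (nat_lit 0) (nat_lit 0) (XT.lf (nat_lit 0) (nat_lit 217339691866) (nat_lit 0) (nat_lit 0) (nat_lit 0) (nat_lit 0) (nat_lit 0) (nat_lit 0) (nat_lit 1) (nat_lit 0) (nat_lit 1) (nat_lit 0) (nat_lit 410) (nat_lit 409) (nat_lit 201)) (XT.lf (nat_lit 0) (nat_lit 217339690068) (nat_lit 0) (nat_lit 0) (nat_lit 0) (nat_lit 0) (nat_lit 0) (nat_lit 0) (nat_lit 1) (nat_lit 0) (nat_lit 1) (nat_lit 0) (nat_lit 411) (nat_lit 409) (nat_lit 200))))) (XT.nd (nat_lit 36582) (nat_lit 0)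 (nat_lit 22192) (XT.nd (nat_lit 78) (nat_lit 0) (nat_lit 0) (XT.lf (nat_lit 0) (nat_lit 217339688404) (nat_lit 0) (nat_lit 0) (nat_lit 0) (nat_lit 0) (nat_lit 0) (nat_lit 0) (nat_lit 1) (nat_lit 0) (nat_lit 1) (nat_lit 0) (nat_lit 412) (nat_lit 409) (nat_lit 199)) (XT.nd (nat_lit 78) (nat_lit 0) (nat_lit 0) (XT.lf (nat_lit 0) (nat_lit 217339686863) (nat_lit 0) (nat_lit 0) (nat_lit 0) (nat_lit 0) (nat_lit 0) (nat_lit 0) (nat_lit 1) (nat_lit 0) (nat_lit 1) (nat_lit 0) (nat_lit 413) (nat_lit 409) (nat_lit 198)) (XT.lf (nat_lit 0) (nat_lit 217339685436) (nat_lit 0) (nat_lit 0) (nat_lit 0) (nat_lit 0) (nat_lit 0) (nat_lit 0) (nat_lit 1) (nat_lit 0) (nat_lit 1) (nat_lit 0) (nat_lit 414) (nat_lit 409) (nat_lit 197)))) (XT.nd (nat_lit 156) (nat_lit 0) (nat_lit 76) (XT.nd (nat_lit 78) (nat_lit 0) (nat_lit 76) (XT.lf (nat_lit 836) (nat_lit 117466103544) (nat_lit 0) (nat_lit 208560796837) (nat_lit 836)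 (nat_lit 117466103544) (nat_lit 303) (nat_lit 1) (nat_lit 292) (nat_lit 0) (nat_lit 303) (nat_lit 0) (nat_lit 200) (nat_lit 410) (nat_lit 410)) (XT.lf (nat_lit 836) (nat_lit 43818460968) (nat_lit 0) (nat_lit 409468054020) (nat_lit 760) (nat_lit 400458388828) (nat_lit 304) (nat_lit 1) (nat_lit 293) (nat_lit 1) (nat_lit 303) (nat_lit 1) (nat_lit 201) (nat_lit 410) (nat_lit 409))) (XT.nd (nat_lit 78) (nat_lit 0) (nat_lit 76) (XT.lf (nat_lit 836) (nat_lit 402447271611) (nat_lit 76) (nat_lit 274220893799) (nat_lit 0) (nat_lit 145434253183) (nat_lit 304) (nat_lit 1) (nat_lit 294) (nat_lit 1) (nat_lit 293) (nat_lit 1) (nat_lit 202) (nat_lit 410) (nat_lit 408)) (XT.lf (nat_lit 836) (nat_lit 347747411627) (nat_lit 76) (nat_lit 114924075872) (nat_lit 0) (nat_lit 329371916092) (nat_lit 305) (nat_lit 1) (nat_lit 295) (nat_lit 1) (nat_lit 294) (nat_lit 1) (nat_lit 203) (nat_lit 410) (nat_lit 407)))))) (XT.nd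 (nat_lit 468) (nat_lit 1900) (nat_lit 0) (XT.nd (nat_lit 234) (nat_lit 1520) (nat_lit 0) (XT.nd (nat_lit 78) (nat_lit 0) (nat_lit 76) (XT.lf (nat_lit 836) (nat_lit 257362649062) (nat_lit 0) (nat_lit 481513351390) (nat_lit 760) (nat_lit 24614893728) (nat_lit 306) (nat_lit 1) (nat_lit 295) (nat_lit 1) (nat_lit 305) (nat_lit 1) (nat_lit 204) (nat_lit 410) (nat_lit 406)) (XT.nd (nat_lit 78) (nat_lit 0) (nat_lit 0) (XT.lf (nat_lit 836) (nat_lit 61751644271) (nat_lit 0) (nat_lit 531002239505) (nat_lit 760) (nat_lit 143548083186) (nat_lit 307) (nat_lit 1) (nat_lit 296) (nat_lit 1) (nat_lit 306) (nat_lit 1) (nat_lit 205) (nat_lit 410) (nat_lit 405)) (XT.lf (nat_lit 836) (nat_lit 118661543770) (nat_lit 76) (nat_lit 461484187498) (nat_lit 0) (nat_lit 130236531345) (nat_lit 307) (nat_lit 1) (nat_lit 297) (nat_lit 1) (nat_lit 296) (nat_lit 1) (nat_lit 206) (nat_lit 410) (nat_lit 404)))) (XT.nd (nat_lit 78)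 (nat_lit 912) (nat_lit 0) (XT.lf (nat_lit 836) (nat_lit 24370375244) (nat_lit 0) (nat_lit 344989956160) (nat_lit 760) (nat_lit 316352175050) (nat_lit 298) (nat_lit 1) (nat_lit 287) (nat_lit 1) (nat_lit 297) (nat_lit 1) (nat_lit 207) (nat_lit 410) (nat_lit 403)) (XT.nd (nat_lit 78) (nat_lit 380) (nat_lit 0) (XT.lf (nat_lit 76) (nat_lit 168745554741) (nat_lit 0) (nat_lit 73125301651) (nat_lit 532) (nat_lit 420339983037) (nat_lit 281) (nat_lit 1) (nat_lit 280) (nat_lit 1) (nat_lit 287) (nat_lit 1) (nat_lit 208) (nat_lit 410) (nat_lit 402)) (XT.lf (nat_lit 456) (nat_lit 465041509402) (nat_lit 0) (nat_lit 151381036796) (nat_lit 380) (nat_lit 23404443658) (nat_lit 281) (nat_lit 1) (nat_lit 275) (nat_lit 1) (nat_lit 280) (nat_lit 1) (nat_lit 209) (nat_lit 410) (nat_lit 401))))) (XT.nd (nat_lit 234) (nat_lit 1216) (nat_lit 0) (XT.nd (nat_lit 78) (nat_lit 304) (nat_lit 0) (XT.lf (nat_lit 456) (nat_lit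 335578381646) (nat_lit 0) (nat_lit 70559353346) (nat_lit 380) (nat_lit 212267870798) (nat_lit 276) (nat_lit 1) (nat_lit 270) (nat_lit 1) (nat_lit 275) (nat_lit 1) (nat_lit 210) (nat_lit 410) (nat_lit 400)) (XT.nd (nat_lit 78) (nat_lit 0) (nat_lit 0) (XT.lf (nat_lit 380) (nat_lit 204195165285) (nat_lit 0) (nat_lit 1299112360) (nat_lit 304) (nat_lit 392528620414) (nat_lit 271) (nat_lit 1) (nat_lit 266) (nat_lit 1) (nat_lit 270) (nat_lit 1) (nat_lit 211) (nat_lit 410) (nat_lit 399)) (XT.lf (nat_lit 76) (nat_lit 15064554271) (nat_lit 0) (nat_lit 508049766572) (nat_lit 380) (nat_lit 55463510436) (nat_lit 267) (nat_lit 1) (nat_lit 266) (nat_lit 1) (nat_lit 271) (nat_lit 1) (nat_lit 212) (nat_lit 410) (nat_lit 398)))) (XT.nd (nat_lit 156) (nat_lit 532) (nat_lit 0) (XT.nd (nat_lit 78) (nat_lit 304) (nat_lit 0) (XT.lf (nat_lit 76) (nat_lit 388970698568) (nat_lit 0) (nat_lit 64514952318) (nat_lit 380)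 (nat_lit 106396873177) (nat_lit 262) (nat_lit 1) (nat_lit 261) (nat_lit 1) (nat_lit 266) (nat_lit 1) (nat_lit 213) (nat_lit 410) (nat_lit 397)) (XT.lf (nat_lit 76) (nat_lit 194611897263) (nat_lit 0) (nat_lit 197620751403) (nat_lit 380) (nat_lit 149780622177) (nat_lit 258) (nat_lit 1) (nat_lit 257) (nat_lit 1) (nat_lit 262) (nat_lit 1) (nat_lit 214) (nat_lit 410) (nat_lit 396))) (XT.nd (nat_lit 78) (nat_lit 228) (nat_lit 0) (XT.lf (nat_lit 76) (nat_lit 9605611704) (nat_lit 0) (nat_lit 330418827732) (nat_lit 380) (nat_lit 184965628271) (nat_lit 254) (nat_lit 1) (nat_lit 253) (nat_lit 1) (nat_lit 258) (nat_lit 1) (nat_lit 215) (nat_lit 410) (nat_lit 395)) (XT.lf (nat_lit 304) (nat_lit 43378401088) (nat_lit 0) (nat_lit 293347362648) (nat_lit 228) (nat_lit 171908296369) (nat_lit 254) (nat_lit 1) (nat_lit 250) (nat_lit 1) (nat_lit 253) (nat_lit 1) (nat_lit 216) (nat_lit 410) (nat_lit 394))))))) (XT.nd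 (nat_lit 1014) (nat_lit 1976) (nat_lit 0) (XT.nd (nat_lit 468) (nat_lit 1368) (nat_lit 0) (XT.nd (nat_lit 234) (nat_lit 684) (nat_lit 0) (XT.nd (nat_lit 78) (nat_lit 456) (nat_lit 0) (XT.lf (nat_lit 76) (nat_lit 149884038465) (nat_lit 0) (nat_lit 102731451302) (nat_lit 380) (nat_lit 240338259064) (nat_lit 246) (nat_lit 1) (nat_lit 245) (nat_lit 1) (nat_lit 250) (nat_lit 1) (nat_lit 217) (nat_lit 410) (nat_lit 393)) (XT.nd (nat_lit 78) (nat_lit 228) (nat_lit 0) (XT.lf (nat_lit 304) (nat_lit 232056543330) (nat_lit 0) (nat_lit 217987129856) (nat_lit 228) (nat_lit 27902093908) (nat_lit 246) (nat_lit 1) (nat_lit 242) (nat_lit 1) (nat_lit 245) (nat_lit 1) (nat_lit 218) (nat_lit 410) (nat_lit 392)) (XT.lf (nat_lit 304) (nat_lit 74373001057) (nat_lit 0) (nat_lit 187677992321) (nat_lit 228) (nat_lit 201463552909) (nat_lit 243) (nat_lit 1) (nat_lit 239) (nat_lit 1) (nat_lit 242) (nat_lit 1) (nat_lit 219)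 (nat_lit 410) (nat_lit 391)))) (XT.nd (nat_lit 78) (nat_lit 380) (nat_lit 0) (XT.lf (nat_lit 76) (nat_lit 84767250293) (nat_lit 0) (nat_lit 77611784081) (nat_lit 304) (nat_lit 287303646880) (nat_lit 236) (nat_lit 1) (nat_lit 235) (nat_lit 1) (nat_lit 239) (nat_lit 1) (nat_lit 220) (nat_lit 410) (nat_lit 390)) (XT.nd (nat_lit 78) (nat_lit 152) (nat_lit 0) (XT.lf (nat_lit 304) (nat_lit 210932176680) (nat_lit 0) (nat_lit 140346453821) (nat_lit 228) (nat_lit 85078481742) (nat_lit 236) (nat_lit 1) (nat_lit 232) (nat_lit 1) (nat_lit 235) (nat_lit 1) (nat_lit 221) (nat_lit 410) (nat_lit 389)) (XT.lf (nat_lit 228) (nat_lit 52290398054) (nat_lit 0) (nat_lit 122442044060) (nat_lit 152) (nat_lit 248836691749) (nat_lit 233) (nat_lit 1) (nat_lit 230) (nat_lit 1) (nat_lit 232) (nat_lit 1) (nat_lit 222) (nat_lit 410) (nat_lit 388))))) (XT.nd (nat_lit 234) (nat_lit 684) (nat_lit 0) (XT.nd (nat_lit 78) (nat_lit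 380) (nat_lit 0) (XT.lf (nat_lit 76) (nat_lit 8858327502) (nat_lit 0) (nat_lit 99126607795) (nat_lit 304) (nat_lit 303291915918) (nat_lit 227) (nat_lit 1) (nat_lit 226) (nat_lit 1) (nat_lit 230) (nat_lit 1) (nat_lit 223) (nat_lit 410) (nat_lit 387)) (XT.nd (nat_lit 78) (nat_lit 228) (nat_lit 0) (XT.lf (nat_lit 228) (nat_lit 151946302134) (nat_lit 0) (nat_lit 94953403385) (nat_lit 152) (nat_lit 152475076795) (nat_lit 227) (nat_lit 1) (nat_lit 224) (nat_lit 1) (nat_lit 226) (nat_lit 1) (nat_lit 224) (nat_lit 410) (nat_lit 386)) (XT.lf (nat_lit 76) (nat_lit 82439713663) (nat_lit 0) (nat_lit 3807942059) (nat_lit 228) (nat_lit 301744422966) (nat_lit 222) (nat_lit 1) (nat_lit 221) (nat_lit 1) (nat_lit 224) (nat_lit 1) (nat_lit 225) (nat_lit 410) (nat_lit 385)))) (XT.nd (nat_lit 156) (nat_lit 380) (nat_lit 0) (XT.nd (nat_lit 78) (nat_lit 152) (nat_lit 0) (XT.lf (nat_lit 228) (nat_lit 225374257667) (nat_lit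 0) (nat_lit 78097233596) (nat_lit 152) (nat_lit 73468998545) (nat_lit 222) (nat_lit 1) (nat_lit 219) (nat_lit 1) (nat_lit 221) (nat_lit 1) (nat_lit 226) (nat_lit 410) (nat_lit 384)) (XT.lf (nat_lit 228) (nat_lit 70010275808) (nat_lit 0) (nat_lit 72600014751) (nat_lit 152) (nat_lit 223701160980) (nat_lit 220) (nat_lit 1) (nat_lit 217) (nat_lit 1) (nat_lit 219) (nat_lit 1) (nat_lit 227) (nat_lit 410) (nat_lit 383))) (XT.nd (nat_lit 78) (nat_lit 152) (nat_lit 0) (XT.lf (nat_lit 228) (nat_lit 277915065459) (nat_lit 0) (nat_lit 69363421510) (nat_lit 152) (nat_lit 8799554750) (nat_lit 217) (nat_lit 1) (nat_lit 214) (nat_lit 1) (nat_lit 216) (nat_lit 1) (nat_lit 228) (nat_lit 410) (nat_lit 382)) (XT.lf (nat_lit 228) (nat_lit 124381903025) (nat_lit 0) (nat_lit 66218681891) (nat_lit 152) (nat_lit 155528401140) (nat_lit 215) (nat_lit 1) (nat_lit 212) (nat_lit 1) (nat_lit 214) (nat_lit 1) (nat_lit 229)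 (nat_lit 410) (nat_lit 381)))))) (XT.nd (nat_lit 546) (nat_lit 988) (nat_lit 0) (XT.nd (nat_lit 234) (nat_lit 608) (nat_lit 0) (XT.nd (nat_lit 78) (nat_lit 228) (nat_lit 0) (XT.lf (nat_lit 76) (nat_lit 42605604037) (nat_lit 0) (nat_lit 23417959844) (nat_lit 152) (nat_lit 270569027634) (nat_lit 211) (nat_lit 1) (nat_lit 210) (nat_lit 1) (nat_lit 212) (nat_lit 1) (nat_lit 230) (nat_lit 410) (nat_lit 380)) (XT.nd (nat_lit 78) (nat_lit 76) (nat_lit 0) (XT.lf (nat_lit 228) (nat_lit 163196210060) (nat_lit 0) (nat_lit 65324447832) (nat_lit 152) (nat_lit 98776180930) (nat_lit 211) (nat_lit 1) (nat_lit 208) (nat_lit 1) (nat_lit 210) (nat_lit 1) (nat_lit 231) (nat_lit 410) (nat_lit 379)) (XT.lf (nat_lit 152) (nat_lit 17573912834) (nat_lit 0) (nat_lit 66928900687) (nat_lit 76) (nat_lit 233865256960) (nat_lit 209) (nat_lit 1) (nat_lit 207) (nat_lit 1) (nat_lit 208) (nat_lit 1) (nat_lit 232) (nat_lit 410)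 (nat_lit 378)))) (XT.nd (nat_lit 156) (nat_lit 304) (nat_lit 0) (XT.nd (nat_lit 78) (nat_lit 76) (nat_lit 0) (XT.lf (nat_lit 228) (nat_lit 189703900842) (nat_lit 0) (nat_lit 68450405197) (nat_lit 152) (nat_lit 51531189818) (nat_lit 207) (nat_lit 1) (nat_lit 204) (nat_lit 1) (nat_lit 206) (nat_lit 1) (nat_lit 233) (nat_lit 410) (nat_lit 377)) (XT.lf (nat_lit 152) (nat_lit 47711929934) (nat_lit 0) (nat_lit 71009834823) (nat_lit 76) (nat_lit 182573776680) (nat_lit 205) (nat_lit 1) (nat_lit 203) (nat_lit 1) (nat_lit 204) (nat_lit 1) (nat_lit 234) (nat_lit 410) (nat_lit 376))) (XT.nd (nat_lit 78) (nat_lit 76) (nat_lit 0) (XT.lf (nat_lit 228) (nat_lit 206533211021) (nat_lit 0) (nat_lit 74434660165) (nat_lit 152) (nat_lit 12215364929) (nat_lit 203) (nat_lit 1) (nat_lit 200) (nat_lit 1) (nat_lit 202) (nat_lit 1) (nat_lit 235) (nat_lit 410) (nat_lit 375)) (XT.lf (nat_lit 152) (nat_lit 68664012869) (nat_lit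 0) (nat_lit 77599027646) (nat_lit 76) (nat_lit 139025359530) (nat_lit 201) (nat_lit 1) (nat_lit 199) (nat_lit 1) (nat_lit 200) (nat_lit 1) (nat_lit 236) (nat_lit 410) (nat_lit 374))))) (XT.nd (nat_lit 234) (nat_lit 456) (nat_lit 0) (XT.nd (nat_lit 78) (nat_lit 304) (nat_lit 0) (XT.lf (nat_lit 76) (nat_lit 19819166689) (nat_lit 0) (nat_lit 62207081217) (nat_lit 228) (nat_lit 195650938589) (nat_lit 197) (nat_lit 1) (nat_lit 196) (nat_lit 1) (nat_lit 199) (nat_lit 1) (nat_lit 237) (nat_lit 410) (nat_lit 373)) (XT.nd (nat_lit 78) (nat_lit 228) (nat_lit 0) (XT.lf (nat_lit 152) (nat_lit 82403010499) (nat_lit 0) (nat_lit 85860031126) (nat_lit 76) (nat_lit 101991951123) (nat_lit 197) (nat_lit 1) (nat_lit 195) (nat_lit 1) (nat_lit 196) (nat_lit 1) (nat_lit 238) (nat_lit 410) (nat_lit 372)) (XT.lf (nat_lit 76) (nat_lit 46092002046) (nat_lit 0) (nat_lit 44643220714) (nat_lit 228) (nat_lit 172358410309)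 (nat_lit 193) (nat_lit 1) (nat_lit 192) (nat_lit 1) (nat_lit 195) (nat_lit 1) (nat_lit 239) (nat_lit 410) (nat_lit 371)))) (XT.nd (nat_lit 156) (nat_lit 228) (nat_lit 0) (XT.nd (nat_lit 78) (nat_lit 152) (nat_lit 0) (XT.lf (nat_lit 152) (nat_lit 90519891931) (nat_lit 0) (nat_lit 95139903163) (nat_lit 76) (nat_lit 70455448323) (nat_lit 193) (nat_lit 1) (nat_lit 191) (nat_lit 1) (nat_lit 192) (nat_lit 1) (nat_lit 240) (nat_lit 410) (nat_lit 370)) (XT.lf (nat_lit 76) (nat_lit 67858085330) (nat_lit 0) (nat_lit 32333163484) (nat_lit 152) (nat_lit 149176068987) (nat_lit 190) (nat_lit 1) (nat_lit 189) (nat_lit 1) (nat_lit 191) (nat_lit 1) (nat_lit 241) (nat_lit 410) (nat_lit 369))) (XT.nd (nat_lit 78) (nat_lit 152) (nat_lit 0) (XT.lf (nat_lit 152) (nat_lit 94295103388) (nat_lit 0) (nat_lit 104933443086) (nat_lit 76) (nat_lit 43570248269) (nat_lit 190) (nat_lit 1) (nat_lit 188) (nat_lit 1) (nat_lit 189)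 (nat_lit 1) (nat_lit 242) (nat_lit 410) (nat_lit 368)) (XT.lf (nat_lit 76) (nat_lit 85834168615) (nat_lit 0) (nat_lit 24120961560) (nat_lit 152) (nat_lit 126477182411) (nat_lit 187) (nat_lit 1) (nat_lit 186) (nat_lit 1) (nat_lit 188) (nat_lit 1) (nat_lit 243) (nat_lit 410) (nat_lit 367))))))))
noncomputable def ec219 : XT := (XT.nd (nat_lit 2106) (nat_lit 3344) (nat_lit 0) (XT.nd (nat_lit 1014) (nat_lit 1672) (nat_lit 0) (XT.nd (nat_lit 468) (nat_lit 760) (nat_lit 0) (XT.nd (nat_lit 234) (nat_lit 380) (nat_lit 0) (XT.nd (nat_lit 78) (nat_lit 228) (nat_lit 0) (XT.lf (nat_lit 152) (nat_lit 94756752121) (nat_lit 0) (nat_lit 114854125527) (nat_lit 76) (nat_lit 20632599486) (nat_lit 187) (nat_lit 1) (nat_lit 185) (nat_lit 1) (nat_lit 186) (nat_lit 1) (nat_lit 244) (nat_lit 410) (nat_lit 366)) (XT.nd (nat_lit 78) (nat_lit 76) (nat_lit 0) (XT.lf (nat_lit 76) (nat_lit 100615952851) (nat_lit 0) (nat_lit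 19077125314) (nat_lit 152) (nat_lit 104537096589) (nat_lit 184) (nat_lit 1) (nat_lit 183) (nat_lit 1) (nat_lit 185) (nat_lit 1) (nat_lit 245) (nat_lit 410) (nat_lit 365)) (XT.lf (nat_lit 152) (nat_lit 92728039262) (nat_lit 0) (nat_lit 124610495113) (nat_lit 76) (nat_lit 1055511303) (nat_lit 184) (nat_lit 1) (nat_lit 182) (nat_lit 1) (nat_lit 183) (nat_lit 1) (nat_lit 246) (nat_lit 410) (nat_lit 364)))) (XT.nd (nat_lit 78) (nat_lit 228) (nat_lit 0) (XT.lf (nat_lit 76) (nat_lit 112699515100) (nat_lit 0) (nat_lit 16456101857) (nat_lit 152) (nat_lit 83553190523) (nat_lit 181) (nat_lit 1) (nat_lit 180) (nat_lit 1) (nat_lit 182) (nat_lit 1) (nat_lit 247) (nat_lit 410) (nat_lit 363)) (XT.nd (nat_lit 78) (nat_lit 152) (nat_lit 0) (XT.lf (nat_lit 0) (nat_lit 15150839030) (nat_lit 0) (nat_lit 118579586235) (nat_lit 152) (nat_lit 73458493007) (nat_lit 179) (nat_lit 3) (nat_lit 179) (nat_lit 1) (nat_lit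 181) (nat_lit 1) (nat_lit 248) (nat_lit 410) (nat_lit 362)) (XT.lf (nat_lit 76) (nat_lit 122498857133) (nat_lit 0) (nat_lit 15661617416) (nat_lit 152) (nat_lit 63661042818) (nat_lit 178) (nat_lit 1) (nat_lit 177) (nat_lit 1) (nat_lit 179) (nat_lit 1) (nat_lit 249) (nat_lit 410) (nat_lit 361))))) (XT.nd (nat_lit 234) (nat_lit 456) (nat_lit 0) (XT.nd (nat_lit 78) (nat_lit 228) (nat_lit 0) (XT.lf (nat_lit 0) (nat_lit 28943707664) (nat_lit 0) (nat_lit 113394641106) (nat_lit 152) (nat_lit 54258713678) (nat_lit 176) (nat_lit 3) (nat_lit 176) (nat_lit 1) (nat_lit 178) (nat_lit 1) (nat_lit 250) (nat_lit 410) (nat_lit 360)) (XT.nd (nat_lit 78) (nat_lit 76) (nat_lit 0) (XT.lf (nat_lit 76) (nat_lit 130360283709) (nat_lit 0) (nat_lit 16218436956) (nat_lit 152) (nat_lit 44947512982) (nat_lit 175) (nat_lit 1) (nat_lit 174) (nat_lit 1) (nat_lit 176) (nat_lit 1) (nat_lit 251) (nat_lit 410) (nat_lit 359)) (XT.lf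 (nat_lit 0) (nat_lit 40691631861) (nat_lit 0) (nat_lit 109646930576) (nat_lit 152) (nat_lit 36240425334) (nat_lit 173) (nat_lit 3) (nat_lit 173) (nat_lit 1) (nat_lit 175) (nat_lit 1) (nat_lit 252) (nat_lit 410) (nat_lit 358)))) (XT.nd (nat_lit 156) (nat_lit 228) (nat_lit 0) (XT.nd (nat_lit 78) (nat_lit 76) (nat_lit 0) (XT.lf (nat_lit 76) (nat_lit 136574189075) (nat_lit 0) (nat_lit 17749359975) (nat_lit 152) (nat_lit 27461310860) (nat_lit 172) (nat_lit 1) (nat_lit 171) (nat_lit 1) (nat_lit 173) (nat_lit 1) (nat_lit 253) (nat_lit 410) (nat_lit 357)) (XT.lf (nat_lit 0) (nat_lit 50676843358) (nat_lit 0) (nat_lit 106979752361) (nat_lit 152) (nat_lit 19441532936) (nat_lit 170) (nat_lit 3) (nat_lit 170) (nat_lit 1) (nat_lit 172) (nat_lit 1) (nat_lit 254) (nat_lit 410) (nat_lit 356))) (XT.nd (nat_lit 78) (nat_lit 76) (nat_lit 0) (XT.lf (nat_lit 76) (nat_lit 141384724248) (nat_lit 0) (nat_lit 19956488370)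 (nat_lit 152) (nat_lit 11221521992) (nat_lit 169) (nat_lit 1) (nat_lit 168) (nat_lit 1) (nat_lit 170) (nat_lit 1) (nat_lit 255) (nat_lit 410) (nat_lit 355)) (XT.lf (nat_lit 0) (nat_lit 59138042893) (nat_lit 0) (nat_lit 105110109164) (nat_lit 152) (nat_lit 3873013248) (nat_lit 167) (nat_lit 3) (nat_lit 167) (nat_lit 1) (nat_lit 169) (nat_lit 1) (nat_lit 256) (nat_lit 410) (nat_lit 354)))))) (XT.nd (nat_lit 546) (nat_lit 760) (nat_lit 0) (XT.nd (nat_lit 234) (nat_lit 456) (nat_lit 0) (XT.nd (nat_lit 78) (nat_lit 228) (nat_lit 0) (XT.lf (nat_lit 152) (nat_lit 141158261149) (nat_lit 0) (nat_lit 3900365643) (nat_lit 76) (nat_lit 18766509318) (nat_lit 166) (nat_lit 1) (nat_lit 164) (nat_lit 1) (nat_lit 165) (nat_lit 1) (nat_lit 257) (nat_lit 410) (nat_lit 353)) (XT.nd (nat_lit 78) (nat_lit 152) (nat_lit 0) (XT.lf (nat_lit 76) (nat_lit 55625626338) (nat_lit 0) (nat_lit 10821106297) (nat_lit 76) (nat_lit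 93162423542) (nat_lit 164) (nat_lit 3) (nat_lit 163) (nat_lit 1) (nat_lit 164) (nat_lit 1) (nat_lit 258) (nat_lit 410) (nat_lit 352)) (XT.lf (nat_lit 152) (nat_lit 129739258276) (nat_lit 0) (nat_lit 18131077655) (nat_lit 76) (nat_lit 7667640082) (nat_lit 163) (nat_lit 1) (nat_lit 161) (nat_lit 1) (nat_lit 162) (nat_lit 1) (nat_lit 259) (nat_lit 410) (nat_lit 351)))) (XT.nd (nat_lit 156) (nat_lit 228) (nat_lit 0) (XT.nd (nat_lit 78) (nat_lit 152) (nat_lit 0) (XT.lf (nat_lit 76) (nat_lit 48241452912) (nat_lit 0) (nat_lit 24408174135) (nat_lit 76) (nat_lit 78890741895) (nat_lit 161) (nat_lit 3) (nat_lit 160) (nat_lit 1) (nat_lit 161) (nat_lit 1) (nat_lit 260) (nat_lit 410) (nat_lit 350)) (XT.lf (nat_lit 0) (nat_lit 2036191559) (nat_lit 0) (nat_lit 29063783255) (nat_lit 152) (nat_lit 116581882555) (nat_lit 158) (nat_lit 3) (nat_lit 158) (nat_lit 1) (nat_lit 160) (nat_lit 1) (nat_lit 261) (nat_lit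 410) (nat_lit 349))) (XT.nd (nat_lit 78) (nat_lit 152) (nat_lit 0) (XT.lf (nat_lit 76) (nat_lit 41034262685) (nat_lit 0) (nat_lit 36797981500) (nat_lit 76) (nat_lit 66059810552) (nat_lit 158) (nat_lit 3) (nat_lit 157) (nat_lit 1) (nat_lit 158) (nat_lit 1) (nat_lit 262) (nat_lit 410) (nat_lit 348)) (XT.lf (nat_lit 0) (nat_lit 10355623726) (nat_lit 0) (nat_lit 32424008088) (nat_lit 152) (nat_lit 97448936474) (nat_lit 155) (nat_lit 3) (nat_lit 155) (nat_lit 1) (nat_lit 157) (nat_lit 1) (nat_lit 263) (nat_lit 410) (nat_lit 347))))) (XT.nd (nat_lit 234) (nat_lit 456) (nat_lit 0) (XT.nd (nat_lit 78) (nat_lit 228) (nat_lit 0) (XT.lf (nat_lit 76) (nat_lit 34084840688) (nat_lit 0) (nat_lit 48036892227) (nat_lit 76) (nat_lit 54518529912) (nat_lit 155) (nat_lit 3) (nat_lit 154) (nat_lit 1) (nat_lit 155) (nat_lit 1) (nat_lit 264) (nat_lit 410) (nat_lit 346)) (XT.nd (nat_lit 78) (nat_lit 76) (nat_lit 0) (XT.lf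 (nat_lit 0) (nat_lit 17662851764) (nat_lit 0) (nat_lit 35681978064) (nat_lit 152) (nat_lit 79816169940) (nat_lit 152) (nat_lit 3) (nat_lit 152) (nat_lit 1) (nat_lit 154) (nat_lit 1) (nat_lit 265) (nat_lit 410) (nat_lit 345)) (XT.lf (nat_lit 76) (nat_lit 27450623785) (nat_lit 0) (nat_lit 58177130849) (nat_lit 76) (nat_lit 44134999989) (nat_lit 152) (nat_lit 3) (nat_lit 151) (nat_lit 1) (nat_lit 152) (nat_lit 1) (nat_lit 266) (nat_lit 410) (nat_lit 344)))) (XT.nd (nat_lit 156) (nat_lit 228) (nat_lit 0) (XT.nd (nat_lit 78) (nat_lit 76) (nat_lit 0) (XT.lf (nat_lit 0) (nat_lit 24068257655) (nat_lit 0) (nat_lit 38781111450) (nat_lit 152) (nat_lit 63608305969) (nat_lit 149) (nat_lit 3) (nat_lit 149) (nat_lit 1) (nat_lit 151) (nat_lit 1) (nat_lit 267) (nat_lit 410) (nat_lit 343)) (XT.lf (nat_lit 76) (nat_lit 21170562296) (nat_lit 0) (nat_lit 67274688075) (nat_lit 76) (nat_lit 34793575069) (nat_lit 149)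 (nat_lit 3) (nat_lit 148) (nat_lit 1) (nat_lit 149) (nat_lit 1) (nat_lit 268) (nat_lit 410) (nat_lit 342))) (XT.nd (nat_lit 78) (nat_lit 76) (nat_lit 0) (XT.lf (nat_lit 0) (nat_lit 29668343519) (nat_lit 0) (nat_lit 41681582296) (nat_lit 152) (nat_lit 48748645540) (nat_lit 146) (nat_lit 3) (nat_lit 146) (nat_lit 1) (nat_lit 148) (nat_lit 1) (nat_lit 269) (nat_lit 410) (nat_lit 341)) (XT.lf (nat_lit 76) (nat_lit 15269052665) (nat_lit 0) (nat_lit 75387677456) (nat_lit 76) (nat_lit 26392421903) (nat_lit 146) (nat_lit 3) (nat_lit 145) (nat_lit 1) (nat_lit 146) (nat_lit 1) (nat_lit 270) (nat_lit 410) (nat_lit 340))))))) (XT.nd (nat_lit 1014) (nat_lit 1748) (nat_lit 0) (XT.nd (nat_lit 468) (nat_lit 836) (nat_lit 0) (XT.nd (nat_lit 234) (nat_lit 380) (nat_lit 0) (XT.nd (nat_lit 78) (nat_lit 228) (nat_lit 0) (XT.lf (nat_lit 0) (nat_lit 34547822240) (nat_lit 0) (nat_lit 44356789822) (nat_lit 152) (nat_lit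 35160366855) (nat_lit 143) (nat_lit 3) (nat_lit 143) (nat_lit 1) (nat_lit 145) (nat_lit 1) (nat_lit 271) (nat_lit 410) (nat_lit 339)) (XT.nd (nat_lit 78) (nat_lit 152) (nat_lit 0) (XT.lf (nat_lit 76) (nat_lit 9759113921) (nat_lit 0) (nat_lit 82575056287) (nat_lit 76) (nat_lit 18841491312) (nat_lit 143) (nat_lit 3) (nat_lit 142) (nat_lit 1) (nat_lit 143) (nat_lit 1) (nat_lit 272) (nat_lit 410) (nat_lit 338)) (XT.lf (nat_lit 0) (nat_lit 38781354588) (nat_lit 0) (nat_lit 46790505726) (nat_lit 152) (nat_lit 22767519604) (nat_lit 140) (nat_lit 3) (nat_lit 140) (nat_lit 1) (nat_lit 142) (nat_lit 1) (nat_lit 273) (nat_lit 410) (nat_lit 337)))) (XT.nd (nat_lit 78) (nat_lit 304) (nat_lit 0) (XT.lf (nat_lit 76) (nat_lit 4644948787) (nat_lit 0) (nat_lit 88895639953) (nat_lit 76) (nat_lit 12060829470) (nat_lit 140) (nat_lit 3) (nat_lit 139) (nat_lit 1) (nat_lit 140) (nat_lit 1) (nat_lit 274) (nat_lit 410)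 (nat_lit 336)) (XT.nd (nat_lit 78) (nat_lit 152) (nat_lit 0) (XT.lf (nat_lit 0) (nat_lit 42434995776) (nat_lit 0) (nat_lit 48974573098) (nat_lit 152) (nat_lit 11495774334) (nat_lit 137) (nat_lit 3) (nat_lit 137) (nat_lit 1) (nat_lit 139) (nat_lit 1) (nat_lit 275) (nat_lit 410) (nat_lit 335)) (XT.lf (nat_lit 76) (nat_lit 94332543095) (nat_lit 0) (nat_lit 73563275) (nat_lit 152) (nat_lit 5904359472) (nat_lit 136) (nat_lit 1) (nat_lit 135) (nat_lit 1) (nat_lit 137) (nat_lit 1) (nat_lit 276) (nat_lit 410) (nat_lit 334))))) (XT.nd (nat_lit 234) (nat_lit 456) (nat_lit 0) (XT.nd (nat_lit 78) (nat_lit 304) (nat_lit 0) (XT.lf (nat_lit 0) (nat_lit 45567403026) (nat_lit 0) (nat_lit 50907053985) (nat_lit 152) (nat_lit 1272975693) (nat_lit 134) (nat_lit 3) (nat_lit 134) (nat_lit 1) (nat_lit 136) (nat_lit 1) (nat_lit 277) (nat_lit 410) (nat_lit 333)) (XT.nd (nat_lit 78) (nat_lit 76) (nat_lit 0) (XT.lf (nat_lit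 152) (nat_lit 90949892380) (nat_lit 0) (nat_lit 3935719952) (nat_lit 76) (nat_lit 395909906) (nat_lit 133) (nat_lit 1) (nat_lit 131) (nat_lit 1) (nat_lit 132) (nat_lit 1) (nat_lit 278) (nat_lit 410) (nat_lit 332)) (XT.lf (nat_lit 76) (nat_lit 40125401874) (nat_lit 0) (nat_lit 8234000242) (nat_lit 76) (nat_lit 44485297163) (nat_lit 131) (nat_lit 3) (nat_lit 130) (nat_lit 1) (nat_lit 131) (nat_lit 1) (nat_lit 279) (nat_lit 410) (nat_lit 331)))) (XT.nd (nat_lit 156) (nat_lit 228) (nat_lit 0) (XT.nd (nat_lit 78) (nat_lit 76) (nat_lit 0) (XT.lf (nat_lit 0) (nat_lit 4535961941) (nat_lit 0) (nat_lit 8380666782) (nat_lit 152) (nat_lit 77582924975) (nat_lit 128) (nat_lit 3) (nat_lit 128) (nat_lit 1) (nat_lit 130) (nat_lit 1) (nat_lit 280) (nat_lit 410) (nat_lit 330)) (XT.lf (nat_lit 76) (nat_lit 33894710313) (nat_lit 0) (nat_lit 16840270251) (nat_lit 76) (nat_lit 37454622203) (nat_lit 128) (nat_lit 3)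 (nat_lit 127) (nat_lit 1) (nat_lit 128) (nat_lit 1) (nat_lit 281) (nat_lit 410) (nat_lit 329))) (XT.nd (nat_lit 78) (nat_lit 76) (nat_lit 0) (XT.lf (nat_lit 0) (nat_lit 8925424788) (nat_lit 0) (nat_lit 12064676895) (nat_lit 152) (nat_lit 64969676406) (nat_lit 125) (nat_lit 3) (nat_lit 125) (nat_lit 1) (nat_lit 127) (nat_lit 1) (nat_lit 282) (nat_lit 410) (nat_lit 328)) (XT.lf (nat_lit 76) (nat_lit 28146966185) (nat_lit 0) (nat_lit 24569574987) (nat_lit 76) (nat_lit 31053681099) (nat_lit 125) (nat_lit 3) (nat_lit 124) (nat_lit 1) (nat_lit 125) (nat_lit 1) (nat_lit 283) (nat_lit 410) (nat_lit 327)))))) (XT.nd (nat_lit 546) (nat_lit 912) (nat_lit 0) (XT.nd (nat_lit 234) (nat_lit 456) (nat_lit 0) (XT.nd (nat_lit 78) (nat_lit 228) (nat_lit 0) (XT.lf (nat_lit 0) (nat_lit 12831517383) (nat_lit 0) (nat_lit 15394758048) (nat_lit 152) (nat_lit 53423624250) (nat_lit 122) (nat_lit 3) (nat_lit 122) (nat_lit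 1) (nat_lit 124) (nat_lit 1) (nat_lit 284) (nat_lit 410) (nat_lit 326)) (XT.nd (nat_lit 78) (nat_lit 152) (nat_lit 0) (XT.lf (nat_lit 76) (nat_lit 22858219371) (nat_lit 0) (nat_lit 31484528433) (nat_lit 76) (nat_lit 25231590357) (nat_lit 122) (nat_lit 3) (nat_lit 121) (nat_lit 1) (nat_lit 122) (nat_lit 1) (nat_lit 285) (nat_lit 410) (nat_lit 325)) (XT.lf (nat_lit 0) (nat_lit 16296331812) (nat_lit 0) (nat_lit 18389251553) (nat_lit 152) (nat_lit 42872433902) (nat_lit 119) (nat_lit 3) (nat_lit 119) (nat_lit 1) (nat_lit 121) (nat_lit 1) (nat_lit 286) (nat_lit 410) (nat_lit 324)))) (XT.nd (nat_lit 156) (nat_lit 228) (nat_lit 0) (XT.nd (nat_lit 78) (nat_lit 152) (nat_lit 0) (XT.lf (nat_lit 76) (nat_lit 18004015030) (nat_lit 0) (nat_lit 37644489902) (nat_lit 76) (nat_lit 19941903679) (nat_lit 119) (nat_lit 3) (nat_lit 118) (nat_lit 1) (nat_lit 119) (nat_lit 1) (nat_lit 287) (nat_lit 410) (nat_lit 323))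 (XT.lf (nat_lit 0) (nat_lit 19358168674) (nat_lit 0) (nat_lit 21067065189) (nat_lit 152) (nat_lit 33247651853) (nat_lit 116) (nat_lit 3) (nat_lit 116) (nat_lit 1) (nat_lit 118) (nat_lit 1) (nat_lit 288) (nat_lit 410) (nat_lit 322))) (XT.nd (nat_lit 78) (nat_lit 152) (nat_lit 0) (XT.lf (nat_lit 76) (nat_lit 13559819210) (nat_lit 0) (nat_lit 43105574458) (nat_lit 76) (nat_lit 15142130799) (nat_lit 116) (nat_lit 3) (nat_lit 115) (nat_lit 1) (nat_lit 116) (nat_lit 1) (nat_lit 289) (nat_lit 410) (nat_lit 321)) (XT.lf (nat_lit 0) (nat_lit 22051951704) (nat_lit 0) (nat_lit 23447288202) (nat_lit 152) (nat_lit 24484633127) (nat_lit 113) (nat_lit 3) (nat_lit 113) (nat_lit 1) (nat_lit 115) (nat_lit 1) (nat_lit 290) (nat_lit 410) (nat_lit 320))))) (XT.nd (nat_lit 234) (nat_lit 608) (nat_lit 0) (XT.nd (nat_lit 78) (nat_lit 228) (nat_lit 0) (XT.lf (nat_lit 76) (nat_lit 9501345049) (nat_lit 0) (nat_lit 47920700028)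 (nat_lit 76) (nat_lit 10793323288) (nat_lit 113) (nat_lit 3) (nat_lit 112) (nat_lit 1) (nat_lit 113) (nat_lit 1) (nat_lit 291) (nat_lit 410) (nat_lit 319)) (XT.nd (nat_lit 78) (nat_lit 76) (nat_lit 0) (XT.lf (nat_lit 0) (nat_lit 24409584846) (nat_lit 0) (nat_lit 25548895462) (nat_lit 152) (nat_lit 16522441040) (nat_lit 110) (nat_lit 3) (nat_lit 110) (nat_lit 1) (nat_lit 112) (nat_lit 1) (nat_lit 292) (nat_lit 410) (nat_lit 318)) (XT.lf (nat_lit 76) (nat_lit 5804799120) (nat_lit 0) (nat_lit 52139662053) (nat_lit 76) (nat_lit 6859716358) (nat_lit 110) (nat_lit 3) (nat_lit 109) (nat_lit 1) (nat_lit 110) (nat_lit 1) (nat_lit 293) (nat_lit 410) (nat_lit 317)))) (XT.nd (nat_lit 156) (nat_lit 380) (nat_lit 0) (XT.nd (nat_lit 78) (nat_lit 76) (nat_lit 0) (XT.lf (nat_lit 0) (nat_lit 26460261157) (nat_lit 0) (nat_lit 27390523271) (nat_lit 152) (nat_lit 9303726886) (nat_lit 107) (nat_lit 3) (nat_lit 107)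 (nat_lit 1) (nat_lit 109) (nat_lit 1) (nat_lit 294) (nat_lit 410) (nat_lit 316)) (XT.lf (nat_lit 76) (nat_lit 2447063799) (nat_lit 0) (nat_lit 55809228356) (nat_lit 76) (nat_lit 3308417608) (nat_lit 107) (nat_lit 3) (nat_lit 106) (nat_lit 1) (nat_lit 107) (nat_lit 1) (nat_lit 295) (nat_lit 410) (nat_lit 315))) (XT.nd (nat_lit 78) (nat_lit 228) (nat_lit 0) (XT.lf (nat_lit 0) (nat_lit 28230731313) (nat_lit 0) (nat_lit 28990302574) (nat_lit 152) (nat_lit 2774595615) (nat_lit 104) (nat_lit 3) (nat_lit 104) (nat_lit 1) (nat_lit 106) (nat_lit 1) (nat_lit 296) (nat_lit 410) (nat_lit 314)) (XT.lf (nat_lit 152) (nat_lit 57904536934) (nat_lit 0) (nat_lit 491490219) (nat_lit 76) (nat_lit 91337556) (nat_lit 103) (nat_lit 1) (nat_lit 101) (nat_lit 1) (nat_lit 102) (nat_lit 1) (nat_lit 297) (nat_lit 410) (nat_lit 313))))))))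
noncomputable def ec220 : XT := (XT.nd (nat_lit 2028) (nat_lit 3192) (nat_lit 0) (XT.nd (nat_lit 1014) (nat_lit 1596) (nat_lit 0) (XT.nd (nat_lit 468) (nat_lit 760) (nat_lit 0) (XT.nd (nat_lit 234) (nat_lit 380) (nat_lit 0) (XT.nd (nat_lit 78) (nat_lit 228) (nat_lit 0) (XT.lf (nat_lit 76) (nat_lit 26577237245) (nat_lit 0) (nat_lit 3218551445) (nat_lit 76) (nat_lit 27197437177) (nat_lit 101) (nat_lit 3) (nat_lit 100) (nat_lit 1) (nat_lit 101) (nat_lit 1) (nat_lit 298) (nat_lit 410) (nat_lit 312)) (XT.nd (nat_lit 78) (nat_lit 76) (nat_lit 0) (XT.lf (nat_lit 0) (nat_lit 2829785234) (nat_lit 0) (nat_lit 3376698754) (nat_lit 152) (nat_lit 49350136562) (nat_lit 98) (nat_lit 3) (nat_lit 98) (nat_lit 1) (nat_lit 100) (nat_lit 1) (nat_lit 299) (nat_lit 410) (nat_lit 311)) (XT.lf (nat_lit 76) (nat_lit 22470628446) (nat_lit 0) (nat_lit 8692304847) (nat_lit 76) (nat_lit 22977029854) (nat_lit 98) (nat_lit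 3) (nat_lit 97) (nat_lit 1) (nat_lit 98) (nat_lit 1) (nat_lit 300) (nat_lit 410) (nat_lit 310)))) (XT.nd (nat_lit 78) (nat_lit 228) (nat_lit 0) (XT.lf (nat_lit 0) (nat_lit 5445542676) (nat_lit 0) (nat_lit 5892104764) (nat_lit 152) (nat_lit 41435894295) (nat_lit 95) (nat_lit 3) (nat_lit 95) (nat_lit 1) (nat_lit 97) (nat_lit 1) (nat_lit 301) (nat_lit 410) (nat_lit 309)) (XT.nd (nat_lit 78) (nat_lit 152) (nat_lit 0) (XT.lf (nat_lit 76) (nat_lit 18708043270) (nat_lit 0) (nat_lit 13600806428) (nat_lit 76) (nat_lit 19121526685) (nat_lit 95) (nat_lit 3) (nat_lit 94) (nat_lit 1) (nat_lit 95) (nat_lit 1) (nat_lit 302) (nat_lit 410) (nat_lit 308)) (XT.lf (nat_lit 0) (nat_lit 7782920863) (nat_lit 0) (nat_lit 8147544685) (nat_lit 152) (nat_lit 34200215902) (nat_lit 92) (nat_lit 3) (nat_lit 92) (nat_lit 1) (nat_lit 94) (nat_lit 1) (nat_lit 303) (nat_lit 410) (nat_lit 307))))) (XT.nd (nat_lit 234) (nat_lit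 456) (nat_lit 0) (XT.nd (nat_lit 78) (nat_lit 228) (nat_lit 0) (XT.lf (nat_lit 76) (nat_lit 15266281755) (nat_lit 0) (nat_lit 17986985948) (nat_lit 76) (nat_lit 15603896405) (nat_lit 92) (nat_lit 3) (nat_lit 91) (nat_lit 1) (nat_lit 92) (nat_lit 1) (nat_lit 304) (nat_lit 410) (nat_lit 306)) (XT.nd (nat_lit 78) (nat_lit 76) (nat_lit 0) (XT.lf (nat_lit 0) (nat_lit 9864178128) (nat_lit 0) (nat_lit 10161898278) (nat_lit 152) (nat_lit 27594836110) (nat_lit 89) (nat_lit 3) (nat_lit 89) (nat_lit 1) (nat_lit 91) (nat_lit 1) (nat_lit 305) (nat_lit 410) (nat_lit 305)) (XT.lf (nat_lit 76) (nat_lit 12123380752) (nat_lit 0) (nat_lit 21890975310) (nat_lit 76) (nat_lit 12399047558) (nat_lit 89) (nat_lit 3) (nat_lit 88) (nat_lit 1) (nat_lit 89) (nat_lit 1) (nat_lit 306) (nat_lit 410) (nat_lit 304)))) (XT.nd (nat_lit 156) (nat_lit 228) (nat_lit 0) (XT.nd (nat_lit 78) (nat_lit 76) (nat_lit 0) (XT.lf (nat_lit 0)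 (nat_lit 11709914140) (nat_lit 0) (nat_lit 11953006561) (nat_lit 152) (nat_lit 21574556375) (nat_lit 86) (nat_lit 3) (nat_lit 86) (nat_lit 1) (nat_lit 88) (nat_lit 1) (nat_lit 307) (nat_lit 410) (nat_lit 303)) (XT.lf (nat_lit 76) (nat_lit 9258592100) (nat_lit 0) (nat_lit 25350260383) (nat_lit 76) (nat_lit 9483677675) (nat_lit 86) (nat_lit 3) (nat_lit 85) (nat_lit 1) (nat_lit 86) (nat_lit 1) (nat_lit 308) (nat_lit 410) (nat_lit 302))) (XT.nd (nat_lit 78) (nat_lit 76) (nat_lit 0) (XT.lf (nat_lit 0) (nat_lit 13339201062) (nat_lit 0) (nat_lit 13537689224) (nat_lit 152) (nat_lit 16097076122) (nat_lit 83) (nat_lit 3) (nat_lit 83) (nat_lit 1) (nat_lit 85) (nat_lit 1) (nat_lit 309) (nat_lit 410) (nat_lit 301)) (XT.lf (nat_lit 76) (nat_lit 6652351681) (nat_lit 0) (nat_lit 28399828742) (nat_lit 76) (nat_lit 6836137016) (nat_lit 83) (nat_lit 3) (nat_lit 82) (nat_lit 1) (nat_lit 83) (nat_lit 1) (nat_lit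 310) (nat_lit 410) (nat_lit 300)))))) (XT.nd (nat_lit 468) (nat_lit 912) (nat_lit 0) (XT.nd (nat_lit 234) (nat_lit 304) (nat_lit 0) (XT.nd (nat_lit 78) (nat_lit 228) (nat_lit 0) (XT.lf (nat_lit 0) (nat_lit 14769702045) (nat_lit 0) (nat_lit 14931770241) (nat_lit 152) (nat_lit 11122829716) (nat_lit 80) (nat_lit 3) (nat_lit 80) (nat_lit 1) (nat_lit 82) (nat_lit 1) (nat_lit 311) (nat_lit 410) (nat_lit 299)) (XT.nd (nat_lit 78) (nat_lit 152) (nat_lit 0) (XT.lf (nat_lit 76) (nat_lit 4286241831) (nat_lit 0) (nat_lit 31072312577) (nat_lit 76) (nat_lit 4436304976) (nat_lit 80) (nat_lit 3) (nat_lit 79) (nat_lit 1) (nat_lit 80) (nat_lit 1) (nat_lit 312) (nat_lit 410) (nat_lit 298)) (XT.lf (nat_lit 0) (nat_lit 16017778677) (nat_lit 0) (nat_lit 16150109493) (nat_lit 152) (nat_lit 6614829663) (nat_lit 77) (nat_lit 3) (nat_lit 77) (nat_lit 1) (nat_lit 79) (nat_lit 1) (nat_lit 313) (nat_lit 410) (nat_lit 297))))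 (XT.nd (nat_lit 78) (nat_lit 228) (nat_lit 0) (XT.lf (nat_lit 76) (nat_lit 2142949099) (nat_lit 0) (nat_lit 33398126267) (nat_lit 76) (nat_lit 2265477632) (nat_lit 77) (nat_lit 3) (nat_lit 76) (nat_lit 1) (nat_lit 77) (nat_lit 1) (nat_lit 314) (nat_lit 410) (nat_lit 296)) (XT.nd (nat_lit 78) (nat_lit 76) (nat_lit 0) (XT.lf (nat_lit 0) (nat_lit 17098588732) (nat_lit 0) (nat_lit 17206638585) (nat_lit 152) (nat_lit 2538516357) (nat_lit 74) (nat_lit 3) (nat_lit 74) (nat_lit 1) (nat_lit 76) (nat_lit 1) (nat_lit 315) (nat_lit 410) (nat_lit 295)) (XT.lf (nat_lit 76) (nat_lit 206218909) (nat_lit 0) (nat_lit 35405598274) (nat_lit 76) (nat_lit 306265069) (nat_lit 74) (nat_lit 3) (nat_lit 73) (nat_lit 1) (nat_lit 74) (nat_lit 1) (nat_lit 316) (nat_lit 410) (nat_lit 294))))) (XT.nd (nat_lit 234) (nat_lit 456) (nat_lit 0) (XT.nd (nat_lit 78) (nat_lit 228) (nat_lit 0) (XT.lf (nat_lit 76) (nat_lit 16868510826)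 (nat_lit 0) (nat_lit 1176025601) (nat_lit 76) (nat_lit 16956734953) (nat_lit 71) (nat_lit 3) (nat_lit 70) (nat_lit 1) (nat_lit 71) (nat_lit 1) (nat_lit 317) (nat_lit 410) (nat_lit 293)) (XT.nd (nat_lit 78) (nat_lit 76) (nat_lit 0) (XT.lf (nat_lit 0) (nat_lit 1484010663) (nat_lit 0) (nat_lit 1561809716) (nat_lit 152) (nat_lit 31073786898) (nat_lit 68) (nat_lit 3) (nat_lit 68) (nat_lit 1) (nat_lit 70) (nat_lit 1) (nat_lit 318) (nat_lit 410) (nat_lit 292)) (XT.lf (nat_lit 76) (nat_lit 14292250225) (nat_lit 0) (nat_lit 4593008274) (nat_lit 76) (nat_lit 14364286386) (nat_lit 68) (nat_lit 3) (nat_lit 67) (nat_lit 1) (nat_lit 68) (nat_lit 1) (nat_lit 319) (nat_lit 410) (nat_lit 291)))) (XT.nd (nat_lit 156) (nat_lit 228) (nat_lit 0) (XT.nd (nat_lit 78) (nat_lit 76) (nat_lit 0) (XT.lf (nat_lit 0) (nat_lit 3092846630) (nat_lit 0) (nat_lit 3156370582) (nat_lit 152) (nat_lit 26161671704) (nat_lit 65) (nat_lit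 3) (nat_lit 65) (nat_lit 1) (nat_lit 67) (nat_lit 1) (nat_lit 320) (nat_lit 410) (nat_lit 290)) (XT.lf (nat_lit 76) (nat_lit 11934780348) (nat_lit 0) (nat_lit 7657536249) (nat_lit 76) (nat_lit 11993598821) (nat_lit 65) (nat_lit 3) (nat_lit 64) (nat_lit 1) (nat_lit 65) (nat_lit 1) (nat_lit 321) (nat_lit 410) (nat_lit 289))) (XT.nd (nat_lit 78) (nat_lit 76) (nat_lit 0) (XT.lf (nat_lit 0) (nat_lit 4532615499) (nat_lit 0) (nat_lit 4584483641) (nat_lit 152) (nat_lit 21671061749) (nat_lit 62) (nat_lit 3) (nat_lit 62) (nat_lit 1) (nat_lit 64) (nat_lit 1) (nat_lit 322) (nat_lit 410) (nat_lit 288)) (XT.lf (nat_lit 76) (nat_lit 9780604405) (nat_lit 0) (nat_lit 10396691978) (nat_lit 76) (nat_lit 9828630462) (nat_lit 62) (nat_lit 3) (nat_lit 61) (nat_lit 1) (nat_lit 62) (nat_lit 1) (nat_lit 323) (nat_lit 410) (nat_lit 287))))))) (XT.nd (nat_lit 1014) (nat_lit 1596) (nat_lit 0) (XT.nd (nat_lit 468) (nat_lit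 912) (nat_lit 0) (XT.nd (nat_lit 234) (nat_lit 304) (nat_lit 0) (XT.nd (nat_lit 78) (nat_lit 228) (nat_lit 0) (XT.lf (nat_lit 0) (nat_lit 5816515023) (nat_lit 0) (nat_lit 5858866044) (nat_lit 152) (nat_lit 17571690004) (nat_lit 59) (nat_lit 3) (nat_lit 59) (nat_lit 1) (nat_lit 61) (nat_lit 1) (nat_lit 324) (nat_lit 410) (nat_lit 286)) (XT.nd (nat_lit 78) (nat_lit 152) (nat_lit 0) (XT.lf (nat_lit 76) (nat_lit 7815207405) (nat_lit 0) (nat_lit 12835721651) (nat_lit 76) (nat_lit 7854421314) (nat_lit 59) (nat_lit 3) (nat_lit 58) (nat_lit 1) (nat_lit 59) (nat_lit 1) (nat_lit 325) (nat_lit 410) (nat_lit 285)) (XT.lf (nat_lit 0) (nat_lit 6956817507) (nat_lit 0) (nat_lit 6991397673) (nat_lit 152) (nat_lit 13835274252) (nat_lit 56) (nat_lit 3) (nat_lit 56) (nat_lit 1) (nat_lit 58) (nat_lit 1) (nat_lit 326) (nat_lit 410) (nat_lit 284)))) (XT.nd (nat_lit 78) (nat_lit 228) (nat_lit 0) (XT.lf (nat_lit 76)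 (nat_lit 6025002347) (nat_lit 0) (nat_lit 14998149356) (nat_lit 76) (nat_lit 6057021019) (nat_lit 56) (nat_lit 3) (nat_lit 55) (nat_lit 1) (nat_lit 56) (nat_lit 1) (nat_lit 327) (nat_lit 410) (nat_lit 283)) (XT.nd (nat_lit 78) (nat_lit 76) (nat_lit 0) (XT.lf (nat_lit 0) (nat_lit 7964932897) (nat_lit 0) (nat_lit 7993168058) (nat_lit 152) (nat_lit 10435395550) (nat_lit 53) (nat_lit 3) (nat_lit 53) (nat_lit 1) (nat_lit 55) (nat_lit 1) (nat_lit 328) (nat_lit 410) (nat_lit 282)) (XT.lf (nat_lit 76) (nat_lit 4397278199) (nat_lit 0) (nat_lit 16905884927) (nat_lit 76) (nat_lit 4423421867) (nat_lit 53) (nat_lit 3) (nat_lit 52) (nat_lit 1) (nat_lit 53) (nat_lit 1) (nat_lit 329) (nat_lit 410) (nat_lit 281))))) (XT.nd (nat_lit 234) (nat_lit 532) (nat_lit 0) (XT.nd (nat_lit 78) (nat_lit 228) (nat_lit 0) (XT.lf (nat_lit 0) (nat_lit 8851467326) (nat_lit 0) (nat_lit 8874521706) (nat_lit 152) (nat_lit 7347383458)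 (nat_lit 50) (nat_lit 3) (nat_lit 50) (nat_lit 1) (nat_lit 52) (nat_lit 1) (nat_lit 330) (nat_lit 410) (nat_lit 280)) (XT.nd (nat_lit 78) (nat_lit 152) (nat_lit 0) (XT.lf (nat_lit 76) (nat_lit 2920149848) (nat_lit 0) (nat_lit 18579325734) (nat_lit 76) (nat_lit 2941496496) (nat_lit 50) (nat_lit 3) (nat_lit 49) (nat_lit 1) (nat_lit 50) (nat_lit 1) (nat_lit 331) (nat_lit 410) (nat_lit 279)) (XT.lf (nat_lit 0) (nat_lit 9626277496) (nat_lit 0) (nat_lit 9645101701) (nat_lit 152) (nat_lit 4548207745) (nat_lit 47) (nat_lit 3) (nat_lit 47) (nat_lit 1) (nat_lit 49) (nat_lit 1) (nat_lit 332) (nat_lit 410) (nat_lit 278)))) (XT.nd (nat_lit 156) (nat_lit 304) (nat_lit 0) (XT.nd (nat_lit 78) (nat_lit 152) (nat_lit 0) (XT.lf (nat_lit 76) (nat_lit 1582510109) (nat_lit 0) (nat_lit 20037452641) (nat_lit 76) (nat_lit 1599939929) (nat_lit 47) (nat_lit 3) (nat_lit 46) (nat_lit 1) (nat_lit 47) (nat_lit 1) (nat_lit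 333) (nat_lit 410) (nat_lit 277)) (XT.lf (nat_lit 0) (nat_lit 10298521253) (nat_lit 0) (nat_lit 10313891465) (nat_lit 152) (nat_lit 2016376282) (nat_lit 44) (nat_lit 3) (nat_lit 44) (nat_lit 1) (nat_lit 46) (nat_lit 1) (nat_lit 334) (nat_lit 410) (nat_lit 276))) (XT.nd (nat_lit 78) (nat_lit 228) (nat_lit 0) (XT.lf (nat_lit 76) (nat_lit 373983875) (nat_lit 0) (nat_lit 21297920421) (nat_lit 76) (nat_lit 388215552) (nat_lit 44) (nat_lit 3) (nat_lit 43) (nat_lit 1) (nat_lit 44) (nat_lit 1) (nat_lit 335) (nat_lit 410) (nat_lit 275)) (XT.lf (nat_lit 76) (nat_lit 10604002075) (nat_lit 0) (nat_lit 277027771) (nat_lit 76) (nat_lit 10616552055) (nat_lit 41) (nat_lit 3) (nat_lit 40) (nat_lit 1) (nat_lit 41) (nat_lit 1) (nat_lit 336) (nat_lit 410) (nat_lit 274)))))) (XT.nd (nat_lit 546) (nat_lit 760) (nat_lit 0) (XT.nd (nat_lit 234) (nat_lit 456) (nat_lit 0) (XT.nd (nat_lit 78) (nat_lit 228) (nat_lit 0)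 (XT.lf (nat_lit 0) (nat_lit 715399871) (nat_lit 0) (nat_lit 726466872) (nat_lit 152) (nat_lit 19514395066) (nat_lit 38) (nat_lit 3) (nat_lit 38) (nat_lit 1) (nat_lit 40) (nat_lit 1) (nat_lit 337) (nat_lit 410) (nat_lit 273)) (XT.nd (nat_lit 78) (nat_lit 152) (nat_lit 0) (XT.lf (nat_lit 76) (nat_lit 9005262593) (nat_lit 0) (nat_lit 2400948823) (nat_lit 76) (nat_lit 9015509816) (nat_lit 38) (nat_lit 3) (nat_lit 37) (nat_lit 1) (nat_lit 38) (nat_lit 1) (nat_lit 338) (nat_lit 410) (nat_lit 272)) (XT.lf (nat_lit 0) (nat_lit 1712255852) (nat_lit 0) (nat_lit 1721292205) (nat_lit 152) (nat_lit 16473250391) (nat_lit 35) (nat_lit 3) (nat_lit 35) (nat_lit 1) (nat_lit 37) (nat_lit 1) (nat_lit 339) (nat_lit 410) (nat_lit 271)))) (XT.nd (nat_lit 156) (nat_lit 228) (nat_lit 0) (XT.nd (nat_lit 78) (nat_lit 152) (nat_lit 0) (XT.lf (nat_lit 76) (nat_lit 7542430410) (nat_lit 0) (nat_lit 4306725626) (nat_lit 76)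 (nat_lit 7550797403) (nat_lit 35) (nat_lit 3) (nat_lit 34) (nat_lit 1) (nat_lit 35) (nat_lit 1) (nat_lit 340) (nat_lit 410) (nat_lit 270)) (XT.lf (nat_lit 0) (nat_lit 2605101036) (nat_lit 0) (nat_lit 2612479337) (nat_lit 152) (nat_lit 13692556233) (nat_lit 32) (nat_lit 3) (nat_lit 32) (nat_lit 1) (nat_lit 34) (nat_lit 1) (nat_lit 341) (nat_lit 410) (nat_lit 269))) (XT.nd (nat_lit 78) (nat_lit 152) (nat_lit 0) (XT.lf (nat_lit 76) (nat_lit 6205785569) (nat_lit 0) (nat_lit 6011142364) (nat_lit 76) (nat_lit 6212617329) (nat_lit 32) (nat_lit 3) (nat_lit 31) (nat_lit 1) (nat_lit 32) (nat_lit 1) (nat_lit 342) (nat_lit 410) (nat_lit 268)) (XT.lf (nat_lit 0) (nat_lit 3401997524) (nat_lit 0) (nat_lit 3408022003) (nat_lit 152) (nat_lit 11153586937) (nat_lit 29) (nat_lit 3) (nat_lit 29) (nat_lit 1) (nat_lit 31) (nat_lit 1) (nat_lit 343) (nat_lit 410) (nat_lit 267))))) (XT.nd (nat_lit 234) (nat_lit 456) (nat_lit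 0) (XT.nd (nat_lit 78) (nat_lit 228) (nat_lit 0) (XT.lf (nat_lit 76) (nat_lit 4986244026) (nat_lit 0) (nat_lit 7529836063) (nat_lit 76) (nat_lit 4991822247) (nat_lit 29) (nat_lit 3) (nat_lit 28) (nat_lit 1) (nat_lit 29) (nat_lit 1) (nat_lit 344) (nat_lit 410) (nat_lit 266)) (XT.nd (nat_lit 78) (nat_lit 76) (nat_lit 0) (XT.lf (nat_lit 0) (nat_lit 4110451038) (nat_lit 0) (nat_lit 4115370105) (nat_lit 152) (nat_lit 8838852821) (nat_lit 26) (nat_lit 3) (nat_lit 26) (nat_lit 1) (nat_lit 28) (nat_lit 1) (nat_lit 345) (nat_lit 410) (nat_lit 265)) (XT.lf (nat_lit 76) (nat_lit 3875318790) (nat_lit 0) (nat_lit 8877369813) (nat_lit 76) (nat_lit 3879873482) (nat_lit 26) (nat_lit 3) (nat_lit 25) (nat_lit 1) (nat_lit 26) (nat_lit 1) (nat_lit 346) (nat_lit 410) (nat_lit 264)))) (XT.nd (nat_lit 156) (nat_lit 228) (nat_lit 0) (XT.nd (nat_lit 78) (nat_lit 76) (nat_lit 0) (XT.lf (nat_lit 0) (nat_lit 4737447254)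 (nat_lit 0) (nat_lit 4741463737) (nat_lit 152) (nat_lit 6732022851) (nat_lit 23) (nat_lit 3) (nat_lit 23) (nat_lit 1) (nat_lit 25) (nat_lit 1) (nat_lit 347) (nat_lit 410) (nat_lit 263)) (XT.lf (nat_lit 76) (nat_lit 2865083213) (nat_lit 0) (nat_lit 10067301574) (nat_lit 76) (nat_lit 2868802179) (nat_lit 23) (nat_lit 3) (nat_lit 22) (nat_lit 1) (nat_lit 23) (nat_lit 1) (nat_lit 348) (nat_lit 410) (nat_lit 262))) (XT.nd (nat_lit 78) (nat_lit 76) (nat_lit 0) (XT.lf (nat_lit 0) (nat_lit 5289485797) (nat_lit 0) (nat_lit 5292765308) (nat_lit 152) (nat_lit 4817851943) (nat_lit 20) (nat_lit 3) (nat_lit 20) (nat_lit 1) (nat_lit 22) (nat_lit 1) (nat_lit 349) (nat_lit 410) (nat_lit 261)) (XT.lf (nat_lit 76) (nat_lit 1948136344) (nat_lit 0) (nat_lit 11112248808) (nat_lit 76) (nat_lit 1951172928) (nat_lit 20) (nat_lit 3) (nat_lit 19) (nat_lit 1) (nat_lit 20) (nat_lit 1) (nat_lit 350) (nat_lit 410) (nat_lit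 260))))))))
noncomputable def ec221 : XT := (XT.nd (nat_lit 2106) (nat_lit 0) (nat_lit 0) (XT.nd (nat_lit 1014) (nat_lit 0) (nat_lit 0) (XT.nd (nat_lit 468) (nat_lit 608) (nat_lit 0) (XT.nd (nat_lit 234) (nat_lit 456) (nat_lit 0) (XT.nd (nat_lit 78) (nat_lit 228) (nat_lit 0) (XT.lf (nat_lit 0) (nat_lit 5772612049) (nat_lit 0) (nat_lit 5775289813) (nat_lit 152) (nat_lit 3082112618) (nat_lit 17) (nat_lit 3) (nat_lit 17) (nat_lit 1) (nat_lit 19) (nat_lit 1) (nat_lit 351) (nat_lit 410) (nat_lit 259)) (XT.nd (nat_lit 78) (nat_lit 152) (nat_lit 0) (XT.lf (nat_lit 76) (nat_lit 1117570265) (nat_lit 0) (nat_lit 12023949170) (nat_lit 76) (nat_lit 1120049676) (nat_lit 17) (nat_lit 3) (nat_lit 16) (nat_lit 1) (nat_lit 17) (nat_lit 1) (nat_lit 352) (nat_lit 410) (nat_lit 258)) (XT.lf (nat_lit 0) (nat_lit 6192446926) (nat_lit 0) (nat_lit 6194633355) (nat_lit 152) (nat_lit 1511530785) (nat_lit 14) (nat_lit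 3) (nat_lit 14) (nat_lit 1) (nat_lit 16) (nat_lit 1) (nat_lit 353) (nat_lit 410) (nat_lit 257)))) (XT.nd (nat_lit 78) (nat_lit 380) (nat_lit 0) (XT.lf (nat_lit 76) (nat_lit 366939310) (nat_lit 0) (nat_lit 12813317482) (nat_lit 76) (nat_lit 368963782) (nat_lit 14) (nat_lit 3) (nat_lit 13) (nat_lit 1) (nat_lit 14) (nat_lit 1) (nat_lit 354) (nat_lit 410) (nat_lit 256)) (XT.nd (nat_lit 78) (nat_lit 228) (nat_lit 0) (XT.lf (nat_lit 0) (nat_lit 6554214743) (nat_lit 0) (nat_lit 6555999992) (nat_lit 152) (nat_lit 93725397) (nat_lit 11) (nat_lit 3) (nat_lit 11) (nat_lit 1) (nat_lit 13) (nat_lit 1) (nat_lit 355) (nat_lit 410) (nat_lit 255)) (XT.lf (nat_lit 0) (nat_lit 313219907) (nat_lit 0) (nat_lit 314794200) (nat_lit 152) (nat_lit 12243611439) (nat_lit 8) (nat_lit 3) (nat_lit 8) (nat_lit 1) (nat_lit 10) (nat_lit 1) (nat_lit 356) (nat_lit 410) (nat_lit 254))))) (XT.nd (nat_lit 234) (nat_lit 304) (nat_lit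 0) (XT.nd (nat_lit 78) (nat_lit 228) (nat_lit 0) (XT.lf (nat_lit 76) (nat_lit 5659888980) (nat_lit 0) (nat_lit 1221958527) (nat_lit 76) (nat_lit 5661346659) (nat_lit 8) (nat_lit 3) (nat_lit 7) (nat_lit 1) (nat_lit 8) (nat_lit 1) (nat_lit 357) (nat_lit 410) (nat_lit 253)) (XT.nd (nat_lit 78) (nat_lit 76) (nat_lit 0) (XT.lf (nat_lit 0) (nat_lit 931884068) (nat_lit 0) (nat_lit 933169499) (nat_lit 152) (nat_lit 10361958460) (nat_lit 5) (nat_lit 3) (nat_lit 5) (nat_lit 1) (nat_lit 7) (nat_lit 1) (nat_lit 358) (nat_lit 410) (nat_lit 252)) (XT.lf (nat_lit 76) (nat_lit 4754224817) (nat_lit 0) (nat_lit 2405957278) (nat_lit 76) (nat_lit 4755415031) (nat_lit 5) (nat_lit 3) (nat_lit 4) (nat_lit 1) (nat_lit 5) (nat_lit 1) (nat_lit 359) (nat_lit 410) (nat_lit 251)))) (XT.nd (nat_lit 156) (nat_lit 76) (nat_lit 0) (XT.nd (nat_lit 78) (nat_lit 76) (nat_lit 0) (XT.lf (nat_lit 0) (nat_lit 1486369023) (nat_lit 0)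 (nat_lit 1487418594) (nat_lit 152) (nat_lit 8641042723) (nat_lit 2) (nat_lit 3) (nat_lit 2) (nat_lit 1) (nat_lit 4) (nat_lit 1) (nat_lit 360) (nat_lit 410) (nat_lit 250)) (XT.lf (nat_lit 76) (nat_lit 3926521233) (nat_lit 0) (nat_lit 3465531845) (nat_lit 76) (nat_lit 3927493058) (nat_lit 2) (nat_lit 3) (nat_lit 1) (nat_lit 1) (nat_lit 2) (nat_lit 1) (nat_lit 361) (nat_lit 410) (nat_lit 249))) (XT.nd (nat_lit 78) (nat_lit 0) (nat_lit 0) (XT.lf (nat_lit 0) (nat_lit 234727744479) (nat_lit 0) (nat_lit 0) (nat_lit 0) (nat_lit 0) (nat_lit 0) (nat_lit 0) (nat_lit 1) (nat_lit 0) (nat_lit 1) (nat_lit 0) (nat_lit 362) (nat_lit 410) (nat_lit 248)) (XT.lf (nat_lit 0) (nat_lit 234727677556) (nat_lit 0) (nat_lit 0) (nat_lit 0) (nat_lit 0) (nat_lit 0) (nat_lit 0) (nat_lit 1) (nat_lit 0) (nat_lit 1) (nat_lit 0) (nat_lit 363) (nat_lit 410) (nat_lit 247)))))) (XT.nd (nat_lit 546) (nat_lit 0) (nat_lit 0) (XT.nd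 (nat_lit 234) (nat_lit 0) (nat_lit 0) (XT.nd (nat_lit 78) (nat_lit 0) (nat_lit 0) (XT.lf (nat_lit 0) (nat_lit 234727615589) (nat_lit 0) (nat_lit 0) (nat_lit 0) (nat_lit 0) (nat_lit 0) (nat_lit 0) (nat_lit 1) (nat_lit 0) (nat_lit 1) (nat_lit 0) (nat_lit 364) (nat_lit 410) (nat_lit 246)) (XT.nd (nat_lit 78) (nat_lit 0) (nat_lit 0) (XT.lf (nat_lit 0) (nat_lit 234727558213) (nat_lit 0) (nat_lit 0) (nat_lit 0) (nat_lit 0) (nat_lit 0) (nat_lit 0) (nat_lit 1) (nat_lit 0) (nat_lit 1) (nat_lit 0) (nat_lit 365) (nat_lit 410) (nat_lit 245)) (XT.lf (nat_lit 0) (nat_lit 234727505086) (nat_lit 0) (nat_lit 0) (nat_lit 0) (nat_lit 0) (nat_lit 0) (nat_lit 0) (nat_lit 1) (nat_lit 0) (nat_lit 1) (nat_lit 0) (nat_lit 366) (nat_lit 410) (nat_lit 244)))) (XT.nd (nat_lit 156) (nat_lit 0) (nat_lit 0) (XT.nd (nat_lit 78) (nat_lit 0) (nat_lit 0) (XT.lf (nat_lit 0) (nat_lit 234727455895) (nat_lit 0) (nat_lit 0) (nat_lit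 0) (nat_lit 0) (nat_lit 0) (nat_lit 0) (nat_lit 1) (nat_lit 0) (nat_lit 1) (nat_lit 0) (nat_lit 367) (nat_lit 410) (nat_lit 243)) (XT.lf (nat_lit 0) (nat_lit 234727410348) (nat_lit 0) (nat_lit 0) (nat_lit 0) (nat_lit 0) (nat_lit 0) (nat_lit 0) (nat_lit 1) (nat_lit 0) (nat_lit 1) (nat_lit 0) (nat_lit 368) (nat_lit 410) (nat_lit 242))) (XT.nd (nat_lit 78) (nat_lit 0) (nat_lit 0) (XT.lf (nat_lit 0) (nat_lit 234727368175) (nat_lit 0) (nat_lit 0) (nat_lit 0) (nat_lit 0) (nat_lit 0) (nat_lit 0) (nat_lit 1) (nat_lit 0) (nat_lit 1) (nat_lit 0) (nat_lit 369) (nat_lit 410) (nat_lit 241)) (XT.lf (nat_lit 0) (nat_lit 234727329125) (nat_lit 0) (nat_lit 0) (nat_lit 0) (nat_lit 0) (nat_lit 0) (nat_lit 0) (nat_lit 1) (nat_lit 0) (nat_lit 1) (nat_lit 0) (nat_lit 370) (nat_lit 410) (nat_lit 240))))) (XT.nd (nat_lit 234) (nat_lit 0) (nat_lit 0) (XT.nd (nat_lit 78) (nat_lit 0) (nat_lit 0) (XT.lf (nat_lit 0) (nat_lit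 234727292969) (nat_lit 0) (nat_lit 0) (nat_lit 0) (nat_lit 0) (nat_lit 0) (nat_lit 0) (nat_lit 1) (nat_lit 0) (nat_lit 1) (nat_lit 0) (nat_lit 371) (nat_lit 410) (nat_lit 239)) (XT.nd (nat_lit 78) (nat_lit 0) (nat_lit 0) (XT.lf (nat_lit 0) (nat_lit 234727259490) (nat_lit 0) (nat_lit 0) (nat_lit 0) (nat_lit 0) (nat_lit 0) (nat_lit 0) (nat_lit 1) (nat_lit 0) (nat_lit 1) (nat_lit 0) (nat_lit 372) (nat_lit 410) (nat_lit 238)) (XT.lf (nat_lit 0) (nat_lit 234727228491) (nat_lit 0) (nat_lit 0) (nat_lit 0) (nat_lit 0) (nat_lit 0) (nat_lit 0) (nat_lit 1) (nat_lit 0) (nat_lit 1) (nat_lit 0) (nat_lit 373) (nat_lit 410) (nat_lit 237)))) (XT.nd (nat_lit 156) (nat_lit 0) (nat_lit 0) (XT.nd (nat_lit 78) (nat_lit 0) (nat_lit 0) (XT.lf (nat_lit 0) (nat_lit 234727199789) (nat_lit 0) (nat_lit 0) (nat_lit 0) (nat_lit 0) (nat_lit 0) (nat_lit 0) (nat_lit 1) (nat_lit 0) (nat_lit 1) (nat_lit 0) (nat_lit 374) (nat_lit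 410) (nat_lit 236)) (XT.lf (nat_lit 0) (nat_lit 234727173213) (nat_lit 0) (nat_lit 0) (nat_lit 0) (nat_lit 0) (nat_lit 0) (nat_lit 0) (nat_lit 1) (nat_lit 0) (nat_lit 1) (nat_lit 0) (nat_lit 375) (nat_lit 410) (nat_lit 235))) (XT.nd (nat_lit 78) (nat_lit 0) (nat_lit 0) (XT.lf (nat_lit 0) (nat_lit 234727148605) (nat_lit 0) (nat_lit 0) (nat_lit 0) (nat_lit 0) (nat_lit 0) (nat_lit 0) (nat_lit 1) (nat_lit 0) (nat_lit 1) (nat_lit 0) (nat_lit 376) (nat_lit 410) (nat_lit 234)) (XT.lf (nat_lit 0) (nat_lit 234727125820) (nat_lit 0) (nat_lit 0) (nat_lit 0) (nat_lit 0) (nat_lit 0) (nat_lit 0) (nat_lit 1) (nat_lit 0) (nat_lit 1) (nat_lit 0) (nat_lit 377) (nat_lit 410) (nat_lit 233))))))) (XT.nd (nat_lit 1014) (nat_lit 0) (nat_lit 0) (XT.nd (nat_lit 468) (nat_lit 0) (nat_lit 0) (XT.nd (nat_lit 234) (nat_lit 0) (nat_lit 0) (XT.nd (nat_lit 78) (nat_lit 0) (nat_lit 0) (XT.lf (nat_lit 0) (nat_lit 234727104723)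 (nat_lit 0) (nat_lit 0) (nat_lit 0) (nat_lit 0) (nat_lit 0) (nat_lit 0) (nat_lit 1) (nat_lit 0) (nat_lit 1) (nat_lit 0) (nat_lit 378) (nat_lit 410) (nat_lit 232)) (XT.nd (nat_lit 78) (nat_lit 0) (nat_lit 0) (XT.lf (nat_lit 0) (nat_lit 234727085188) (nat_lit 0) (nat_lit 0) (nat_lit 0) (nat_lit 0) (nat_lit 0) (nat_lit 0) (nat_lit 1) (nat_lit 0) (nat_lit 1) (nat_lit 0) (nat_lit 379) (nat_lit 410) (nat_lit 231)) (XT.lf (nat_lit 0) (nat_lit 234727067101) (nat_lit 0) (nat_lit 0) (nat_lit 0) (nat_lit 0) (nat_lit 0) (nat_lit 0) (nat_lit 1) (nat_lit 0) (nat_lit 1) (nat_lit 0) (nat_lit 380) (nat_lit 410) (nat_lit 230)))) (XT.nd (nat_lit 78) (nat_lit 0) (nat_lit 0) (XT.lf (nat_lit 0) (nat_lit 234727050353) (nat_lit 0) (nat_lit 0) (nat_lit 0) (nat_lit 0) (nat_lit 0) (nat_lit 0) (nat_lit 1) (nat_lit 0) (nat_lit 1) (nat_lit 0) (nat_lit 381) (nat_lit 410) (nat_lit 229)) (XT.nd (nat_lit 78) (nat_lit 0) (nat_lit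 0) (XT.lf (nat_lit 0) (nat_lit 234727034846) (nat_lit 0) (nat_lit 0) (nat_lit 0) (nat_lit 0) (nat_lit 0) (nat_lit 0) (nat_lit 1) (nat_lit 0) (nat_lit 1) (nat_lit 0) (nat_lit 382) (nat_lit 410) (nat_lit 228)) (XT.lf (nat_lit 0) (nat_lit 234727020488) (nat_lit 0) (nat_lit 0) (nat_lit 0) (nat_lit 0) (nat_lit 0) (nat_lit 0) (nat_lit 1) (nat_lit 0) (nat_lit 1) (nat_lit 0) (nat_lit 383) (nat_lit 410) (nat_lit 227))))) (XT.nd (nat_lit 234) (nat_lit 0) (nat_lit 0) (XT.nd (nat_lit 78) (nat_lit 0) (nat_lit 0) (XT.lf (nat_lit 0) (nat_lit 234727007193) (nat_lit 0) (nat_lit 0) (nat_lit 0) (nat_lit 0) (nat_lit 0) (nat_lit 0) (nat_lit 1) (nat_lit 0) (nat_lit 1) (nat_lit 0) (nat_lit 384) (nat_lit 410) (nat_lit 226)) (XT.nd (nat_lit 78) (nat_lit 0) (nat_lit 0) (XT.lf (nat_lit 0) (nat_lit 234726994883) (nat_lit 0) (nat_lit 0) (nat_lit 0) (nat_lit 0) (nat_lit 0) (nat_lit 0) (nat_lit 1) (nat_lit 0) (nat_lit 1) (nat_lit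 0) (nat_lit 385) (nat_lit 410) (nat_lit 225)) (XT.lf (nat_lit 0) (nat_lit 234726983485) (nat_lit 0) (nat_lit 0) (nat_lit 0) (nat_lit 0) (nat_lit 0) (nat_lit 0) (nat_lit 1) (nat_lit 0) (nat_lit 1) (nat_lit 0) (nat_lit 386) (nat_lit 410) (nat_lit 224)))) (XT.nd (nat_lit 156) (nat_lit 0) (nat_lit 0) (XT.nd (nat_lit 78) (nat_lit 0) (nat_lit 0) (XT.lf (nat_lit 0) (nat_lit 234726972931) (nat_lit 0) (nat_lit 0) (nat_lit 0) (nat_lit 0) (nat_lit 0) (nat_lit 0) (nat_lit 1) (nat_lit 0) (nat_lit 1) (nat_lit 0) (nat_lit 387) (nat_lit 410) (nat_lit 223)) (XT.lf (nat_lit 0) (nat_lit 234726963159) (nat_lit 0) (nat_lit 0) (nat_lit 0) (nat_lit 0) (nat_lit 0) (nat_lit 0) (nat_lit 1) (nat_lit 0) (nat_lit 1) (nat_lit 0) (nat_lit 388) (nat_lit 410) (nat_lit 222))) (XT.nd (nat_lit 78) (nat_lit 0) (nat_lit 0) (XT.lf (nat_lit 0) (nat_lit 234726954111) (nat_lit 0) (nat_lit 0) (nat_lit 0) (nat_lit 0) (nat_lit 0) (nat_lit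 0) (nat_lit 1) (nat_lit 0) (nat_lit 1) (nat_lit 0) (nat_lit 389) (nat_lit 410) (nat_lit 221)) (XT.lf (nat_lit 0) (nat_lit 234726945733) (nat_lit 0) (nat_lit 0) (nat_lit 0) (nat_lit 0) (nat_lit 0) (nat_lit 0) (nat_lit 1) (nat_lit 0) (nat_lit 1) (nat_lit 0) (nat_lit 390) (nat_lit 410) (nat_lit 220)))))) (XT.nd (nat_lit 546) (nat_lit 0) (nat_lit 0) (XT.nd (nat_lit 234) (nat_lit 0) (nat_lit 0) (XT.nd (nat_lit 78) (nat_lit 0) (nat_lit 0) (XT.lf (nat_lit 0) (nat_lit 234726937975) (nat_lit 0) (nat_lit 0) (nat_lit 0) (nat_lit 0) (nat_lit 0) (nat_lit 0) (nat_lit 1) (nat_lit 0) (nat_lit 1) (nat_lit 0) (nat_lit 391) (nat_lit 410) (nat_lit 219)) (XT.nd (nat_lit 78) (nat_lit 0) (nat_lit 0) (XT.lf (nat_lit 0) (nat_lit 234726930793) (nat_lit 0) (nat_lit 0) (nat_lit 0) (nat_lit 0) (nat_lit 0) (nat_lit 0) (nat_lit 1) (nat_lit 0) (nat_lit 1) (nat_lit 0) (nat_lit 392) (nat_lit 410) (nat_lit 218)) (XT.lf (nat_lit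 0) (nat_lit 234726924142) (nat_lit 0) (nat_lit 0) (nat_lit 0) (nat_lit 0) (nat_lit 0) (nat_lit 0) (nat_lit 1) (nat_lit 0) (nat_lit 1) (nat_lit 0) (nat_lit 393) (nat_lit 410) (nat_lit 217)))) (XT.nd (nat_lit 156) (nat_lit 0) (nat_lit 0) (XT.nd (nat_lit 78) (nat_lit 0) (nat_lit 0) (XT.lf (nat_lit 0) (nat_lit 234726917984) (nat_lit 0) (nat_lit 0) (nat_lit 0) (nat_lit 0) (nat_lit 0) (nat_lit 0) (nat_lit 1) (nat_lit 0) (nat_lit 1) (nat_lit 0) (nat_lit 394) (nat_lit 410) (nat_lit 216)) (XT.lf (nat_lit 0) (nat_lit 234726912282) (nat_lit 0) (nat_lit 0) (nat_lit 0) (nat_lit 0) (nat_lit 0) (nat_lit 0) (nat_lit 1) (nat_lit 0) (nat_lit 1) (nat_lit 0) (nat_lit 395) (nat_lit 410) (nat_lit 215))) (XT.nd (nat_lit 78) (nat_lit 0) (nat_lit 0) (XT.lf (nat_lit 0) (nat_lit 234726907002) (nat_lit 0) (nat_lit 0) (nat_lit 0) (nat_lit 0) (nat_lit 0) (nat_lit 0) (nat_lit 1) (nat_lit 0) (nat_lit 1) (nat_lit 0) (nat_lit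 396) (nat_lit 410) (nat_lit 214)) (XT.lf (nat_lit 0) (nat_lit 234726902114) (nat_lit 0) (nat_lit 0) (nat_lit 0) (nat_lit 0) (nat_lit 0) (nat_lit 0) (nat_lit 1) (nat_lit 0) (nat_lit 1) (nat_lit 0) (nat_lit 397) (nat_lit 410) (nat_lit 213))))) (XT.nd (nat_lit 234) (nat_lit 0) (nat_lit 0) (XT.nd (nat_lit 78) (nat_lit 0) (nat_lit 0) (XT.lf (nat_lit 0) (nat_lit 234726897588) (nat_lit 0) (nat_lit 0) (nat_lit 0) (nat_lit 0) (nat_lit 0) (nat_lit 0) (nat_lit 1) (nat_lit 0) (nat_lit 1) (nat_lit 0) (nat_lit 398) (nat_lit 410) (nat_lit 212)) (XT.nd (nat_lit 78) (nat_lit 0) (nat_lit 0) (XT.lf (nat_lit 0) (nat_lit 234726893396) (nat_lit 0) (nat_lit 0) (nat_lit 0) (nat_lit 0) (nat_lit 0) (nat_lit 0) (nat_lit 1) (nat_lit 0) (nat_lit 1) (nat_lit 0) (nat_lit 399) (nat_lit 410) (nat_lit 211)) (XT.lf (nat_lit 0) (nat_lit 234726889516) (nat_lit 0) (nat_lit 0) (nat_lit 0) (nat_lit 0) (nat_lit 0) (nat_lit 0) (nat_lit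 1) (nat_lit 0) (nat_lit 1) (nat_lit 0) (nat_lit 400) (nat_lit 410) (nat_lit 210)))) (XT.nd (nat_lit 156) (nat_lit 0) (nat_lit 0) (XT.nd (nat_lit 78) (nat_lit 0) (nat_lit 0) (XT.lf (nat_lit 0) (nat_lit 234726885923) (nat_lit 0) (nat_lit 0) (nat_lit 0) (nat_lit 0) (nat_lit 0) (nat_lit 0) (nat_lit 1) (nat_lit 0) (nat_lit 1) (nat_lit 0) (nat_lit 401) (nat_lit 410) (nat_lit 209)) (XT.lf (nat_lit 0) (nat_lit 234726882596) (nat_lit 0) (nat_lit 0) (nat_lit 0) (nat_lit 0) (nat_lit 0) (nat_lit 0) (nat_lit 1) (nat_lit 0) (nat_lit 1) (nat_lit 0) (nat_lit 402) (nat_lit 410) (nat_lit 208))) (XT.nd (nat_lit 78) (nat_lit 0) (nat_lit 0) (XT.lf (nat_lit 0) (nat_lit 234726879515) (nat_lit 0) (nat_lit 0) (nat_lit 0) (nat_lit 0) (nat_lit 0) (nat_lit 0) (nat_lit 1) (nat_lit 0) (nat_lit 1) (nat_lit 0) (nat_lit 403) (nat_lit 410) (nat_lit 207)) (XT.lf (nat_lit 0) (nat_lit 234726876663) (nat_lit 0) (nat_lit 0) (nat_lit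 0) (nat_lit 0) (nat_lit 0) (nat_lit 0) (nat_lit 1) (nat_lit 0) (nat_lit 1) (nat_lit 0) (nat_lit 404) (nat_lit 410) (nat_lit 206))))))))
noncomputable def ec222 : XT := (XT.nd (nat_lit 38220) (nat_lit 0) (nat_lit 14288) (XT.nd (nat_lit 37206) (nat_lit 0) (nat_lit 19228) (XT.nd (nat_lit 468) (nat_lit 0) (nat_lit 0) (XT.nd (nat_lit 234) (nat_lit 0) (nat_lit 0) (XT.nd (nat_lit 78) (nat_lit 0) (nat_lit 0) (XT.lf (nat_lit 0) (nat_lit 234726874022) (nat_lit 0) (nat_lit 0) (nat_lit 0) (nat_lit 0) (nat_lit 0) (nat_lit 0) (nat_lit 1) (nat_lit 0) (nat_lit 1) (nat_lit 0) (nat_lit 405) (nat_lit 410) (nat_lit 205)) (XT.nd (nat_lit 78) (nat_lit 0) (nat_lit 0) (XT.lf (nat_lit 0) (nat_lit 234726871576) (nat_lit 0) (nat_lit 0) (nat_lit 0) (nat_lit 0) (nat_lit 0) (nat_lit 0) (nat_lit 1) (nat_lit 0) (nat_lit 1) (nat_lit 0) (nat_lit 406) (nat_lit 410) (nat_lit 204)) (XT.lf (nat_lit 0) (nat_lit 234726869312) (nat_lit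 0) (nat_lit 0) (nat_lit 0) (nat_lit 0) (nat_lit 0) (nat_lit 0) (nat_lit 1) (nat_lit 0) (nat_lit 1) (nat_lit 0) (nat_lit 407) (nat_lit 410) (nat_lit 203)))) (XT.nd (nat_lit 78) (nat_lit 0) (nat_lit 0) (XT.lf (nat_lit 0) (nat_lit 234726867215) (nat_lit 0) (nat_lit 0) (nat_lit 0) (nat_lit 0) (nat_lit 0) (nat_lit 0) (nat_lit 1) (nat_lit 0) (nat_lit 1) (nat_lit 0) (nat_lit 408) (nat_lit 410) (nat_lit 202)) (XT.nd (nat_lit 78) (nat_lit 0) (nat_lit 0) (XT.lf (nat_lit 0) (nat_lit 234726865274) (nat_lit 0) (nat_lit 0) (nat_lit 0) (nat_lit 0) (nat_lit 0) (nat_lit 0) (nat_lit 1) (nat_lit 0) (nat_lit 1) (nat_lit 0) (nat_lit 409) (nat_lit 410) (nat_lit 201)) (XT.lf (nat_lit 0) (nat_lit 234726863477) (nat_lit 0) (nat_lit 0) (nat_lit 0) (nat_lit 0) (nat_lit 0) (nat_lit 0) (nat_lit 1) (nat_lit 0) (nat_lit 1) (nat_lit 0) (nat_lit 410) (nat_lit 410) (nat_lit 200))))) (XT.nd (nat_lit 234) (nat_lit 0) (nat_lit 0)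 (XT.nd (nat_lit 78) (nat_lit 0) (nat_lit 0) (XT.lf (nat_lit 0) (nat_lit 234726861812) (nat_lit 0) (nat_lit 0) (nat_lit 0) (nat_lit 0) (nat_lit 0) (nat_lit 0) (nat_lit 1) (nat_lit 0) (nat_lit 1) (nat_lit 0) (nat_lit 411) (nat_lit 410) (nat_lit 199)) (XT.nd (nat_lit 78) (nat_lit 0) (nat_lit 0) (XT.lf (nat_lit 0) (nat_lit 234726860271) (nat_lit 0) (nat_lit 0) (nat_lit 0) (nat_lit 0) (nat_lit 0) (nat_lit 0) (nat_lit 1) (nat_lit 0) (nat_lit 1) (nat_lit 0) (nat_lit 412) (nat_lit 410) (nat_lit 198)) (XT.lf (nat_lit 0) (nat_lit 234726858844) (nat_lit 0) (nat_lit 0) (nat_lit 0) (nat_lit 0) (nat_lit 0) (nat_lit 0) (nat_lit 1) (nat_lit 0) (nat_lit 1) (nat_lit 0) (nat_lit 413) (nat_lit 410) (nat_lit 197)))) (XT.nd (nat_lit 36348) (nat_lit 0) (nat_lit 22268) (XT.nd (nat_lit 36270) (nat_lit 0) (nat_lit 22192) (XT.lf (nat_lit 0) (nat_lit 234726857523) (nat_lit 0) (nat_lit 0) (nat_lit 0) (nat_lit 0) (nat_lit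 0) (nat_lit 0) (nat_lit 1) (nat_lit 0) (nat_lit 1) (nat_lit 0) (nat_lit 414) (nat_lit 410) (nat_lit 196)) (XT.lf (nat_lit 836) (nat_lit 126863391828) (nat_lit 0) (nat_lit 225245660584) (nat_lit 836) (nat_lit 126863391828) (nat_lit 303) (nat_lit 1) (nat_lit 292) (nat_lit 0) (nat_lit 303) (nat_lit 0) (nat_lit 198) (nat_lit 411) (nat_lit 411))) (XT.nd (nat_lit 78) (nat_lit 0) (nat_lit 0) (XT.lf (nat_lit 836) (nat_lit 47323937845) (nat_lit 0) (nat_lit 442225498341) (nat_lit 760) (nat_lit 432495059935) (nat_lit 304) (nat_lit 1) (nat_lit 293) (nat_lit 1) (nat_lit 303) (nat_lit 1) (nat_lit 199) (nat_lit 411) (nat_lit 410)) (XT.lf (nat_lit 836) (nat_lit 434643053340) (nat_lit 76) (nat_lit 296158565303) (nat_lit 0) (nat_lit 157068993438) (nat_lit 304) (nat_lit 1) (nat_lit 294) (nat_lit 1) (nat_lit 293) (nat_lit 1) (nat_lit 200) (nat_lit 411) (nat_lit 409)))))) (XT.nd (nat_lit 468) (nat_lit 2052) (nat_lit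 0) (XT.nd (nat_lit 234) (nat_lit 1064) (nat_lit 0) (XT.nd (nat_lit 78) (nat_lit 0) (nat_lit 76) (XT.lf (nat_lit 836) (nat_lit 375567204558) (nat_lit 76) (nat_lit 124118001941) (nat_lit 0) (nat_lit 355721669379) (nat_lit 305) (nat_lit 1) (nat_lit 295) (nat_lit 1) (nat_lit 294) (nat_lit 1) (nat_lit 201) (nat_lit 411) (nat_lit 408)) (XT.nd (nat_lit 78) (nat_lit 0) (nat_lit 76) (XT.lf (nat_lit 836) (nat_lit 277951660988) (nat_lit 0) (nat_lit 520034419501) (nat_lit 760) (nat_lit 26584085227) (nat_lit 306) (nat_lit 1) (nat_lit 295) (nat_lit 1) (nat_lit 305) (nat_lit 1) (nat_lit 202) (nat_lit 411) (nat_lit 407)) (XT.lf (nat_lit 836) (nat_lit 66691775813) (nat_lit 0) (nat_lit 573482418665) (nat_lit 760) (nat_lit 155031929841) (nat_lit 307) (nat_lit 1) (nat_lit 296) (nat_lit 1) (nat_lit 306) (nat_lit 1) (nat_lit 203) (nat_lit 411) (nat_lit 406)))) (XT.nd (nat_lit 78) (nat_lit 1216) (nat_lit 0) (XT.lf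 (nat_lit 836) (nat_lit 128154467271) (nat_lit 76) (nat_lit 498402922497) (nat_lit 0) (nat_lit 140655453853) (nat_lit 307) (nat_lit 1) (nat_lit 297) (nat_lit 1) (nat_lit 296) (nat_lit 1) (nat_lit 204) (nat_lit 411) (nat_lit 405)) (XT.nd (nat_lit 78) (nat_lit 532) (nat_lit 0) (XT.lf (nat_lit 836) (nat_lit 26320005263) (nat_lit 0) (nat_lit 372589152653) (nat_lit 760) (nat_lit 341660349054) (nat_lit 298) (nat_lit 1) (nat_lit 287) (nat_lit 1) (nat_lit 297) (nat_lit 1) (nat_lit 205) (nat_lit 411) (nat_lit 404)) (XT.lf (nat_lit 76) (nat_lit 182245199120) (nat_lit 0) (nat_lit 78975325783) (nat_lit 532) (nat_lit 453967181680) (nat_lit 281) (nat_lit 1) (nat_lit 280) (nat_lit 1) (nat_lit 287) (nat_lit 1) (nat_lit 206) (nat_lit 411) (nat_lit 403))))) (XT.nd (nat_lit 234) (nat_lit 988) (nat_lit 0) (XT.nd (nat_lit 78) (nat_lit 684) (nat_lit 0) (XT.lf (nat_lit 456) (nat_lit 502244830155) (nat_lit 0) (nat_lit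 163491519740) (nat_lit 380) (nat_lit 25276799150) (nat_lit 281) (nat_lit 1) (nat_lit 275) (nat_lit 1) (nat_lit 280) (nat_lit 1) (nat_lit 207) (nat_lit 411) (nat_lit 402)) (XT.nd (nat_lit 78) (nat_lit 304) (nat_lit 0) (XT.lf (nat_lit 456) (nat_lit 362424652177) (nat_lit 0) (nat_lit 76204101614) (nat_lit 380) (nat_lit 229249300461) (nat_lit 276) (nat_lit 1) (nat_lit 270) (nat_lit 1) (nat_lit 275) (nat_lit 1) (nat_lit 208) (nat_lit 411) (nat_lit 401)) (XT.lf (nat_lit 380) (nat_lit 220530778508) (nat_lit 0) (nat_lit 1403041349) (nat_lit 304) (nat_lit 423930910047) (nat_lit 271) (nat_lit 1) (nat_lit 266) (nat_lit 1) (nat_lit 270) (nat_lit 1) (nat_lit 209) (nat_lit 411) (nat_lit 400)))) (XT.nd (nat_lit 156) (nat_lit 608) (nat_lit 0) (XT.nd (nat_lit 78) (nat_lit 380) (nat_lit 0) (XT.lf (nat_lit 76) (nat_lit 16269718612) (nat_lit 0) (nat_lit 548693747898) (nat_lit 380) (nat_lit 59900591270) (nat_lit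 267) (nat_lit 1) (nat_lit 266) (nat_lit 1) (nat_lit 271) (nat_lit 1) (nat_lit 210) (nat_lit 411) (nat_lit 399)) (XT.lf (nat_lit 76) (nat_lit 420088354454) (nat_lit 0) (nat_lit 69676148504) (nat_lit 380) (nat_lit 114908623031) (nat_lit 262) (nat_lit 1) (nat_lit 261) (nat_lit 1) (nat_lit 266) (nat_lit 1) (nat_lit 211) (nat_lit 411) (nat_lit 398))) (XT.nd (nat_lit 78) (nat_lit 304) (nat_lit 0) (XT.lf (nat_lit 76) (nat_lit 210180849044) (nat_lit 0) (nat_lit 213430411515) (nat_lit 380) (nat_lit 161763071952) (nat_lit 258) (nat_lit 1) (nat_lit 257) (nat_lit 1) (nat_lit 262) (nat_lit 1) (nat_lit 212) (nat_lit 411) (nat_lit 397)) (XT.lf (nat_lit 76) (nat_lit 10374060640) (nat_lit 0) (nat_lit 356852333950) (nat_lit 380) (nat_lit 199762878533) (nat_lit 254) (nat_lit 1) (nat_lit 253) (nat_lit 1) (nat_lit 258) (nat_lit 1) (nat_lit 213) (nat_lit 411) (nat_lit 396))))))) (XT.nd (nat_lit 1014) (nat_lit 1976)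 (nat_lit 0) (XT.nd (nat_lit 468) (nat_lit 1368) (nat_lit 0) (XT.nd (nat_lit 234) (nat_lit 760) (nat_lit 0) (XT.nd (nat_lit 78) (nat_lit 608) (nat_lit 0) (XT.lf (nat_lit 304) (nat_lit 46848673175) (nat_lit 0) (nat_lit 316815151660) (nat_lit 228) (nat_lit 185660960079) (nat_lit 254) (nat_lit 1) (nat_lit 250) (nat_lit 1) (nat_lit 253) (nat_lit 1) (nat_lit 214) (nat_lit 411) (nat_lit 395)) (XT.nd (nat_lit 78) (nat_lit 228) (nat_lit 0) (XT.lf (nat_lit 76) (nat_lit 161874761542) (nat_lit 0) (nat_lit 110949967406) (nat_lit 380) (nat_lit 259565319789) (nat_lit 246) (nat_lit 1) (nat_lit 245) (nat_lit 1) (nat_lit 250) (nat_lit 1) (nat_lit 215) (nat_lit 411) (nat_lit 394)) (XT.lf (nat_lit 304) (nat_lit 250621066796) (nat_lit 0) (nat_lit 235426100245) (nat_lit 228) (nat_lit 30134261421) (nat_lit 246) (nat_lit 1) (nat_lit 242) (nat_lit 1) (nat_lit 245) (nat_lit 1) (nat_lit 216) (nat_lit 411) (nat_lit 393))))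 (XT.nd (nat_lit 78) (nat_lit 532) (nat_lit 0) (XT.lf (nat_lit 304) (nat_lit 80322841142) (nat_lit 0) (nat_lit 202692231706) (nat_lit 228) (nat_lit 217580637142) (nat_lit 243) (nat_lit 1) (nat_lit 239) (nat_lit 1) (nat_lit 242) (nat_lit 1) (nat_lit 217) (nat_lit 411) (nat_lit 392)) (XT.nd (nat_lit 78) (nat_lit 228) (nat_lit 0) (XT.lf (nat_lit 76) (nat_lit 91548630316) (nat_lit 0) (nat_lit 83820726807) (nat_lit 304) (nat_lit 310287938630) (nat_lit 236) (nat_lit 1) (nat_lit 235) (nat_lit 1) (nat_lit 239) (nat_lit 1) (nat_lit 218) (nat_lit 411) (nat_lit 391)) (XT.lf (nat_lit 304) (nat_lit 227806750814) (nat_lit 0) (nat_lit 151574170127) (nat_lit 228) (nat_lit 91884760282) (nat_lit 236) (nat_lit 1) (nat_lit 232) (nat_lit 1) (nat_lit 235) (nat_lit 1) (nat_lit 219) (nat_lit 411) (nat_lit 390))))) (XT.nd (nat_lit 234) (nat_lit 760) (nat_lit 0) (XT.nd (nat_lit 78) (nat_lit 456) (nat_lit 0) (XT.lf (nat_lit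 228) (nat_lit 56473629898) (nat_lit 0) (nat_lit 132237407585) (nat_lit 152) (nat_lit 268743627089) (nat_lit 233) (nat_lit 1) (nat_lit 230) (nat_lit 1) (nat_lit 232) (nat_lit 1) (nat_lit 220) (nat_lit 411) (nat_lit 389)) (XT.nd (nat_lit 78) (nat_lit 152) (nat_lit 0) (XT.lf (nat_lit 76) (nat_lit 9566993702) (nat_lit 0) (nat_lit 107056736419) (nat_lit 304) (nat_lit 327555269191) (nat_lit 227) (nat_lit 1) (nat_lit 226) (nat_lit 1) (nat_lit 230) (nat_lit 1) (nat_lit 221) (nat_lit 411) (nat_lit 388)) (XT.lf (nat_lit 228) (nat_lit 164102006305) (nat_lit 0) (nat_lit 102549675656) (nat_lit 152) (nat_lit 164673082938) (nat_lit 227) (nat_lit 1) (nat_lit 224) (nat_lit 1) (nat_lit 226) (nat_lit 1) (nat_lit 222) (nat_lit 411) (nat_lit 387)))) (XT.nd (nat_lit 156) (nat_lit 380) (nat_lit 0) (XT.nd (nat_lit 78) (nat_lit 152) (nat_lit 0) (XT.lf (nat_lit 76) (nat_lit 89034890756) (nat_lit 0) (nat_lit 4112577424)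 (nat_lit 228) (nat_lit 325883976804) (nat_lit 222) (nat_lit 1) (nat_lit 221) (nat_lit 1) (nat_lit 224) (nat_lit 1) (nat_lit 223) (nat_lit 411) (nat_lit 386)) (XT.lf (nat_lit 228) (nat_lit 243404198280) (nat_lit 0) (nat_lit 84345012284) (nat_lit 152) (nat_lit 79346518429) (nat_lit 222) (nat_lit 1) (nat_lit 219) (nat_lit 1) (nat_lit 221) (nat_lit 1) (nat_lit 224) (nat_lit 411) (nat_lit 385))) (XT.nd (nat_lit 78) (nat_lit 228) (nat_lit 0) (XT.lf (nat_lit 228) (nat_lit 75611097873) (nat_lit 0) (nat_lit 78408015931) (nat_lit 152) (nat_lit 241597253859) (nat_lit 220) (nat_lit 1) (nat_lit 217) (nat_lit 1) (nat_lit 219) (nat_lit 1) (nat_lit 225) (nat_lit 411) (nat_lit 384)) (XT.lf (nat_lit 228) (nat_lit 300148270696) (nat_lit 0) (nat_lit 74912495231) (nat_lit 152) (nat_lit 9503519130) (nat_lit 217) (nat_lit 1) (nat_lit 214) (nat_lit 1) (nat_lit 216) (nat_lit 1) (nat_lit 226) (nat_lit 411) (nat_lit 383))))))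 (XT.nd (nat_lit 546) (nat_lit 912) (nat_lit 0) (XT.nd (nat_lit 234) (nat_lit 608) (nat_lit 0) (XT.nd (nat_lit 78) (nat_lit 304) (nat_lit 0) (XT.lf (nat_lit 228) (nat_lit 134332455267) (nat_lit 0) (nat_lit 71516176443) (nat_lit 152) (nat_lit 167970673231) (nat_lit 215) (nat_lit 1) (nat_lit 212) (nat_lit 1) (nat_lit 214) (nat_lit 1) (nat_lit 227) (nat_lit 411) (nat_lit 382)) (XT.nd (nat_lit 78) (nat_lit 152) (nat_lit 0) (XT.lf (nat_lit 76) (nat_lit 46014052360) (nat_lit 0) (nat_lit 25291396631) (nat_lit 152) (nat_lit 292214549844) (nat_lit 211) (nat_lit 1) (nat_lit 210) (nat_lit 1) (nat_lit 212) (nat_lit 1) (nat_lit 228) (nat_lit 411) (nat_lit 381)) (XT.lf (nat_lit 228) (nat_lit 176251906865) (nat_lit 0) (nat_lit 70550403659) (nat_lit 152) (nat_lit 106678275404) (nat_lit 211) (nat_lit 1) (nat_lit 208) (nat_lit 1) (nat_lit 210) (nat_lit 1) (nat_lit 229) (nat_lit 411) (nat_lit 380)))) (XT.nd (nat_lit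 156) (nat_lit 304) (nat_lit 0) (XT.nd (nat_lit 78) (nat_lit 228) (nat_lit 0) (XT.lf (nat_lit 152) (nat_lit 18979825861) (nat_lit 0) (nat_lit 72283212742) (nat_lit 76) (nat_lit 252574477517) (nat_lit 209) (nat_lit 1) (nat_lit 207) (nat_lit 1) (nat_lit 208) (nat_lit 1) (nat_lit 230) (nat_lit 411) (nat_lit 379)) (XT.lf (nat_lit 228) (nat_lit 204880212909) (nat_lit 0) (nat_lit 73926437613) (nat_lit 152) (nat_lit 55653685003) (nat_lit 207) (nat_lit 1) (nat_lit 204) (nat_lit 1) (nat_lit 206) (nat_lit 1) (nat_lit 231) (nat_lit 411) (nat_lit 378))) (XT.nd (nat_lit 78) (nat_lit 228) (nat_lit 0) (XT.lf (nat_lit 152) (nat_lit 51528884328) (nat_lit 0) (nat_lit 76690621609) (nat_lit 76) (nat_lit 197179678815) (nat_lit 205) (nat_lit 1) (nat_lit 203) (nat_lit 1) (nat_lit 204) (nat_lit 1) (nat_lit 232) (nat_lit 411) (nat_lit 377)) (XT.lf (nat_lit 228) (nat_lit 223055867903) (nat_lit 0) (nat_lit 80389432978)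 (nat_lit 152) (nat_lit 13192594123) (nat_lit 203) (nat_lit 1) (nat_lit 200) (nat_lit 1) (nat_lit 202) (nat_lit 1) (nat_lit 233) (nat_lit 411) (nat_lit 376))))) (XT.nd (nat_lit 234) (nat_lit 532) (nat_lit 0) (XT.nd (nat_lit 78) (nat_lit 304) (nat_lit 0) (XT.lf (nat_lit 152) (nat_lit 74157133899) (nat_lit 0) (nat_lit 83806949858) (nat_lit 76) (nat_lit 150147388292) (nat_lit 201) (nat_lit 1) (nat_lit 199) (nat_lit 1) (nat_lit 200) (nat_lit 1) (nat_lit 234) (nat_lit 411) (nat_lit 375)) (XT.nd (nat_lit 78) (nat_lit 76) (nat_lit 0) (XT.lf (nat_lit 76) (nat_lit 21404700024) (nat_lit 0) (nat_lit 67183647714) (nat_lit 228) (nat_lit 211303013676) (nat_lit 197) (nat_lit 1) (nat_lit 196) (nat_lit 1) (nat_lit 199) (nat_lit 1) (nat_lit 235) (nat_lit 411) (nat_lit 374)) (XT.lf (nat_lit 152) (nat_lit 88995251339) (nat_lit 0) (nat_lit 92728833616) (nat_lit 76) (nat_lit 110151307213) (nat_lit 197) (nat_lit 1)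 (nat_lit 195) (nat_lit 1) (nat_lit 196) (nat_lit 1) (nat_lit 236) (nat_lit 411) (nat_lit 373)))) (XT.nd (nat_lit 156) (nat_lit 228) (nat_lit 0) (XT.nd (nat_lit 78) (nat_lit 76) (nat_lit 0) (XT.lf (nat_lit 76) (nat_lit 49779362209) (nat_lit 0) (nat_lit 48214678371) (nat_lit 228) (nat_lit 186147083133) (nat_lit 193) (nat_lit 1) (nat_lit 192) (nat_lit 1) (nat_lit 195) (nat_lit 1) (nat_lit 237) (nat_lit 411) (nat_lit 372)) (XT.lf (nat_lit 152) (nat_lit 97761483286) (nat_lit 0) (nat_lit 102751095416) (nat_lit 76) (nat_lit 76091884188) (nat_lit 193) (nat_lit 1) (nat_lit 191) (nat_lit 1) (nat_lit 192) (nat_lit 1) (nat_lit 238) (nat_lit 411) (nat_lit 371))) (XT.nd (nat_lit 78) (nat_lit 76) (nat_lit 0) (XT.lf (nat_lit 76) (nat_lit 73286732157) (nat_lit 0) (nat_lit 34919816562) (nat_lit 152) (nat_lit 161110154506) (nat_lit 190) (nat_lit 1) (nat_lit 189) (nat_lit 1) (nat_lit 191) (nat_lit 1) (nat_lit 239)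 (nat_lit 411) (nat_lit 370)) (XT.lf (nat_lit 152) (nat_lit 101838711659) (nat_lit 0) (nat_lit 113328118533) (nat_lit 76) (nat_lit 47055868131) (nat_lit 190) (nat_lit 1) (nat_lit 188) (nat_lit 1) (nat_lit 189) (nat_lit 1) (nat_lit 240) (nat_lit 411) (nat_lit 369))))))))
noncomputable def ec223 : XT := (XT.nd (nat_lit 2106) (nat_lit 3192) (nat_lit 0) (XT.nd (nat_lit 1014) (nat_lit 1672) (nat_lit 0) (XT.nd (nat_lit 468) (nat_lit 836) (nat_lit 0) (XT.nd (nat_lit 234) (nat_lit 304) (nat_lit 0) (XT.nd (nat_lit 78) (nat_lit 228) (nat_lit 0) (XT.lf (nat_lit 76) (nat_lit 92700902104) (nat_lit 0) (nat_lit 26050638485) (nat_lit 152) (nat_lit 136595357004) (nat_lit 187) (nat_lit 1) (nat_lit 186) (nat_lit 1) (nat_lit 188) (nat_lit 1) (nat_lit 241) (nat_lit 411) (nat_lit 368)) (XT.nd (nat_lit 78) (nat_lit 152) (nat_lit 0) (XT.lf (nat_lit 152) (nat_lit 102337292291) (nat_lit 0) (nat_lit 124042455569) (nat_lit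 76) (nat_lit 22283207445) (nat_lit 187) (nat_lit 1) (nat_lit 185) (nat_lit 1) (nat_lit 186) (nat_lit 1) (nat_lit 242) (nat_lit 411) (nat_lit 367)) (XT.lf (nat_lit 76) (nat_lit 108665229080) (nat_lit 0) (nat_lit 20603295339) (nat_lit 152) (nat_lit 112900064316) (nat_lit 184) (nat_lit 1) (nat_lit 183) (nat_lit 1) (nat_lit 185) (nat_lit 1) (nat_lit 243) (nat_lit 411) (nat_lit 366)))) (XT.nd (nat_lit 78) (nat_lit 228) (nat_lit 0) (XT.lf (nat_lit 152) (nat_lit 100146282403) (nat_lit 0) (nat_lit 134579334722) (nat_lit 76) (nat_lit 1139952207) (nat_lit 184) (nat_lit 1) (nat_lit 182) (nat_lit 1) (nat_lit 183) (nat_lit 1) (nat_lit 244) (nat_lit 411) (nat_lit 365)) (XT.nd (nat_lit 78) (nat_lit 76) (nat_lit 0) (XT.lf (nat_lit 76) (nat_lit 121715476309) (nat_lit 0) (nat_lit 17772590005) (nat_lit 152) (nat_lit 90237445764) (nat_lit 181) (nat_lit 1) (nat_lit 180) (nat_lit 1) (nat_lit 182) (nat_lit 1) (nat_lit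 245) (nat_lit 411) (nat_lit 364)) (XT.lf (nat_lit 0) (nat_lit 16362906153) (nat_lit 0) (nat_lit 128065953134) (nat_lit 152) (nat_lit 79335172447) (nat_lit 179) (nat_lit 3) (nat_lit 179) (nat_lit 1) (nat_lit 181) (nat_lit 1) (nat_lit 246) (nat_lit 411) (nat_lit 363))))) (XT.nd (nat_lit 234) (nat_lit 456) (nat_lit 0) (XT.nd (nat_lit 78) (nat_lit 228) (nat_lit 0) (XT.lf (nat_lit 76) (nat_lit 132298765703) (nat_lit 0) (nat_lit 16914546810) (nat_lit 152) (nat_lit 68753926243) (nat_lit 178) (nat_lit 1) (nat_lit 177) (nat_lit 1) (nat_lit 179) (nat_lit 1) (nat_lit 247) (nat_lit 411) (nat_lit 362)) (XT.nd (nat_lit 78) (nat_lit 152) (nat_lit 0) (XT.lf (nat_lit 0) (nat_lit 31259204278) (nat_lit 0) (nat_lit 122466212395) (nat_lit 152) (nat_lit 58599410772) (nat_lit 176) (nat_lit 3) (nat_lit 176) (nat_lit 1) (nat_lit 178) (nat_lit 1) (nat_lit 248) (nat_lit 411) (nat_lit 361)) (XT.lf (nat_lit 76) (nat_lit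 140789106406) (nat_lit 0) (nat_lit 17515911912) (nat_lit 152) (nat_lit 48543314020) (nat_lit 175) (nat_lit 1) (nat_lit 174) (nat_lit 1) (nat_lit 176) (nat_lit 1) (nat_lit 249) (nat_lit 411) (nat_lit 360)))) (XT.nd (nat_lit 156) (nat_lit 228) (nat_lit 0) (XT.nd (nat_lit 78) (nat_lit 152) (nat_lit 0) (XT.lf (nat_lit 0) (nat_lit 43946962410) (nat_lit 0) (nat_lit 118418685022) (nat_lit 152) (nat_lit 39139659360) (nat_lit 173) (nat_lit 3) (nat_lit 173) (nat_lit 1) (nat_lit 175) (nat_lit 1) (nat_lit 250) (nat_lit 411) (nat_lit 359)) (XT.lf (nat_lit 76) (nat_lit 147500124201) (nat_lit 0) (nat_lit 19169308773) (nat_lit 152) (nat_lit 29658215728) (nat_lit 172) (nat_lit 1) (nat_lit 171) (nat_lit 1) (nat_lit 173) (nat_lit 1) (nat_lit 251) (nat_lit 411) (nat_lit 358))) (XT.nd (nat_lit 78) (nat_lit 152) (nat_lit 0) (XT.lf (nat_lit 0) (nat_lit 54730990826) (nat_lit 0) (nat_lit 115538132550) (nat_lit 152) (nat_lit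 20996855571) (nat_lit 170) (nat_lit 3) (nat_lit 170) (nat_lit 1) (nat_lit 172) (nat_lit 1) (nat_lit 252) (nat_lit 411) (nat_lit 357)) (XT.lf (nat_lit 76) (nat_lit 152695502188) (nat_lit 0) (nat_lit 21553007439) (nat_lit 152) (nat_lit 12119243751) (nat_lit 169) (nat_lit 1) (nat_lit 168) (nat_lit 1) (nat_lit 170) (nat_lit 1) (nat_lit 253) (nat_lit 411) (nat_lit 356)))))) (XT.nd (nat_lit 546) (nat_lit 836) (nat_lit 0) (XT.nd (nat_lit 234) (nat_lit 456) (nat_lit 0) (XT.nd (nat_lit 78) (nat_lit 304) (nat_lit 0) (XT.lf (nat_lit 0) (nat_lit 63869086325) (nat_lit 0) (nat_lit 113518917897) (nat_lit 152) (nat_lit 4182854308) (nat_lit 167) (nat_lit 3) (nat_lit 167) (nat_lit 1) (nat_lit 169) (nat_lit 1) (nat_lit 254) (nat_lit 411) (nat_lit 355)) (XT.nd (nat_lit 78) (nat_lit 76) (nat_lit 0) (XT.lf (nat_lit 152) (nat_lit 152450922041) (nat_lit 0) (nat_lit 4212394894) (nat_lit 76) (nat_lit 20267830064) (nat_lit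 166) (nat_lit 1) (nat_lit 164) (nat_lit 1) (nat_lit 165) (nat_lit 1) (nat_lit 255) (nat_lit 411) (nat_lit 354)) (XT.lf (nat_lit 76) (nat_lit 60075676446) (nat_lit 0) (nat_lit 11686794801) (nat_lit 76) (nat_lit 100615417425) (nat_lit 164) (nat_lit 3) (nat_lit 163) (nat_lit 1) (nat_lit 164) (nat_lit 1) (nat_lit 256) (nat_lit 411) (nat_lit 353)))) (XT.nd (nat_lit 156) (nat_lit 228) (nat_lit 0) (XT.nd (nat_lit 78) (nat_lit 76) (nat_lit 0) (XT.lf (nat_lit 152) (nat_lit 140118398938) (nat_lit 0) (nat_lit 19581563868) (nat_lit 76) (nat_lit 8281051288) (nat_lit 163) (nat_lit 1) (nat_lit 161) (nat_lit 1) (nat_lit 162) (nat_lit 1) (nat_lit 257) (nat_lit 411) (nat_lit 352)) (XT.lf (nat_lit 76) (nat_lit 52100769145) (nat_lit 0) (nat_lit 26360828066) (nat_lit 76) (nat_lit 85202001247) (nat_lit 161) (nat_lit 3) (nat_lit 160) (nat_lit 1) (nat_lit 161) (nat_lit 1) (nat_lit 258) (nat_lit 411) (nat_lit 351)))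 (XT.nd (nat_lit 78) (nat_lit 76) (nat_lit 0) (XT.lf (nat_lit 0) (nat_lit 2199086884) (nat_lit 0) (nat_lit 31388885916) (nat_lit 152) (nat_lit 125908433159) (nat_lit 158) (nat_lit 3) (nat_lit 158) (nat_lit 1) (nat_lit 160) (nat_lit 1) (nat_lit 259) (nat_lit 411) (nat_lit 350)) (XT.lf (nat_lit 76) (nat_lit 44317003700) (nat_lit 0) (nat_lit 39741820020) (nat_lit 76) (nat_lit 71344595396) (nat_lit 158) (nat_lit 3) (nat_lit 157) (nat_lit 1) (nat_lit 158) (nat_lit 1) (nat_lit 260) (nat_lit 411) (nat_lit 349))))) (XT.nd (nat_lit 234) (nat_lit 456) (nat_lit 0) (XT.nd (nat_lit 78) (nat_lit 228) (nat_lit 0) (XT.lf (nat_lit 0) (nat_lit 11184073624) (nat_lit 0) (nat_lit 35017928735) (nat_lit 152) (nat_lit 105244851392) (nat_lit 155) (nat_lit 3) (nat_lit 155) (nat_lit 1) (nat_lit 157) (nat_lit 1) (nat_lit 261) (nat_lit 411) (nat_lit 348)) (XT.nd (nat_lit 78) (nat_lit 152) (nat_lit 0) (XT.lf (nat_lit 76) (nat_lit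 36811627943) (nat_lit 0) (nat_lit 51879843605) (nat_lit 76) (nat_lit 58880012305) (nat_lit 155) (nat_lit 3) (nat_lit 154) (nat_lit 1) (nat_lit 155) (nat_lit 1) (nat_lit 262) (nat_lit 411) (nat_lit 347)) (XT.lf (nat_lit 0) (nat_lit 19075879905) (nat_lit 0) (nat_lit 38536536309) (nat_lit 152) (nat_lit 86201463535) (nat_lit 152) (nat_lit 3) (nat_lit 152) (nat_lit 1) (nat_lit 154) (nat_lit 1) (nat_lit 263) (nat_lit 411) (nat_lit 346)))) (XT.nd (nat_lit 156) (nat_lit 228) (nat_lit 0) (XT.nd (nat_lit 78) (nat_lit 152) (nat_lit 0) (XT.lf (nat_lit 76) (nat_lit 29646673688) (nat_lit 0) (nat_lit 62831301317) (nat_lit 76) (nat_lit 47665799988) (nat_lit 152) (nat_lit 3) (nat_lit 151) (nat_lit 1) (nat_lit 152) (nat_lit 1) (nat_lit 264) (nat_lit 411) (nat_lit 345)) (XT.lf (nat_lit 0) (nat_lit 25993718268) (nat_lit 0) (nat_lit 41883600367) (nat_lit 152) (nat_lit 68696970446) (nat_lit 149) (nat_lit 3) (nat_lit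 149) (nat_lit 1) (nat_lit 151) (nat_lit 1) (nat_lit 265) (nat_lit 411) (nat_lit 344))) (XT.nd (nat_lit 78) (nat_lit 152) (nat_lit 0) (XT.lf (nat_lit 76) (nat_lit 22864207279) (nat_lit 0) (nat_lit 72656663121) (nat_lit 76) (nat_lit 37577061074) (nat_lit 149) (nat_lit 3) (nat_lit 148) (nat_lit 1) (nat_lit 149) (nat_lit 1) (nat_lit 266) (nat_lit 411) (nat_lit 343)) (XT.lf (nat_lit 0) (nat_lit 32041811000) (nat_lit 0) (nat_lit 45016108880) (nat_lit 152) (nat_lit 52648537184) (nat_lit 146) (nat_lit 3) (nat_lit 146) (nat_lit 1) (nat_lit 148) (nat_lit 1) (nat_lit 267) (nat_lit 411) (nat_lit 342))))))) (XT.nd (nat_lit 1014) (nat_lit 1596) (nat_lit 0) (XT.nd (nat_lit 468) (nat_lit 912) (nat_lit 0) (XT.nd (nat_lit 234) (nat_lit 380) (nat_lit 0) (XT.nd (nat_lit 78) (nat_lit 228) (nat_lit 0) (XT.lf (nat_lit 76) (nat_lit 16490576879) (nat_lit 0) (nat_lit 81418691652) (nat_lit 76) (nat_lit 28503815656) (nat_lit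 146) (nat_lit 3) (nat_lit 145) (nat_lit 1) (nat_lit 146) (nat_lit 1) (nat_lit 268) (nat_lit 411) (nat_lit 341)) (XT.nd (nat_lit 78) (nat_lit 76) (nat_lit 0) (XT.lf (nat_lit 0) (nat_lit 37311648019) (nat_lit 0) (nat_lit 47905333008) (nat_lit 152) (nat_lit 37973196203) (nat_lit 143) (nat_lit 3) (nat_lit 143) (nat_lit 1) (nat_lit 145) (nat_lit 1) (nat_lit 269) (nat_lit 411) (nat_lit 340)) (XT.lf (nat_lit 76) (nat_lit 10539843034) (nat_lit 0) (nat_lit 89181060790) (nat_lit 76) (nat_lit 20348810617) (nat_lit 143) (nat_lit 3) (nat_lit 142) (nat_lit 1) (nat_lit 143) (nat_lit 1) (nat_lit 270) (nat_lit 411) (nat_lit 339)))) (XT.nd (nat_lit 78) (nat_lit 228) (nat_lit 0) (XT.lf (nat_lit 0) (nat_lit 41883862955) (nat_lit 0) (nat_lit 50533746184) (nat_lit 152) (nat_lit 24588921173) (nat_lit 140) (nat_lit 3) (nat_lit 140) (nat_lit 1) (nat_lit 142) (nat_lit 1) (nat_lit 271) (nat_lit 411) (nat_lit 338)) (XT.nd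 (nat_lit 78) (nat_lit 152) (nat_lit 0) (XT.lf (nat_lit 76) (nat_lit 5016544690) (nat_lit 0) (nat_lit 96007291149) (nat_lit 76) (nat_lit 13025695828) (nat_lit 140) (nat_lit 3) (nat_lit 139) (nat_lit 1) (nat_lit 140) (nat_lit 1) (nat_lit 272) (nat_lit 411) (nat_lit 337)) (XT.lf (nat_lit 0) (nat_lit 45829795438) (nat_lit 0) (nat_lit 52892538946) (nat_lit 152) (nat_lit 12415436280) (nat_lit 137) (nat_lit 3) (nat_lit 137) (nat_lit 1) (nat_lit 139) (nat_lit 1) (nat_lit 273) (nat_lit 411) (nat_lit 336))))) (XT.nd (nat_lit 234) (nat_lit 456) (nat_lit 0) (XT.nd (nat_lit 78) (nat_lit 304) (nat_lit 0) (XT.lf (nat_lit 76) (nat_lit 101879146543) (nat_lit 0) (nat_lit 79448337) (nat_lit 152) (nat_lit 6376708229) (nat_lit 136) (nat_lit 1) (nat_lit 135) (nat_lit 1) (nat_lit 137) (nat_lit 1) (nat_lit 274) (nat_lit 411) (nat_lit 335)) (XT.nd (nat_lit 78) (nat_lit 228) (nat_lit 0) (XT.lf (nat_lit 0) (nat_lit 49212795268)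 (nat_lit 0) (nat_lit 54979618303) (nat_lit 152) (nat_lit 1374813748) (nat_lit 134) (nat_lit 3) (nat_lit 134) (nat_lit 1) (nat_lit 136) (nat_lit 1) (nat_lit 275) (nat_lit 411) (nat_lit 334)) (XT.lf (nat_lit 152) (nat_lit 98225883770) (nat_lit 0) (nat_lit 4250577548) (nat_lit 76) (nat_lit 427582698) (nat_lit 133) (nat_lit 1) (nat_lit 131) (nat_lit 1) (nat_lit 132) (nat_lit 1) (nat_lit 276) (nat_lit 411) (nat_lit 333)))) (XT.nd (nat_lit 156) (nat_lit 228) (nat_lit 0) (XT.nd (nat_lit 78) (nat_lit 152) (nat_lit 0) (XT.lf (nat_lit 76) (nat_lit 43335434024) (nat_lit 0) (nat_lit 8892720261) (nat_lit 76) (nat_lit 48044120937) (nat_lit 131) (nat_lit 3) (nat_lit 130) (nat_lit 1) (nat_lit 131) (nat_lit 1) (nat_lit 277) (nat_lit 411) (nat_lit 332)) (XT.lf (nat_lit 0) (nat_lit 4898838897) (nat_lit 0) (nat_lit 9051120125) (nat_lit 152) (nat_lit 83789558973) (nat_lit 128) (nat_lit 3) (nat_lit 128) (nat_lit 1)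 (nat_lit 130) (nat_lit 1) (nat_lit 278) (nat_lit 411) (nat_lit 331))) (XT.nd (nat_lit 78) (nat_lit 152) (nat_lit 0) (XT.lf (nat_lit 76) (nat_lit 36606287138) (nat_lit 0) (nat_lit 18187491871) (nat_lit 76) (nat_lit 40450991979) (nat_lit 128) (nat_lit 3) (nat_lit 127) (nat_lit 1) (nat_lit 128) (nat_lit 1) (nat_lit 279) (nat_lit 411) (nat_lit 330)) (XT.lf (nat_lit 0) (nat_lit 9639458771) (nat_lit 0) (nat_lit 13029851047) (nat_lit 152) (nat_lit 70167250518) (nat_lit 125) (nat_lit 3) (nat_lit 125) (nat_lit 1) (nat_lit 127) (nat_lit 1) (nat_lit 280) (nat_lit 411) (nat_lit 329)))))) (XT.nd (nat_lit 546) (nat_lit 836) (nat_lit 0) (XT.nd (nat_lit 234) (nat_lit 456) (nat_lit 0) (XT.nd (nat_lit 78) (nat_lit 228) (nat_lit 0) (XT.lf (nat_lit 76) (nat_lit 30398723479) (nat_lit 0) (nat_lit 26535140986) (nat_lit 76) (nat_lit 33537975587) (nat_lit 125) (nat_lit 3) (nat_lit 124) (nat_lit 1) (nat_lit 125) (nat_lit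 1) (nat_lit 281) (nat_lit 411) (nat_lit 328)) (XT.nd (nat_lit 78) (nat_lit 76) (nat_lit 0) (XT.lf (nat_lit 0) (nat_lit 13858038774) (nat_lit 0) (nat_lit 16626338692) (nat_lit 152) (nat_lit 57697514190) (nat_lit 122) (nat_lit 3) (nat_lit 122) (nat_lit 1) (nat_lit 124) (nat_lit 1) (nat_lit 282) (nat_lit 411) (nat_lit 327)) (XT.lf (nat_lit 76) (nat_lit 24686876921) (nat_lit 0) (nat_lit 34003290707) (nat_lit 76) (nat_lit 27250117586) (nat_lit 122) (nat_lit 3) (nat_lit 121) (nat_lit 1) (nat_lit 122) (nat_lit 1) (nat_lit 283) (nat_lit 411) (nat_lit 326)))) (XT.nd (nat_lit 156) (nat_lit 228) (nat_lit 0) (XT.nd (nat_lit 78) (nat_lit 76) (nat_lit 0) (XT.lf (nat_lit 0) (nat_lit 17600038357) (nat_lit 0) (nat_lit 19860391677) (nat_lit 152) (nat_lit 46302228615) (nat_lit 119) (nat_lit 3) (nat_lit 119) (nat_lit 1) (nat_lit 121) (nat_lit 1) (nat_lit 284) (nat_lit 411) (nat_lit 325)) (XT.lf (nat_lit 76) (nat_lit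 19444336233) (nat_lit 0) (nat_lit 40656049094) (nat_lit 76) (nat_lit 21537255973) (nat_lit 119) (nat_lit 3) (nat_lit 118) (nat_lit 1) (nat_lit 119) (nat_lit 1) (nat_lit 285) (nat_lit 411) (nat_lit 324))) (XT.nd (nat_lit 78) (nat_lit 76) (nat_lit 0) (XT.lf (nat_lit 0) (nat_lit 20906822168) (nat_lit 0) (nat_lit 22752430405) (nat_lit 152) (nat_lit 35907464002) (nat_lit 116) (nat_lit 3) (nat_lit 116) (nat_lit 1) (nat_lit 118) (nat_lit 1) (nat_lit 286) (nat_lit 411) (nat_lit 323)) (XT.lf (nat_lit 76) (nat_lit 14644604747) (nat_lit 0) (nat_lit 46554020415) (nat_lit 76) (nat_lit 16353501263) (nat_lit 116) (nat_lit 3) (nat_lit 115) (nat_lit 1) (nat_lit 116) (nat_lit 1) (nat_lit 287) (nat_lit 411) (nat_lit 322))))) (XT.nd (nat_lit 234) (nat_lit 456) (nat_lit 0) (XT.nd (nat_lit 78) (nat_lit 228) (nat_lit 0) (XT.lf (nat_lit 0) (nat_lit 23816107841) (nat_lit 0) (nat_lit 25323071259) (nat_lit 152) (nat_lit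 26443403778) (nat_lit 113) (nat_lit 3) (nat_lit 113) (nat_lit 1) (nat_lit 115) (nat_lit 1) (nat_lit 288) (nat_lit 411) (nat_lit 321)) (XT.nd (nat_lit 78) (nat_lit 152) (nat_lit 0) (XT.lf (nat_lit 76) (nat_lit 10261452653) (nat_lit 0) (nat_lit 51754356030) (nat_lit 76) (nat_lit 11656789151) (nat_lit 113) (nat_lit 3) (nat_lit 112) (nat_lit 1) (nat_lit 113) (nat_lit 1) (nat_lit 289) (nat_lit 411) (nat_lit 320)) (XT.lf (nat_lit 0) (nat_lit 26362351633) (nat_lit 0) (nat_lit 27592807099) (nat_lit 152) (nat_lit 17844236323) (nat_lit 110) (nat_lit 3) (nat_lit 110) (nat_lit 1) (nat_lit 112) (nat_lit 1) (nat_lit 290) (nat_lit 411) (nat_lit 319)))) (XT.nd (nat_lit 156) (nat_lit 228) (nat_lit 0) (XT.nd (nat_lit 78) (nat_lit 152) (nat_lit 0) (XT.lf (nat_lit 76) (nat_lit 6269183050) (nat_lit 0) (nat_lit 56310835017) (nat_lit 76) (nat_lit 7408493666) (nat_lit 110) (nat_lit 3) (nat_lit 109) (nat_lit 1) (nat_lit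 110) (nat_lit 1) (nat_lit 291) (nat_lit 411) (nat_lit 318)) (XT.lf (nat_lit 0) (nat_lit 28577082049) (nat_lit 0) (nat_lit 29581765132) (nat_lit 152) (nat_lit 10048025037) (nat_lit 107) (nat_lit 3) (nat_lit 107) (nat_lit 1) (nat_lit 109) (nat_lit 1) (nat_lit 292) (nat_lit 411) (nat_lit 317))) (XT.nd (nat_lit 78) (nat_lit 152) (nat_lit 0) (XT.lf (nat_lit 76) (nat_lit 2642828903) (nat_lit 0) (nat_lit 60273966625) (nat_lit 76) (nat_lit 3573091017) (nat_lit 107) (nat_lit 3) (nat_lit 106) (nat_lit 1) (nat_lit 107) (nat_lit 1) (nat_lit 293) (nat_lit 411) (nat_lit 316)) (XT.lf (nat_lit 0) (nat_lit 30489189818) (nat_lit 0) (nat_lit 31309526780) (nat_lit 152) (nat_lit 2996563264) (nat_lit 104) (nat_lit 3) (nat_lit 104) (nat_lit 1) (nat_lit 106) (nat_lit 1) (nat_lit 294) (nat_lit 411) (nat_lit 315))))))))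
noncomputable def ec224 : XT := (XT.nd (nat_lit 2028) (nat_lit 3192) (nat_lit 0) (XT.nd (nat_lit 1014) (nat_lit 1596) (nat_lit 0) (XT.nd (nat_lit 468) (nat_lit 836) (nat_lit 0) (XT.nd (nat_lit 234) (nat_lit 304) (nat_lit 0) (XT.nd (nat_lit 78) (nat_lit 228) (nat_lit 0) (XT.lf (nat_lit 152) (nat_lit 62536899889) (nat_lit 0) (nat_lit 530809437) (nat_lit 76) (nat_lit 98644561) (nat_lit 103) (nat_lit 1) (nat_lit 101) (nat_lit 1) (nat_lit 102) (nat_lit 1) (nat_lit 295) (nat_lit 411) (nat_lit 314)) (XT.nd (nat_lit 78) (nat_lit 152) (nat_lit 0) (XT.lf (nat_lit 76) (nat_lit 28703416225) (nat_lit 0) (nat_lit 3476035561) (nat_lit 76) (nat_lit 29373232151) (nat_lit 101) (nat_lit 3) (nat_lit 100) (nat_lit 1) (nat_lit 101) (nat_lit 1) (nat_lit 296) (nat_lit 411) (nat_lit 313)) (XT.lf (nat_lit 0) (nat_lit 3056168053) (nat_lit 0) (nat_lit 3646834654) (nat_lit 152) (nat_lit 53298147487) (nat_lit 98) (nat_lit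 3) (nat_lit 98) (nat_lit 1) (nat_lit 100) (nat_lit 1) (nat_lit 297) (nat_lit 411) (nat_lit 312)))) (XT.nd (nat_lit 78) (nat_lit 228) (nat_lit 0) (XT.lf (nat_lit 76) (nat_lit 24268278722) (nat_lit 0) (nat_lit 9387689235) (nat_lit 76) (nat_lit 24815192242) (nat_lit 98) (nat_lit 3) (nat_lit 97) (nat_lit 1) (nat_lit 98) (nat_lit 1) (nat_lit 298) (nat_lit 411) (nat_lit 311)) (XT.nd (nat_lit 78) (nat_lit 76) (nat_lit 0) (XT.lf (nat_lit 0) (nat_lit 5881186090) (nat_lit 0) (nat_lit 6363473145) (nat_lit 152) (nat_lit 44750765838) (nat_lit 95) (nat_lit 3) (nat_lit 95) (nat_lit 1) (nat_lit 97) (nat_lit 1) (nat_lit 299) (nat_lit 411) (nat_lit 310)) (XT.lf (nat_lit 76) (nat_lit 20204686732) (nat_lit 0) (nat_lit 14688870942) (nat_lit 76) (nat_lit 20651248820) (nat_lit 95) (nat_lit 3) (nat_lit 94) (nat_lit 1) (nat_lit 95) (nat_lit 1) (nat_lit 300) (nat_lit 411) (nat_lit 309))))) (XT.nd (nat_lit 234) (nat_lit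 456) (nat_lit 0) (XT.nd (nat_lit 78) (nat_lit 228) (nat_lit 0) (XT.lf (nat_lit 0) (nat_lit 8405554532) (nat_lit 0) (nat_lit 8799348260) (nat_lit 152) (nat_lit 36936233175) (nat_lit 92) (nat_lit 3) (nat_lit 92) (nat_lit 1) (nat_lit 94) (nat_lit 1) (nat_lit 301) (nat_lit 411) (nat_lit 308)) (XT.nd (nat_lit 78) (nat_lit 152) (nat_lit 0) (XT.lf (nat_lit 76) (nat_lit 16487584296) (nat_lit 0) (nat_lit 19425944824) (nat_lit 76) (nat_lit 16852208118) (nat_lit 92) (nat_lit 3) (nat_lit 91) (nat_lit 1) (nat_lit 92) (nat_lit 1) (nat_lit 302) (nat_lit 411) (nat_lit 307)) (XT.lf (nat_lit 0) (nat_lit 10653312378) (nat_lit 0) (nat_lit 10974850140) (nat_lit 152) (nat_lit 29802422999) (nat_lit 89) (nat_lit 3) (nat_lit 89) (nat_lit 1) (nat_lit 91) (nat_lit 1) (nat_lit 303) (nat_lit 411) (nat_lit 306)))) (XT.nd (nat_lit 156) (nat_lit 228) (nat_lit 0) (XT.nd (nat_lit 78) (nat_lit 152) (nat_lit 0) (XT.lf (nat_lit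 76) (nat_lit 13093251212) (nat_lit 0) (nat_lit 23642253335) (nat_lit 76) (nat_lit 13390971362) (nat_lit 89) (nat_lit 3) (nat_lit 88) (nat_lit 1) (nat_lit 89) (nat_lit 1) (nat_lit 304) (nat_lit 411) (nat_lit 305)) (XT.lf (nat_lit 0) (nat_lit 12646707271) (nat_lit 0) (nat_lit 12909247086) (nat_lit 152) (nat_lit 23300520885) (nat_lit 86) (nat_lit 3) (nat_lit 86) (nat_lit 1) (nat_lit 88) (nat_lit 1) (nat_lit 305) (nat_lit 411) (nat_lit 304))) (XT.nd (nat_lit 78) (nat_lit 152) (nat_lit 0) (XT.lf (nat_lit 76) (nat_lit 9999279468) (nat_lit 0) (nat_lit 27378281214) (nat_lit 76) (nat_lit 10242371889) (nat_lit 86) (nat_lit 3) (nat_lit 85) (nat_lit 1) (nat_lit 86) (nat_lit 1) (nat_lit 306) (nat_lit 411) (nat_lit 303)) (XT.lf (nat_lit 0) (nat_lit 14406337147) (nat_lit 0) (nat_lit 14620704361) (nat_lit 152) (nat_lit 17384842211) (nat_lit 83) (nat_lit 3) (nat_lit 83) (nat_lit 1) (nat_lit 85) (nat_lit 1) (nat_lit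 307) (nat_lit 411) (nat_lit 302)))))) (XT.nd (nat_lit 468) (nat_lit 912) (nat_lit 0) (XT.nd (nat_lit 234) (nat_lit 380) (nat_lit 0) (XT.nd (nat_lit 78) (nat_lit 228) (nat_lit 0) (XT.lf (nat_lit 76) (nat_lit 7184539816) (nat_lit 0) (nat_lit 30671815041) (nat_lit 76) (nat_lit 7383027977) (nat_lit 83) (nat_lit 3) (nat_lit 82) (nat_lit 1) (nat_lit 83) (nat_lit 1) (nat_lit 308) (nat_lit 411) (nat_lit 301)) (XT.nd (nat_lit 78) (nat_lit 76) (nat_lit 0) (XT.lf (nat_lit 0) (nat_lit 15951278208) (nat_lit 0) (nat_lit 16126311861) (nat_lit 152) (nat_lit 12012656094) (nat_lit 80) (nat_lit 3) (nat_lit 80) (nat_lit 1) (nat_lit 82) (nat_lit 1) (nat_lit 309) (nat_lit 411) (nat_lit 300)) (XT.lf (nat_lit 76) (nat_lit 4629141178) (nat_lit 0) (nat_lit 33558097583) (nat_lit 76) (nat_lit 4791209374) (nat_lit 80) (nat_lit 3) (nat_lit 79) (nat_lit 1) (nat_lit 80) (nat_lit 1) (nat_lit 310) (nat_lit 411) (nat_lit 299))))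 (XT.nd (nat_lit 78) (nat_lit 228) (nat_lit 0) (XT.lf (nat_lit 0) (nat_lit 17299200971) (nat_lit 0) (nat_lit 17442118252) (nat_lit 152) (nat_lit 7144016036) (nat_lit 77) (nat_lit 3) (nat_lit 77) (nat_lit 1) (nat_lit 79) (nat_lit 1) (nat_lit 311) (nat_lit 411) (nat_lit 298)) (XT.nd (nat_lit 78) (nat_lit 152) (nat_lit 0) (XT.lf (nat_lit 76) (nat_lit 2314385027) (nat_lit 0) (nat_lit 36069976368) (nat_lit 76) (nat_lit 2446715843) (nat_lit 77) (nat_lit 3) (nat_lit 76) (nat_lit 1) (nat_lit 77) (nat_lit 1) (nat_lit 312) (nat_lit 411) (nat_lit 297)) (XT.lf (nat_lit 0) (nat_lit 18466475831) (nat_lit 0) (nat_lit 18583169672) (nat_lit 152) (nat_lit 2741597665) (nat_lit 74) (nat_lit 3) (nat_lit 74) (nat_lit 1) (nat_lit 76) (nat_lit 1) (nat_lit 313) (nat_lit 411) (nat_lit 296))))) (XT.nd (nat_lit 234) (nat_lit 456) (nat_lit 0) (XT.nd (nat_lit 78) (nat_lit 380) (nat_lit 0) (XT.lf (nat_lit 76) (nat_lit 222716421)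 (nat_lit 0) (nat_lit 38238046136) (nat_lit 76) (nat_lit 330766274) (nat_lit 74) (nat_lit 3) (nat_lit 73) (nat_lit 1) (nat_lit 74) (nat_lit 1) (nat_lit 314) (nat_lit 411) (nat_lit 295)) (XT.nd (nat_lit 78) (nat_lit 152) (nat_lit 0) (XT.lf (nat_lit 76) (nat_lit 18217991692) (nat_lit 0) (nat_lit 1270107649) (nat_lit 76) (nat_lit 18313273749) (nat_lit 71) (nat_lit 3) (nat_lit 70) (nat_lit 1) (nat_lit 71) (nat_lit 1) (nat_lit 315) (nat_lit 411) (nat_lit 294)) (XT.lf (nat_lit 0) (nat_lit 1602731516) (nat_lit 0) (nat_lit 1686754494) (nat_lit 152) (nat_lit 33559689850) (nat_lit 68) (nat_lit 3) (nat_lit 68) (nat_lit 1) (nat_lit 70) (nat_lit 1) (nat_lit 316) (nat_lit 411) (nat_lit 293)))) (XT.nd (nat_lit 156) (nat_lit 228) (nat_lit 0) (XT.nd (nat_lit 78) (nat_lit 152) (nat_lit 0) (XT.lf (nat_lit 76) (nat_lit 15435630243) (nat_lit 0) (nat_lit 4960448936) (nat_lit 76) (nat_lit 15513429297) (nat_lit 68) (nat_lit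 3) (nat_lit 67) (nat_lit 1) (nat_lit 68) (nat_lit 1) (nat_lit 317) (nat_lit 411) (nat_lit 292)) (XT.lf (nat_lit 0) (nat_lit 3340274361) (nat_lit 0) (nat_lit 3408880228) (nat_lit 152) (nat_lit 28254605440) (nat_lit 65) (nat_lit 3) (nat_lit 65) (nat_lit 1) (nat_lit 67) (nat_lit 1) (nat_lit 318) (nat_lit 411) (nat_lit 291))) (XT.nd (nat_lit 78) (nat_lit 152) (nat_lit 0) (XT.lf (nat_lit 76) (nat_lit 12889562775) (nat_lit 0) (nat_lit 8270139149) (nat_lit 76) (nat_lit 12953086727) (nat_lit 65) (nat_lit 3) (nat_lit 64) (nat_lit 1) (nat_lit 65) (nat_lit 1) (nat_lit 319) (nat_lit 411) (nat_lit 290)) (XT.lf (nat_lit 0) (nat_lit 4895224739) (nat_lit 0) (nat_lit 4951242333) (nat_lit 152) (nat_lit 23404746689) (nat_lit 62) (nat_lit 3) (nat_lit 62) (nat_lit 1) (nat_lit 64) (nat_lit 1) (nat_lit 320) (nat_lit 411) (nat_lit 289))))))) (XT.nd (nat_lit 1014) (nat_lit 1748) (nat_lit 0) (XT.nd (nat_lit 468) (nat_lit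 760) (nat_lit 0) (XT.nd (nat_lit 234) (nat_lit 380) (nat_lit 0) (XT.nd (nat_lit 78) (nat_lit 228) (nat_lit 0) (XT.lf (nat_lit 76) (nat_lit 10563052757) (nat_lit 0) (nat_lit 11228427336) (nat_lit 76) (nat_lit 10614920899) (nat_lit 62) (nat_lit 3) (nat_lit 61) (nat_lit 1) (nat_lit 62) (nat_lit 1) (nat_lit 321) (nat_lit 411) (nat_lit 288)) (XT.nd (nat_lit 78) (nat_lit 76) (nat_lit 0) (XT.lf (nat_lit 0) (nat_lit 6281836225) (nat_lit 0) (nat_lit 6327575328) (nat_lit 152) (nat_lit 18977425205) (nat_lit 59) (nat_lit 3) (nat_lit 59) (nat_lit 1) (nat_lit 61) (nat_lit 1) (nat_lit 322) (nat_lit 411) (nat_lit 287)) (XT.lf (nat_lit 76) (nat_lit 8440423998) (nat_lit 0) (nat_lit 13862579383) (nat_lit 76) (nat_lit 8482775019) (nat_lit 59) (nat_lit 3) (nat_lit 58) (nat_lit 1) (nat_lit 59) (nat_lit 1) (nat_lit 323) (nat_lit 411) (nat_lit 286)))) (XT.nd (nat_lit 78) (nat_lit 228) (nat_lit 0) (XT.lf (nat_lit 0)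 (nat_lit 7513362908) (nat_lit 0) (nat_lit 7550709487) (nat_lit 152) (nat_lit 14942096192) (nat_lit 56) (nat_lit 3) (nat_lit 56) (nat_lit 1) (nat_lit 58) (nat_lit 1) (nat_lit 324) (nat_lit 411) (nat_lit 285)) (XT.nd (nat_lit 78) (nat_lit 152) (nat_lit 0) (XT.lf (nat_lit 76) (nat_lit 6507002535) (nat_lit 0) (nat_lit 16198001304) (nat_lit 76) (nat_lit 6541582701) (nat_lit 56) (nat_lit 3) (nat_lit 55) (nat_lit 1) (nat_lit 56) (nat_lit 1) (nat_lit 325) (nat_lit 411) (nat_lit 284)) (XT.lf (nat_lit 0) (nat_lit 8602127529) (nat_lit 0) (nat_lit 8632621503) (nat_lit 152) (nat_lit 11270227194) (nat_lit 53) (nat_lit 3) (nat_lit 53) (nat_lit 1) (nat_lit 55) (nat_lit 1) (nat_lit 326) (nat_lit 411) (nat_lit 283))))) (XT.nd (nat_lit 234) (nat_lit 456) (nat_lit 0) (XT.nd (nat_lit 78) (nat_lit 228) (nat_lit 0) (XT.lf (nat_lit 76) (nat_lit 4749060455) (nat_lit 0) (nat_lit 18258355722) (nat_lit 76) (nat_lit 4777295616)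 (nat_lit 53) (nat_lit 3) (nat_lit 52) (nat_lit 1) (nat_lit 53) (nat_lit 1) (nat_lit 327) (nat_lit 411) (nat_lit 282)) (XT.nd (nat_lit 78) (nat_lit 76) (nat_lit 0) (XT.lf (nat_lit 0) (nat_lit 9559584712) (nat_lit 0) (nat_lit 9584483443) (nat_lit 152) (nat_lit 7935174135) (nat_lit 50) (nat_lit 3) (nat_lit 50) (nat_lit 1) (nat_lit 52) (nat_lit 1) (nat_lit 328) (nat_lit 411) (nat_lit 281)) (XT.lf (nat_lit 76) (nat_lit 3153761836) (nat_lit 0) (nat_lit 20065671793) (nat_lit 76) (nat_lit 3176816216) (nat_lit 50) (nat_lit 3) (nat_lit 49) (nat_lit 1) (nat_lit 50) (nat_lit 1) (nat_lit 329) (nat_lit 411) (nat_lit 280)))) (XT.nd (nat_lit 156) (nat_lit 228) (nat_lit 0) (XT.nd (nat_lit 78) (nat_lit 76) (nat_lit 0) (XT.lf (nat_lit 0) (nat_lit 10396379696) (nat_lit 0) (nat_lit 10416709837) (nat_lit 152) (nat_lit 4912064364) (nat_lit 47) (nat_lit 3) (nat_lit 47) (nat_lit 1) (nat_lit 49) (nat_lit 1) (nat_lit 330)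 (nat_lit 411) (nat_lit 279)) (XT.lf (nat_lit 76) (nat_lit 1709110918) (nat_lit 0) (nat_lit 21640448852) (nat_lit 76) (nat_lit 1727935123) (nat_lit 47) (nat_lit 3) (nat_lit 46) (nat_lit 1) (nat_lit 47) (nat_lit 1) (nat_lit 331) (nat_lit 411) (nat_lit 278))) (XT.nd (nat_lit 78) (nat_lit 76) (nat_lit 0) (XT.lf (nat_lit 0) (nat_lit 11122402954) (nat_lit 0) (nat_lit 11139002782) (nat_lit 152) (nat_lit 2177686385) (nat_lit 44) (nat_lit 3) (nat_lit 44) (nat_lit 1) (nat_lit 46) (nat_lit 1) (nat_lit 332) (nat_lit 411) (nat_lit 277)) (XT.lf (nat_lit 76) (nat_lit 403902585) (nat_lit 0) (nat_lit 23001754055) (nat_lit 76) (nat_lit 419272796) (nat_lit 44) (nat_lit 3) (nat_lit 43) (nat_lit 1) (nat_lit 44) (nat_lit 1) (nat_lit 333) (nat_lit 411) (nat_lit 276)))))) (XT.nd (nat_lit 546) (nat_lit 836) (nat_lit 0) (XT.nd (nat_lit 234) (nat_lit 456) (nat_lit 0) (XT.nd (nat_lit 78) (nat_lit 228) (nat_lit 0) (XT.lf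 (nat_lit 76) (nat_lit 11452322241) (nat_lit 0) (nat_lit 299189992) (nat_lit 76) (nat_lit 11465876219) (nat_lit 41) (nat_lit 3) (nat_lit 40) (nat_lit 1) (nat_lit 41) (nat_lit 1) (nat_lit 334) (nat_lit 411) (nat_lit 275)) (XT.nd (nat_lit 78) (nat_lit 76) (nat_lit 0) (XT.lf (nat_lit 0) (nat_lit 772631861) (nat_lit 0) (nat_lit 784584222) (nat_lit 152) (nat_lit 21075546671) (nat_lit 38) (nat_lit 3) (nat_lit 38) (nat_lit 1) (nat_lit 40) (nat_lit 1) (nat_lit 335) (nat_lit 411) (nat_lit 274)) (XT.lf (nat_lit 76) (nat_lit 9725683600) (nat_lit 0) (nat_lit 2593024729) (nat_lit 76) (nat_lit 9736750602) (nat_lit 38) (nat_lit 3) (nat_lit 37) (nat_lit 1) (nat_lit 38) (nat_lit 1) (nat_lit 336) (nat_lit 411) (nat_lit 273)))) (XT.nd (nat_lit 156) (nat_lit 228) (nat_lit 0) (XT.nd (nat_lit 78) (nat_lit 76) (nat_lit 0) (XT.lf (nat_lit 0) (nat_lit 1849236321) (nat_lit 0) (nat_lit 1858995581) (nat_lit 152) (nat_lit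 17791110422) (nat_lit 35) (nat_lit 3) (nat_lit 35) (nat_lit 1) (nat_lit 37) (nat_lit 1) (nat_lit 337) (nat_lit 411) (nat_lit 272)) (XT.lf (nat_lit 76) (nat_lit 8145824843) (nat_lit 0) (nat_lit 4651263676) (nat_lit 76) (nat_lit 8154861196) (nat_lit 35) (nat_lit 3) (nat_lit 34) (nat_lit 1) (nat_lit 35) (nat_lit 1) (nat_lit 338) (nat_lit 411) (nat_lit 271))) (XT.nd (nat_lit 78) (nat_lit 76) (nat_lit 0) (XT.lf (nat_lit 0) (nat_lit 2813509119) (nat_lit 0) (nat_lit 2821477684) (nat_lit 152) (nat_lit 14787960732) (nat_lit 32) (nat_lit 3) (nat_lit 32) (nat_lit 1) (nat_lit 34) (nat_lit 1) (nat_lit 339) (nat_lit 411) (nat_lit 270)) (XT.lf (nat_lit 76) (nat_lit 6702248414) (nat_lit 0) (nat_lit 6492033753) (nat_lit 76) (nat_lit 6709626715) (nat_lit 32) (nat_lit 3) (nat_lit 31) (nat_lit 1) (nat_lit 32) (nat_lit 1) (nat_lit 340) (nat_lit 411) (nat_lit 269))))) (XT.nd (nat_lit 234) (nat_lit 456) (nat_lit 0)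 (XT.nd (nat_lit 78) (nat_lit 228) (nat_lit 0) (XT.lf (nat_lit 0) (nat_lit 3674157326) (nat_lit 0) (nat_lit 3680663764) (nat_lit 152) (nat_lit 12045873893) (nat_lit 29) (nat_lit 3) (nat_lit 29) (nat_lit 1) (nat_lit 31) (nat_lit 1) (nat_lit 341) (nat_lit 411) (nat_lit 268)) (XT.nd (nat_lit 78) (nat_lit 152) (nat_lit 0) (XT.lf (nat_lit 76) (nat_lit 5385143548) (nat_lit 0) (nat_lit 8132222948) (nat_lit 76) (nat_lit 5391168027) (nat_lit 29) (nat_lit 3) (nat_lit 28) (nat_lit 1) (nat_lit 29) (nat_lit 1) (nat_lit 342) (nat_lit 411) (nat_lit 267)) (XT.lf (nat_lit 0) (nat_lit 4439287121) (nat_lit 0) (nat_lit 4444599713) (nat_lit 152) (nat_lit 9545961047) (nat_lit 26) (nat_lit 3) (nat_lit 26) (nat_lit 1) (nat_lit 28) (nat_lit 1) (nat_lit 343) (nat_lit 411) (nat_lit 266)))) (XT.nd (nat_lit 156) (nat_lit 228) (nat_lit 0) (XT.nd (nat_lit 78) (nat_lit 152) (nat_lit 0) (XT.lf (nat_lit 76) (nat_lit 4185344293)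 (nat_lit 0) (nat_lit 9587559398) (nat_lit 76) (nat_lit 4190263360) (nat_lit 26) (nat_lit 3) (nat_lit 25) (nat_lit 1) (nat_lit 26) (nat_lit 1) (nat_lit 344) (nat_lit 411) (nat_lit 265)) (XT.lf (nat_lit 0) (nat_lit 5116443034) (nat_lit 0) (nat_lit 5120780836) (nat_lit 152) (nat_lit 7270584679) (nat_lit 23) (nat_lit 3) (nat_lit 23) (nat_lit 1) (nat_lit 25) (nat_lit 1) (nat_lit 345) (nat_lit 411) (nat_lit 264))) (XT.nd (nat_lit 78) (nat_lit 152) (nat_lit 0) (XT.lf (nat_lit 76) (nat_lit 3094289870) (nat_lit 0) (nat_lit 10872685699) (nat_lit 76) (nat_lit 3098306353) (nat_lit 23) (nat_lit 3) (nat_lit 22) (nat_lit 1) (nat_lit 23) (nat_lit 1) (nat_lit 346) (nat_lit 411) (nat_lit 263)) (XT.lf (nat_lit 0) (nat_lit 5712644661) (nat_lit 0) (nat_lit 5716186533) (nat_lit 152) (nat_lit 5203280099) (nat_lit 20) (nat_lit 3) (nat_lit 20) (nat_lit 1) (nat_lit 22) (nat_lit 1) (nat_lit 347) (nat_lit 411) (nat_lit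 262))))))))
noncomputable def ec225 : XT := (XT.nd (nat_lit 2028) (nat_lit 0) (nat_lit 0) (XT.nd (nat_lit 1014) (nat_lit 0) (nat_lit 0) (XT.nd (nat_lit 468) (nat_lit 836) (nat_lit 0) (XT.nd (nat_lit 234) (nat_lit 380) (nat_lit 0) (XT.nd (nat_lit 78) (nat_lit 228) (nat_lit 0) (XT.lf (nat_lit 76) (nat_lit 2103987252) (nat_lit 0) (nat_lit 12001228712) (nat_lit 76) (nat_lit 2107266763) (nat_lit 20) (nat_lit 3) (nat_lit 19) (nat_lit 1) (nat_lit 20) (nat_lit 1) (nat_lit 348) (nat_lit 411) (nat_lit 261)) (XT.nd (nat_lit 78) (nat_lit 76) (nat_lit 0) (XT.lf (nat_lit 0) (nat_lit 6234421013) (nat_lit 0) (nat_lit 6237312998) (nat_lit 152) (nat_lit 3328681628) (nat_lit 17) (nat_lit 3) (nat_lit 17) (nat_lit 1) (nat_lit 19) (nat_lit 1) (nat_lit 349) (nat_lit 411) (nat_lit 260)) (XT.lf (nat_lit 76) (nat_lit 1206975886) (nat_lit 0) (nat_lit 12985865104) (nat_lit 76) (nat_lit 1209653650) (nat_lit 17) (nat_lit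 3) (nat_lit 16) (nat_lit 1) (nat_lit 17) (nat_lit 1) (nat_lit 350) (nat_lit 411) (nat_lit 259)))) (XT.nd (nat_lit 78) (nat_lit 228) (nat_lit 0) (XT.lf (nat_lit 0) (nat_lit 6687842680) (nat_lit 0) (nat_lit 6690204024) (nat_lit 152) (nat_lit 1632453248) (nat_lit 14) (nat_lit 3) (nat_lit 14) (nat_lit 1) (nat_lit 16) (nat_lit 1) (nat_lit 351) (nat_lit 411) (nat_lit 258)) (XT.nd (nat_lit 78) (nat_lit 152) (nat_lit 0) (XT.lf (nat_lit 76) (nat_lit 396294455) (nat_lit 0) (nat_lit 13838382880) (nat_lit 76) (nat_lit 398480884) (nat_lit 14) (nat_lit 3) (nat_lit 13) (nat_lit 1) (nat_lit 14) (nat_lit 1) (nat_lit 352) (nat_lit 411) (nat_lit 257)) (XT.lf (nat_lit 0) (nat_lit 7078551923) (nat_lit 0) (nat_lit 7080479991) (nat_lit 152) (nat_lit 101223429) (nat_lit 11) (nat_lit 3) (nat_lit 11) (nat_lit 1) (nat_lit 13) (nat_lit 1) (nat_lit 353) (nat_lit 411) (nat_lit 256))))) (XT.nd (nat_lit 234) (nat_lit 380) (nat_lit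 0) (XT.nd (nat_lit 78) (nat_lit 228) (nat_lit 0) (XT.lf (nat_lit 0) (nat_lit 338277500) (nat_lit 0) (nat_lit 339977736) (nat_lit 152) (nat_lit 13223100355) (nat_lit 8) (nat_lit 3) (nat_lit 8) (nat_lit 1) (nat_lit 10) (nat_lit 1) (nat_lit 354) (nat_lit 411) (nat_lit 255)) (XT.nd (nat_lit 78) (nat_lit 152) (nat_lit 0) (XT.lf (nat_lit 76) (nat_lit 6112680099) (nat_lit 0) (nat_lit 1319715209) (nat_lit 76) (nat_lit 6114254392) (nat_lit 8) (nat_lit 3) (nat_lit 7) (nat_lit 1) (nat_lit 8) (nat_lit 1) (nat_lit 355) (nat_lit 411) (nat_lit 254)) (XT.lf (nat_lit 0) (nat_lit 1006434793) (nat_lit 0) (nat_lit 1007823059) (nat_lit 152) (nat_lit 11190915137) (nat_lit 5) (nat_lit 3) (nat_lit 5) (nat_lit 1) (nat_lit 7) (nat_lit 1) (nat_lit 356) (nat_lit 411) (nat_lit 253)))) (XT.nd (nat_lit 156) (nat_lit 152) (nat_lit 0) (XT.nd (nat_lit 78) (nat_lit 152) (nat_lit 0) (XT.lf (nat_lit 76) (nat_lit 5134562802) (nat_lit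 0) (nat_lit 2598433861) (nat_lit 76) (nat_lit 5135848233) (nat_lit 5) (nat_lit 3) (nat_lit 4) (nat_lit 1) (nat_lit 5) (nat_lit 1) (nat_lit 357) (nat_lit 411) (nat_lit 252)) (XT.lf (nat_lit 0) (nat_lit 1605278544) (nat_lit 0) (nat_lit 1606412082) (nat_lit 152) (nat_lit 9332326141) (nat_lit 2) (nat_lit 3) (nat_lit 2) (nat_lit 1) (nat_lit 4) (nat_lit 1) (nat_lit 358) (nat_lit 411) (nat_lit 251))) (XT.nd (nat_lit 78) (nat_lit 76) (nat_lit 0) (XT.lf (nat_lit 76) (nat_lit 4240642932) (nat_lit 0) (nat_lit 3742774393) (nat_lit 76) (nat_lit 4241692503) (nat_lit 2) (nat_lit 3) (nat_lit 1) (nat_lit 1) (nat_lit 2) (nat_lit 1) (nat_lit 359) (nat_lit 411) (nat_lit 250)) (XT.lf (nat_lit 0) (nat_lit 253505964038) (nat_lit 0) (nat_lit 0) (nat_lit 0) (nat_lit 0) (nat_lit 0) (nat_lit 0) (nat_lit 1) (nat_lit 0) (nat_lit 1) (nat_lit 0) (nat_lit 360) (nat_lit 411) (nat_lit 249)))))) (XT.nd (nat_lit 468) (nat_lit 0)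 (nat_lit 0) (XT.nd (nat_lit 234) (nat_lit 0) (nat_lit 0) (XT.nd (nat_lit 78) (nat_lit 0) (nat_lit 0) (XT.lf (nat_lit 0) (nat_lit 253505891760) (nat_lit 0) (nat_lit 0) (nat_lit 0) (nat_lit 0) (nat_lit 0) (nat_lit 0) (nat_lit 1) (nat_lit 0) (nat_lit 1) (nat_lit 0) (nat_lit 361) (nat_lit 411) (nat_lit 248)) (XT.nd (nat_lit 78) (nat_lit 0) (nat_lit 0) (XT.lf (nat_lit 0) (nat_lit 253505824836) (nat_lit 0) (nat_lit 0) (nat_lit 0) (nat_lit 0) (nat_lit 0) (nat_lit 0) (nat_lit 1) (nat_lit 0) (nat_lit 1) (nat_lit 0) (nat_lit 362) (nat_lit 411) (nat_lit 247)) (XT.lf (nat_lit 0) (nat_lit 253505762870) (nat_lit 0) (nat_lit 0) (nat_lit 0) (nat_lit 0) (nat_lit 0) (nat_lit 0) (nat_lit 1) (nat_lit 0) (nat_lit 1) (nat_lit 0) (nat_lit 363) (nat_lit 411) (nat_lit 246)))) (XT.nd (nat_lit 78) (nat_lit 0) (nat_lit 0) (XT.lf (nat_lit 0) (nat_lit 253505705493) (nat_lit 0) (nat_lit 0) (nat_lit 0) (nat_lit 0) (nat_lit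 0) (nat_lit 0) (nat_lit 1) (nat_lit 0) (nat_lit 1) (nat_lit 0) (nat_lit 364) (nat_lit 411) (nat_lit 245)) (XT.nd (nat_lit 78) (nat_lit 0) (nat_lit 0) (XT.lf (nat_lit 0) (nat_lit 253505652367) (nat_lit 0) (nat_lit 0) (nat_lit 0) (nat_lit 0) (nat_lit 0) (nat_lit 0) (nat_lit 1) (nat_lit 0) (nat_lit 1) (nat_lit 0) (nat_lit 365) (nat_lit 411) (nat_lit 244)) (XT.lf (nat_lit 0) (nat_lit 253505603176) (nat_lit 0) (nat_lit 0) (nat_lit 0) (nat_lit 0) (nat_lit 0) (nat_lit 0) (nat_lit 1) (nat_lit 0) (nat_lit 1) (nat_lit 0) (nat_lit 366) (nat_lit 411) (nat_lit 243))))) (XT.nd (nat_lit 234) (nat_lit 0) (nat_lit 0) (XT.nd (nat_lit 78) (nat_lit 0) (nat_lit 0) (XT.lf (nat_lit 0) (nat_lit 253505557629) (nat_lit 0) (nat_lit 0) (nat_lit 0) (nat_lit 0) (nat_lit 0) (nat_lit 0) (nat_lit 1) (nat_lit 0) (nat_lit 1) (nat_lit 0) (nat_lit 367) (nat_lit 411) (nat_lit 242)) (XT.nd (nat_lit 78) (nat_lit 0) (nat_lit 0) (XT.lf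 (nat_lit 0) (nat_lit 253505515456) (nat_lit 0) (nat_lit 0) (nat_lit 0) (nat_lit 0) (nat_lit 0) (nat_lit 0) (nat_lit 1) (nat_lit 0) (nat_lit 1) (nat_lit 0) (nat_lit 368) (nat_lit 411) (nat_lit 241)) (XT.lf (nat_lit 0) (nat_lit 253505476406) (nat_lit 0) (nat_lit 0) (nat_lit 0) (nat_lit 0) (nat_lit 0) (nat_lit 0) (nat_lit 1) (nat_lit 0) (nat_lit 1) (nat_lit 0) (nat_lit 369) (nat_lit 411) (nat_lit 240)))) (XT.nd (nat_lit 156) (nat_lit 0) (nat_lit 0) (XT.nd (nat_lit 78) (nat_lit 0) (nat_lit 0) (XT.lf (nat_lit 0) (nat_lit 253505440249) (nat_lit 0) (nat_lit 0) (nat_lit 0) (nat_lit 0) (nat_lit 0) (nat_lit 0) (nat_lit 1) (nat_lit 0) (nat_lit 1) (nat_lit 0) (nat_lit 370) (nat_lit 411) (nat_lit 239)) (XT.lf (nat_lit 0) (nat_lit 253505406771) (nat_lit 0) (nat_lit 0) (nat_lit 0) (nat_lit 0) (nat_lit 0) (nat_lit 0) (nat_lit 1) (nat_lit 0) (nat_lit 1) (nat_lit 0) (nat_lit 371) (nat_lit 411) (nat_lit 238)))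 (XT.nd (nat_lit 78) (nat_lit 0) (nat_lit 0) (XT.lf (nat_lit 0) (nat_lit 253505375772) (nat_lit 0) (nat_lit 0) (nat_lit 0) (nat_lit 0) (nat_lit 0) (nat_lit 0) (nat_lit 1) (nat_lit 0) (nat_lit 1) (nat_lit 0) (nat_lit 372) (nat_lit 411) (nat_lit 237)) (XT.lf (nat_lit 0) (nat_lit 253505347070) (nat_lit 0) (nat_lit 0) (nat_lit 0) (nat_lit 0) (nat_lit 0) (nat_lit 0) (nat_lit 1) (nat_lit 0) (nat_lit 1) (nat_lit 0) (nat_lit 373) (nat_lit 411) (nat_lit 236))))))) (XT.nd (nat_lit 1014) (nat_lit 0) (nat_lit 0) (XT.nd (nat_lit 468) (nat_lit 0) (nat_lit 0) (XT.nd (nat_lit 234) (nat_lit 0) (nat_lit 0) (XT.nd (nat_lit 78) (nat_lit 0) (nat_lit 0) (XT.lf (nat_lit 0) (nat_lit 253505320493) (nat_lit 0) (nat_lit 0) (nat_lit 0) (nat_lit 0) (nat_lit 0) (nat_lit 0) (nat_lit 1) (nat_lit 0) (nat_lit 1) (nat_lit 0) (nat_lit 374) (nat_lit 411) (nat_lit 235)) (XT.nd (nat_lit 78) (nat_lit 0) (nat_lit 0) (XT.lf (nat_lit 0)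 (nat_lit 253505295885) (nat_lit 0) (nat_lit 0) (nat_lit 0) (nat_lit 0) (nat_lit 0) (nat_lit 0) (nat_lit 1) (nat_lit 0) (nat_lit 1) (nat_lit 0) (nat_lit 375) (nat_lit 411) (nat_lit 234)) (XT.lf (nat_lit 0) (nat_lit 253505273101) (nat_lit 0) (nat_lit 0) (nat_lit 0) (nat_lit 0) (nat_lit 0) (nat_lit 0) (nat_lit 1) (nat_lit 0) (nat_lit 1) (nat_lit 0) (nat_lit 376) (nat_lit 411) (nat_lit 233)))) (XT.nd (nat_lit 78) (nat_lit 0) (nat_lit 0) (XT.lf (nat_lit 0) (nat_lit 253505252003) (nat_lit 0) (nat_lit 0) (nat_lit 0) (nat_lit 0) (nat_lit 0) (nat_lit 0) (nat_lit 1) (nat_lit 0) (nat_lit 1) (nat_lit 0) (nat_lit 377) (nat_lit 411) (nat_lit 232)) (XT.nd (nat_lit 78) (nat_lit 0) (nat_lit 0) (XT.lf (nat_lit 0) (nat_lit 253505232469) (nat_lit 0) (nat_lit 0) (nat_lit 0) (nat_lit 0) (nat_lit 0) (nat_lit 0) (nat_lit 1) (nat_lit 0) (nat_lit 1) (nat_lit 0) (nat_lit 378) (nat_lit 411) (nat_lit 231)) (XT.lf (nat_lit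 0) (nat_lit 253505214382) (nat_lit 0) (nat_lit 0) (nat_lit 0) (nat_lit 0) (nat_lit 0) (nat_lit 0) (nat_lit 1) (nat_lit 0) (nat_lit 1) (nat_lit 0) (nat_lit 379) (nat_lit 411) (nat_lit 230))))) (XT.nd (nat_lit 234) (nat_lit 0) (nat_lit 0) (XT.nd (nat_lit 78) (nat_lit 0) (nat_lit 0) (XT.lf (nat_lit 0) (nat_lit 253505197634) (nat_lit 0) (nat_lit 0) (nat_lit 0) (nat_lit 0) (nat_lit 0) (nat_lit 0) (nat_lit 1) (nat_lit 0) (nat_lit 1) (nat_lit 0) (nat_lit 380) (nat_lit 411) (nat_lit 229)) (XT.nd (nat_lit 78) (nat_lit 0) (nat_lit 0) (XT.lf (nat_lit 0) (nat_lit 253505182127) (nat_lit 0) (nat_lit 0) (nat_lit 0) (nat_lit 0) (nat_lit 0) (nat_lit 0) (nat_lit 1) (nat_lit 0) (nat_lit 1) (nat_lit 0) (nat_lit 381) (nat_lit 411) (nat_lit 228)) (XT.lf (nat_lit 0) (nat_lit 253505167768) (nat_lit 0) (nat_lit 0) (nat_lit 0) (nat_lit 0) (nat_lit 0) (nat_lit 0) (nat_lit 1) (nat_lit 0) (nat_lit 1) (nat_lit 0) (nat_lit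 382) (nat_lit 411) (nat_lit 227)))) (XT.nd (nat_lit 156) (nat_lit 0) (nat_lit 0) (XT.nd (nat_lit 78) (nat_lit 0) (nat_lit 0) (XT.lf (nat_lit 0) (nat_lit 253505154474) (nat_lit 0) (nat_lit 0) (nat_lit 0) (nat_lit 0) (nat_lit 0) (nat_lit 0) (nat_lit 1) (nat_lit 0) (nat_lit 1) (nat_lit 0) (nat_lit 383) (nat_lit 411) (nat_lit 226)) (XT.lf (nat_lit 0) (nat_lit 253505142164) (nat_lit 0) (nat_lit 0) (nat_lit 0) (nat_lit 0) (nat_lit 0) (nat_lit 0) (nat_lit 1) (nat_lit 0) (nat_lit 1) (nat_lit 0) (nat_lit 384) (nat_lit 411) (nat_lit 225))) (XT.nd (nat_lit 78) (nat_lit 0) (nat_lit 0) (XT.lf (nat_lit 0) (nat_lit 253505130766) (nat_lit 0) (nat_lit 0) (nat_lit 0) (nat_lit 0) (nat_lit 0) (nat_lit 0) (nat_lit 1) (nat_lit 0) (nat_lit 1) (nat_lit 0) (nat_lit 385) (nat_lit 411) (nat_lit 224)) (XT.lf (nat_lit 0) (nat_lit 253505120212) (nat_lit 0) (nat_lit 0) (nat_lit 0) (nat_lit 0) (nat_lit 0) (nat_lit 0) (nat_lit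 1) (nat_lit 0) (nat_lit 1) (nat_lit 0) (nat_lit 386) (nat_lit 411) (nat_lit 223)))))) (XT.nd (nat_lit 546) (nat_lit 0) (nat_lit 0) (XT.nd (nat_lit 234) (nat_lit 0) (nat_lit 0) (XT.nd (nat_lit 78) (nat_lit 0) (nat_lit 0) (XT.lf (nat_lit 0) (nat_lit 253505110440) (nat_lit 0) (nat_lit 0) (nat_lit 0) (nat_lit 0) (nat_lit 0) (nat_lit 0) (nat_lit 1) (nat_lit 0) (nat_lit 1) (nat_lit 0) (nat_lit 387) (nat_lit 411) (nat_lit 222)) (XT.nd (nat_lit 78) (nat_lit 0) (nat_lit 0) (XT.lf (nat_lit 0) (nat_lit 253505101391) (nat_lit 0) (nat_lit 0) (nat_lit 0) (nat_lit 0) (nat_lit 0) (nat_lit 0) (nat_lit 1) (nat_lit 0) (nat_lit 1) (nat_lit 0) (nat_lit 388) (nat_lit 411) (nat_lit 221)) (XT.lf (nat_lit 0) (nat_lit 253505093013) (nat_lit 0) (nat_lit 0) (nat_lit 0) (nat_lit 0) (nat_lit 0) (nat_lit 0) (nat_lit 1) (nat_lit 0) (nat_lit 1) (nat_lit 0) (nat_lit 389) (nat_lit 411) (nat_lit 220)))) (XT.nd (nat_lit 156) (nat_lit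 0) (nat_lit 0) (XT.nd (nat_lit 78) (nat_lit 0) (nat_lit 0) (XT.lf (nat_lit 0) (nat_lit 253505085256) (nat_lit 0) (nat_lit 0) (nat_lit 0) (nat_lit 0) (nat_lit 0) (nat_lit 0) (nat_lit 1) (nat_lit 0) (nat_lit 1) (nat_lit 0) (nat_lit 390) (nat_lit 411) (nat_lit 219)) (XT.lf (nat_lit 0) (nat_lit 253505078073) (nat_lit 0) (nat_lit 0) (nat_lit 0) (nat_lit 0) (nat_lit 0) (nat_lit 0) (nat_lit 1) (nat_lit 0) (nat_lit 1) (nat_lit 0) (nat_lit 391) (nat_lit 411) (nat_lit 218))) (XT.nd (nat_lit 78) (nat_lit 0) (nat_lit 0) (XT.lf (nat_lit 0) (nat_lit 253505071423) (nat_lit 0) (nat_lit 0) (nat_lit 0) (nat_lit 0) (nat_lit 0) (nat_lit 0) (nat_lit 1) (nat_lit 0) (nat_lit 1) (nat_lit 0) (nat_lit 392) (nat_lit 411) (nat_lit 217)) (XT.lf (nat_lit 0) (nat_lit 253505065264) (nat_lit 0) (nat_lit 0) (nat_lit 0) (nat_lit 0) (nat_lit 0) (nat_lit 0) (nat_lit 1) (nat_lit 0) (nat_lit 1) (nat_lit 0) (nat_lit 393) (nat_lit 411)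 (nat_lit 216))))) (XT.nd (nat_lit 234) (nat_lit 0) (nat_lit 0) (XT.nd (nat_lit 78) (nat_lit 0) (nat_lit 0) (XT.lf (nat_lit 0) (nat_lit 253505059563) (nat_lit 0) (nat_lit 0) (nat_lit 0) (nat_lit 0) (nat_lit 0) (nat_lit 0) (nat_lit 1) (nat_lit 0) (nat_lit 1) (nat_lit 0) (nat_lit 394) (nat_lit 411) (nat_lit 215)) (XT.nd (nat_lit 78) (nat_lit 0) (nat_lit 0) (XT.lf (nat_lit 0) (nat_lit 253505054283) (nat_lit 0) (nat_lit 0) (nat_lit 0) (nat_lit 0) (nat_lit 0) (nat_lit 0) (nat_lit 1) (nat_lit 0) (nat_lit 1) (nat_lit 0) (nat_lit 395) (nat_lit 411) (nat_lit 214)) (XT.lf (nat_lit 0) (nat_lit 253505049395) (nat_lit 0) (nat_lit 0) (nat_lit 0) (nat_lit 0) (nat_lit 0) (nat_lit 0) (nat_lit 1) (nat_lit 0) (nat_lit 1) (nat_lit 0) (nat_lit 396) (nat_lit 411) (nat_lit 213)))) (XT.nd (nat_lit 156) (nat_lit 0) (nat_lit 0) (XT.nd (nat_lit 78) (nat_lit 0) (nat_lit 0) (XT.lf (nat_lit 0) (nat_lit 253505044868) (nat_lit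 0) (nat_lit 0) (nat_lit 0) (nat_lit 0) (nat_lit 0) (nat_lit 0) (nat_lit 1) (nat_lit 0) (nat_lit 1) (nat_lit 0) (nat_lit 397) (nat_lit 411) (nat_lit 212)) (XT.lf (nat_lit 0) (nat_lit 253505040677) (nat_lit 0) (nat_lit 0) (nat_lit 0) (nat_lit 0) (nat_lit 0) (nat_lit 0) (nat_lit 1) (nat_lit 0) (nat_lit 1) (nat_lit 0) (nat_lit 398) (nat_lit 411) (nat_lit 211))) (XT.nd (nat_lit 78) (nat_lit 0) (nat_lit 0) (XT.lf (nat_lit 0) (nat_lit 253505036797) (nat_lit 0) (nat_lit 0) (nat_lit 0) (nat_lit 0) (nat_lit 0) (nat_lit 0) (nat_lit 1) (nat_lit 0) (nat_lit 1) (nat_lit 0) (nat_lit 399) (nat_lit 411) (nat_lit 210)) (XT.lf (nat_lit 0) (nat_lit 253505033203) (nat_lit 0) (nat_lit 0) (nat_lit 0) (nat_lit 0) (nat_lit 0) (nat_lit 0) (nat_lit 1) (nat_lit 0) (nat_lit 1) (nat_lit 0) (nat_lit 400) (nat_lit 411) (nat_lit 209))))))))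
noncomputable def ec226 : XT := (XT.nd (nat_lit 38142) (nat_lit 0) (nat_lit 14592) (XT.nd (nat_lit 37128) (nat_lit 0) (nat_lit 20216) (XT.nd (nat_lit 468) (nat_lit 0) (nat_lit 0) (XT.nd (nat_lit 234) (nat_lit 0) (nat_lit 0) (XT.nd (nat_lit 78) (nat_lit 0) (nat_lit 0) (XT.lf (nat_lit 0) (nat_lit 253505029876) (nat_lit 0) (nat_lit 0) (nat_lit 0) (nat_lit 0) (nat_lit 0) (nat_lit 0) (nat_lit 1) (nat_lit 0) (nat_lit 1) (nat_lit 0) (nat_lit 401) (nat_lit 411) (nat_lit 208)) (XT.nd (nat_lit 78) (nat_lit 0) (nat_lit 0) (XT.lf (nat_lit 0) (nat_lit 253505026796) (nat_lit 0) (nat_lit 0) (nat_lit 0) (nat_lit 0) (nat_lit 0) (nat_lit 0) (nat_lit 1) (nat_lit 0) (nat_lit 1) (nat_lit 0) (nat_lit 402) (nat_lit 411) (nat_lit 207)) (XT.lf (nat_lit 0) (nat_lit 253505023943) (nat_lit 0) (nat_lit 0) (nat_lit 0) (nat_lit 0) (nat_lit 0) (nat_lit 0) (nat_lit 1) (nat_lit 0) (nat_lit 1) (nat_lit 0) (nat_lit 403) (nat_lit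 411) (nat_lit 206)))) (XT.nd (nat_lit 78) (nat_lit 0) (nat_lit 0) (XT.lf (nat_lit 0) (nat_lit 253505021302) (nat_lit 0) (nat_lit 0) (nat_lit 0) (nat_lit 0) (nat_lit 0) (nat_lit 0) (nat_lit 1) (nat_lit 0) (nat_lit 1) (nat_lit 0) (nat_lit 404) (nat_lit 411) (nat_lit 205)) (XT.nd (nat_lit 78) (nat_lit 0) (nat_lit 0) (XT.lf (nat_lit 0) (nat_lit 253505018857) (nat_lit 0) (nat_lit 0) (nat_lit 0) (nat_lit 0) (nat_lit 0) (nat_lit 0) (nat_lit 1) (nat_lit 0) (nat_lit 1) (nat_lit 0) (nat_lit 405) (nat_lit 411) (nat_lit 204)) (XT.lf (nat_lit 0) (nat_lit 253505016593) (nat_lit 0) (nat_lit 0) (nat_lit 0) (nat_lit 0) (nat_lit 0) (nat_lit 0) (nat_lit 1) (nat_lit 0) (nat_lit 1) (nat_lit 0) (nat_lit 406) (nat_lit 411) (nat_lit 203))))) (XT.nd (nat_lit 234) (nat_lit 0) (nat_lit 0) (XT.nd (nat_lit 78) (nat_lit 0) (nat_lit 0) (XT.lf (nat_lit 0) (nat_lit 253505014496) (nat_lit 0) (nat_lit 0) (nat_lit 0) (nat_lit 0)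 (nat_lit 0) (nat_lit 0) (nat_lit 1) (nat_lit 0) (nat_lit 1) (nat_lit 0) (nat_lit 407) (nat_lit 411) (nat_lit 202)) (XT.nd (nat_lit 78) (nat_lit 0) (nat_lit 0) (XT.lf (nat_lit 0) (nat_lit 253505012555) (nat_lit 0) (nat_lit 0) (nat_lit 0) (nat_lit 0) (nat_lit 0) (nat_lit 0) (nat_lit 1) (nat_lit 0) (nat_lit 1) (nat_lit 0) (nat_lit 408) (nat_lit 411) (nat_lit 201)) (XT.lf (nat_lit 0) (nat_lit 253505010757) (nat_lit 0) (nat_lit 0) (nat_lit 0) (nat_lit 0) (nat_lit 0) (nat_lit 0) (nat_lit 1) (nat_lit 0) (nat_lit 1) (nat_lit 0) (nat_lit 409) (nat_lit 411) (nat_lit 200)))) (XT.nd (nat_lit 156) (nat_lit 0) (nat_lit 0) (XT.nd (nat_lit 78) (nat_lit 0) (nat_lit 0) (XT.lf (nat_lit 0) (nat_lit 253505009093) (nat_lit 0) (nat_lit 0) (nat_lit 0) (nat_lit 0) (nat_lit 0) (nat_lit 0) (nat_lit 1) (nat_lit 0) (nat_lit 1) (nat_lit 0) (nat_lit 410) (nat_lit 411) (nat_lit 199)) (XT.lf (nat_lit 0) (nat_lit 253505007552)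 (nat_lit 0) (nat_lit 0) (nat_lit 0) (nat_lit 0) (nat_lit 0) (nat_lit 0) (nat_lit 1) (nat_lit 0) (nat_lit 1) (nat_lit 0) (nat_lit 411) (nat_lit 411) (nat_lit 198))) (XT.nd (nat_lit 78) (nat_lit 0) (nat_lit 0) (XT.lf (nat_lit 0) (nat_lit 253505006125) (nat_lit 0) (nat_lit 0) (nat_lit 0) (nat_lit 0) (nat_lit 0) (nat_lit 0) (nat_lit 1) (nat_lit 0) (nat_lit 1) (nat_lit 0) (nat_lit 412) (nat_lit 411) (nat_lit 197)) (XT.lf (nat_lit 0) (nat_lit 253505004804) (nat_lit 0) (nat_lit 0) (nat_lit 0) (nat_lit 0) (nat_lit 0) (nat_lit 0) (nat_lit 1) (nat_lit 0) (nat_lit 1) (nat_lit 0) (nat_lit 413) (nat_lit 411) (nat_lit 196)))))) (XT.nd (nat_lit 468) (nat_lit 1976) (nat_lit 0) (XT.nd (nat_lit 234) (nat_lit 0) (nat_lit 152) (XT.nd (nat_lit 78) (nat_lit 0) (nat_lit 76) (XT.lf (nat_lit 836) (nat_lit 137012463174) (nat_lit 0) (nat_lit 243265313431) (nat_lit 836) (nat_lit 137012463174) (nat_lit 303) (nat_lit 1) (nat_lit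 292) (nat_lit 0) (nat_lit 303) (nat_lit 0) (nat_lit 196) (nat_lit 412) (nat_lit 412)) (XT.nd (nat_lit 78) (nat_lit 0) (nat_lit 0) (XT.lf (nat_lit 836) (nat_lit 51109852873) (nat_lit 0) (nat_lit 477603538209) (nat_lit 760) (nat_lit 467094664730) (nat_lit 304) (nat_lit 1) (nat_lit 293) (nat_lit 1) (nat_lit 303) (nat_lit 1) (nat_lit 197) (nat_lit 412) (nat_lit 411)) (XT.lf (nat_lit 836) (nat_lit 469414497608) (nat_lit 76) (nat_lit 319851250528) (nat_lit 0) (nat_lit 169634512913) (nat_lit 304) (nat_lit 1) (nat_lit 294) (nat_lit 1) (nat_lit 293) (nat_lit 1) (nat_lit 198) (nat_lit 412) (nat_lit 410)))) (XT.nd (nat_lit 78) (nat_lit 0) (nat_lit 76) (XT.lf (nat_lit 836) (nat_lit 405612580922) (nat_lit 76) (nat_lit 134047442097) (nat_lit 0) (nat_lit 384179402930) (nat_lit 305) (nat_lit 1) (nat_lit 295) (nat_lit 1) (nat_lit 294) (nat_lit 1) (nat_lit 199) (nat_lit 412) (nat_lit 409)) (XT.nd (nat_lit 78)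 (nat_lit 0) (nat_lit 76) (XT.lf (nat_lit 836) (nat_lit 300187793867) (nat_lit 0) (nat_lit 561637173062) (nat_lit 760) (nat_lit 28710812045) (nat_lit 306) (nat_lit 1) (nat_lit 295) (nat_lit 1) (nat_lit 305) (nat_lit 1) (nat_lit 200) (nat_lit 412) (nat_lit 408)) (XT.lf (nat_lit 836) (nat_lit 72027117878) (nat_lit 0) (nat_lit 619361012158) (nat_lit 760) (nat_lit 167434484229) (nat_lit 307) (nat_lit 1) (nat_lit 296) (nat_lit 1) (nat_lit 306) (nat_lit 1) (nat_lit 201) (nat_lit 412) (nat_lit 407))))) (XT.nd (nat_lit 234) (nat_lit 1064) (nat_lit 0) (XT.nd (nat_lit 78) (nat_lit 1216) (nat_lit 0) (XT.lf (nat_lit 836) (nat_lit 138406824653) (nat_lit 76) (nat_lit 538275156297) (nat_lit 0) (nat_lit 151907890161) (nat_lit 307) (nat_lit 1) (nat_lit 297) (nat_lit 1) (nat_lit 296) (nat_lit 1) (nat_lit 202) (nat_lit 412) (nat_lit 406)) (XT.nd (nat_lit 78) (nat_lit 532) (nat_lit 0) (XT.lf (nat_lit 836) (nat_lit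 28425605684) (nat_lit 0) (nat_lit 402396284865) (nat_lit 760) (nat_lit 368993176978) (nat_lit 298) (nat_lit 1) (nat_lit 287) (nat_lit 1) (nat_lit 297) (nat_lit 1) (nat_lit 203) (nat_lit 412) (nat_lit 405)) (XT.lf (nat_lit 76) (nat_lit 196824815050) (nat_lit 0) (nat_lit 85293351846) (nat_lit 532) (nat_lit 490284556214) (nat_lit 281) (nat_lit 1) (nat_lit 280) (nat_lit 1) (nat_lit 287) (nat_lit 1) (nat_lit 204) (nat_lit 412) (nat_lit 404)))) (XT.nd (nat_lit 156) (nat_lit 304) (nat_lit 0) (XT.nd (nat_lit 78) (nat_lit 380) (nat_lit 0) (XT.lf (nat_lit 456) (nat_lit 542424416567) (nat_lit 0) (nat_lit 176570841319) (nat_lit 380) (nat_lit 27298943082) (nat_lit 281) (nat_lit 1) (nat_lit 275) (nat_lit 1) (nat_lit 280) (nat_lit 1) (nat_lit 205) (nat_lit 412) (nat_lit 403)) (XT.lf (nat_lit 456) (nat_lit 391418624352) (nat_lit 0) (nat_lit 82300429743) (nat_lit 380) (nat_lit 247589244498) (nat_lit 276) (nat_lit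 1) (nat_lit 270) (nat_lit 1) (nat_lit 275) (nat_lit 1) (nat_lit 206) (nat_lit 412) (nat_lit 402))) (XT.nd (nat_lit 78) (nat_lit 0) (nat_lit 0) (XT.lf (nat_lit 380) (nat_lit 238173240789) (nat_lit 0) (nat_lit 1515284657) (nat_lit 304) (nat_lit 457845382851) (nat_lit 271) (nat_lit 1) (nat_lit 266) (nat_lit 1) (nat_lit 270) (nat_lit 1) (nat_lit 207) (nat_lit 412) (nat_lit 401)) (XT.lf (nat_lit 76) (nat_lit 17571296101) (nat_lit 0) (nat_lit 592589247730) (nat_lit 380) (nat_lit 64692638572) (nat_lit 267) (nat_lit 1) (nat_lit 266) (nat_lit 1) (nat_lit 271) (nat_lit 1) (nat_lit 208) (nat_lit 412) (nat_lit 400))))))) (XT.nd (nat_lit 1014) (nat_lit 2204) (nat_lit 0) (XT.nd (nat_lit 468) (nat_lit 1596) (nat_lit 0) (XT.nd (nat_lit 234) (nat_lit 836) (nat_lit 0) (XT.nd (nat_lit 78) (nat_lit 608) (nat_lit 0) (XT.lf (nat_lit 76) (nat_lit 453695422810) (nat_lit 0) (nat_lit 75250240384) (nat_lit 380) (nat_lit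 124101312874) (nat_lit 262) (nat_lit 1) (nat_lit 261) (nat_lit 1) (nat_lit 266) (nat_lit 1) (nat_lit 209) (nat_lit 412) (nat_lit 399)) (XT.nd (nat_lit 78) (nat_lit 304) (nat_lit 0) (XT.lf (nat_lit 76) (nat_lit 226995316968) (nat_lit 0) (nat_lit 230504844436) (nat_lit 380) (nat_lit 174704117708) (nat_lit 258) (nat_lit 1) (nat_lit 257) (nat_lit 1) (nat_lit 262) (nat_lit 1) (nat_lit 210) (nat_lit 412) (nat_lit 398)) (XT.lf (nat_lit 76) (nat_lit 11203985492) (nat_lit 0) (nat_lit 385400520666) (nat_lit 380) (nat_lit 215743908815) (nat_lit 254) (nat_lit 1) (nat_lit 253) (nat_lit 1) (nat_lit 258) (nat_lit 1) (nat_lit 211) (nat_lit 412) (nat_lit 397)))) (XT.nd (nat_lit 78) (nat_lit 608) (nat_lit 0) (XT.lf (nat_lit 304) (nat_lit 50596567029) (nat_lit 0) (nat_lit 342160363792) (nat_lit 228) (nat_lit 200513836885) (nat_lit 254) (nat_lit 1) (nat_lit 250) (nat_lit 1) (nat_lit 253) (nat_lit 1) (nat_lit 212)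 (nat_lit 412) (nat_lit 396)) (XT.nd (nat_lit 78) (nat_lit 228) (nat_lit 0) (XT.lf (nat_lit 76) (nat_lit 174824742465) (nat_lit 0) (nat_lit 119825964799) (nat_lit 380) (nat_lit 280330545372) (nat_lit 246) (nat_lit 1) (nat_lit 245) (nat_lit 1) (nat_lit 250) (nat_lit 1) (nat_lit 213) (nat_lit 412) (nat_lit 395)) (XT.lf (nat_lit 304) (nat_lit 270670752140) (nat_lit 0) (nat_lit 254260188265) (nat_lit 228) (nat_lit 32545002335) (nat_lit 246) (nat_lit 1) (nat_lit 242) (nat_lit 1) (nat_lit 245) (nat_lit 1) (nat_lit 214) (nat_lit 412) (nat_lit 394))))) (XT.nd (nat_lit 234) (nat_lit 836) (nat_lit 0) (XT.nd (nat_lit 78) (nat_lit 532) (nat_lit 0) (XT.lf (nat_lit 304) (nat_lit 86748668433) (nat_lit 0) (nat_lit 218907610243) (nat_lit 228) (nat_lit 234987088113) (nat_lit 243) (nat_lit 1) (nat_lit 239) (nat_lit 1) (nat_lit 242) (nat_lit 1) (nat_lit 215) (nat_lit 412) (nat_lit 393)) (XT.nd (nat_lit 78) (nat_lit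 228) (nat_lit 0) (XT.lf (nat_lit 76) (nat_lit 98872520741) (nat_lit 0) (nat_lit 90526384952) (nat_lit 304) (nat_lit 335110973721) (nat_lit 236) (nat_lit 1) (nat_lit 235) (nat_lit 1) (nat_lit 239) (nat_lit 1) (nat_lit 216) (nat_lit 412) (nat_lit 392)) (XT.lf (nat_lit 304) (nat_lit 246031290879) (nat_lit 0) (nat_lit 163700103737) (nat_lit 228) (nat_lit 99235541104) (nat_lit 236) (nat_lit 1) (nat_lit 232) (nat_lit 1) (nat_lit 235) (nat_lit 1) (nat_lit 217) (nat_lit 412) (nat_lit 391)))) (XT.nd (nat_lit 156) (nat_lit 380) (nat_lit 0) (XT.nd (nat_lit 78) (nat_lit 304) (nat_lit 0) (XT.lf (nat_lit 228) (nat_lit 60991520290) (nat_lit 0) (nat_lit 142816400192) (nat_lit 152) (nat_lit 290243117256) (nat_lit 233) (nat_lit 1) (nat_lit 230) (nat_lit 1) (nat_lit 232) (nat_lit 1) (nat_lit 218) (nat_lit 412) (nat_lit 390)) (XT.lf (nat_lit 76) (nat_lit 10332353198) (nat_lit 0) (nat_lit 115621275332) (nat_lit 304)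 (nat_lit 353759690727) (nat_lit 227) (nat_lit 1) (nat_lit 226) (nat_lit 1) (nat_lit 230) (nat_lit 1) (nat_lit 219) (nat_lit 412) (nat_lit 389))) (XT.nd (nat_lit 78) (nat_lit 228) (nat_lit 0) (XT.lf (nat_lit 228) (nat_lit 177230166809) (nat_lit 0) (nat_lit 110753649708) (nat_lit 152) (nat_lit 177846929573) (nat_lit 227) (nat_lit 1) (nat_lit 224) (nat_lit 1) (nat_lit 226) (nat_lit 1) (nat_lit 220) (nat_lit 412) (nat_lit 388)) (XT.lf (nat_lit 76) (nat_lit 96157682016) (nat_lit 0) (nat_lit 4441583617) (nat_lit 228) (nat_lit 351954694948) (nat_lit 222) (nat_lit 1) (nat_lit 221) (nat_lit 1) (nat_lit 224) (nat_lit 1) (nat_lit 221) (nat_lit 412) (nat_lit 387)))))) (XT.nd (nat_lit 546) (nat_lit 1140) (nat_lit 0) (XT.nd (nat_lit 234) (nat_lit 532) (nat_lit 0) (XT.nd (nat_lit 78) (nat_lit 380) (nat_lit 0) (XT.lf (nat_lit 228) (nat_lit 262876534142) (nat_lit 0) (nat_lit 91092613266) (nat_lit 152) (nat_lit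 85694239903) (nat_lit 222) (nat_lit 1) (nat_lit 219) (nat_lit 1) (nat_lit 221) (nat_lit 1) (nat_lit 222) (nat_lit 412) (nat_lit 386)) (XT.nd (nat_lit 78) (nat_lit 228) (nat_lit 0) (XT.lf (nat_lit 228) (nat_lit 81659985703) (nat_lit 0) (nat_lit 84680657206) (nat_lit 152) (nat_lit 260925034167) (nat_lit 220) (nat_lit 1) (nat_lit 217) (nat_lit 1) (nat_lit 219) (nat_lit 1) (nat_lit 223) (nat_lit 412) (nat_lit 385)) (XT.lf (nat_lit 228) (nat_lit 324160132352) (nat_lit 0) (nat_lit 80905494849) (nat_lit 152) (nat_lit 10263800660) (nat_lit 217) (nat_lit 1) (nat_lit 214) (nat_lit 1) (nat_lit 216) (nat_lit 1) (nat_lit 224) (nat_lit 412) (nat_lit 384)))) (XT.nd (nat_lit 156) (nat_lit 228) (nat_lit 0) (XT.nd (nat_lit 78) (nat_lit 152) (nat_lit 0) (XT.lf (nat_lit 228) (nat_lit 145079051689) (nat_lit 0) (nat_lit 77237470558) (nat_lit 152) (nat_lit 181408327090) (nat_lit 215) (nat_lit 1) (nat_lit 212) (nat_lit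 1) (nat_lit 214) (nat_lit 1) (nat_lit 225) (nat_lit 412) (nat_lit 383)) (XT.lf (nat_lit 76) (nat_lit 49695176549) (nat_lit 0) (nat_lit 27314708362) (nat_lit 152) (nat_lit 315591713832) (nat_lit 211) (nat_lit 1) (nat_lit 210) (nat_lit 1) (nat_lit 212) (nat_lit 1) (nat_lit 226) (nat_lit 412) (nat_lit 382))) (XT.nd (nat_lit 78) (nat_lit 76) (nat_lit 0) (XT.lf (nat_lit 228) (nat_lit 190352059414) (nat_lit 0) (nat_lit 76194435951) (nat_lit 152) (nat_lit 115212537437) (nat_lit 211) (nat_lit 1) (nat_lit 208) (nat_lit 1) (nat_lit 210) (nat_lit 1) (nat_lit 227) (nat_lit 412) (nat_lit 381)) (XT.lf (nat_lit 152) (nat_lit 20498211930) (nat_lit 0) (nat_lit 78065869762) (nat_lit 76) (nat_lit 272780435719) (nat_lit 209) (nat_lit 1) (nat_lit 207) (nat_lit 1) (nat_lit 208) (nat_lit 1) (nat_lit 228) (nat_lit 412) (nat_lit 380))))) (XT.nd (nat_lit 234) (nat_lit 608) (nat_lit 0) (XT.nd (nat_lit 78) (nat_lit 304)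 (nat_lit 0) (XT.lf (nat_lit 228) (nat_lit 221270629942) (nat_lit 0) (nat_lit 79840552622) (nat_lit 152) (nat_lit 60105979804) (nat_lit 207) (nat_lit 1) (nat_lit 204) (nat_lit 1) (nat_lit 206) (nat_lit 1) (nat_lit 229) (nat_lit 412) (nat_lit 379)) (XT.nd (nat_lit 78) (nat_lit 228) (nat_lit 0) (XT.lf (nat_lit 152) (nat_lit 55651195075) (nat_lit 0) (nat_lit 82825871337) (nat_lit 76) (nat_lit 212954053120) (nat_lit 205) (nat_lit 1) (nat_lit 203) (nat_lit 1) (nat_lit 204) (nat_lit 1) (nat_lit 230) (nat_lit 412) (nat_lit 378)) (XT.lf (nat_lit 228) (nat_lit 240900337336) (nat_lit 0) (nat_lit 86820587617) (nat_lit 152) (nat_lit 14248001653) (nat_lit 203) (nat_lit 1) (nat_lit 200) (nat_lit 1) (nat_lit 202) (nat_lit 1) (nat_lit 231) (nat_lit 412) (nat_lit 377)))) (XT.nd (nat_lit 156) (nat_lit 304) (nat_lit 0) (XT.nd (nat_lit 78) (nat_lit 228) (nat_lit 0) (XT.lf (nat_lit 152) (nat_lit 80089704611) (nat_lit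 0) (nat_lit 90511505846) (nat_lit 76) (nat_lit 162159179356) (nat_lit 201) (nat_lit 1) (nat_lit 199) (nat_lit 1) (nat_lit 200) (nat_lit 1) (nat_lit 232) (nat_lit 412) (nat_lit 376)) (XT.lf (nat_lit 76) (nat_lit 23117076026) (nat_lit 0) (nat_lit 72558339531) (nat_lit 228) (nat_lit 228207254771) (nat_lit 197) (nat_lit 1) (nat_lit 196) (nat_lit 1) (nat_lit 199) (nat_lit 1) (nat_lit 233) (nat_lit 412) (nat_lit 375))) (XT.nd (nat_lit 78) (nat_lit 228) (nat_lit 0) (XT.lf (nat_lit 152) (nat_lit 96114871446) (nat_lit 0) (nat_lit 100147140306) (nat_lit 76) (nat_lit 118963411790) (nat_lit 197) (nat_lit 1) (nat_lit 195) (nat_lit 1) (nat_lit 196) (nat_lit 1) (nat_lit 234) (nat_lit 412) (nat_lit 374)) (XT.lf (nat_lit 76) (nat_lit 53761711186) (nat_lit 0) (nat_lit 52071852641) (nat_lit 228) (nat_lit 201038849784) (nat_lit 193) (nat_lit 1) (nat_lit 192) (nat_lit 1) (nat_lit 195) (nat_lit 1) (nat_lit 235) (nat_lit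 412) (nat_lit 373))))))))
noncomputable def ec227 : XT := (XT.nd (nat_lit 2106) (nat_lit 3192) (nat_lit 0) (XT.nd (nat_lit 1014) (nat_lit 1672) (nat_lit 0) (XT.nd (nat_lit 468) (nat_lit 760) (nat_lit 0) (XT.nd (nat_lit 234) (nat_lit 380) (nat_lit 0) (XT.nd (nat_lit 78) (nat_lit 228) (nat_lit 0) (XT.lf (nat_lit 152) (nat_lit 105582401948) (nat_lit 0) (nat_lit 110971183049) (nat_lit 76) (nat_lit 82179234923) (nat_lit 193) (nat_lit 1) (nat_lit 191) (nat_lit 1) (nat_lit 192) (nat_lit 1) (nat_lit 236) (nat_lit 412) (nat_lit 372)) (XT.nd (nat_lit 78) (nat_lit 76) (nat_lit 0) (XT.lf (nat_lit 76) (nat_lit 79149670729) (nat_lit 0) (nat_lit 37713401888) (nat_lit 152) (nat_lit 173998966866) (nat_lit 190) (nat_lit 1) (nat_lit 189) (nat_lit 1) (nat_lit 191) (nat_lit 1) (nat_lit 237) (nat_lit 412) (nat_lit 371)) (XT.lf (nat_lit 152) (nat_lit 109985808592) (nat_lit 0) (nat_lit 122394368016) (nat_lit 76) (nat_lit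 50820337582) (nat_lit 190) (nat_lit 1) (nat_lit 188) (nat_lit 1) (nat_lit 189) (nat_lit 1) (nat_lit 238) (nat_lit 412) (nat_lit 370)))) (XT.nd (nat_lit 78) (nat_lit 228) (nat_lit 0) (XT.lf (nat_lit 76) (nat_lit 100116974272) (nat_lit 0) (nat_lit 28134689564) (nat_lit 152) (nat_lit 147522985565) (nat_lit 187) (nat_lit 1) (nat_lit 186) (nat_lit 1) (nat_lit 188) (nat_lit 1) (nat_lit 239) (nat_lit 412) (nat_lit 369)) (XT.nd (nat_lit 78) (nat_lit 152) (nat_lit 0) (XT.lf (nat_lit 152) (nat_lit 110524275675) (nat_lit 0) (nat_lit 133965852014) (nat_lit 76) (nat_lit 24065864040) (nat_lit 187) (nat_lit 1) (nat_lit 185) (nat_lit 1) (nat_lit 186) (nat_lit 1) (nat_lit 240) (nat_lit 412) (nat_lit 368)) (XT.lf (nat_lit 76) (nat_lit 117358447406) (nat_lit 0) (nat_lit 22251558966) (nat_lit 152) (nat_lit 121932069461) (nat_lit 184) (nat_lit 1) (nat_lit 183) (nat_lit 1) (nat_lit 185) (nat_lit 1) (nat_lit 241) (nat_lit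 412) (nat_lit 367))))) (XT.nd (nat_lit 234) (nat_lit 456) (nat_lit 0) (XT.nd (nat_lit 78) (nat_lit 228) (nat_lit 0) (XT.lf (nat_lit 152) (nat_lit 108157984996) (nat_lit 0) (nat_lit 145345681500) (nat_lit 76) (nat_lit 1231148384) (nat_lit 184) (nat_lit 1) (nat_lit 182) (nat_lit 1) (nat_lit 183) (nat_lit 1) (nat_lit 242) (nat_lit 412) (nat_lit 366)) (XT.nd (nat_lit 78) (nat_lit 76) (nat_lit 0) (XT.lf (nat_lit 76) (nat_lit 131452714413) (nat_lit 0) (nat_lit 19194397206) (nat_lit 152) (nat_lit 97456441426) (nat_lit 181) (nat_lit 1) (nat_lit 180) (nat_lit 1) (nat_lit 182) (nat_lit 1) (nat_lit 243) (nat_lit 412) (nat_lit 365)) (XT.lf (nat_lit 0) (nat_lit 17671938645) (nat_lit 0) (nat_lit 138311229385) (nat_lit 152) (nat_lit 85681986243) (nat_lit 179) (nat_lit 3) (nat_lit 179) (nat_lit 1) (nat_lit 181) (nat_lit 1) (nat_lit 244) (nat_lit 412) (nat_lit 364)))) (XT.nd (nat_lit 156) (nat_lit 228) (nat_lit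 0) (XT.nd (nat_lit 78) (nat_lit 76) (nat_lit 0) (XT.lf (nat_lit 76) (nat_lit 142882666960) (nat_lit 0) (nat_lit 18267710555) (nat_lit 152) (nat_lit 74254240343) (nat_lit 178) (nat_lit 1) (nat_lit 177) (nat_lit 1) (nat_lit 179) (nat_lit 1) (nat_lit 245) (nat_lit 412) (nat_lit 363)) (XT.lf (nat_lit 0) (nat_lit 33759940620) (nat_lit 0) (nat_lit 132263509386) (nat_lit 152) (nat_lit 63287363634) (nat_lit 176) (nat_lit 3) (nat_lit 176) (nat_lit 1) (nat_lit 178) (nat_lit 1) (nat_lit 246) (nat_lit 412) (nat_lit 362))) (XT.nd (nat_lit 78) (nat_lit 76) (nat_lit 0) (XT.lf (nat_lit 76) (nat_lit 152052234918) (nat_lit 0) (nat_lit 18917184865) (nat_lit 152) (nat_lit 52426779142) (nat_lit 175) (nat_lit 1) (nat_lit 174) (nat_lit 1) (nat_lit 176) (nat_lit 1) (nat_lit 247) (nat_lit 412) (nat_lit 361)) (XT.lf (nat_lit 0) (nat_lit 47462719403) (nat_lit 0) (nat_lit 127892179824) (nat_lit 152) (nat_lit 42270832109)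 (nat_lit 173) (nat_lit 3) (nat_lit 173) (nat_lit 1) (nat_lit 175) (nat_lit 1) (nat_lit 248) (nat_lit 412) (nat_lit 360)))))) (XT.nd (nat_lit 546) (nat_lit 760) (nat_lit 0) (XT.nd (nat_lit 234) (nat_lit 532) (nat_lit 0) (XT.nd (nat_lit 78) (nat_lit 228) (nat_lit 0) (XT.lf (nat_lit 76) (nat_lit 159300134137) (nat_lit 0) (nat_lit 20702853475) (nat_lit 152) (nat_lit 32030872987) (nat_lit 172) (nat_lit 1) (nat_lit 171) (nat_lit 1) (nat_lit 173) (nat_lit 1) (nat_lit 249) (nat_lit 412) (nat_lit 359)) (XT.nd (nat_lit 78) (nat_lit 152) (nat_lit 0) (XT.lf (nat_lit 0) (nat_lit 59109470092) (nat_lit 0) (nat_lit 124781183154) (nat_lit 152) (nat_lit 22676604016) (nat_lit 170) (nat_lit 3) (nat_lit 170) (nat_lit 1) (nat_lit 172) (nat_lit 1) (nat_lit 250) (nat_lit 412) (nat_lit 358)) (XT.lf (nat_lit 76) (nat_lit 164911142364) (nat_lit 0) (nat_lit 23277248035) (nat_lit 152) (nat_lit 13088783251) (nat_lit 169)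 (nat_lit 1) (nat_lit 168) (nat_lit 1) (nat_lit 170) (nat_lit 1) (nat_lit 251) (nat_lit 412) (nat_lit 357)))) (XT.nd (nat_lit 156) (nat_lit 228) (nat_lit 0) (XT.nd (nat_lit 78) (nat_lit 228) (nat_lit 0) (XT.lf (nat_lit 0) (nat_lit 68978613231) (nat_lit 0) (nat_lit 122600431329) (nat_lit 152) (nat_lit 4517482653) (nat_lit 167) (nat_lit 3) (nat_lit 167) (nat_lit 1) (nat_lit 169) (nat_lit 1) (nat_lit 252) (nat_lit 412) (nat_lit 356)) (XT.lf (nat_lit 152) (nat_lit 164646995805) (nat_lit 0) (nat_lit 4549386486) (nat_lit 76) (nat_lit 21889256469) (nat_lit 166) (nat_lit 1) (nat_lit 164) (nat_lit 1) (nat_lit 165) (nat_lit 1) (nat_lit 253) (nat_lit 412) (nat_lit 355))) (XT.nd (nat_lit 78) (nat_lit 152) (nat_lit 0) (XT.lf (nat_lit 76) (nat_lit 64881730561) (nat_lit 0) (nat_lit 12621738385) (nat_lit 76) (nat_lit 108664650819) (nat_lit 164) (nat_lit 3) (nat_lit 163) (nat_lit 1) (nat_lit 164) (nat_lit 1) (nat_lit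 254) (nat_lit 412) (nat_lit 354)) (XT.lf (nat_lit 152) (nat_lit 151327870853) (nat_lit 0) (nat_lit 21148088977) (nat_lit 76) (nat_lit 8943535391) (nat_lit 163) (nat_lit 1) (nat_lit 161) (nat_lit 1) (nat_lit 162) (nat_lit 1) (nat_lit 255) (nat_lit 412) (nat_lit 353))))) (XT.nd (nat_lit 234) (nat_lit 456) (nat_lit 0) (XT.nd (nat_lit 78) (nat_lit 228) (nat_lit 0) (XT.lf (nat_lit 76) (nat_lit 56268830677) (nat_lit 0) (nat_lit 28469694311) (nat_lit 76) (nat_lit 92018161346) (nat_lit 161) (nat_lit 3) (nat_lit 160) (nat_lit 1) (nat_lit 161) (nat_lit 1) (nat_lit 256) (nat_lit 412) (nat_lit 352)) (XT.nd (nat_lit 78) (nat_lit 76) (nat_lit 0) (XT.lf (nat_lit 0) (nat_lit 2375013835) (nat_lit 0) (nat_lit 33899996789) (nat_lit 152) (nat_lit 135981107812) (nat_lit 158) (nat_lit 3) (nat_lit 158) (nat_lit 1) (nat_lit 160) (nat_lit 1) (nat_lit 257) (nat_lit 412) (nat_lit 351)) (XT.lf (nat_lit 76) (nat_lit 47862363996)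 (nat_lit 0) (nat_lit 42921165622) (nat_lit 76) (nat_lit 77052163028) (nat_lit 158) (nat_lit 3) (nat_lit 157) (nat_lit 1) (nat_lit 158) (nat_lit 1) (nat_lit 258) (nat_lit 412) (nat_lit 350)))) (XT.nd (nat_lit 156) (nat_lit 228) (nat_lit 0) (XT.nd (nat_lit 78) (nat_lit 76) (nat_lit 0) (XT.lf (nat_lit 0) (nat_lit 12078799514) (nat_lit 0) (nat_lit 37819363034) (nat_lit 152) (nat_lit 113664439503) (nat_lit 155) (nat_lit 3) (nat_lit 155) (nat_lit 1) (nat_lit 157) (nat_lit 1) (nat_lit 259) (nat_lit 412) (nat_lit 349)) (XT.lf (nat_lit 76) (nat_lit 39756558179) (nat_lit 0) (nat_lit 56030231093) (nat_lit 76) (nat_lit 63590413290) (nat_lit 155) (nat_lit 3) (nat_lit 154) (nat_lit 1) (nat_lit 155) (nat_lit 1) (nat_lit 260) (nat_lit 412) (nat_lit 348))) (XT.nd (nat_lit 78) (nat_lit 76) (nat_lit 0) (XT.lf (nat_lit 0) (nat_lit 20601950297) (nat_lit 0) (nat_lit 41619459213) (nat_lit 152) (nat_lit 93097580618)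 (nat_lit 152) (nat_lit 3) (nat_lit 152) (nat_lit 1) (nat_lit 154) (nat_lit 1) (nat_lit 261) (nat_lit 412) (nat_lit 347)) (XT.lf (nat_lit 76) (nat_lit 32018407583) (nat_lit 0) (nat_lit 67857805423) (nat_lit 76) (nat_lit 51479063987) (nat_lit 152) (nat_lit 3) (nat_lit 151) (nat_lit 1) (nat_lit 152) (nat_lit 1) (nat_lit 262) (nat_lit 412) (nat_lit 346))))))) (XT.nd (nat_lit 1014) (nat_lit 1596) (nat_lit 0) (XT.nd (nat_lit 468) (nat_lit 912) (nat_lit 0) (XT.nd (nat_lit 234) (nat_lit 304) (nat_lit 0) (XT.nd (nat_lit 78) (nat_lit 228) (nat_lit 0) (XT.lf (nat_lit 0) (nat_lit 28073215729) (nat_lit 0) (nat_lit 45234288396) (nat_lit 152) (nat_lit 74192728082) (nat_lit 149) (nat_lit 3) (nat_lit 149) (nat_lit 1) (nat_lit 151) (nat_lit 1) (nat_lit 263) (nat_lit 412) (nat_lit 345)) (XT.nd (nat_lit 78) (nat_lit 152) (nat_lit 0) (XT.lf (nat_lit 76) (nat_lit 24693343862) (nat_lit 0) (nat_lit 78469196170) (nat_lit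 76) (nat_lit 40583225960) (nat_lit 149) (nat_lit 3) (nat_lit 148) (nat_lit 1) (nat_lit 149) (nat_lit 1) (nat_lit 264) (nat_lit 412) (nat_lit 344)) (XT.lf (nat_lit 0) (nat_lit 34605155880) (nat_lit 0) (nat_lit 48617397590) (nat_lit 152) (nat_lit 56860420158) (nat_lit 146) (nat_lit 3) (nat_lit 146) (nat_lit 1) (nat_lit 148) (nat_lit 1) (nat_lit 265) (nat_lit 412) (nat_lit 343)))) (XT.nd (nat_lit 78) (nat_lit 228) (nat_lit 0) (XT.lf (nat_lit 76) (nat_lit 17809823029) (nat_lit 0) (nat_lit 87932186985) (nat_lit 76) (nat_lit 30784120908) (nat_lit 146) (nat_lit 3) (nat_lit 145) (nat_lit 1) (nat_lit 146) (nat_lit 1) (nat_lit 266) (nat_lit 412) (nat_lit 342)) (XT.nd (nat_lit 78) (nat_lit 76) (nat_lit 0) (XT.lf (nat_lit 0) (nat_lit 40296579861) (nat_lit 0) (nat_lit 51737759649) (nat_lit 152) (nat_lit 41011051900) (nat_lit 143) (nat_lit 3) (nat_lit 143) (nat_lit 1) (nat_lit 145) (nat_lit 1) (nat_lit 267)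 (nat_lit 412) (nat_lit 341)) (XT.lf (nat_lit 76) (nat_lit 11383030477) (nat_lit 0) (nat_lit 96315545653) (nat_lit 76) (nat_lit 21976715466) (nat_lit 143) (nat_lit 3) (nat_lit 142) (nat_lit 1) (nat_lit 143) (nat_lit 1) (nat_lit 268) (nat_lit 412) (nat_lit 340))))) (XT.nd (nat_lit 234) (nat_lit 532) (nat_lit 0) (XT.nd (nat_lit 78) (nat_lit 228) (nat_lit 0) (XT.lf (nat_lit 0) (nat_lit 45234571991) (nat_lit 0) (nat_lit 54576445879) (nat_lit 152) (nat_lit 26556034866) (nat_lit 140) (nat_lit 3) (nat_lit 140) (nat_lit 1) (nat_lit 142) (nat_lit 1) (nat_lit 269) (nat_lit 412) (nat_lit 339)) (XT.nd (nat_lit 78) (nat_lit 152) (nat_lit 0) (XT.lf (nat_lit 76) (nat_lit 5417868265) (nat_lit 0) (nat_lit 103687874441) (nat_lit 76) (nat_lit 14067751494) (nat_lit 140) (nat_lit 3) (nat_lit 139) (nat_lit 1) (nat_lit 140) (nat_lit 1) (nat_lit 270) (nat_lit 412) (nat_lit 338)) (XT.lf (nat_lit 0) (nat_lit 49496179073)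 (nat_lit 0) (nat_lit 57123942062) (nat_lit 152) (nat_lit 13408671183) (nat_lit 137) (nat_lit 3) (nat_lit 137) (nat_lit 1) (nat_lit 139) (nat_lit 1) (nat_lit 271) (nat_lit 412) (nat_lit 337)))) (XT.nd (nat_lit 156) (nat_lit 304) (nat_lit 0) (XT.nd (nat_lit 78) (nat_lit 76) (nat_lit 0) (XT.lf (nat_lit 76) (nat_lit 110029478267) (nat_lit 0) (nat_lit 85804204) (nat_lit 152) (nat_lit 6886844888) (nat_lit 136) (nat_lit 1) (nat_lit 135) (nat_lit 1) (nat_lit 137) (nat_lit 1) (nat_lit 272) (nat_lit 412) (nat_lit 336)) (XT.lf (nat_lit 0) (nat_lit 53149818889) (nat_lit 0) (nat_lit 59377987768) (nat_lit 152) (nat_lit 1484798848) (nat_lit 134) (nat_lit 3) (nat_lit 134) (nat_lit 1) (nat_lit 136) (nat_lit 1) (nat_lit 273) (nat_lit 412) (nat_lit 335))) (XT.nd (nat_lit 78) (nat_lit 76) (nat_lit 0) (XT.lf (nat_lit 152) (nat_lit 106083954472) (nat_lit 0) (nat_lit 4590623752) (nat_lit 76) (nat_lit 461789314) (nat_lit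 133) (nat_lit 1) (nat_lit 131) (nat_lit 1) (nat_lit 132) (nat_lit 1) (nat_lit 274) (nat_lit 412) (nat_lit 334)) (XT.lf (nat_lit 76) (nat_lit 46802268746) (nat_lit 0) (nat_lit 9604137882) (nat_lit 76) (nat_lit 51887650612) (nat_lit 131) (nat_lit 3) (nat_lit 130) (nat_lit 1) (nat_lit 131) (nat_lit 1) (nat_lit 275) (nat_lit 412) (nat_lit 333)))))) (XT.nd (nat_lit 546) (nat_lit 760) (nat_lit 0) (XT.nd (nat_lit 234) (nat_lit 456) (nat_lit 0) (XT.nd (nat_lit 78) (nat_lit 228) (nat_lit 0) (XT.lf (nat_lit 0) (nat_lit 5290746008) (nat_lit 0) (nat_lit 9775209735) (nat_lit 152) (nat_lit 90492723691) (nat_lit 128) (nat_lit 3) (nat_lit 128) (nat_lit 1) (nat_lit 130) (nat_lit 1) (nat_lit 276) (nat_lit 412) (nat_lit 332)) (XT.nd (nat_lit 78) (nat_lit 152) (nat_lit 0) (XT.lf (nat_lit 76) (nat_lit 39534790109) (nat_lit 0) (nat_lit 19642491221) (nat_lit 76) (nat_lit 43687071337) (nat_lit 128) (nat_lit 3) (nat_lit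 127) (nat_lit 1) (nat_lit 128) (nat_lit 1) (nat_lit 277) (nat_lit 412) (nat_lit 331)) (XT.lf (nat_lit 0) (nat_lit 10410615473) (nat_lit 0) (nat_lit 14072239131) (nat_lit 152) (nat_lit 75780630560) (nat_lit 125) (nat_lit 3) (nat_lit 125) (nat_lit 1) (nat_lit 127) (nat_lit 1) (nat_lit 278) (nat_lit 412) (nat_lit 330)))) (XT.nd (nat_lit 156) (nat_lit 228) (nat_lit 0) (XT.nd (nat_lit 78) (nat_lit 152) (nat_lit 0) (XT.lf (nat_lit 76) (nat_lit 32830621358) (nat_lit 0) (nat_lit 28657952265) (nat_lit 76) (nat_lit 36221013634) (nat_lit 125) (nat_lit 3) (nat_lit 124) (nat_lit 1) (nat_lit 125) (nat_lit 1) (nat_lit 279) (nat_lit 412) (nat_lit 329)) (XT.lf (nat_lit 0) (nat_lit 14966681876) (nat_lit 0) (nat_lit 17956445788) (nat_lit 152) (nat_lit 62313315325) (nat_lit 122) (nat_lit 3) (nat_lit 122) (nat_lit 1) (nat_lit 124) (nat_lit 1) (nat_lit 280) (nat_lit 412) (nat_lit 328))) (XT.nd (nat_lit 78) (nat_lit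 152) (nat_lit 0) (XT.lf (nat_lit 76) (nat_lit 26661827074) (nat_lit 0) (nat_lit 36723553964) (nat_lit 76) (nat_lit 29430126993) (nat_lit 122) (nat_lit 3) (nat_lit 121) (nat_lit 1) (nat_lit 122) (nat_lit 1) (nat_lit 281) (nat_lit 412) (nat_lit 327)) (XT.lf (nat_lit 0) (nat_lit 19008041426) (nat_lit 0) (nat_lit 21449223011) (nat_lit 152) (nat_lit 50006406904) (nat_lit 119) (nat_lit 3) (nat_lit 119) (nat_lit 1) (nat_lit 121) (nat_lit 1) (nat_lit 282) (nat_lit 412) (nat_lit 326))))) (XT.nd (nat_lit 234) (nat_lit 456) (nat_lit 0) (XT.nd (nat_lit 78) (nat_lit 228) (nat_lit 0) (XT.lf (nat_lit 76) (nat_lit 20999883131) (nat_lit 0) (nat_lit 43908533022) (nat_lit 76) (nat_lit 23260236451) (nat_lit 119) (nat_lit 3) (nat_lit 118) (nat_lit 1) (nat_lit 119) (nat_lit 1) (nat_lit 283) (nat_lit 412) (nat_lit 325)) (XT.nd (nat_lit 78) (nat_lit 76) (nat_lit 0) (XT.lf (nat_lit 0) (nat_lit 22579367941) (nat_lit 0)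 (nat_lit 24572624837) (nat_lit 152) (nat_lit 38780061122) (nat_lit 116) (nat_lit 3) (nat_lit 116) (nat_lit 1) (nat_lit 118) (nat_lit 1) (nat_lit 284) (nat_lit 412) (nat_lit 324)) (XT.lf (nat_lit 76) (nat_lit 15816173127) (nat_lit 0) (nat_lit 50278342048) (nat_lit 76) (nat_lit 17661781364) (nat_lit 116) (nat_lit 3) (nat_lit 115) (nat_lit 1) (nat_lit 116) (nat_lit 1) (nat_lit 285) (nat_lit 412) (nat_lit 323)))) (XT.nd (nat_lit 156) (nat_lit 228) (nat_lit 0) (XT.nd (nat_lit 78) (nat_lit 76) (nat_lit 0) (XT.lf (nat_lit 0) (nat_lit 25721396468) (nat_lit 0) (nat_lit 27348916959) (nat_lit 152) (nat_lit 28558876080) (nat_lit 113) (nat_lit 3) (nat_lit 113) (nat_lit 1) (nat_lit 115) (nat_lit 1) (nat_lit 286) (nat_lit 412) (nat_lit 322)) (XT.lf (nat_lit 76) (nat_lit 11082368866) (nat_lit 0) (nat_lit 55894704512) (nat_lit 76) (nat_lit 12589332284) (nat_lit 113) (nat_lit 3) (nat_lit 112) (nat_lit 1) (nat_lit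 113) (nat_lit 1) (nat_lit 287) (nat_lit 412) (nat_lit 321))) (XT.nd (nat_lit 78) (nat_lit 76) (nat_lit 0) (XT.lf (nat_lit 0) (nat_lit 28471339764) (nat_lit 0) (nat_lit 29800231667) (nat_lit 152) (nat_lit 19271775229) (nat_lit 110) (nat_lit 3) (nat_lit 110) (nat_lit 1) (nat_lit 112) (nat_lit 1) (nat_lit 288) (nat_lit 412) (nat_lit 320)) (XT.lf (nat_lit 76) (nat_lit 6770717694) (nat_lit 0) (nat_lit 60815701819) (nat_lit 76) (nat_lit 8001173160) (nat_lit 110) (nat_lit 3) (nat_lit 109) (nat_lit 1) (nat_lit 110) (nat_lit 1) (nat_lit 289) (nat_lit 412) (nat_lit 319))))))))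
noncomputable def ec228 : XT := (XT.nd (nat_lit 2028) (nat_lit 3192) (nat_lit 0) (XT.nd (nat_lit 1014) (nat_lit 1596) (nat_lit 0) (XT.nd (nat_lit 468) (nat_lit 760) (nat_lit 0) (XT.nd (nat_lit 234) (nat_lit 456) (nat_lit 0) (XT.nd (nat_lit 78) (nat_lit 228) (nat_lit 0) (XT.lf (nat_lit 0) (nat_lit 30863248613) (nat_lit 0) (nat_lit 31948306343) (nat_lit 152) (nat_lit 10851867040) (nat_lit 107) (nat_lit 3) (nat_lit 107) (nat_lit 1) (nat_lit 109) (nat_lit 1) (nat_lit 290) (nat_lit 412) (nat_lit 318)) (XT.nd (nat_lit 78) (nat_lit 152) (nat_lit 0) (XT.lf (nat_lit 76) (nat_lit 2854255215) (nat_lit 0) (nat_lit 65095883955) (nat_lit 76) (nat_lit 3858938298) (nat_lit 107) (nat_lit 3) (nat_lit 106) (nat_lit 1) (nat_lit 107) (nat_lit 1) (nat_lit 291) (nat_lit 412) (nat_lit 317)) (XT.lf (nat_lit 0) (nat_lit 32928325004) (nat_lit 0) (nat_lit 33814288922) (nat_lit 152) (nat_lit 3236288325) (nat_lit 104) (nat_lit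 3) (nat_lit 104) (nat_lit 1) (nat_lit 106) (nat_lit 1) (nat_lit 292) (nat_lit 412) (nat_lit 316)))) (XT.nd (nat_lit 78) (nat_lit 228) (nat_lit 0) (XT.lf (nat_lit 152) (nat_lit 67539851880) (nat_lit 0) (nat_lit 573274192) (nat_lit 76) (nat_lit 106536126) (nat_lit 103) (nat_lit 1) (nat_lit 101) (nat_lit 1) (nat_lit 102) (nat_lit 1) (nat_lit 293) (nat_lit 412) (nat_lit 315)) (XT.nd (nat_lit 78) (nat_lit 152) (nat_lit 0) (XT.lf (nat_lit 76) (nat_lit 30999689523) (nat_lit 0) (nat_lit 3754118406) (nat_lit 76) (nat_lit 31723090724) (nat_lit 101) (nat_lit 3) (nat_lit 100) (nat_lit 1) (nat_lit 101) (nat_lit 1) (nat_lit 294) (nat_lit 412) (nat_lit 314)) (XT.lf (nat_lit 0) (nat_lit 3300661497) (nat_lit 0) (nat_lit 3938581427) (nat_lit 152) (nat_lit 57561999286) (nat_lit 98) (nat_lit 3) (nat_lit 98) (nat_lit 1) (nat_lit 100) (nat_lit 1) (nat_lit 295) (nat_lit 412) (nat_lit 313))))) (XT.nd (nat_lit 234) (nat_lit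 456) (nat_lit 0) (XT.nd (nat_lit 78) (nat_lit 228) (nat_lit 0) (XT.lf (nat_lit 76) (nat_lit 26209741020) (nat_lit 0) (nat_lit 10138704374) (nat_lit 76) (nat_lit 26800407621) (nat_lit 98) (nat_lit 3) (nat_lit 97) (nat_lit 1) (nat_lit 98) (nat_lit 1) (nat_lit 296) (nat_lit 412) (nat_lit 312)) (XT.nd (nat_lit 78) (nat_lit 76) (nat_lit 0) (XT.lf (nat_lit 0) (nat_lit 6351680977) (nat_lit 0) (nat_lit 6872550997) (nat_lit 152) (nat_lit 48330827105) (nat_lit 95) (nat_lit 3) (nat_lit 95) (nat_lit 1) (nat_lit 97) (nat_lit 1) (nat_lit 297) (nat_lit 412) (nat_lit 311)) (XT.lf (nat_lit 76) (nat_lit 21821061671) (nat_lit 0) (nat_lit 15863980618) (nat_lit 76) (nat_lit 22303348725) (nat_lit 95) (nat_lit 3) (nat_lit 94) (nat_lit 1) (nat_lit 95) (nat_lit 1) (nat_lit 298) (nat_lit 412) (nat_lit 310)))) (XT.nd (nat_lit 156) (nat_lit 228) (nat_lit 0) (XT.nd (nat_lit 78) (nat_lit 76) (nat_lit 0) (XT.lf (nat_lit 0)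 (nat_lit 9077998895) (nat_lit 0) (nat_lit 9503296121) (nat_lit 152) (nat_lit 39891131829) (nat_lit 92) (nat_lit 3) (nat_lit 92) (nat_lit 1) (nat_lit 94) (nat_lit 1) (nat_lit 299) (nat_lit 412) (nat_lit 309)) (XT.lf (nat_lit 76) (nat_lit 17806591039) (nat_lit 0) (nat_lit 20980020410) (nat_lit 76) (nat_lit 18200384767) (nat_lit 92) (nat_lit 3) (nat_lit 91) (nat_lit 1) (nat_lit 92) (nat_lit 1) (nat_lit 300) (nat_lit 412) (nat_lit 308))) (XT.nd (nat_lit 78) (nat_lit 76) (nat_lit 0) (XT.lf (nat_lit 0) (nat_lit 11505577368) (nat_lit 0) (nat_lit 11852838151) (nat_lit 152) (nat_lit 32186616839) (nat_lit 89) (nat_lit 3) (nat_lit 89) (nat_lit 1) (nat_lit 91) (nat_lit 1) (nat_lit 301) (nat_lit 412) (nat_lit 307)) (XT.lf (nat_lit 76) (nat_lit 14140711309) (nat_lit 0) (nat_lit 25533633601) (nat_lit 76) (nat_lit 14462249071) (nat_lit 89) (nat_lit 3) (nat_lit 88) (nat_lit 1) (nat_lit 89) (nat_lit 1) (nat_lit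 302) (nat_lit 412) (nat_lit 306)))))) (XT.nd (nat_lit 468) (nat_lit 912) (nat_lit 0) (XT.nd (nat_lit 234) (nat_lit 304) (nat_lit 0) (XT.nd (nat_lit 78) (nat_lit 228) (nat_lit 0) (XT.lf (nat_lit 0) (nat_lit 13658443853) (nat_lit 0) (nat_lit 13941986853) (nat_lit 152) (nat_lit 25164562555) (nat_lit 86) (nat_lit 3) (nat_lit 86) (nat_lit 1) (nat_lit 88) (nat_lit 1) (nat_lit 303) (nat_lit 412) (nat_lit 305)) (XT.nd (nat_lit 78) (nat_lit 152) (nat_lit 0) (XT.lf (nat_lit 76) (nat_lit 10799221826) (nat_lit 0) (nat_lit 29568543711) (nat_lit 76) (nat_lit 11061761641) (nat_lit 86) (nat_lit 3) (nat_lit 85) (nat_lit 1) (nat_lit 86) (nat_lit 1) (nat_lit 304) (nat_lit 412) (nat_lit 304)) (XT.lf (nat_lit 0) (nat_lit 15558844119) (nat_lit 0) (nat_lit 15790360710) (nat_lit 152) (nat_lit 18775629588) (nat_lit 83) (nat_lit 3) (nat_lit 83) (nat_lit 1) (nat_lit 85) (nat_lit 1) (nat_lit 305) (nat_lit 412) (nat_lit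 303)))) (XT.nd (nat_lit 78) (nat_lit 228) (nat_lit 0) (XT.lf (nat_lit 76) (nat_lit 7759303001) (nat_lit 0) (nat_lit 33125560245) (nat_lit 76) (nat_lit 7973670215) (nat_lit 83) (nat_lit 3) (nat_lit 82) (nat_lit 1) (nat_lit 83) (nat_lit 1) (nat_lit 306) (nat_lit 412) (nat_lit 302)) (XT.nd (nat_lit 78) (nat_lit 76) (nat_lit 0) (XT.lf (nat_lit 0) (nat_lit 17227380465) (nat_lit 0) (nat_lit 17416416810) (nat_lit 152) (nat_lit 12973668581) (nat_lit 80) (nat_lit 3) (nat_lit 80) (nat_lit 1) (nat_lit 82) (nat_lit 1) (nat_lit 307) (nat_lit 412) (nat_lit 301)) (XT.lf (nat_lit 76) (nat_lit 4999472472) (nat_lit 0) (nat_lit 36242745390) (nat_lit 76) (nat_lit 5174506124) (nat_lit 80) (nat_lit 3) (nat_lit 79) (nat_lit 1) (nat_lit 80) (nat_lit 1) (nat_lit 308) (nat_lit 412) (nat_lit 300))))) (XT.nd (nat_lit 234) (nat_lit 532) (nat_lit 0) (XT.nd (nat_lit 78) (nat_lit 228) (nat_lit 0) (XT.lf (nat_lit 0) (nat_lit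 18683137049) (nat_lit 0) (nat_lit 18837487712) (nat_lit 152) (nat_lit 7715537319) (nat_lit 77) (nat_lit 3) (nat_lit 77) (nat_lit 1) (nat_lit 79) (nat_lit 1) (nat_lit 309) (nat_lit 412) (nat_lit 299)) (XT.nd (nat_lit 78) (nat_lit 152) (nat_lit 0) (XT.lf (nat_lit 76) (nat_lit 2499535829) (nat_lit 0) (nat_lit 38955574478) (nat_lit 76) (nat_lit 2642453110) (nat_lit 77) (nat_lit 3) (nat_lit 76) (nat_lit 1) (nat_lit 77) (nat_lit 1) (nat_lit 310) (nat_lit 412) (nat_lit 298)) (XT.lf (nat_lit 0) (nat_lit 19943793898) (nat_lit 0) (nat_lit 20069823246) (nat_lit 152) (nat_lit 2960925478) (nat_lit 74) (nat_lit 3) (nat_lit 74) (nat_lit 1) (nat_lit 76) (nat_lit 1) (nat_lit 311) (nat_lit 412) (nat_lit 297)))) (XT.nd (nat_lit 156) (nat_lit 228) (nat_lit 0) (XT.nd (nat_lit 78) (nat_lit 228) (nat_lit 0) (XT.lf (nat_lit 76) (nat_lit 240533735) (nat_lit 0) (nat_lit 41297089827) (nat_lit 76) (nat_lit 357227576) (nat_lit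 74) (nat_lit 3) (nat_lit 73) (nat_lit 1) (nat_lit 74) (nat_lit 1) (nat_lit 312) (nat_lit 412) (nat_lit 296)) (XT.lf (nat_lit 76) (nat_lit 19675431027) (nat_lit 0) (nat_lit 1371716261) (nat_lit 76) (nat_lit 19778335649) (nat_lit 71) (nat_lit 3) (nat_lit 70) (nat_lit 1) (nat_lit 71) (nat_lit 1) (nat_lit 313) (nat_lit 412) (nat_lit 295))) (XT.nd (nat_lit 78) (nat_lit 76) (nat_lit 0) (XT.lf (nat_lit 0) (nat_lit 1730950037) (nat_lit 0) (nat_lit 1821694853) (nat_lit 152) (nat_lit 36244465038) (nat_lit 68) (nat_lit 3) (nat_lit 68) (nat_lit 1) (nat_lit 70) (nat_lit 1) (nat_lit 314) (nat_lit 412) (nat_lit 294)) (XT.lf (nat_lit 76) (nat_lit 16670480662) (nat_lit 0) (nat_lit 5357284851) (nat_lit 76) (nat_lit 16754503640) (nat_lit 68) (nat_lit 3) (nat_lit 67) (nat_lit 1) (nat_lit 68) (nat_lit 1) (nat_lit 315) (nat_lit 412) (nat_lit 293))))))) (XT.nd (nat_lit 1014) (nat_lit 1672) (nat_lit 0) (XT.nd (nat_lit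 468) (nat_lit 836) (nat_lit 0) (XT.nd (nat_lit 234) (nat_lit 304) (nat_lit 0) (XT.nd (nat_lit 78) (nat_lit 228) (nat_lit 0) (XT.lf (nat_lit 0) (nat_lit 3607496310) (nat_lit 0) (nat_lit 3681590647) (nat_lit 152) (nat_lit 30514973875) (nat_lit 65) (nat_lit 3) (nat_lit 65) (nat_lit 1) (nat_lit 67) (nat_lit 1) (nat_lit 316) (nat_lit 412) (nat_lit 292)) (XT.nd (nat_lit 78) (nat_lit 152) (nat_lit 0) (XT.lf (nat_lit 76) (nat_lit 13920727797) (nat_lit 0) (nat_lit 8931750281) (nat_lit 76) (nat_lit 13989333665) (nat_lit 65) (nat_lit 3) (nat_lit 64) (nat_lit 1) (nat_lit 65) (nat_lit 1) (nat_lit 317) (nat_lit 412) (nat_lit 291)) (XT.lf (nat_lit 0) (nat_lit 5286842718) (nat_lit 0) (nat_lit 5347341719) (nat_lit 152) (nat_lit 25277126424) (nat_lit 62) (nat_lit 3) (nat_lit 62) (nat_lit 1) (nat_lit 64) (nat_lit 1) (nat_lit 318) (nat_lit 412) (nat_lit 290)))) (XT.nd (nat_lit 78) (nat_lit 228) (nat_lit 0) (XT.lf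 (nat_lit 76) (nat_lit 11408096978) (nat_lit 0) (nat_lit 12126701523) (nat_lit 76) (nat_lit 11464114571) (nat_lit 62) (nat_lit 3) (nat_lit 61) (nat_lit 1) (nat_lit 62) (nat_lit 1) (nat_lit 319) (nat_lit 412) (nat_lit 289)) (XT.nd (nat_lit 78) (nat_lit 76) (nat_lit 0) (XT.lf (nat_lit 0) (nat_lit 6784383123) (nat_lit 0) (nat_lit 6833781354) (nat_lit 152) (nat_lit 20495619221) (nat_lit 59) (nat_lit 3) (nat_lit 59) (nat_lit 1) (nat_lit 61) (nat_lit 1) (nat_lit 320) (nat_lit 412) (nat_lit 288)) (XT.lf (nat_lit 76) (nat_lit 9115657918) (nat_lit 0) (nat_lit 14971585734) (nat_lit 76) (nat_lit 9161397020) (nat_lit 59) (nat_lit 3) (nat_lit 58) (nat_lit 1) (nat_lit 59) (nat_lit 1) (nat_lit 321) (nat_lit 412) (nat_lit 287))))) (XT.nd (nat_lit 234) (nat_lit 456) (nat_lit 0) (XT.nd (nat_lit 78) (nat_lit 228) (nat_lit 0) (XT.lf (nat_lit 0) (nat_lit 8114431940) (nat_lit 0) (nat_lit 8154766246) (nat_lit 152) (nat_lit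 16137463888) (nat_lit 56) (nat_lit 3) (nat_lit 56) (nat_lit 1) (nat_lit 58) (nat_lit 1) (nat_lit 322) (nat_lit 412) (nat_lit 286)) (XT.nd (nat_lit 78) (nat_lit 152) (nat_lit 0) (XT.lf (nat_lit 76) (nat_lit 7027562738) (nat_lit 0) (nat_lit 17493841409) (nat_lit 76) (nat_lit 7064909317) (nat_lit 56) (nat_lit 3) (nat_lit 55) (nat_lit 1) (nat_lit 56) (nat_lit 1) (nat_lit 323) (nat_lit 412) (nat_lit 285)) (XT.lf (nat_lit 0) (nat_lit 9290297731) (nat_lit 0) (nat_lit 9323231223) (nat_lit 152) (nat_lit 12171845370) (nat_lit 53) (nat_lit 3) (nat_lit 53) (nat_lit 1) (nat_lit 55) (nat_lit 1) (nat_lit 324) (nat_lit 412) (nat_lit 284)))) (XT.nd (nat_lit 156) (nat_lit 228) (nat_lit 0) (XT.nd (nat_lit 78) (nat_lit 152) (nat_lit 0) (XT.lf (nat_lit 76) (nat_lit 5128985292) (nat_lit 0) (nat_lit 19719024179) (nat_lit 76) (nat_lit 5159479266) (nat_lit 53) (nat_lit 3) (nat_lit 52) (nat_lit 1) (nat_lit 53) (nat_lit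 1) (nat_lit 325) (nat_lit 412) (nat_lit 283)) (XT.lf (nat_lit 0) (nat_lit 10324351489) (nat_lit 0) (nat_lit 10351242119) (nat_lit 152) (nat_lit 8569988066) (nat_lit 50) (nat_lit 3) (nat_lit 50) (nat_lit 1) (nat_lit 52) (nat_lit 1) (nat_lit 326) (nat_lit 412) (nat_lit 282))) (XT.nd (nat_lit 78) (nat_lit 152) (nat_lit 0) (XT.lf (nat_lit 76) (nat_lit 3406062783) (nat_lit 0) (nat_lit 21670925536) (nat_lit 76) (nat_lit 3430961513) (nat_lit 50) (nat_lit 3) (nat_lit 49) (nat_lit 1) (nat_lit 50) (nat_lit 1) (nat_lit 327) (nat_lit 412) (nat_lit 281)) (XT.lf (nat_lit 0) (nat_lit 11228090071) (nat_lit 0) (nat_lit 11250046624) (nat_lit 152) (nat_lit 5305029513) (nat_lit 47) (nat_lit 3) (nat_lit 47) (nat_lit 1) (nat_lit 49) (nat_lit 1) (nat_lit 328) (nat_lit 412) (nat_lit 280)))))) (XT.nd (nat_lit 546) (nat_lit 760) (nat_lit 0) (XT.nd (nat_lit 234) (nat_lit 608) (nat_lit 0) (XT.nd (nat_lit 78) (nat_lit 228)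 (nat_lit 0) (XT.lf (nat_lit 76) (nat_lit 1845839791) (nat_lit 0) (nat_lit 23371684761) (nat_lit 76) (nat_lit 1866169933) (nat_lit 47) (nat_lit 3) (nat_lit 46) (nat_lit 1) (nat_lit 47) (nat_lit 1) (nat_lit 329) (nat_lit 412) (nat_lit 279)) (XT.nd (nat_lit 78) (nat_lit 76) (nat_lit 0) (XT.lf (nat_lit 0) (nat_lit 12012195190) (nat_lit 0) (nat_lit 12030123004) (nat_lit 152) (nat_lit 2351901296) (nat_lit 44) (nat_lit 3) (nat_lit 44) (nat_lit 1) (nat_lit 46) (nat_lit 1) (nat_lit 330) (nat_lit 412) (nat_lit 278)) (XT.lf (nat_lit 76) (nat_lit 436214792) (nat_lit 0) (nat_lit 24841894379) (nat_lit 76) (nat_lit 452814620) (nat_lit 44) (nat_lit 3) (nat_lit 43) (nat_lit 1) (nat_lit 44) (nat_lit 1) (nat_lit 331) (nat_lit 412) (nat_lit 277)))) (XT.nd (nat_lit 156) (nat_lit 228) (nat_lit 0) (XT.nd (nat_lit 78) (nat_lit 152) (nat_lit 0) (XT.lf (nat_lit 76) (nat_lit 12368508021) (nat_lit 0) (nat_lit 323125192)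 (nat_lit 76) (nat_lit 12383146317) (nat_lit 41) (nat_lit 3) (nat_lit 40) (nat_lit 1) (nat_lit 41) (nat_lit 1) (nat_lit 332) (nat_lit 412) (nat_lit 276)) (XT.lf (nat_lit 0) (nat_lit 834442410) (nat_lit 0) (nat_lit 847350960) (nat_lit 152) (nat_lit 22761590405) (nat_lit 38) (nat_lit 3) (nat_lit 38) (nat_lit 1) (nat_lit 40) (nat_lit 1) (nat_lit 333) (nat_lit 412) (nat_lit 275))) (XT.nd (nat_lit 78) (nat_lit 152) (nat_lit 0) (XT.lf (nat_lit 76) (nat_lit 10503738288) (nat_lit 0) (nat_lit 2800466708) (nat_lit 76) (nat_lit 10515690650) (nat_lit 38) (nat_lit 3) (nat_lit 37) (nat_lit 1) (nat_lit 38) (nat_lit 1) (nat_lit 334) (nat_lit 412) (nat_lit 274)) (XT.lf (nat_lit 0) (nat_lit 1997175226) (nat_lit 0) (nat_lit 2007715228) (nat_lit 152) (nat_lit 19214399256) (nat_lit 35) (nat_lit 3) (nat_lit 35) (nat_lit 1) (nat_lit 37) (nat_lit 1) (nat_lit 335) (nat_lit 412) (nat_lit 273))))) (XT.nd (nat_lit 234) (nat_lit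 456) (nat_lit 0) (XT.nd (nat_lit 78) (nat_lit 228) (nat_lit 0) (XT.lf (nat_lit 76) (nat_lit 8797490831) (nat_lit 0) (nat_lit 5023364770) (nat_lit 76) (nat_lit 8807250091) (nat_lit 35) (nat_lit 3) (nat_lit 34) (nat_lit 1) (nat_lit 35) (nat_lit 1) (nat_lit 336) (nat_lit 412) (nat_lit 272)) (XT.nd (nat_lit 78) (nat_lit 76) (nat_lit 0) (XT.lf (nat_lit 0) (nat_lit 3038589848) (nat_lit 0) (nat_lit 3047195898) (nat_lit 152) (nat_lit 15970997591) (nat_lit 32) (nat_lit 3) (nat_lit 32) (nat_lit 1) (nat_lit 34) (nat_lit 1) (nat_lit 337) (nat_lit 412) (nat_lit 271)) (XT.lf (nat_lit 76) (nat_lit 7238428287) (nat_lit 0) (nat_lit 7011396453) (nat_lit 76) (nat_lit 7246396852) (nat_lit 32) (nat_lit 3) (nat_lit 31) (nat_lit 1) (nat_lit 32) (nat_lit 1) (nat_lit 338) (nat_lit 412) (nat_lit 270)))) (XT.nd (nat_lit 156) (nat_lit 228) (nat_lit 0) (XT.nd (nat_lit 78) (nat_lit 76) (nat_lit 0) (XT.lf (nat_lit 0) (nat_lit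 3968089912) (nat_lit 0) (nat_lit 3975116865) (nat_lit 152) (nat_lit 13009543804) (nat_lit 29) (nat_lit 3) (nat_lit 29) (nat_lit 1) (nat_lit 31) (nat_lit 1) (nat_lit 339) (nat_lit 412) (nat_lit 269)) (XT.lf (nat_lit 76) (nat_lit 5815955032) (nat_lit 0) (nat_lit 8782800784) (nat_lit 76) (nat_lit 5822461470) (nat_lit 29) (nat_lit 3) (nat_lit 28) (nat_lit 1) (nat_lit 29) (nat_lit 1) (nat_lit 340) (nat_lit 412) (nat_lit 268))) (XT.nd (nat_lit 78) (nat_lit 76) (nat_lit 0) (XT.lf (nat_lit 0) (nat_lit 4794430090) (nat_lit 0) (nat_lit 4800167690) (nat_lit 152) (nat_lit 10309637930) (nat_lit 26) (nat_lit 3) (nat_lit 26) (nat_lit 1) (nat_lit 28) (nat_lit 1) (nat_lit 341) (nat_lit 412) (nat_lit 267)) (XT.lf (nat_lit 76) (nat_lit 4520171837) (nat_lit 0) (nat_lit 10354564150) (nat_lit 76) (nat_lit 4525484429) (nat_lit 26) (nat_lit 3) (nat_lit 25) (nat_lit 1) (nat_lit 26) (nat_lit 1) (nat_lit 342) (nat_lit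 412) (nat_lit 266))))))))
noncomputable def ec229 : XT := (XT.nd (nat_lit 2106) (nat_lit 0) (nat_lit 0) (XT.nd (nat_lit 1014) (nat_lit 304) (nat_lit 0) (XT.nd (nat_lit 468) (nat_lit 912) (nat_lit 0) (XT.nd (nat_lit 234) (nat_lit 304) (nat_lit 0) (XT.nd (nat_lit 78) (nat_lit 228) (nat_lit 0) (XT.lf (nat_lit 0) (nat_lit 5525758477) (nat_lit 0) (nat_lit 5530443303) (nat_lit 152) (nat_lit 7852231454) (nat_lit 23) (nat_lit 3) (nat_lit 23) (nat_lit 1) (nat_lit 25) (nat_lit 1) (nat_lit 343) (nat_lit 412) (nat_lit 265)) (XT.nd (nat_lit 78) (nat_lit 152) (nat_lit 0) (XT.lf (nat_lit 76) (nat_lit 3341833060) (nat_lit 0) (nat_lit 11742500555) (nat_lit 76) (nat_lit 3346170861) (nat_lit 23) (nat_lit 3) (nat_lit 22) (nat_lit 1) (nat_lit 23) (nat_lit 1) (nat_lit 344) (nat_lit 412) (nat_lit 264)) (XT.lf (nat_lit 0) (nat_lit 6169656233) (nat_lit 0) (nat_lit 6173481455) (nat_lit 152) (nat_lit 5619542507) (nat_lit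 20) (nat_lit 3) (nat_lit 20) (nat_lit 1) (nat_lit 22) (nat_lit 1) (nat_lit 345) (nat_lit 412) (nat_lit 263)))) (XT.nd (nat_lit 78) (nat_lit 228) (nat_lit 0) (XT.lf (nat_lit 76) (nat_lit 2272306232) (nat_lit 0) (nat_lit 12961327010) (nat_lit 76) (nat_lit 2275848104) (nat_lit 20) (nat_lit 3) (nat_lit 19) (nat_lit 1) (nat_lit 20) (nat_lit 1) (nat_lit 346) (nat_lit 412) (nat_lit 262)) (XT.nd (nat_lit 78) (nat_lit 76) (nat_lit 0) (XT.lf (nat_lit 0) (nat_lit 6733174694) (nat_lit 0) (nat_lit 6736298038) (nat_lit 152) (nat_lit 3594976158) (nat_lit 17) (nat_lit 3) (nat_lit 17) (nat_lit 1) (nat_lit 19) (nat_lit 1) (nat_lit 347) (nat_lit 412) (nat_lit 261)) (XT.lf (nat_lit 76) (nat_lit 1303533957) (nat_lit 0) (nat_lit 14024734312) (nat_lit 76) (nat_lit 1306425943) (nat_lit 17) (nat_lit 3) (nat_lit 16) (nat_lit 1) (nat_lit 17) (nat_lit 1) (nat_lit 348) (nat_lit 412) (nat_lit 260))))) (XT.nd (nat_lit 234)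 (nat_lit 532) (nat_lit 0) (XT.nd (nat_lit 78) (nat_lit 228) (nat_lit 0) (XT.lf (nat_lit 0) (nat_lit 7222870094) (nat_lit 0) (nat_lit 7225420346) (nat_lit 152) (nat_lit 1763049508) (nat_lit 14) (nat_lit 3) (nat_lit 14) (nat_lit 1) (nat_lit 16) (nat_lit 1) (nat_lit 349) (nat_lit 412) (nat_lit 259)) (XT.nd (nat_lit 78) (nat_lit 152) (nat_lit 0) (XT.lf (nat_lit 76) (nat_lit 427998011) (nat_lit 0) (nat_lit 14945453511) (nat_lit 76) (nat_lit 430359355) (nat_lit 14) (nat_lit 3) (nat_lit 13) (nat_lit 1) (nat_lit 14) (nat_lit 1) (nat_lit 350) (nat_lit 412) (nat_lit 258)) (XT.lf (nat_lit 0) (nat_lit 7644836076) (nat_lit 0) (nat_lit 7646918390) (nat_lit 152) (nat_lit 109321303) (nat_lit 11) (nat_lit 3) (nat_lit 11) (nat_lit 1) (nat_lit 13) (nat_lit 1) (nat_lit 351) (nat_lit 412) (nat_lit 257)))) (XT.nd (nat_lit 156) (nat_lit 228) (nat_lit 0) (XT.nd (nat_lit 78) (nat_lit 76) (nat_lit 0) (XT.lf (nat_lit 0)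 (nat_lit 365339700) (nat_lit 0) (nat_lit 367175955) (nat_lit 152) (nat_lit 14280948383) (nat_lit 8) (nat_lit 3) (nat_lit 8) (nat_lit 1) (nat_lit 10) (nat_lit 1) (nat_lit 352) (nat_lit 412) (nat_lit 256)) (XT.lf (nat_lit 76) (nat_lit 6601694507) (nat_lit 0) (nat_lit 1425292426) (nat_lit 76) (nat_lit 6603394743) (nat_lit 8) (nat_lit 3) (nat_lit 7) (nat_lit 1) (nat_lit 8) (nat_lit 1) (nat_lit 353) (nat_lit 412) (nat_lit 255))) (XT.nd (nat_lit 78) (nat_lit 76) (nat_lit 0) (XT.lf (nat_lit 0) (nat_lit 1086949577) (nat_lit 0) (nat_lit 1088448904) (nat_lit 152) (nat_lit 12086188348) (nat_lit 5) (nat_lit 3) (nat_lit 5) (nat_lit 1) (nat_lit 7) (nat_lit 1) (nat_lit 354) (nat_lit 412) (nat_lit 254)) (XT.lf (nat_lit 76) (nat_lit 5545327826) (nat_lit 0) (nat_lit 2806308570) (nat_lit 76) (nat_lit 5546716092) (nat_lit 5) (nat_lit 3) (nat_lit 4) (nat_lit 1) (nat_lit 5) (nat_lit 1) (nat_lit 355) (nat_lit 412)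 (nat_lit 253)))))) (XT.nd (nat_lit 546) (nat_lit 0) (nat_lit 0) (XT.nd (nat_lit 234) (nat_lit 0) (nat_lit 0) (XT.nd (nat_lit 78) (nat_lit 152) (nat_lit 0) (XT.lf (nat_lit 0) (nat_lit 1733700828) (nat_lit 0) (nat_lit 1734925048) (nat_lit 152) (nat_lit 10078912232) (nat_lit 2) (nat_lit 3) (nat_lit 2) (nat_lit 1) (nat_lit 4) (nat_lit 1) (nat_lit 356) (nat_lit 412) (nat_lit 252)) (XT.nd (nat_lit 78) (nat_lit 76) (nat_lit 0) (XT.lf (nat_lit 76) (nat_lit 4579894366) (nat_lit 0) (nat_lit 4042196345) (nat_lit 76) (nat_lit 4581027903) (nat_lit 2) (nat_lit 3) (nat_lit 1) (nat_lit 1) (nat_lit 2) (nat_lit 1) (nat_lit 357) (nat_lit 412) (nat_lit 251)) (XT.lf (nat_lit 0) (nat_lit 273786441161) (nat_lit 0) (nat_lit 0) (nat_lit 0) (nat_lit 0) (nat_lit 0) (nat_lit 0) (nat_lit 1) (nat_lit 0) (nat_lit 1) (nat_lit 0) (nat_lit 358) (nat_lit 412) (nat_lit 250)))) (XT.nd (nat_lit 156) (nat_lit 0) (nat_lit 0) (XT.nd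 (nat_lit 78) (nat_lit 0) (nat_lit 0) (XT.lf (nat_lit 0) (nat_lit 273786363101) (nat_lit 0) (nat_lit 0) (nat_lit 0) (nat_lit 0) (nat_lit 0) (nat_lit 0) (nat_lit 1) (nat_lit 0) (nat_lit 1) (nat_lit 0) (nat_lit 359) (nat_lit 412) (nat_lit 249)) (XT.lf (nat_lit 0) (nat_lit 273786290823) (nat_lit 0) (nat_lit 0) (nat_lit 0) (nat_lit 0) (nat_lit 0) (nat_lit 0) (nat_lit 1) (nat_lit 0) (nat_lit 1) (nat_lit 0) (nat_lit 360) (nat_lit 412) (nat_lit 248))) (XT.nd (nat_lit 78) (nat_lit 0) (nat_lit 0) (XT.lf (nat_lit 0) (nat_lit 273786223899) (nat_lit 0) (nat_lit 0) (nat_lit 0) (nat_lit 0) (nat_lit 0) (nat_lit 0) (nat_lit 1) (nat_lit 0) (nat_lit 1) (nat_lit 0) (nat_lit 361) (nat_lit 412) (nat_lit 247)) (XT.lf (nat_lit 0) (nat_lit 273786161933) (nat_lit 0) (nat_lit 0) (nat_lit 0) (nat_lit 0) (nat_lit 0) (nat_lit 0) (nat_lit 1) (nat_lit 0) (nat_lit 1) (nat_lit 0) (nat_lit 362) (nat_lit 412) (nat_lit 246)))))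 (XT.nd (nat_lit 234) (nat_lit 0) (nat_lit 0) (XT.nd (nat_lit 78) (nat_lit 0) (nat_lit 0) (XT.lf (nat_lit 0) (nat_lit 273786104556) (nat_lit 0) (nat_lit 0) (nat_lit 0) (nat_lit 0) (nat_lit 0) (nat_lit 0) (nat_lit 1) (nat_lit 0) (nat_lit 1) (nat_lit 0) (nat_lit 363) (nat_lit 412) (nat_lit 245)) (XT.nd (nat_lit 78) (nat_lit 0) (nat_lit 0) (XT.lf (nat_lit 0) (nat_lit 273786051430) (nat_lit 0) (nat_lit 0) (nat_lit 0) (nat_lit 0) (nat_lit 0) (nat_lit 0) (nat_lit 1) (nat_lit 0) (nat_lit 1) (nat_lit 0) (nat_lit 364) (nat_lit 412) (nat_lit 244)) (XT.lf (nat_lit 0) (nat_lit 273786002239) (nat_lit 0) (nat_lit 0) (nat_lit 0) (nat_lit 0) (nat_lit 0) (nat_lit 0) (nat_lit 1) (nat_lit 0) (nat_lit 1) (nat_lit 0) (nat_lit 365) (nat_lit 412) (nat_lit 243)))) (XT.nd (nat_lit 156) (nat_lit 0) (nat_lit 0) (XT.nd (nat_lit 78) (nat_lit 0) (nat_lit 0) (XT.lf (nat_lit 0) (nat_lit 273785956692) (nat_lit 0) (nat_lit 0)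 (nat_lit 0) (nat_lit 0) (nat_lit 0) (nat_lit 0) (nat_lit 1) (nat_lit 0) (nat_lit 1) (nat_lit 0) (nat_lit 366) (nat_lit 412) (nat_lit 242)) (XT.lf (nat_lit 0) (nat_lit 273785914519) (nat_lit 0) (nat_lit 0) (nat_lit 0) (nat_lit 0) (nat_lit 0) (nat_lit 0) (nat_lit 1) (nat_lit 0) (nat_lit 1) (nat_lit 0) (nat_lit 367) (nat_lit 412) (nat_lit 241))) (XT.nd (nat_lit 78) (nat_lit 0) (nat_lit 0) (XT.lf (nat_lit 0) (nat_lit 273785875469) (nat_lit 0) (nat_lit 0) (nat_lit 0) (nat_lit 0) (nat_lit 0) (nat_lit 0) (nat_lit 1) (nat_lit 0) (nat_lit 1) (nat_lit 0) (nat_lit 368) (nat_lit 412) (nat_lit 240)) (XT.lf (nat_lit 0) (nat_lit 273785839312) (nat_lit 0) (nat_lit 0) (nat_lit 0) (nat_lit 0) (nat_lit 0) (nat_lit 0) (nat_lit 1) (nat_lit 0) (nat_lit 1) (nat_lit 0) (nat_lit 369) (nat_lit 412) (nat_lit 239))))))) (XT.nd (nat_lit 1014) (nat_lit 0) (nat_lit 0) (XT.nd (nat_lit 468) (nat_lit 0) (nat_lit 0) (XT.nd (nat_lit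 234) (nat_lit 0) (nat_lit 0) (XT.nd (nat_lit 78) (nat_lit 0) (nat_lit 0) (XT.lf (nat_lit 0) (nat_lit 273785805834) (nat_lit 0) (nat_lit 0) (nat_lit 0) (nat_lit 0) (nat_lit 0) (nat_lit 0) (nat_lit 1) (nat_lit 0) (nat_lit 1) (nat_lit 0) (nat_lit 370) (nat_lit 412) (nat_lit 238)) (XT.nd (nat_lit 78) (nat_lit 0) (nat_lit 0) (XT.lf (nat_lit 0) (nat_lit 273785774835) (nat_lit 0) (nat_lit 0) (nat_lit 0) (nat_lit 0) (nat_lit 0) (nat_lit 0) (nat_lit 1) (nat_lit 0) (nat_lit 1) (nat_lit 0) (nat_lit 371) (nat_lit 412) (nat_lit 237)) (XT.lf (nat_lit 0) (nat_lit 273785746133) (nat_lit 0) (nat_lit 0) (nat_lit 0) (nat_lit 0) (nat_lit 0) (nat_lit 0) (nat_lit 1) (nat_lit 0) (nat_lit 1) (nat_lit 0) (nat_lit 372) (nat_lit 412) (nat_lit 236)))) (XT.nd (nat_lit 78) (nat_lit 0) (nat_lit 0) (XT.lf (nat_lit 0) (nat_lit 273785719556) (nat_lit 0) (nat_lit 0) (nat_lit 0) (nat_lit 0) (nat_lit 0) (nat_lit 0) (nat_lit 1) (nat_lit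 0) (nat_lit 1) (nat_lit 0) (nat_lit 373) (nat_lit 412) (nat_lit 235)) (XT.nd (nat_lit 78) (nat_lit 0) (nat_lit 0) (XT.lf (nat_lit 0) (nat_lit 273785694949) (nat_lit 0) (nat_lit 0) (nat_lit 0) (nat_lit 0) (nat_lit 0) (nat_lit 0) (nat_lit 1) (nat_lit 0) (nat_lit 1) (nat_lit 0) (nat_lit 374) (nat_lit 412) (nat_lit 234)) (XT.lf (nat_lit 0) (nat_lit 273785672164) (nat_lit 0) (nat_lit 0) (nat_lit 0) (nat_lit 0) (nat_lit 0) (nat_lit 0) (nat_lit 1) (nat_lit 0) (nat_lit 1) (nat_lit 0) (nat_lit 375) (nat_lit 412) (nat_lit 233))))) (XT.nd (nat_lit 234) (nat_lit 0) (nat_lit 0) (XT.nd (nat_lit 78) (nat_lit 0) (nat_lit 0) (XT.lf (nat_lit 0) (nat_lit 273785651066) (nat_lit 0) (nat_lit 0) (nat_lit 0) (nat_lit 0) (nat_lit 0) (nat_lit 0) (nat_lit 1) (nat_lit 0) (nat_lit 1) (nat_lit 0) (nat_lit 376) (nat_lit 412) (nat_lit 232)) (XT.nd (nat_lit 78) (nat_lit 0) (nat_lit 0) (XT.lf (nat_lit 0) (nat_lit 273785631532)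 (nat_lit 0) (nat_lit 0) (nat_lit 0) (nat_lit 0) (nat_lit 0) (nat_lit 0) (nat_lit 1) (nat_lit 0) (nat_lit 1) (nat_lit 0) (nat_lit 377) (nat_lit 412) (nat_lit 231)) (XT.lf (nat_lit 0) (nat_lit 273785613445) (nat_lit 0) (nat_lit 0) (nat_lit 0) (nat_lit 0) (nat_lit 0) (nat_lit 0) (nat_lit 1) (nat_lit 0) (nat_lit 1) (nat_lit 0) (nat_lit 378) (nat_lit 412) (nat_lit 230)))) (XT.nd (nat_lit 156) (nat_lit 0) (nat_lit 0) (XT.nd (nat_lit 78) (nat_lit 0) (nat_lit 0) (XT.lf (nat_lit 0) (nat_lit 273785596697) (nat_lit 0) (nat_lit 0) (nat_lit 0) (nat_lit 0) (nat_lit 0) (nat_lit 0) (nat_lit 1) (nat_lit 0) (nat_lit 1) (nat_lit 0) (nat_lit 379) (nat_lit 412) (nat_lit 229)) (XT.lf (nat_lit 0) (nat_lit 273785581190) (nat_lit 0) (nat_lit 0) (nat_lit 0) (nat_lit 0) (nat_lit 0) (nat_lit 0) (nat_lit 1) (nat_lit 0) (nat_lit 1) (nat_lit 0) (nat_lit 380) (nat_lit 412) (nat_lit 228))) (XT.nd (nat_lit 78) (nat_lit 0) (nat_lit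 0) (XT.lf (nat_lit 0) (nat_lit 273785566832) (nat_lit 0) (nat_lit 0) (nat_lit 0) (nat_lit 0) (nat_lit 0) (nat_lit 0) (nat_lit 1) (nat_lit 0) (nat_lit 1) (nat_lit 0) (nat_lit 381) (nat_lit 412) (nat_lit 227)) (XT.lf (nat_lit 0) (nat_lit 273785553537) (nat_lit 0) (nat_lit 0) (nat_lit 0) (nat_lit 0) (nat_lit 0) (nat_lit 0) (nat_lit 1) (nat_lit 0) (nat_lit 1) (nat_lit 0) (nat_lit 382) (nat_lit 412) (nat_lit 226)))))) (XT.nd (nat_lit 546) (nat_lit 0) (nat_lit 0) (XT.nd (nat_lit 234) (nat_lit 0) (nat_lit 0) (XT.nd (nat_lit 78) (nat_lit 0) (nat_lit 0) (XT.lf (nat_lit 0) (nat_lit 273785541227) (nat_lit 0) (nat_lit 0) (nat_lit 0) (nat_lit 0) (nat_lit 0) (nat_lit 0) (nat_lit 1) (nat_lit 0) (nat_lit 1) (nat_lit 0) (nat_lit 383) (nat_lit 412) (nat_lit 225)) (XT.nd (nat_lit 78) (nat_lit 0) (nat_lit 0) (XT.lf (nat_lit 0) (nat_lit 273785529829) (nat_lit 0) (nat_lit 0) (nat_lit 0) (nat_lit 0) (nat_lit 0) (nat_lit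 0) (nat_lit 1) (nat_lit 0) (nat_lit 1) (nat_lit 0) (nat_lit 384) (nat_lit 412) (nat_lit 224)) (XT.lf (nat_lit 0) (nat_lit 273785519275) (nat_lit 0) (nat_lit 0) (nat_lit 0) (nat_lit 0) (nat_lit 0) (nat_lit 0) (nat_lit 1) (nat_lit 0) (nat_lit 1) (nat_lit 0) (nat_lit 385) (nat_lit 412) (nat_lit 223)))) (XT.nd (nat_lit 156) (nat_lit 0) (nat_lit 0) (XT.nd (nat_lit 78) (nat_lit 0) (nat_lit 0) (XT.lf (nat_lit 0) (nat_lit 273785509503) (nat_lit 0) (nat_lit 0) (nat_lit 0) (nat_lit 0) (nat_lit 0) (nat_lit 0) (nat_lit 1) (nat_lit 0) (nat_lit 1) (nat_lit 0) (nat_lit 386) (nat_lit 412) (nat_lit 222)) (XT.lf (nat_lit 0) (nat_lit 273785500455) (nat_lit 0) (nat_lit 0) (nat_lit 0) (nat_lit 0) (nat_lit 0) (nat_lit 0) (nat_lit 1) (nat_lit 0) (nat_lit 1) (nat_lit 0) (nat_lit 387) (nat_lit 412) (nat_lit 221))) (XT.nd (nat_lit 78) (nat_lit 0) (nat_lit 0) (XT.lf (nat_lit 0) (nat_lit 273785492077) (nat_lit 0) (nat_lit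 0) (nat_lit 0) (nat_lit 0) (nat_lit 0) (nat_lit 0) (nat_lit 1) (nat_lit 0) (nat_lit 1) (nat_lit 0) (nat_lit 388) (nat_lit 412) (nat_lit 220)) (XT.lf (nat_lit 0) (nat_lit 273785484319) (nat_lit 0) (nat_lit 0) (nat_lit 0) (nat_lit 0) (nat_lit 0) (nat_lit 0) (nat_lit 1) (nat_lit 0) (nat_lit 1) (nat_lit 0) (nat_lit 389) (nat_lit 412) (nat_lit 219))))) (XT.nd (nat_lit 234) (nat_lit 0) (nat_lit 0) (XT.nd (nat_lit 78) (nat_lit 0) (nat_lit 0) (XT.lf (nat_lit 0) (nat_lit 273785477136) (nat_lit 0) (nat_lit 0) (nat_lit 0) (nat_lit 0) (nat_lit 0) (nat_lit 0) (nat_lit 1) (nat_lit 0) (nat_lit 1) (nat_lit 0) (nat_lit 390) (nat_lit 412) (nat_lit 218)) (XT.nd (nat_lit 78) (nat_lit 0) (nat_lit 0) (XT.lf (nat_lit 0) (nat_lit 273785470486) (nat_lit 0) (nat_lit 0) (nat_lit 0) (nat_lit 0) (nat_lit 0) (nat_lit 0) (nat_lit 1) (nat_lit 0) (nat_lit 1) (nat_lit 0) (nat_lit 391) (nat_lit 412) (nat_lit 217)) (XT.lf (nat_lit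 0) (nat_lit 273785464328) (nat_lit 0) (nat_lit 0) (nat_lit 0) (nat_lit 0) (nat_lit 0) (nat_lit 0) (nat_lit 1) (nat_lit 0) (nat_lit 1) (nat_lit 0) (nat_lit 392) (nat_lit 412) (nat_lit 216)))) (XT.nd (nat_lit 156) (nat_lit 0) (nat_lit 0) (XT.nd (nat_lit 78) (nat_lit 0) (nat_lit 0) (XT.lf (nat_lit 0) (nat_lit 273785458626) (nat_lit 0) (nat_lit 0) (nat_lit 0) (nat_lit 0) (nat_lit 0) (nat_lit 0) (nat_lit 1) (nat_lit 0) (nat_lit 1) (nat_lit 0) (nat_lit 393) (nat_lit 412) (nat_lit 215)) (XT.lf (nat_lit 0) (nat_lit 273785453346) (nat_lit 0) (nat_lit 0) (nat_lit 0) (nat_lit 0) (nat_lit 0) (nat_lit 0) (nat_lit 1) (nat_lit 0) (nat_lit 1) (nat_lit 0) (nat_lit 394) (nat_lit 412) (nat_lit 214))) (XT.nd (nat_lit 78) (nat_lit 0) (nat_lit 0) (XT.lf (nat_lit 0) (nat_lit 273785448458) (nat_lit 0) (nat_lit 0) (nat_lit 0) (nat_lit 0) (nat_lit 0) (nat_lit 0) (nat_lit 1) (nat_lit 0) (nat_lit 1) (nat_lit 0) (nat_lit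 395) (nat_lit 412) (nat_lit 213)) (XT.lf (nat_lit 0) (nat_lit 273785443931) (nat_lit 0) (nat_lit 0) (nat_lit 0) (nat_lit 0) (nat_lit 0) (nat_lit 0) (nat_lit 1) (nat_lit 0) (nat_lit 1) (nat_lit 0) (nat_lit 396) (nat_lit 412) (nat_lit 212))))))))
noncomputable def ec230 : XT := (XT.nd (nat_lit 37986) (nat_lit 0) (nat_lit 15200) (XT.nd (nat_lit 1014) (nat_lit 0) (nat_lit 0) (XT.nd (nat_lit 468) (nat_lit 0) (nat_lit 0) (XT.nd (nat_lit 234) (nat_lit 0) (nat_lit 0) (XT.nd (nat_lit 78) (nat_lit 0) (nat_lit 0) (XT.lf (nat_lit 0) (nat_lit 273785439740) (nat_lit 0) (nat_lit 0) (nat_lit 0) (nat_lit 0) (nat_lit 0) (nat_lit 0) (nat_lit 1) (nat_lit 0) (nat_lit 1) (nat_lit 0) (nat_lit 397) (nat_lit 412) (nat_lit 211)) (XT.nd (nat_lit 78) (nat_lit 0) (nat_lit 0) (XT.lf (nat_lit 0) (nat_lit 273785435860) (nat_lit 0) (nat_lit 0) (nat_lit 0) (nat_lit 0) (nat_lit 0) (nat_lit 0) (nat_lit 1) (nat_lit 0) (nat_lit 1)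 (nat_lit 0) (nat_lit 398) (nat_lit 412) (nat_lit 210)) (XT.lf (nat_lit 0) (nat_lit 273785432266) (nat_lit 0) (nat_lit 0) (nat_lit 0) (nat_lit 0) (nat_lit 0) (nat_lit 0) (nat_lit 1) (nat_lit 0) (nat_lit 1) (nat_lit 0) (nat_lit 399) (nat_lit 412) (nat_lit 209)))) (XT.nd (nat_lit 78) (nat_lit 0) (nat_lit 0) (XT.lf (nat_lit 0) (nat_lit 273785428939) (nat_lit 0) (nat_lit 0) (nat_lit 0) (nat_lit 0) (nat_lit 0) (nat_lit 0) (nat_lit 1) (nat_lit 0) (nat_lit 1) (nat_lit 0) (nat_lit 400) (nat_lit 412) (nat_lit 208)) (XT.nd (nat_lit 78) (nat_lit 0) (nat_lit 0) (XT.lf (nat_lit 0) (nat_lit 273785425859) (nat_lit 0) (nat_lit 0) (nat_lit 0) (nat_lit 0) (nat_lit 0) (nat_lit 0) (nat_lit 1) (nat_lit 0) (nat_lit 1) (nat_lit 0) (nat_lit 401) (nat_lit 412) (nat_lit 207)) (XT.lf (nat_lit 0) (nat_lit 273785423007) (nat_lit 0) (nat_lit 0) (nat_lit 0) (nat_lit 0) (nat_lit 0) (nat_lit 0) (nat_lit 1) (nat_lit 0) (nat_lit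 1) (nat_lit 0) (nat_lit 402) (nat_lit 412) (nat_lit 206))))) (XT.nd (nat_lit 234) (nat_lit 0) (nat_lit 0) (XT.nd (nat_lit 78) (nat_lit 0) (nat_lit 0) (XT.lf (nat_lit 0) (nat_lit 273785420365) (nat_lit 0) (nat_lit 0) (nat_lit 0) (nat_lit 0) (nat_lit 0) (nat_lit 0) (nat_lit 1) (nat_lit 0) (nat_lit 1) (nat_lit 0) (nat_lit 403) (nat_lit 412) (nat_lit 205)) (XT.nd (nat_lit 78) (nat_lit 0) (nat_lit 0) (XT.lf (nat_lit 0) (nat_lit 273785417920) (nat_lit 0) (nat_lit 0) (nat_lit 0) (nat_lit 0) (nat_lit 0) (nat_lit 0) (nat_lit 1) (nat_lit 0) (nat_lit 1) (nat_lit 0) (nat_lit 404) (nat_lit 412) (nat_lit 204)) (XT.lf (nat_lit 0) (nat_lit 273785415656) (nat_lit 0) (nat_lit 0) (nat_lit 0) (nat_lit 0) (nat_lit 0) (nat_lit 0) (nat_lit 1) (nat_lit 0) (nat_lit 1) (nat_lit 0) (nat_lit 405) (nat_lit 412) (nat_lit 203)))) (XT.nd (nat_lit 156) (nat_lit 0) (nat_lit 0) (XT.nd (nat_lit 78) (nat_lit 0) (nat_lit 0) (XT.lf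 (nat_lit 0) (nat_lit 273785413559) (nat_lit 0) (nat_lit 0) (nat_lit 0) (nat_lit 0) (nat_lit 0) (nat_lit 0) (nat_lit 1) (nat_lit 0) (nat_lit 1) (nat_lit 0) (nat_lit 406) (nat_lit 412) (nat_lit 202)) (XT.lf (nat_lit 0) (nat_lit 273785411618) (nat_lit 0) (nat_lit 0) (nat_lit 0) (nat_lit 0) (nat_lit 0) (nat_lit 0) (nat_lit 1) (nat_lit 0) (nat_lit 1) (nat_lit 0) (nat_lit 407) (nat_lit 412) (nat_lit 201))) (XT.nd (nat_lit 78) (nat_lit 0) (nat_lit 0) (XT.lf (nat_lit 0) (nat_lit 273785409820) (nat_lit 0) (nat_lit 0) (nat_lit 0) (nat_lit 0) (nat_lit 0) (nat_lit 0) (nat_lit 1) (nat_lit 0) (nat_lit 1) (nat_lit 0) (nat_lit 408) (nat_lit 412) (nat_lit 200)) (XT.lf (nat_lit 0) (nat_lit 273785408156) (nat_lit 0) (nat_lit 0) (nat_lit 0) (nat_lit 0) (nat_lit 0) (nat_lit 0) (nat_lit 1) (nat_lit 0) (nat_lit 1) (nat_lit 0) (nat_lit 409) (nat_lit 412) (nat_lit 199)))))) (XT.nd (nat_lit 36426) (nat_lit 0) (nat_lit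 21280) (XT.nd (nat_lit 234) (nat_lit 0) (nat_lit 0) (XT.nd (nat_lit 78) (nat_lit 0) (nat_lit 0) (XT.lf (nat_lit 0) (nat_lit 273785406615) (nat_lit 0) (nat_lit 0) (nat_lit 0) (nat_lit 0) (nat_lit 0) (nat_lit 0) (nat_lit 1) (nat_lit 0) (nat_lit 1) (nat_lit 0) (nat_lit 410) (nat_lit 412) (nat_lit 198)) (XT.nd (nat_lit 78) (nat_lit 0) (nat_lit 0) (XT.lf (nat_lit 0) (nat_lit 273785405188) (nat_lit 0) (nat_lit 0) (nat_lit 0) (nat_lit 0) (nat_lit 0) (nat_lit 0) (nat_lit 1) (nat_lit 0) (nat_lit 1) (nat_lit 0) (nat_lit 411) (nat_lit 412) (nat_lit 197)) (XT.lf (nat_lit 0) (nat_lit 273785403867) (nat_lit 0) (nat_lit 0) (nat_lit 0) (nat_lit 0) (nat_lit 0) (nat_lit 0) (nat_lit 1) (nat_lit 0) (nat_lit 1) (nat_lit 0) (nat_lit 412) (nat_lit 412) (nat_lit 196)))) (XT.nd (nat_lit 36036) (nat_lit 0) (nat_lit 22192) (XT.lf (nat_lit 0) (nat_lit 273785402644) (nat_lit 0) (nat_lit 0) (nat_lit 0) (nat_lit 0) (nat_lit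 0) (nat_lit 0) (nat_lit 1) (nat_lit 0) (nat_lit 1) (nat_lit 0) (nat_lit 413) (nat_lit 412) (nat_lit 195)) (XT.nd (nat_lit 78) (nat_lit 0) (nat_lit 76) (XT.lf (nat_lit 836) (nat_lit 147973460228) (nat_lit 0) (nat_lit 262726538505) (nat_lit 836) (nat_lit 147973460228) (nat_lit 303) (nat_lit 1) (nat_lit 292) (nat_lit 0) (nat_lit 303) (nat_lit 0) (nat_lit 194) (nat_lit 413) (nat_lit 413)) (XT.lf (nat_lit 836) (nat_lit 55198641103) (nat_lit 0) (nat_lit 515811821265) (nat_lit 760) (nat_lit 504462237908) (nat_lit 304) (nat_lit 1) (nat_lit 293) (nat_lit 1) (nat_lit 303) (nat_lit 1) (nat_lit 195) (nat_lit 413) (nat_lit 412))))) (XT.nd (nat_lit 234) (nat_lit 988) (nat_lit 0) (XT.nd (nat_lit 78) (nat_lit 0) (nat_lit 76) (XT.lf (nat_lit 836) (nat_lit 506967657416) (nat_lit 76) (nat_lit 345439350570) (nat_lit 0) (nat_lit 183205273946) (nat_lit 304) (nat_lit 1) (nat_lit 294) (nat_lit 1) (nat_lit 293) (nat_lit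 1) (nat_lit 196) (nat_lit 413) (nat_lit 411)) (XT.nd (nat_lit 78) (nat_lit 0) (nat_lit 76) (XT.lf (nat_lit 836) (nat_lit 438061587396) (nat_lit 76) (nat_lit 144771237464) (nat_lit 0) (nat_lit 414913755164) (nat_lit 305) (nat_lit 1) (nat_lit 295) (nat_lit 1) (nat_lit 294) (nat_lit 1) (nat_lit 197) (nat_lit 413) (nat_lit 410)) (XT.lf (nat_lit 836) (nat_lit 324202817376) (nat_lit 0) (nat_lit 606568146907) (nat_lit 760) (nat_lit 31007677008) (nat_lit 306) (nat_lit 1) (nat_lit 295) (nat_lit 1) (nat_lit 305) (nat_lit 1) (nat_lit 198) (nat_lit 413) (nat_lit 409)))) (XT.nd (nat_lit 156) (nat_lit 1216) (nat_lit 0) (XT.nd (nat_lit 78) (nat_lit 0) (nat_lit 0) (XT.lf (nat_lit 836) (nat_lit 77789287308) (nat_lit 0) (nat_lit 668909893131) (nat_lit 760) (nat_lit 180829242967) (nat_lit 307) (nat_lit 1) (nat_lit 296) (nat_lit 1) (nat_lit 306) (nat_lit 1) (nat_lit 199) (nat_lit 413) (nat_lit 408)) (XT.lf (nat_lit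 836) (nat_lit 149479370625) (nat_lit 76) (nat_lit 581337168801) (nat_lit 0) (nat_lit 164060521374) (nat_lit 307) (nat_lit 1) (nat_lit 297) (nat_lit 1) (nat_lit 296) (nat_lit 1) (nat_lit 200) (nat_lit 413) (nat_lit 407))) (XT.nd (nat_lit 78) (nat_lit 532) (nat_lit 0) (XT.lf (nat_lit 836) (nat_lit 30699654139) (nat_lit 0) (nat_lit 434587987654) (nat_lit 760) (nat_lit 398512631137) (nat_lit 298) (nat_lit 1) (nat_lit 287) (nat_lit 1) (nat_lit 297) (nat_lit 1) (nat_lit 201) (nat_lit 413) (nat_lit 406)) (XT.lf (nat_lit 76) (nat_lit 212570800254) (nat_lit 0) (nat_lit 92116819993) (nat_lit 532) (nat_lit 529507320712) (nat_lit 281) (nat_lit 1) (nat_lit 280) (nat_lit 1) (nat_lit 287) (nat_lit 1) (nat_lit 202) (nat_lit 413) (nat_lit 405))))))) (XT.nd (nat_lit 1014) (nat_lit 2432) (nat_lit 0) (XT.nd (nat_lit 468) (nat_lit 1900) (nat_lit 0) (XT.nd (nat_lit 234) (nat_lit 684) (nat_lit 0) (XT.nd (nat_lit 78)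 (nat_lit 684) (nat_lit 0) (XT.lf (nat_lit 456) (nat_lit 585818369892) (nat_lit 0) (nat_lit 190696508624) (nat_lit 380) (nat_lit 29482858529) (nat_lit 281) (nat_lit 1) (nat_lit 275) (nat_lit 1) (nat_lit 280) (nat_lit 1) (nat_lit 203) (nat_lit 413) (nat_lit 404)) (XT.nd (nat_lit 78) (nat_lit 304) (nat_lit 0) (XT.lf (nat_lit 456) (nat_lit 422732114300) (nat_lit 0) (nat_lit 88884464122) (nat_lit 380) (nat_lit 267396384058) (nat_lit 276) (nat_lit 1) (nat_lit 270) (nat_lit 1) (nat_lit 275) (nat_lit 1) (nat_lit 204) (nat_lit 413) (nat_lit 403)) (XT.lf (nat_lit 380) (nat_lit 257227100052) (nat_lit 0) (nat_lit 1636507429) (nat_lit 304) (nat_lit 494473013479) (nat_lit 271) (nat_lit 1) (nat_lit 266) (nat_lit 1) (nat_lit 270) (nat_lit 1) (nat_lit 205) (nat_lit 413) (nat_lit 402)))) (XT.nd (nat_lit 78) (nat_lit 684) (nat_lit 0) (XT.lf (nat_lit 76) (nat_lit 18976999789) (nat_lit 0) (nat_lit 639996387548) (nat_lit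 380) (nat_lit 69868049658) (nat_lit 267) (nat_lit 1) (nat_lit 266) (nat_lit 1) (nat_lit 271) (nat_lit 1) (nat_lit 206) (nat_lit 413) (nat_lit 401)) (XT.nd (nat_lit 78) (nat_lit 304) (nat_lit 0) (XT.lf (nat_lit 76) (nat_lit 489991056635) (nat_lit 0) (nat_lit 81270259615) (nat_lit 380) (nat_lit 134029417903) (nat_lit 262) (nat_lit 1) (nat_lit 261) (nat_lit 1) (nat_lit 266) (nat_lit 1) (nat_lit 207) (nat_lit 413) (nat_lit 400)) (XT.lf (nat_lit 76) (nat_lit 245154942325) (nat_lit 0) (nat_lit 248945231991) (nat_lit 380) (nat_lit 188680447125) (nat_lit 258) (nat_lit 1) (nat_lit 257) (nat_lit 1) (nat_lit 262) (nat_lit 1) (nat_lit 208) (nat_lit 413) (nat_lit 399))))) (XT.nd (nat_lit 234) (nat_lit 988) (nat_lit 0) (XT.nd (nat_lit 78) (nat_lit 608) (nat_lit 0) (XT.lf (nat_lit 76) (nat_lit 12100304331) (nat_lit 0) (nat_lit 416232562319) (nat_lit 380) (nat_lit 233003421521) (nat_lit 254) (nat_lit 1) (nat_lit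 253) (nat_lit 1) (nat_lit 258) (nat_lit 1) (nat_lit 209) (nat_lit 413) (nat_lit 398)) (XT.nd (nat_lit 78) (nat_lit 380) (nat_lit 0) (XT.lf (nat_lit 304) (nat_lit 54644292391) (nat_lit 0) (nat_lit 369533192896) (nat_lit 228) (nat_lit 216554943836) (nat_lit 254) (nat_lit 1) (nat_lit 250) (nat_lit 1) (nat_lit 253) (nat_lit 1) (nat_lit 210) (nat_lit 413) (nat_lit 397)) (XT.lf (nat_lit 76) (nat_lit 188810721862) (nat_lit 0) (nat_lit 129412041983) (nat_lit 380) (nat_lit 302756989002) (nat_lit 246) (nat_lit 1) (nat_lit 245) (nat_lit 1) (nat_lit 250) (nat_lit 1) (nat_lit 211) (nat_lit 413) (nat_lit 396)))) (XT.nd (nat_lit 156) (nat_lit 532) (nat_lit 0) (XT.nd (nat_lit 78) (nat_lit 228) (nat_lit 0) (XT.lf (nat_lit 304) (nat_lit 292324412311) (nat_lit 0) (nat_lit 274601003326) (nat_lit 228) (nat_lit 35148602522) (nat_lit 246) (nat_lit 1) (nat_lit 242) (nat_lit 1) (nat_lit 245) (nat_lit 1) (nat_lit 212)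 (nat_lit 413) (nat_lit 395)) (XT.lf (nat_lit 304) (nat_lit 93688561908) (nat_lit 0) (nat_lit 236420219062) (nat_lit 228) (nat_lit 253786055162) (nat_lit 243) (nat_lit 1) (nat_lit 239) (nat_lit 1) (nat_lit 242) (nat_lit 1) (nat_lit 213) (nat_lit 413) (nat_lit 394))) (XT.nd (nat_lit 78) (nat_lit 228) (nat_lit 0) (XT.lf (nat_lit 76) (nat_lit 106782322401) (nat_lit 0) (nat_lit 97768495748) (nat_lit 304) (nat_lit 361919851618) (nat_lit 236) (nat_lit 1) (nat_lit 235) (nat_lit 1) (nat_lit 239) (nat_lit 1) (nat_lit 214) (nat_lit 413) (nat_lit 393)) (XT.lf (nat_lit 304) (nat_lit 265713794149) (nat_lit 0) (nat_lit 176796112036) (nat_lit 228) (nat_lit 107174384392) (nat_lit 236) (nat_lit 1) (nat_lit 232) (nat_lit 1) (nat_lit 235) (nat_lit 1) (nat_lit 215) (nat_lit 413) (nat_lit 392)))))) (XT.nd (nat_lit 546) (nat_lit 1064) (nat_lit 0) (XT.nd (nat_lit 234) (nat_lit 760) (nat_lit 0) (XT.nd (nat_lit 78) (nat_lit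 456) (nat_lit 0) (XT.lf (nat_lit 228) (nat_lit 65870841914) (nat_lit 0) (nat_lit 154241712207) (nat_lit 152) (nat_lit 313462566637) (nat_lit 233) (nat_lit 1) (nat_lit 230) (nat_lit 1) (nat_lit 232) (nat_lit 1) (nat_lit 216) (nat_lit 413) (nat_lit 391)) (XT.nd (nat_lit 78) (nat_lit 152) (nat_lit 0) (XT.lf (nat_lit 76) (nat_lit 11158941454) (nat_lit 0) (nat_lit 124870977359) (nat_lit 304) (nat_lit 382060465985) (nat_lit 227) (nat_lit 1) (nat_lit 226) (nat_lit 1) (nat_lit 230) (nat_lit 1) (nat_lit 217) (nat_lit 413) (nat_lit 390)) (XT.lf (nat_lit 228) (nat_lit 191408580154) (nat_lit 0) (nat_lit 119613941685) (nat_lit 152) (nat_lit 192074683939) (nat_lit 227) (nat_lit 1) (nat_lit 224) (nat_lit 1) (nat_lit 226) (nat_lit 1) (nat_lit 218) (nat_lit 413) (nat_lit 389)))) (XT.nd (nat_lit 156) (nat_lit 380) (nat_lit 0) (XT.nd (nat_lit 78) (nat_lit 152) (nat_lit 0) (XT.lf (nat_lit 76) (nat_lit 103850296578)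 (nat_lit 0) (nat_lit 4796910307) (nat_lit 228) (nat_lit 380111070544) (nat_lit 222) (nat_lit 1) (nat_lit 221) (nat_lit 1) (nat_lit 224) (nat_lit 1) (nat_lit 219) (nat_lit 413) (nat_lit 388)) (XT.lf (nat_lit 228) (nat_lit 283906656874) (nat_lit 0) (nat_lit 98380022328) (nat_lit 152) (nat_lit 92549779095) (nat_lit 222) (nat_lit 1) (nat_lit 219) (nat_lit 1) (nat_lit 221) (nat_lit 1) (nat_lit 220) (nat_lit 413) (nat_lit 387))) (XT.nd (nat_lit 78) (nat_lit 228) (nat_lit 0) (XT.lf (nat_lit 228) (nat_lit 88192784559) (nat_lit 0) (nat_lit 91455109782) (nat_lit 152) (nat_lit 281799036901) (nat_lit 220) (nat_lit 1) (nat_lit 217) (nat_lit 1) (nat_lit 219) (nat_lit 1) (nat_lit 221) (nat_lit 413) (nat_lit 386)) (XT.lf (nat_lit 228) (nat_lit 350092942940) (nat_lit 0) (nat_lit 87377934437) (nat_lit 152) (nat_lit 11084904713) (nat_lit 217) (nat_lit 1) (nat_lit 214) (nat_lit 1) (nat_lit 216) (nat_lit 1) (nat_lit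 222) (nat_lit 413) (nat_lit 385))))) (XT.nd (nat_lit 234) (nat_lit 608) (nat_lit 0) (XT.nd (nat_lit 78) (nat_lit 304) (nat_lit 0) (XT.lf (nat_lit 228) (nat_lit 156685375824) (nat_lit 0) (nat_lit 83416468203) (nat_lit 152) (nat_lit 195920993257) (nat_lit 215) (nat_lit 1) (nat_lit 212) (nat_lit 1) (nat_lit 214) (nat_lit 1) (nat_lit 223) (nat_lit 413) (nat_lit 384)) (XT.nd (nat_lit 78) (nat_lit 152) (nat_lit 0) (XT.lf (nat_lit 76) (nat_lit 53670790673) (nat_lit 0) (nat_lit 29499885031) (nat_lit 152) (nat_lit 340839050939) (nat_lit 211) (nat_lit 1) (nat_lit 210) (nat_lit 1) (nat_lit 212) (nat_lit 1) (nat_lit 224) (nat_lit 413) (nat_lit 383)) (XT.lf (nat_lit 228) (nat_lit 205580224167) (nat_lit 0) (nat_lit 82289990828) (nat_lit 152) (nat_lit 124429540432) (nat_lit 211) (nat_lit 1) (nat_lit 208) (nat_lit 1) (nat_lit 210) (nat_lit 1) (nat_lit 225) (nat_lit 413) (nat_lit 382)))) (XT.nd (nat_lit 156)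 (nat_lit 304) (nat_lit 0) (XT.nd (nat_lit 78) (nat_lit 228) (nat_lit 0) (XT.lf (nat_lit 152) (nat_lit 22138068885) (nat_lit 0) (nat_lit 84311139343) (nat_lit 76) (nat_lit 294602870576) (nat_lit 209) (nat_lit 1) (nat_lit 207) (nat_lit 1) (nat_lit 208) (nat_lit 1) (nat_lit 226) (nat_lit 413) (nat_lit 381)) (XT.lf (nat_lit 228) (nat_lit 238972280337) (nat_lit 0) (nat_lit 86227796832) (nat_lit 152) (nat_lit 64914458188) (nat_lit 207) (nat_lit 1) (nat_lit 204) (nat_lit 1) (nat_lit 206) (nat_lit 1) (nat_lit 227) (nat_lit 413) (nat_lit 380))) (XT.nd (nat_lit 78) (nat_lit 228) (nat_lit 0) (XT.lf (nat_lit 152) (nat_lit 60103290681) (nat_lit 0) (nat_lit 89451941044) (nat_lit 76) (nat_lit 229990377370) (nat_lit 205) (nat_lit 1) (nat_lit 203) (nat_lit 1) (nat_lit 204) (nat_lit 1) (nat_lit 228) (nat_lit 413) (nat_lit 379)) (XT.lf (nat_lit 228) (nat_lit 260172364322) (nat_lit 0) (nat_lit 93766234626) (nat_lit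 152) (nat_lit 15387841785) (nat_lit 203) (nat_lit 1) (nat_lit 200) (nat_lit 1) (nat_lit 202) (nat_lit 1) (nat_lit 229) (nat_lit 413) (nat_lit 378))))))))
noncomputable def ec231 : XT := (XT.nd (nat_lit 2106) (nat_lit 3192) (nat_lit 0) (XT.nd (nat_lit 1014) (nat_lit 1672) (nat_lit 0) (XT.nd (nat_lit 468) (nat_lit 760) (nat_lit 0) (XT.nd (nat_lit 234) (nat_lit 456) (nat_lit 0) (XT.nd (nat_lit 78) (nat_lit 304) (nat_lit 0) (XT.lf (nat_lit 152) (nat_lit 86496880980) (nat_lit 0) (nat_lit 97752426314) (nat_lit 76) (nat_lit 175131913704) (nat_lit 201) (nat_lit 1) (nat_lit 199) (nat_lit 1) (nat_lit 200) (nat_lit 1) (nat_lit 230) (nat_lit 413) (nat_lit 377)) (XT.nd (nat_lit 78) (nat_lit 76) (nat_lit 0) (XT.lf (nat_lit 76) (nat_lit 24966442109) (nat_lit 0) (nat_lit 78363006694) (nat_lit 228) (nat_lit 246463835152) (nat_lit 197) (nat_lit 1) (nat_lit 196) (nat_lit 1) (nat_lit 199) (nat_lit 1) (nat_lit 231)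 (nat_lit 413) (nat_lit 376)) (XT.lf (nat_lit 152) (nat_lit 103804061162) (nat_lit 0) (nat_lit 108158911530) (nat_lit 76) (nat_lit 128480484733) (nat_lit 197) (nat_lit 1) (nat_lit 195) (nat_lit 1) (nat_lit 196) (nat_lit 1) (nat_lit 232) (nat_lit 413) (nat_lit 375)))) (XT.nd (nat_lit 78) (nat_lit 228) (nat_lit 0) (XT.lf (nat_lit 76) (nat_lit 58062648081) (nat_lit 0) (nat_lit 56237600852) (nat_lit 228) (nat_lit 217121957767) (nat_lit 193) (nat_lit 1) (nat_lit 192) (nat_lit 1) (nat_lit 195) (nat_lit 1) (nat_lit 233) (nat_lit 413) (nat_lit 374)) (XT.nd (nat_lit 78) (nat_lit 152) (nat_lit 0) (XT.lf (nat_lit 152) (nat_lit 114028994104) (nat_lit 0) (nat_lit 119848877693) (nat_lit 76) (nat_lit 88753573717) (nat_lit 193) (nat_lit 1) (nat_lit 191) (nat_lit 1) (nat_lit 192) (nat_lit 1) (nat_lit 234) (nat_lit 413) (nat_lit 373)) (XT.lf (nat_lit 76) (nat_lit 85481644388) (nat_lit 0) (nat_lit 40730474039) (nat_lit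 152) (nat_lit 187918884216) (nat_lit 190) (nat_lit 1) (nat_lit 189) (nat_lit 1) (nat_lit 191) (nat_lit 1) (nat_lit 235) (nat_lit 413) (nat_lit 372))))) (XT.nd (nat_lit 234) (nat_lit 456) (nat_lit 0) (XT.nd (nat_lit 78) (nat_lit 228) (nat_lit 0) (XT.lf (nat_lit 152) (nat_lit 118784673279) (nat_lit 0) (nat_lit 132185917457) (nat_lit 76) (nat_lit 54885964588) (nat_lit 190) (nat_lit 1) (nat_lit 188) (nat_lit 1) (nat_lit 189) (nat_lit 1) (nat_lit 236) (nat_lit 413) (nat_lit 371)) (XT.nd (nat_lit 78) (nat_lit 76) (nat_lit 0) (XT.lf (nat_lit 76) (nat_lit 108126332214) (nat_lit 0) (nat_lit 30385464729) (nat_lit 152) (nat_lit 159324824410) (nat_lit 187) (nat_lit 1) (nat_lit 186) (nat_lit 1) (nat_lit 188) (nat_lit 1) (nat_lit 237) (nat_lit 413) (nat_lit 370)) (XT.lf (nat_lit 152) (nat_lit 119366217729) (nat_lit 0) (nat_lit 144683120176) (nat_lit 76) (nat_lit 25991133164) (nat_lit 187) (nat_lit 1) (nat_lit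 185) (nat_lit 1) (nat_lit 186) (nat_lit 1) (nat_lit 238) (nat_lit 413) (nat_lit 369)))) (XT.nd (nat_lit 156) (nat_lit 228) (nat_lit 0) (XT.nd (nat_lit 78) (nat_lit 76) (nat_lit 0) (XT.lf (nat_lit 76) (nat_lit 126747123198) (nat_lit 0) (nat_lit 24031683684) (nat_lit 152) (nat_lit 131686635018) (nat_lit 184) (nat_lit 1) (nat_lit 183) (nat_lit 1) (nat_lit 185) (nat_lit 1) (nat_lit 239) (nat_lit 413) (nat_lit 368)) (XT.lf (nat_lit 152) (nat_lit 116810623795) (nat_lit 0) (nat_lit 156973336020) (nat_lit 76) (nat_lit 1329640254) (nat_lit 184) (nat_lit 1) (nat_lit 182) (nat_lit 1) (nat_lit 183) (nat_lit 1) (nat_lit 240) (nat_lit 413) (nat_lit 367))) (XT.nd (nat_lit 78) (nat_lit 76) (nat_lit 0) (XT.lf (nat_lit 76) (nat_lit 141968931566) (nat_lit 0) (nat_lit 20729948982) (nat_lit 152) (nat_lit 105252956740) (nat_lit 181) (nat_lit 1) (nat_lit 180) (nat_lit 1) (nat_lit 182) (nat_lit 1) (nat_lit 241) (nat_lit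 413) (nat_lit 366)) (XT.lf (nat_lit 0) (nat_lit 19085693737) (nat_lit 0) (nat_lit 149376127736) (nat_lit 152) (nat_lit 92536545143) (nat_lit 179) (nat_lit 3) (nat_lit 179) (nat_lit 1) (nat_lit 181) (nat_lit 1) (nat_lit 242) (nat_lit 413) (nat_lit 365)))))) (XT.nd (nat_lit 546) (nat_lit 836) (nat_lit 0) (XT.nd (nat_lit 234) (nat_lit 456) (nat_lit 0) (XT.nd (nat_lit 78) (nat_lit 228) (nat_lit 0) (XT.lf (nat_lit 76) (nat_lit 154313280316) (nat_lit 0) (nat_lit 19729127399) (nat_lit 152) (nat_lit 80194579570) (nat_lit 178) (nat_lit 1) (nat_lit 177) (nat_lit 1) (nat_lit 179) (nat_lit 1) (nat_lit 243) (nat_lit 413) (nat_lit 364)) (XT.nd (nat_lit 78) (nat_lit 152) (nat_lit 0) (XT.lf (nat_lit 0) (nat_lit 36460735870) (nat_lit 0) (nat_lit 142844590137) (nat_lit 152) (nat_lit 68350352725) (nat_lit 176) (nat_lit 3) (nat_lit 176) (nat_lit 1) (nat_lit 178) (nat_lit 1) (nat_lit 244) (nat_lit 413) (nat_lit 363))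 (XT.lf (nat_lit 76) (nat_lit 164216413712) (nat_lit 0) (nat_lit 20430559655) (nat_lit 152) (nat_lit 56620921473) (nat_lit 175) (nat_lit 1) (nat_lit 174) (nat_lit 1) (nat_lit 176) (nat_lit 1) (nat_lit 245) (nat_lit 413) (nat_lit 362)))) (XT.nd (nat_lit 156) (nat_lit 228) (nat_lit 0) (XT.nd (nat_lit 78) (nat_lit 152) (nat_lit 0) (XT.lf (nat_lit 0) (nat_lit 51259736955) (nat_lit 0) (nat_lit 138123554210) (nat_lit 152) (nat_lit 45652498678) (nat_lit 173) (nat_lit 3) (nat_lit 173) (nat_lit 1) (nat_lit 175) (nat_lit 1) (nat_lit 246) (nat_lit 413) (nat_lit 361)) (XT.lf (nat_lit 76) (nat_lit 172044144868) (nat_lit 0) (nat_lit 22359081753) (nat_lit 152) (nat_lit 34593342826) (nat_lit 172) (nat_lit 1) (nat_lit 171) (nat_lit 1) (nat_lit 173) (nat_lit 1) (nat_lit 247) (nat_lit 413) (nat_lit 360))) (XT.nd (nat_lit 78) (nat_lit 152) (nat_lit 0) (XT.lf (nat_lit 0) (nat_lit 63838227700) (nat_lit 0) (nat_lit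 134763677806) (nat_lit 152) (nat_lit 24490732338) (nat_lit 170) (nat_lit 3) (nat_lit 170) (nat_lit 1) (nat_lit 172) (nat_lit 1) (nat_lit 248) (nat_lit 413) (nat_lit 359)) (XT.lf (nat_lit 76) (nat_lit 178104033753) (nat_lit 0) (nat_lit 25139427877) (nat_lit 152) (nat_lit 14135885911) (nat_lit 169) (nat_lit 1) (nat_lit 168) (nat_lit 1) (nat_lit 170) (nat_lit 1) (nat_lit 249) (nat_lit 413) (nat_lit 358))))) (XT.nd (nat_lit 234) (nat_lit 456) (nat_lit 0) (XT.nd (nat_lit 78) (nat_lit 304) (nat_lit 0) (XT.lf (nat_lit 0) (nat_lit 74496902289) (nat_lit 0) (nat_lit 132408465835) (nat_lit 152) (nat_lit 4878881265) (nat_lit 167) (nat_lit 3) (nat_lit 167) (nat_lit 1) (nat_lit 169) (nat_lit 1) (nat_lit 250) (nat_lit 413) (nat_lit 357)) (XT.nd (nat_lit 78) (nat_lit 76) (nat_lit 0) (XT.lf (nat_lit 152) (nat_lit 177818755469) (nat_lit 0) (nat_lit 4913337405) (nat_lit 76) (nat_lit 23640396986) (nat_lit 166) (nat_lit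 1) (nat_lit 164) (nat_lit 1) (nat_lit 165) (nat_lit 1) (nat_lit 251) (nat_lit 413) (nat_lit 356)) (XT.lf (nat_lit 76) (nat_lit 70072269006) (nat_lit 0) (nat_lit 13631477456) (nat_lit 76) (nat_lit 117357822885) (nat_lit 164) (nat_lit 3) (nat_lit 163) (nat_lit 1) (nat_lit 164) (nat_lit 1) (nat_lit 252) (nat_lit 413) (nat_lit 355)))) (XT.nd (nat_lit 156) (nat_lit 228) (nat_lit 0) (XT.nd (nat_lit 78) (nat_lit 76) (nat_lit 0) (XT.lf (nat_lit 152) (nat_lit 163434100521) (nat_lit 0) (nat_lit 22839936096) (nat_lit 76) (nat_lit 9659018223) (nat_lit 163) (nat_lit 1) (nat_lit 161) (nat_lit 1) (nat_lit 162) (nat_lit 1) (nat_lit 253) (nat_lit 413) (nat_lit 354)) (XT.lf (nat_lit 76) (nat_lit 60770337131) (nat_lit 0) (nat_lit 30747269856) (nat_lit 76) (nat_lit 99379614254) (nat_lit 161) (nat_lit 3) (nat_lit 160) (nat_lit 1) (nat_lit 161) (nat_lit 1) (nat_lit 254) (nat_lit 413) (nat_lit 353))) (XT.nd (nat_lit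 78) (nat_lit 76) (nat_lit 0) (XT.lf (nat_lit 0) (nat_lit 2565014942) (nat_lit 0) (nat_lit 36611996532) (nat_lit 152) (nat_lit 146859596437) (nat_lit 158) (nat_lit 3) (nat_lit 158) (nat_lit 1) (nat_lit 160) (nat_lit 1) (nat_lit 255) (nat_lit 413) (nat_lit 352)) (XT.lf (nat_lit 76) (nat_lit 51691353116) (nat_lit 0) (nat_lit 46354858872) (nat_lit 76) (nat_lit 83216336070) (nat_lit 158) (nat_lit 3) (nat_lit 157) (nat_lit 1) (nat_lit 158) (nat_lit 1) (nat_lit 256) (nat_lit 413) (nat_lit 351))))))) (XT.nd (nat_lit 1014) (nat_lit 1672) (nat_lit 0) (XT.nd (nat_lit 468) (nat_lit 836) (nat_lit 0) (XT.nd (nat_lit 234) (nat_lit 304) (nat_lit 0) (XT.nd (nat_lit 78) (nat_lit 228) (nat_lit 0) (XT.lf (nat_lit 0) (nat_lit 13045103475) (nat_lit 0) (nat_lit 40844912076) (nat_lit 152) (nat_lit 122757594663) (nat_lit 155) (nat_lit 3) (nat_lit 155) (nat_lit 1) (nat_lit 157) (nat_lit 1) (nat_lit 257) (nat_lit 413)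 (nat_lit 350)) (XT.nd (nat_lit 78) (nat_lit 152) (nat_lit 0) (XT.lf (nat_lit 76) (nat_lit 42937082833) (nat_lit 0) (nat_lit 60512649581) (nat_lit 76) (nat_lit 68677646353) (nat_lit 155) (nat_lit 3) (nat_lit 154) (nat_lit 1) (nat_lit 155) (nat_lit 1) (nat_lit 258) (nat_lit 413) (nat_lit 349)) (XT.lf (nat_lit 0) (nat_lit 22250106321) (nat_lit 0) (nat_lit 44949015951) (nat_lit 152) (nat_lit 100545387068) (nat_lit 152) (nat_lit 3) (nat_lit 152) (nat_lit 1) (nat_lit 154) (nat_lit 1) (nat_lit 259) (nat_lit 413) (nat_lit 348)))) (XT.nd (nat_lit 78) (nat_lit 228) (nat_lit 0) (XT.lf (nat_lit 76) (nat_lit 34579880190) (nat_lit 0) (nat_lit 73286429856) (nat_lit 76) (nat_lit 55597389106) (nat_lit 152) (nat_lit 3) (nat_lit 151) (nat_lit 1) (nat_lit 152) (nat_lit 1) (nat_lit 260) (nat_lit 413) (nat_lit 347)) (XT.nd (nat_lit 78) (nat_lit 76) (nat_lit 0) (XT.lf (nat_lit 0) (nat_lit 30319072988) (nat_lit 0) (nat_lit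 48853031468) (nat_lit 152) (nat_lit 80128146329) (nat_lit 149) (nat_lit 3) (nat_lit 149) (nat_lit 1) (nat_lit 151) (nat_lit 1) (nat_lit 261) (nat_lit 413) (nat_lit 346)) (XT.lf (nat_lit 76) (nat_lit 26668811371) (nat_lit 0) (nat_lit 84746731864) (nat_lit 76) (nat_lit 43829884037) (nat_lit 149) (nat_lit 3) (nat_lit 148) (nat_lit 1) (nat_lit 149) (nat_lit 1) (nat_lit 262) (nat_lit 413) (nat_lit 345))))) (XT.nd (nat_lit 234) (nat_lit 456) (nat_lit 0) (XT.nd (nat_lit 78) (nat_lit 228) (nat_lit 0) (XT.lf (nat_lit 0) (nat_lit 37373568351) (nat_lit 0) (nat_lit 52506789397) (nat_lit 152) (nat_lit 61409253771) (nat_lit 146) (nat_lit 3) (nat_lit 146) (nat_lit 1) (nat_lit 148) (nat_lit 1) (nat_lit 263) (nat_lit 413) (nat_lit 344)) (XT.nd (nat_lit 78) (nat_lit 152) (nat_lit 0) (XT.lf (nat_lit 76) (nat_lit 19234608871) (nat_lit 0) (nat_lit 94966761943) (nat_lit 76) (nat_lit 33246850581) (nat_lit 146) (nat_lit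 3) (nat_lit 145) (nat_lit 1) (nat_lit 146) (nat_lit 1) (nat_lit 264) (nat_lit 413) (nat_lit 343)) (XT.lf (nat_lit 0) (nat_lit 43520306250) (nat_lit 0) (nat_lit 55876780421) (nat_lit 152) (nat_lit 44291936052) (nat_lit 143) (nat_lit 3) (nat_lit 143) (nat_lit 1) (nat_lit 145) (nat_lit 1) (nat_lit 265) (nat_lit 413) (nat_lit 342)))) (XT.nd (nat_lit 156) (nat_lit 228) (nat_lit 0) (XT.nd (nat_lit 78) (nat_lit 152) (nat_lit 0) (XT.lf (nat_lit 76) (nat_lit 12293672915) (nat_lit 0) (nat_lit 104020789305) (nat_lit 76) (nat_lit 23734852703) (nat_lit 143) (nat_lit 3) (nat_lit 142) (nat_lit 1) (nat_lit 143) (nat_lit 1) (nat_lit 266) (nat_lit 413) (nat_lit 341)) (XT.lf (nat_lit 0) (nat_lit 48853337750) (nat_lit 0) (nat_lit 58942561549) (nat_lit 152) (nat_lit 28680517656) (nat_lit 140) (nat_lit 3) (nat_lit 140) (nat_lit 1) (nat_lit 142) (nat_lit 1) (nat_lit 267) (nat_lit 413) (nat_lit 340))) (XT.nd (nat_lit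 78) (nat_lit 152) (nat_lit 0) (XT.lf (nat_lit 76) (nat_lit 5851297726) (nat_lit 0) (nat_lit 111982904397) (nat_lit 76) (nat_lit 15193171614) (nat_lit 140) (nat_lit 3) (nat_lit 139) (nat_lit 1) (nat_lit 140) (nat_lit 1) (nat_lit 268) (nat_lit 413) (nat_lit 339)) (XT.lf (nat_lit 0) (nat_lit 53455873399) (nat_lit 0) (nat_lit 61693857427) (nat_lit 152) (nat_lit 14481364878) (nat_lit 137) (nat_lit 3) (nat_lit 137) (nat_lit 1) (nat_lit 139) (nat_lit 1) (nat_lit 269) (nat_lit 413) (nat_lit 338)))))) (XT.nd (nat_lit 546) (nat_lit 760) (nat_lit 0) (XT.nd (nat_lit 234) (nat_lit 456) (nat_lit 0) (XT.nd (nat_lit 78) (nat_lit 304) (nat_lit 0) (XT.lf (nat_lit 76) (nat_lit 118831836528) (nat_lit 0) (nat_lit 92668541) (nat_lit 152) (nat_lit 7437792479) (nat_lit 136) (nat_lit 1) (nat_lit 135) (nat_lit 1) (nat_lit 137) (nat_lit 1) (nat_lit 270) (nat_lit 413) (nat_lit 337)) (XT.nd (nat_lit 78) (nat_lit 228) (nat_lit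 0) (XT.lf (nat_lit 0) (nat_lit 57401804400) (nat_lit 0) (nat_lit 64128226789) (nat_lit 152) (nat_lit 1603582756) (nat_lit 134) (nat_lit 3) (nat_lit 134) (nat_lit 1) (nat_lit 136) (nat_lit 1) (nat_lit 271) (nat_lit 413) (nat_lit 336)) (XT.lf (nat_lit 152) (nat_lit 114570670830) (nat_lit 0) (nat_lit 4957873652) (nat_lit 76) (nat_lit 498732460) (nat_lit 133) (nat_lit 1) (nat_lit 131) (nat_lit 1) (nat_lit 132) (nat_lit 1) (nat_lit 272) (nat_lit 413) (nat_lit 335)))) (XT.nd (nat_lit 156) (nat_lit 228) (nat_lit 0) (XT.nd (nat_lit 78) (nat_lit 152) (nat_lit 0) (XT.lf (nat_lit 76) (nat_lit 50546450246) (nat_lit 0) (nat_lit 10372468913) (nat_lit 76) (nat_lit 56038662660) (nat_lit 131) (nat_lit 3) (nat_lit 130) (nat_lit 1) (nat_lit 131) (nat_lit 1) (nat_lit 273) (nat_lit 413) (nat_lit 334)) (XT.lf (nat_lit 0) (nat_lit 5714005689) (nat_lit 0) (nat_lit 10557226513) (nat_lit 152) (nat_lit 97732141586) (nat_lit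 128) (nat_lit 3) (nat_lit 128) (nat_lit 1) (nat_lit 130) (nat_lit 1) (nat_lit 274) (nat_lit 413) (nat_lit 333))) (XT.nd (nat_lit 78) (nat_lit 152) (nat_lit 0) (XT.lf (nat_lit 76) (nat_lit 42697573318) (nat_lit 0) (nat_lit 21213890519) (nat_lit 76) (nat_lit 47182037044) (nat_lit 128) (nat_lit 3) (nat_lit 127) (nat_lit 1) (nat_lit 128) (nat_lit 1) (nat_lit 275) (nat_lit 413) (nat_lit 332)) (XT.lf (nat_lit 0) (nat_lit 11243464711) (nat_lit 0) (nat_lit 15198018261) (nat_lit 152) (nat_lit 81843081005) (nat_lit 125) (nat_lit 3) (nat_lit 125) (nat_lit 1) (nat_lit 127) (nat_lit 1) (nat_lit 276) (nat_lit 413) (nat_lit 331))))) (XT.nd (nat_lit 234) (nat_lit 456) (nat_lit 0) (XT.nd (nat_lit 78) (nat_lit 228) (nat_lit 0) (XT.lf (nat_lit 76) (nat_lit 35457071066) (nat_lit 0) (nat_lit 30950588446) (nat_lit 76) (nat_lit 39118694724) (nat_lit 125) (nat_lit 3) (nat_lit 124) (nat_lit 1) (nat_lit 125) (nat_lit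 1) (nat_lit 277) (nat_lit 413) (nat_lit 330)) (XT.nd (nat_lit 78) (nat_lit 76) (nat_lit 0) (XT.lf (nat_lit 0) (nat_lit 16164016426) (nat_lit 0) (nat_lit 19392961451) (nat_lit 152) (nat_lit 67298380551) (nat_lit 122) (nat_lit 3) (nat_lit 122) (nat_lit 1) (nat_lit 124) (nat_lit 1) (nat_lit 278) (nat_lit 413) (nat_lit 329)) (XT.lf (nat_lit 76) (nat_lit 28794773240) (nat_lit 0) (nat_lit 39661438281) (nat_lit 76) (nat_lit 31784537152) (nat_lit 122) (nat_lit 3) (nat_lit 121) (nat_lit 1) (nat_lit 122) (nat_lit 1) (nat_lit 279) (nat_lit 413) (nat_lit 328)))) (XT.nd (nat_lit 156) (nat_lit 228) (nat_lit 0) (XT.nd (nat_lit 78) (nat_lit 76) (nat_lit 0) (XT.lf (nat_lit 0) (nat_lit 20528684740) (nat_lit 0) (nat_lit 23165160852) (nat_lit 152) (nat_lit 54006919456) (nat_lit 119) (nat_lit 3) (nat_lit 119) (nat_lit 1) (nat_lit 121) (nat_lit 1) (nat_lit 280) (nat_lit 413) (nat_lit 327)) (XT.lf (nat_lit 76) (nat_lit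 22679873782) (nat_lit 0) (nat_lit 47421215664) (nat_lit 76) (nat_lit 25121055368) (nat_lit 119) (nat_lit 3) (nat_lit 118) (nat_lit 1) (nat_lit 119) (nat_lit 1) (nat_lit 281) (nat_lit 413) (nat_lit 326))) (XT.nd (nat_lit 78) (nat_lit 76) (nat_lit 0) (XT.lf (nat_lit 0) (nat_lit 24385717376) (nat_lit 0) (nat_lit 26538434824) (nat_lit 152) (nat_lit 41882466012) (nat_lit 116) (nat_lit 3) (nat_lit 116) (nat_lit 1) (nat_lit 118) (nat_lit 1) (nat_lit 282) (nat_lit 413) (nat_lit 325)) (XT.lf (nat_lit 76) (nat_lit 17081466977) (nat_lit 0) (nat_lit 54300609412) (nat_lit 76) (nat_lit 19074723873) (nat_lit 116) (nat_lit 3) (nat_lit 115) (nat_lit 1) (nat_lit 116) (nat_lit 1) (nat_lit 283) (nat_lit 413) (nat_lit 324))))))))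
noncomputable def ec232 : XT := (XT.nd (nat_lit 2028) (nat_lit 3268) (nat_lit 0) (XT.nd (nat_lit 1014) (nat_lit 1520) (nat_lit 0) (XT.nd (nat_lit 468) (nat_lit 912) (nat_lit 0) (XT.nd (nat_lit 234) (nat_lit 304) (nat_lit 0) (XT.nd (nat_lit 78) (nat_lit 228) (nat_lit 0) (XT.lf (nat_lit 0) (nat_lit 27779108186) (nat_lit 0) (nat_lit 29536830316) (nat_lit 152) (nat_lit 30843586166) (nat_lit 113) (nat_lit 3) (nat_lit 113) (nat_lit 1) (nat_lit 115) (nat_lit 1) (nat_lit 284) (nat_lit 413) (nat_lit 323)) (XT.nd (nat_lit 78) (nat_lit 152) (nat_lit 0) (XT.lf (nat_lit 76) (nat_lit 11968958375) (nat_lit 0) (nat_lit 60366280873) (nat_lit 76) (nat_lit 13596478866) (nat_lit 113) (nat_lit 3) (nat_lit 112) (nat_lit 1) (nat_lit 113) (nat_lit 1) (nat_lit 285) (nat_lit 413) (nat_lit 322)) (XT.lf (nat_lit 0) (nat_lit 30749046945) (nat_lit 0) (nat_lit 32184250200) (nat_lit 152) (nat_lit 20813517247) (nat_lit 110)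 (nat_lit 3) (nat_lit 110) (nat_lit 1) (nat_lit 112) (nat_lit 1) (nat_lit 286) (nat_lit 413) (nat_lit 321)))) (XT.nd (nat_lit 78) (nat_lit 228) (nat_lit 0) (XT.lf (nat_lit 76) (nat_lit 7312375110) (nat_lit 0) (nat_lit 65680957964) (nat_lit 76) (nat_lit 8641267013) (nat_lit 110) (nat_lit 3) (nat_lit 109) (nat_lit 1) (nat_lit 110) (nat_lit 1) (nat_lit 287) (nat_lit 413) (nat_lit 320)) (XT.nd (nat_lit 78) (nat_lit 76) (nat_lit 0) (XT.lf (nat_lit 0) (nat_lit 33332308502) (nat_lit 0) (nat_lit 34504170850) (nat_lit 152) (nat_lit 11720016403) (nat_lit 107) (nat_lit 3) (nat_lit 107) (nat_lit 1) (nat_lit 109) (nat_lit 1) (nat_lit 288) (nat_lit 413) (nat_lit 319)) (XT.lf (nat_lit 76) (nat_lit 3082595632) (nat_lit 0) (nat_lit 70303554671) (nat_lit 76) (nat_lit 4167653362) (nat_lit 107) (nat_lit 3) (nat_lit 106) (nat_lit 1) (nat_lit 107) (nat_lit 1) (nat_lit 289) (nat_lit 413) (nat_lit 318))))) (XT.nd (nat_lit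 234) (nat_lit 456) (nat_lit 0) (XT.nd (nat_lit 78) (nat_lit 304) (nat_lit 0) (XT.lf (nat_lit 0) (nat_lit 35562591004) (nat_lit 0) (nat_lit 36519432036) (nat_lit 152) (nat_lit 3495191392) (nat_lit 104) (nat_lit 3) (nat_lit 104) (nat_lit 1) (nat_lit 106) (nat_lit 1) (nat_lit 290) (nat_lit 413) (nat_lit 317)) (XT.nd (nat_lit 78) (nat_lit 76) (nat_lit 0) (XT.lf (nat_lit 152) (nat_lit 72943040030) (nat_lit 0) (nat_lit 619136127) (nat_lit 76) (nat_lit 115059016) (nat_lit 103) (nat_lit 1) (nat_lit 101) (nat_lit 1) (nat_lit 102) (nat_lit 1) (nat_lit 291) (nat_lit 413) (nat_lit 316)) (XT.lf (nat_lit 76) (nat_lit 33479664685) (nat_lit 0) (nat_lit 4054447878) (nat_lit 76) (nat_lit 34260937982) (nat_lit 101) (nat_lit 3) (nat_lit 100) (nat_lit 1) (nat_lit 101) (nat_lit 1) (nat_lit 292) (nat_lit 413) (nat_lit 315)))) (XT.nd (nat_lit 156) (nat_lit 228) (nat_lit 0) (XT.nd (nat_lit 78) (nat_lit 76) (nat_lit 0)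 (XT.lf (nat_lit 0) (nat_lit 3564714417) (nat_lit 0) (nat_lit 4253667941) (nat_lit 152) (nat_lit 62166959229) (nat_lit 98) (nat_lit 3) (nat_lit 98) (nat_lit 1) (nat_lit 100) (nat_lit 1) (nat_lit 293) (nat_lit 413) (nat_lit 314)) (XT.lf (nat_lit 76) (nat_lit 28306520301) (nat_lit 0) (nat_lit 10949800724) (nat_lit 76) (nat_lit 28944440231) (nat_lit 98) (nat_lit 3) (nat_lit 97) (nat_lit 1) (nat_lit 98) (nat_lit 1) (nat_lit 294) (nat_lit 413) (nat_lit 313))) (XT.nd (nat_lit 78) (nat_lit 76) (nat_lit 0) (XT.lf (nat_lit 0) (nat_lit 6859815456) (nat_lit 0) (nat_lit 7422355076) (nat_lit 152) (nat_lit 52197293274) (nat_lit 95) (nat_lit 3) (nat_lit 95) (nat_lit 1) (nat_lit 97) (nat_lit 1) (nat_lit 295) (nat_lit 413) (nat_lit 312)) (XT.lf (nat_lit 76) (nat_lit 23566746604) (nat_lit 0) (nat_lit 17133099067) (nat_lit 76) (nat_lit 24087616623) (nat_lit 95) (nat_lit 3) (nat_lit 94) (nat_lit 1) (nat_lit 95) (nat_lit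 1) (nat_lit 296) (nat_lit 413) (nat_lit 311)))))) (XT.nd (nat_lit 468) (nat_lit 836) (nat_lit 0) (XT.nd (nat_lit 234) (nat_lit 304) (nat_lit 0) (XT.nd (nat_lit 78) (nat_lit 228) (nat_lit 0) (XT.lf (nat_lit 0) (nat_lit 9804238806) (nat_lit 0) (nat_lit 10263559811) (nat_lit 152) (nat_lit 43082422375) (nat_lit 92) (nat_lit 3) (nat_lit 92) (nat_lit 1) (nat_lit 94) (nat_lit 1) (nat_lit 297) (nat_lit 413) (nat_lit 310)) (XT.nd (nat_lit 78) (nat_lit 152) (nat_lit 0) (XT.lf (nat_lit 76) (nat_lit 19231118322) (nat_lit 0) (nat_lit 22658422042) (nat_lit 76) (nat_lit 19656415549) (nat_lit 92) (nat_lit 3) (nat_lit 91) (nat_lit 1) (nat_lit 92) (nat_lit 1) (nat_lit 298) (nat_lit 413) (nat_lit 309)) (XT.lf (nat_lit 0) (nat_lit 12426023558) (nat_lit 0) (nat_lit 12801065204) (nat_lit 152) (nat_lit 34761546186) (nat_lit 89) (nat_lit 3) (nat_lit 89) (nat_lit 1) (nat_lit 91) (nat_lit 1) (nat_lit 299) (nat_lit 413)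 (nat_lit 308)))) (XT.nd (nat_lit 78) (nat_lit 228) (nat_lit 0) (XT.lf (nat_lit 76) (nat_lit 15271968214) (nat_lit 0) (nat_lit 27576324290) (nat_lit 76) (nat_lit 15619228997) (nat_lit 89) (nat_lit 3) (nat_lit 88) (nat_lit 1) (nat_lit 89) (nat_lit 1) (nat_lit 300) (nat_lit 413) (nat_lit 307)) (XT.nd (nat_lit 78) (nat_lit 76) (nat_lit 0) (XT.lf (nat_lit 0) (nat_lit 14751119361) (nat_lit 0) (nat_lit 15057345802) (nat_lit 152) (nat_lit 27177727560) (nat_lit 86) (nat_lit 3) (nat_lit 86) (nat_lit 1) (nat_lit 88) (nat_lit 1) (nat_lit 301) (nat_lit 413) (nat_lit 306)) (XT.lf (nat_lit 76) (nat_lit 11663159572) (nat_lit 0) (nat_lit 31934027208) (nat_lit 76) (nat_lit 11946702572) (nat_lit 86) (nat_lit 3) (nat_lit 85) (nat_lit 1) (nat_lit 86) (nat_lit 1) (nat_lit 302) (nat_lit 413) (nat_lit 305))))) (XT.nd (nat_lit 234) (nat_lit 456) (nat_lit 0) (XT.nd (nat_lit 78) (nat_lit 228) (nat_lit 0) (XT.lf (nat_lit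 0) (nat_lit 16803551648) (nat_lit 0) (nat_lit 17053589567) (nat_lit 152) (nat_lit 20277679955) (nat_lit 83) (nat_lit 3) (nat_lit 83) (nat_lit 1) (nat_lit 85) (nat_lit 1) (nat_lit 303) (nat_lit 413) (nat_lit 304)) (XT.nd (nat_lit 78) (nat_lit 152) (nat_lit 0) (XT.lf (nat_lit 76) (nat_lit 8380047241) (nat_lit 0) (nat_lit 35775605064) (nat_lit 76) (nat_lit 8611563833) (nat_lit 83) (nat_lit 3) (nat_lit 82) (nat_lit 1) (nat_lit 83) (nat_lit 1) (nat_lit 304) (nat_lit 413) (nat_lit 303)) (XT.lf (nat_lit 0) (nat_lit 18605570902) (nat_lit 0) (nat_lit 18809730154) (nat_lit 152) (nat_lit 14011562068) (nat_lit 80) (nat_lit 3) (nat_lit 80) (nat_lit 1) (nat_lit 82) (nat_lit 1) (nat_lit 305) (nat_lit 413) (nat_lit 302)))) (XT.nd (nat_lit 156) (nat_lit 228) (nat_lit 0) (XT.nd (nat_lit 78) (nat_lit 152) (nat_lit 0) (XT.lf (nat_lit 76) (nat_lit 5399430270) (nat_lit 0) (nat_lit 39142165021) (nat_lit 76) (nat_lit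 5588466614) (nat_lit 80) (nat_lit 3) (nat_lit 79) (nat_lit 1) (nat_lit 80) (nat_lit 1) (nat_lit 306) (nat_lit 413) (nat_lit 301)) (XT.lf (nat_lit 0) (nat_lit 20177788013) (nat_lit 0) (nat_lit 20344486729) (nat_lit 152) (nat_lit 8332780305) (nat_lit 77) (nat_lit 3) (nat_lit 77) (nat_lit 1) (nat_lit 79) (nat_lit 1) (nat_lit 307) (nat_lit 413) (nat_lit 300))) (XT.nd (nat_lit 78) (nat_lit 152) (nat_lit 0) (XT.lf (nat_lit 76) (nat_lit 2699498696) (nat_lit 0) (nat_lit 42072020436) (nat_lit 76) (nat_lit 2853849359) (nat_lit 77) (nat_lit 3) (nat_lit 76) (nat_lit 1) (nat_lit 77) (nat_lit 1) (nat_lit 308) (nat_lit 413) (nat_lit 299)) (XT.lf (nat_lit 0) (nat_lit 21539297409) (nat_lit 0) (nat_lit 21675409105) (nat_lit 152) (nat_lit 3197799517) (nat_lit 74) (nat_lit 3) (nat_lit 74) (nat_lit 1) (nat_lit 76) (nat_lit 1) (nat_lit 309) (nat_lit 413) (nat_lit 298))))))) (XT.nd (nat_lit 1014) (nat_lit 1672) (nat_lit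 0) (XT.nd (nat_lit 468) (nat_lit 836) (nat_lit 0) (XT.nd (nat_lit 234) (nat_lit 304) (nat_lit 0) (XT.nd (nat_lit 78) (nat_lit 380) (nat_lit 0) (XT.lf (nat_lit 76) (nat_lit 259776434) (nat_lit 0) (nat_lit 44600857013) (nat_lit 76) (nat_lit 385805782) (nat_lit 74) (nat_lit 3) (nat_lit 73) (nat_lit 1) (nat_lit 74) (nat_lit 1) (nat_lit 310) (nat_lit 413) (nat_lit 297)) (XT.nd (nat_lit 78) (nat_lit 152) (nat_lit 0) (XT.lf (nat_lit 76) (nat_lit 21249465509) (nat_lit 0) (nat_lit 1481453562) (nat_lit 76) (nat_lit 21360602501) (nat_lit 71) (nat_lit 3) (nat_lit 70) (nat_lit 1) (nat_lit 71) (nat_lit 1) (nat_lit 311) (nat_lit 413) (nat_lit 296)) (XT.lf (nat_lit 0) (nat_lit 1869426040) (nat_lit 0) (nat_lit 1967430441) (nat_lit 152) (nat_lit 39144022241) (nat_lit 68) (nat_lit 3) (nat_lit 68) (nat_lit 1) (nat_lit 70) (nat_lit 1) (nat_lit 312) (nat_lit 413) (nat_lit 295)))) (XT.nd (nat_lit 78) (nat_lit 228)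 (nat_lit 0) (XT.lf (nat_lit 76) (nat_lit 18004119116) (nat_lit 0) (nat_lit 5785867639) (nat_lit 76) (nat_lit 18094863932) (nat_lit 68) (nat_lit 3) (nat_lit 67) (nat_lit 1) (nat_lit 68) (nat_lit 1) (nat_lit 313) (nat_lit 413) (nat_lit 294)) (XT.nd (nat_lit 78) (nat_lit 76) (nat_lit 0) (XT.lf (nat_lit 0) (nat_lit 3896096015) (nat_lit 0) (nat_lit 3976117899) (nat_lit 152) (nat_lit 32956171785) (nat_lit 65) (nat_lit 3) (nat_lit 65) (nat_lit 1) (nat_lit 67) (nat_lit 1) (nat_lit 314) (nat_lit 413) (nat_lit 293)) (XT.lf (nat_lit 76) (nat_lit 15034386021) (nat_lit 0) (nat_lit 9646290304) (nat_lit 76) (nat_lit 15108480358) (nat_lit 65) (nat_lit 3) (nat_lit 64) (nat_lit 1) (nat_lit 65) (nat_lit 1) (nat_lit 315) (nat_lit 413) (nat_lit 292))))) (XT.nd (nat_lit 234) (nat_lit 456) (nat_lit 0) (XT.nd (nat_lit 78) (nat_lit 228) (nat_lit 0) (XT.lf (nat_lit 0) (nat_lit 5709790136) (nat_lit 0) (nat_lit 5775129057)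 (nat_lit 152) (nat_lit 27299296538) (nat_lit 62) (nat_lit 3) (nat_lit 62) (nat_lit 1) (nat_lit 64) (nat_lit 1) (nat_lit 316) (nat_lit 413) (nat_lit 291)) (XT.nd (nat_lit 78) (nat_lit 152) (nat_lit 0) (XT.lf (nat_lit 76) (nat_lit 12320744736) (nat_lit 0) (nat_lit 13096837645) (nat_lit 76) (nat_lit 12381243737) (nat_lit 62) (nat_lit 3) (nat_lit 61) (nat_lit 1) (nat_lit 62) (nat_lit 1) (nat_lit 317) (nat_lit 413) (nat_lit 290)) (XT.lf (nat_lit 0) (nat_lit 7327133773) (nat_lit 0) (nat_lit 7380483862) (nat_lit 152) (nat_lit 22135268759) (nat_lit 59) (nat_lit 3) (nat_lit 59) (nat_lit 1) (nat_lit 61) (nat_lit 1) (nat_lit 318) (nat_lit 413) (nat_lit 289)))) (XT.nd (nat_lit 156) (nat_lit 228) (nat_lit 0) (XT.nd (nat_lit 78) (nat_lit 152) (nat_lit 0) (XT.lf (nat_lit 76) (nat_lit 9844910551) (nat_lit 0) (nat_lit 16169312593) (nat_lit 76) (nat_lit 9894308782) (nat_lit 59) (nat_lit 3) (nat_lit 58) (nat_lit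 1) (nat_lit 59) (nat_lit 1) (nat_lit 319) (nat_lit 413) (nat_lit 288)) (XT.lf (nat_lit 0) (nat_lit 8763586496) (nat_lit 0) (nat_lit 8807147546) (nat_lit 152) (nat_lit 17428460999) (nat_lit 56) (nat_lit 3) (nat_lit 56) (nat_lit 1) (nat_lit 58) (nat_lit 1) (nat_lit 320) (nat_lit 413) (nat_lit 287))) (XT.nd (nat_lit 78) (nat_lit 152) (nat_lit 0) (XT.lf (nat_lit 76) (nat_lit 7589767757) (nat_lit 0) (nat_lit 18893348721) (nat_lit 76) (nat_lit 7630102063) (nat_lit 56) (nat_lit 3) (nat_lit 55) (nat_lit 1) (nat_lit 56) (nat_lit 1) (nat_lit 321) (nat_lit 413) (nat_lit 286)) (XT.lf (nat_lit 0) (nat_lit 10033521550) (nat_lit 0) (nat_lit 10069089721) (nat_lit 152) (nat_lit 13145592999) (nat_lit 53) (nat_lit 3) (nat_lit 53) (nat_lit 1) (nat_lit 55) (nat_lit 1) (nat_lit 322) (nat_lit 413) (nat_lit 285)))))) (XT.nd (nat_lit 546) (nat_lit 912) (nat_lit 0) (XT.nd (nat_lit 234) (nat_lit 456) (nat_lit 0) (XT.nd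 (nat_lit 78) (nat_lit 228) (nat_lit 0) (XT.lf (nat_lit 76) (nat_lit 5539304115) (nat_lit 0) (nat_lit 21296546114) (nat_lit 76) (nat_lit 5572237607) (nat_lit 53) (nat_lit 3) (nat_lit 52) (nat_lit 1) (nat_lit 53) (nat_lit 1) (nat_lit 323) (nat_lit 413) (nat_lit 284)) (XT.nd (nat_lit 78) (nat_lit 76) (nat_lit 0) (XT.lf (nat_lit 0) (nat_lit 11150299608) (nat_lit 0) (nat_lit 11179341488) (nat_lit 152) (nat_lit 9255587111) (nat_lit 50) (nat_lit 3) (nat_lit 50) (nat_lit 1) (nat_lit 52) (nat_lit 1) (nat_lit 324) (nat_lit 413) (nat_lit 283)) (XT.lf (nat_lit 76) (nat_lit 3678547805) (nat_lit 0) (nat_lit 23404599579) (nat_lit 76) (nat_lit 3705438435) (nat_lit 50) (nat_lit 3) (nat_lit 49) (nat_lit 1) (nat_lit 50) (nat_lit 1) (nat_lit 325) (nat_lit 413) (nat_lit 282)))) (XT.nd (nat_lit 156) (nat_lit 228) (nat_lit 0) (XT.nd (nat_lit 78) (nat_lit 76) (nat_lit 0) (XT.lf (nat_lit 0) (nat_lit 12126337277) (nat_lit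 0) (nat_lit 12150050354) (nat_lit 152) (nat_lit 5729431875) (nat_lit 47) (nat_lit 3) (nat_lit 47) (nat_lit 1) (nat_lit 49) (nat_lit 1) (nat_lit 326) (nat_lit 413) (nat_lit 281)) (XT.lf (nat_lit 76) (nat_lit 1993506975) (nat_lit 0) (nat_lit 25241419541) (nat_lit 76) (nat_lit 2015463527) (nat_lit 47) (nat_lit 3) (nat_lit 46) (nat_lit 1) (nat_lit 47) (nat_lit 1) (nat_lit 327) (nat_lit 413) (nat_lit 280))) (XT.nd (nat_lit 78) (nat_lit 76) (nat_lit 0) (XT.lf (nat_lit 0) (nat_lit 12973170805) (nat_lit 0) (nat_lit 12992532845) (nat_lit 152) (nat_lit 2540053399) (nat_lit 44) (nat_lit 3) (nat_lit 44) (nat_lit 1) (nat_lit 46) (nat_lit 1) (nat_lit 328) (nat_lit 413) (nat_lit 279)) (XT.lf (nat_lit 76) (nat_lit 471111975) (nat_lit 0) (nat_lit 26829245930) (nat_lit 76) (nat_lit 489039790) (nat_lit 44) (nat_lit 3) (nat_lit 43) (nat_lit 1) (nat_lit 44) (nat_lit 1) (nat_lit 329) (nat_lit 413) (nat_lit 278)))))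 (XT.nd (nat_lit 234) (nat_lit 456) (nat_lit 0) (XT.nd (nat_lit 78) (nat_lit 228) (nat_lit 0) (XT.lf (nat_lit 76) (nat_lit 13357988662) (nat_lit 0) (nat_lit 348975207) (nat_lit 76) (nat_lit 13373798022) (nat_lit 41) (nat_lit 3) (nat_lit 40) (nat_lit 1) (nat_lit 41) (nat_lit 1) (nat_lit 330) (nat_lit 413) (nat_lit 277)) (XT.nd (nat_lit 78) (nat_lit 76) (nat_lit 0) (XT.lf (nat_lit 0) (nat_lit 901197802) (nat_lit 0) (nat_lit 915139037) (nat_lit 152) (nat_lit 24582517638) (nat_lit 38) (nat_lit 3) (nat_lit 38) (nat_lit 1) (nat_lit 40) (nat_lit 1) (nat_lit 331) (nat_lit 413) (nat_lit 276)) (XT.lf (nat_lit 76) (nat_lit 11344037351) (nat_lit 0) (nat_lit 3024504044) (nat_lit 76) (nat_lit 11356945902) (nat_lit 38) (nat_lit 3) (nat_lit 37) (nat_lit 1) (nat_lit 38) (nat_lit 1) (nat_lit 332) (nat_lit 413) (nat_lit 275)))) (XT.nd (nat_lit 156) (nat_lit 228) (nat_lit 0) (XT.nd (nat_lit 78) (nat_lit 76) (nat_lit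 0) (XT.lf (nat_lit 0) (nat_lit 2156949245) (nat_lit 0) (nat_lit 2168332446) (nat_lit 152) (nat_lit 20751551197) (nat_lit 35) (nat_lit 3) (nat_lit 35) (nat_lit 1) (nat_lit 37) (nat_lit 1) (nat_lit 333) (nat_lit 413) (nat_lit 274)) (XT.lf (nat_lit 76) (nat_lit 9501290097) (nat_lit 0) (nat_lit 5425233951) (nat_lit 76) (nat_lit 9511830099) (nat_lit 35) (nat_lit 3) (nat_lit 34) (nat_lit 1) (nat_lit 35) (nat_lit 1) (nat_lit 334) (nat_lit 413) (nat_lit 273))) (XT.nd (nat_lit 78) (nat_lit 76) (nat_lit 0) (XT.lf (nat_lit 0) (nat_lit 3281677036) (nat_lit 0) (nat_lit 3290971570) (nat_lit 152) (nat_lit 17248677398) (nat_lit 32) (nat_lit 3) (nat_lit 32) (nat_lit 1) (nat_lit 34) (nat_lit 1) (nat_lit 335) (nat_lit 413) (nat_lit 272)) (XT.lf (nat_lit 76) (nat_lit 7817502550) (nat_lit 0) (nat_lit 7572308170) (nat_lit 76) (nat_lit 7826108600) (nat_lit 32) (nat_lit 3) (nat_lit 31) (nat_lit 1) (nat_lit 32) (nat_lit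 1) (nat_lit 336) (nat_lit 413) (nat_lit 271))))))))
noncomputable def ec233 : XT := (XT.nd (nat_lit 2106) (nat_lit 0) (nat_lit 0) (XT.nd (nat_lit 1014) (nat_lit 836) (nat_lit 0) (XT.nd (nat_lit 468) (nat_lit 836) (nat_lit 0) (XT.nd (nat_lit 234) (nat_lit 304) (nat_lit 0) (XT.nd (nat_lit 78) (nat_lit 228) (nat_lit 0) (XT.lf (nat_lit 0) (nat_lit 4285537105) (nat_lit 0) (nat_lit 4293126214) (nat_lit 152) (nat_lit 14050307308) (nat_lit 29) (nat_lit 3) (nat_lit 29) (nat_lit 1) (nat_lit 31) (nat_lit 1) (nat_lit 337) (nat_lit 413) (nat_lit 270)) (XT.nd (nat_lit 78) (nat_lit 152) (nat_lit 0) (XT.lf (nat_lit 76) (nat_lit 6281231434) (nat_lit 0) (nat_lit 9485424847) (nat_lit 76) (nat_lit 6288258387) (nat_lit 29) (nat_lit 3) (nat_lit 28) (nat_lit 1) (nat_lit 29) (nat_lit 1) (nat_lit 338) (nat_lit 413) (nat_lit 269)) (XT.lf (nat_lit 0) (nat_lit 5177984498) (nat_lit 0) (nat_lit 5184181105) (nat_lit 152) (nat_lit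 11134408965) (nat_lit 26) (nat_lit 3) (nat_lit 26) (nat_lit 1) (nat_lit 28) (nat_lit 1) (nat_lit 339) (nat_lit 413) (nat_lit 268)))) (XT.nd (nat_lit 78) (nat_lit 228) (nat_lit 0) (XT.lf (nat_lit 76) (nat_lit 4881785584) (nat_lit 0) (nat_lit 11182929282) (nat_lit 76) (nat_lit 4887523184) (nat_lit 26) (nat_lit 3) (nat_lit 25) (nat_lit 1) (nat_lit 26) (nat_lit 1) (nat_lit 340) (nat_lit 413) (nat_lit 267)) (XT.nd (nat_lit 78) (nat_lit 76) (nat_lit 0) (XT.lf (nat_lit 0) (nat_lit 5967819155) (nat_lit 0) (nat_lit 5972878767) (nat_lit 152) (nat_lit 8480409970) (nat_lit 23) (nat_lit 3) (nat_lit 23) (nat_lit 1) (nat_lit 25) (nat_lit 1) (nat_lit 341) (nat_lit 413) (nat_lit 266)) (XT.lf (nat_lit 76) (nat_lit 3609179705) (nat_lit 0) (nat_lit 12681900600) (nat_lit 76) (nat_lit 3613864530) (nat_lit 23) (nat_lit 3) (nat_lit 22) (nat_lit 1) (nat_lit 23) (nat_lit 1) (nat_lit 342) (nat_lit 413) (nat_lit 265)))))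 (XT.nd (nat_lit 234) (nat_lit 456) (nat_lit 0) (XT.nd (nat_lit 78) (nat_lit 228) (nat_lit 0) (XT.lf (nat_lit 0) (nat_lit 6663228732) (nat_lit 0) (nat_lit 6667359972) (nat_lit 152) (nat_lit 6069105907) (nat_lit 20) (nat_lit 3) (nat_lit 20) (nat_lit 1) (nat_lit 22) (nat_lit 1) (nat_lit 343) (nat_lit 413) (nat_lit 264)) (XT.nd (nat_lit 78) (nat_lit 152) (nat_lit 0) (XT.lf (nat_lit 76) (nat_lit 2454090730) (nat_lit 0) (nat_lit 13998233170) (nat_lit 76) (nat_lit 2457915952) (nat_lit 20) (nat_lit 3) (nat_lit 19) (nat_lit 1) (nat_lit 20) (nat_lit 1) (nat_lit 344) (nat_lit 413) (nat_lit 263)) (XT.lf (nat_lit 0) (nat_lit 7271828670) (nat_lit 0) (nat_lit 7275201881) (nat_lit 152) (nat_lit 3882574251) (nat_lit 17) (nat_lit 3) (nat_lit 17) (nat_lit 1) (nat_lit 19) (nat_lit 1) (nat_lit 345) (nat_lit 413) (nat_lit 262)))) (XT.nd (nat_lit 156) (nat_lit 228) (nat_lit 0) (XT.nd (nat_lit 78) (nat_lit 152) (nat_lit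 0) (XT.lf (nat_lit 76) (nat_lit 1407816674) (nat_lit 0) (nat_lit 15146713057) (nat_lit 76) (nat_lit 1410940018) (nat_lit 17) (nat_lit 3) (nat_lit 16) (nat_lit 1) (nat_lit 17) (nat_lit 1) (nat_lit 346) (nat_lit 413) (nat_lit 261)) (XT.lf (nat_lit 0) (nat_lit 7800699702) (nat_lit 0) (nat_lit 7803453974) (nat_lit 152) (nat_lit 1904093468) (nat_lit 14) (nat_lit 3) (nat_lit 14) (nat_lit 1) (nat_lit 16) (nat_lit 1) (nat_lit 347) (nat_lit 413) (nat_lit 260))) (XT.nd (nat_lit 78) (nat_lit 152) (nat_lit 0) (XT.lf (nat_lit 76) (nat_lit 462237852) (nat_lit 0) (nat_lit 16141089792) (nat_lit 76) (nat_lit 464788103) (nat_lit 14) (nat_lit 3) (nat_lit 13) (nat_lit 1) (nat_lit 14) (nat_lit 1) (nat_lit 348) (nat_lit 413) (nat_lit 259)) (XT.lf (nat_lit 0) (nat_lit 8256422963) (nat_lit 0) (nat_lit 8258671862) (nat_lit 152) (nat_lit 118067008) (nat_lit 11) (nat_lit 3) (nat_lit 11) (nat_lit 1) (nat_lit 13) (nat_lit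 1) (nat_lit 349) (nat_lit 413) (nat_lit 258)))))) (XT.nd (nat_lit 546) (nat_lit 0) (nat_lit 0) (XT.nd (nat_lit 234) (nat_lit 380) (nat_lit 0) (XT.nd (nat_lit 78) (nat_lit 228) (nat_lit 0) (XT.lf (nat_lit 0) (nat_lit 394566876) (nat_lit 0) (nat_lit 396550032) (nat_lit 152) (nat_lit 15423424254) (nat_lit 8) (nat_lit 3) (nat_lit 8) (nat_lit 1) (nat_lit 10) (nat_lit 1) (nat_lit 350) (nat_lit 413) (nat_lit 257)) (XT.nd (nat_lit 78) (nat_lit 152) (nat_lit 0) (XT.lf (nat_lit 76) (nat_lit 7129830067) (nat_lit 0) (nat_lit 1539315820) (nat_lit 76) (nat_lit 7131666323) (nat_lit 8) (nat_lit 3) (nat_lit 7) (nat_lit 1) (nat_lit 8) (nat_lit 1) (nat_lit 351) (nat_lit 413) (nat_lit 256)) (XT.lf (nat_lit 0) (nat_lit 1173905543) (nat_lit 0) (nat_lit 1175524816) (nat_lit 152) (nat_lit 13053083416) (nat_lit 5) (nat_lit 3) (nat_lit 5) (nat_lit 1) (nat_lit 7) (nat_lit 1) (nat_lit 352) (nat_lit 413) (nat_lit 255))))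 (XT.nd (nat_lit 156) (nat_lit 152) (nat_lit 0) (XT.nd (nat_lit 78) (nat_lit 152) (nat_lit 0) (XT.lf (nat_lit 76) (nat_lit 5988954052) (nat_lit 0) (nat_lit 3030813255) (nat_lit 76) (nat_lit 5990453379) (nat_lit 5) (nat_lit 3) (nat_lit 4) (nat_lit 1) (nat_lit 5) (nat_lit 1) (nat_lit 353) (nat_lit 413) (nat_lit 254)) (XT.lf (nat_lit 0) (nat_lit 1872396894) (nat_lit 0) (nat_lit 1873719052) (nat_lit 152) (nat_lit 10885225211) (nat_lit 2) (nat_lit 3) (nat_lit 2) (nat_lit 1) (nat_lit 4) (nat_lit 1) (nat_lit 354) (nat_lit 413) (nat_lit 253))) (XT.nd (nat_lit 78) (nat_lit 76) (nat_lit 0) (XT.lf (nat_lit 76) (nat_lit 4946285916) (nat_lit 0) (nat_lit 4365572052) (nat_lit 76) (nat_lit 4947510136) (nat_lit 2) (nat_lit 3) (nat_lit 1) (nat_lit 1) (nat_lit 2) (nat_lit 1) (nat_lit 355) (nat_lit 413) (nat_lit 252)) (XT.lf (nat_lit 0) (nat_lit 295689356454) (nat_lit 0) (nat_lit 0) (nat_lit 0) (nat_lit 0) (nat_lit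 0) (nat_lit 0) (nat_lit 1) (nat_lit 0) (nat_lit 1) (nat_lit 0) (nat_lit 356) (nat_lit 413) (nat_lit 251))))) (XT.nd (nat_lit 234) (nat_lit 0) (nat_lit 0) (XT.nd (nat_lit 78) (nat_lit 0) (nat_lit 0) (XT.lf (nat_lit 0) (nat_lit 295689272149) (nat_lit 0) (nat_lit 0) (nat_lit 0) (nat_lit 0) (nat_lit 0) (nat_lit 0) (nat_lit 1) (nat_lit 0) (nat_lit 1) (nat_lit 0) (nat_lit 357) (nat_lit 413) (nat_lit 250)) (XT.nd (nat_lit 78) (nat_lit 0) (nat_lit 0) (XT.lf (nat_lit 0) (nat_lit 295689194089) (nat_lit 0) (nat_lit 0) (nat_lit 0) (nat_lit 0) (nat_lit 0) (nat_lit 0) (nat_lit 1) (nat_lit 0) (nat_lit 1) (nat_lit 0) (nat_lit 358) (nat_lit 413) (nat_lit 249)) (XT.lf (nat_lit 0) (nat_lit 295689121811) (nat_lit 0) (nat_lit 0) (nat_lit 0) (nat_lit 0) (nat_lit 0) (nat_lit 0) (nat_lit 1) (nat_lit 0) (nat_lit 1) (nat_lit 0) (nat_lit 359) (nat_lit 413) (nat_lit 248)))) (XT.nd (nat_lit 156) (nat_lit 0) (nat_lit 0) (XT.nd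 (nat_lit 78) (nat_lit 0) (nat_lit 0) (XT.lf (nat_lit 0) (nat_lit 295689054888) (nat_lit 0) (nat_lit 0) (nat_lit 0) (nat_lit 0) (nat_lit 0) (nat_lit 0) (nat_lit 1) (nat_lit 0) (nat_lit 1) (nat_lit 0) (nat_lit 360) (nat_lit 413) (nat_lit 247)) (XT.lf (nat_lit 0) (nat_lit 295688992921) (nat_lit 0) (nat_lit 0) (nat_lit 0) (nat_lit 0) (nat_lit 0) (nat_lit 0) (nat_lit 1) (nat_lit 0) (nat_lit 1) (nat_lit 0) (nat_lit 361) (nat_lit 413) (nat_lit 246))) (XT.nd (nat_lit 78) (nat_lit 0) (nat_lit 0) (XT.lf (nat_lit 0) (nat_lit 295688935545) (nat_lit 0) (nat_lit 0) (nat_lit 0) (nat_lit 0) (nat_lit 0) (nat_lit 0) (nat_lit 1) (nat_lit 0) (nat_lit 1) (nat_lit 0) (nat_lit 362) (nat_lit 413) (nat_lit 245)) (XT.lf (nat_lit 0) (nat_lit 295688882418) (nat_lit 0) (nat_lit 0) (nat_lit 0) (nat_lit 0) (nat_lit 0) (nat_lit 0) (nat_lit 1) (nat_lit 0) (nat_lit 1) (nat_lit 0) (nat_lit 363) (nat_lit 413) (nat_lit 244)))))))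 (XT.nd (nat_lit 1014) (nat_lit 0) (nat_lit 0) (XT.nd (nat_lit 468) (nat_lit 0) (nat_lit 0) (XT.nd (nat_lit 234) (nat_lit 0) (nat_lit 0) (XT.nd (nat_lit 78) (nat_lit 0) (nat_lit 0) (XT.lf (nat_lit 0) (nat_lit 295688833227) (nat_lit 0) (nat_lit 0) (nat_lit 0) (nat_lit 0) (nat_lit 0) (nat_lit 0) (nat_lit 1) (nat_lit 0) (nat_lit 1) (nat_lit 0) (nat_lit 364) (nat_lit 413) (nat_lit 243)) (XT.nd (nat_lit 78) (nat_lit 0) (nat_lit 0) (XT.lf (nat_lit 0) (nat_lit 295688787680) (nat_lit 0) (nat_lit 0) (nat_lit 0) (nat_lit 0) (nat_lit 0) (nat_lit 0) (nat_lit 1) (nat_lit 0) (nat_lit 1) (nat_lit 0) (nat_lit 365) (nat_lit 413) (nat_lit 242)) (XT.lf (nat_lit 0) (nat_lit 295688745507) (nat_lit 0) (nat_lit 0) (nat_lit 0) (nat_lit 0) (nat_lit 0) (nat_lit 0) (nat_lit 1) (nat_lit 0) (nat_lit 1) (nat_lit 0) (nat_lit 366) (nat_lit 413) (nat_lit 241)))) (XT.nd (nat_lit 78) (nat_lit 0) (nat_lit 0) (XT.lf (nat_lit 0) (nat_lit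 295688706457) (nat_lit 0) (nat_lit 0) (nat_lit 0) (nat_lit 0) (nat_lit 0) (nat_lit 0) (nat_lit 1) (nat_lit 0) (nat_lit 1) (nat_lit 0) (nat_lit 367) (nat_lit 413) (nat_lit 240)) (XT.nd (nat_lit 78) (nat_lit 0) (nat_lit 0) (XT.lf (nat_lit 0) (nat_lit 295688670301) (nat_lit 0) (nat_lit 0) (nat_lit 0) (nat_lit 0) (nat_lit 0) (nat_lit 0) (nat_lit 1) (nat_lit 0) (nat_lit 1) (nat_lit 0) (nat_lit 368) (nat_lit 413) (nat_lit 239)) (XT.lf (nat_lit 0) (nat_lit 295688636822) (nat_lit 0) (nat_lit 0) (nat_lit 0) (nat_lit 0) (nat_lit 0) (nat_lit 0) (nat_lit 1) (nat_lit 0) (nat_lit 1) (nat_lit 0) (nat_lit 369) (nat_lit 413) (nat_lit 238))))) (XT.nd (nat_lit 234) (nat_lit 0) (nat_lit 0) (XT.nd (nat_lit 78) (nat_lit 0) (nat_lit 0) (XT.lf (nat_lit 0) (nat_lit 295688605823) (nat_lit 0) (nat_lit 0) (nat_lit 0) (nat_lit 0) (nat_lit 0) (nat_lit 0) (nat_lit 1) (nat_lit 0) (nat_lit 1) (nat_lit 0) (nat_lit 370) (nat_lit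 413) (nat_lit 237)) (XT.nd (nat_lit 78) (nat_lit 0) (nat_lit 0) (XT.lf (nat_lit 0) (nat_lit 295688577121) (nat_lit 0) (nat_lit 0) (nat_lit 0) (nat_lit 0) (nat_lit 0) (nat_lit 0) (nat_lit 1) (nat_lit 0) (nat_lit 1) (nat_lit 0) (nat_lit 371) (nat_lit 413) (nat_lit 236)) (XT.lf (nat_lit 0) (nat_lit 295688550545) (nat_lit 0) (nat_lit 0) (nat_lit 0) (nat_lit 0) (nat_lit 0) (nat_lit 0) (nat_lit 1) (nat_lit 0) (nat_lit 1) (nat_lit 0) (nat_lit 372) (nat_lit 413) (nat_lit 235)))) (XT.nd (nat_lit 156) (nat_lit 0) (nat_lit 0) (XT.nd (nat_lit 78) (nat_lit 0) (nat_lit 0) (XT.lf (nat_lit 0) (nat_lit 295688525937) (nat_lit 0) (nat_lit 0) (nat_lit 0) (nat_lit 0) (nat_lit 0) (nat_lit 0) (nat_lit 1) (nat_lit 0) (nat_lit 1) (nat_lit 0) (nat_lit 373) (nat_lit 413) (nat_lit 234)) (XT.lf (nat_lit 0) (nat_lit 295688503152) (nat_lit 0) (nat_lit 0) (nat_lit 0) (nat_lit 0) (nat_lit 0) (nat_lit 0) (nat_lit 1) (nat_lit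 0) (nat_lit 1) (nat_lit 0) (nat_lit 374) (nat_lit 413) (nat_lit 233))) (XT.nd (nat_lit 78) (nat_lit 0) (nat_lit 0) (XT.lf (nat_lit 0) (nat_lit 295688482055) (nat_lit 0) (nat_lit 0) (nat_lit 0) (nat_lit 0) (nat_lit 0) (nat_lit 0) (nat_lit 1) (nat_lit 0) (nat_lit 1) (nat_lit 0) (nat_lit 375) (nat_lit 413) (nat_lit 232)) (XT.lf (nat_lit 0) (nat_lit 295688462520) (nat_lit 0) (nat_lit 0) (nat_lit 0) (nat_lit 0) (nat_lit 0) (nat_lit 0) (nat_lit 1) (nat_lit 0) (nat_lit 1) (nat_lit 0) (nat_lit 376) (nat_lit 413) (nat_lit 231)))))) (XT.nd (nat_lit 546) (nat_lit 0) (nat_lit 0) (XT.nd (nat_lit 234) (nat_lit 0) (nat_lit 0) (XT.nd (nat_lit 78) (nat_lit 0) (nat_lit 0) (XT.lf (nat_lit 0) (nat_lit 295688444433) (nat_lit 0) (nat_lit 0) (nat_lit 0) (nat_lit 0) (nat_lit 0) (nat_lit 0) (nat_lit 1) (nat_lit 0) (nat_lit 1) (nat_lit 0) (nat_lit 377) (nat_lit 413) (nat_lit 230)) (XT.nd (nat_lit 78) (nat_lit 0) (nat_lit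 0) (XT.lf (nat_lit 0) (nat_lit 295688427685) (nat_lit 0) (nat_lit 0) (nat_lit 0) (nat_lit 0) (nat_lit 0) (nat_lit 0) (nat_lit 1) (nat_lit 0) (nat_lit 1) (nat_lit 0) (nat_lit 378) (nat_lit 413) (nat_lit 229)) (XT.lf (nat_lit 0) (nat_lit 295688412178) (nat_lit 0) (nat_lit 0) (nat_lit 0) (nat_lit 0) (nat_lit 0) (nat_lit 0) (nat_lit 1) (nat_lit 0) (nat_lit 1) (nat_lit 0) (nat_lit 379) (nat_lit 413) (nat_lit 228)))) (XT.nd (nat_lit 156) (nat_lit 0) (nat_lit 0) (XT.nd (nat_lit 78) (nat_lit 0) (nat_lit 0) (XT.lf (nat_lit 0) (nat_lit 295688397820) (nat_lit 0) (nat_lit 0) (nat_lit 0) (nat_lit 0) (nat_lit 0) (nat_lit 0) (nat_lit 1) (nat_lit 0) (nat_lit 1) (nat_lit 0) (nat_lit 380) (nat_lit 413) (nat_lit 227)) (XT.lf (nat_lit 0) (nat_lit 295688384525) (nat_lit 0) (nat_lit 0) (nat_lit 0) (nat_lit 0) (nat_lit 0) (nat_lit 0) (nat_lit 1) (nat_lit 0) (nat_lit 1) (nat_lit 0) (nat_lit 381) (nat_lit 413) (nat_lit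 226))) (XT.nd (nat_lit 78) (nat_lit 0) (nat_lit 0) (XT.lf (nat_lit 0) (nat_lit 295688372215) (nat_lit 0) (nat_lit 0) (nat_lit 0) (nat_lit 0) (nat_lit 0) (nat_lit 0) (nat_lit 1) (nat_lit 0) (nat_lit 1) (nat_lit 0) (nat_lit 382) (nat_lit 413) (nat_lit 225)) (XT.lf (nat_lit 0) (nat_lit 295688360817) (nat_lit 0) (nat_lit 0) (nat_lit 0) (nat_lit 0) (nat_lit 0) (nat_lit 0) (nat_lit 1) (nat_lit 0) (nat_lit 1) (nat_lit 0) (nat_lit 383) (nat_lit 413) (nat_lit 224))))) (XT.nd (nat_lit 234) (nat_lit 0) (nat_lit 0) (XT.nd (nat_lit 78) (nat_lit 0) (nat_lit 0) (XT.lf (nat_lit 0) (nat_lit 295688350263) (nat_lit 0) (nat_lit 0) (nat_lit 0) (nat_lit 0) (nat_lit 0) (nat_lit 0) (nat_lit 1) (nat_lit 0) (nat_lit 1) (nat_lit 0) (nat_lit 384) (nat_lit 413) (nat_lit 223)) (XT.nd (nat_lit 78) (nat_lit 0) (nat_lit 0) (XT.lf (nat_lit 0) (nat_lit 295688340491) (nat_lit 0) (nat_lit 0) (nat_lit 0) (nat_lit 0) (nat_lit 0) (nat_lit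 0) (nat_lit 1) (nat_lit 0) (nat_lit 1) (nat_lit 0) (nat_lit 385) (nat_lit 413) (nat_lit 222)) (XT.lf (nat_lit 0) (nat_lit 295688331443) (nat_lit 0) (nat_lit 0) (nat_lit 0) (nat_lit 0) (nat_lit 0) (nat_lit 0) (nat_lit 1) (nat_lit 0) (nat_lit 1) (nat_lit 0) (nat_lit 386) (nat_lit 413) (nat_lit 221)))) (XT.nd (nat_lit 156) (nat_lit 0) (nat_lit 0) (XT.nd (nat_lit 78) (nat_lit 0) (nat_lit 0) (XT.lf (nat_lit 0) (nat_lit 295688323065) (nat_lit 0) (nat_lit 0) (nat_lit 0) (nat_lit 0) (nat_lit 0) (nat_lit 0) (nat_lit 1) (nat_lit 0) (nat_lit 1) (nat_lit 0) (nat_lit 387) (nat_lit 413) (nat_lit 220)) (XT.lf (nat_lit 0) (nat_lit 295688315307) (nat_lit 0) (nat_lit 0) (nat_lit 0) (nat_lit 0) (nat_lit 0) (nat_lit 0) (nat_lit 1) (nat_lit 0) (nat_lit 1) (nat_lit 0) (nat_lit 388) (nat_lit 413) (nat_lit 219))) (XT.nd (nat_lit 78) (nat_lit 0) (nat_lit 0) (XT.lf (nat_lit 0) (nat_lit 295688308125) (nat_lit 0) (nat_lit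 0) (nat_lit 0) (nat_lit 0) (nat_lit 0) (nat_lit 0) (nat_lit 1) (nat_lit 0) (nat_lit 1) (nat_lit 0) (nat_lit 389) (nat_lit 413) (nat_lit 218)) (XT.lf (nat_lit 0) (nat_lit 295688301474) (nat_lit 0) (nat_lit 0) (nat_lit 0) (nat_lit 0) (nat_lit 0) (nat_lit 0) (nat_lit 1) (nat_lit 0) (nat_lit 1) (nat_lit 0) (nat_lit 390) (nat_lit 413) (nat_lit 217))))))))
noncomputable def ec234 : XT := (XT.nd (nat_lit 38142) (nat_lit 0) (nat_lit 15504) (XT.nd (nat_lit 1014) (nat_lit 0) (nat_lit 0) (XT.nd (nat_lit 468) (nat_lit 0) (nat_lit 0) (XT.nd (nat_lit 234) (nat_lit 0) (nat_lit 0) (XT.nd (nat_lit 78) (nat_lit 0) (nat_lit 0) (XT.lf (nat_lit 0) (nat_lit 295688295316) (nat_lit 0) (nat_lit 0) (nat_lit 0) (nat_lit 0) (nat_lit 0) (nat_lit 0) (nat_lit 1) (nat_lit 0) (nat_lit 1) (nat_lit 0) (nat_lit 391) (nat_lit 413) (nat_lit 216)) (XT.nd (nat_lit 78) (nat_lit 0) (nat_lit 0) (XT.lf (nat_lit 0) (nat_lit 295688289614)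 (nat_lit 0) (nat_lit 0) (nat_lit 0) (nat_lit 0) (nat_lit 0) (nat_lit 0) (nat_lit 1) (nat_lit 0) (nat_lit 1) (nat_lit 0) (nat_lit 392) (nat_lit 413) (nat_lit 215)) (XT.lf (nat_lit 0) (nat_lit 295688284334) (nat_lit 0) (nat_lit 0) (nat_lit 0) (nat_lit 0) (nat_lit 0) (nat_lit 0) (nat_lit 1) (nat_lit 0) (nat_lit 1) (nat_lit 0) (nat_lit 393) (nat_lit 413) (nat_lit 214)))) (XT.nd (nat_lit 78) (nat_lit 0) (nat_lit 0) (XT.lf (nat_lit 0) (nat_lit 295688279446) (nat_lit 0) (nat_lit 0) (nat_lit 0) (nat_lit 0) (nat_lit 0) (nat_lit 0) (nat_lit 1) (nat_lit 0) (nat_lit 1) (nat_lit 0) (nat_lit 394) (nat_lit 413) (nat_lit 213)) (XT.nd (nat_lit 78) (nat_lit 0) (nat_lit 0) (XT.lf (nat_lit 0) (nat_lit 295688274920) (nat_lit 0) (nat_lit 0) (nat_lit 0) (nat_lit 0) (nat_lit 0) (nat_lit 0) (nat_lit 1) (nat_lit 0) (nat_lit 1) (nat_lit 0) (nat_lit 395) (nat_lit 413) (nat_lit 212)) (XT.lf (nat_lit 0) (nat_lit 295688270728)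 (nat_lit 0) (nat_lit 0) (nat_lit 0) (nat_lit 0) (nat_lit 0) (nat_lit 0) (nat_lit 1) (nat_lit 0) (nat_lit 1) (nat_lit 0) (nat_lit 396) (nat_lit 413) (nat_lit 211))))) (XT.nd (nat_lit 234) (nat_lit 0) (nat_lit 0) (XT.nd (nat_lit 78) (nat_lit 0) (nat_lit 0) (XT.lf (nat_lit 0) (nat_lit 295688266848) (nat_lit 0) (nat_lit 0) (nat_lit 0) (nat_lit 0) (nat_lit 0) (nat_lit 0) (nat_lit 1) (nat_lit 0) (nat_lit 1) (nat_lit 0) (nat_lit 397) (nat_lit 413) (nat_lit 210)) (XT.nd (nat_lit 78) (nat_lit 0) (nat_lit 0) (XT.lf (nat_lit 0) (nat_lit 295688263255) (nat_lit 0) (nat_lit 0) (nat_lit 0) (nat_lit 0) (nat_lit 0) (nat_lit 0) (nat_lit 1) (nat_lit 0) (nat_lit 1) (nat_lit 0) (nat_lit 398) (nat_lit 413) (nat_lit 209)) (XT.lf (nat_lit 0) (nat_lit 295688259928) (nat_lit 0) (nat_lit 0) (nat_lit 0) (nat_lit 0) (nat_lit 0) (nat_lit 0) (nat_lit 1) (nat_lit 0) (nat_lit 1) (nat_lit 0) (nat_lit 399) (nat_lit 413) (nat_lit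 208)))) (XT.nd (nat_lit 156) (nat_lit 0) (nat_lit 0) (XT.nd (nat_lit 78) (nat_lit 0) (nat_lit 0) (XT.lf (nat_lit 0) (nat_lit 295688256847) (nat_lit 0) (nat_lit 0) (nat_lit 0) (nat_lit 0) (nat_lit 0) (nat_lit 0) (nat_lit 1) (nat_lit 0) (nat_lit 1) (nat_lit 0) (nat_lit 400) (nat_lit 413) (nat_lit 207)) (XT.lf (nat_lit 0) (nat_lit 295688253995) (nat_lit 0) (nat_lit 0) (nat_lit 0) (nat_lit 0) (nat_lit 0) (nat_lit 0) (nat_lit 1) (nat_lit 0) (nat_lit 1) (nat_lit 0) (nat_lit 401) (nat_lit 413) (nat_lit 206))) (XT.nd (nat_lit 78) (nat_lit 0) (nat_lit 0) (XT.lf (nat_lit 0) (nat_lit 295688251354) (nat_lit 0) (nat_lit 0) (nat_lit 0) (nat_lit 0) (nat_lit 0) (nat_lit 0) (nat_lit 1) (nat_lit 0) (nat_lit 1) (nat_lit 0) (nat_lit 402) (nat_lit 413) (nat_lit 205)) (XT.lf (nat_lit 0) (nat_lit 295688248908) (nat_lit 0) (nat_lit 0) (nat_lit 0) (nat_lit 0) (nat_lit 0) (nat_lit 0) (nat_lit 1) (nat_lit 0) (nat_lit 1)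 (nat_lit 0) (nat_lit 403) (nat_lit 413) (nat_lit 204)))))) (XT.nd (nat_lit 468) (nat_lit 0) (nat_lit 0) (XT.nd (nat_lit 234) (nat_lit 0) (nat_lit 0) (XT.nd (nat_lit 78) (nat_lit 0) (nat_lit 0) (XT.lf (nat_lit 0) (nat_lit 295688246644) (nat_lit 0) (nat_lit 0) (nat_lit 0) (nat_lit 0) (nat_lit 0) (nat_lit 0) (nat_lit 1) (nat_lit 0) (nat_lit 1) (nat_lit 0) (nat_lit 404) (nat_lit 413) (nat_lit 203)) (XT.nd (nat_lit 78) (nat_lit 0) (nat_lit 0) (XT.lf (nat_lit 0) (nat_lit 295688244547) (nat_lit 0) (nat_lit 0) (nat_lit 0) (nat_lit 0) (nat_lit 0) (nat_lit 0) (nat_lit 1) (nat_lit 0) (nat_lit 1) (nat_lit 0) (nat_lit 405) (nat_lit 413) (nat_lit 202)) (XT.lf (nat_lit 0) (nat_lit 295688242606) (nat_lit 0) (nat_lit 0) (nat_lit 0) (nat_lit 0) (nat_lit 0) (nat_lit 0) (nat_lit 1) (nat_lit 0) (nat_lit 1) (nat_lit 0) (nat_lit 406) (nat_lit 413) (nat_lit 201)))) (XT.nd (nat_lit 78) (nat_lit 0) (nat_lit 0) (XT.lf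 (nat_lit 0) (nat_lit 295688240809) (nat_lit 0) (nat_lit 0) (nat_lit 0) (nat_lit 0) (nat_lit 0) (nat_lit 0) (nat_lit 1) (nat_lit 0) (nat_lit 1) (nat_lit 0) (nat_lit 407) (nat_lit 413) (nat_lit 200)) (XT.nd (nat_lit 78) (nat_lit 0) (nat_lit 0) (XT.lf (nat_lit 0) (nat_lit 295688239144) (nat_lit 0) (nat_lit 0) (nat_lit 0) (nat_lit 0) (nat_lit 0) (nat_lit 0) (nat_lit 1) (nat_lit 0) (nat_lit 1) (nat_lit 0) (nat_lit 408) (nat_lit 413) (nat_lit 199)) (XT.lf (nat_lit 0) (nat_lit 295688237603) (nat_lit 0) (nat_lit 0) (nat_lit 0) (nat_lit 0) (nat_lit 0) (nat_lit 0) (nat_lit 1) (nat_lit 0) (nat_lit 1) (nat_lit 0) (nat_lit 409) (nat_lit 413) (nat_lit 198))))) (XT.nd (nat_lit 234) (nat_lit 0) (nat_lit 0) (XT.nd (nat_lit 78) (nat_lit 0) (nat_lit 0) (XT.lf (nat_lit 0) (nat_lit 295688236176) (nat_lit 0) (nat_lit 0) (nat_lit 0) (nat_lit 0) (nat_lit 0) (nat_lit 0) (nat_lit 1) (nat_lit 0) (nat_lit 1) (nat_lit 0)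 (nat_lit 410) (nat_lit 413) (nat_lit 197)) (XT.nd (nat_lit 78) (nat_lit 0) (nat_lit 0) (XT.lf (nat_lit 0) (nat_lit 295688234855) (nat_lit 0) (nat_lit 0) (nat_lit 0) (nat_lit 0) (nat_lit 0) (nat_lit 0) (nat_lit 1) (nat_lit 0) (nat_lit 1) (nat_lit 0) (nat_lit 411) (nat_lit 413) (nat_lit 196)) (XT.lf (nat_lit 0) (nat_lit 295688233632) (nat_lit 0) (nat_lit 0) (nat_lit 0) (nat_lit 0) (nat_lit 0) (nat_lit 0) (nat_lit 1) (nat_lit 0) (nat_lit 1) (nat_lit 0) (nat_lit 412) (nat_lit 413) (nat_lit 195)))) (XT.nd (nat_lit 36270) (nat_lit 0) (nat_lit 22496) (XT.nd (nat_lit 36192) (nat_lit 0) (nat_lit 22420) (XT.lf (nat_lit 0) (nat_lit 295688232499) (nat_lit 0) (nat_lit 0) (nat_lit 0) (nat_lit 0) (nat_lit 0) (nat_lit 0) (nat_lit 1) (nat_lit 0) (nat_lit 1) (nat_lit 0) (nat_lit 413) (nat_lit 413) (nat_lit 194)) (XT.lf (nat_lit 836) (nat_lit 350139042766) (nat_lit 0) (nat_lit 655093598659) (nat_lit 760) (nat_lit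 33488291169) (nat_lit 306) (nat_lit 1) (nat_lit 295) (nat_lit 1) (nat_lit 305) (nat_lit 1) (nat_lit 196) (nat_lit 414) (nat_lit 410))) (XT.nd (nat_lit 78) (nat_lit 0) (nat_lit 0) (XT.lf (nat_lit 836) (nat_lit 84012430293) (nat_lit 0) (nat_lit 722422684581) (nat_lit 760) (nat_lit 195295582404) (nat_lit 307) (nat_lit 1) (nat_lit 296) (nat_lit 1) (nat_lit 306) (nat_lit 1) (nat_lit 197) (nat_lit 414) (nat_lit 409)) (XT.lf (nat_lit 836) (nat_lit 161437720275) (nat_lit 76) (nat_lit 627844142305) (nat_lit 0) (nat_lit 177185363084) (nat_lit 307) (nat_lit 1) (nat_lit 297) (nat_lit 1) (nat_lit 296) (nat_lit 1) (nat_lit 198) (nat_lit 414) (nat_lit 408))))))) (XT.nd (nat_lit 1014) (nat_lit 2660) (nat_lit 0) (XT.nd (nat_lit 468) (nat_lit 2052) (nat_lit 0) (XT.nd (nat_lit 234) (nat_lit 684) (nat_lit 0) (XT.nd (nat_lit 78) (nat_lit 912) (nat_lit 0) (XT.lf (nat_lit 836) (nat_lit 33155626470) (nat_lit 0) (nat_lit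 469355026667) (nat_lit 760) (nat_lit 430393641628) (nat_lit 298) (nat_lit 1) (nat_lit 287) (nat_lit 1) (nat_lit 297) (nat_lit 1) (nat_lit 199) (nat_lit 414) (nat_lit 407)) (XT.nd (nat_lit 78) (nat_lit 380) (nat_lit 0) (XT.lf (nat_lit 76) (nat_lit 229576464274) (nat_lit 0) (nat_lit 99486165593) (nat_lit 532) (nat_lit 571867906368) (nat_lit 281) (nat_lit 1) (nat_lit 280) (nat_lit 1) (nat_lit 287) (nat_lit 1) (nat_lit 200) (nat_lit 414) (nat_lit 406)) (XT.lf (nat_lit 456) (nat_lit 632683839484) (nat_lit 0) (nat_lit 205952229314) (nat_lit 380) (nat_lit 31841487211) (nat_lit 281) (nat_lit 1) (nat_lit 275) (nat_lit 1) (nat_lit 280) (nat_lit 1) (nat_lit 201) (nat_lit 414) (nat_lit 405)))) (XT.nd (nat_lit 78) (nat_lit 304) (nat_lit 0) (XT.lf (nat_lit 456) (nat_lit 456550683444) (nat_lit 0) (nat_lit 95995221252) (nat_lit 380) (nat_lit 288788094783) (nat_lit 276) (nat_lit 1) (nat_lit 270) (nat_lit 1) (nat_lit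 275) (nat_lit 1) (nat_lit 202) (nat_lit 414) (nat_lit 404)) (XT.nd (nat_lit 78) (nat_lit 0) (nat_lit 0) (XT.lf (nat_lit 380) (nat_lit 277805268056) (nat_lit 0) (nat_lit 1767428024) (nat_lit 304) (nat_lit 534030854558) (nat_lit 271) (nat_lit 1) (nat_lit 266) (nat_lit 1) (nat_lit 270) (nat_lit 1) (nat_lit 203) (nat_lit 414) (nat_lit 403)) (XT.lf (nat_lit 76) (nat_lit 20495159773) (nat_lit 0) (nat_lit 691196098552) (nat_lit 380) (nat_lit 75457493631) (nat_lit 267) (nat_lit 1) (nat_lit 266) (nat_lit 1) (nat_lit 271) (nat_lit 1) (nat_lit 204) (nat_lit 414) (nat_lit 402))))) (XT.nd (nat_lit 234) (nat_lit 1064) (nat_lit 0) (XT.nd (nat_lit 78) (nat_lit 608) (nat_lit 0) (XT.lf (nat_lit 76) (nat_lit 529190341166) (nat_lit 0) (nat_lit 87771880384) (nat_lit 380) (nat_lit 144751771336) (nat_lit 262) (nat_lit 1) (nat_lit 261) (nat_lit 1) (nat_lit 266) (nat_lit 1) (nat_lit 205) (nat_lit 414) (nat_lit 401))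 (XT.nd (nat_lit 78) (nat_lit 304) (nat_lit 0) (XT.lf (nat_lit 76) (nat_lit 264767337711) (nat_lit 0) (nat_lit 268860850551) (nat_lit 380) (nat_lit 203774882895) (nat_lit 258) (nat_lit 1) (nat_lit 257) (nat_lit 1) (nat_lit 262) (nat_lit 1) (nat_lit 206) (nat_lit 414) (nat_lit 400)) (XT.lf (nat_lit 76) (nat_lit 13068328678) (nat_lit 0) (nat_lit 449531167305) (nat_lit 380) (nat_lit 251643695242) (nat_lit 254) (nat_lit 1) (nat_lit 253) (nat_lit 1) (nat_lit 258) (nat_lit 1) (nat_lit 207) (nat_lit 414) (nat_lit 399)))) (XT.nd (nat_lit 156) (nat_lit 456) (nat_lit 0) (XT.nd (nat_lit 78) (nat_lit 380) (nat_lit 0) (XT.lf (nat_lit 304) (nat_lit 59015835783) (nat_lit 0) (nat_lit 399095848328) (nat_lit 228) (nat_lit 233879339343) (nat_lit 254) (nat_lit 1) (nat_lit 250) (nat_lit 1) (nat_lit 253) (nat_lit 1) (nat_lit 208) (nat_lit 414) (nat_lit 398)) (XT.lf (nat_lit 76) (nat_lit 203915579611) (nat_lit 0) (nat_lit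 139765005342) (nat_lit 380) (nat_lit 326977548122) (nat_lit 246) (nat_lit 1) (nat_lit 245) (nat_lit 1) (nat_lit 250) (nat_lit 1) (nat_lit 209) (nat_lit 414) (nat_lit 397))) (XT.nd (nat_lit 78) (nat_lit 228) (nat_lit 0) (XT.lf (nat_lit 304) (nat_lit 315710365296) (nat_lit 0) (nat_lit 296569083592) (nat_lit 228) (nat_lit 37960490723) (nat_lit 246) (nat_lit 1) (nat_lit 242) (nat_lit 1) (nat_lit 245) (nat_lit 1) (nat_lit 210) (nat_lit 414) (nat_lit 396)) (XT.lf (nat_lit 304) (nat_lit 101183646861) (nat_lit 0) (nat_lit 255333836587) (nat_lit 228) (nat_lit 274088939575) (nat_lit 243) (nat_lit 1) (nat_lit 239) (nat_lit 1) (nat_lit 242) (nat_lit 1) (nat_lit 211) (nat_lit 414) (nat_lit 395)))))) (XT.nd (nat_lit 546) (nat_lit 1140) (nat_lit 0) (XT.nd (nat_lit 234) (nat_lit 836) (nat_lit 0) (XT.nd (nat_lit 78) (nat_lit 380) (nat_lit 0) (XT.lf (nat_lit 76) (nat_lit 115324908193) (nat_lit 0) (nat_lit 105589975408)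 (nat_lit 304) (nat_lit 390873439748) (nat_lit 236) (nat_lit 1) (nat_lit 235) (nat_lit 1) (nat_lit 239) (nat_lit 1) (nat_lit 212) (nat_lit 414) (nat_lit 394)) (XT.nd (nat_lit 78) (nat_lit 152) (nat_lit 0) (XT.lf (nat_lit 304) (nat_lit 286970897681) (nat_lit 0) (nat_lit 190939800999) (nat_lit 228) (nat_lit 115748335144) (nat_lit 236) (nat_lit 1) (nat_lit 232) (nat_lit 1) (nat_lit 235) (nat_lit 1) (nat_lit 213) (nat_lit 414) (nat_lit 393)) (XT.lf (nat_lit 228) (nat_lit 71140509267) (nat_lit 0) (nat_lit 166581049184) (nat_lit 152) (nat_lit 338539571968) (nat_lit 233) (nat_lit 1) (nat_lit 230) (nat_lit 1) (nat_lit 232) (nat_lit 1) (nat_lit 214) (nat_lit 414) (nat_lit 392)))) (XT.nd (nat_lit 156) (nat_lit 380) (nat_lit 0) (XT.nd (nat_lit 78) (nat_lit 152) (nat_lit 0) (XT.lf (nat_lit 76) (nat_lit 12051656770) (nat_lit 0) (nat_lit 134860655547) (nat_lit 304) (nat_lit 412625303264) (nat_lit 227) (nat_lit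 1) (nat_lit 226) (nat_lit 1) (nat_lit 230) (nat_lit 1) (nat_lit 215) (nat_lit 414) (nat_lit 391)) (XT.lf (nat_lit 228) (nat_lit 206721266566) (nat_lit 0) (nat_lit 129183057020) (nat_lit 152) (nat_lit 207440658654) (nat_lit 227) (nat_lit 1) (nat_lit 224) (nat_lit 1) (nat_lit 226) (nat_lit 1) (nat_lit 216) (nat_lit 414) (nat_lit 390))) (XT.nd (nat_lit 78) (nat_lit 152) (nat_lit 0) (XT.lf (nat_lit 76) (nat_lit 112158320304) (nat_lit 0) (nat_lit 5180663132) (nat_lit 228) (nat_lit 410519956187) (nat_lit 222) (nat_lit 1) (nat_lit 221) (nat_lit 1) (nat_lit 224) (nat_lit 1) (nat_lit 217) (nat_lit 414) (nat_lit 389)) (XT.lf (nat_lit 228) (nat_lit 306619189424) (nat_lit 0) (nat_lit 106250424114) (nat_lit 152) (nat_lit 99953761423) (nat_lit 222) (nat_lit 1) (nat_lit 219) (nat_lit 1) (nat_lit 221) (nat_lit 1) (nat_lit 218) (nat_lit 414) (nat_lit 388))))) (XT.nd (nat_lit 234) (nat_lit 608) (nat_lit 0) (XT.nd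 (nat_lit 78) (nat_lit 380) (nat_lit 0) (XT.lf (nat_lit 228) (nat_lit 95248207324) (nat_lit 0) (nat_lit 98771518565) (nat_lit 152) (nat_lit 304342959853) (nat_lit 220) (nat_lit 1) (nat_lit 217) (nat_lit 1) (nat_lit 219) (nat_lit 1) (nat_lit 219) (nat_lit 414) (nat_lit 387)) (XT.nd (nat_lit 78) (nat_lit 152) (nat_lit 0) (XT.lf (nat_lit 228) (nat_lit 378100378375) (nat_lit 0) (nat_lit 94368169192) (nat_lit 152) (nat_lit 11971697090) (nat_lit 217) (nat_lit 1) (nat_lit 214) (nat_lit 1) (nat_lit 216) (nat_lit 1) (nat_lit 220) (nat_lit 414) (nat_lit 386)) (XT.lf (nat_lit 228) (nat_lit 169220205890) (nat_lit 0) (nat_lit 90089785659) (nat_lit 152) (nat_lit 211594672718) (nat_lit 215) (nat_lit 1) (nat_lit 212) (nat_lit 1) (nat_lit 214) (nat_lit 1) (nat_lit 221) (nat_lit 414) (nat_lit 385)))) (XT.nd (nat_lit 156) (nat_lit 304) (nat_lit 0) (XT.nd (nat_lit 78) (nat_lit 152) (nat_lit 0) (XT.lf (nat_lit 76)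 (nat_lit 57964453927) (nat_lit 0) (nat_lit 31859875833) (nat_lit 152) (nat_lit 368106175014) (nat_lit 211) (nat_lit 1) (nat_lit 210) (nat_lit 1) (nat_lit 212) (nat_lit 1) (nat_lit 222) (nat_lit 414) (nat_lit 384)) (XT.lf (nat_lit 228) (nat_lit 222026642100) (nat_lit 0) (nat_lit 88873190094) (nat_lit 152) (nat_lit 134383903666) (nat_lit 211) (nat_lit 1) (nat_lit 208) (nat_lit 1) (nat_lit 210) (nat_lit 1) (nat_lit 223) (nat_lit 414) (nat_lit 383))) (XT.nd (nat_lit 78) (nat_lit 228) (nat_lit 0) (XT.lf (nat_lit 152) (nat_lit 23909114395) (nat_lit 0) (nat_lit 91056030490) (nat_lit 76) (nat_lit 318171100222) (nat_lit 209) (nat_lit 1) (nat_lit 207) (nat_lit 1) (nat_lit 208) (nat_lit 1) (nat_lit 224) (nat_lit 414) (nat_lit 382)) (XT.lf (nat_lit 228) (nat_lit 258090062764) (nat_lit 0) (nat_lit 93126020578) (nat_lit 152) (nat_lit 70107614843) (nat_lit 207) (nat_lit 1) (nat_lit 204) (nat_lit 1) (nat_lit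 206) (nat_lit 1) (nat_lit 225) (nat_lit 414) (nat_lit 381))))))))
noncomputable def ec235 : XT := (XT.nd (nat_lit 2106) (nat_lit 3192) (nat_lit 0) (XT.nd (nat_lit 1014) (nat_lit 1672) (nat_lit 0) (XT.nd (nat_lit 468) (nat_lit 760) (nat_lit 0) (XT.nd (nat_lit 234) (nat_lit 532) (nat_lit 0) (XT.nd (nat_lit 78) (nat_lit 304) (nat_lit 0) (XT.lf (nat_lit 152) (nat_lit 64911553935) (nat_lit 0) (nat_lit 96608096328) (nat_lit 76) (nat_lit 248389607559) (nat_lit 205) (nat_lit 1) (nat_lit 203) (nat_lit 1) (nat_lit 204) (nat_lit 1) (nat_lit 226) (nat_lit 414) (nat_lit 380)) (XT.nd (nat_lit 78) (nat_lit 76) (nat_lit 0) (XT.lf (nat_lit 228) (nat_lit 280986153468) (nat_lit 0) (nat_lit 101267533396) (nat_lit 152) (nat_lit 16618869128) (nat_lit 203) (nat_lit 1) (nat_lit 200) (nat_lit 1) (nat_lit 202) (nat_lit 1) (nat_lit 227) (nat_lit 414) (nat_lit 379)) (XT.lf (nat_lit 152) (nat_lit 93416631458) (nat_lit 0)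 (nat_lit 105572620419) (nat_lit 76) (nat_lit 189142466801) (nat_lit 201) (nat_lit 1) (nat_lit 199) (nat_lit 1) (nat_lit 200) (nat_lit 1) (nat_lit 228) (nat_lit 414) (nat_lit 378)))) (XT.nd (nat_lit 78) (nat_lit 304) (nat_lit 0) (XT.lf (nat_lit 76) (nat_lit 26963757477) (nat_lit 0) (nat_lit 84632047229) (nat_lit 228) (nat_lit 266180941964) (nat_lit 197) (nat_lit 1) (nat_lit 196) (nat_lit 1) (nat_lit 199) (nat_lit 1) (nat_lit 229) (nat_lit 414) (nat_lit 377)) (XT.nd (nat_lit 78) (nat_lit 228) (nat_lit 0) (XT.lf (nat_lit 152) (nat_lit 112108386055) (nat_lit 0) (nat_lit 116811624453) (nat_lit 76) (nat_lit 138758923512) (nat_lit 197) (nat_lit 1) (nat_lit 195) (nat_lit 1) (nat_lit 196) (nat_lit 1) (nat_lit 230) (nat_lit 414) (nat_lit 376)) (XT.lf (nat_lit 76) (nat_lit 62707659928) (nat_lit 0) (nat_lit 60736608921) (nat_lit 228) (nat_lit 234491714388) (nat_lit 193) (nat_lit 1) (nat_lit 192) (nat_lit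 1) (nat_lit 195) (nat_lit 1) (nat_lit 231) (nat_lit 414) (nat_lit 375))))) (XT.nd (nat_lit 234) (nat_lit 456) (nat_lit 0) (XT.nd (nat_lit 78) (nat_lit 228) (nat_lit 0) (XT.lf (nat_lit 152) (nat_lit 123151313633) (nat_lit 0) (nat_lit 129436787908) (nat_lit 76) (nat_lit 95853859615) (nat_lit 193) (nat_lit 1) (nat_lit 191) (nat_lit 1) (nat_lit 192) (nat_lit 1) (nat_lit 232) (nat_lit 414) (nat_lit 374)) (XT.nd (nat_lit 78) (nat_lit 76) (nat_lit 0) (XT.lf (nat_lit 76) (nat_lit 92320175939) (nat_lit 0) (nat_lit 43988911962) (nat_lit 152) (nat_lit 202952394953) (nat_lit 190) (nat_lit 1) (nat_lit 189) (nat_lit 1) (nat_lit 191) (nat_lit 1) (nat_lit 233) (nat_lit 414) (nat_lit 373)) (XT.lf (nat_lit 152) (nat_lit 128287447142) (nat_lit 0) (nat_lit 142760790854) (nat_lit 76) (nat_lit 59276841755) (nat_lit 190) (nat_lit 1) (nat_lit 188) (nat_lit 1) (nat_lit 189) (nat_lit 1) (nat_lit 234) (nat_lit 414) (nat_lit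 372)))) (XT.nd (nat_lit 156) (nat_lit 228) (nat_lit 0) (XT.nd (nat_lit 78) (nat_lit 76) (nat_lit 0) (XT.lf (nat_lit 76) (nat_lit 116776438791) (nat_lit 0) (nat_lit 32816301907) (nat_lit 152) (nat_lit 172070810363) (nat_lit 187) (nat_lit 1) (nat_lit 186) (nat_lit 1) (nat_lit 188) (nat_lit 1) (nat_lit 235) (nat_lit 414) (nat_lit 371)) (XT.lf (nat_lit 152) (nat_lit 128915515147) (nat_lit 0) (nat_lit 156257769790) (nat_lit 76) (nat_lit 28070423817) (nat_lit 187) (nat_lit 1) (nat_lit 185) (nat_lit 1) (nat_lit 186) (nat_lit 1) (nat_lit 236) (nat_lit 414) (nat_lit 370))) (XT.nd (nat_lit 78) (nat_lit 76) (nat_lit 0) (XT.lf (nat_lit 76) (nat_lit 136886893054) (nat_lit 0) (nat_lit 25954218378) (nat_lit 152) (nat_lit 142221565819) (nat_lit 184) (nat_lit 1) (nat_lit 183) (nat_lit 1) (nat_lit 185) (nat_lit 1) (nat_lit 237) (nat_lit 414) (nat_lit 369)) (XT.lf (nat_lit 152) (nat_lit 126155473699) (nat_lit 0)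 (nat_lit 169531202901) (nat_lit 76) (nat_lit 1436011475) (nat_lit 184) (nat_lit 1) (nat_lit 182) (nat_lit 1) (nat_lit 183) (nat_lit 1) (nat_lit 238) (nat_lit 414) (nat_lit 368)))))) (XT.nd (nat_lit 546) (nat_lit 836) (nat_lit 0) (XT.nd (nat_lit 234) (nat_lit 456) (nat_lit 0) (XT.nd (nat_lit 78) (nat_lit 228) (nat_lit 0) (XT.lf (nat_lit 76) (nat_lit 153326446092) (nat_lit 0) (nat_lit 22388344901) (nat_lit 152) (nat_lit 113673193279) (nat_lit 181) (nat_lit 1) (nat_lit 180) (nat_lit 1) (nat_lit 182) (nat_lit 1) (nat_lit 239) (nat_lit 414) (nat_lit 367)) (XT.nd (nat_lit 78) (nat_lit 152) (nat_lit 0) (XT.lf (nat_lit 0) (nat_lit 20612549236) (nat_lit 0) (nat_lit 161326217954) (nat_lit 152) (nat_lit 99939468754) (nat_lit 179) (nat_lit 3) (nat_lit 179) (nat_lit 1) (nat_lit 181) (nat_lit 1) (nat_lit 240) (nat_lit 414) (nat_lit 366)) (XT.lf (nat_lit 76) (nat_lit 166658342742) (nat_lit 0) (nat_lit 21307457591)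 (nat_lit 152) (nat_lit 86610145936) (nat_lit 178) (nat_lit 1) (nat_lit 177) (nat_lit 1) (nat_lit 179) (nat_lit 1) (nat_lit 241) (nat_lit 414) (nat_lit 365)))) (XT.nd (nat_lit 156) (nat_lit 228) (nat_lit 0) (XT.nd (nat_lit 78) (nat_lit 152) (nat_lit 0) (XT.lf (nat_lit 0) (nat_lit 39377594739) (nat_lit 0) (nat_lit 154272157348) (nat_lit 152) (nat_lit 73818380943) (nat_lit 176) (nat_lit 3) (nat_lit 176) (nat_lit 1) (nat_lit 178) (nat_lit 1) (nat_lit 242) (nat_lit 414) (nat_lit 364)) (XT.lf (nat_lit 76) (nat_lit 177353726809) (nat_lit 0) (nat_lit 22065004427) (nat_lit 152) (nat_lit 61150595191) (nat_lit 175) (nat_lit 1) (nat_lit 174) (nat_lit 1) (nat_lit 176) (nat_lit 1) (nat_lit 243) (nat_lit 414) (nat_lit 363))) (XT.nd (nat_lit 78) (nat_lit 152) (nat_lit 0) (XT.lf (nat_lit 0) (nat_lit 55360515912) (nat_lit 0) (nat_lit 149173438546) (nat_lit 152) (nat_lit 49304698572) (nat_lit 173) (nat_lit 3) (nat_lit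 173) (nat_lit 1) (nat_lit 175) (nat_lit 1) (nat_lit 244) (nat_lit 414) (nat_lit 362)) (XT.lf (nat_lit 76) (nat_lit 185807676458) (nat_lit 0) (nat_lit 24147808293) (nat_lit 152) (nat_lit 37360810252) (nat_lit 172) (nat_lit 1) (nat_lit 171) (nat_lit 1) (nat_lit 173) (nat_lit 1) (nat_lit 245) (nat_lit 414) (nat_lit 361))))) (XT.nd (nat_lit 234) (nat_lit 532) (nat_lit 0) (XT.nd (nat_lit 78) (nat_lit 228) (nat_lit 0) (XT.lf (nat_lit 0) (nat_lit 68945285916) (nat_lit 0) (nat_lit 145544772031) (nat_lit 152) (nat_lit 26449990925) (nat_lit 170) (nat_lit 3) (nat_lit 170) (nat_lit 1) (nat_lit 172) (nat_lit 1) (nat_lit 246) (nat_lit 414) (nat_lit 360)) (XT.nd (nat_lit 78) (nat_lit 76) (nat_lit 0) (XT.lf (nat_lit 76) (nat_lit 192352356453) (nat_lit 0) (nat_lit 27150582108) (nat_lit 152) (nat_lit 15266756784) (nat_lit 169) (nat_lit 1) (nat_lit 168) (nat_lit 1) (nat_lit 170) (nat_lit 1) (nat_lit 247) (nat_lit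 414) (nat_lit 359)) (XT.lf (nat_lit 0) (nat_lit 80456654472) (nat_lit 0) (nat_lit 143001143102) (nat_lit 152) (nat_lit 5269191766) (nat_lit 167) (nat_lit 3) (nat_lit 167) (nat_lit 1) (nat_lit 169) (nat_lit 1) (nat_lit 248) (nat_lit 414) (nat_lit 358)))) (XT.nd (nat_lit 156) (nat_lit 228) (nat_lit 0) (XT.nd (nat_lit 78) (nat_lit 76) (nat_lit 0) (XT.lf (nat_lit 152) (nat_lit 192044255907) (nat_lit 0) (nat_lit 5306404397) (nat_lit 76) (nat_lit 25531628745) (nat_lit 166) (nat_lit 1) (nat_lit 164) (nat_lit 1) (nat_lit 165) (nat_lit 1) (nat_lit 249) (nat_lit 414) (nat_lit 357)) (XT.lf (nat_lit 76) (nat_lit 75678050527) (nat_lit 0) (nat_lit 14721995653) (nat_lit 76) (nat_lit 126746448716) (nat_lit 164) (nat_lit 3) (nat_lit 163) (nat_lit 1) (nat_lit 164) (nat_lit 1) (nat_lit 250) (nat_lit 414) (nat_lit 356))) (XT.nd (nat_lit 78) (nat_lit 76) (nat_lit 0) (XT.lf (nat_lit 152) (nat_lit 176508828563) (nat_lit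 0) (nat_lit 24667130983) (nat_lit 76) (nat_lit 10431739680) (nat_lit 163) (nat_lit 1) (nat_lit 161) (nat_lit 1) (nat_lit 162) (nat_lit 1) (nat_lit 251) (nat_lit 414) (nat_lit 355)) (XT.lf (nat_lit 76) (nat_lit 65631964101) (nat_lit 0) (nat_lit 33207051445) (nat_lit 76) (nat_lit 107329983395) (nat_lit 161) (nat_lit 3) (nat_lit 160) (nat_lit 1) (nat_lit 161) (nat_lit 1) (nat_lit 252) (nat_lit 414) (nat_lit 354))))))) (XT.nd (nat_lit 1014) (nat_lit 1672) (nat_lit 0) (XT.nd (nat_lit 468) (nat_lit 836) (nat_lit 0) (XT.nd (nat_lit 234) (nat_lit 304) (nat_lit 0) (XT.nd (nat_lit 78) (nat_lit 228) (nat_lit 0) (XT.lf (nat_lit 0) (nat_lit 2770216137) (nat_lit 0) (nat_lit 39540956255) (nat_lit 152) (nat_lit 158608364152) (nat_lit 158) (nat_lit 3) (nat_lit 158) (nat_lit 1) (nat_lit 160) (nat_lit 1) (nat_lit 253) (nat_lit 414) (nat_lit 353)) (XT.nd (nat_lit 78) (nat_lit 152) (nat_lit 0) (XT.lf (nat_lit 76)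 (nat_lit 55826661365) (nat_lit 0) (nat_lit 50063247582) (nat_lit 76) (nat_lit 89873642956) (nat_lit 158) (nat_lit 3) (nat_lit 157) (nat_lit 1) (nat_lit 158) (nat_lit 1) (nat_lit 254) (nat_lit 414) (nat_lit 352)) (XT.lf (nat_lit 0) (nat_lit 14088711753) (nat_lit 0) (nat_lit 44112505042) (nat_lit 152) (nat_lit 132578202236) (nat_lit 155) (nat_lit 3) (nat_lit 155) (nat_lit 1) (nat_lit 157) (nat_lit 1) (nat_lit 255) (nat_lit 414) (nat_lit 351)))) (XT.nd (nat_lit 78) (nat_lit 228) (nat_lit 0) (XT.lf (nat_lit 76) (nat_lit 46372049460) (nat_lit 0) (nat_lit 65353661547) (nat_lit 76) (nat_lit 74171858062) (nat_lit 155) (nat_lit 3) (nat_lit 154) (nat_lit 1) (nat_lit 155) (nat_lit 1) (nat_lit 256) (nat_lit 414) (nat_lit 350)) (XT.nd (nat_lit 78) (nat_lit 76) (nat_lit 0) (XT.lf (nat_lit 0) (nat_lit 24030114827) (nat_lit 0) (nat_lit 48544937227) (nat_lit 152) (nat_lit 108589018033) (nat_lit 152) (nat_lit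 3) (nat_lit 152) (nat_lit 1) (nat_lit 154) (nat_lit 1) (nat_lit 257) (nat_lit 414) (nat_lit 349)) (XT.lf (nat_lit 76) (nat_lit 37346270605) (nat_lit 0) (nat_lit 79149344245) (nat_lit 76) (nat_lit 60045180235) (nat_lit 152) (nat_lit 3) (nat_lit 151) (nat_lit 1) (nat_lit 152) (nat_lit 1) (nat_lit 258) (nat_lit 414) (nat_lit 348))))) (XT.nd (nat_lit 234) (nat_lit 456) (nat_lit 0) (XT.nd (nat_lit 78) (nat_lit 228) (nat_lit 0) (XT.lf (nat_lit 0) (nat_lit 32744598827) (nat_lit 0) (nat_lit 52761273985) (nat_lit 152) (nat_lit 86538398035) (nat_lit 149) (nat_lit 3) (nat_lit 149) (nat_lit 1) (nat_lit 151) (nat_lit 1) (nat_lit 259) (nat_lit 414) (nat_lit 347)) (XT.nd (nat_lit 78) (nat_lit 152) (nat_lit 0) (XT.lf (nat_lit 76) (nat_lit 28802316280) (nat_lit 0) (nat_lit 91526470413) (nat_lit 76) (nat_lit 47336274760) (nat_lit 149) (nat_lit 3) (nat_lit 148) (nat_lit 1) (nat_lit 149) (nat_lit 1) (nat_lit 260)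 (nat_lit 414) (nat_lit 346)) (XT.lf (nat_lit 0) (nat_lit 40363453819) (nat_lit 0) (nat_lit 56707332549) (nat_lit 152) (nat_lit 66321994073) (nat_lit 146) (nat_lit 3) (nat_lit 146) (nat_lit 1) (nat_lit 148) (nat_lit 1) (nat_lit 261) (nat_lit 414) (nat_lit 345)))) (XT.nd (nat_lit 156) (nat_lit 228) (nat_lit 0) (XT.nd (nat_lit 78) (nat_lit 152) (nat_lit 0) (XT.lf (nat_lit 76) (nat_lit 20773377581) (nat_lit 0) (nat_lit 102564102899) (nat_lit 76) (nat_lit 35906598628) (nat_lit 146) (nat_lit 3) (nat_lit 145) (nat_lit 1) (nat_lit 146) (nat_lit 1) (nat_lit 262) (nat_lit 414) (nat_lit 344)) (XT.lf (nat_lit 0) (nat_lit 47001930750) (nat_lit 0) (nat_lit 60346922854) (nat_lit 152) (nat_lit 47835290936) (nat_lit 143) (nat_lit 3) (nat_lit 143) (nat_lit 1) (nat_lit 145) (nat_lit 1) (nat_lit 263) (nat_lit 414) (nat_lit 343))) (XT.nd (nat_lit 78) (nat_lit 152) (nat_lit 0) (XT.lf (nat_lit 76) (nat_lit 13277166749)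 (nat_lit 0) (nat_lit 112342452450) (nat_lit 76) (nat_lit 25633640919) (nat_lit 143) (nat_lit 3) (nat_lit 142) (nat_lit 1) (nat_lit 143) (nat_lit 1) (nat_lit 264) (nat_lit 414) (nat_lit 342)) (XT.lf (nat_lit 0) (nat_lit 52761604770) (nat_lit 0) (nat_lit 63657966473) (nat_lit 152) (nat_lit 30974959068) (nat_lit 140) (nat_lit 3) (nat_lit 140) (nat_lit 1) (nat_lit 142) (nat_lit 1) (nat_lit 265) (nat_lit 414) (nat_lit 341)))))) (XT.nd (nat_lit 546) (nat_lit 760) (nat_lit 0) (XT.nd (nat_lit 234) (nat_lit 532) (nat_lit 0) (XT.nd (nat_lit 78) (nat_lit 304) (nat_lit 0) (XT.lf (nat_lit 76) (nat_lit 6319401544) (nat_lit 0) (nat_lit 120941536749) (nat_lit 76) (nat_lit 16408625343) (nat_lit 140) (nat_lit 3) (nat_lit 139) (nat_lit 1) (nat_lit 140) (nat_lit 1) (nat_lit 266) (nat_lit 414) (nat_lit 340)) (XT.nd (nat_lit 78) (nat_lit 152) (nat_lit 0) (XT.lf (nat_lit 0) (nat_lit 57732343271) (nat_lit 0) (nat_lit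 66629366021) (nat_lit 152) (nat_lit 15639874068) (nat_lit 137) (nat_lit 3) (nat_lit 137) (nat_lit 1) (nat_lit 139) (nat_lit 1) (nat_lit 267) (nat_lit 414) (nat_lit 339)) (XT.lf (nat_lit 76) (nat_lit 128338383450) (nat_lit 0) (nat_lit 100082024) (nat_lit 152) (nat_lit 8032815877) (nat_lit 136) (nat_lit 1) (nat_lit 135) (nat_lit 1) (nat_lit 137) (nat_lit 1) (nat_lit 268) (nat_lit 414) (nat_lit 338)))) (XT.nd (nat_lit 156) (nat_lit 228) (nat_lit 0) (XT.nd (nat_lit 78) (nat_lit 228) (nat_lit 0) (XT.lf (nat_lit 0) (nat_lit 61993948753) (nat_lit 0) (nat_lit 69258484932) (nat_lit 152) (nat_lit 1731869376) (nat_lit 134) (nat_lit 3) (nat_lit 134) (nat_lit 1) (nat_lit 136) (nat_lit 1) (nat_lit 269) (nat_lit 414) (nat_lit 337)) (XT.lf (nat_lit 152) (nat_lit 123736324496) (nat_lit 0) (nat_lit 5354503545) (nat_lit 76) (nat_lit 538631056) (nat_lit 133) (nat_lit 1) (nat_lit 131) (nat_lit 1) (nat_lit 132) (nat_lit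 1) (nat_lit 270) (nat_lit 414) (nat_lit 336))) (XT.nd (nat_lit 78) (nat_lit 152) (nat_lit 0) (XT.lf (nat_lit 76) (nat_lit 54590166265) (nat_lit 0) (nat_lit 11202266426) (nat_lit 76) (nat_lit 60521755673) (nat_lit 131) (nat_lit 3) (nat_lit 130) (nat_lit 1) (nat_lit 131) (nat_lit 1) (nat_lit 271) (nat_lit 414) (nat_lit 335)) (XT.lf (nat_lit 0) (nat_lit 6171126144) (nat_lit 0) (nat_lit 11401804635) (nat_lit 152) (nat_lit 105550712913) (nat_lit 128) (nat_lit 3) (nat_lit 128) (nat_lit 1) (nat_lit 130) (nat_lit 1) (nat_lit 272) (nat_lit 414) (nat_lit 334))))) (XT.nd (nat_lit 234) (nat_lit 456) (nat_lit 0) (XT.nd (nat_lit 78) (nat_lit 228) (nat_lit 0) (XT.lf (nat_lit 76) (nat_lit 46113379183) (nat_lit 0) (nat_lit 22911001761) (nat_lit 76) (nat_lit 50956600008) (nat_lit 128) (nat_lit 3) (nat_lit 127) (nat_lit 1) (nat_lit 128) (nat_lit 1) (nat_lit 273) (nat_lit 414) (nat_lit 333)) (XT.nd (nat_lit 78)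 (nat_lit 76) (nat_lit 0) (XT.lf (nat_lit 0) (nat_lit 12142941888) (nat_lit 0) (nat_lit 16413859722) (nat_lit 152) (nat_lit 88390527485) (nat_lit 125) (nat_lit 3) (nat_lit 125) (nat_lit 1) (nat_lit 127) (nat_lit 1) (nat_lit 274) (nat_lit 414) (nat_lit 332)) (XT.lf (nat_lit 76) (nat_lit 38293636752) (nat_lit 0) (nat_lit 33426635522) (nat_lit 76) (nat_lit 42248190302) (nat_lit 125) (nat_lit 3) (nat_lit 124) (nat_lit 1) (nat_lit 125) (nat_lit 1) (nat_lit 275) (nat_lit 414) (nat_lit 331)))) (XT.nd (nat_lit 156) (nat_lit 228) (nat_lit 0) (XT.nd (nat_lit 78) (nat_lit 76) (nat_lit 0) (XT.lf (nat_lit 0) (nat_lit 17457137740) (nat_lit 0) (nat_lit 20944398367) (nat_lit 152) (nat_lit 72682250996) (nat_lit 122) (nat_lit 3) (nat_lit 122) (nat_lit 1) (nat_lit 124) (nat_lit 1) (nat_lit 276) (nat_lit 414) (nat_lit 330)) (XT.lf (nat_lit 76) (nat_lit 31098355100) (nat_lit 0) (nat_lit 42834353344) (nat_lit 76) (nat_lit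 34327300124) (nat_lit 122) (nat_lit 3) (nat_lit 121) (nat_lit 1) (nat_lit 122) (nat_lit 1) (nat_lit 277) (nat_lit 414) (nat_lit 329))) (XT.nd (nat_lit 78) (nat_lit 76) (nat_lit 0) (XT.lf (nat_lit 0) (nat_lit 22170979519) (nat_lit 0) (nat_lit 25018373721) (nat_lit 152) (nat_lit 58327473013) (nat_lit 119) (nat_lit 3) (nat_lit 119) (nat_lit 1) (nat_lit 121) (nat_lit 1) (nat_lit 278) (nat_lit 414) (nat_lit 328)) (XT.lf (nat_lit 76) (nat_lit 24494263684) (nat_lit 0) (nat_lit 51214912917) (nat_lit 76) (nat_lit 27130739797) (nat_lit 119) (nat_lit 3) (nat_lit 118) (nat_lit 1) (nat_lit 119) (nat_lit 1) (nat_lit 279) (nat_lit 414) (nat_lit 327))))))))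
noncomputable def ec236 : XT := (XT.nd (nat_lit 2028) (nat_lit 3268) (nat_lit 0) (XT.nd (nat_lit 1014) (nat_lit 1520) (nat_lit 0) (XT.nd (nat_lit 468) (nat_lit 912) (nat_lit 0) (XT.nd (nat_lit 234) (nat_lit 304) (nat_lit 0) (XT.nd (nat_lit 78) (nat_lit 228) (nat_lit 0) (XT.lf (nat_lit 0) (nat_lit 26336574767) (nat_lit 0) (nat_lit 28661509610) (nat_lit 152) (nat_lit 45233063293) (nat_lit 116) (nat_lit 3) (nat_lit 116) (nat_lit 1) (nat_lit 118) (nat_lit 1) (nat_lit 280) (nat_lit 414) (nat_lit 326)) (XT.nd (nat_lit 78) (nat_lit 152) (nat_lit 0) (XT.lf (nat_lit 76) (nat_lit 18447984335) (nat_lit 0) (nat_lit 58644658165) (nat_lit 76) (nat_lit 20600701783) (nat_lit 116) (nat_lit 3) (nat_lit 115) (nat_lit 1) (nat_lit 116) (nat_lit 1) (nat_lit 281) (nat_lit 414) (nat_lit 325)) (XT.lf (nat_lit 0) (nat_lit 30001436840) (nat_lit 0) (nat_lit 31899776741) (nat_lit 152) (nat_lit 33311073060) (nat_lit 113)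 (nat_lit 3) (nat_lit 113) (nat_lit 1) (nat_lit 115) (nat_lit 1) (nat_lit 282) (nat_lit 414) (nat_lit 324)))) (XT.nd (nat_lit 78) (nat_lit 228) (nat_lit 0) (XT.lf (nat_lit 76) (nat_lit 12926475045) (nat_lit 0) (nat_lit 65195583343) (nat_lit 76) (nat_lit 14684197176) (nat_lit 113) (nat_lit 3) (nat_lit 112) (nat_lit 1) (nat_lit 113) (nat_lit 1) (nat_lit 283) (nat_lit 414) (nat_lit 323)) (XT.nd (nat_lit 78) (nat_lit 76) (nat_lit 0) (XT.lf (nat_lit 0) (nat_lit 33208970701) (nat_lit 0) (nat_lit 34758990216) (nat_lit 152) (nat_lit 22478598627) (nat_lit 110) (nat_lit 3) (nat_lit 110) (nat_lit 1) (nat_lit 112) (nat_lit 1) (nat_lit 284) (nat_lit 414) (nat_lit 322)) (XT.lf (nat_lit 76) (nat_lit 7897365119) (nat_lit 0) (nat_lit 70935434601) (nat_lit 76) (nat_lit 9332568374) (nat_lit 110) (nat_lit 3) (nat_lit 109) (nat_lit 1) (nat_lit 110) (nat_lit 1) (nat_lit 285) (nat_lit 414) (nat_lit 321))))) (XT.nd (nat_lit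 234) (nat_lit 532) (nat_lit 0) (XT.nd (nat_lit 78) (nat_lit 228) (nat_lit 0) (XT.lf (nat_lit 0) (nat_lit 35998893182) (nat_lit 0) (nat_lit 37264504518) (nat_lit 152) (nat_lit 12657617716) (nat_lit 107) (nat_lit 3) (nat_lit 107) (nat_lit 1) (nat_lit 109) (nat_lit 1) (nat_lit 286) (nat_lit 414) (nat_lit 320)) (XT.nd (nat_lit 78) (nat_lit 152) (nat_lit 0) (XT.lf (nat_lit 76) (nat_lit 3329203283) (nat_lit 0) (nat_lit 75927839045) (nat_lit 76) (nat_lit 4501065631) (nat_lit 107) (nat_lit 3) (nat_lit 106) (nat_lit 1) (nat_lit 107) (nat_lit 1) (nat_lit 287) (nat_lit 414) (nat_lit 319)) (XT.lf (nat_lit 0) (nat_lit 38407598285) (nat_lit 0) (nat_lit 39440986599) (nat_lit 152) (nat_lit 3774806703) (nat_lit 104) (nat_lit 3) (nat_lit 104) (nat_lit 1) (nat_lit 106) (nat_lit 1) (nat_lit 288) (nat_lit 414) (nat_lit 318)))) (XT.nd (nat_lit 156) (nat_lit 228) (nat_lit 0) (XT.nd (nat_lit 78) (nat_lit 76) (nat_lit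 0) (XT.lf (nat_lit 152) (nat_lit 78778483233) (nat_lit 0) (nat_lit 668667018) (nat_lit 76) (nat_lit 124263737) (nat_lit 103) (nat_lit 1) (nat_lit 101) (nat_lit 1) (nat_lit 102) (nat_lit 1) (nat_lit 289) (nat_lit 414) (nat_lit 317)) (XT.lf (nat_lit 76) (nat_lit 36158037860) (nat_lit 0) (nat_lit 4378803709) (nat_lit 76) (nat_lit 37001813020) (nat_lit 101) (nat_lit 3) (nat_lit 100) (nat_lit 1) (nat_lit 101) (nat_lit 1) (nat_lit 290) (nat_lit 414) (nat_lit 316))) (XT.nd (nat_lit 78) (nat_lit 76) (nat_lit 0) (XT.lf (nat_lit 0) (nat_lit 3849891570) (nat_lit 0) (nat_lit 4593961376) (nat_lit 152) (nat_lit 67140315968) (nat_lit 98) (nat_lit 3) (nat_lit 98) (nat_lit 1) (nat_lit 100) (nat_lit 1) (nat_lit 291) (nat_lit 414) (nat_lit 315)) (XT.lf (nat_lit 76) (nat_lit 30571041925) (nat_lit 0) (nat_lit 11825784782) (nat_lit 76) (nat_lit 31259995450) (nat_lit 98) (nat_lit 3) (nat_lit 97) (nat_lit 1) (nat_lit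 98) (nat_lit 1) (nat_lit 292) (nat_lit 414) (nat_lit 314)))))) (XT.nd (nat_lit 468) (nat_lit 836) (nat_lit 0) (XT.nd (nat_lit 234) (nat_lit 304) (nat_lit 0) (XT.nd (nat_lit 78) (nat_lit 228) (nat_lit 0) (XT.lf (nat_lit 0) (nat_lit 7408600692) (nat_lit 0) (nat_lit 8016143482) (nat_lit 152) (nat_lit 56373076736) (nat_lit 95) (nat_lit 3) (nat_lit 95) (nat_lit 1) (nat_lit 97) (nat_lit 1) (nat_lit 293) (nat_lit 414) (nat_lit 313)) (XT.nd (nat_lit 78) (nat_lit 152) (nat_lit 0) (XT.lf (nat_lit 76) (nat_lit 25452086333) (nat_lit 0) (nat_lit 18503746993) (nat_lit 76) (nat_lit 26014625953) (nat_lit 95) (nat_lit 3) (nat_lit 94) (nat_lit 1) (nat_lit 95) (nat_lit 1) (nat_lit 294) (nat_lit 414) (nat_lit 312)) (XT.lf (nat_lit 0) (nat_lit 10588577911) (nat_lit 0) (nat_lit 11084644596) (nat_lit 152) (nat_lit 46529016165) (nat_lit 92) (nat_lit 3) (nat_lit 92) (nat_lit 1) (nat_lit 94) (nat_lit 1) (nat_lit 295)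 (nat_lit 414) (nat_lit 311)))) (XT.nd (nat_lit 78) (nat_lit 228) (nat_lit 0) (XT.lf (nat_lit 76) (nat_lit 20769607788) (nat_lit 0) (nat_lit 24471095806) (nat_lit 76) (nat_lit 21228928793) (nat_lit 92) (nat_lit 3) (nat_lit 91) (nat_lit 1) (nat_lit 92) (nat_lit 1) (nat_lit 296) (nat_lit 414) (nat_lit 310)) (XT.nd (nat_lit 78) (nat_lit 76) (nat_lit 0) (XT.lf (nat_lit 0) (nat_lit 13420105442) (nat_lit 0) (nat_lit 13825150420) (nat_lit 152) (nat_lit 37542469881) (nat_lit 89) (nat_lit 3) (nat_lit 89) (nat_lit 1) (nat_lit 91) (nat_lit 1) (nat_lit 297) (nat_lit 414) (nat_lit 309)) (XT.lf (nat_lit 76) (nat_lit 16493725671) (nat_lit 0) (nat_lit 29782430233) (nat_lit 76) (nat_lit 16868767317) (nat_lit 89) (nat_lit 3) (nat_lit 88) (nat_lit 1) (nat_lit 89) (nat_lit 1) (nat_lit 298) (nat_lit 414) (nat_lit 308))))) (XT.nd (nat_lit 234) (nat_lit 456) (nat_lit 0) (XT.nd (nat_lit 78) (nat_lit 228) (nat_lit 0)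 (XT.lf (nat_lit 0) (nat_lit 15931208910) (nat_lit 0) (nat_lit 16261933466) (nat_lit 152) (nat_lit 29351945765) (nat_lit 86) (nat_lit 3) (nat_lit 86) (nat_lit 1) (nat_lit 88) (nat_lit 1) (nat_lit 299) (nat_lit 414) (nat_lit 307)) (XT.nd (nat_lit 78) (nat_lit 152) (nat_lit 0) (XT.lf (nat_lit 76) (nat_lit 12596212338) (nat_lit 0) (nat_lit 34488749385) (nat_lit 76) (nat_lit 12902438778) (nat_lit 86) (nat_lit 3) (nat_lit 85) (nat_lit 1) (nat_lit 86) (nat_lit 1) (nat_lit 300) (nat_lit 414) (nat_lit 306)) (XT.lf (nat_lit 0) (nat_lit 18147835780) (nat_lit 0) (nat_lit 18417876733) (nat_lit 152) (nat_lit 21899894352) (nat_lit 83) (nat_lit 3) (nat_lit 83) (nat_lit 1) (nat_lit 85) (nat_lit 1) (nat_lit 301) (nat_lit 414) (nat_lit 305)))) (XT.nd (nat_lit 156) (nat_lit 228) (nat_lit 0) (XT.nd (nat_lit 78) (nat_lit 152) (nat_lit 0) (XT.lf (nat_lit 76) (nat_lit 9050451020) (nat_lit 0) (nat_lit 38637653470) (nat_lit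 76) (nat_lit 9300488939) (nat_lit 83) (nat_lit 3) (nat_lit 82) (nat_lit 1) (nat_lit 83) (nat_lit 1) (nat_lit 302) (nat_lit 414) (nat_lit 304)) (XT.lf (nat_lit 0) (nat_lit 20094016575) (nat_lit 0) (nat_lit 20314508567) (nat_lit 152) (nat_lit 15132487033) (nat_lit 80) (nat_lit 3) (nat_lit 80) (nat_lit 1) (nat_lit 82) (nat_lit 1) (nat_lit 303) (nat_lit 414) (nat_lit 303))) (XT.nd (nat_lit 78) (nat_lit 152) (nat_lit 0) (XT.lf (nat_lit 76) (nat_lit 5831384692) (nat_lit 0) (nat_lit 42273538223) (nat_lit 76) (nat_lit 6035543943) (nat_lit 80) (nat_lit 3) (nat_lit 79) (nat_lit 1) (nat_lit 80) (nat_lit 1) (nat_lit 304) (nat_lit 414) (nat_lit 302)) (XT.lf (nat_lit 0) (nat_lit 21792011054) (nat_lit 0) (nat_lit 21972045668) (nat_lit 152) (nat_lit 8999402729) (nat_lit 77) (nat_lit 3) (nat_lit 77) (nat_lit 1) (nat_lit 79) (nat_lit 1) (nat_lit 305) (nat_lit 414) (nat_lit 301))))))) (XT.nd (nat_lit 1014) (nat_lit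 1672) (nat_lit 0) (XT.nd (nat_lit 468) (nat_lit 836) (nat_lit 0) (XT.nd (nat_lit 234) (nat_lit 456) (nat_lit 0) (XT.nd (nat_lit 78) (nat_lit 228) (nat_lit 0) (XT.lf (nat_lit 76) (nat_lit 2915458591) (nat_lit 0) (nat_lit 45437782071) (nat_lit 76) (nat_lit 3082157308) (nat_lit 77) (nat_lit 3) (nat_lit 76) (nat_lit 1) (nat_lit 77) (nat_lit 1) (nat_lit 306) (nat_lit 414) (nat_lit 300)) (XT.nd (nat_lit 78) (nat_lit 76) (nat_lit 0) (XT.lf (nat_lit 0) (nat_lit 23262441202) (nat_lit 0) (nat_lit 23409441834) (nat_lit 152) (nat_lit 3453623478) (nat_lit 74) (nat_lit 3) (nat_lit 74) (nat_lit 1) (nat_lit 76) (nat_lit 1) (nat_lit 307) (nat_lit 414) (nat_lit 299)) (XT.lf (nat_lit 76) (nat_lit 280558549) (nat_lit 0) (nat_lit 48168925574) (nat_lit 76) (nat_lit 416670245) (nat_lit 74) (nat_lit 3) (nat_lit 73) (nat_lit 1) (nat_lit 74) (nat_lit 1) (nat_lit 308) (nat_lit 414) (nat_lit 298)))) (XT.nd (nat_lit 78)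 (nat_lit 228) (nat_lit 0) (XT.lf (nat_lit 76) (nat_lit 22949422750) (nat_lit 0) (nat_lit 1599969847) (nat_lit 76) (nat_lit 23069450701) (nat_lit 71) (nat_lit 3) (nat_lit 70) (nat_lit 1) (nat_lit 71) (nat_lit 1) (nat_lit 309) (nat_lit 414) (nat_lit 297)) (XT.nd (nat_lit 78) (nat_lit 76) (nat_lit 0) (XT.lf (nat_lit 0) (nat_lit 2018980123) (nat_lit 0) (nat_lit 2124824877) (nat_lit 152) (nat_lit 42275544020) (nat_lit 68) (nat_lit 3) (nat_lit 68) (nat_lit 1) (nat_lit 70) (nat_lit 1) (nat_lit 310) (nat_lit 414) (nat_lit 296)) (XT.lf (nat_lit 76) (nat_lit 19444448645) (nat_lit 0) (nat_lit 6248737051) (nat_lit 76) (nat_lit 19542453046) (nat_lit 68) (nat_lit 3) (nat_lit 67) (nat_lit 1) (nat_lit 68) (nat_lit 1) (nat_lit 311) (nat_lit 414) (nat_lit 295))))) (XT.nd (nat_lit 234) (nat_lit 456) (nat_lit 0) (XT.nd (nat_lit 78) (nat_lit 228) (nat_lit 0) (XT.lf (nat_lit 0) (nat_lit 4207783696) (nat_lit 0) (nat_lit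 4294207330) (nat_lit 152) (nat_lit 35592665528) (nat_lit 65) (nat_lit 3) (nat_lit 65) (nat_lit 1) (nat_lit 67) (nat_lit 1) (nat_lit 312) (nat_lit 414) (nat_lit 294)) (XT.nd (nat_lit 78) (nat_lit 152) (nat_lit 0) (XT.lf (nat_lit 76) (nat_lit 16237136903) (nat_lit 0) (nat_lit 10417993528) (nat_lit 76) (nat_lit 16317158787) (nat_lit 65) (nat_lit 3) (nat_lit 64) (nat_lit 1) (nat_lit 65) (nat_lit 1) (nat_lit 313) (nat_lit 414) (nat_lit 293)) (XT.lf (nat_lit 0) (nat_lit 6166573346) (nat_lit 0) (nat_lit 6237139382) (nat_lit 152) (nat_lit 29483240261) (nat_lit 62) (nat_lit 3) (nat_lit 62) (nat_lit 1) (nat_lit 64) (nat_lit 1) (nat_lit 314) (nat_lit 414) (nat_lit 292)))) (XT.nd (nat_lit 156) (nat_lit 228) (nat_lit 0) (XT.nd (nat_lit 78) (nat_lit 152) (nat_lit 0) (XT.lf (nat_lit 76) (nat_lit 13306404315) (nat_lit 0) (nat_lit 14144584657) (nat_lit 76) (nat_lit 13371743236) (nat_lit 62) (nat_lit 3) (nat_lit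 61) (nat_lit 1) (nat_lit 62) (nat_lit 1) (nat_lit 315) (nat_lit 414) (nat_lit 291)) (XT.lf (nat_lit 0) (nat_lit 7913304475) (nat_lit 0) (nat_lit 7970922572) (nat_lit 152) (nat_lit 23906090260) (nat_lit 59) (nat_lit 3) (nat_lit 59) (nat_lit 1) (nat_lit 61) (nat_lit 1) (nat_lit 316) (nat_lit 414) (nat_lit 290))) (XT.nd (nat_lit 78) (nat_lit 152) (nat_lit 0) (XT.lf (nat_lit 76) (nat_lit 10632503395) (nat_lit 0) (nat_lit 17462857600) (nat_lit 76) (nat_lit 10685853485) (nat_lit 59) (nat_lit 3) (nat_lit 58) (nat_lit 1) (nat_lit 59) (nat_lit 1) (nat_lit 317) (nat_lit 414) (nat_lit 289)) (XT.lf (nat_lit 0) (nat_lit 9464673415) (nat_lit 0) (nat_lit 9511719349) (nat_lit 152) (nat_lit 18822737879) (nat_lit 56) (nat_lit 3) (nat_lit 56) (nat_lit 1) (nat_lit 58) (nat_lit 1) (nat_lit 318) (nat_lit 414) (nat_lit 288)))))) (XT.nd (nat_lit 546) (nat_lit 912) (nat_lit 0) (XT.nd (nat_lit 234) (nat_lit 456) (nat_lit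 0) (XT.nd (nat_lit 78) (nat_lit 228) (nat_lit 0) (XT.lf (nat_lit 76) (nat_lit 8196949177) (nat_lit 0) (nat_lit 20404816619) (nat_lit 76) (nat_lit 8240510228) (nat_lit 56) (nat_lit 3) (nat_lit 55) (nat_lit 1) (nat_lit 56) (nat_lit 1) (nat_lit 319) (nat_lit 414) (nat_lit 287)) (XT.nd (nat_lit 78) (nat_lit 76) (nat_lit 0) (XT.lf (nat_lit 0) (nat_lit 10836203274) (nat_lit 0) (nat_lit 10874616898) (nat_lit 152) (nat_lit 14197240439) (nat_lit 53) (nat_lit 3) (nat_lit 53) (nat_lit 1) (nat_lit 55) (nat_lit 1) (nat_lit 320) (nat_lit 414) (nat_lit 286)) (XT.lf (nat_lit 76) (nat_lit 5982448445) (nat_lit 0) (nat_lit 23000269803) (nat_lit 76) (nat_lit 6018016615) (nat_lit 53) (nat_lit 3) (nat_lit 52) (nat_lit 1) (nat_lit 53) (nat_lit 1) (nat_lit 321) (nat_lit 414) (nat_lit 285)))) (XT.nd (nat_lit 156) (nat_lit 228) (nat_lit 0) (XT.nd (nat_lit 78) (nat_lit 76) (nat_lit 0) (XT.lf (nat_lit 0) (nat_lit 12042323577)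 (nat_lit 0) (nat_lit 12073688807) (nat_lit 152) (nat_lit 9996034080) (nat_lit 50) (nat_lit 3) (nat_lit 50) (nat_lit 1) (nat_lit 52) (nat_lit 1) (nat_lit 322) (nat_lit 414) (nat_lit 284)) (XT.lf (nat_lit 76) (nat_lit 3972831630) (nat_lit 0) (nat_lit 25276967545) (nat_lit 76) (nat_lit 4001873509) (nat_lit 50) (nat_lit 3) (nat_lit 49) (nat_lit 1) (nat_lit 50) (nat_lit 1) (nat_lit 323) (nat_lit 414) (nat_lit 283))) (XT.nd (nat_lit 78) (nat_lit 76) (nat_lit 0) (XT.lf (nat_lit 0) (nat_lit 13096444259) (nat_lit 0) (nat_lit 13122054382) (nat_lit 152) (nat_lit 6187786425) (nat_lit 47) (nat_lit 3) (nat_lit 47) (nat_lit 1) (nat_lit 49) (nat_lit 1) (nat_lit 324) (nat_lit 414) (nat_lit 282)) (XT.lf (nat_lit 76) (nat_lit 2152987533) (nat_lit 0) (nat_lit 27260733105) (nat_lit 76) (nat_lit 2176700610) (nat_lit 47) (nat_lit 3) (nat_lit 46) (nat_lit 1) (nat_lit 47) (nat_lit 1) (nat_lit 325) (nat_lit 414) (nat_lit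 281))))) (XT.nd (nat_lit 234) (nat_lit 456) (nat_lit 0) (XT.nd (nat_lit 78) (nat_lit 304) (nat_lit 0) (XT.lf (nat_lit 0) (nat_lit 14011024470) (nat_lit 0) (nat_lit 14031935472) (nat_lit 152) (nat_lit 2743257671) (nat_lit 44) (nat_lit 3) (nat_lit 44) (nat_lit 1) (nat_lit 46) (nat_lit 1) (nat_lit 326) (nat_lit 414) (nat_lit 280)) (XT.nd (nat_lit 78) (nat_lit 228) (nat_lit 0) (XT.lf (nat_lit 76) (nat_lit 508800933) (nat_lit 0) (nat_lit 28975585604) (nat_lit 76) (nat_lit 528162973) (nat_lit 44) (nat_lit 3) (nat_lit 43) (nat_lit 1) (nat_lit 44) (nat_lit 1) (nat_lit 327) (nat_lit 414) (nat_lit 279)) (XT.lf (nat_lit 76) (nat_lit 14426627755) (nat_lit 0) (nat_lit 376893224) (nat_lit 76) (nat_lit 14443701864) (nat_lit 41) (nat_lit 3) (nat_lit 40) (nat_lit 1) (nat_lit 41) (nat_lit 1) (nat_lit 328) (nat_lit 414) (nat_lit 278)))) (XT.nd (nat_lit 156) (nat_lit 228) (nat_lit 0) (XT.nd (nat_lit 78) (nat_lit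 76) (nat_lit 0) (XT.lf (nat_lit 0) (nat_lit 973293627) (nat_lit 0) (nat_lit 988350160) (nat_lit 152) (nat_lit 26549119049) (nat_lit 38) (nat_lit 3) (nat_lit 38) (nat_lit 1) (nat_lit 40) (nat_lit 1) (nat_lit 329) (nat_lit 414) (nat_lit 277)) (XT.lf (nat_lit 76) (nat_lit 12251560339) (nat_lit 0) (nat_lit 3266464368) (nat_lit 76) (nat_lit 12265501574) (nat_lit 38) (nat_lit 3) (nat_lit 37) (nat_lit 1) (nat_lit 38) (nat_lit 1) (nat_lit 330) (nat_lit 414) (nat_lit 276))) (XT.nd (nat_lit 78) (nat_lit 76) (nat_lit 0) (XT.lf (nat_lit 0) (nat_lit 2329505184) (nat_lit 0) (nat_lit 2341799042) (nat_lit 152) (nat_lit 22411675292) (nat_lit 35) (nat_lit 3) (nat_lit 35) (nat_lit 1) (nat_lit 37) (nat_lit 1) (nat_lit 331) (nat_lit 414) (nat_lit 275)) (XT.lf (nat_lit 76) (nat_lit 10261393305) (nat_lit 0) (nat_lit 5859252668) (nat_lit 76) (nat_lit 10272776506) (nat_lit 35) (nat_lit 3) (nat_lit 34) (nat_lit 1) (nat_lit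 35) (nat_lit 1) (nat_lit 332) (nat_lit 414) (nat_lit 274))))))))
noncomputable def ec237 : XT := (XT.nd (nat_lit 2106) (nat_lit 0) (nat_lit 0) (XT.nd (nat_lit 1014) (nat_lit 1064) (nat_lit 0) (XT.nd (nat_lit 468) (nat_lit 836) (nat_lit 0) (XT.nd (nat_lit 234) (nat_lit 304) (nat_lit 0) (XT.nd (nat_lit 78) (nat_lit 228) (nat_lit 0) (XT.lf (nat_lit 0) (nat_lit 3544211199) (nat_lit 0) (nat_lit 3554249296) (nat_lit 152) (nat_lit 18628571590) (nat_lit 32) (nat_lit 3) (nat_lit 32) (nat_lit 1) (nat_lit 34) (nat_lit 1) (nat_lit 333) (nat_lit 414) (nat_lit 273)) (XT.nd (nat_lit 78) (nat_lit 152) (nat_lit 0) (XT.lf (nat_lit 76) (nat_lit 8442902754) (nat_lit 0) (nat_lit 8178092823) (nat_lit 76) (nat_lit 8452197288) (nat_lit 32) (nat_lit 3) (nat_lit 31) (nat_lit 1) (nat_lit 32) (nat_lit 1) (nat_lit 334) (nat_lit 414) (nat_lit 272)) (XT.lf (nat_lit 0) (nat_lit 4628380073) (nat_lit 0) (nat_lit 4636576311) (nat_lit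 152) (nat_lit 15174331893) (nat_lit 29) (nat_lit 3) (nat_lit 29) (nat_lit 1) (nat_lit 31) (nat_lit 1) (nat_lit 335) (nat_lit 414) (nat_lit 271)))) (XT.nd (nat_lit 78) (nat_lit 228) (nat_lit 0) (XT.lf (nat_lit 76) (nat_lit 6783729949) (nat_lit 0) (nat_lit 10244258835) (nat_lit 76) (nat_lit 6791319058) (nat_lit 29) (nat_lit 3) (nat_lit 28) (nat_lit 1) (nat_lit 29) (nat_lit 1) (nat_lit 336) (nat_lit 414) (nat_lit 270)) (XT.nd (nat_lit 78) (nat_lit 76) (nat_lit 0) (XT.lf (nat_lit 0) (nat_lit 5592223258) (nat_lit 0) (nat_lit 5598915594) (nat_lit 152) (nat_lit 12025161682) (nat_lit 26) (nat_lit 3) (nat_lit 26) (nat_lit 1) (nat_lit 28) (nat_lit 1) (nat_lit 337) (nat_lit 414) (nat_lit 269)) (XT.lf (nat_lit 76) (nat_lit 5272328431) (nat_lit 0) (nat_lit 12077563624) (nat_lit 76) (nat_lit 5278525038) (nat_lit 26) (nat_lit 3) (nat_lit 25) (nat_lit 1) (nat_lit 26) (nat_lit 1) (nat_lit 338) (nat_lit 414) (nat_lit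 268))))) (XT.nd (nat_lit 234) (nat_lit 456) (nat_lit 0) (XT.nd (nat_lit 78) (nat_lit 228) (nat_lit 0) (XT.lf (nat_lit 0) (nat_lit 6445244688) (nat_lit 0) (nat_lit 6450709068) (nat_lit 152) (nat_lit 9158842768) (nat_lit 23) (nat_lit 3) (nat_lit 23) (nat_lit 1) (nat_lit 25) (nat_lit 1) (nat_lit 339) (nat_lit 414) (nat_lit 267)) (XT.nd (nat_lit 78) (nat_lit 152) (nat_lit 0) (XT.lf (nat_lit 76) (nat_lit 3897914081) (nat_lit 0) (nat_lit 13696452648) (nat_lit 76) (nat_lit 3902973693) (nat_lit 23) (nat_lit 3) (nat_lit 22) (nat_lit 1) (nat_lit 23) (nat_lit 1) (nat_lit 340) (nat_lit 414) (nat_lit 266)) (XT.lf (nat_lit 0) (nat_lit 7196287031) (nat_lit 0) (nat_lit 7200748769) (nat_lit 152) (nat_lit 6554634380) (nat_lit 20) (nat_lit 3) (nat_lit 20) (nat_lit 1) (nat_lit 22) (nat_lit 1) (nat_lit 341) (nat_lit 414) (nat_lit 265)))) (XT.nd (nat_lit 156) (nat_lit 228) (nat_lit 0) (XT.nd (nat_lit 78) (nat_lit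 152) (nat_lit 0) (XT.lf (nat_lit 76) (nat_lit 2650417989) (nat_lit 0) (nat_lit 15118091824) (nat_lit 76) (nat_lit 2654549228) (nat_lit 20) (nat_lit 3) (nat_lit 19) (nat_lit 1) (nat_lit 20) (nat_lit 1) (nat_lit 342) (nat_lit 414) (nat_lit 264)) (XT.lf (nat_lit 0) (nat_lit 7853574964) (nat_lit 0) (nat_lit 7857218032) (nat_lit 152) (nat_lit 4193180191) (nat_lit 17) (nat_lit 3) (nat_lit 17) (nat_lit 1) (nat_lit 19) (nat_lit 1) (nat_lit 343) (nat_lit 414) (nat_lit 263))) (XT.nd (nat_lit 78) (nat_lit 152) (nat_lit 0) (XT.lf (nat_lit 76) (nat_lit 1520442008) (nat_lit 0) (nat_lit 16358450102) (nat_lit 76) (nat_lit 1523815219) (nat_lit 17) (nat_lit 3) (nat_lit 16) (nat_lit 1) (nat_lit 17) (nat_lit 1) (nat_lit 344) (nat_lit 414) (nat_lit 262)) (XT.lf (nat_lit 0) (nat_lit 8424755678) (nat_lit 0) (nat_lit 8427730292) (nat_lit 152) (nat_lit 2056420946) (nat_lit 14) (nat_lit 3) (nat_lit 14) (nat_lit 1) (nat_lit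 16) (nat_lit 1) (nat_lit 345) (nat_lit 414) (nat_lit 261)))))) (XT.nd (nat_lit 546) (nat_lit 152) (nat_lit 0) (XT.nd (nat_lit 234) (nat_lit 456) (nat_lit 0) (XT.nd (nat_lit 78) (nat_lit 380) (nat_lit 0) (XT.lf (nat_lit 76) (nat_lit 499216880) (nat_lit 0) (nat_lit 17432376975) (nat_lit 76) (nat_lit 501971152) (nat_lit 14) (nat_lit 3) (nat_lit 13) (nat_lit 1) (nat_lit 14) (nat_lit 1) (nat_lit 346) (nat_lit 414) (nat_lit 260)) (XT.nd (nat_lit 78) (nat_lit 228) (nat_lit 0) (XT.lf (nat_lit 0) (nat_lit 8916936800) (nat_lit 0) (nat_lit 8919365611) (nat_lit 152) (nat_lit 127512368) (nat_lit 11) (nat_lit 3) (nat_lit 11) (nat_lit 1) (nat_lit 13) (nat_lit 1) (nat_lit 347) (nat_lit 414) (nat_lit 259)) (XT.lf (nat_lit 0) (nat_lit 426132226) (nat_lit 0) (nat_lit 428274034) (nat_lit 152) (nat_lit 16657298194) (nat_lit 8) (nat_lit 3) (nat_lit 8) (nat_lit 1) (nat_lit 10) (nat_lit 1) (nat_lit 348) (nat_lit 414)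 (nat_lit 258)))) (XT.nd (nat_lit 156) (nat_lit 228) (nat_lit 0) (XT.nd (nat_lit 78) (nat_lit 152) (nat_lit 0) (XT.lf (nat_lit 76) (nat_lit 7700216473) (nat_lit 0) (nat_lit 1662461086) (nat_lit 76) (nat_lit 7702199629) (nat_lit 8) (nat_lit 3) (nat_lit 7) (nat_lit 1) (nat_lit 8) (nat_lit 1) (nat_lit 349) (nat_lit 414) (nat_lit 257)) (XT.lf (nat_lit 0) (nat_lit 1267817987) (nat_lit 0) (nat_lit 1269566802) (nat_lit 152) (nat_lit 14097330089) (nat_lit 5) (nat_lit 3) (nat_lit 5) (nat_lit 1) (nat_lit 7) (nat_lit 1) (nat_lit 350) (nat_lit 414) (nat_lit 256))) (XT.nd (nat_lit 78) (nat_lit 152) (nat_lit 0) (XT.lf (nat_lit 76) (nat_lit 6468070377) (nat_lit 0) (nat_lit 3273278316) (nat_lit 76) (nat_lit 6469689650) (nat_lit 5) (nat_lit 3) (nat_lit 4) (nat_lit 1) (nat_lit 5) (nat_lit 1) (nat_lit 351) (nat_lit 414) (nat_lit 255)) (XT.lf (nat_lit 0) (nat_lit 2022188646) (nat_lit 0) (nat_lit 2023616576) (nat_lit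 152) (nat_lit 11756043228) (nat_lit 2) (nat_lit 3) (nat_lit 2) (nat_lit 1) (nat_lit 4) (nat_lit 1) (nat_lit 352) (nat_lit 414) (nat_lit 254))))) (XT.nd (nat_lit 234) (nat_lit 0) (nat_lit 0) (XT.nd (nat_lit 78) (nat_lit 76) (nat_lit 0) (XT.lf (nat_lit 76) (nat_lit 5341988789) (nat_lit 0) (nat_lit 4714817816) (nat_lit 76) (nat_lit 5343310947) (nat_lit 2) (nat_lit 3) (nat_lit 1) (nat_lit 1) (nat_lit 2) (nat_lit 1) (nat_lit 353) (nat_lit 414) (nat_lit 253)) (XT.nd (nat_lit 78) (nat_lit 0) (nat_lit 0) (XT.lf (nat_lit 0) (nat_lit 319344504970) (nat_lit 0) (nat_lit 0) (nat_lit 0) (nat_lit 0) (nat_lit 0) (nat_lit 0) (nat_lit 1) (nat_lit 0) (nat_lit 1) (nat_lit 0) (nat_lit 354) (nat_lit 414) (nat_lit 252)) (XT.lf (nat_lit 0) (nat_lit 319344413921) (nat_lit 0) (nat_lit 0) (nat_lit 0) (nat_lit 0) (nat_lit 0) (nat_lit 0) (nat_lit 1) (nat_lit 0) (nat_lit 1) (nat_lit 0) (nat_lit 355) (nat_lit 414) (nat_lit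 251)))) (XT.nd (nat_lit 156) (nat_lit 0) (nat_lit 0) (XT.nd (nat_lit 78) (nat_lit 0) (nat_lit 0) (XT.lf (nat_lit 0) (nat_lit 319344329616) (nat_lit 0) (nat_lit 0) (nat_lit 0) (nat_lit 0) (nat_lit 0) (nat_lit 0) (nat_lit 1) (nat_lit 0) (nat_lit 1) (nat_lit 0) (nat_lit 356) (nat_lit 414) (nat_lit 250)) (XT.lf (nat_lit 0) (nat_lit 319344251556) (nat_lit 0) (nat_lit 0) (nat_lit 0) (nat_lit 0) (nat_lit 0) (nat_lit 0) (nat_lit 1) (nat_lit 0) (nat_lit 1) (nat_lit 0) (nat_lit 357) (nat_lit 414) (nat_lit 249))) (XT.nd (nat_lit 78) (nat_lit 0) (nat_lit 0) (XT.lf (nat_lit 0) (nat_lit 319344179279) (nat_lit 0) (nat_lit 0) (nat_lit 0) (nat_lit 0) (nat_lit 0) (nat_lit 0) (nat_lit 1) (nat_lit 0) (nat_lit 1) (nat_lit 0) (nat_lit 358) (nat_lit 414) (nat_lit 248)) (XT.lf (nat_lit 0) (nat_lit 319344112355) (nat_lit 0) (nat_lit 0) (nat_lit 0) (nat_lit 0) (nat_lit 0) (nat_lit 0) (nat_lit 1) (nat_lit 0) (nat_lit 1)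 (nat_lit 0) (nat_lit 359) (nat_lit 414) (nat_lit 247))))))) (XT.nd (nat_lit 1014) (nat_lit 0) (nat_lit 0) (XT.nd (nat_lit 468) (nat_lit 0) (nat_lit 0) (XT.nd (nat_lit 234) (nat_lit 0) (nat_lit 0) (XT.nd (nat_lit 78) (nat_lit 0) (nat_lit 0) (XT.lf (nat_lit 0) (nat_lit 319344050388) (nat_lit 0) (nat_lit 0) (nat_lit 0) (nat_lit 0) (nat_lit 0) (nat_lit 0) (nat_lit 1) (nat_lit 0) (nat_lit 1) (nat_lit 0) (nat_lit 360) (nat_lit 414) (nat_lit 246)) (XT.nd (nat_lit 78) (nat_lit 0) (nat_lit 0) (XT.lf (nat_lit 0) (nat_lit 319343993012) (nat_lit 0) (nat_lit 0) (nat_lit 0) (nat_lit 0) (nat_lit 0) (nat_lit 0) (nat_lit 1) (nat_lit 0) (nat_lit 1) (nat_lit 0) (nat_lit 361) (nat_lit 414) (nat_lit 245)) (XT.lf (nat_lit 0) (nat_lit 319343939886) (nat_lit 0) (nat_lit 0) (nat_lit 0) (nat_lit 0) (nat_lit 0) (nat_lit 0) (nat_lit 1) (nat_lit 0) (nat_lit 1) (nat_lit 0) (nat_lit 362) (nat_lit 414) (nat_lit 244)))) (XT.nd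 (nat_lit 78) (nat_lit 0) (nat_lit 0) (XT.lf (nat_lit 0) (nat_lit 319343890695) (nat_lit 0) (nat_lit 0) (nat_lit 0) (nat_lit 0) (nat_lit 0) (nat_lit 0) (nat_lit 1) (nat_lit 0) (nat_lit 1) (nat_lit 0) (nat_lit 363) (nat_lit 414) (nat_lit 243)) (XT.nd (nat_lit 78) (nat_lit 0) (nat_lit 0) (XT.lf (nat_lit 0) (nat_lit 319343845147) (nat_lit 0) (nat_lit 0) (nat_lit 0) (nat_lit 0) (nat_lit 0) (nat_lit 0) (nat_lit 1) (nat_lit 0) (nat_lit 1) (nat_lit 0) (nat_lit 364) (nat_lit 414) (nat_lit 242)) (XT.lf (nat_lit 0) (nat_lit 319343802974) (nat_lit 0) (nat_lit 0) (nat_lit 0) (nat_lit 0) (nat_lit 0) (nat_lit 0) (nat_lit 1) (nat_lit 0) (nat_lit 1) (nat_lit 0) (nat_lit 365) (nat_lit 414) (nat_lit 241))))) (XT.nd (nat_lit 234) (nat_lit 0) (nat_lit 0) (XT.nd (nat_lit 78) (nat_lit 0) (nat_lit 0) (XT.lf (nat_lit 0) (nat_lit 319343763925) (nat_lit 0) (nat_lit 0) (nat_lit 0) (nat_lit 0) (nat_lit 0) (nat_lit 0) (nat_lit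 1) (nat_lit 0) (nat_lit 1) (nat_lit 0) (nat_lit 366) (nat_lit 414) (nat_lit 240)) (XT.nd (nat_lit 78) (nat_lit 0) (nat_lit 0) (XT.lf (nat_lit 0) (nat_lit 319343727768) (nat_lit 0) (nat_lit 0) (nat_lit 0) (nat_lit 0) (nat_lit 0) (nat_lit 0) (nat_lit 1) (nat_lit 0) (nat_lit 1) (nat_lit 0) (nat_lit 367) (nat_lit 414) (nat_lit 239)) (XT.lf (nat_lit 0) (nat_lit 319343694289) (nat_lit 0) (nat_lit 0) (nat_lit 0) (nat_lit 0) (nat_lit 0) (nat_lit 0) (nat_lit 1) (nat_lit 0) (nat_lit 1) (nat_lit 0) (nat_lit 368) (nat_lit 414) (nat_lit 238)))) (XT.nd (nat_lit 156) (nat_lit 0) (nat_lit 0) (XT.nd (nat_lit 78) (nat_lit 0) (nat_lit 0) (XT.lf (nat_lit 0) (nat_lit 319343663291) (nat_lit 0) (nat_lit 0) (nat_lit 0) (nat_lit 0) (nat_lit 0) (nat_lit 0) (nat_lit 1) (nat_lit 0) (nat_lit 1) (nat_lit 0) (nat_lit 369) (nat_lit 414) (nat_lit 237)) (XT.lf (nat_lit 0) (nat_lit 319343634588) (nat_lit 0) (nat_lit 0) (nat_lit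 0) (nat_lit 0) (nat_lit 0) (nat_lit 0) (nat_lit 1) (nat_lit 0) (nat_lit 1) (nat_lit 0) (nat_lit 370) (nat_lit 414) (nat_lit 236))) (XT.nd (nat_lit 78) (nat_lit 0) (nat_lit 0) (XT.lf (nat_lit 0) (nat_lit 319343608012) (nat_lit 0) (nat_lit 0) (nat_lit 0) (nat_lit 0) (nat_lit 0) (nat_lit 0) (nat_lit 1) (nat_lit 0) (nat_lit 1) (nat_lit 0) (nat_lit 371) (nat_lit 414) (nat_lit 235)) (XT.lf (nat_lit 0) (nat_lit 319343583404) (nat_lit 0) (nat_lit 0) (nat_lit 0) (nat_lit 0) (nat_lit 0) (nat_lit 0) (nat_lit 1) (nat_lit 0) (nat_lit 1) (nat_lit 0) (nat_lit 372) (nat_lit 414) (nat_lit 234)))))) (XT.nd (nat_lit 546) (nat_lit 0) (nat_lit 0) (XT.nd (nat_lit 234) (nat_lit 0) (nat_lit 0) (XT.nd (nat_lit 78) (nat_lit 0) (nat_lit 0) (XT.lf (nat_lit 0) (nat_lit 319343560619) (nat_lit 0) (nat_lit 0) (nat_lit 0) (nat_lit 0) (nat_lit 0) (nat_lit 0) (nat_lit 1) (nat_lit 0) (nat_lit 1) (nat_lit 0) (nat_lit 373) (nat_lit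 414) (nat_lit 233)) (XT.nd (nat_lit 78) (nat_lit 0) (nat_lit 0) (XT.lf (nat_lit 0) (nat_lit 319343539522) (nat_lit 0) (nat_lit 0) (nat_lit 0) (nat_lit 0) (nat_lit 0) (nat_lit 0) (nat_lit 1) (nat_lit 0) (nat_lit 1) (nat_lit 0) (nat_lit 374) (nat_lit 414) (nat_lit 232)) (XT.lf (nat_lit 0) (nat_lit 319343519988) (nat_lit 0) (nat_lit 0) (nat_lit 0) (nat_lit 0) (nat_lit 0) (nat_lit 0) (nat_lit 1) (nat_lit 0) (nat_lit 1) (nat_lit 0) (nat_lit 375) (nat_lit 414) (nat_lit 231)))) (XT.nd (nat_lit 156) (nat_lit 0) (nat_lit 0) (XT.nd (nat_lit 78) (nat_lit 0) (nat_lit 0) (XT.lf (nat_lit 0) (nat_lit 319343501900) (nat_lit 0) (nat_lit 0) (nat_lit 0) (nat_lit 0) (nat_lit 0) (nat_lit 0) (nat_lit 1) (nat_lit 0) (nat_lit 1) (nat_lit 0) (nat_lit 376) (nat_lit 414) (nat_lit 230)) (XT.lf (nat_lit 0) (nat_lit 319343485152) (nat_lit 0) (nat_lit 0) (nat_lit 0) (nat_lit 0) (nat_lit 0) (nat_lit 0) (nat_lit 1) (nat_lit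 0) (nat_lit 1) (nat_lit 0) (nat_lit 377) (nat_lit 414) (nat_lit 229))) (XT.nd (nat_lit 78) (nat_lit 0) (nat_lit 0) (XT.lf (nat_lit 0) (nat_lit 319343469645) (nat_lit 0) (nat_lit 0) (nat_lit 0) (nat_lit 0) (nat_lit 0) (nat_lit 0) (nat_lit 1) (nat_lit 0) (nat_lit 1) (nat_lit 0) (nat_lit 378) (nat_lit 414) (nat_lit 228)) (XT.lf (nat_lit 0) (nat_lit 319343455287) (nat_lit 0) (nat_lit 0) (nat_lit 0) (nat_lit 0) (nat_lit 0) (nat_lit 0) (nat_lit 1) (nat_lit 0) (nat_lit 1) (nat_lit 0) (nat_lit 379) (nat_lit 414) (nat_lit 227))))) (XT.nd (nat_lit 234) (nat_lit 0) (nat_lit 0) (XT.nd (nat_lit 78) (nat_lit 0) (nat_lit 0) (XT.lf (nat_lit 0) (nat_lit 319343441992) (nat_lit 0) (nat_lit 0) (nat_lit 0) (nat_lit 0) (nat_lit 0) (nat_lit 0) (nat_lit 1) (nat_lit 0) (nat_lit 1) (nat_lit 0) (nat_lit 380) (nat_lit 414) (nat_lit 226)) (XT.nd (nat_lit 78) (nat_lit 0) (nat_lit 0) (XT.lf (nat_lit 0) (nat_lit 319343429682)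 (nat_lit 0) (nat_lit 0) (nat_lit 0) (nat_lit 0) (nat_lit 0) (nat_lit 0) (nat_lit 1) (nat_lit 0) (nat_lit 1) (nat_lit 0) (nat_lit 381) (nat_lit 414) (nat_lit 225)) (XT.lf (nat_lit 0) (nat_lit 319343418284) (nat_lit 0) (nat_lit 0) (nat_lit 0) (nat_lit 0) (nat_lit 0) (nat_lit 0) (nat_lit 1) (nat_lit 0) (nat_lit 1) (nat_lit 0) (nat_lit 382) (nat_lit 414) (nat_lit 224)))) (XT.nd (nat_lit 156) (nat_lit 0) (nat_lit 0) (XT.nd (nat_lit 78) (nat_lit 0) (nat_lit 0) (XT.lf (nat_lit 0) (nat_lit 319343407730) (nat_lit 0) (nat_lit 0) (nat_lit 0) (nat_lit 0) (nat_lit 0) (nat_lit 0) (nat_lit 1) (nat_lit 0) (nat_lit 1) (nat_lit 0) (nat_lit 383) (nat_lit 414) (nat_lit 223)) (XT.lf (nat_lit 0) (nat_lit 319343397958) (nat_lit 0) (nat_lit 0) (nat_lit 0) (nat_lit 0) (nat_lit 0) (nat_lit 0) (nat_lit 1) (nat_lit 0) (nat_lit 1) (nat_lit 0) (nat_lit 384) (nat_lit 414) (nat_lit 222))) (XT.nd (nat_lit 78) (nat_lit 0) (nat_lit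 0) (XT.lf (nat_lit 0) (nat_lit 319343388910) (nat_lit 0) (nat_lit 0) (nat_lit 0) (nat_lit 0) (nat_lit 0) (nat_lit 0) (nat_lit 1) (nat_lit 0) (nat_lit 1) (nat_lit 0) (nat_lit 385) (nat_lit 414) (nat_lit 221)) (XT.lf (nat_lit 0) (nat_lit 319343380532) (nat_lit 0) (nat_lit 0) (nat_lit 0) (nat_lit 0) (nat_lit 0) (nat_lit 0) (nat_lit 1) (nat_lit 0) (nat_lit 1) (nat_lit 0) (nat_lit 386) (nat_lit 414) (nat_lit 220))))))))
noncomputable def ec238 : XT := (XT.nd (nat_lit 38610) (nat_lit 0) (nat_lit 14896) (XT.nd (nat_lit 1014) (nat_lit 0) (nat_lit 0) (XT.nd (nat_lit 468) (nat_lit 0) (nat_lit 0) (XT.nd (nat_lit 234) (nat_lit 0) (nat_lit 0) (XT.nd (nat_lit 78) (nat_lit 0) (nat_lit 0) (XT.lf (nat_lit 0) (nat_lit 319343372775) (nat_lit 0) (nat_lit 0) (nat_lit 0) (nat_lit 0) (nat_lit 0) (nat_lit 0) (nat_lit 1) (nat_lit 0) (nat_lit 1) (nat_lit 0) (nat_lit 387) (nat_lit 414) (nat_lit 219)) (XT.nd (nat_lit 78)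 (nat_lit 0) (nat_lit 0) (XT.lf (nat_lit 0) (nat_lit 319343365592) (nat_lit 0) (nat_lit 0) (nat_lit 0) (nat_lit 0) (nat_lit 0) (nat_lit 0) (nat_lit 1) (nat_lit 0) (nat_lit 1) (nat_lit 0) (nat_lit 388) (nat_lit 414) (nat_lit 218)) (XT.lf (nat_lit 0) (nat_lit 319343358941) (nat_lit 0) (nat_lit 0) (nat_lit 0) (nat_lit 0) (nat_lit 0) (nat_lit 0) (nat_lit 1) (nat_lit 0) (nat_lit 1) (nat_lit 0) (nat_lit 389) (nat_lit 414) (nat_lit 217)))) (XT.nd (nat_lit 78) (nat_lit 0) (nat_lit 0) (XT.lf (nat_lit 0) (nat_lit 319343352783) (nat_lit 0) (nat_lit 0) (nat_lit 0) (nat_lit 0) (nat_lit 0) (nat_lit 0) (nat_lit 1) (nat_lit 0) (nat_lit 1) (nat_lit 0) (nat_lit 390) (nat_lit 414) (nat_lit 216)) (XT.nd (nat_lit 78) (nat_lit 0) (nat_lit 0) (XT.lf (nat_lit 0) (nat_lit 319343347081) (nat_lit 0) (nat_lit 0) (nat_lit 0) (nat_lit 0) (nat_lit 0) (nat_lit 0) (nat_lit 1) (nat_lit 0) (nat_lit 1) (nat_lit 0) (nat_lit 391)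 (nat_lit 414) (nat_lit 215)) (XT.lf (nat_lit 0) (nat_lit 319343341802) (nat_lit 0) (nat_lit 0) (nat_lit 0) (nat_lit 0) (nat_lit 0) (nat_lit 0) (nat_lit 1) (nat_lit 0) (nat_lit 1) (nat_lit 0) (nat_lit 392) (nat_lit 414) (nat_lit 214))))) (XT.nd (nat_lit 234) (nat_lit 0) (nat_lit 0) (XT.nd (nat_lit 78) (nat_lit 0) (nat_lit 0) (XT.lf (nat_lit 0) (nat_lit 319343336913) (nat_lit 0) (nat_lit 0) (nat_lit 0) (nat_lit 0) (nat_lit 0) (nat_lit 0) (nat_lit 1) (nat_lit 0) (nat_lit 1) (nat_lit 0) (nat_lit 393) (nat_lit 414) (nat_lit 213)) (XT.nd (nat_lit 78) (nat_lit 0) (nat_lit 0) (XT.lf (nat_lit 0) (nat_lit 319343332387) (nat_lit 0) (nat_lit 0) (nat_lit 0) (nat_lit 0) (nat_lit 0) (nat_lit 0) (nat_lit 1) (nat_lit 0) (nat_lit 1) (nat_lit 0) (nat_lit 394) (nat_lit 414) (nat_lit 212)) (XT.lf (nat_lit 0) (nat_lit 319343328196) (nat_lit 0) (nat_lit 0) (nat_lit 0) (nat_lit 0) (nat_lit 0) (nat_lit 0) (nat_lit 1)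 (nat_lit 0) (nat_lit 1) (nat_lit 0) (nat_lit 395) (nat_lit 414) (nat_lit 211)))) (XT.nd (nat_lit 156) (nat_lit 0) (nat_lit 0) (XT.nd (nat_lit 78) (nat_lit 0) (nat_lit 0) (XT.lf (nat_lit 0) (nat_lit 319343324315) (nat_lit 0) (nat_lit 0) (nat_lit 0) (nat_lit 0) (nat_lit 0) (nat_lit 0) (nat_lit 1) (nat_lit 0) (nat_lit 1) (nat_lit 0) (nat_lit 396) (nat_lit 414) (nat_lit 210)) (XT.lf (nat_lit 0) (nat_lit 319343320722) (nat_lit 0) (nat_lit 0) (nat_lit 0) (nat_lit 0) (nat_lit 0) (nat_lit 0) (nat_lit 1) (nat_lit 0) (nat_lit 1) (nat_lit 0) (nat_lit 397) (nat_lit 414) (nat_lit 209))) (XT.nd (nat_lit 78) (nat_lit 0) (nat_lit 0) (XT.lf (nat_lit 0) (nat_lit 319343317395) (nat_lit 0) (nat_lit 0) (nat_lit 0) (nat_lit 0) (nat_lit 0) (nat_lit 0) (nat_lit 1) (nat_lit 0) (nat_lit 1) (nat_lit 0) (nat_lit 398) (nat_lit 414) (nat_lit 208)) (XT.lf (nat_lit 0) (nat_lit 319343314314) (nat_lit 0) (nat_lit 0) (nat_lit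 0) (nat_lit 0) (nat_lit 0) (nat_lit 0) (nat_lit 1) (nat_lit 0) (nat_lit 1) (nat_lit 0) (nat_lit 399) (nat_lit 414) (nat_lit 207)))))) (XT.nd (nat_lit 468) (nat_lit 0) (nat_lit 0) (XT.nd (nat_lit 234) (nat_lit 0) (nat_lit 0) (XT.nd (nat_lit 78) (nat_lit 0) (nat_lit 0) (XT.lf (nat_lit 0) (nat_lit 319343311462) (nat_lit 0) (nat_lit 0) (nat_lit 0) (nat_lit 0) (nat_lit 0) (nat_lit 0) (nat_lit 1) (nat_lit 0) (nat_lit 1) (nat_lit 0) (nat_lit 400) (nat_lit 414) (nat_lit 206)) (XT.nd (nat_lit 78) (nat_lit 0) (nat_lit 0) (XT.lf (nat_lit 0) (nat_lit 319343308821) (nat_lit 0) (nat_lit 0) (nat_lit 0) (nat_lit 0) (nat_lit 0) (nat_lit 0) (nat_lit 1) (nat_lit 0) (nat_lit 1) (nat_lit 0) (nat_lit 401) (nat_lit 414) (nat_lit 205)) (XT.lf (nat_lit 0) (nat_lit 319343306375) (nat_lit 0) (nat_lit 0) (nat_lit 0) (nat_lit 0) (nat_lit 0) (nat_lit 0) (nat_lit 1) (nat_lit 0) (nat_lit 1) (nat_lit 0) (nat_lit 402) (nat_lit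 414) (nat_lit 204)))) (XT.nd (nat_lit 78) (nat_lit 0) (nat_lit 0) (XT.lf (nat_lit 0) (nat_lit 319343304111) (nat_lit 0) (nat_lit 0) (nat_lit 0) (nat_lit 0) (nat_lit 0) (nat_lit 0) (nat_lit 1) (nat_lit 0) (nat_lit 1) (nat_lit 0) (nat_lit 403) (nat_lit 414) (nat_lit 203)) (XT.nd (nat_lit 78) (nat_lit 0) (nat_lit 0) (XT.lf (nat_lit 0) (nat_lit 319343302015) (nat_lit 0) (nat_lit 0) (nat_lit 0) (nat_lit 0) (nat_lit 0) (nat_lit 0) (nat_lit 1) (nat_lit 0) (nat_lit 1) (nat_lit 0) (nat_lit 404) (nat_lit 414) (nat_lit 202)) (XT.lf (nat_lit 0) (nat_lit 319343300073) (nat_lit 0) (nat_lit 0) (nat_lit 0) (nat_lit 0) (nat_lit 0) (nat_lit 0) (nat_lit 1) (nat_lit 0) (nat_lit 1) (nat_lit 0) (nat_lit 405) (nat_lit 414) (nat_lit 201))))) (XT.nd (nat_lit 234) (nat_lit 0) (nat_lit 0) (XT.nd (nat_lit 78) (nat_lit 0) (nat_lit 0) (XT.lf (nat_lit 0) (nat_lit 319343298276) (nat_lit 0) (nat_lit 0) (nat_lit 0) (nat_lit 0)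 (nat_lit 0) (nat_lit 0) (nat_lit 1) (nat_lit 0) (nat_lit 1) (nat_lit 0) (nat_lit 406) (nat_lit 414) (nat_lit 200)) (XT.nd (nat_lit 78) (nat_lit 0) (nat_lit 0) (XT.lf (nat_lit 0) (nat_lit 319343296611) (nat_lit 0) (nat_lit 0) (nat_lit 0) (nat_lit 0) (nat_lit 0) (nat_lit 0) (nat_lit 1) (nat_lit 0) (nat_lit 1) (nat_lit 0) (nat_lit 407) (nat_lit 414) (nat_lit 199)) (XT.lf (nat_lit 0) (nat_lit 319343295070) (nat_lit 0) (nat_lit 0) (nat_lit 0) (nat_lit 0) (nat_lit 0) (nat_lit 0) (nat_lit 1) (nat_lit 0) (nat_lit 1) (nat_lit 0) (nat_lit 408) (nat_lit 414) (nat_lit 198)))) (XT.nd (nat_lit 36738) (nat_lit 0) (nat_lit 20520) (XT.nd (nat_lit 78) (nat_lit 0) (nat_lit 0) (XT.lf (nat_lit 0) (nat_lit 319343293643) (nat_lit 0) (nat_lit 0) (nat_lit 0) (nat_lit 0) (nat_lit 0) (nat_lit 0) (nat_lit 1) (nat_lit 0) (nat_lit 1) (nat_lit 0) (nat_lit 409) (nat_lit 414) (nat_lit 197)) (XT.lf (nat_lit 0) (nat_lit 319343292322)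 (nat_lit 0) (nat_lit 0) (nat_lit 0) (nat_lit 0) (nat_lit 0) (nat_lit 0) (nat_lit 1) (nat_lit 0) (nat_lit 1) (nat_lit 0) (nat_lit 410) (nat_lit 414) (nat_lit 196))) (XT.nd (nat_lit 78) (nat_lit 380) (nat_lit 0) (XT.lf (nat_lit 456) (nat_lit 683298546643) (nat_lit 0) (nat_lit 222428407660) (nat_lit 380) (nat_lit 34388806188) (nat_lit 281) (nat_lit 1) (nat_lit 275) (nat_lit 1) (nat_lit 280) (nat_lit 1) (nat_lit 199) (nat_lit 415) (nat_lit 406)) (XT.lf (nat_lit 456) (nat_lit 493074738119) (nat_lit 0) (nat_lit 103674838952) (nat_lit 380) (nat_lit 311891142366) (nat_lit 276) (nat_lit 1) (nat_lit 270) (nat_lit 1) (nat_lit 275) (nat_lit 1) (nat_lit 200) (nat_lit 415) (nat_lit 405))))))) (XT.nd (nat_lit 1014) (nat_lit 2280) (nat_lit 0) (XT.nd (nat_lit 468) (nat_lit 1824) (nat_lit 0) (XT.nd (nat_lit 234) (nat_lit 836) (nat_lit 0) (XT.nd (nat_lit 78) (nat_lit 380) (nat_lit 0) (XT.lf (nat_lit 380) (nat_lit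 300029689501) (nat_lit 0) (nat_lit 1908822265) (nat_lit 304) (nat_lit 576753322922) (nat_lit 271) (nat_lit 1) (nat_lit 266) (nat_lit 1) (nat_lit 270) (nat_lit 1) (nat_lit 201) (nat_lit 415) (nat_lit 404)) (XT.nd (nat_lit 78) (nat_lit 380) (nat_lit 0) (XT.lf (nat_lit 76) (nat_lit 22134772554) (nat_lit 0) (nat_lit 746491786437) (nat_lit 380) (nat_lit 81494093121) (nat_lit 267) (nat_lit 1) (nat_lit 266) (nat_lit 1) (nat_lit 271) (nat_lit 1) (nat_lit 202) (nat_lit 415) (nat_lit 403)) (XT.lf (nat_lit 76) (nat_lit 571525568459) (nat_lit 0) (nat_lit 94793630815) (nat_lit 380) (nat_lit 156331913043) (nat_lit 262) (nat_lit 1) (nat_lit 261) (nat_lit 1) (nat_lit 266) (nat_lit 1) (nat_lit 203) (nat_lit 415) (nat_lit 402)))) (XT.nd (nat_lit 78) (nat_lit 532) (nat_lit 0) (XT.lf (nat_lit 76) (nat_lit 285948724728) (nat_lit 0) (nat_lit 290369718595) (nat_lit 380) (nat_lit 220076873526) (nat_lit 258) (nat_lit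 1) (nat_lit 257) (nat_lit 1) (nat_lit 262) (nat_lit 1) (nat_lit 204) (nat_lit 415) (nat_lit 401)) (XT.nd (nat_lit 78) (nat_lit 228) (nat_lit 0) (XT.lf (nat_lit 76) (nat_lit 14113794972) (nat_lit 0) (nat_lit 485493660690) (nat_lit 380) (nat_lit 271775190862) (nat_lit 254) (nat_lit 1) (nat_lit 253) (nat_lit 1) (nat_lit 258) (nat_lit 1) (nat_lit 205) (nat_lit 415) (nat_lit 400)) (XT.lf (nat_lit 304) (nat_lit 63737102645) (nat_lit 0) (nat_lit 431023516194) (nat_lit 228) (nat_lit 252589686490) (nat_lit 254) (nat_lit 1) (nat_lit 250) (nat_lit 1) (nat_lit 253) (nat_lit 1) (nat_lit 206) (nat_lit 415) (nat_lit 399))))) (XT.nd (nat_lit 234) (nat_lit 988) (nat_lit 0) (XT.nd (nat_lit 78) (nat_lit 456) (nat_lit 0) (XT.lf (nat_lit 76) (nat_lit 220228825980) (nat_lit 0) (nat_lit 150946205769) (nat_lit 380) (nat_lit 353135751972) (nat_lit 246) (nat_lit 1) (nat_lit 245) (nat_lit 1) (nat_lit 250) (nat_lit 1) (nat_lit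 207) (nat_lit 415) (nat_lit 398)) (XT.nd (nat_lit 78) (nat_lit 228) (nat_lit 0) (XT.lf (nat_lit 304) (nat_lit 340967194520) (nat_lit 0) (nat_lit 320294610279) (nat_lit 228) (nat_lit 40997329981) (nat_lit 246) (nat_lit 1) (nat_lit 242) (nat_lit 1) (nat_lit 245) (nat_lit 1) (nat_lit 208) (nat_lit 415) (nat_lit 397)) (XT.lf (nat_lit 304) (nat_lit 109278338610) (nat_lit 0) (nat_lit 275760543514) (nat_lit 228) (nat_lit 296016054742) (nat_lit 243) (nat_lit 1) (nat_lit 239) (nat_lit 1) (nat_lit 242) (nat_lit 1) (nat_lit 209) (nat_lit 415) (nat_lit 396)))) (XT.nd (nat_lit 156) (nat_lit 456) (nat_lit 0) (XT.nd (nat_lit 78) (nat_lit 228) (nat_lit 0) (XT.lf (nat_lit 76) (nat_lit 124550900848) (nat_lit 0) (nat_lit 114037173440) (nat_lit 304) (nat_lit 422143314928) (nat_lit 236) (nat_lit 1) (nat_lit 235) (nat_lit 1) (nat_lit 239) (nat_lit 1) (nat_lit 210) (nat_lit 415) (nat_lit 395)) (XT.lf (nat_lit 304)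 (nat_lit 309928569496) (nat_lit 0) (nat_lit 206214985079) (nat_lit 228) (nat_lit 125008201955) (nat_lit 236) (nat_lit 1) (nat_lit 232) (nat_lit 1) (nat_lit 235) (nat_lit 1) (nat_lit 211) (nat_lit 415) (nat_lit 394))) (XT.nd (nat_lit 78) (nat_lit 304) (nat_lit 0) (XT.lf (nat_lit 228) (nat_lit 76831750008) (nat_lit 0) (nat_lit 179907533119) (nat_lit 152) (nat_lit 365622737725) (nat_lit 233) (nat_lit 1) (nat_lit 230) (nat_lit 1) (nat_lit 232) (nat_lit 1) (nat_lit 212) (nat_lit 415) (nat_lit 393)) (XT.lf (nat_lit 76) (nat_lit 13015789312) (nat_lit 0) (nat_lit 145649507991) (nat_lit 304) (nat_lit 445635327525) (nat_lit 227) (nat_lit 1) (nat_lit 226) (nat_lit 1) (nat_lit 230) (nat_lit 1) (nat_lit 213) (nat_lit 415) (nat_lit 392)))))) (XT.nd (nat_lit 546) (nat_lit 1064) (nat_lit 0) (XT.nd (nat_lit 234) (nat_lit 684) (nat_lit 0) (XT.nd (nat_lit 78) (nat_lit 380) (nat_lit 0) (XT.lf (nat_lit 228) (nat_lit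 223258967892) (nat_lit 0) (nat_lit 139517701582) (nat_lit 152) (nat_lit 224035911347) (nat_lit 227) (nat_lit 1) (nat_lit 224) (nat_lit 1) (nat_lit 226) (nat_lit 1) (nat_lit 214) (nat_lit 415) (nat_lit 391)) (XT.nd (nat_lit 78) (nat_lit 152) (nat_lit 0) (XT.lf (nat_lit 76) (nat_lit 121130985928) (nat_lit 0) (nat_lit 5595116182) (nat_lit 228) (nat_lit 443361552682) (nat_lit 222) (nat_lit 1) (nat_lit 221) (nat_lit 1) (nat_lit 224) (nat_lit 1) (nat_lit 215) (nat_lit 415) (nat_lit 390)) (XT.lf (nat_lit 228) (nat_lit 331148724578) (nat_lit 0) (nat_lit 114750458043) (nat_lit 152) (nat_lit 107950062337) (nat_lit 222) (nat_lit 1) (nat_lit 219) (nat_lit 1) (nat_lit 221) (nat_lit 1) (nat_lit 216) (nat_lit 415) (nat_lit 389)))) (XT.nd (nat_lit 156) (nat_lit 304) (nat_lit 0) (XT.nd (nat_lit 78) (nat_lit 228) (nat_lit 0) (XT.lf (nat_lit 228) (nat_lit 102868063910) (nat_lit 0) (nat_lit 106673240050) (nat_lit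 152) (nat_lit 328690396641) (nat_lit 220) (nat_lit 1) (nat_lit 217) (nat_lit 1) (nat_lit 219) (nat_lit 1) (nat_lit 217) (nat_lit 415) (nat_lit 388)) (XT.lf (nat_lit 228) (nat_lit 408348408645) (nat_lit 0) (nat_lit 101917622728) (nat_lit 152) (nat_lit 12929432858) (nat_lit 217) (nat_lit 1) (nat_lit 214) (nat_lit 1) (nat_lit 216) (nat_lit 1) (nat_lit 218) (nat_lit 415) (nat_lit 387))) (XT.nd (nat_lit 78) (nat_lit 152) (nat_lit 0) (XT.lf (nat_lit 228) (nat_lit 182757822361) (nat_lit 0) (nat_lit 97296968512) (nat_lit 152) (nat_lit 228522246535) (nat_lit 215) (nat_lit 1) (nat_lit 212) (nat_lit 1) (nat_lit 214) (nat_lit 1) (nat_lit 219) (nat_lit 415) (nat_lit 386)) (XT.lf (nat_lit 76) (nat_lit 62601610241) (nat_lit 0) (nat_lit 34408665900) (nat_lit 152) (nat_lit 397554669015) (nat_lit 211) (nat_lit 1) (nat_lit 210) (nat_lit 1) (nat_lit 212) (nat_lit 1) (nat_lit 220) (nat_lit 415) (nat_lit 385)))))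 (XT.nd (nat_lit 234) (nat_lit 608) (nat_lit 0) (XT.nd (nat_lit 78) (nat_lit 304) (nat_lit 0) (XT.lf (nat_lit 228) (nat_lit 239788773468) (nat_lit 0) (nat_lit 95983045301) (nat_lit 152) (nat_lit 145134615960) (nat_lit 211) (nat_lit 1) (nat_lit 208) (nat_lit 1) (nat_lit 210) (nat_lit 1) (nat_lit 221) (nat_lit 415) (nat_lit 384)) (XT.nd (nat_lit 78) (nat_lit 228) (nat_lit 0) (XT.lf (nat_lit 152) (nat_lit 25821843547) (nat_lit 0) (nat_lit 98340512930) (nat_lit 76) (nat_lit 343624788240) (nat_lit 209) (nat_lit 1) (nat_lit 207) (nat_lit 1) (nat_lit 208) (nat_lit 1) (nat_lit 222) (nat_lit 415) (nat_lit 383)) (XT.lf (nat_lit 228) (nat_lit 278737267785) (nat_lit 0) (nat_lit 100576102224) (nat_lit 152) (nat_lit 75716224031) (nat_lit 207) (nat_lit 1) (nat_lit 204) (nat_lit 1) (nat_lit 206) (nat_lit 1) (nat_lit 223) (nat_lit 415) (nat_lit 382)))) (XT.nd (nat_lit 156) (nat_lit 304) (nat_lit 0) (XT.nd (nat_lit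 78) (nat_lit 228) (nat_lit 0) (XT.lf (nat_lit 152) (nat_lit 70104478250) (nat_lit 0) (nat_lit 104336744034) (nat_lit 76) (nat_lit 268260776164) (nat_lit 205) (nat_lit 1) (nat_lit 203) (nat_lit 1) (nat_lit 204) (nat_lit 1) (nat_lit 224) (nat_lit 415) (nat_lit 381)) (XT.lf (nat_lit 228) (nat_lit 303465045746) (nat_lit 0) (nat_lit 109368936068) (nat_lit 152) (nat_lit 17948378658) (nat_lit 203) (nat_lit 1) (nat_lit 200) (nat_lit 1) (nat_lit 202) (nat_lit 1) (nat_lit 225) (nat_lit 415) (nat_lit 380))) (XT.nd (nat_lit 78) (nat_lit 228) (nat_lit 0) (XT.lf (nat_lit 152) (nat_lit 100889961975) (nat_lit 0) (nat_lit 114018430053) (nat_lit 76) (nat_lit 204273864145) (nat_lit 201) (nat_lit 1) (nat_lit 199) (nat_lit 1) (nat_lit 200) (nat_lit 1) (nat_lit 226) (nat_lit 415) (nat_lit 379)) (XT.lf (nat_lit 76) (nat_lit 29120858075) (nat_lit 0) (nat_lit 91402611008) (nat_lit 228) (nat_lit 287475417322) (nat_lit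 197) (nat_lit 1) (nat_lit 196) (nat_lit 1) (nat_lit 199) (nat_lit 1) (nat_lit 227) (nat_lit 415) (nat_lit 378))))))))
noncomputable def ec239 : XT := (XT.nd (nat_lit 2106) (nat_lit 3192) (nat_lit 0) (XT.nd (nat_lit 1014) (nat_lit 1672) (nat_lit 0) (XT.nd (nat_lit 468) (nat_lit 760) (nat_lit 0) (XT.nd (nat_lit 234) (nat_lit 380) (nat_lit 0) (XT.nd (nat_lit 78) (nat_lit 304) (nat_lit 0) (XT.lf (nat_lit 152) (nat_lit 121077056939) (nat_lit 0) (nat_lit 126156554409) (nat_lit 76) (nat_lit 149859637393) (nat_lit 197) (nat_lit 1) (nat_lit 195) (nat_lit 1) (nat_lit 196) (nat_lit 1) (nat_lit 228) (nat_lit 415) (nat_lit 377)) (XT.nd (nat_lit 78) (nat_lit 76) (nat_lit 0) (XT.lf (nat_lit 76) (nat_lit 67724272722) (nat_lit 0) (nat_lit 65595537634) (nat_lit 228) (nat_lit 253251051540) (nat_lit 193) (nat_lit 1) (nat_lit 192) (nat_lit 1) (nat_lit 195) (nat_lit 1) (nat_lit 229) (nat_lit 415) (nat_lit 376)) (XT.lf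 (nat_lit 152) (nat_lit 133003418723) (nat_lit 0) (nat_lit 139791730941) (nat_lit 76) (nat_lit 103522168384) (nat_lit 193) (nat_lit 1) (nat_lit 191) (nat_lit 1) (nat_lit 192) (nat_lit 1) (nat_lit 230) (nat_lit 415) (nat_lit 375)))) (XT.nd (nat_lit 78) (nat_lit 228) (nat_lit 0) (XT.lf (nat_lit 76) (nat_lit 99705790014) (nat_lit 0) (nat_lit 47508024919) (nat_lit 152) (nat_lit 219188586549) (nat_lit 190) (nat_lit 1) (nat_lit 189) (nat_lit 1) (nat_lit 191) (nat_lit 1) (nat_lit 231) (nat_lit 415) (nat_lit 374)) (XT.nd (nat_lit 78) (nat_lit 152) (nat_lit 0) (XT.lf (nat_lit 152) (nat_lit 138550442913) (nat_lit 0) (nat_lit 154181654122) (nat_lit 76) (nat_lit 64018989096) (nat_lit 190) (nat_lit 1) (nat_lit 188) (nat_lit 1) (nat_lit 189) (nat_lit 1) (nat_lit 232) (nat_lit 415) (nat_lit 373)) (XT.lf (nat_lit 76) (nat_lit 126118553894) (nat_lit 0) (nat_lit 35441606060) (nat_lit 152) (nat_lit 185836475192)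 (nat_lit 187) (nat_lit 1) (nat_lit 186) (nat_lit 1) (nat_lit 188) (nat_lit 1) (nat_lit 233) (nat_lit 415) (nat_lit 372))))) (XT.nd (nat_lit 234) (nat_lit 456) (nat_lit 0) (XT.nd (nat_lit 78) (nat_lit 228) (nat_lit 0) (XT.lf (nat_lit 152) (nat_lit 139228756359) (nat_lit 0) (nat_lit 168758391373) (nat_lit 76) (nat_lit 30316057722) (nat_lit 187) (nat_lit 1) (nat_lit 185) (nat_lit 1) (nat_lit 186) (nat_lit 1) (nat_lit 234) (nat_lit 415) (nat_lit 371)) (XT.nd (nat_lit 78) (nat_lit 76) (nat_lit 0) (XT.lf (nat_lit 76) (nat_lit 147837844499) (nat_lit 0) (nat_lit 28030555849) (nat_lit 152) (nat_lit 153599291085) (nat_lit 184) (nat_lit 1) (nat_lit 183) (nat_lit 1) (nat_lit 185) (nat_lit 1) (nat_lit 235) (nat_lit 415) (nat_lit 370)) (XT.lf (nat_lit 152) (nat_lit 136247911595) (nat_lit 0) (nat_lit 183093699133) (nat_lit 76) (nat_lit 1550892393) (nat_lit 184) (nat_lit 1) (nat_lit 182) (nat_lit 1) (nat_lit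 183) (nat_lit 1) (nat_lit 236) (nat_lit 415) (nat_lit 369)))) (XT.nd (nat_lit 156) (nat_lit 228) (nat_lit 0) (XT.nd (nat_lit 78) (nat_lit 76) (nat_lit 0) (XT.lf (nat_lit 76) (nat_lit 165592561779) (nat_lit 0) (nat_lit 24179412493) (nat_lit 152) (nat_lit 122767048741) (nat_lit 181) (nat_lit 1) (nat_lit 180) (nat_lit 1) (nat_lit 182) (nat_lit 1) (nat_lit 237) (nat_lit 415) (nat_lit 368)) (XT.lf (nat_lit 0) (nat_lit 22261553174) (nat_lit 0) (nat_lit 174232315391) (nat_lit 152) (nat_lit 107934626254) (nat_lit 179) (nat_lit 3) (nat_lit 179) (nat_lit 1) (nat_lit 181) (nat_lit 1) (nat_lit 238) (nat_lit 415) (nat_lit 367))) (XT.nd (nat_lit 78) (nat_lit 76) (nat_lit 0) (XT.lf (nat_lit 76) (nat_lit 179991010161) (nat_lit 0) (nat_lit 23012054198) (nat_lit 152) (nat_lit 93538957611) (nat_lit 178) (nat_lit 1) (nat_lit 177) (nat_lit 1) (nat_lit 179) (nat_lit 1) (nat_lit 239) (nat_lit 415) (nat_lit 366)) (XT.lf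 (nat_lit 0) (nat_lit 42527802318) (nat_lit 0) (nat_lit 166613929936) (nat_lit 152) (nat_lit 79723851418) (nat_lit 176) (nat_lit 3) (nat_lit 176) (nat_lit 1) (nat_lit 178) (nat_lit 1) (nat_lit 240) (nat_lit 415) (nat_lit 365)))))) (XT.nd (nat_lit 546) (nat_lit 760) (nat_lit 0) (XT.nd (nat_lit 234) (nat_lit 532) (nat_lit 0) (XT.nd (nat_lit 78) (nat_lit 228) (nat_lit 0) (XT.lf (nat_lit 76) (nat_lit 191542024954) (nat_lit 0) (nat_lit 23830204781) (nat_lit 152) (nat_lit 66042642806) (nat_lit 175) (nat_lit 1) (nat_lit 174) (nat_lit 1) (nat_lit 176) (nat_lit 1) (nat_lit 241) (nat_lit 415) (nat_lit 364)) (XT.nd (nat_lit 78) (nat_lit 152) (nat_lit 0) (XT.lf (nat_lit 0) (nat_lit 59789357185) (nat_lit 0) (nat_lit 161107313630) (nat_lit 152) (nat_lit 53249074458) (nat_lit 173) (nat_lit 3) (nat_lit 173) (nat_lit 1) (nat_lit 175) (nat_lit 1) (nat_lit 242) (nat_lit 415) (nat_lit 363)) (XT.lf (nat_lit 76) (nat_lit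 200672290575) (nat_lit 0) (nat_lit 26079632957) (nat_lit 152) (nat_lit 40349675072) (nat_lit 172) (nat_lit 1) (nat_lit 171) (nat_lit 1) (nat_lit 173) (nat_lit 1) (nat_lit 243) (nat_lit 415) (nat_lit 362)))) (XT.nd (nat_lit 156) (nat_lit 304) (nat_lit 0) (XT.nd (nat_lit 78) (nat_lit 152) (nat_lit 0) (XT.lf (nat_lit 0) (nat_lit 74460908789) (nat_lit 0) (nat_lit 157188353793) (nat_lit 152) (nat_lit 28565990199) (nat_lit 170) (nat_lit 3) (nat_lit 170) (nat_lit 1) (nat_lit 172) (nat_lit 1) (nat_lit 244) (nat_lit 415) (nat_lit 361)) (XT.lf (nat_lit 76) (nat_lit 207740544969) (nat_lit 0) (nat_lit 29322628676) (nat_lit 152) (nat_lit 16488097327) (nat_lit 169) (nat_lit 1) (nat_lit 168) (nat_lit 1) (nat_lit 170) (nat_lit 1) (nat_lit 245) (nat_lit 415) (nat_lit 360))) (XT.nd (nat_lit 78) (nat_lit 228) (nat_lit 0) (XT.lf (nat_lit 0) (nat_lit 86893186830) (nat_lit 0) (nat_lit 154441234550) (nat_lit 152) (nat_lit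 5690727107) (nat_lit 167) (nat_lit 3) (nat_lit 167) (nat_lit 1) (nat_lit 169) (nat_lit 1) (nat_lit 246) (nat_lit 415) (nat_lit 359)) (XT.lf (nat_lit 152) (nat_lit 207407796379) (nat_lit 0) (nat_lit 5730916749) (nat_lit 76) (nat_lit 27574159045) (nat_lit 166) (nat_lit 1) (nat_lit 164) (nat_lit 1) (nat_lit 165) (nat_lit 1) (nat_lit 247) (nat_lit 415) (nat_lit 358))))) (XT.nd (nat_lit 234) (nat_lit 456) (nat_lit 0) (XT.nd (nat_lit 78) (nat_lit 228) (nat_lit 0) (XT.lf (nat_lit 76) (nat_lit 81732294569) (nat_lit 0) (nat_lit 15899755305) (nat_lit 76) (nat_lit 136886164613) (nat_lit 164) (nat_lit 3) (nat_lit 163) (nat_lit 1) (nat_lit 164) (nat_lit 1) (nat_lit 248) (nat_lit 415) (nat_lit 357)) (XT.nd (nat_lit 78) (nat_lit 76) (nat_lit 0) (XT.lf (nat_lit 152) (nat_lit 190629534848) (nat_lit 0) (nat_lit 26640501462) (nat_lit 76) (nat_lit 11266278855) (nat_lit 163) (nat_lit 1) (nat_lit 161) (nat_lit 1)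 (nat_lit 162) (nat_lit 1) (nat_lit 249) (nat_lit 415) (nat_lit 356)) (XT.lf (nat_lit 76) (nat_lit 70882521229) (nat_lit 0) (nat_lit 35863615560) (nat_lit 76) (nat_lit 115916382066) (nat_lit 161) (nat_lit 3) (nat_lit 160) (nat_lit 1) (nat_lit 161) (nat_lit 1) (nat_lit 250) (nat_lit 415) (nat_lit 355)))) (XT.nd (nat_lit 156) (nat_lit 228) (nat_lit 0) (XT.nd (nat_lit 78) (nat_lit 76) (nat_lit 0) (XT.lf (nat_lit 0) (nat_lit 2991833428) (nat_lit 0) (nat_lit 42704232755) (nat_lit 152) (nat_lit 171297033284) (nat_lit 158) (nat_lit 3) (nat_lit 158) (nat_lit 1) (nat_lit 160) (nat_lit 1) (nat_lit 251) (nat_lit 415) (nat_lit 354)) (XT.lf (nat_lit 76) (nat_lit 60292794275) (nat_lit 0) (nat_lit 54068307388) (nat_lit 76) (nat_lit 97063534392) (nat_lit 158) (nat_lit 3) (nat_lit 157) (nat_lit 1) (nat_lit 158) (nat_lit 1) (nat_lit 252) (nat_lit 415) (nat_lit 353))) (XT.nd (nat_lit 78) (nat_lit 76) (nat_lit 0)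 (XT.lf (nat_lit 0) (nat_lit 15215808693) (nat_lit 0) (nat_lit 47641505446) (nat_lit 152) (nat_lit 143184458415) (nat_lit 155) (nat_lit 3) (nat_lit 155) (nat_lit 1) (nat_lit 157) (nat_lit 1) (nat_lit 253) (nat_lit 415) (nat_lit 352)) (XT.lf (nat_lit 76) (nat_lit 50081813417) (nat_lit 0) (nat_lit 70581954471) (nat_lit 76) (nat_lit 80105606706) (nat_lit 155) (nat_lit 3) (nat_lit 154) (nat_lit 1) (nat_lit 155) (nat_lit 1) (nat_lit 254) (nat_lit 415) (nat_lit 351))))))) (XT.nd (nat_lit 1014) (nat_lit 1672) (nat_lit 0) (XT.nd (nat_lit 468) (nat_lit 836) (nat_lit 0) (XT.nd (nat_lit 234) (nat_lit 304) (nat_lit 0) (XT.nd (nat_lit 78) (nat_lit 228) (nat_lit 0) (XT.lf (nat_lit 0) (nat_lit 25952524013) (nat_lit 0) (nat_lit 52428532205) (nat_lit 152) (nat_lit 117276139476) (nat_lit 152) (nat_lit 3) (nat_lit 152) (nat_lit 1) (nat_lit 154) (nat_lit 1) (nat_lit 255) (nat_lit 415) (nat_lit 350)) (XT.nd (nat_lit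 78) (nat_lit 152) (nat_lit 0) (XT.lf (nat_lit 76) (nat_lit 40333972254) (nat_lit 0) (nat_lit 85481291785) (nat_lit 76) (nat_lit 64848794654) (nat_lit 152) (nat_lit 3) (nat_lit 151) (nat_lit 1) (nat_lit 152) (nat_lit 1) (nat_lit 256) (nat_lit 415) (nat_lit 349)) (XT.lf (nat_lit 0) (nat_lit 35364166733) (nat_lit 0) (nat_lit 56982175904) (nat_lit 152) (nat_lit 93461469878) (nat_lit 149) (nat_lit 3) (nat_lit 149) (nat_lit 1) (nat_lit 151) (nat_lit 1) (nat_lit 257) (nat_lit 415) (nat_lit 348)))) (XT.nd (nat_lit 78) (nat_lit 228) (nat_lit 0) (XT.lf (nat_lit 76) (nat_lit 31106501583) (nat_lit 0) (nat_lit 98848588046) (nat_lit 76) (nat_lit 51123176741) (nat_lit 149) (nat_lit 3) (nat_lit 148) (nat_lit 1) (nat_lit 149) (nat_lit 1) (nat_lit 258) (nat_lit 415) (nat_lit 347)) (XT.nd (nat_lit 78) (nat_lit 76) (nat_lit 0) (XT.lf (nat_lit 0) (nat_lit 43592530124) (nat_lit 0) (nat_lit 61243919153) (nat_lit 152)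 (nat_lit 71627753599) (nat_lit 146) (nat_lit 3) (nat_lit 146) (nat_lit 1) (nat_lit 148) (nat_lit 1) (nat_lit 259) (nat_lit 415) (nat_lit 346)) (XT.lf (nat_lit 76) (nat_lit 22435247788) (nat_lit 0) (nat_lit 110769231131) (nat_lit 76) (nat_lit 38779126518) (nat_lit 146) (nat_lit 3) (nat_lit 145) (nat_lit 1) (nat_lit 146) (nat_lit 1) (nat_lit 260) (nat_lit 415) (nat_lit 345))))) (XT.nd (nat_lit 234) (nat_lit 456) (nat_lit 0) (XT.nd (nat_lit 78) (nat_lit 228) (nat_lit 0) (XT.lf (nat_lit 0) (nat_lit 50762085210) (nat_lit 0) (nat_lit 65174676683) (nat_lit 152) (nat_lit 51662114211) (nat_lit 143) (nat_lit 3) (nat_lit 143) (nat_lit 1) (nat_lit 145) (nat_lit 1) (nat_lit 261) (nat_lit 415) (nat_lit 344)) (XT.nd (nat_lit 78) (nat_lit 152) (nat_lit 0) (XT.lf (nat_lit 76) (nat_lit 14339340089) (nat_lit 0) (nat_lit 121329848646) (nat_lit 76) (nat_lit 27684332193) (nat_lit 143) (nat_lit 3) (nat_lit 142) (nat_lit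 1) (nat_lit 143) (nat_lit 1) (nat_lit 262) (nat_lit 415) (nat_lit 343)) (XT.lf (nat_lit 0) (nat_lit 56982533152) (nat_lit 0) (nat_lit 68750603791) (nat_lit 152) (nat_lit 33452955794) (nat_lit 140) (nat_lit 3) (nat_lit 140) (nat_lit 1) (nat_lit 142) (nat_lit 1) (nat_lit 263) (nat_lit 415) (nat_lit 342)))) (XT.nd (nat_lit 156) (nat_lit 228) (nat_lit 0) (XT.nd (nat_lit 78) (nat_lit 152) (nat_lit 0) (XT.lf (nat_lit 76) (nat_lit 6824953668) (nat_lit 0) (nat_lit 130616859689) (nat_lit 76) (nat_lit 17721315370) (nat_lit 140) (nat_lit 3) (nat_lit 139) (nat_lit 1) (nat_lit 140) (nat_lit 1) (nat_lit 264) (nat_lit 415) (nat_lit 341)) (XT.lf (nat_lit 0) (nat_lit 62350930733) (nat_lit 0) (nat_lit 71959715303) (nat_lit 152) (nat_lit 16891063993) (nat_lit 137) (nat_lit 3) (nat_lit 137) (nat_lit 1) (nat_lit 139) (nat_lit 1) (nat_lit 265) (nat_lit 415) (nat_lit 340))) (XT.nd (nat_lit 78) (nat_lit 76) (nat_lit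 0) (XT.lf (nat_lit 76) (nat_lit 138605454126) (nat_lit 0) (nat_lit 108088586) (nat_lit 152) (nat_lit 8675441147) (nat_lit 136) (nat_lit 1) (nat_lit 135) (nat_lit 1) (nat_lit 137) (nat_lit 1) (nat_lit 266) (nat_lit 415) (nat_lit 339)) (XT.lf (nat_lit 0) (nat_lit 66953464653) (nat_lit 0) (nat_lit 74799163727) (nat_lit 152) (nat_lit 1870418926) (nat_lit 134) (nat_lit 3) (nat_lit 134) (nat_lit 1) (nat_lit 136) (nat_lit 1) (nat_lit 267) (nat_lit 415) (nat_lit 338)))))) (XT.nd (nat_lit 546) (nat_lit 760) (nat_lit 0) (XT.nd (nat_lit 234) (nat_lit 456) (nat_lit 0) (XT.nd (nat_lit 78) (nat_lit 228) (nat_lit 0) (XT.lf (nat_lit 152) (nat_lit 133635230456) (nat_lit 0) (nat_lit 5782863828) (nat_lit 76) (nat_lit 581721541) (nat_lit 133) (nat_lit 1) (nat_lit 131) (nat_lit 1) (nat_lit 132) (nat_lit 1) (nat_lit 268) (nat_lit 415) (nat_lit 337)) (XT.nd (nat_lit 78) (nat_lit 152) (nat_lit 0) (XT.lf (nat_lit 76)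 (nat_lit 58957379567) (nat_lit 0) (nat_lit 12098447740) (nat_lit 76) (nat_lit 65363496127) (nat_lit 131) (nat_lit 3) (nat_lit 130) (nat_lit 1) (nat_lit 131) (nat_lit 1) (nat_lit 269) (nat_lit 415) (nat_lit 336)) (XT.lf (nat_lit 0) (nat_lit 6664816236) (nat_lit 0) (nat_lit 12313949005) (nat_lit 152) (nat_lit 113994769946) (nat_lit 128) (nat_lit 3) (nat_lit 128) (nat_lit 1) (nat_lit 130) (nat_lit 1) (nat_lit 270) (nat_lit 415) (nat_lit 335)))) (XT.nd (nat_lit 156) (nat_lit 228) (nat_lit 0) (XT.nd (nat_lit 78) (nat_lit 152) (nat_lit 0) (XT.lf (nat_lit 76) (nat_lit 49802449518) (nat_lit 0) (nat_lit 24743881901) (nat_lit 76) (nat_lit 55033128008) (nat_lit 128) (nat_lit 3) (nat_lit 127) (nat_lit 1) (nat_lit 128) (nat_lit 1) (nat_lit 271) (nat_lit 415) (nat_lit 334)) (XT.lf (nat_lit 0) (nat_lit 13114377239) (nat_lit 0) (nat_lit 17726968500) (nat_lit 152) (nat_lit 95461769684) (nat_lit 125) (nat_lit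 3) (nat_lit 125) (nat_lit 1) (nat_lit 127) (nat_lit 1) (nat_lit 272) (nat_lit 415) (nat_lit 333))) (XT.nd (nat_lit 78) (nat_lit 152) (nat_lit 0) (XT.lf (nat_lit 76) (nat_lit 41357127692) (nat_lit 0) (nat_lit 36100766363) (nat_lit 76) (nat_lit 45628045526) (nat_lit 125) (nat_lit 3) (nat_lit 124) (nat_lit 1) (nat_lit 125) (nat_lit 1) (nat_lit 273) (nat_lit 415) (nat_lit 332)) (XT.lf (nat_lit 0) (nat_lit 18853708760) (nat_lit 0) (nat_lit 22619950236) (nat_lit 152) (nat_lit 78496831075) (nat_lit 122) (nat_lit 3) (nat_lit 122) (nat_lit 1) (nat_lit 124) (nat_lit 1) (nat_lit 274) (nat_lit 415) (nat_lit 331))))) (XT.nd (nat_lit 234) (nat_lit 456) (nat_lit 0) (XT.nd (nat_lit 78) (nat_lit 228) (nat_lit 0) (XT.lf (nat_lit 76) (nat_lit 33586223508) (nat_lit 0) (nat_lit 46261101611) (nat_lit 76) (nat_lit 37073484134) (nat_lit 122) (nat_lit 3) (nat_lit 121) (nat_lit 1) (nat_lit 122) (nat_lit 1) (nat_lit 275)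 (nat_lit 415) (nat_lit 330)) (XT.nd (nat_lit 78) (nat_lit 76) (nat_lit 0) (XT.lf (nat_lit 0) (nat_lit 23944657881) (nat_lit 0) (nat_lit 27019843618) (nat_lit 152) (nat_lit 62993670854) (nat_lit 119) (nat_lit 3) (nat_lit 119) (nat_lit 1) (nat_lit 121) (nat_lit 1) (nat_lit 276) (nat_lit 415) (nat_lit 329)) (XT.lf (nat_lit 76) (nat_lit 26453804779) (nat_lit 0) (nat_lit 55312105950) (nat_lit 76) (nat_lit 29301198981) (nat_lit 119) (nat_lit 3) (nat_lit 118) (nat_lit 1) (nat_lit 119) (nat_lit 1) (nat_lit 277) (nat_lit 415) (nat_lit 328)))) (XT.nd (nat_lit 156) (nat_lit 228) (nat_lit 0) (XT.nd (nat_lit 78) (nat_lit 76) (nat_lit 0) (XT.lf (nat_lit 0) (nat_lit 28443500748) (nat_lit 0) (nat_lit 30954430379) (nat_lit 152) (nat_lit 48851708356) (nat_lit 116) (nat_lit 3) (nat_lit 116) (nat_lit 1) (nat_lit 118) (nat_lit 1) (nat_lit 278) (nat_lit 415) (nat_lit 327)) (XT.lf (nat_lit 76) (nat_lit 19923823082)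 (nat_lit 0) (nat_lit 63336230818) (nat_lit 76) (nat_lit 22248757925) (nat_lit 116) (nat_lit 3) (nat_lit 115) (nat_lit 1) (nat_lit 116) (nat_lit 1) (nat_lit 279) (nat_lit 415) (nat_lit 326))) (XT.nd (nat_lit 78) (nat_lit 76) (nat_lit 0) (XT.lf (nat_lit 0) (nat_lit 32401551788) (nat_lit 0) (nat_lit 34451758881) (nat_lit 152) (nat_lit 35975958904) (nat_lit 113) (nat_lit 3) (nat_lit 113) (nat_lit 1) (nat_lit 115) (nat_lit 1) (nat_lit 280) (nat_lit 415) (nat_lit 325)) (XT.lf (nat_lit 76) (nat_lit 13960593049) (nat_lit 0) (nat_lit 70411230011) (nat_lit 76) (nat_lit 15858932950) (nat_lit 113) (nat_lit 3) (nat_lit 112) (nat_lit 1) (nat_lit 113) (nat_lit 1) (nat_lit 281) (nat_lit 415) (nat_lit 324))))))))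
noncomputable def ec240 : XT := (XT.nd (nat_lit 2028) (nat_lit 3192) (nat_lit 0) (XT.nd (nat_lit 1014) (nat_lit 1596) (nat_lit 0) (XT.nd (nat_lit 468) (nat_lit 760) (nat_lit 0) (XT.nd (nat_lit 234) (nat_lit 456) (nat_lit 0) (XT.nd (nat_lit 78) (nat_lit 228) (nat_lit 0) (XT.lf (nat_lit 0) (nat_lit 35865688357) (nat_lit 0) (nat_lit 37539709434) (nat_lit 152) (nat_lit 24276886518) (nat_lit 110) (nat_lit 3) (nat_lit 110) (nat_lit 1) (nat_lit 112) (nat_lit 1) (nat_lit 282) (nat_lit 415) (nat_lit 323)) (XT.nd (nat_lit 78) (nat_lit 152) (nat_lit 0) (XT.lf (nat_lit 76) (nat_lit 8529154328) (nat_lit 0) (nat_lit 76610269369) (nat_lit 76) (nat_lit 10079173844) (nat_lit 110) (nat_lit 3) (nat_lit 109) (nat_lit 1) (nat_lit 110) (nat_lit 1) (nat_lit 283) (nat_lit 415) (nat_lit 322)) (XT.lf (nat_lit 0) (nat_lit 38878804637) (nat_lit 0) (nat_lit 40245664880) (nat_lit 152) (nat_lit 13670227133) (nat_lit 107) (nat_lit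 3) (nat_lit 107) (nat_lit 1) (nat_lit 109) (nat_lit 1) (nat_lit 284) (nat_lit 415) (nat_lit 321)))) (XT.nd (nat_lit 78) (nat_lit 380) (nat_lit 0) (XT.lf (nat_lit 76) (nat_lit 3595539546) (nat_lit 0) (nat_lit 82002066168) (nat_lit 76) (nat_lit 4861150882) (nat_lit 107) (nat_lit 3) (nat_lit 106) (nat_lit 1) (nat_lit 107) (nat_lit 1) (nat_lit 285) (nat_lit 415) (nat_lit 320)) (XT.nd (nat_lit 78) (nat_lit 228) (nat_lit 0) (XT.lf (nat_lit 0) (nat_lit 41480206147) (nat_lit 0) (nat_lit 42596265527) (nat_lit 152) (nat_lit 4076791239) (nat_lit 104) (nat_lit 3) (nat_lit 104) (nat_lit 1) (nat_lit 106) (nat_lit 1) (nat_lit 286) (nat_lit 415) (nat_lit 319)) (XT.lf (nat_lit 152) (nat_lit 85080761892) (nat_lit 0) (nat_lit 722160379) (nat_lit 76) (nat_lit 134204836) (nat_lit 103) (nat_lit 1) (nat_lit 101) (nat_lit 1) (nat_lit 102) (nat_lit 1) (nat_lit 287) (nat_lit 415) (nat_lit 318))))) (XT.nd (nat_lit 234)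 (nat_lit 456) (nat_lit 0) (XT.nd (nat_lit 78) (nat_lit 228) (nat_lit 0) (XT.lf (nat_lit 76) (nat_lit 39050680889) (nat_lit 0) (nat_lit 4729108005) (nat_lit 76) (nat_lit 39961958062) (nat_lit 101) (nat_lit 3) (nat_lit 100) (nat_lit 1) (nat_lit 101) (nat_lit 1) (nat_lit 288) (nat_lit 415) (nat_lit 317)) (XT.nd (nat_lit 78) (nat_lit 76) (nat_lit 0) (XT.lf (nat_lit 0) (nat_lit 4157882896) (nat_lit 0) (nat_lit 4961478286) (nat_lit 152) (nat_lit 72511541245) (nat_lit 98) (nat_lit 3) (nat_lit 98) (nat_lit 1) (nat_lit 100) (nat_lit 1) (nat_lit 289) (nat_lit 415) (nat_lit 316)) (XT.lf (nat_lit 76) (nat_lit 33016725279) (nat_lit 0) (nat_lit 12771847565) (nat_lit 76) (nat_lit 33760795086) (nat_lit 98) (nat_lit 3) (nat_lit 97) (nat_lit 1) (nat_lit 98) (nat_lit 1) (nat_lit 290) (nat_lit 415) (nat_lit 315)))) (XT.nd (nat_lit 156) (nat_lit 228) (nat_lit 0) (XT.nd (nat_lit 78) (nat_lit 76) (nat_lit 0) (XT.lf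 (nat_lit 0) (nat_lit 8001288748) (nat_lit 0) (nat_lit 8657434961) (nat_lit 152) (nat_lit 60882922875) (nat_lit 95) (nat_lit 3) (nat_lit 95) (nat_lit 1) (nat_lit 97) (nat_lit 1) (nat_lit 291) (nat_lit 415) (nat_lit 314)) (XT.lf (nat_lit 76) (nat_lit 27488253239) (nat_lit 0) (nat_lit 19984046752) (nat_lit 76) (nat_lit 28095796030) (nat_lit 95) (nat_lit 3) (nat_lit 94) (nat_lit 1) (nat_lit 95) (nat_lit 1) (nat_lit 292) (nat_lit 415) (nat_lit 313))) (XT.nd (nat_lit 78) (nat_lit 76) (nat_lit 0) (XT.lf (nat_lit 0) (nat_lit 11435664144) (nat_lit 0) (nat_lit 11971416163) (nat_lit 152) (nat_lit 50251337458) (nat_lit 92) (nat_lit 3) (nat_lit 92) (nat_lit 1) (nat_lit 94) (nat_lit 1) (nat_lit 293) (nat_lit 415) (nat_lit 312)) (XT.lf (nat_lit 76) (nat_lit 22431176411) (nat_lit 0) (nat_lit 26428783470) (nat_lit 76) (nat_lit 22927243096) (nat_lit 92) (nat_lit 3) (nat_lit 91) (nat_lit 1) (nat_lit 92) (nat_lit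 1) (nat_lit 294) (nat_lit 415) (nat_lit 311)))))) (XT.nd (nat_lit 468) (nat_lit 912) (nat_lit 0) (XT.nd (nat_lit 234) (nat_lit 304) (nat_lit 0) (XT.nd (nat_lit 78) (nat_lit 228) (nat_lit 0) (XT.lf (nat_lit 0) (nat_lit 14493713878) (nat_lit 0) (nat_lit 14931162453) (nat_lit 152) (nat_lit 40545867472) (nat_lit 89) (nat_lit 3) (nat_lit 89) (nat_lit 1) (nat_lit 91) (nat_lit 1) (nat_lit 295) (nat_lit 415) (nat_lit 310)) (XT.nd (nat_lit 78) (nat_lit 152) (nat_lit 0) (XT.lf (nat_lit 76) (nat_lit 17813223725) (nat_lit 0) (nat_lit 32165024651) (nat_lit 76) (nat_lit 18218268702) (nat_lit 89) (nat_lit 3) (nat_lit 88) (nat_lit 1) (nat_lit 89) (nat_lit 1) (nat_lit 296) (nat_lit 415) (nat_lit 309)) (XT.lf (nat_lit 0) (nat_lit 17205705623) (nat_lit 0) (nat_lit 17562888143) (nat_lit 152) (nat_lit 31700101426) (nat_lit 86) (nat_lit 3) (nat_lit 86) (nat_lit 1) (nat_lit 88) (nat_lit 1) (nat_lit 297) (nat_lit 415)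 (nat_lit 308)))) (XT.nd (nat_lit 78) (nat_lit 228) (nat_lit 0) (XT.lf (nat_lit 76) (nat_lit 13603909325) (nat_lit 0) (nat_lit 37247849336) (nat_lit 76) (nat_lit 13934633880) (nat_lit 86) (nat_lit 3) (nat_lit 85) (nat_lit 1) (nat_lit 86) (nat_lit 1) (nat_lit 298) (nat_lit 415) (nat_lit 307)) (XT.nd (nat_lit 78) (nat_lit 76) (nat_lit 0) (XT.lf (nat_lit 0) (nat_lit 19599662643) (nat_lit 0) (nat_lit 19891306871) (nat_lit 152) (nat_lit 23651885900) (nat_lit 83) (nat_lit 3) (nat_lit 83) (nat_lit 1) (nat_lit 85) (nat_lit 1) (nat_lit 299) (nat_lit 415) (nat_lit 306)) (XT.lf (nat_lit 76) (nat_lit 9774487102) (nat_lit 0) (nat_lit 41728665747) (nat_lit 76) (nat_lit 10044528054) (nat_lit 83) (nat_lit 3) (nat_lit 82) (nat_lit 1) (nat_lit 83) (nat_lit 1) (nat_lit 300) (nat_lit 415) (nat_lit 305))))) (XT.nd (nat_lit 234) (nat_lit 532) (nat_lit 0) (XT.nd (nat_lit 78) (nat_lit 228) (nat_lit 0) (XT.lf (nat_lit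 0) (nat_lit 21701537901) (nat_lit 0) (nat_lit 21939669252) (nat_lit 152) (nat_lit 16343085996) (nat_lit 80) (nat_lit 3) (nat_lit 80) (nat_lit 1) (nat_lit 82) (nat_lit 1) (nat_lit 301) (nat_lit 415) (nat_lit 304)) (XT.nd (nat_lit 78) (nat_lit 152) (nat_lit 0) (XT.lf (nat_lit 76) (nat_lit 6297895467) (nat_lit 0) (nat_lit 45655421280) (nat_lit 76) (nat_lit 6518387459) (nat_lit 80) (nat_lit 3) (nat_lit 79) (nat_lit 1) (nat_lit 80) (nat_lit 1) (nat_lit 302) (nat_lit 415) (nat_lit 303)) (XT.lf (nat_lit 0) (nat_lit 23535371938) (nat_lit 0) (nat_lit 23729809321) (nat_lit 152) (nat_lit 9719354947) (nat_lit 77) (nat_lit 3) (nat_lit 77) (nat_lit 1) (nat_lit 79) (nat_lit 1) (nat_lit 303) (nat_lit 415) (nat_lit 302)))) (XT.nd (nat_lit 156) (nat_lit 304) (nat_lit 0) (XT.nd (nat_lit 78) (nat_lit 152) (nat_lit 0) (XT.lf (nat_lit 76) (nat_lit 3148695279) (nat_lit 0) (nat_lit 49072804636) (nat_lit 76) (nat_lit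 3328729892) (nat_lit 77) (nat_lit 3) (nat_lit 76) (nat_lit 1) (nat_lit 77) (nat_lit 1) (nat_lit 304) (nat_lit 415) (nat_lit 301)) (XT.lf (nat_lit 0) (nat_lit 25123436498) (nat_lit 0) (nat_lit 25282197181) (nat_lit 152) (nat_lit 3729913356) (nat_lit 74) (nat_lit 3) (nat_lit 74) (nat_lit 1) (nat_lit 76) (nat_lit 1) (nat_lit 305) (nat_lit 415) (nat_lit 300))) (XT.nd (nat_lit 78) (nat_lit 228) (nat_lit 0) (XT.lf (nat_lit 76) (nat_lit 303003233) (nat_lit 0) (nat_lit 52022439620) (nat_lit 76) (nat_lit 450003865) (nat_lit 74) (nat_lit 3) (nat_lit 73) (nat_lit 1) (nat_lit 74) (nat_lit 1) (nat_lit 306) (nat_lit 415) (nat_lit 299)) (XT.lf (nat_lit 76) (nat_lit 24785376570) (nat_lit 0) (nat_lit 1727967435) (nat_lit 76) (nat_lit 24915006757) (nat_lit 71) (nat_lit 3) (nat_lit 70) (nat_lit 1) (nat_lit 71) (nat_lit 1) (nat_lit 307) (nat_lit 415) (nat_lit 298))))))) (XT.nd (nat_lit 1014) (nat_lit 1672) (nat_lit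 0) (XT.nd (nat_lit 468) (nat_lit 836) (nat_lit 0) (XT.nd (nat_lit 234) (nat_lit 304) (nat_lit 0) (XT.nd (nat_lit 78) (nat_lit 228) (nat_lit 0) (XT.lf (nat_lit 0) (nat_lit 2180498533) (nat_lit 0) (nat_lit 2294810867) (nat_lit 152) (nat_lit 45657587542) (nat_lit 68) (nat_lit 3) (nat_lit 68) (nat_lit 1) (nat_lit 70) (nat_lit 1) (nat_lit 308) (nat_lit 415) (nat_lit 297)) (XT.nd (nat_lit 78) (nat_lit 152) (nat_lit 0) (XT.lf (nat_lit 76) (nat_lit 21000004536) (nat_lit 0) (nat_lit 6748636015) (nat_lit 76) (nat_lit 21105849290) (nat_lit 68) (nat_lit 3) (nat_lit 67) (nat_lit 1) (nat_lit 68) (nat_lit 1) (nat_lit 309) (nat_lit 415) (nat_lit 296)) (XT.lf (nat_lit 0) (nat_lit 4544406392) (nat_lit 0) (nat_lit 4637743917) (nat_lit 152) (nat_lit 38440078771) (nat_lit 65) (nat_lit 3) (nat_lit 65) (nat_lit 1) (nat_lit 67) (nat_lit 1) (nat_lit 310) (nat_lit 415) (nat_lit 295)))) (XT.nd (nat_lit 78) (nat_lit 228)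 (nat_lit 0) (XT.lf (nat_lit 76) (nat_lit 17536107855) (nat_lit 0) (nat_lit 11251433010) (nat_lit 76) (nat_lit 17622531490) (nat_lit 65) (nat_lit 3) (nat_lit 64) (nat_lit 1) (nat_lit 65) (nat_lit 1) (nat_lit 311) (nat_lit 415) (nat_lit 294)) (XT.nd (nat_lit 78) (nat_lit 76) (nat_lit 0) (XT.lf (nat_lit 0) (nat_lit 6659899214) (nat_lit 0) (nat_lit 6736110532) (nat_lit 152) (nat_lit 31841899482) (nat_lit 62) (nat_lit 3) (nat_lit 62) (nat_lit 1) (nat_lit 64) (nat_lit 1) (nat_lit 312) (nat_lit 415) (nat_lit 293)) (XT.lf (nat_lit 76) (nat_lit 14370916660) (nat_lit 0) (nat_lit 15276151430) (nat_lit 76) (nat_lit 14441482695) (nat_lit 62) (nat_lit 3) (nat_lit 61) (nat_lit 1) (nat_lit 62) (nat_lit 1) (nat_lit 313) (nat_lit 415) (nat_lit 292))))) (XT.nd (nat_lit 234) (nat_lit 456) (nat_lit 0) (XT.nd (nat_lit 78) (nat_lit 228) (nat_lit 0) (XT.lf (nat_lit 0) (nat_lit 8546368833) (nat_lit 0) (nat_lit 8608596377)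 (nat_lit 152) (nat_lit 25818577480) (nat_lit 59) (nat_lit 3) (nat_lit 59) (nat_lit 1) (nat_lit 61) (nat_lit 1) (nat_lit 314) (nat_lit 415) (nat_lit 291)) (XT.nd (nat_lit 78) (nat_lit 152) (nat_lit 0) (XT.lf (nat_lit 76) (nat_lit 11483103667) (nat_lit 0) (nat_lit 18859886208) (nat_lit 76) (nat_lit 11540721763) (nat_lit 59) (nat_lit 3) (nat_lit 58) (nat_lit 1) (nat_lit 59) (nat_lit 1) (nat_lit 315) (nat_lit 415) (nat_lit 290)) (XT.lf (nat_lit 0) (nat_lit 10221847289) (nat_lit 0) (nat_lit 10272656897) (nat_lit 152) (nat_lit 20328556909) (nat_lit 56) (nat_lit 3) (nat_lit 56) (nat_lit 1) (nat_lit 58) (nat_lit 1) (nat_lit 316) (nat_lit 415) (nat_lit 289)))) (XT.nd (nat_lit 156) (nat_lit 228) (nat_lit 0) (XT.nd (nat_lit 78) (nat_lit 152) (nat_lit 0) (XT.lf (nat_lit 76) (nat_lit 8852705112) (nat_lit 0) (nat_lit 22037201949) (nat_lit 76) (nat_lit 8899751046) (nat_lit 56) (nat_lit 3) (nat_lit 55) (nat_lit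 1) (nat_lit 56) (nat_lit 1) (nat_lit 317) (nat_lit 415) (nat_lit 288)) (XT.lf (nat_lit 0) (nat_lit 11703099536) (nat_lit 0) (nat_lit 11744586250) (nat_lit 152) (nat_lit 15333019674) (nat_lit 53) (nat_lit 3) (nat_lit 53) (nat_lit 1) (nat_lit 55) (nat_lit 1) (nat_lit 318) (nat_lit 415) (nat_lit 287))) (XT.nd (nat_lit 78) (nat_lit 152) (nat_lit 0) (XT.lf (nat_lit 76) (nat_lit 6461044320) (nat_lit 0) (nat_lit 24840291387) (nat_lit 76) (nat_lit 6499457945) (nat_lit 53) (nat_lit 3) (nat_lit 52) (nat_lit 1) (nat_lit 53) (nat_lit 1) (nat_lit 319) (nat_lit 415) (nat_lit 286)) (XT.lf (nat_lit 0) (nat_lit 13005709463) (nat_lit 0) (nat_lit 13039583912) (nat_lit 152) (nat_lit 10795716806) (nat_lit 50) (nat_lit 3) (nat_lit 50) (nat_lit 1) (nat_lit 52) (nat_lit 1) (nat_lit 320) (nat_lit 415) (nat_lit 285)))))) (XT.nd (nat_lit 546) (nat_lit 760) (nat_lit 0) (XT.nd (nat_lit 234) (nat_lit 608) (nat_lit 0) (XT.nd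 (nat_lit 78) (nat_lit 228) (nat_lit 0) (XT.lf (nat_lit 76) (nat_lit 4290658160) (nat_lit 0) (nat_lit 27299124949) (nat_lit 76) (nat_lit 4322023390) (nat_lit 50) (nat_lit 3) (nat_lit 49) (nat_lit 1) (nat_lit 50) (nat_lit 1) (nat_lit 321) (nat_lit 415) (nat_lit 284)) (XT.nd (nat_lit 78) (nat_lit 76) (nat_lit 0) (XT.lf (nat_lit 0) (nat_lit 14144159800) (nat_lit 0) (nat_lit 14171818733) (nat_lit 152) (nat_lit 6682809339) (nat_lit 47) (nat_lit 3) (nat_lit 47) (nat_lit 1) (nat_lit 49) (nat_lit 1) (nat_lit 322) (nat_lit 415) (nat_lit 283)) (XT.lf (nat_lit 76) (nat_lit 2325226535) (nat_lit 0) (nat_lit 29441591753) (nat_lit 76) (nat_lit 2350836658) (nat_lit 47) (nat_lit 3) (nat_lit 46) (nat_lit 1) (nat_lit 47) (nat_lit 1) (nat_lit 323) (nat_lit 415) (nat_lit 282)))) (XT.nd (nat_lit 156) (nat_lit 380) (nat_lit 0) (XT.nd (nat_lit 78) (nat_lit 76) (nat_lit 0) (XT.lf (nat_lit 0) (nat_lit 15131906428) (nat_lit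 0) (nat_lit 15154490310) (nat_lit 152) (nat_lit 2962718285) (nat_lit 44) (nat_lit 3) (nat_lit 44) (nat_lit 1) (nat_lit 46) (nat_lit 1) (nat_lit 324) (nat_lit 415) (nat_lit 281)) (XT.lf (nat_lit 76) (nat_lit 549505008) (nat_lit 0) (nat_lit 31293632452) (nat_lit 76) (nat_lit 570416011) (nat_lit 44) (nat_lit 3) (nat_lit 43) (nat_lit 1) (nat_lit 44) (nat_lit 1) (nat_lit 325) (nat_lit 415) (nat_lit 280))) (XT.nd (nat_lit 78) (nat_lit 152) (nat_lit 0) (XT.lf (nat_lit 76) (nat_lit 15580757976) (nat_lit 0) (nat_lit 407044682) (nat_lit 76) (nat_lit 15599198014) (nat_lit 41) (nat_lit 3) (nat_lit 40) (nat_lit 1) (nat_lit 41) (nat_lit 1) (nat_lit 326) (nat_lit 415) (nat_lit 279)) (XT.lf (nat_lit 0) (nat_lit 1051157117) (nat_lit 0) (nat_lit 1067418173) (nat_lit 152) (nat_lit 28673048573) (nat_lit 38) (nat_lit 3) (nat_lit 38) (nat_lit 1) (nat_lit 40) (nat_lit 1) (nat_lit 327) (nat_lit 415) (nat_lit 278)))))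 (XT.nd (nat_lit 234) (nat_lit 456) (nat_lit 0) (XT.nd (nat_lit 78) (nat_lit 228) (nat_lit 0) (XT.lf (nat_lit 76) (nat_lit 13231685166) (nat_lit 0) (nat_lit 3527781517) (nat_lit 76) (nat_lit 13246741700) (nat_lit 38) (nat_lit 3) (nat_lit 37) (nat_lit 1) (nat_lit 38) (nat_lit 1) (nat_lit 328) (nat_lit 415) (nat_lit 277)) (XT.nd (nat_lit 78) (nat_lit 76) (nat_lit 0) (XT.lf (nat_lit 0) (nat_lit 2515865599) (nat_lit 0) (nat_lit 2529142965) (nat_lit 152) (nat_lit 24204609316) (nat_lit 35) (nat_lit 3) (nat_lit 35) (nat_lit 1) (nat_lit 37) (nat_lit 1) (nat_lit 329) (nat_lit 415) (nat_lit 276)) (XT.lf (nat_lit 76) (nat_lit 11082304769) (nat_lit 0) (nat_lit 6327992881) (nat_lit 76) (nat_lit 11094598627) (nat_lit 35) (nat_lit 3) (nat_lit 34) (nat_lit 1) (nat_lit 35) (nat_lit 1) (nat_lit 330) (nat_lit 415) (nat_lit 275)))) (XT.nd (nat_lit 156) (nat_lit 228) (nat_lit 0) (XT.nd (nat_lit 78) (nat_lit 76) (nat_lit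 0) (XT.lf (nat_lit 0) (nat_lit 3827748095) (nat_lit 0) (nat_lit 3838589240) (nat_lit 152) (nat_lit 20118857317) (nat_lit 32) (nat_lit 3) (nat_lit 32) (nat_lit 1) (nat_lit 34) (nat_lit 1) (nat_lit 331) (nat_lit 415) (nat_lit 274)) (XT.lf (nat_lit 76) (nat_lit 9118334975) (nat_lit 0) (nat_lit 8832340249) (nat_lit 76) (nat_lit 9128373072) (nat_lit 32) (nat_lit 3) (nat_lit 31) (nat_lit 1) (nat_lit 32) (nat_lit 1) (nat_lit 332) (nat_lit 415) (nat_lit 273))) (XT.nd (nat_lit 78) (nat_lit 76) (nat_lit 0) (XT.lf (nat_lit 0) (nat_lit 4998650479) (nat_lit 0) (nat_lit 5007502416) (nat_lit 152) (nat_lit 16388278445) (nat_lit 29) (nat_lit 3) (nat_lit 29) (nat_lit 1) (nat_lit 31) (nat_lit 1) (nat_lit 333) (nat_lit 415) (nat_lit 272)) (XT.lf (nat_lit 76) (nat_lit 7326428345) (nat_lit 0) (nat_lit 11063799542) (nat_lit 76) (nat_lit 7334624583) (nat_lit 29) (nat_lit 3) (nat_lit 28) (nat_lit 1) (nat_lit 29) (nat_lit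 1) (nat_lit 334) (nat_lit 415) (nat_lit 271))))))))
noncomputable def ec241 : XT := (XT.nd (nat_lit 2106) (nat_lit 0) (nat_lit 0) (XT.nd (nat_lit 1014) (nat_lit 532) (nat_lit 0) (XT.nd (nat_lit 468) (nat_lit 912) (nat_lit 0) (XT.nd (nat_lit 234) (nat_lit 304) (nat_lit 0) (XT.nd (nat_lit 78) (nat_lit 228) (nat_lit 0) (XT.lf (nat_lit 0) (nat_lit 6039601118) (nat_lit 0) (nat_lit 6046828841) (nat_lit 152) (nat_lit 12987174617) (nat_lit 26) (nat_lit 3) (nat_lit 26) (nat_lit 1) (nat_lit 28) (nat_lit 1) (nat_lit 335) (nat_lit 415) (nat_lit 270)) (XT.nd (nat_lit 78) (nat_lit 152) (nat_lit 0) (XT.lf (nat_lit 76) (nat_lit 5694114705) (nat_lit 0) (nat_lit 13043768714) (nat_lit 76) (nat_lit 5700807041) (nat_lit 26) (nat_lit 3) (nat_lit 25) (nat_lit 1) (nat_lit 26) (nat_lit 1) (nat_lit 336) (nat_lit 415) (nat_lit 269)) (XT.lf (nat_lit 0) (nat_lit 6960864263) (nat_lit 0) (nat_lit 6966765794) (nat_lit 152)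 (nat_lit 9891550189) (nat_lit 23) (nat_lit 3) (nat_lit 23) (nat_lit 1) (nat_lit 25) (nat_lit 1) (nat_lit 337) (nat_lit 415) (nat_lit 268)))) (XT.nd (nat_lit 78) (nat_lit 228) (nat_lit 0) (XT.lf (nat_lit 76) (nat_lit 4209747208) (nat_lit 0) (nat_lit 14792168860) (nat_lit 76) (nat_lit 4215211588) (nat_lit 23) (nat_lit 3) (nat_lit 22) (nat_lit 1) (nat_lit 23) (nat_lit 1) (nat_lit 338) (nat_lit 415) (nat_lit 267)) (XT.nd (nat_lit 78) (nat_lit 76) (nat_lit 0) (XT.lf (nat_lit 0) (nat_lit 7771989993) (nat_lit 0) (nat_lit 7776808671) (nat_lit 152) (nat_lit 7079005130) (nat_lit 20) (nat_lit 3) (nat_lit 20) (nat_lit 1) (nat_lit 22) (nat_lit 1) (nat_lit 339) (nat_lit 415) (nat_lit 266)) (XT.lf (nat_lit 76) (nat_lit 2862451428) (nat_lit 0) (nat_lit 16327539170) (nat_lit 76) (nat_lit 2866913167) (nat_lit 20) (nat_lit 3) (nat_lit 19) (nat_lit 1) (nat_lit 20) (nat_lit 1) (nat_lit 340) (nat_lit 415) (nat_lit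 265))))) (XT.nd (nat_lit 234) (nat_lit 532) (nat_lit 0) (XT.nd (nat_lit 78) (nat_lit 228) (nat_lit 0) (XT.lf (nat_lit 0) (nat_lit 8481860961) (nat_lit 0) (nat_lit 8485795475) (nat_lit 152) (nat_lit 4528634606) (nat_lit 17) (nat_lit 3) (nat_lit 17) (nat_lit 1) (nat_lit 19) (nat_lit 1) (nat_lit 341) (nat_lit 415) (nat_lit 264)) (XT.nd (nat_lit 78) (nat_lit 152) (nat_lit 0) (XT.lf (nat_lit 76) (nat_lit 1642077369) (nat_lit 0) (nat_lit 17667126110) (nat_lit 76) (nat_lit 1645720437) (nat_lit 17) (nat_lit 3) (nat_lit 16) (nat_lit 1) (nat_lit 17) (nat_lit 1) (nat_lit 342) (nat_lit 415) (nat_lit 263)) (XT.lf (nat_lit 0) (nat_lit 9098736133) (nat_lit 0) (nat_lit 9101948715) (nat_lit 152) (nat_lit 2220934622) (nat_lit 14) (nat_lit 3) (nat_lit 14) (nat_lit 1) (nat_lit 16) (nat_lit 1) (nat_lit 343) (nat_lit 415) (nat_lit 262)))) (XT.nd (nat_lit 156) (nat_lit 304) (nat_lit 0) (XT.nd (nat_lit 78) (nat_lit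 152) (nat_lit 0) (XT.lf (nat_lit 76) (nat_lit 539154230) (nat_lit 0) (nat_lit 18826967133) (nat_lit 76) (nat_lit 542128844) (nat_lit 14) (nat_lit 3) (nat_lit 13) (nat_lit 1) (nat_lit 14) (nat_lit 1) (nat_lit 344) (nat_lit 415) (nat_lit 261)) (XT.lf (nat_lit 0) (nat_lit 9630291744) (nat_lit 0) (nat_lit 9632914859) (nat_lit 152) (nat_lit 137713358) (nat_lit 11) (nat_lit 3) (nat_lit 11) (nat_lit 1) (nat_lit 13) (nat_lit 1) (nat_lit 345) (nat_lit 415) (nat_lit 260))) (XT.nd (nat_lit 78) (nat_lit 76) (nat_lit 0) (XT.lf (nat_lit 0) (nat_lit 460222804) (nat_lit 0) (nat_lit 462535957) (nat_lit 152) (nat_lit 17989882050) (nat_lit 8) (nat_lit 3) (nat_lit 8) (nat_lit 1) (nat_lit 10) (nat_lit 1) (nat_lit 346) (nat_lit 415) (nat_lit 259)) (XT.lf (nat_lit 76) (nat_lit 8316233791) (nat_lit 0) (nat_lit 1795457973) (nat_lit 76) (nat_lit 8318375599) (nat_lit 8) (nat_lit 3) (nat_lit 7) (nat_lit 1) (nat_lit 8) (nat_lit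 1) (nat_lit 347) (nat_lit 415) (nat_lit 258)))))) (XT.nd (nat_lit 546) (nat_lit 0) (nat_lit 0) (XT.nd (nat_lit 234) (nat_lit 152) (nat_lit 0) (XT.nd (nat_lit 78) (nat_lit 228) (nat_lit 0) (XT.lf (nat_lit 0) (nat_lit 1369243426) (nat_lit 0) (nat_lit 1371132146) (nat_lit 152) (nat_lit 15225116496) (nat_lit 5) (nat_lit 3) (nat_lit 5) (nat_lit 1) (nat_lit 7) (nat_lit 1) (nat_lit 348) (nat_lit 415) (nat_lit 257)) (XT.nd (nat_lit 78) (nat_lit 152) (nat_lit 0) (XT.lf (nat_lit 76) (nat_lit 6985516007) (nat_lit 0) (nat_lit 3535140581) (nat_lit 76) (nat_lit 6987264822) (nat_lit 5) (nat_lit 3) (nat_lit 4) (nat_lit 1) (nat_lit 5) (nat_lit 1) (nat_lit 349) (nat_lit 415) (nat_lit 256)) (XT.lf (nat_lit 0) (nat_lit 2183963738) (nat_lit 0) (nat_lit 2185505902) (nat_lit 152) (nat_lit 12696526686) (nat_lit 2) (nat_lit 3) (nat_lit 2) (nat_lit 1) (nat_lit 4) (nat_lit 1) (nat_lit 350) (nat_lit 415) (nat_lit 255))))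 (XT.nd (nat_lit 156) (nat_lit 0) (nat_lit 0) (XT.nd (nat_lit 78) (nat_lit 76) (nat_lit 0) (XT.lf (nat_lit 76) (nat_lit 5769347892) (nat_lit 0) (nat_lit 5092003242) (nat_lit 76) (nat_lit 5770775822) (nat_lit 2) (nat_lit 3) (nat_lit 1) (nat_lit 1) (nat_lit 2) (nat_lit 1) (nat_lit 351) (nat_lit 415) (nat_lit 254)) (XT.lf (nat_lit 0) (nat_lit 344892065368) (nat_lit 0) (nat_lit 0) (nat_lit 0) (nat_lit 0) (nat_lit 0) (nat_lit 0) (nat_lit 1) (nat_lit 0) (nat_lit 1) (nat_lit 0) (nat_lit 352) (nat_lit 415) (nat_lit 253))) (XT.nd (nat_lit 78) (nat_lit 0) (nat_lit 0) (XT.lf (nat_lit 0) (nat_lit 344891967035) (nat_lit 0) (nat_lit 0) (nat_lit 0) (nat_lit 0) (nat_lit 0) (nat_lit 0) (nat_lit 1) (nat_lit 0) (nat_lit 1) (nat_lit 0) (nat_lit 353) (nat_lit 415) (nat_lit 252)) (XT.lf (nat_lit 0) (nat_lit 344891875986) (nat_lit 0) (nat_lit 0) (nat_lit 0) (nat_lit 0) (nat_lit 0) (nat_lit 0) (nat_lit 1) (nat_lit 0)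 (nat_lit 1) (nat_lit 0) (nat_lit 354) (nat_lit 415) (nat_lit 251))))) (XT.nd (nat_lit 234) (nat_lit 0) (nat_lit 0) (XT.nd (nat_lit 78) (nat_lit 0) (nat_lit 0) (XT.lf (nat_lit 0) (nat_lit 344891791681) (nat_lit 0) (nat_lit 0) (nat_lit 0) (nat_lit 0) (nat_lit 0) (nat_lit 0) (nat_lit 1) (nat_lit 0) (nat_lit 1) (nat_lit 0) (nat_lit 355) (nat_lit 415) (nat_lit 250)) (XT.nd (nat_lit 78) (nat_lit 0) (nat_lit 0) (XT.lf (nat_lit 0) (nat_lit 344891713621) (nat_lit 0) (nat_lit 0) (nat_lit 0) (nat_lit 0) (nat_lit 0) (nat_lit 0) (nat_lit 1) (nat_lit 0) (nat_lit 1) (nat_lit 0) (nat_lit 356) (nat_lit 415) (nat_lit 249)) (XT.lf (nat_lit 0) (nat_lit 344891641343) (nat_lit 0) (nat_lit 0) (nat_lit 0) (nat_lit 0) (nat_lit 0) (nat_lit 0) (nat_lit 1) (nat_lit 0) (nat_lit 1) (nat_lit 0) (nat_lit 357) (nat_lit 415) (nat_lit 248)))) (XT.nd (nat_lit 156) (nat_lit 0) (nat_lit 0) (XT.nd (nat_lit 78) (nat_lit 0) (nat_lit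 0) (XT.lf (nat_lit 0) (nat_lit 344891574419) (nat_lit 0) (nat_lit 0) (nat_lit 0) (nat_lit 0) (nat_lit 0) (nat_lit 0) (nat_lit 1) (nat_lit 0) (nat_lit 1) (nat_lit 0) (nat_lit 358) (nat_lit 415) (nat_lit 247)) (XT.lf (nat_lit 0) (nat_lit 344891512453) (nat_lit 0) (nat_lit 0) (nat_lit 0) (nat_lit 0) (nat_lit 0) (nat_lit 0) (nat_lit 1) (nat_lit 0) (nat_lit 1) (nat_lit 0) (nat_lit 359) (nat_lit 415) (nat_lit 246))) (XT.nd (nat_lit 78) (nat_lit 0) (nat_lit 0) (XT.lf (nat_lit 0) (nat_lit 344891455077) (nat_lit 0) (nat_lit 0) (nat_lit 0) (nat_lit 0) (nat_lit 0) (nat_lit 0) (nat_lit 1) (nat_lit 0) (nat_lit 1) (nat_lit 0) (nat_lit 360) (nat_lit 415) (nat_lit 245)) (XT.lf (nat_lit 0) (nat_lit 344891401950) (nat_lit 0) (nat_lit 0) (nat_lit 0) (nat_lit 0) (nat_lit 0) (nat_lit 0) (nat_lit 1) (nat_lit 0) (nat_lit 1) (nat_lit 0) (nat_lit 361) (nat_lit 415) (nat_lit 244))))))) (XT.nd (nat_lit 1014) (nat_lit 0)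 (nat_lit 0) (XT.nd (nat_lit 468) (nat_lit 0) (nat_lit 0) (XT.nd (nat_lit 234) (nat_lit 0) (nat_lit 0) (XT.nd (nat_lit 78) (nat_lit 0) (nat_lit 0) (XT.lf (nat_lit 0) (nat_lit 344891352759) (nat_lit 0) (nat_lit 0) (nat_lit 0) (nat_lit 0) (nat_lit 0) (nat_lit 0) (nat_lit 1) (nat_lit 0) (nat_lit 1) (nat_lit 0) (nat_lit 362) (nat_lit 415) (nat_lit 243)) (XT.nd (nat_lit 78) (nat_lit 0) (nat_lit 0) (XT.lf (nat_lit 0) (nat_lit 344891307212) (nat_lit 0) (nat_lit 0) (nat_lit 0) (nat_lit 0) (nat_lit 0) (nat_lit 0) (nat_lit 1) (nat_lit 0) (nat_lit 1) (nat_lit 0) (nat_lit 363) (nat_lit 415) (nat_lit 242)) (XT.lf (nat_lit 0) (nat_lit 344891265039) (nat_lit 0) (nat_lit 0) (nat_lit 0) (nat_lit 0) (nat_lit 0) (nat_lit 0) (nat_lit 1) (nat_lit 0) (nat_lit 1) (nat_lit 0) (nat_lit 364) (nat_lit 415) (nat_lit 241)))) (XT.nd (nat_lit 78) (nat_lit 0) (nat_lit 0) (XT.lf (nat_lit 0) (nat_lit 344891225989) (nat_lit 0)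 (nat_lit 0) (nat_lit 0) (nat_lit 0) (nat_lit 0) (nat_lit 0) (nat_lit 1) (nat_lit 0) (nat_lit 1) (nat_lit 0) (nat_lit 365) (nat_lit 415) (nat_lit 240)) (XT.nd (nat_lit 78) (nat_lit 0) (nat_lit 0) (XT.lf (nat_lit 0) (nat_lit 344891189832) (nat_lit 0) (nat_lit 0) (nat_lit 0) (nat_lit 0) (nat_lit 0) (nat_lit 0) (nat_lit 1) (nat_lit 0) (nat_lit 1) (nat_lit 0) (nat_lit 366) (nat_lit 415) (nat_lit 239)) (XT.lf (nat_lit 0) (nat_lit 344891156354) (nat_lit 0) (nat_lit 0) (nat_lit 0) (nat_lit 0) (nat_lit 0) (nat_lit 0) (nat_lit 1) (nat_lit 0) (nat_lit 1) (nat_lit 0) (nat_lit 367) (nat_lit 415) (nat_lit 238))))) (XT.nd (nat_lit 234) (nat_lit 0) (nat_lit 0) (XT.nd (nat_lit 78) (nat_lit 0) (nat_lit 0) (XT.lf (nat_lit 0) (nat_lit 344891125355) (nat_lit 0) (nat_lit 0) (nat_lit 0) (nat_lit 0) (nat_lit 0) (nat_lit 0) (nat_lit 1) (nat_lit 0) (nat_lit 1) (nat_lit 0) (nat_lit 368) (nat_lit 415) (nat_lit 237)) (XT.nd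 (nat_lit 78) (nat_lit 0) (nat_lit 0) (XT.lf (nat_lit 0) (nat_lit 344891096653) (nat_lit 0) (nat_lit 0) (nat_lit 0) (nat_lit 0) (nat_lit 0) (nat_lit 0) (nat_lit 1) (nat_lit 0) (nat_lit 1) (nat_lit 0) (nat_lit 369) (nat_lit 415) (nat_lit 236)) (XT.lf (nat_lit 0) (nat_lit 344891070076) (nat_lit 0) (nat_lit 0) (nat_lit 0) (nat_lit 0) (nat_lit 0) (nat_lit 0) (nat_lit 1) (nat_lit 0) (nat_lit 1) (nat_lit 0) (nat_lit 370) (nat_lit 415) (nat_lit 235)))) (XT.nd (nat_lit 156) (nat_lit 0) (nat_lit 0) (XT.nd (nat_lit 78) (nat_lit 0) (nat_lit 0) (XT.lf (nat_lit 0) (nat_lit 344891045469) (nat_lit 0) (nat_lit 0) (nat_lit 0) (nat_lit 0) (nat_lit 0) (nat_lit 0) (nat_lit 1) (nat_lit 0) (nat_lit 1) (nat_lit 0) (nat_lit 371) (nat_lit 415) (nat_lit 234)) (XT.lf (nat_lit 0) (nat_lit 344891022684) (nat_lit 0) (nat_lit 0) (nat_lit 0) (nat_lit 0) (nat_lit 0) (nat_lit 0) (nat_lit 1) (nat_lit 0) (nat_lit 1) (nat_lit 0)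 (nat_lit 372) (nat_lit 415) (nat_lit 233))) (XT.nd (nat_lit 78) (nat_lit 0) (nat_lit 0) (XT.lf (nat_lit 0) (nat_lit 344891001587) (nat_lit 0) (nat_lit 0) (nat_lit 0) (nat_lit 0) (nat_lit 0) (nat_lit 0) (nat_lit 1) (nat_lit 0) (nat_lit 1) (nat_lit 0) (nat_lit 373) (nat_lit 415) (nat_lit 232)) (XT.lf (nat_lit 0) (nat_lit 344890982052) (nat_lit 0) (nat_lit 0) (nat_lit 0) (nat_lit 0) (nat_lit 0) (nat_lit 0) (nat_lit 1) (nat_lit 0) (nat_lit 1) (nat_lit 0) (nat_lit 374) (nat_lit 415) (nat_lit 231)))))) (XT.nd (nat_lit 546) (nat_lit 0) (nat_lit 0) (XT.nd (nat_lit 234) (nat_lit 0) (nat_lit 0) (XT.nd (nat_lit 78) (nat_lit 0) (nat_lit 0) (XT.lf (nat_lit 0) (nat_lit 344890963965) (nat_lit 0) (nat_lit 0) (nat_lit 0) (nat_lit 0) (nat_lit 0) (nat_lit 0) (nat_lit 1) (nat_lit 0) (nat_lit 1) (nat_lit 0) (nat_lit 375) (nat_lit 415) (nat_lit 230)) (XT.nd (nat_lit 78) (nat_lit 0) (nat_lit 0) (XT.lf (nat_lit 0) (nat_lit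 344890947217) (nat_lit 0) (nat_lit 0) (nat_lit 0) (nat_lit 0) (nat_lit 0) (nat_lit 0) (nat_lit 1) (nat_lit 0) (nat_lit 1) (nat_lit 0) (nat_lit 376) (nat_lit 415) (nat_lit 229)) (XT.lf (nat_lit 0) (nat_lit 344890931710) (nat_lit 0) (nat_lit 0) (nat_lit 0) (nat_lit 0) (nat_lit 0) (nat_lit 0) (nat_lit 1) (nat_lit 0) (nat_lit 1) (nat_lit 0) (nat_lit 377) (nat_lit 415) (nat_lit 228)))) (XT.nd (nat_lit 156) (nat_lit 0) (nat_lit 0) (XT.nd (nat_lit 78) (nat_lit 0) (nat_lit 0) (XT.lf (nat_lit 0) (nat_lit 344890917352) (nat_lit 0) (nat_lit 0) (nat_lit 0) (nat_lit 0) (nat_lit 0) (nat_lit 0) (nat_lit 1) (nat_lit 0) (nat_lit 1) (nat_lit 0) (nat_lit 378) (nat_lit 415) (nat_lit 227)) (XT.lf (nat_lit 0) (nat_lit 344890904057) (nat_lit 0) (nat_lit 0) (nat_lit 0) (nat_lit 0) (nat_lit 0) (nat_lit 0) (nat_lit 1) (nat_lit 0) (nat_lit 1) (nat_lit 0) (nat_lit 379) (nat_lit 415) (nat_lit 226))) (XT.nd (nat_lit 78) (nat_lit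 0) (nat_lit 0) (XT.lf (nat_lit 0) (nat_lit 344890891747) (nat_lit 0) (nat_lit 0) (nat_lit 0) (nat_lit 0) (nat_lit 0) (nat_lit 0) (nat_lit 1) (nat_lit 0) (nat_lit 1) (nat_lit 0) (nat_lit 380) (nat_lit 415) (nat_lit 225)) (XT.lf (nat_lit 0) (nat_lit 344890880349) (nat_lit 0) (nat_lit 0) (nat_lit 0) (nat_lit 0) (nat_lit 0) (nat_lit 0) (nat_lit 1) (nat_lit 0) (nat_lit 1) (nat_lit 0) (nat_lit 381) (nat_lit 415) (nat_lit 224))))) (XT.nd (nat_lit 234) (nat_lit 0) (nat_lit 0) (XT.nd (nat_lit 78) (nat_lit 0) (nat_lit 0) (XT.lf (nat_lit 0) (nat_lit 344890869795) (nat_lit 0) (nat_lit 0) (nat_lit 0) (nat_lit 0) (nat_lit 0) (nat_lit 0) (nat_lit 1) (nat_lit 0) (nat_lit 1) (nat_lit 0) (nat_lit 382) (nat_lit 415) (nat_lit 223)) (XT.nd (nat_lit 78) (nat_lit 0) (nat_lit 0) (XT.lf (nat_lit 0) (nat_lit 344890860023) (nat_lit 0) (nat_lit 0) (nat_lit 0) (nat_lit 0) (nat_lit 0) (nat_lit 0) (nat_lit 1) (nat_lit 0) (nat_lit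 1) (nat_lit 0) (nat_lit 383) (nat_lit 415) (nat_lit 222)) (XT.lf (nat_lit 0) (nat_lit 344890850975) (nat_lit 0) (nat_lit 0) (nat_lit 0) (nat_lit 0) (nat_lit 0) (nat_lit 0) (nat_lit 1) (nat_lit 0) (nat_lit 1) (nat_lit 0) (nat_lit 384) (nat_lit 415) (nat_lit 221)))) (XT.nd (nat_lit 156) (nat_lit 0) (nat_lit 0) (XT.nd (nat_lit 78) (nat_lit 0) (nat_lit 0) (XT.lf (nat_lit 0) (nat_lit 344890842597) (nat_lit 0) (nat_lit 0) (nat_lit 0) (nat_lit 0) (nat_lit 0) (nat_lit 0) (nat_lit 1) (nat_lit 0) (nat_lit 1) (nat_lit 0) (nat_lit 385) (nat_lit 415) (nat_lit 220)) (XT.lf (nat_lit 0) (nat_lit 344890834839) (nat_lit 0) (nat_lit 0) (nat_lit 0) (nat_lit 0) (nat_lit 0) (nat_lit 0) (nat_lit 1) (nat_lit 0) (nat_lit 1) (nat_lit 0) (nat_lit 386) (nat_lit 415) (nat_lit 219))) (XT.nd (nat_lit 78) (nat_lit 0) (nat_lit 0) (XT.lf (nat_lit 0) (nat_lit 344890827656) (nat_lit 0) (nat_lit 0) (nat_lit 0) (nat_lit 0) (nat_lit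 0) (nat_lit 0) (nat_lit 1) (nat_lit 0) (nat_lit 1) (nat_lit 0) (nat_lit 387) (nat_lit 415) (nat_lit 218)) (XT.lf (nat_lit 0) (nat_lit 344890821006) (nat_lit 0) (nat_lit 0) (nat_lit 0) (nat_lit 0) (nat_lit 0) (nat_lit 0) (nat_lit 1) (nat_lit 0) (nat_lit 1) (nat_lit 0) (nat_lit 388) (nat_lit 415) (nat_lit 217))))))))
noncomputable def ec242 : XT := (XT.nd (nat_lit 39390) (nat_lit 0) (nat_lit 13224) (XT.nd (nat_lit 1014) (nat_lit 0) (nat_lit 0) (XT.nd (nat_lit 468) (nat_lit 0) (nat_lit 0) (XT.nd (nat_lit 234) (nat_lit 0) (nat_lit 0) (XT.nd (nat_lit 78) (nat_lit 0) (nat_lit 0) (XT.lf (nat_lit 0) (nat_lit 344890814848) (nat_lit 0) (nat_lit 0) (nat_lit 0) (nat_lit 0) (nat_lit 0) (nat_lit 0) (nat_lit 1) (nat_lit 0) (nat_lit 1) (nat_lit 0) (nat_lit 389) (nat_lit 415) (nat_lit 216)) (XT.nd (nat_lit 78) (nat_lit 0) (nat_lit 0) (XT.lf (nat_lit 0) (nat_lit 344890809146) (nat_lit 0) (nat_lit 0) (nat_lit 0)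 (nat_lit 0) (nat_lit 0) (nat_lit 0) (nat_lit 1) (nat_lit 0) (nat_lit 1) (nat_lit 0) (nat_lit 390) (nat_lit 415) (nat_lit 215)) (XT.lf (nat_lit 0) (nat_lit 344890803866) (nat_lit 0) (nat_lit 0) (nat_lit 0) (nat_lit 0) (nat_lit 0) (nat_lit 0) (nat_lit 1) (nat_lit 0) (nat_lit 1) (nat_lit 0) (nat_lit 391) (nat_lit 415) (nat_lit 214)))) (XT.nd (nat_lit 78) (nat_lit 0) (nat_lit 0) (XT.lf (nat_lit 0) (nat_lit 344890798978) (nat_lit 0) (nat_lit 0) (nat_lit 0) (nat_lit 0) (nat_lit 0) (nat_lit 0) (nat_lit 1) (nat_lit 0) (nat_lit 1) (nat_lit 0) (nat_lit 392) (nat_lit 415) (nat_lit 213)) (XT.nd (nat_lit 78) (nat_lit 0) (nat_lit 0) (XT.lf (nat_lit 0) (nat_lit 344890794451) (nat_lit 0) (nat_lit 0) (nat_lit 0) (nat_lit 0) (nat_lit 0) (nat_lit 0) (nat_lit 1) (nat_lit 0) (nat_lit 1) (nat_lit 0) (nat_lit 393) (nat_lit 415) (nat_lit 212)) (XT.lf (nat_lit 0) (nat_lit 344890790260) (nat_lit 0) (nat_lit 0) (nat_lit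 0) (nat_lit 0) (nat_lit 0) (nat_lit 0) (nat_lit 1) (nat_lit 0) (nat_lit 1) (nat_lit 0) (nat_lit 394) (nat_lit 415) (nat_lit 211))))) (XT.nd (nat_lit 234) (nat_lit 0) (nat_lit 0) (XT.nd (nat_lit 78) (nat_lit 0) (nat_lit 0) (XT.lf (nat_lit 0) (nat_lit 344890786380) (nat_lit 0) (nat_lit 0) (nat_lit 0) (nat_lit 0) (nat_lit 0) (nat_lit 0) (nat_lit 1) (nat_lit 0) (nat_lit 1) (nat_lit 0) (nat_lit 395) (nat_lit 415) (nat_lit 210)) (XT.nd (nat_lit 78) (nat_lit 0) (nat_lit 0) (XT.lf (nat_lit 0) (nat_lit 344890782787) (nat_lit 0) (nat_lit 0) (nat_lit 0) (nat_lit 0) (nat_lit 0) (nat_lit 0) (nat_lit 1) (nat_lit 0) (nat_lit 1) (nat_lit 0) (nat_lit 396) (nat_lit 415) (nat_lit 209)) (XT.lf (nat_lit 0) (nat_lit 344890779460) (nat_lit 0) (nat_lit 0) (nat_lit 0) (nat_lit 0) (nat_lit 0) (nat_lit 0) (nat_lit 1) (nat_lit 0) (nat_lit 1) (nat_lit 0) (nat_lit 397) (nat_lit 415) (nat_lit 208)))) (XT.nd (nat_lit 156) (nat_lit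 0) (nat_lit 0) (XT.nd (nat_lit 78) (nat_lit 0) (nat_lit 0) (XT.lf (nat_lit 0) (nat_lit 344890776379) (nat_lit 0) (nat_lit 0) (nat_lit 0) (nat_lit 0) (nat_lit 0) (nat_lit 0) (nat_lit 1) (nat_lit 0) (nat_lit 1) (nat_lit 0) (nat_lit 398) (nat_lit 415) (nat_lit 207)) (XT.lf (nat_lit 0) (nat_lit 344890773527) (nat_lit 0) (nat_lit 0) (nat_lit 0) (nat_lit 0) (nat_lit 0) (nat_lit 0) (nat_lit 1) (nat_lit 0) (nat_lit 1) (nat_lit 0) (nat_lit 399) (nat_lit 415) (nat_lit 206))) (XT.nd (nat_lit 78) (nat_lit 0) (nat_lit 0) (XT.lf (nat_lit 0) (nat_lit 344890770885) (nat_lit 0) (nat_lit 0) (nat_lit 0) (nat_lit 0) (nat_lit 0) (nat_lit 0) (nat_lit 1) (nat_lit 0) (nat_lit 1) (nat_lit 0) (nat_lit 400) (nat_lit 415) (nat_lit 205)) (XT.lf (nat_lit 0) (nat_lit 344890768440) (nat_lit 0) (nat_lit 0) (nat_lit 0) (nat_lit 0) (nat_lit 0) (nat_lit 0) (nat_lit 1) (nat_lit 0) (nat_lit 1) (nat_lit 0) (nat_lit 401) (nat_lit 415)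 (nat_lit 204)))))) (XT.nd (nat_lit 37830) (nat_lit 0) (nat_lit 17024) (XT.nd (nat_lit 234) (nat_lit 0) (nat_lit 0) (XT.nd (nat_lit 78) (nat_lit 0) (nat_lit 0) (XT.lf (nat_lit 0) (nat_lit 344890766176) (nat_lit 0) (nat_lit 0) (nat_lit 0) (nat_lit 0) (nat_lit 0) (nat_lit 0) (nat_lit 1) (nat_lit 0) (nat_lit 1) (nat_lit 0) (nat_lit 402) (nat_lit 415) (nat_lit 203)) (XT.nd (nat_lit 78) (nat_lit 0) (nat_lit 0) (XT.lf (nat_lit 0) (nat_lit 344890764079) (nat_lit 0) (nat_lit 0) (nat_lit 0) (nat_lit 0) (nat_lit 0) (nat_lit 0) (nat_lit 1) (nat_lit 0) (nat_lit 1) (nat_lit 0) (nat_lit 403) (nat_lit 415) (nat_lit 202)) (XT.lf (nat_lit 0) (nat_lit 344890762138) (nat_lit 0) (nat_lit 0) (nat_lit 0) (nat_lit 0) (nat_lit 0) (nat_lit 0) (nat_lit 1) (nat_lit 0) (nat_lit 1) (nat_lit 0) (nat_lit 404) (nat_lit 415) (nat_lit 201)))) (XT.nd (nat_lit 78) (nat_lit 0) (nat_lit 0) (XT.lf (nat_lit 0) (nat_lit 344890760340)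 (nat_lit 0) (nat_lit 0) (nat_lit 0) (nat_lit 0) (nat_lit 0) (nat_lit 0) (nat_lit 1) (nat_lit 0) (nat_lit 1) (nat_lit 0) (nat_lit 405) (nat_lit 415) (nat_lit 200)) (XT.nd (nat_lit 37440) (nat_lit 0) (nat_lit 18620) (XT.lf (nat_lit 0) (nat_lit 344890758676) (nat_lit 0) (nat_lit 0) (nat_lit 0) (nat_lit 0) (nat_lit 0) (nat_lit 0) (nat_lit 1) (nat_lit 0) (nat_lit 1) (nat_lit 0) (nat_lit 406) (nat_lit 415) (nat_lit 199)) (XT.lf (nat_lit 76) (nat_lit 237847132059) (nat_lit 0) (nat_lit 163021902230) (nat_lit 380) (nat_lit 381386612130) (nat_lit 246) (nat_lit 1) (nat_lit 245) (nat_lit 1) (nat_lit 250) (nat_lit 1) (nat_lit 205) (nat_lit 416) (nat_lit 399))))) (XT.nd (nat_lit 234) (nat_lit 836) (nat_lit 0) (XT.nd (nat_lit 78) (nat_lit 532) (nat_lit 0) (XT.lf (nat_lit 304) (nat_lit 368244570082) (nat_lit 0) (nat_lit 345918179102) (nat_lit 228) (nat_lit 44277116380) (nat_lit 246) (nat_lit 1) (nat_lit 242)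 (nat_lit 1) (nat_lit 245) (nat_lit 1) (nat_lit 206) (nat_lit 416) (nat_lit 398)) (XT.nd (nat_lit 78) (nat_lit 304) (nat_lit 0) (XT.lf (nat_lit 304) (nat_lit 118020605699) (nat_lit 0) (nat_lit 297821386996) (nat_lit 228) (nat_lit 319697339121) (nat_lit 243) (nat_lit 1) (nat_lit 239) (nat_lit 1) (nat_lit 242) (nat_lit 1) (nat_lit 207) (nat_lit 416) (nat_lit 397)) (XT.lf (nat_lit 76) (nat_lit 134514972916) (nat_lit 0) (nat_lit 123160147316) (nat_lit 304) (nat_lit 455914780122) (nat_lit 236) (nat_lit 1) (nat_lit 235) (nat_lit 1) (nat_lit 239) (nat_lit 1) (nat_lit 208) (nat_lit 416) (nat_lit 396)))) (XT.nd (nat_lit 156) (nat_lit 456) (nat_lit 0) (XT.nd (nat_lit 78) (nat_lit 152) (nat_lit 0) (XT.lf (nat_lit 304) (nat_lit 334722855056) (nat_lit 0) (nat_lit 222712183885) (nat_lit 228) (nat_lit 135008858112) (nat_lit 236) (nat_lit 1) (nat_lit 232) (nat_lit 1) (nat_lit 235) (nat_lit 1) (nat_lit 209) (nat_lit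 416) (nat_lit 395)) (XT.lf (nat_lit 228) (nat_lit 82978290009) (nat_lit 0) (nat_lit 194300135768) (nat_lit 152) (nat_lit 394872556743) (nat_lit 233) (nat_lit 1) (nat_lit 230) (nat_lit 1) (nat_lit 232) (nat_lit 1) (nat_lit 210) (nat_lit 416) (nat_lit 394))) (XT.nd (nat_lit 78) (nat_lit 152) (nat_lit 0) (XT.lf (nat_lit 76) (nat_lit 14057052457) (nat_lit 0) (nat_lit 157301468631) (nat_lit 304) (nat_lit 481286153727) (nat_lit 227) (nat_lit 1) (nat_lit 226) (nat_lit 1) (nat_lit 230) (nat_lit 1) (nat_lit 211) (nat_lit 416) (nat_lit 393)) (XT.lf (nat_lit 228) (nat_lit 241119685323) (nat_lit 0) (nat_lit 150679117708) (nat_lit 152) (nat_lit 241958784255) (nat_lit 227) (nat_lit 1) (nat_lit 224) (nat_lit 1) (nat_lit 226) (nat_lit 1) (nat_lit 212) (nat_lit 416) (nat_lit 392))))))) (XT.nd (nat_lit 1014) (nat_lit 1672) (nat_lit 0) (XT.nd (nat_lit 468) (nat_lit 1064) (nat_lit 0) (XT.nd (nat_lit 234) (nat_lit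 532) (nat_lit 0) (XT.nd (nat_lit 78) (nat_lit 304) (nat_lit 0) (XT.lf (nat_lit 76) (nat_lit 130821464803) (nat_lit 0) (nat_lit 6042725477) (nat_lit 228) (nat_lit 478830476897) (nat_lit 222) (nat_lit 1) (nat_lit 221) (nat_lit 1) (nat_lit 224) (nat_lit 1) (nat_lit 213) (nat_lit 416) (nat_lit 391)) (XT.nd (nat_lit 78) (nat_lit 152) (nat_lit 0) (XT.lf (nat_lit 228) (nat_lit 357640622544) (nat_lit 0) (nat_lit 123930494687) (nat_lit 152) (nat_lit 116586067324) (nat_lit 222) (nat_lit 1) (nat_lit 219) (nat_lit 1) (nat_lit 221) (nat_lit 1) (nat_lit 214) (nat_lit 416) (nat_lit 390)) (XT.lf (nat_lit 228) (nat_lit 111097509023) (nat_lit 0) (nat_lit 115207099254) (nat_lit 152) (nat_lit 354985628373) (nat_lit 220) (nat_lit 1) (nat_lit 217) (nat_lit 1) (nat_lit 219) (nat_lit 1) (nat_lit 215) (nat_lit 416) (nat_lit 389)))) (XT.nd (nat_lit 78) (nat_lit 304) (nat_lit 0) (XT.lf (nat_lit 228) (nat_lit 441016281337)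 (nat_lit 0) (nat_lit 110071032546) (nat_lit 152) (nat_lit 13963787486) (nat_lit 217) (nat_lit 1) (nat_lit 214) (nat_lit 1) (nat_lit 216) (nat_lit 1) (nat_lit 216) (nat_lit 416) (nat_lit 388)) (XT.nd (nat_lit 78) (nat_lit 152) (nat_lit 0) (XT.lf (nat_lit 228) (nat_lit 197378448150) (nat_lit 0) (nat_lit 105080725993) (nat_lit 152) (nat_lit 246804026258) (nat_lit 215) (nat_lit 1) (nat_lit 212) (nat_lit 1) (nat_lit 214) (nat_lit 1) (nat_lit 217) (nat_lit 416) (nat_lit 387)) (XT.lf (nat_lit 76) (nat_lit 67609739060) (nat_lit 0) (nat_lit 37161359172) (nat_lit 152) (nat_lit 429359042536) (nat_lit 211) (nat_lit 1) (nat_lit 210) (nat_lit 1) (nat_lit 212) (nat_lit 1) (nat_lit 218) (nat_lit 416) (nat_lit 386))))) (XT.nd (nat_lit 234) (nat_lit 608) (nat_lit 0) (XT.nd (nat_lit 78) (nat_lit 304) (nat_lit 0) (XT.lf (nat_lit 228) (nat_lit 258971875346) (nat_lit 0) (nat_lit 103661688925) (nat_lit 152) (nat_lit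 156745385237) (nat_lit 211) (nat_lit 1) (nat_lit 208) (nat_lit 1) (nat_lit 210) (nat_lit 1) (nat_lit 219) (nat_lit 416) (nat_lit 385)) (XT.nd (nat_lit 78) (nat_lit 228) (nat_lit 0) (XT.lf (nat_lit 152) (nat_lit 27887591031) (nat_lit 0) (nat_lit 106207753964) (nat_lit 76) (nat_lit 371114771300) (nat_lit 209) (nat_lit 1) (nat_lit 207) (nat_lit 1) (nat_lit 208) (nat_lit 1) (nat_lit 220) (nat_lit 416) (nat_lit 384)) (XT.lf (nat_lit 228) (nat_lit 301036249208) (nat_lit 0) (nat_lit 108622190402) (nat_lit 152) (nat_lit 81773521953) (nat_lit 207) (nat_lit 1) (nat_lit 204) (nat_lit 1) (nat_lit 206) (nat_lit 1) (nat_lit 221) (nat_lit 416) (nat_lit 383)))) (XT.nd (nat_lit 156) (nat_lit 304) (nat_lit 0) (XT.nd (nat_lit 78) (nat_lit 228) (nat_lit 0) (XT.lf (nat_lit 152) (nat_lit 75712836510) (nat_lit 0) (nat_lit 112683683557) (nat_lit 76) (nat_lit 289721638257) (nat_lit 205) (nat_lit 1) (nat_lit 203) (nat_lit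 1) (nat_lit 204) (nat_lit 1) (nat_lit 222) (nat_lit 416) (nat_lit 382)) (XT.lf (nat_lit 228) (nat_lit 327742249405) (nat_lit 0) (nat_lit 118118450953) (nat_lit 152) (nat_lit 19384248951) (nat_lit 203) (nat_lit 1) (nat_lit 200) (nat_lit 1) (nat_lit 202) (nat_lit 1) (nat_lit 223) (nat_lit 416) (nat_lit 381))) (XT.nd (nat_lit 78) (nat_lit 228) (nat_lit 0) (XT.lf (nat_lit 152) (nat_lit 108961158933) (nat_lit 0) (nat_lit 123139904457) (nat_lit 76) (nat_lit 220615773276) (nat_lit 201) (nat_lit 1) (nat_lit 199) (nat_lit 1) (nat_lit 200) (nat_lit 1) (nat_lit 224) (nat_lit 416) (nat_lit 380)) (XT.lf (nat_lit 76) (nat_lit 31450526722) (nat_lit 0) (nat_lit 98714819888) (nat_lit 228) (nat_lit 310473450707) (nat_lit 197) (nat_lit 1) (nat_lit 196) (nat_lit 1) (nat_lit 199) (nat_lit 1) (nat_lit 225) (nat_lit 416) (nat_lit 379)))))) (XT.nd (nat_lit 546) (nat_lit 836) (nat_lit 0) (XT.nd (nat_lit 234) (nat_lit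 456) (nat_lit 0) (XT.nd (nat_lit 78) (nat_lit 304) (nat_lit 0) (XT.lf (nat_lit 152) (nat_lit 130763221495) (nat_lit 0) (nat_lit 136249078762) (nat_lit 76) (nat_lit 161848408384) (nat_lit 197) (nat_lit 1) (nat_lit 195) (nat_lit 1) (nat_lit 196) (nat_lit 1) (nat_lit 226) (nat_lit 416) (nat_lit 378)) (XT.nd (nat_lit 78) (nat_lit 76) (nat_lit 0) (XT.lf (nat_lit 76) (nat_lit 73142214540) (nat_lit 0) (nat_lit 70843180645) (nat_lit 228) (nat_lit 273511135663) (nat_lit 193) (nat_lit 1) (nat_lit 192) (nat_lit 1) (nat_lit 195) (nat_lit 1) (nat_lit 227) (nat_lit 416) (nat_lit 377)) (XT.lf (nat_lit 152) (nat_lit 143643692221) (nat_lit 0) (nat_lit 150975069416) (nat_lit 76) (nat_lit 111803941855) (nat_lit 193) (nat_lit 1) (nat_lit 191) (nat_lit 1) (nat_lit 192) (nat_lit 1) (nat_lit 228) (nat_lit 416) (nat_lit 376)))) (XT.nd (nat_lit 156) (nat_lit 228) (nat_lit 0) (XT.nd (nat_lit 78) (nat_lit 76) (nat_lit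 0) (XT.lf (nat_lit 76) (nat_lit 107682253215) (nat_lit 0) (nat_lit 51308666912) (nat_lit 152) (nat_lit 236723673473) (nat_lit 190) (nat_lit 1) (nat_lit 189) (nat_lit 1) (nat_lit 191) (nat_lit 1) (nat_lit 229) (nat_lit 416) (nat_lit 375)) (XT.lf (nat_lit 152) (nat_lit 149634478346) (nat_lit 0) (nat_lit 166516186452) (nat_lit 76) (nat_lit 69140508223) (nat_lit 190) (nat_lit 1) (nat_lit 188) (nat_lit 1) (nat_lit 189) (nat_lit 1) (nat_lit 230) (nat_lit 416) (nat_lit 374))) (XT.nd (nat_lit 78) (nat_lit 76) (nat_lit 0) (XT.lf (nat_lit 76) (nat_lit 136208038206) (nat_lit 0) (nat_lit 38276934544) (nat_lit 152) (nat_lit 200703393207) (nat_lit 187) (nat_lit 1) (nat_lit 186) (nat_lit 1) (nat_lit 188) (nat_lit 1) (nat_lit 231) (nat_lit 416) (nat_lit 373)) (XT.lf (nat_lit 152) (nat_lit 150367056867) (nat_lit 0) (nat_lit 182259062683) (nat_lit 76) (nat_lit 32741342340) (nat_lit 187) (nat_lit 1) (nat_lit 185)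 (nat_lit 1) (nat_lit 186) (nat_lit 1) (nat_lit 232) (nat_lit 416) (nat_lit 372))))) (XT.nd (nat_lit 234) (nat_lit 456) (nat_lit 0) (XT.nd (nat_lit 78) (nat_lit 228) (nat_lit 0) (XT.lf (nat_lit 76) (nat_lit 159664872059) (nat_lit 0) (nat_lit 30273000317) (nat_lit 152) (nat_lit 165887234372) (nat_lit 184) (nat_lit 1) (nat_lit 183) (nat_lit 1) (nat_lit 185) (nat_lit 1) (nat_lit 233) (nat_lit 416) (nat_lit 371)) (XT.nd (nat_lit 78) (nat_lit 152) (nat_lit 0) (XT.lf (nat_lit 152) (nat_lit 147147744523) (nat_lit 0) (nat_lit 197741195064) (nat_lit 76) (nat_lit 1674963784) (nat_lit 184) (nat_lit 1) (nat_lit 182) (nat_lit 1) (nat_lit 183) (nat_lit 1) (nat_lit 234) (nat_lit 416) (nat_lit 370)) (XT.lf (nat_lit 76) (nat_lit 178839966721) (nat_lit 0) (nat_lit 26113765492) (nat_lit 152) (nat_lit 132588412641) (nat_lit 181) (nat_lit 1) (nat_lit 180) (nat_lit 1) (nat_lit 182) (nat_lit 1) (nat_lit 235) (nat_lit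 416) (nat_lit 369)))) (XT.nd (nat_lit 156) (nat_lit 228) (nat_lit 0) (XT.nd (nat_lit 78) (nat_lit 152) (nat_lit 0) (XT.lf (nat_lit 0) (nat_lit 24042477428) (nat_lit 0) (nat_lit 188170900622) (nat_lit 152) (nat_lit 116569396355) (nat_lit 179) (nat_lit 3) (nat_lit 179) (nat_lit 1) (nat_lit 181) (nat_lit 1) (nat_lit 236) (nat_lit 416) (nat_lit 368)) (XT.lf (nat_lit 76) (nat_lit 194390290974) (nat_lit 0) (nat_lit 24853018534) (nat_lit 152) (nat_lit 101022074220) (nat_lit 178) (nat_lit 1) (nat_lit 177) (nat_lit 1) (nat_lit 179) (nat_lit 1) (nat_lit 237) (nat_lit 416) (nat_lit 367))) (XT.nd (nat_lit 78) (nat_lit 152) (nat_lit 0) (XT.lf (nat_lit 0) (nat_lit 45930026504) (nat_lit 0) (nat_lit 179943044331) (nat_lit 152) (nat_lit 86101759532) (nat_lit 176) (nat_lit 3) (nat_lit 176) (nat_lit 1) (nat_lit 178) (nat_lit 1) (nat_lit 238) (nat_lit 416) (nat_lit 366)) (XT.lf (nat_lit 76) (nat_lit 206865386950)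 (nat_lit 0) (nat_lit 25736621164) (nat_lit 152) (nat_lit 71326054231) (nat_lit 175) (nat_lit 1) (nat_lit 174) (nat_lit 1) (nat_lit 176) (nat_lit 1) (nat_lit 239) (nat_lit 416) (nat_lit 365))))))))
noncomputable def ec243 : XT := (XT.nd (nat_lit 2106) (nat_lit 3192) (nat_lit 0) (XT.nd (nat_lit 1014) (nat_lit 1748) (nat_lit 0) (XT.nd (nat_lit 468) (nat_lit 760) (nat_lit 0) (XT.nd (nat_lit 234) (nat_lit 456) (nat_lit 0) (XT.nd (nat_lit 78) (nat_lit 228) (nat_lit 0) (XT.lf (nat_lit 0) (nat_lit 64572505759) (nat_lit 0) (nat_lit 173995898721) (nat_lit 152) (nat_lit 57509000415) (nat_lit 173) (nat_lit 3) (nat_lit 173) (nat_lit 1) (nat_lit 175) (nat_lit 1) (nat_lit 240) (nat_lit 416) (nat_lit 364)) (XT.nd (nat_lit 78) (nat_lit 76) (nat_lit 0) (XT.lf (nat_lit 76) (nat_lit 216726073821) (nat_lit 0) (nat_lit 28166003593) (nat_lit 152) (nat_lit 43577649078) (nat_lit 172) (nat_lit 1) (nat_lit 171) (nat_lit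 1) (nat_lit 173) (nat_lit 1) (nat_lit 241) (nat_lit 416) (nat_lit 363)) (XT.lf (nat_lit 0) (nat_lit 80417781492) (nat_lit 0) (nat_lit 169763422097) (nat_lit 152) (nat_lit 30851269415) (nat_lit 170) (nat_lit 3) (nat_lit 170) (nat_lit 1) (nat_lit 172) (nat_lit 1) (nat_lit 242) (nat_lit 416) (nat_lit 362)))) (XT.nd (nat_lit 78) (nat_lit 304) (nat_lit 0) (XT.lf (nat_lit 76) (nat_lit 224359788567) (nat_lit 0) (nat_lit 31668438970) (nat_lit 152) (nat_lit 17807145113) (nat_lit 169) (nat_lit 1) (nat_lit 168) (nat_lit 1) (nat_lit 170) (nat_lit 1) (nat_lit 243) (nat_lit 416) (nat_lit 361)) (XT.nd (nat_lit 78) (nat_lit 228) (nat_lit 0) (XT.lf (nat_lit 0) (nat_lit 93844641776) (nat_lit 0) (nat_lit 166796533315) (nat_lit 152) (nat_lit 6145985276) (nat_lit 167) (nat_lit 3) (nat_lit 167) (nat_lit 1) (nat_lit 169) (nat_lit 1) (nat_lit 244) (nat_lit 416) (nat_lit 360)) (XT.lf (nat_lit 152) (nat_lit 224000420090)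 (nat_lit 0) (nat_lit 6189390089) (nat_lit 76) (nat_lit 29780091769) (nat_lit 166) (nat_lit 1) (nat_lit 164) (nat_lit 1) (nat_lit 165) (nat_lit 1) (nat_lit 245) (nat_lit 416) (nat_lit 359))))) (XT.nd (nat_lit 234) (nat_lit 456) (nat_lit 0) (XT.nd (nat_lit 78) (nat_lit 228) (nat_lit 0) (XT.lf (nat_lit 76) (nat_lit 88270878134) (nat_lit 0) (nat_lit 17171735729) (nat_lit 76) (nat_lit 147837057782) (nat_lit 164) (nat_lit 3) (nat_lit 163) (nat_lit 1) (nat_lit 164) (nat_lit 1) (nat_lit 246) (nat_lit 416) (nat_lit 358)) (XT.nd (nat_lit 78) (nat_lit 76) (nat_lit 0) (XT.lf (nat_lit 152) (nat_lit 205879897636) (nat_lit 0) (nat_lit 28771741579) (nat_lit 76) (nat_lit 12167581163) (nat_lit 163) (nat_lit 1) (nat_lit 161) (nat_lit 1) (nat_lit 162) (nat_lit 1) (nat_lit 247) (nat_lit 416) (nat_lit 357)) (XT.lf (nat_lit 76) (nat_lit 76553122928) (nat_lit 0) (nat_lit 38732704805) (nat_lit 76) (nat_lit 125189692632)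 (nat_lit 161) (nat_lit 3) (nat_lit 160) (nat_lit 1) (nat_lit 161) (nat_lit 1) (nat_lit 248) (nat_lit 416) (nat_lit 356)))) (XT.nd (nat_lit 156) (nat_lit 228) (nat_lit 0) (XT.nd (nat_lit 78) (nat_lit 76) (nat_lit 0) (XT.lf (nat_lit 0) (nat_lit 3231180102) (nat_lit 0) (nat_lit 46120571376) (nat_lit 152) (nat_lit 185000795947) (nat_lit 158) (nat_lit 3) (nat_lit 158) (nat_lit 1) (nat_lit 160) (nat_lit 1) (nat_lit 249) (nat_lit 416) (nat_lit 355)) (XT.lf (nat_lit 76) (nat_lit 65116217817) (nat_lit 0) (nat_lit 58393771979) (nat_lit 76) (nat_lit 104828617144) (nat_lit 158) (nat_lit 3) (nat_lit 157) (nat_lit 1) (nat_lit 158) (nat_lit 1) (nat_lit 250) (nat_lit 416) (nat_lit 354))) (XT.nd (nat_lit 78) (nat_lit 76) (nat_lit 0) (XT.lf (nat_lit 0) (nat_lit 16433073389) (nat_lit 0) (nat_lit 51452825882) (nat_lit 152) (nat_lit 154639215089) (nat_lit 155) (nat_lit 3) (nat_lit 155) (nat_lit 1) (nat_lit 157) (nat_lit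 1) (nat_lit 251) (nat_lit 416) (nat_lit 353)) (XT.lf (nat_lit 76) (nat_lit 54088358490) (nat_lit 0) (nat_lit 76228510829) (nat_lit 76) (nat_lit 86514055243) (nat_lit 155) (nat_lit 3) (nat_lit 154) (nat_lit 1) (nat_lit 155) (nat_lit 1) (nat_lit 252) (nat_lit 416) (nat_lit 352)))))) (XT.nd (nat_lit 546) (nat_lit 912) (nat_lit 0) (XT.nd (nat_lit 234) (nat_lit 456) (nat_lit 0) (XT.nd (nat_lit 78) (nat_lit 228) (nat_lit 0) (XT.lf (nat_lit 0) (nat_lit 28028725934) (nat_lit 0) (nat_lit 56622814781) (nat_lit 152) (nat_lit 126658230634) (nat_lit 152) (nat_lit 3) (nat_lit 152) (nat_lit 1) (nat_lit 154) (nat_lit 1) (nat_lit 253) (nat_lit 416) (nat_lit 351)) (XT.nd (nat_lit 78) (nat_lit 152) (nat_lit 0) (XT.lf (nat_lit 76) (nat_lit 43560690034) (nat_lit 0) (nat_lit 92319795127) (nat_lit 76) (nat_lit 70036698226) (nat_lit 152) (nat_lit 3) (nat_lit 151) (nat_lit 1) (nat_lit 152) (nat_lit 1) (nat_lit 254) (nat_lit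 416) (nat_lit 350)) (XT.lf (nat_lit 0) (nat_lit 38193300072) (nat_lit 0) (nat_lit 61540749976) (nat_lit 152) (nat_lit 100938387468) (nat_lit 149) (nat_lit 3) (nat_lit 149) (nat_lit 1) (nat_lit 151) (nat_lit 1) (nat_lit 255) (nat_lit 416) (nat_lit 349)))) (XT.nd (nat_lit 156) (nat_lit 228) (nat_lit 0) (XT.nd (nat_lit 78) (nat_lit 152) (nat_lit 0) (XT.lf (nat_lit 76) (nat_lit 33595021709) (nat_lit 0) (nat_lit 106756475090) (nat_lit 76) (nat_lit 55213030880) (nat_lit 149) (nat_lit 3) (nat_lit 148) (nat_lit 1) (nat_lit 149) (nat_lit 1) (nat_lit 256) (nat_lit 416) (nat_lit 348)) (XT.lf (nat_lit 0) (nat_lit 47079932534) (nat_lit 0) (nat_lit 66143432685) (nat_lit 152) (nat_lit 77357973887) (nat_lit 146) (nat_lit 3) (nat_lit 146) (nat_lit 1) (nat_lit 148) (nat_lit 1) (nat_lit 257) (nat_lit 416) (nat_lit 347))) (XT.nd (nat_lit 78) (nat_lit 152) (nat_lit 0) (XT.lf (nat_lit 76) (nat_lit 24230067611) (nat_lit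 0) (nat_lit 119630769621) (nat_lit 76) (nat_lit 41881456639) (nat_lit 146) (nat_lit 3) (nat_lit 145) (nat_lit 1) (nat_lit 146) (nat_lit 1) (nat_lit 258) (nat_lit 416) (nat_lit 346)) (XT.lf (nat_lit 0) (nat_lit 54823052027) (nat_lit 0) (nat_lit 70388650817) (nat_lit 152) (nat_lit 55795083348) (nat_lit 143) (nat_lit 3) (nat_lit 143) (nat_lit 1) (nat_lit 145) (nat_lit 1) (nat_lit 259) (nat_lit 416) (nat_lit 345))))) (XT.nd (nat_lit 234) (nat_lit 608) (nat_lit 0) (XT.nd (nat_lit 78) (nat_lit 228) (nat_lit 0) (XT.lf (nat_lit 76) (nat_lit 15486487296) (nat_lit 0) (nat_lit 131036236537) (nat_lit 76) (nat_lit 29899078769) (nat_lit 143) (nat_lit 3) (nat_lit 142) (nat_lit 1) (nat_lit 143) (nat_lit 1) (nat_lit 260) (nat_lit 416) (nat_lit 344)) (XT.nd (nat_lit 78) (nat_lit 76) (nat_lit 0) (XT.lf (nat_lit 0) (nat_lit 61541135804) (nat_lit 0) (nat_lit 74250652094) (nat_lit 152) (nat_lit 36129192257) (nat_lit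 140) (nat_lit 3) (nat_lit 140) (nat_lit 1) (nat_lit 142) (nat_lit 1) (nat_lit 261) (nat_lit 416) (nat_lit 343)) (XT.lf (nat_lit 76) (nat_lit 7370949961) (nat_lit 0) (nat_lit 141066208464) (nat_lit 76) (nat_lit 19139020600) (nat_lit 140) (nat_lit 3) (nat_lit 139) (nat_lit 1) (nat_lit 140) (nat_lit 1) (nat_lit 262) (nat_lit 416) (nat_lit 342)))) (XT.nd (nat_lit 156) (nat_lit 304) (nat_lit 0) (XT.nd (nat_lit 78) (nat_lit 152) (nat_lit 0) (XT.lf (nat_lit 0) (nat_lit 67339005192) (nat_lit 0) (nat_lit 77716492527) (nat_lit 152) (nat_lit 18242349113) (nat_lit 137) (nat_lit 3) (nat_lit 137) (nat_lit 1) (nat_lit 139) (nat_lit 1) (nat_lit 263) (nat_lit 416) (nat_lit 341)) (XT.lf (nat_lit 76) (nat_lit 149693890456) (nat_lit 0) (nat_lit 116735673) (nat_lit 152) (nat_lit 9369476439) (nat_lit 136) (nat_lit 1) (nat_lit 135) (nat_lit 1) (nat_lit 137) (nat_lit 1) (nat_lit 264) (nat_lit 416) (nat_lit 340))) (XT.nd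 (nat_lit 78) (nat_lit 228) (nat_lit 0) (XT.lf (nat_lit 0) (nat_lit 72309741825) (nat_lit 0) (nat_lit 80783096825) (nat_lit 152) (nat_lit 2020052441) (nat_lit 134) (nat_lit 3) (nat_lit 134) (nat_lit 1) (nat_lit 136) (nat_lit 1) (nat_lit 265) (nat_lit 416) (nat_lit 339)) (XT.lf (nat_lit 152) (nat_lit 144326048892) (nat_lit 0) (nat_lit 6245492934) (nat_lit 76) (nat_lit 628259264) (nat_lit 133) (nat_lit 1) (nat_lit 131) (nat_lit 1) (nat_lit 132) (nat_lit 1) (nat_lit 266) (nat_lit 416) (nat_lit 338))))))) (XT.nd (nat_lit 1014) (nat_lit 1748) (nat_lit 0) (XT.nd (nat_lit 468) (nat_lit 760) (nat_lit 0) (XT.nd (nat_lit 234) (nat_lit 380) (nat_lit 0) (XT.nd (nat_lit 78) (nat_lit 228) (nat_lit 0) (XT.lf (nat_lit 76) (nat_lit 63673969932) (nat_lit 0) (nat_lit 13066323559) (nat_lit 76) (nat_lit 70592575817) (nat_lit 131) (nat_lit 3) (nat_lit 130) (nat_lit 1) (nat_lit 131) (nat_lit 1) (nat_lit 267) (nat_lit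 416) (nat_lit 337)) (XT.nd (nat_lit 78) (nat_lit 76) (nat_lit 0) (XT.lf (nat_lit 0) (nat_lit 7198001535) (nat_lit 0) (nat_lit 13299064926) (nat_lit 152) (nat_lit 123114351542) (nat_lit 128) (nat_lit 3) (nat_lit 128) (nat_lit 1) (nat_lit 130) (nat_lit 1) (nat_lit 268) (nat_lit 416) (nat_lit 336)) (XT.lf (nat_lit 76) (nat_lit 53786645480) (nat_lit 0) (nat_lit 26723392454) (nat_lit 76) (nat_lit 59435778249) (nat_lit 128) (nat_lit 3) (nat_lit 127) (nat_lit 1) (nat_lit 128) (nat_lit 1) (nat_lit 269) (nat_lit 416) (nat_lit 335)))) (XT.nd (nat_lit 78) (nat_lit 228) (nat_lit 0) (XT.lf (nat_lit 0) (nat_lit 14163527418) (nat_lit 0) (nat_lit 19145125980) (nat_lit 152) (nat_lit 103098711259) (nat_lit 125) (nat_lit 3) (nat_lit 125) (nat_lit 1) (nat_lit 127) (nat_lit 1) (nat_lit 270) (nat_lit 416) (nat_lit 334)) (XT.nd (nat_lit 78) (nat_lit 152) (nat_lit 0) (XT.lf (nat_lit 76) (nat_lit 44665697907) (nat_lit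 0) (nat_lit 38988827673) (nat_lit 76) (nat_lit 49278289169) (nat_lit 125) (nat_lit 3) (nat_lit 124) (nat_lit 1) (nat_lit 125) (nat_lit 1) (nat_lit 271) (nat_lit 416) (nat_lit 333)) (XT.lf (nat_lit 0) (nat_lit 20362005460) (nat_lit 0) (nat_lit 24429546255) (nat_lit 152) (nat_lit 84776577561) (nat_lit 122) (nat_lit 3) (nat_lit 122) (nat_lit 1) (nat_lit 124) (nat_lit 1) (nat_lit 272) (nat_lit 416) (nat_lit 332))))) (XT.nd (nat_lit 234) (nat_lit 456) (nat_lit 0) (XT.nd (nat_lit 78) (nat_lit 228) (nat_lit 0) (XT.lf (nat_lit 76) (nat_lit 36273121388) (nat_lit 0) (nat_lit 49961989740) (nat_lit 76) (nat_lit 40039362865) (nat_lit 122) (nat_lit 3) (nat_lit 121) (nat_lit 1) (nat_lit 122) (nat_lit 1) (nat_lit 273) (nat_lit 416) (nat_lit 331)) (XT.nd (nat_lit 78) (nat_lit 76) (nat_lit 0) (XT.lf (nat_lit 0) (nat_lit 25860230511) (nat_lit 0) (nat_lit 29181431108) (nat_lit 152) (nat_lit 68033164522) (nat_lit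 119) (nat_lit 3) (nat_lit 119) (nat_lit 1) (nat_lit 121) (nat_lit 1) (nat_lit 274) (nat_lit 416) (nat_lit 330)) (XT.lf (nat_lit 76) (nat_lit 28570109162) (nat_lit 0) (nat_lit 59737074426) (nat_lit 76) (nat_lit 31645294899) (nat_lit 119) (nat_lit 3) (nat_lit 118) (nat_lit 1) (nat_lit 119) (nat_lit 1) (nat_lit 275) (nat_lit 416) (nat_lit 329)))) (XT.nd (nat_lit 156) (nat_lit 228) (nat_lit 0) (XT.nd (nat_lit 78) (nat_lit 76) (nat_lit 0) (XT.lf (nat_lit 0) (nat_lit 30718980808) (nat_lit 0) (nat_lit 33430784809) (nat_lit 152) (nat_lit 52759845025) (nat_lit 116) (nat_lit 3) (nat_lit 116) (nat_lit 1) (nat_lit 118) (nat_lit 1) (nat_lit 276) (nat_lit 416) (nat_lit 328)) (XT.lf (nat_lit 76) (nat_lit 21517728928) (nat_lit 0) (nat_lit 68403129284) (nat_lit 76) (nat_lit 24028658559) (nat_lit 116) (nat_lit 3) (nat_lit 115) (nat_lit 1) (nat_lit 116) (nat_lit 1) (nat_lit 277) (nat_lit 416) (nat_lit 327))) (XT.nd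 (nat_lit 78) (nat_lit 76) (nat_lit 0) (XT.lf (nat_lit 0) (nat_lit 34993675931) (nat_lit 0) (nat_lit 37207899591) (nat_lit 152) (nat_lit 38854035617) (nat_lit 113) (nat_lit 3) (nat_lit 113) (nat_lit 1) (nat_lit 115) (nat_lit 1) (nat_lit 278) (nat_lit 416) (nat_lit 326)) (XT.lf (nat_lit 76) (nat_lit 15077440493) (nat_lit 0) (nat_lit 76044128412) (nat_lit 76) (nat_lit 17127647586) (nat_lit 113) (nat_lit 3) (nat_lit 112) (nat_lit 1) (nat_lit 113) (nat_lit 1) (nat_lit 279) (nat_lit 416) (nat_lit 325)))))) (XT.nd (nat_lit 546) (nat_lit 836) (nat_lit 0) (XT.nd (nat_lit 234) (nat_lit 532) (nat_lit 0) (XT.nd (nat_lit 78) (nat_lit 228) (nat_lit 0) (XT.lf (nat_lit 0) (nat_lit 38734943426) (nat_lit 0) (nat_lit 40542886188) (nat_lit 152) (nat_lit 26219037439) (nat_lit 110) (nat_lit 3) (nat_lit 110) (nat_lit 1) (nat_lit 112) (nat_lit 1) (nat_lit 280) (nat_lit 416) (nat_lit 324)) (XT.nd (nat_lit 78) (nat_lit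 152) (nat_lit 0) (XT.lf (nat_lit 76) (nat_lit 9211486674) (nat_lit 0) (nat_lit 82739090919) (nat_lit 76) (nat_lit 10885507751) (nat_lit 110) (nat_lit 3) (nat_lit 109) (nat_lit 1) (nat_lit 110) (nat_lit 1) (nat_lit 281) (nat_lit 416) (nat_lit 323)) (XT.lf (nat_lit 0) (nat_lit 41989109008) (nat_lit 0) (nat_lit 43465318070) (nat_lit 152) (nat_lit 14763845303) (nat_lit 107) (nat_lit 3) (nat_lit 107) (nat_lit 1) (nat_lit 109) (nat_lit 1) (nat_lit 282) (nat_lit 416) (nat_lit 322)))) (XT.nd (nat_lit 156) (nat_lit 304) (nat_lit 0) (XT.nd (nat_lit 78) (nat_lit 152) (nat_lit 0) (XT.lf (nat_lit 76) (nat_lit 3883182710) (nat_lit 0) (nat_lit 88562231462) (nat_lit 76) (nat_lit 5250042952) (nat_lit 107) (nat_lit 3) (nat_lit 106) (nat_lit 1) (nat_lit 107) (nat_lit 1) (nat_lit 283) (nat_lit 416) (nat_lit 321)) (XT.lf (nat_lit 0) (nat_lit 44798622639) (nat_lit 0) (nat_lit 46003966769) (nat_lit 152) (nat_lit 4402934538)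 (nat_lit 104) (nat_lit 3) (nat_lit 104) (nat_lit 1) (nat_lit 106) (nat_lit 1) (nat_lit 284) (nat_lit 416) (nat_lit 320))) (XT.nd (nat_lit 78) (nat_lit 76) (nat_lit 0) (XT.lf (nat_lit 152) (nat_lit 91887222843) (nat_lit 0) (nat_lit 779933210) (nat_lit 76) (nat_lit 144941223) (nat_lit 103) (nat_lit 1) (nat_lit 101) (nat_lit 1) (nat_lit 102) (nat_lit 1) (nat_lit 285) (nat_lit 416) (nat_lit 319)) (XT.lf (nat_lit 76) (nat_lit 42174735360) (nat_lit 0) (nat_lit 5107436646) (nat_lit 76) (nat_lit 43158914707) (nat_lit 101) (nat_lit 3) (nat_lit 100) (nat_lit 1) (nat_lit 101) (nat_lit 1) (nat_lit 286) (nat_lit 416) (nat_lit 318))))) (XT.nd (nat_lit 234) (nat_lit 456) (nat_lit 0) (XT.nd (nat_lit 78) (nat_lit 228) (nat_lit 0) (XT.lf (nat_lit 0) (nat_lit 4490513527) (nat_lit 0) (nat_lit 5358396549) (nat_lit 152) (nat_lit 78312464545) (nat_lit 98) (nat_lit 3) (nat_lit 98) (nat_lit 1) (nat_lit 100) (nat_lit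 1) (nat_lit 287) (nat_lit 416) (nat_lit 317)) (XT.nd (nat_lit 78) (nat_lit 152) (nat_lit 0) (XT.lf (nat_lit 76) (nat_lit 35658063302) (nat_lit 0) (nat_lit 13793595370) (nat_lit 76) (nat_lit 36461658692) (nat_lit 98) (nat_lit 3) (nat_lit 97) (nat_lit 1) (nat_lit 98) (nat_lit 1) (nat_lit 288) (nat_lit 416) (nat_lit 316)) (XT.lf (nat_lit 0) (nat_lit 8641391847) (nat_lit 0) (nat_lit 9350029758) (nat_lit 152) (nat_lit 65753556705) (nat_lit 95) (nat_lit 3) (nat_lit 95) (nat_lit 1) (nat_lit 97) (nat_lit 1) (nat_lit 289) (nat_lit 416) (nat_lit 315)))) (XT.nd (nat_lit 156) (nat_lit 228) (nat_lit 0) (XT.nd (nat_lit 78) (nat_lit 152) (nat_lit 0) (XT.lf (nat_lit 76) (nat_lit 29687313499) (nat_lit 0) (nat_lit 21582770492) (nat_lit 76) (nat_lit 30343459712) (nat_lit 95) (nat_lit 3) (nat_lit 94) (nat_lit 1) (nat_lit 95) (nat_lit 1) (nat_lit 290) (nat_lit 416) (nat_lit 314)) (XT.lf (nat_lit 0) (nat_lit 12350517275)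 (nat_lit 0) (nat_lit 12929129456) (nat_lit 152) (nat_lit 54271444455) (nat_lit 92) (nat_lit 3) (nat_lit 92) (nat_lit 1) (nat_lit 94) (nat_lit 1) (nat_lit 291) (nat_lit 416) (nat_lit 313))) (XT.nd (nat_lit 78) (nat_lit 152) (nat_lit 0) (XT.lf (nat_lit 76) (nat_lit 24225670524) (nat_lit 0) (nat_lit 28543086148) (nat_lit 76) (nat_lit 24761422544) (nat_lit 92) (nat_lit 3) (nat_lit 91) (nat_lit 1) (nat_lit 92) (nat_lit 1) (nat_lit 292) (nat_lit 416) (nat_lit 312)) (XT.lf (nat_lit 0) (nat_lit 15653210988) (nat_lit 0) (nat_lit 16125655450) (nat_lit 152) (nat_lit 43789536870) (nat_lit 89) (nat_lit 3) (nat_lit 89) (nat_lit 1) (nat_lit 91) (nat_lit 1) (nat_lit 293) (nat_lit 416) (nat_lit 311))))))))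
noncomputable def ec244 : XT := (XT.nd (nat_lit 2028) (nat_lit 3344) (nat_lit 0) (XT.nd (nat_lit 1014) (nat_lit 1444) (nat_lit 0) (XT.nd (nat_lit 468) (nat_lit 912) (nat_lit 0) (XT.nd (nat_lit 234) (nat_lit 380) (nat_lit 0) (XT.nd (nat_lit 78) (nat_lit 228) (nat_lit 0) (XT.lf (nat_lit 76) (nat_lit 19238281623) (nat_lit 0) (nat_lit 34738226624) (nat_lit 76) (nat_lit 19675730198) (nat_lit 89) (nat_lit 3) (nat_lit 88) (nat_lit 1) (nat_lit 89) (nat_lit 1) (nat_lit 294) (nat_lit 416) (nat_lit 310)) (XT.nd (nat_lit 78) (nat_lit 76) (nat_lit 0) (XT.lf (nat_lit 0) (nat_lit 18582162073) (nat_lit 0) (nat_lit 18967919195) (nat_lit 152) (nat_lit 34236109540) (nat_lit 86) (nat_lit 3) (nat_lit 86) (nat_lit 1) (nat_lit 88) (nat_lit 1) (nat_lit 295) (nat_lit 416) (nat_lit 309)) (XT.lf (nat_lit 76) (nat_lit 14692222071) (nat_lit 0) (nat_lit 40227677283) (nat_lit 76) (nat_lit 15049404590) (nat_lit 86) (nat_lit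 3) (nat_lit 85) (nat_lit 1) (nat_lit 86) (nat_lit 1) (nat_lit 296) (nat_lit 416) (nat_lit 308)))) (XT.nd (nat_lit 78) (nat_lit 228) (nat_lit 0) (XT.lf (nat_lit 0) (nat_lit 21167635654) (nat_lit 0) (nat_lit 21482611421) (nat_lit 152) (nat_lit 25544036772) (nat_lit 83) (nat_lit 3) (nat_lit 83) (nat_lit 1) (nat_lit 85) (nat_lit 1) (nat_lit 297) (nat_lit 416) (nat_lit 307)) (XT.nd (nat_lit 78) (nat_lit 152) (nat_lit 0) (XT.lf (nat_lit 76) (nat_lit 10556446070) (nat_lit 0) (nat_lit 45066959007) (nat_lit 76) (nat_lit 10848090299) (nat_lit 83) (nat_lit 3) (nat_lit 82) (nat_lit 1) (nat_lit 83) (nat_lit 1) (nat_lit 298) (nat_lit 416) (nat_lit 306)) (XT.lf (nat_lit 0) (nat_lit 23437660933) (nat_lit 0) (nat_lit 23694842792) (nat_lit 152) (nat_lit 17650532876) (nat_lit 80) (nat_lit 3) (nat_lit 80) (nat_lit 1) (nat_lit 82) (nat_lit 1) (nat_lit 299) (nat_lit 416) (nat_lit 305))))) (XT.nd (nat_lit 234) (nat_lit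 608) (nat_lit 0) (XT.nd (nat_lit 78) (nat_lit 228) (nat_lit 0) (XT.lf (nat_lit 76) (nat_lit 6801727104) (nat_lit 0) (nat_lit 49307854983) (nat_lit 76) (nat_lit 7039858456) (nat_lit 80) (nat_lit 3) (nat_lit 79) (nat_lit 1) (nat_lit 80) (nat_lit 1) (nat_lit 300) (nat_lit 416) (nat_lit 304)) (XT.nd (nat_lit 78) (nat_lit 76) (nat_lit 0) (XT.lf (nat_lit 0) (nat_lit 25418201693) (nat_lit 0) (nat_lit 25628194067) (nat_lit 152) (nat_lit 10496903343) (nat_lit 77) (nat_lit 3) (nat_lit 77) (nat_lit 1) (nat_lit 79) (nat_lit 1) (nat_lit 301) (nat_lit 416) (nat_lit 303)) (XT.lf (nat_lit 76) (nat_lit 3400590901) (nat_lit 0) (nat_lit 52998629007) (nat_lit 76) (nat_lit 3595028284) (nat_lit 77) (nat_lit 3) (nat_lit 76) (nat_lit 1) (nat_lit 77) (nat_lit 1) (nat_lit 302) (nat_lit 416) (nat_lit 302)))) (XT.nd (nat_lit 156) (nat_lit 380) (nat_lit 0) (XT.nd (nat_lit 78) (nat_lit 76) (nat_lit 0) (XT.lf (nat_lit 0) (nat_lit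 27133311418) (nat_lit 0) (nat_lit 27304772955) (nat_lit 152) (nat_lit 4028306425) (nat_lit 74) (nat_lit 3) (nat_lit 74) (nat_lit 1) (nat_lit 76) (nat_lit 1) (nat_lit 303) (nat_lit 416) (nat_lit 301)) (XT.lf (nat_lit 76) (nat_lit 327243491) (nat_lit 0) (nat_lit 56184234790) (nat_lit 76) (nat_lit 486004174) (nat_lit 74) (nat_lit 3) (nat_lit 73) (nat_lit 1) (nat_lit 74) (nat_lit 1) (nat_lit 304) (nat_lit 416) (nat_lit 300))) (XT.nd (nat_lit 78) (nat_lit 152) (nat_lit 0) (XT.lf (nat_lit 76) (nat_lit 26768206696) (nat_lit 0) (nat_lit 1866204830) (nat_lit 76) (nat_lit 26908207298) (nat_lit 71) (nat_lit 3) (nat_lit 70) (nat_lit 1) (nat_lit 71) (nat_lit 1) (nat_lit 305) (nat_lit 416) (nat_lit 299)) (XT.lf (nat_lit 0) (nat_lit 2354938416) (nat_lit 0) (nat_lit 2478395736) (nat_lit 152) (nat_lit 49310194546) (nat_lit 68) (nat_lit 3) (nat_lit 68) (nat_lit 1) (nat_lit 70) (nat_lit 1) (nat_lit 306) (nat_lit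 416) (nat_lit 298)))))) (XT.nd (nat_lit 468) (nat_lit 760) (nat_lit 0) (XT.nd (nat_lit 234) (nat_lit 380) (nat_lit 0) (XT.nd (nat_lit 78) (nat_lit 228) (nat_lit 0) (XT.lf (nat_lit 76) (nat_lit 22680004899) (nat_lit 0) (nat_lit 7288526896) (nat_lit 76) (nat_lit 22794317233) (nat_lit 68) (nat_lit 3) (nat_lit 67) (nat_lit 1) (nat_lit 68) (nat_lit 1) (nat_lit 307) (nat_lit 416) (nat_lit 297)) (XT.nd (nat_lit 78) (nat_lit 76) (nat_lit 0) (XT.lf (nat_lit 0) (nat_lit 4907958903) (nat_lit 0) (nat_lit 5008763430) (nat_lit 152) (nat_lit 41515285072) (nat_lit 65) (nat_lit 3) (nat_lit 65) (nat_lit 1) (nat_lit 67) (nat_lit 1) (nat_lit 308) (nat_lit 416) (nat_lit 296)) (XT.lf (nat_lit 76) (nat_lit 18938996484) (nat_lit 0) (nat_lit 12151547651) (nat_lit 76) (nat_lit 19032334009) (nat_lit 65) (nat_lit 3) (nat_lit 64) (nat_lit 1) (nat_lit 65) (nat_lit 1) (nat_lit 309) (nat_lit 416) (nat_lit 295)))) (XT.nd (nat_lit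 78) (nat_lit 228) (nat_lit 0) (XT.lf (nat_lit 0) (nat_lit 7192691151) (nat_lit 0) (nat_lit 7274999375) (nat_lit 152) (nat_lit 34389251441) (nat_lit 62) (nat_lit 3) (nat_lit 62) (nat_lit 1) (nat_lit 64) (nat_lit 1) (nat_lit 310) (nat_lit 416) (nat_lit 294)) (XT.nd (nat_lit 78) (nat_lit 152) (nat_lit 0) (XT.lf (nat_lit 76) (nat_lit 15520589993) (nat_lit 0) (nat_lit 16498243544) (nat_lit 76) (nat_lit 15596801311) (nat_lit 62) (nat_lit 3) (nat_lit 61) (nat_lit 1) (nat_lit 62) (nat_lit 1) (nat_lit 311) (nat_lit 416) (nat_lit 293)) (XT.lf (nat_lit 0) (nat_lit 9230078340) (nat_lit 0) (nat_lit 9297284088) (nat_lit 152) (nat_lit 27884063679) (nat_lit 59) (nat_lit 3) (nat_lit 59) (nat_lit 1) (nat_lit 61) (nat_lit 1) (nat_lit 312) (nat_lit 416) (nat_lit 292))))) (XT.nd (nat_lit 234) (nat_lit 456) (nat_lit 0) (XT.nd (nat_lit 78) (nat_lit 228) (nat_lit 0) (XT.lf (nat_lit 76) (nat_lit 12401751960) (nat_lit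 0) (nat_lit 20368677105) (nat_lit 76) (nat_lit 12463979504) (nat_lit 59) (nat_lit 3) (nat_lit 58) (nat_lit 1) (nat_lit 59) (nat_lit 1) (nat_lit 313) (nat_lit 416) (nat_lit 291)) (XT.nd (nat_lit 78) (nat_lit 76) (nat_lit 0) (XT.lf (nat_lit 0) (nat_lit 11039595072) (nat_lit 0) (nat_lit 11094469449) (nat_lit 152) (nat_lit 21954841462) (nat_lit 56) (nat_lit 3) (nat_lit 56) (nat_lit 1) (nat_lit 58) (nat_lit 1) (nat_lit 314) (nat_lit 416) (nat_lit 290)) (XT.lf (nat_lit 76) (nat_lit 9560921521) (nat_lit 0) (nat_lit 23800178105) (nat_lit 76) (nat_lit 9611731130) (nat_lit 56) (nat_lit 3) (nat_lit 55) (nat_lit 1) (nat_lit 56) (nat_lit 1) (nat_lit 315) (nat_lit 416) (nat_lit 289)))) (XT.nd (nat_lit 156) (nat_lit 228) (nat_lit 0) (XT.nd (nat_lit 78) (nat_lit 76) (nat_lit 0) (XT.lf (nat_lit 0) (nat_lit 12639347499) (nat_lit 0) (nat_lit 12684153150) (nat_lit 152) (nat_lit 16559661248) (nat_lit 53) (nat_lit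 3) (nat_lit 53) (nat_lit 1) (nat_lit 55) (nat_lit 1) (nat_lit 316) (nat_lit 416) (nat_lit 288)) (XT.lf (nat_lit 76) (nat_lit 6977927866) (nat_lit 0) (nat_lit 26827514698) (nat_lit 76) (nat_lit 7019414580) (nat_lit 53) (nat_lit 3) (nat_lit 52) (nat_lit 1) (nat_lit 53) (nat_lit 1) (nat_lit 317) (nat_lit 416) (nat_lit 287))) (XT.nd (nat_lit 78) (nat_lit 76) (nat_lit 0) (XT.lf (nat_lit 0) (nat_lit 14046166220) (nat_lit 0) (nat_lit 14082750625) (nat_lit 152) (nat_lit 11659374151) (nat_lit 50) (nat_lit 3) (nat_lit 50) (nat_lit 1) (nat_lit 52) (nat_lit 1) (nat_lit 318) (nat_lit 416) (nat_lit 286)) (XT.lf (nat_lit 76) (nat_lit 4633910813) (nat_lit 0) (nat_lit 29483054945) (nat_lit 76) (nat_lit 4667785261) (nat_lit 50) (nat_lit 3) (nat_lit 49) (nat_lit 1) (nat_lit 50) (nat_lit 1) (nat_lit 319) (nat_lit 416) (nat_lit 285))))))) (XT.nd (nat_lit 1014) (nat_lit 1748) (nat_lit 0) (XT.nd (nat_lit 468) (nat_lit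 760) (nat_lit 0) (XT.nd (nat_lit 234) (nat_lit 456) (nat_lit 0) (XT.nd (nat_lit 78) (nat_lit 228) (nat_lit 0) (XT.lf (nat_lit 0) (nat_lit 15275692584) (nat_lit 0) (nat_lit 15305564232) (nat_lit 152) (nat_lit 7217434086) (nat_lit 47) (nat_lit 3) (nat_lit 47) (nat_lit 1) (nat_lit 49) (nat_lit 1) (nat_lit 320) (nat_lit 416) (nat_lit 284)) (XT.nd (nat_lit 78) (nat_lit 152) (nat_lit 0) (XT.lf (nat_lit 76) (nat_lit 2511244658) (nat_lit 0) (nat_lit 31796919094) (nat_lit 76) (nat_lit 2538903591) (nat_lit 47) (nat_lit 3) (nat_lit 46) (nat_lit 1) (nat_lit 47) (nat_lit 1) (nat_lit 321) (nat_lit 416) (nat_lit 283)) (XT.lf (nat_lit 0) (nat_lit 16342458942) (nat_lit 0) (nat_lit 16366849535) (nat_lit 152) (nat_lit 3199735748) (nat_lit 44) (nat_lit 3) (nat_lit 44) (nat_lit 1) (nat_lit 46) (nat_lit 1) (nat_lit 322) (nat_lit 416) (nat_lit 282)))) (XT.nd (nat_lit 78) (nat_lit 380) (nat_lit 0) (XT.lf (nat_lit 76)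 (nat_lit 593465409) (nat_lit 0) (nat_lit 33797123049) (nat_lit 76) (nat_lit 616049292) (nat_lit 44) (nat_lit 3) (nat_lit 43) (nat_lit 1) (nat_lit 44) (nat_lit 1) (nat_lit 323) (nat_lit 416) (nat_lit 281)) (XT.nd (nat_lit 78) (nat_lit 152) (nat_lit 0) (XT.lf (nat_lit 76) (nat_lit 16827218614) (nat_lit 0) (nat_lit 439608256) (nat_lit 76) (nat_lit 16847133855) (nat_lit 41) (nat_lit 3) (nat_lit 40) (nat_lit 1) (nat_lit 41) (nat_lit 1) (nat_lit 324) (nat_lit 416) (nat_lit 280)) (XT.lf (nat_lit 0) (nat_lit 1135249686) (nat_lit 0) (nat_lit 1152811627) (nat_lit 152) (nat_lit 30966892458) (nat_lit 38) (nat_lit 3) (nat_lit 38) (nat_lit 1) (nat_lit 40) (nat_lit 1) (nat_lit 325) (nat_lit 416) (nat_lit 279))))) (XT.nd (nat_lit 234) (nat_lit 456) (nat_lit 0) (XT.nd (nat_lit 78) (nat_lit 228) (nat_lit 0) (XT.lf (nat_lit 76) (nat_lit 14290219980) (nat_lit 0) (nat_lit 3810004039) (nat_lit 76) (nat_lit 14306481036)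 (nat_lit 38) (nat_lit 3) (nat_lit 37) (nat_lit 1) (nat_lit 38) (nat_lit 1) (nat_lit 326) (nat_lit 416) (nat_lit 278)) (XT.nd (nat_lit 78) (nat_lit 76) (nat_lit 0) (XT.lf (nat_lit 0) (nat_lit 2717134847) (nat_lit 0) (nat_lit 2731474403) (nat_lit 152) (nat_lit 26140978061) (nat_lit 35) (nat_lit 3) (nat_lit 35) (nat_lit 1) (nat_lit 37) (nat_lit 1) (nat_lit 327) (nat_lit 416) (nat_lit 277)) (XT.lf (nat_lit 76) (nat_lit 11968889151) (nat_lit 0) (nat_lit 6834232311) (nat_lit 76) (nat_lit 11982166517) (nat_lit 35) (nat_lit 3) (nat_lit 34) (nat_lit 1) (nat_lit 35) (nat_lit 1) (nat_lit 328) (nat_lit 416) (nat_lit 276)))) (XT.nd (nat_lit 156) (nat_lit 228) (nat_lit 0) (XT.nd (nat_lit 78) (nat_lit 76) (nat_lit 0) (XT.lf (nat_lit 0) (nat_lit 4133967943) (nat_lit 0) (nat_lit 4145676379) (nat_lit 152) (nat_lit 21728365903) (nat_lit 32) (nat_lit 3) (nat_lit 32) (nat_lit 1) (nat_lit 34) (nat_lit 1) (nat_lit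 329) (nat_lit 416) (nat_lit 275)) (XT.lf (nat_lit 76) (nat_lit 9847801773) (nat_lit 0) (nat_lit 9538927469) (nat_lit 76) (nat_lit 9858642917) (nat_lit 32) (nat_lit 3) (nat_lit 31) (nat_lit 1) (nat_lit 32) (nat_lit 1) (nat_lit 330) (nat_lit 416) (nat_lit 274))) (XT.nd (nat_lit 78) (nat_lit 76) (nat_lit 0) (XT.lf (nat_lit 0) (nat_lit 5398542517) (nat_lit 0) (nat_lit 5408102609) (nat_lit 152) (nat_lit 17699340720) (nat_lit 29) (nat_lit 3) (nat_lit 29) (nat_lit 1) (nat_lit 31) (nat_lit 1) (nat_lit 331) (nat_lit 416) (nat_lit 273)) (XT.lf (nat_lit 76) (nat_lit 7912542612) (nat_lit 0) (nat_lit 11948903505) (nat_lit 76) (nat_lit 7921394550) (nat_lit 29) (nat_lit 3) (nat_lit 28) (nat_lit 1) (nat_lit 29) (nat_lit 1) (nat_lit 332) (nat_lit 416) (nat_lit 272)))))) (XT.nd (nat_lit 546) (nat_lit 912) (nat_lit 0) (XT.nd (nat_lit 234) (nat_lit 456) (nat_lit 0) (XT.nd (nat_lit 78) (nat_lit 228) (nat_lit 0) (XT.lf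 (nat_lit 0) (nat_lit 6522769208) (nat_lit 0) (nat_lit 6530575149) (nat_lit 152) (nat_lit 14026148586) (nat_lit 26) (nat_lit 3) (nat_lit 26) (nat_lit 1) (nat_lit 28) (nat_lit 1) (nat_lit 333) (nat_lit 416) (nat_lit 271)) (XT.nd (nat_lit 78) (nat_lit 152) (nat_lit 0) (XT.lf (nat_lit 76) (nat_lit 6149643882) (nat_lit 0) (nat_lit 14087270212) (nat_lit 76) (nat_lit 6156871605) (nat_lit 26) (nat_lit 3) (nat_lit 25) (nat_lit 1) (nat_lit 26) (nat_lit 1) (nat_lit 334) (nat_lit 416) (nat_lit 270)) (XT.lf (nat_lit 0) (nat_lit 7517733404) (nat_lit 0) (nat_lit 7524107057) (nat_lit 152) (nat_lit 10682874205) (nat_lit 23) (nat_lit 3) (nat_lit 23) (nat_lit 1) (nat_lit 25) (nat_lit 1) (nat_lit 335) (nat_lit 416) (nat_lit 269)))) (XT.nd (nat_lit 156) (nat_lit 228) (nat_lit 0) (XT.nd (nat_lit 78) (nat_lit 152) (nat_lit 0) (XT.lf (nat_lit 76) (nat_lit 4546526984) (nat_lit 0) (nat_lit 15975542369) (nat_lit 76) (nat_lit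 4552428515) (nat_lit 23) (nat_lit 3) (nat_lit 22) (nat_lit 1) (nat_lit 23) (nat_lit 1) (nat_lit 336) (nat_lit 416) (nat_lit 268)) (XT.lf (nat_lit 0) (nat_lit 8393749193) (nat_lit 0) (nat_lit 8398953365) (nat_lit 152) (nat_lit 7645325541) (nat_lit 20) (nat_lit 3) (nat_lit 20) (nat_lit 1) (nat_lit 22) (nat_lit 1) (nat_lit 337) (nat_lit 416) (nat_lit 267))) (XT.nd (nat_lit 78) (nat_lit 152) (nat_lit 0) (XT.lf (nat_lit 76) (nat_lit 3091447542) (nat_lit 0) (nat_lit 17633742304) (nat_lit 76) (nat_lit 3096266220) (nat_lit 20) (nat_lit 3) (nat_lit 19) (nat_lit 1) (nat_lit 20) (nat_lit 1) (nat_lit 338) (nat_lit 416) (nat_lit 266)) (XT.lf (nat_lit 0) (nat_lit 9160409838) (nat_lit 0) (nat_lit 9164659113) (nat_lit 152) (nat_lit 4890925375) (nat_lit 17) (nat_lit 3) (nat_lit 17) (nat_lit 1) (nat_lit 19) (nat_lit 1) (nat_lit 339) (nat_lit 416) (nat_lit 265))))) (XT.nd (nat_lit 234) (nat_lit 608) (nat_lit 0)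 (XT.nd (nat_lit 78) (nat_lit 228) (nat_lit 0) (XT.lf (nat_lit 76) (nat_lit 1773443558) (nat_lit 0) (nat_lit 19080496199) (nat_lit 76) (nat_lit 1777378072) (nat_lit 17) (nat_lit 3) (nat_lit 16) (nat_lit 1) (nat_lit 17) (nat_lit 1) (nat_lit 340) (nat_lit 416) (nat_lit 264)) (XT.nd (nat_lit 78) (nat_lit 76) (nat_lit 0) (XT.lf (nat_lit 0) (nat_lit 9826635023) (nat_lit 0) (nat_lit 9830104612) (nat_lit 152) (nat_lit 2398609392) (nat_lit 14) (nat_lit 3) (nat_lit 14) (nat_lit 1) (nat_lit 16) (nat_lit 1) (nat_lit 341) (nat_lit 416) (nat_lit 263)) (XT.lf (nat_lit 76) (nat_lit 582286569) (nat_lit 0) (nat_lit 20333124504) (nat_lit 76) (nat_lit 585499151) (nat_lit 14) (nat_lit 3) (nat_lit 13) (nat_lit 1) (nat_lit 14) (nat_lit 1) (nat_lit 342) (nat_lit 416) (nat_lit 262)))) (XT.nd (nat_lit 156) (nat_lit 228) (nat_lit 0) (XT.nd (nat_lit 78) (nat_lit 228) (nat_lit 0) (XT.lf (nat_lit 0) (nat_lit 10400715083)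 (nat_lit 0) (nat_lit 10403548048) (nat_lit 152) (nat_lit 148730427) (nat_lit 11) (nat_lit 3) (nat_lit 11) (nat_lit 1) (nat_lit 13) (nat_lit 1) (nat_lit 343) (nat_lit 416) (nat_lit 261)) (XT.lf (nat_lit 0) (nat_lit 497040628) (nat_lit 0) (nat_lit 499538834) (nat_lit 152) (nat_lit 19429072614) (nat_lit 8) (nat_lit 3) (nat_lit 8) (nat_lit 1) (nat_lit 10) (nat_lit 1) (nat_lit 344) (nat_lit 416) (nat_lit 260))) (XT.nd (nat_lit 78) (nat_lit 152) (nat_lit 0) (XT.lf (nat_lit 76) (nat_lit 8981532494) (nat_lit 0) (nat_lit 1939094610) (nat_lit 76) (nat_lit 8983845647) (nat_lit 8) (nat_lit 3) (nat_lit 7) (nat_lit 1) (nat_lit 8) (nat_lit 1) (nat_lit 345) (nat_lit 416) (nat_lit 259)) (XT.lf (nat_lit 0) (nat_lit 1478782900) (nat_lit 0) (nat_lit 1480822717) (nat_lit 152) (nat_lit 16443125816) (nat_lit 5) (nat_lit 3) (nat_lit 5) (nat_lit 1) (nat_lit 7) (nat_lit 1) (nat_lit 346) (nat_lit 416) (nat_lit 258))))))))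
noncomputable def ec245 : XT := (XT.nd (nat_lit 2106) (nat_lit 0) (nat_lit 0) (XT.nd (nat_lit 1014) (nat_lit 0) (nat_lit 0) (XT.nd (nat_lit 468) (nat_lit 0) (nat_lit 0) (XT.nd (nat_lit 234) (nat_lit 76) (nat_lit 0) (XT.nd (nat_lit 78) (nat_lit 228) (nat_lit 0) (XT.lf (nat_lit 76) (nat_lit 7544357287) (nat_lit 0) (nat_lit 3817951827) (nat_lit 76) (nat_lit 7546246007) (nat_lit 5) (nat_lit 3) (nat_lit 4) (nat_lit 1) (nat_lit 5) (nat_lit 1) (nat_lit 347) (nat_lit 416) (nat_lit 257)) (XT.nd (nat_lit 78) (nat_lit 76) (nat_lit 0) (XT.lf (nat_lit 0) (nat_lit 2358680837) (nat_lit 0) (nat_lit 2360346375) (nat_lit 152) (nat_lit 13712248821) (nat_lit 2) (nat_lit 3) (nat_lit 2) (nat_lit 1) (nat_lit 4) (nat_lit 1) (nat_lit 348) (nat_lit 416) (nat_lit 256)) (XT.lf (nat_lit 76) (nat_lit 6230895723) (nat_lit 0) (nat_lit 5499363501) (nat_lit 76) (nat_lit 6232437888) (nat_lit 2) (nat_lit 3) (nat_lit 1) (nat_lit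 1) (nat_lit 2) (nat_lit 1) (nat_lit 349) (nat_lit 416) (nat_lit 255)))) (XT.nd (nat_lit 78) (nat_lit 0) (nat_lit 0) (XT.lf (nat_lit 0) (nat_lit 372483430597) (nat_lit 0) (nat_lit 0) (nat_lit 0) (nat_lit 0) (nat_lit 0) (nat_lit 0) (nat_lit 1) (nat_lit 0) (nat_lit 1) (nat_lit 0) (nat_lit 350) (nat_lit 416) (nat_lit 254)) (XT.nd (nat_lit 78) (nat_lit 0) (nat_lit 0) (XT.lf (nat_lit 0) (nat_lit 372483324397) (nat_lit 0) (nat_lit 0) (nat_lit 0) (nat_lit 0) (nat_lit 0) (nat_lit 0) (nat_lit 1) (nat_lit 0) (nat_lit 1) (nat_lit 0) (nat_lit 351) (nat_lit 416) (nat_lit 253)) (XT.lf (nat_lit 0) (nat_lit 372483226064) (nat_lit 0) (nat_lit 0) (nat_lit 0) (nat_lit 0) (nat_lit 0) (nat_lit 0) (nat_lit 1) (nat_lit 0) (nat_lit 1) (nat_lit 0) (nat_lit 352) (nat_lit 416) (nat_lit 252))))) (XT.nd (nat_lit 234) (nat_lit 0) (nat_lit 0) (XT.nd (nat_lit 78) (nat_lit 0) (nat_lit 0) (XT.lf (nat_lit 0) (nat_lit 372483135015)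 (nat_lit 0) (nat_lit 0) (nat_lit 0) (nat_lit 0) (nat_lit 0) (nat_lit 0) (nat_lit 1) (nat_lit 0) (nat_lit 1) (nat_lit 0) (nat_lit 353) (nat_lit 416) (nat_lit 251)) (XT.nd (nat_lit 78) (nat_lit 0) (nat_lit 0) (XT.lf (nat_lit 0) (nat_lit 372483050711) (nat_lit 0) (nat_lit 0) (nat_lit 0) (nat_lit 0) (nat_lit 0) (nat_lit 0) (nat_lit 1) (nat_lit 0) (nat_lit 1) (nat_lit 0) (nat_lit 354) (nat_lit 416) (nat_lit 250)) (XT.lf (nat_lit 0) (nat_lit 372482972651) (nat_lit 0) (nat_lit 0) (nat_lit 0) (nat_lit 0) (nat_lit 0) (nat_lit 0) (nat_lit 1) (nat_lit 0) (nat_lit 1) (nat_lit 0) (nat_lit 355) (nat_lit 416) (nat_lit 249)))) (XT.nd (nat_lit 156) (nat_lit 0) (nat_lit 0) (XT.nd (nat_lit 78) (nat_lit 0) (nat_lit 0) (XT.lf (nat_lit 0) (nat_lit 372482900373) (nat_lit 0) (nat_lit 0) (nat_lit 0) (nat_lit 0) (nat_lit 0) (nat_lit 0) (nat_lit 1) (nat_lit 0) (nat_lit 1) (nat_lit 0) (nat_lit 356) (nat_lit 416) (nat_lit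 248)) (XT.lf (nat_lit 0) (nat_lit 372482833449) (nat_lit 0) (nat_lit 0) (nat_lit 0) (nat_lit 0) (nat_lit 0) (nat_lit 0) (nat_lit 1) (nat_lit 0) (nat_lit 1) (nat_lit 0) (nat_lit 357) (nat_lit 416) (nat_lit 247))) (XT.nd (nat_lit 78) (nat_lit 0) (nat_lit 0) (XT.lf (nat_lit 0) (nat_lit 372482771483) (nat_lit 0) (nat_lit 0) (nat_lit 0) (nat_lit 0) (nat_lit 0) (nat_lit 0) (nat_lit 1) (nat_lit 0) (nat_lit 1) (nat_lit 0) (nat_lit 358) (nat_lit 416) (nat_lit 246)) (XT.lf (nat_lit 0) (nat_lit 372482714106) (nat_lit 0) (nat_lit 0) (nat_lit 0) (nat_lit 0) (nat_lit 0) (nat_lit 0) (nat_lit 1) (nat_lit 0) (nat_lit 1) (nat_lit 0) (nat_lit 359) (nat_lit 416) (nat_lit 245)))))) (XT.nd (nat_lit 546) (nat_lit 0) (nat_lit 0) (XT.nd (nat_lit 234) (nat_lit 0) (nat_lit 0) (XT.nd (nat_lit 78) (nat_lit 0) (nat_lit 0) (XT.lf (nat_lit 0) (nat_lit 372482660980) (nat_lit 0) (nat_lit 0) (nat_lit 0) (nat_lit 0) (nat_lit 0)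 (nat_lit 0) (nat_lit 1) (nat_lit 0) (nat_lit 1) (nat_lit 0) (nat_lit 360) (nat_lit 416) (nat_lit 244)) (XT.nd (nat_lit 78) (nat_lit 0) (nat_lit 0) (XT.lf (nat_lit 0) (nat_lit 372482611789) (nat_lit 0) (nat_lit 0) (nat_lit 0) (nat_lit 0) (nat_lit 0) (nat_lit 0) (nat_lit 1) (nat_lit 0) (nat_lit 1) (nat_lit 0) (nat_lit 361) (nat_lit 416) (nat_lit 243)) (XT.lf (nat_lit 0) (nat_lit 372482566242) (nat_lit 0) (nat_lit 0) (nat_lit 0) (nat_lit 0) (nat_lit 0) (nat_lit 0) (nat_lit 1) (nat_lit 0) (nat_lit 1) (nat_lit 0) (nat_lit 362) (nat_lit 416) (nat_lit 242)))) (XT.nd (nat_lit 156) (nat_lit 0) (nat_lit 0) (XT.nd (nat_lit 78) (nat_lit 0) (nat_lit 0) (XT.lf (nat_lit 0) (nat_lit 372482524069) (nat_lit 0) (nat_lit 0) (nat_lit 0) (nat_lit 0) (nat_lit 0) (nat_lit 0) (nat_lit 1) (nat_lit 0) (nat_lit 1) (nat_lit 0) (nat_lit 363) (nat_lit 416) (nat_lit 241)) (XT.lf (nat_lit 0) (nat_lit 372482485019) (nat_lit 0)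 (nat_lit 0) (nat_lit 0) (nat_lit 0) (nat_lit 0) (nat_lit 0) (nat_lit 1) (nat_lit 0) (nat_lit 1) (nat_lit 0) (nat_lit 364) (nat_lit 416) (nat_lit 240))) (XT.nd (nat_lit 78) (nat_lit 0) (nat_lit 0) (XT.lf (nat_lit 0) (nat_lit 372482448862) (nat_lit 0) (nat_lit 0) (nat_lit 0) (nat_lit 0) (nat_lit 0) (nat_lit 0) (nat_lit 1) (nat_lit 0) (nat_lit 1) (nat_lit 0) (nat_lit 365) (nat_lit 416) (nat_lit 239)) (XT.lf (nat_lit 0) (nat_lit 372482415384) (nat_lit 0) (nat_lit 0) (nat_lit 0) (nat_lit 0) (nat_lit 0) (nat_lit 0) (nat_lit 1) (nat_lit 0) (nat_lit 1) (nat_lit 0) (nat_lit 366) (nat_lit 416) (nat_lit 238))))) (XT.nd (nat_lit 234) (nat_lit 0) (nat_lit 0) (XT.nd (nat_lit 78) (nat_lit 0) (nat_lit 0) (XT.lf (nat_lit 0) (nat_lit 372482384385) (nat_lit 0) (nat_lit 0) (nat_lit 0) (nat_lit 0) (nat_lit 0) (nat_lit 0) (nat_lit 1) (nat_lit 0) (nat_lit 1) (nat_lit 0) (nat_lit 367) (nat_lit 416) (nat_lit 237)) (XT.nd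 (nat_lit 78) (nat_lit 0) (nat_lit 0) (XT.lf (nat_lit 0) (nat_lit 372482355683) (nat_lit 0) (nat_lit 0) (nat_lit 0) (nat_lit 0) (nat_lit 0) (nat_lit 0) (nat_lit 1) (nat_lit 0) (nat_lit 1) (nat_lit 0) (nat_lit 368) (nat_lit 416) (nat_lit 236)) (XT.lf (nat_lit 0) (nat_lit 372482329106) (nat_lit 0) (nat_lit 0) (nat_lit 0) (nat_lit 0) (nat_lit 0) (nat_lit 0) (nat_lit 1) (nat_lit 0) (nat_lit 1) (nat_lit 0) (nat_lit 369) (nat_lit 416) (nat_lit 235)))) (XT.nd (nat_lit 156) (nat_lit 0) (nat_lit 0) (XT.nd (nat_lit 78) (nat_lit 0) (nat_lit 0) (XT.lf (nat_lit 0) (nat_lit 372482304498) (nat_lit 0) (nat_lit 0) (nat_lit 0) (nat_lit 0) (nat_lit 0) (nat_lit 0) (nat_lit 1) (nat_lit 0) (nat_lit 1) (nat_lit 0) (nat_lit 370) (nat_lit 416) (nat_lit 234)) (XT.lf (nat_lit 0) (nat_lit 372482281714) (nat_lit 0) (nat_lit 0) (nat_lit 0) (nat_lit 0) (nat_lit 0) (nat_lit 0) (nat_lit 1) (nat_lit 0) (nat_lit 1) (nat_lit 0)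 (nat_lit 371) (nat_lit 416) (nat_lit 233))) (XT.nd (nat_lit 78) (nat_lit 0) (nat_lit 0) (XT.lf (nat_lit 0) (nat_lit 372482260616) (nat_lit 0) (nat_lit 0) (nat_lit 0) (nat_lit 0) (nat_lit 0) (nat_lit 0) (nat_lit 1) (nat_lit 0) (nat_lit 1) (nat_lit 0) (nat_lit 372) (nat_lit 416) (nat_lit 232)) (XT.lf (nat_lit 0) (nat_lit 372482241082) (nat_lit 0) (nat_lit 0) (nat_lit 0) (nat_lit 0) (nat_lit 0) (nat_lit 0) (nat_lit 1) (nat_lit 0) (nat_lit 1) (nat_lit 0) (nat_lit 373) (nat_lit 416) (nat_lit 231))))))) (XT.nd (nat_lit 1014) (nat_lit 0) (nat_lit 0) (XT.nd (nat_lit 468) (nat_lit 0) (nat_lit 0) (XT.nd (nat_lit 234) (nat_lit 0) (nat_lit 0) (XT.nd (nat_lit 78) (nat_lit 0) (nat_lit 0) (XT.lf (nat_lit 0) (nat_lit 372482222994) (nat_lit 0) (nat_lit 0) (nat_lit 0) (nat_lit 0) (nat_lit 0) (nat_lit 0) (nat_lit 1) (nat_lit 0) (nat_lit 1) (nat_lit 0) (nat_lit 374) (nat_lit 416) (nat_lit 230)) (XT.nd (nat_lit 78)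 (nat_lit 0) (nat_lit 0) (XT.lf (nat_lit 0) (nat_lit 372482206247) (nat_lit 0) (nat_lit 0) (nat_lit 0) (nat_lit 0) (nat_lit 0) (nat_lit 0) (nat_lit 1) (nat_lit 0) (nat_lit 1) (nat_lit 0) (nat_lit 375) (nat_lit 416) (nat_lit 229)) (XT.lf (nat_lit 0) (nat_lit 372482190740) (nat_lit 0) (nat_lit 0) (nat_lit 0) (nat_lit 0) (nat_lit 0) (nat_lit 0) (nat_lit 1) (nat_lit 0) (nat_lit 1) (nat_lit 0) (nat_lit 376) (nat_lit 416) (nat_lit 228)))) (XT.nd (nat_lit 78) (nat_lit 0) (nat_lit 0) (XT.lf (nat_lit 0) (nat_lit 372482176381) (nat_lit 0) (nat_lit 0) (nat_lit 0) (nat_lit 0) (nat_lit 0) (nat_lit 0) (nat_lit 1) (nat_lit 0) (nat_lit 1) (nat_lit 0) (nat_lit 377) (nat_lit 416) (nat_lit 227)) (XT.nd (nat_lit 78) (nat_lit 0) (nat_lit 0) (XT.lf (nat_lit 0) (nat_lit 372482163087) (nat_lit 0) (nat_lit 0) (nat_lit 0) (nat_lit 0) (nat_lit 0) (nat_lit 0) (nat_lit 1) (nat_lit 0) (nat_lit 1) (nat_lit 0) (nat_lit 378)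 (nat_lit 416) (nat_lit 226)) (XT.lf (nat_lit 0) (nat_lit 372482150777) (nat_lit 0) (nat_lit 0) (nat_lit 0) (nat_lit 0) (nat_lit 0) (nat_lit 0) (nat_lit 1) (nat_lit 0) (nat_lit 1) (nat_lit 0) (nat_lit 379) (nat_lit 416) (nat_lit 225))))) (XT.nd (nat_lit 234) (nat_lit 0) (nat_lit 0) (XT.nd (nat_lit 78) (nat_lit 0) (nat_lit 0) (XT.lf (nat_lit 0) (nat_lit 372482139379) (nat_lit 0) (nat_lit 0) (nat_lit 0) (nat_lit 0) (nat_lit 0) (nat_lit 0) (nat_lit 1) (nat_lit 0) (nat_lit 1) (nat_lit 0) (nat_lit 380) (nat_lit 416) (nat_lit 224)) (XT.nd (nat_lit 78) (nat_lit 0) (nat_lit 0) (XT.lf (nat_lit 0) (nat_lit 372482128825) (nat_lit 0) (nat_lit 0) (nat_lit 0) (nat_lit 0) (nat_lit 0) (nat_lit 0) (nat_lit 1) (nat_lit 0) (nat_lit 1) (nat_lit 0) (nat_lit 381) (nat_lit 416) (nat_lit 223)) (XT.lf (nat_lit 0) (nat_lit 372482119053) (nat_lit 0) (nat_lit 0) (nat_lit 0) (nat_lit 0) (nat_lit 0) (nat_lit 0) (nat_lit 1)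 (nat_lit 0) (nat_lit 1) (nat_lit 0) (nat_lit 382) (nat_lit 416) (nat_lit 222)))) (XT.nd (nat_lit 156) (nat_lit 0) (nat_lit 0) (XT.nd (nat_lit 78) (nat_lit 0) (nat_lit 0) (XT.lf (nat_lit 0) (nat_lit 372482110004) (nat_lit 0) (nat_lit 0) (nat_lit 0) (nat_lit 0) (nat_lit 0) (nat_lit 0) (nat_lit 1) (nat_lit 0) (nat_lit 1) (nat_lit 0) (nat_lit 383) (nat_lit 416) (nat_lit 221)) (XT.lf (nat_lit 0) (nat_lit 372482101626) (nat_lit 0) (nat_lit 0) (nat_lit 0) (nat_lit 0) (nat_lit 0) (nat_lit 0) (nat_lit 1) (nat_lit 0) (nat_lit 1) (nat_lit 0) (nat_lit 384) (nat_lit 416) (nat_lit 220))) (XT.nd (nat_lit 78) (nat_lit 0) (nat_lit 0) (XT.lf (nat_lit 0) (nat_lit 372482093869) (nat_lit 0) (nat_lit 0) (nat_lit 0) (nat_lit 0) (nat_lit 0) (nat_lit 0) (nat_lit 1) (nat_lit 0) (nat_lit 1) (nat_lit 0) (nat_lit 385) (nat_lit 416) (nat_lit 219)) (XT.lf (nat_lit 0) (nat_lit 372482086686) (nat_lit 0) (nat_lit 0) (nat_lit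 0) (nat_lit 0) (nat_lit 0) (nat_lit 0) (nat_lit 1) (nat_lit 0) (nat_lit 1) (nat_lit 0) (nat_lit 386) (nat_lit 416) (nat_lit 218)))))) (XT.nd (nat_lit 546) (nat_lit 0) (nat_lit 0) (XT.nd (nat_lit 234) (nat_lit 0) (nat_lit 0) (XT.nd (nat_lit 78) (nat_lit 0) (nat_lit 0) (XT.lf (nat_lit 0) (nat_lit 372482080036) (nat_lit 0) (nat_lit 0) (nat_lit 0) (nat_lit 0) (nat_lit 0) (nat_lit 0) (nat_lit 1) (nat_lit 0) (nat_lit 1) (nat_lit 0) (nat_lit 387) (nat_lit 416) (nat_lit 217)) (XT.nd (nat_lit 78) (nat_lit 0) (nat_lit 0) (XT.lf (nat_lit 0) (nat_lit 372482073877) (nat_lit 0) (nat_lit 0) (nat_lit 0) (nat_lit 0) (nat_lit 0) (nat_lit 0) (nat_lit 1) (nat_lit 0) (nat_lit 1) (nat_lit 0) (nat_lit 388) (nat_lit 416) (nat_lit 216)) (XT.lf (nat_lit 0) (nat_lit 372482068176) (nat_lit 0) (nat_lit 0) (nat_lit 0) (nat_lit 0) (nat_lit 0) (nat_lit 0) (nat_lit 1) (nat_lit 0) (nat_lit 1) (nat_lit 0) (nat_lit 389) (nat_lit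 416) (nat_lit 215)))) (XT.nd (nat_lit 156) (nat_lit 0) (nat_lit 0) (XT.nd (nat_lit 78) (nat_lit 0) (nat_lit 0) (XT.lf (nat_lit 0) (nat_lit 372482062896) (nat_lit 0) (nat_lit 0) (nat_lit 0) (nat_lit 0) (nat_lit 0) (nat_lit 0) (nat_lit 1) (nat_lit 0) (nat_lit 1) (nat_lit 0) (nat_lit 390) (nat_lit 416) (nat_lit 214)) (XT.lf (nat_lit 0) (nat_lit 372482058008) (nat_lit 0) (nat_lit 0) (nat_lit 0) (nat_lit 0) (nat_lit 0) (nat_lit 0) (nat_lit 1) (nat_lit 0) (nat_lit 1) (nat_lit 0) (nat_lit 391) (nat_lit 416) (nat_lit 213))) (XT.nd (nat_lit 78) (nat_lit 0) (nat_lit 0) (XT.lf (nat_lit 0) (nat_lit 372482053481) (nat_lit 0) (nat_lit 0) (nat_lit 0) (nat_lit 0) (nat_lit 0) (nat_lit 0) (nat_lit 1) (nat_lit 0) (nat_lit 1) (nat_lit 0) (nat_lit 392) (nat_lit 416) (nat_lit 212)) (XT.lf (nat_lit 0) (nat_lit 372482049290) (nat_lit 0) (nat_lit 0) (nat_lit 0) (nat_lit 0) (nat_lit 0) (nat_lit 0) (nat_lit 1) (nat_lit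 0) (nat_lit 1) (nat_lit 0) (nat_lit 393) (nat_lit 416) (nat_lit 211))))) (XT.nd (nat_lit 234) (nat_lit 0) (nat_lit 0) (XT.nd (nat_lit 78) (nat_lit 0) (nat_lit 0) (XT.lf (nat_lit 0) (nat_lit 372482045409) (nat_lit 0) (nat_lit 0) (nat_lit 0) (nat_lit 0) (nat_lit 0) (nat_lit 0) (nat_lit 1) (nat_lit 0) (nat_lit 1) (nat_lit 0) (nat_lit 394) (nat_lit 416) (nat_lit 210)) (XT.nd (nat_lit 78) (nat_lit 0) (nat_lit 0) (XT.lf (nat_lit 0) (nat_lit 372482041816) (nat_lit 0) (nat_lit 0) (nat_lit 0) (nat_lit 0) (nat_lit 0) (nat_lit 0) (nat_lit 1) (nat_lit 0) (nat_lit 1) (nat_lit 0) (nat_lit 395) (nat_lit 416) (nat_lit 209)) (XT.lf (nat_lit 0) (nat_lit 372482038489) (nat_lit 0) (nat_lit 0) (nat_lit 0) (nat_lit 0) (nat_lit 0) (nat_lit 0) (nat_lit 1) (nat_lit 0) (nat_lit 1) (nat_lit 0) (nat_lit 396) (nat_lit 416) (nat_lit 208)))) (XT.nd (nat_lit 156) (nat_lit 0) (nat_lit 0) (XT.nd (nat_lit 78) (nat_lit 0) (nat_lit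 0) (XT.lf (nat_lit 0) (nat_lit 372482035409) (nat_lit 0) (nat_lit 0) (nat_lit 0) (nat_lit 0) (nat_lit 0) (nat_lit 0) (nat_lit 1) (nat_lit 0) (nat_lit 1) (nat_lit 0) (nat_lit 397) (nat_lit 416) (nat_lit 207)) (XT.lf (nat_lit 0) (nat_lit 372482032556) (nat_lit 0) (nat_lit 0) (nat_lit 0) (nat_lit 0) (nat_lit 0) (nat_lit 0) (nat_lit 1) (nat_lit 0) (nat_lit 1) (nat_lit 0) (nat_lit 398) (nat_lit 416) (nat_lit 206))) (XT.nd (nat_lit 38688) (nat_lit 0) (nat_lit 16264) (XT.lf (nat_lit 0) (nat_lit 372482029915) (nat_lit 0) (nat_lit 0) (nat_lit 0) (nat_lit 0) (nat_lit 0) (nat_lit 0) (nat_lit 1) (nat_lit 0) (nat_lit 1) (nat_lit 0) (nat_lit 399) (nat_lit 416) (nat_lit 205)) (XT.lf (nat_lit 228) (nat_lit 476297583844) (nat_lit 0) (nat_lit 118876715150) (nat_lit 152) (nat_lit 15080890485) (nat_lit 217) (nat_lit 1) (nat_lit 214) (nat_lit 1) (nat_lit 216) (nat_lit 1) (nat_lit 214) (nat_lit 417) (nat_lit 389))))))))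
noncomputable def ec246 : XT := (XT.nd (nat_lit 2028) (nat_lit 3268) (nat_lit 0) (XT.nd (nat_lit 1014) (nat_lit 1444) (nat_lit 0) (XT.nd (nat_lit 468) (nat_lit 1064) (nat_lit 0) (XT.nd (nat_lit 234) (nat_lit 380) (nat_lit 0) (XT.nd (nat_lit 78) (nat_lit 304) (nat_lit 0) (XT.lf (nat_lit 228) (nat_lit 213168724002) (nat_lit 0) (nat_lit 113487184072) (nat_lit 152) (nat_lit 266548348359) (nat_lit 215) (nat_lit 1) (nat_lit 212) (nat_lit 1) (nat_lit 214) (nat_lit 1) (nat_lit 215) (nat_lit 417) (nat_lit 388)) (XT.nd (nat_lit 78) (nat_lit 152) (nat_lit 0) (XT.lf (nat_lit 76) (nat_lit 73018518185) (nat_lit 0) (nat_lit 40134267906) (nat_lit 152) (nat_lit 463707765939) (nat_lit 211) (nat_lit 1) (nat_lit 210) (nat_lit 1) (nat_lit 212) (nat_lit 1) (nat_lit 216) (nat_lit 417) (nat_lit 387)) (XT.lf (nat_lit 228) (nat_lit 279689625374) (nat_lit 0) (nat_lit 111954624040) (nat_lit 152) (nat_lit 169285016056) (nat_lit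 211) (nat_lit 1) (nat_lit 208) (nat_lit 1) (nat_lit 210) (nat_lit 1) (nat_lit 217) (nat_lit 417) (nat_lit 386)))) (XT.nd (nat_lit 78) (nat_lit 304) (nat_lit 0) (XT.lf (nat_lit 152) (nat_lit 30118598313) (nat_lit 0) (nat_lit 114704374281) (nat_lit 76) (nat_lit 400803953004) (nat_lit 209) (nat_lit 1) (nat_lit 207) (nat_lit 1) (nat_lit 208) (nat_lit 1) (nat_lit 218) (nat_lit 417) (nat_lit 385)) (XT.nd (nat_lit 78) (nat_lit 76) (nat_lit 0) (XT.lf (nat_lit 228) (nat_lit 325119149145) (nat_lit 0) (nat_lit 117311965635) (nat_lit 152) (nat_lit 88315403709) (nat_lit 207) (nat_lit 1) (nat_lit 204) (nat_lit 1) (nat_lit 206) (nat_lit 1) (nat_lit 219) (nat_lit 417) (nat_lit 384)) (XT.lf (nat_lit 152) (nat_lit 81769863431) (nat_lit 0) (nat_lit 121698378242) (nat_lit 76) (nat_lit 312899369318) (nat_lit 205) (nat_lit 1) (nat_lit 203) (nat_lit 1) (nat_lit 204) (nat_lit 1) (nat_lit 220) (nat_lit 417) (nat_lit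 383))))) (XT.nd (nat_lit 234) (nat_lit 532) (nat_lit 0) (XT.nd (nat_lit 78) (nat_lit 304) (nat_lit 0) (XT.lf (nat_lit 228) (nat_lit 353961629358) (nat_lit 0) (nat_lit 127567927030) (nat_lit 152) (nat_lit 20934988867) (nat_lit 203) (nat_lit 1) (nat_lit 200) (nat_lit 1) (nat_lit 202) (nat_lit 1) (nat_lit 221) (nat_lit 417) (nat_lit 382)) (XT.nd (nat_lit 78) (nat_lit 228) (nat_lit 0) (XT.lf (nat_lit 152) (nat_lit 117678051648) (nat_lit 0) (nat_lit 132991096814) (nat_lit 76) (nat_lit 238265035138) (nat_lit 201) (nat_lit 1) (nat_lit 199) (nat_lit 1) (nat_lit 200) (nat_lit 1) (nat_lit 222) (nat_lit 417) (nat_lit 381)) (XT.lf (nat_lit 76) (nat_lit 33966568859) (nat_lit 0) (nat_lit 106612005479) (nat_lit 228) (nat_lit 335311326764) (nat_lit 197) (nat_lit 1) (nat_lit 196) (nat_lit 1) (nat_lit 199) (nat_lit 1) (nat_lit 223) (nat_lit 417) (nat_lit 380)))) (XT.nd (nat_lit 156) (nat_lit 228) (nat_lit 0) (XT.nd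 (nat_lit 78) (nat_lit 228) (nat_lit 0) (XT.lf (nat_lit 152) (nat_lit 141224279214) (nat_lit 0) (nat_lit 147149005063) (nat_lit 76) (nat_lit 174796281055) (nat_lit 197) (nat_lit 1) (nat_lit 195) (nat_lit 1) (nat_lit 196) (nat_lit 1) (nat_lit 224) (nat_lit 417) (nat_lit 379)) (XT.lf (nat_lit 76) (nat_lit 78993591703) (nat_lit 0) (nat_lit 76510635097) (nat_lit 228) (nat_lit 295392026516) (nat_lit 193) (nat_lit 1) (nat_lit 192) (nat_lit 1) (nat_lit 195) (nat_lit 1) (nat_lit 225) (nat_lit 417) (nat_lit 378))) (XT.nd (nat_lit 78) (nat_lit 152) (nat_lit 0) (XT.lf (nat_lit 152) (nat_lit 155135187599) (nat_lit 0) (nat_lit 163053074970) (nat_lit 76) (nat_lit 120748257203) (nat_lit 193) (nat_lit 1) (nat_lit 191) (nat_lit 1) (nat_lit 192) (nat_lit 1) (nat_lit 226) (nat_lit 417) (nat_lit 377)) (XT.lf (nat_lit 76) (nat_lit 116296833472) (nat_lit 0) (nat_lit 55413360265) (nat_lit 152) (nat_lit 255661567351)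 (nat_lit 190) (nat_lit 1) (nat_lit 189) (nat_lit 1) (nat_lit 191) (nat_lit 1) (nat_lit 227) (nat_lit 417) (nat_lit 376)))))) (XT.nd (nat_lit 468) (nat_lit 760) (nat_lit 0) (XT.nd (nat_lit 234) (nat_lit 380) (nat_lit 0) (XT.nd (nat_lit 78) (nat_lit 228) (nat_lit 0) (XT.lf (nat_lit 152) (nat_lit 161605236614) (nat_lit 0) (nat_lit 179837481368) (nat_lit 76) (nat_lit 74671748881) (nat_lit 190) (nat_lit 1) (nat_lit 188) (nat_lit 1) (nat_lit 189) (nat_lit 1) (nat_lit 228) (nat_lit 417) (nat_lit 375)) (XT.nd (nat_lit 78) (nat_lit 76) (nat_lit 0) (XT.lf (nat_lit 76) (nat_lit 147104681262) (nat_lit 0) (nat_lit 41339089308) (nat_lit 152) (nat_lit 216759664664) (nat_lit 187) (nat_lit 1) (nat_lit 186) (nat_lit 1) (nat_lit 188) (nat_lit 1) (nat_lit 229) (nat_lit 417) (nat_lit 374)) (XT.lf (nat_lit 152) (nat_lit 162396421417) (nat_lit 0) (nat_lit 196839787697) (nat_lit 76) (nat_lit 35360649727) (nat_lit 187)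 (nat_lit 1) (nat_lit 185) (nat_lit 1) (nat_lit 186) (nat_lit 1) (nat_lit 230) (nat_lit 417) (nat_lit 373)))) (XT.nd (nat_lit 78) (nat_lit 228) (nat_lit 0) (XT.lf (nat_lit 76) (nat_lit 172438061823) (nat_lit 0) (nat_lit 32694840342) (nat_lit 152) (nat_lit 179158213122) (nat_lit 184) (nat_lit 1) (nat_lit 183) (nat_lit 1) (nat_lit 185) (nat_lit 1) (nat_lit 231) (nat_lit 417) (nat_lit 372)) (XT.nd (nat_lit 78) (nat_lit 152) (nat_lit 0) (XT.lf (nat_lit 152) (nat_lit 158919564084) (nat_lit 0) (nat_lit 213560490669) (nat_lit 76) (nat_lit 1808960887) (nat_lit 184) (nat_lit 1) (nat_lit 182) (nat_lit 1) (nat_lit 183) (nat_lit 1) (nat_lit 232) (nat_lit 417) (nat_lit 371)) (XT.lf (nat_lit 76) (nat_lit 193147164059) (nat_lit 0) (nat_lit 28202866732) (nat_lit 152) (nat_lit 143195485652) (nat_lit 181) (nat_lit 1) (nat_lit 180) (nat_lit 1) (nat_lit 182) (nat_lit 1) (nat_lit 233) (nat_lit 417) (nat_lit 370)))))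 (XT.nd (nat_lit 234) (nat_lit 456) (nat_lit 0) (XT.nd (nat_lit 78) (nat_lit 228) (nat_lit 0) (XT.lf (nat_lit 0) (nat_lit 25965875623) (nat_lit 0) (nat_lit 203224572672) (nat_lit 152) (nat_lit 125894948063) (nat_lit 179) (nat_lit 3) (nat_lit 179) (nat_lit 1) (nat_lit 181) (nat_lit 1) (nat_lit 234) (nat_lit 417) (nat_lit 369)) (XT.nd (nat_lit 78) (nat_lit 76) (nat_lit 0) (XT.lf (nat_lit 76) (nat_lit 209941514252) (nat_lit 0) (nat_lit 26841260017) (nat_lit 152) (nat_lit 109103840158) (nat_lit 178) (nat_lit 1) (nat_lit 177) (nat_lit 1) (nat_lit 179) (nat_lit 1) (nat_lit 235) (nat_lit 417) (nat_lit 368)) (XT.lf (nat_lit 0) (nat_lit 49604428624) (nat_lit 0) (nat_lit 194338487878) (nat_lit 152) (nat_lit 92989900294) (nat_lit 176) (nat_lit 3) (nat_lit 176) (nat_lit 1) (nat_lit 178) (nat_lit 1) (nat_lit 236) (nat_lit 417) (nat_lit 367)))) (XT.nd (nat_lit 156) (nat_lit 228) (nat_lit 0) (XT.nd (nat_lit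 78) (nat_lit 76) (nat_lit 0) (XT.lf (nat_lit 76) (nat_lit 223414617906) (nat_lit 0) (nat_lit 27795550857) (nat_lit 152) (nat_lit 77032138569) (nat_lit 175) (nat_lit 1) (nat_lit 174) (nat_lit 1) (nat_lit 176) (nat_lit 1) (nat_lit 237) (nat_lit 417) (nat_lit 366)) (XT.lf (nat_lit 0) (nat_lit 69738306220) (nat_lit 0) (nat_lit 187915570618) (nat_lit 152) (nat_lit 62109720448) (nat_lit 173) (nat_lit 3) (nat_lit 173) (nat_lit 1) (nat_lit 175) (nat_lit 1) (nat_lit 238) (nat_lit 417) (nat_lit 365))) (XT.nd (nat_lit 78) (nat_lit 76) (nat_lit 0) (XT.lf (nat_lit 76) (nat_lit 234064159726) (nat_lit 0) (nat_lit 30419283881) (nat_lit 152) (nat_lit 47063861004) (nat_lit 172) (nat_lit 1) (nat_lit 171) (nat_lit 1) (nat_lit 173) (nat_lit 1) (nat_lit 239) (nat_lit 417) (nat_lit 364)) (XT.lf (nat_lit 0) (nat_lit 86851204012) (nat_lit 0) (nat_lit 183344495865) (nat_lit 152) (nat_lit 33319370968) (nat_lit 170) (nat_lit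 3) (nat_lit 170) (nat_lit 1) (nat_lit 172) (nat_lit 1) (nat_lit 240) (nat_lit 417) (nat_lit 363))))))) (XT.nd (nat_lit 1014) (nat_lit 1672) (nat_lit 0) (XT.nd (nat_lit 468) (nat_lit 836) (nat_lit 0) (XT.nd (nat_lit 234) (nat_lit 304) (nat_lit 0) (XT.nd (nat_lit 78) (nat_lit 304) (nat_lit 0) (XT.lf (nat_lit 76) (nat_lit 242308571652) (nat_lit 0) (nat_lit 34201914088) (nat_lit 152) (nat_lit 19231716722) (nat_lit 169) (nat_lit 1) (nat_lit 168) (nat_lit 1) (nat_lit 170) (nat_lit 1) (nat_lit 241) (nat_lit 417) (nat_lit 362)) (XT.nd (nat_lit 78) (nat_lit 228) (nat_lit 0) (XT.lf (nat_lit 0) (nat_lit 101352213119) (nat_lit 0) (nat_lit 180140255980) (nat_lit 152) (nat_lit 6637664098) (nat_lit 167) (nat_lit 3) (nat_lit 167) (nat_lit 1) (nat_lit 169) (nat_lit 1) (nat_lit 242) (nat_lit 417) (nat_lit 361)) (XT.lf (nat_lit 152) (nat_lit 241920453697) (nat_lit 0) (nat_lit 6684541296) (nat_lit 76) (nat_lit 32162499110)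 (nat_lit 166) (nat_lit 1) (nat_lit 164) (nat_lit 1) (nat_lit 165) (nat_lit 1) (nat_lit 243) (nat_lit 417) (nat_lit 360)))) (XT.nd (nat_lit 78) (nat_lit 228) (nat_lit 0) (XT.lf (nat_lit 76) (nat_lit 95332548385) (nat_lit 0) (nat_lit 18545474588) (nat_lit 76) (nat_lit 159664022405) (nat_lit 164) (nat_lit 3) (nat_lit 163) (nat_lit 1) (nat_lit 164) (nat_lit 1) (nat_lit 244) (nat_lit 417) (nat_lit 359)) (XT.nd (nat_lit 78) (nat_lit 76) (nat_lit 0) (XT.lf (nat_lit 152) (nat_lit 222350289447) (nat_lit 0) (nat_lit 31073480905) (nat_lit 76) (nat_lit 13140987656) (nat_lit 163) (nat_lit 1) (nat_lit 161) (nat_lit 1) (nat_lit 162) (nat_lit 1) (nat_lit 245) (nat_lit 417) (nat_lit 358)) (XT.lf (nat_lit 76) (nat_lit 82677372762) (nat_lit 0) (nat_lit 41831321190) (nat_lit 76) (nat_lit 135204868042) (nat_lit 161) (nat_lit 3) (nat_lit 160) (nat_lit 1) (nat_lit 161) (nat_lit 1) (nat_lit 246) (nat_lit 417) (nat_lit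 357))))) (XT.nd (nat_lit 234) (nat_lit 456) (nat_lit 0) (XT.nd (nat_lit 78) (nat_lit 228) (nat_lit 0) (XT.lf (nat_lit 0) (nat_lit 3489674511) (nat_lit 0) (nat_lit 49810217086) (nat_lit 152) (nat_lit 199800859622) (nat_lit 158) (nat_lit 3) (nat_lit 158) (nat_lit 1) (nat_lit 160) (nat_lit 1) (nat_lit 247) (nat_lit 417) (nat_lit 356)) (XT.nd (nat_lit 78) (nat_lit 152) (nat_lit 0) (XT.lf (nat_lit 76) (nat_lit 70325515242) (nat_lit 0) (nat_lit 63065273738) (nat_lit 76) (nat_lit 113214906515) (nat_lit 158) (nat_lit 3) (nat_lit 157) (nat_lit 1) (nat_lit 158) (nat_lit 1) (nat_lit 248) (nat_lit 417) (nat_lit 355)) (XT.lf (nat_lit 0) (nat_lit 17747719260) (nat_lit 0) (nat_lit 55569051952) (nat_lit 152) (nat_lit 167010352296) (nat_lit 155) (nat_lit 3) (nat_lit 155) (nat_lit 1) (nat_lit 157) (nat_lit 1) (nat_lit 249) (nat_lit 417) (nat_lit 354)))) (XT.nd (nat_lit 156) (nat_lit 228) (nat_lit 0) (XT.nd (nat_lit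 78) (nat_lit 152) (nat_lit 0) (XT.lf (nat_lit 76) (nat_lit 58415427170) (nat_lit 0) (nat_lit 82326791695) (nat_lit 76) (nat_lit 93435179662) (nat_lit 155) (nat_lit 3) (nat_lit 154) (nat_lit 1) (nat_lit 155) (nat_lit 1) (nat_lit 250) (nat_lit 417) (nat_lit 353)) (XT.lf (nat_lit 0) (nat_lit 30271024009) (nat_lit 0) (nat_lit 61152639964) (nat_lit 152) (nat_lit 136790889085) (nat_lit 152) (nat_lit 3) (nat_lit 152) (nat_lit 1) (nat_lit 154) (nat_lit 1) (nat_lit 251) (nat_lit 417) (nat_lit 352))) (XT.nd (nat_lit 78) (nat_lit 152) (nat_lit 0) (XT.lf (nat_lit 76) (nat_lit 47045545237) (nat_lit 0) (nat_lit 99705378738) (nat_lit 76) (nat_lit 75639634084) (nat_lit 152) (nat_lit 3) (nat_lit 151) (nat_lit 1) (nat_lit 152) (nat_lit 1) (nat_lit 252) (nat_lit 417) (nat_lit 351)) (XT.lf (nat_lit 0) (nat_lit 41248764077) (nat_lit 0) (nat_lit 66464009974) (nat_lit 152) (nat_lit 109013458466) (nat_lit 149) (nat_lit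 3) (nat_lit 149) (nat_lit 1) (nat_lit 151) (nat_lit 1) (nat_lit 253) (nat_lit 417) (nat_lit 350)))))) (XT.nd (nat_lit 546) (nat_lit 912) (nat_lit 0) (XT.nd (nat_lit 234) (nat_lit 456) (nat_lit 0) (XT.nd (nat_lit 78) (nat_lit 228) (nat_lit 0) (XT.lf (nat_lit 76) (nat_lit 36282623446) (nat_lit 0) (nat_lit 115296993097) (nat_lit 76) (nat_lit 59630073351) (nat_lit 149) (nat_lit 3) (nat_lit 148) (nat_lit 1) (nat_lit 149) (nat_lit 1) (nat_lit 254) (nat_lit 417) (nat_lit 349)) (XT.nd (nat_lit 78) (nat_lit 76) (nat_lit 0) (XT.lf (nat_lit 0) (nat_lit 50846327137) (nat_lit 0) (nat_lit 71434907300) (nat_lit 152) (nat_lit 83546611798) (nat_lit 146) (nat_lit 3) (nat_lit 146) (nat_lit 1) (nat_lit 148) (nat_lit 1) (nat_lit 255) (nat_lit 417) (nat_lit 348)) (XT.lf (nat_lit 76) (nat_lit 26168473020) (nat_lit 0) (nat_lit 129201231191) (nat_lit 76) (nat_lit 45231973170) (nat_lit 146) (nat_lit 3) (nat_lit 145) (nat_lit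 1) (nat_lit 146) (nat_lit 1) (nat_lit 256) (nat_lit 417) (nat_lit 347)))) (XT.nd (nat_lit 156) (nat_lit 228) (nat_lit 0) (XT.nd (nat_lit 78) (nat_lit 76) (nat_lit 0) (XT.lf (nat_lit 0) (nat_lit 59208896189) (nat_lit 0) (nat_lit 76019742883) (nat_lit 152) (nat_lit 60258690015) (nat_lit 143) (nat_lit 3) (nat_lit 143) (nat_lit 1) (nat_lit 145) (nat_lit 1) (nat_lit 257) (nat_lit 417) (nat_lit 346)) (XT.lf (nat_lit 76) (nat_lit 16725406280) (nat_lit 0) (nat_lit 141519135460) (nat_lit 76) (nat_lit 32291005070) (nat_lit 143) (nat_lit 3) (nat_lit 142) (nat_lit 1) (nat_lit 143) (nat_lit 1) (nat_lit 258) (nat_lit 417) (nat_lit 345))) (XT.nd (nat_lit 78) (nat_lit 76) (nat_lit 0) (XT.lf (nat_lit 0) (nat_lit 66464426669) (nat_lit 0) (nat_lit 80190704262) (nat_lit 152) (nat_lit 39019527638) (nat_lit 140) (nat_lit 3) (nat_lit 140) (nat_lit 1) (nat_lit 142) (nat_lit 1) (nat_lit 259) (nat_lit 417) (nat_lit 344))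 (XT.lf (nat_lit 76) (nat_lit 7960625958) (nat_lit 0) (nat_lit 152351505141) (nat_lit 76) (nat_lit 20670142248) (nat_lit 140) (nat_lit 3) (nat_lit 139) (nat_lit 1) (nat_lit 140) (nat_lit 1) (nat_lit 260) (nat_lit 417) (nat_lit 343))))) (XT.nd (nat_lit 234) (nat_lit 532) (nat_lit 0) (XT.nd (nat_lit 78) (nat_lit 228) (nat_lit 0) (XT.lf (nat_lit 0) (nat_lit 72726125607) (nat_lit 0) (nat_lit 83933811930) (nat_lit 152) (nat_lit 19701737042) (nat_lit 137) (nat_lit 3) (nat_lit 137) (nat_lit 1) (nat_lit 139) (nat_lit 1) (nat_lit 261) (nat_lit 417) (nat_lit 342)) (XT.nd (nat_lit 78) (nat_lit 76) (nat_lit 0) (XT.lf (nat_lit 76) (nat_lit 161669401693) (nat_lit 0) (nat_lit 126074527) (nat_lit 152) (nat_lit 10119034554) (nat_lit 136) (nat_lit 1) (nat_lit 135) (nat_lit 1) (nat_lit 137) (nat_lit 1) (nat_lit 262) (nat_lit 417) (nat_lit 341)) (XT.lf (nat_lit 0) (nat_lit 78094521171) (nat_lit 0) (nat_lit 87245744571)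 (nat_lit 152) (nat_lit 2181656636) (nat_lit 134) (nat_lit 3) (nat_lit 134) (nat_lit 1) (nat_lit 136) (nat_lit 1) (nat_lit 263) (nat_lit 417) (nat_lit 340)))) (XT.nd (nat_lit 156) (nat_lit 228) (nat_lit 0) (XT.nd (nat_lit 78) (nat_lit 76) (nat_lit 0) (XT.lf (nat_lit 152) (nat_lit 155872132804) (nat_lit 0) (nat_lit 6745132369) (nat_lit 76) (nat_lit 678520005) (nat_lit 133) (nat_lit 1) (nat_lit 131) (nat_lit 1) (nat_lit 132) (nat_lit 1) (nat_lit 264) (nat_lit 417) (nat_lit 339)) (XT.lf (nat_lit 76) (nat_lit 68767887526) (nat_lit 0) (nat_lit 14111629444) (nat_lit 76) (nat_lit 76239981883) (nat_lit 131) (nat_lit 3) (nat_lit 130) (nat_lit 1) (nat_lit 131) (nat_lit 1) (nat_lit 265) (nat_lit 417) (nat_lit 338))) (XT.nd (nat_lit 78) (nat_lit 76) (nat_lit 0) (XT.lf (nat_lit 0) (nat_lit 7773841657) (nat_lit 0) (nat_lit 14362990120) (nat_lit 152) (nat_lit 132963499665) (nat_lit 128) (nat_lit 3) (nat_lit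 128) (nat_lit 1) (nat_lit 130) (nat_lit 1) (nat_lit 266) (nat_lit 417) (nat_lit 337)) (XT.lf (nat_lit 76) (nat_lit 58089577118) (nat_lit 0) (nat_lit 28861263850) (nat_lit 76) (nat_lit 64190640509) (nat_lit 128) (nat_lit 3) (nat_lit 127) (nat_lit 1) (nat_lit 128) (nat_lit 1) (nat_lit 267) (nat_lit 417) (nat_lit 336))))))))
noncomputable def ec247 : XT := (XT.nd (nat_lit 2106) (nat_lit 3192) (nat_lit 0) (XT.nd (nat_lit 1014) (nat_lit 1672) (nat_lit 0) (XT.nd (nat_lit 468) (nat_lit 836) (nat_lit 0) (XT.nd (nat_lit 234) (nat_lit 304) (nat_lit 0) (XT.nd (nat_lit 78) (nat_lit 228) (nat_lit 0) (XT.lf (nat_lit 0) (nat_lit 15296609611) (nat_lit 0) (nat_lit 20676736058) (nat_lit 152) (nat_lit 111346608160) (nat_lit 125) (nat_lit 3) (nat_lit 125) (nat_lit 1) (nat_lit 127) (nat_lit 1) (nat_lit 268) (nat_lit 417) (nat_lit 335)) (XT.nd (nat_lit 78) (nat_lit 152) (nat_lit 0) (XT.lf (nat_lit 76) (nat_lit 48238953740)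 (nat_lit 0) (nat_lit 42107933886) (nat_lit 76) (nat_lit 53220552302) (nat_lit 125) (nat_lit 3) (nat_lit 124) (nat_lit 1) (nat_lit 125) (nat_lit 1) (nat_lit 269) (nat_lit 417) (nat_lit 334)) (XT.lf (nat_lit 0) (nat_lit 21990965897) (nat_lit 0) (nat_lit 26383909956) (nat_lit 152) (nat_lit 91558703766) (nat_lit 122) (nat_lit 3) (nat_lit 122) (nat_lit 1) (nat_lit 124) (nat_lit 1) (nat_lit 270) (nat_lit 417) (nat_lit 333)))) (XT.nd (nat_lit 78) (nat_lit 228) (nat_lit 0) (XT.lf (nat_lit 76) (nat_lit 39174971099) (nat_lit 0) (nat_lit 53958948919) (nat_lit 76) (nat_lit 43242511894) (nat_lit 122) (nat_lit 3) (nat_lit 121) (nat_lit 1) (nat_lit 122) (nat_lit 1) (nat_lit 271) (nat_lit 417) (nat_lit 332)) (XT.nd (nat_lit 78) (nat_lit 76) (nat_lit 0) (XT.lf (nat_lit 0) (nat_lit 27929048952) (nat_lit 0) (nat_lit 31515945596) (nat_lit 152) (nat_lit 73475817684) (nat_lit 119) (nat_lit 3) (nat_lit 119) (nat_lit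 1) (nat_lit 121) (nat_lit 1) (nat_lit 272) (nat_lit 417) (nat_lit 331)) (XT.lf (nat_lit 76) (nat_lit 30855717895) (nat_lit 0) (nat_lit 64516040380) (nat_lit 76) (nat_lit 34176918491) (nat_lit 119) (nat_lit 3) (nat_lit 118) (nat_lit 1) (nat_lit 119) (nat_lit 1) (nat_lit 273) (nat_lit 417) (nat_lit 330))))) (XT.nd (nat_lit 234) (nat_lit 456) (nat_lit 0) (XT.nd (nat_lit 78) (nat_lit 228) (nat_lit 0) (XT.lf (nat_lit 0) (nat_lit 33176499272) (nat_lit 0) (nat_lit 36105247594) (nat_lit 152) (nat_lit 56980632627) (nat_lit 116) (nat_lit 3) (nat_lit 116) (nat_lit 1) (nat_lit 118) (nat_lit 1) (nat_lit 274) (nat_lit 417) (nat_lit 329)) (XT.nd (nat_lit 78) (nat_lit 152) (nat_lit 0) (XT.lf (nat_lit 76) (nat_lit 23239147243) (nat_lit 0) (nat_lit 73875379627) (nat_lit 76) (nat_lit 25950951244) (nat_lit 116) (nat_lit 3) (nat_lit 115) (nat_lit 1) (nat_lit 116) (nat_lit 1) (nat_lit 275) (nat_lit 417) (nat_lit 328))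 (XT.lf (nat_lit 0) (nat_lit 37793170005) (nat_lit 0) (nat_lit 40184531559) (nat_lit 152) (nat_lit 41962358466) (nat_lit 113) (nat_lit 3) (nat_lit 113) (nat_lit 1) (nat_lit 115) (nat_lit 1) (nat_lit 276) (nat_lit 417) (nat_lit 327)))) (XT.nd (nat_lit 156) (nat_lit 228) (nat_lit 0) (XT.nd (nat_lit 78) (nat_lit 152) (nat_lit 0) (XT.lf (nat_lit 76) (nat_lit 16283635732) (nat_lit 0) (nat_lit 82127658685) (nat_lit 76) (nat_lit 18497859393) (nat_lit 113) (nat_lit 3) (nat_lit 112) (nat_lit 1) (nat_lit 113) (nat_lit 1) (nat_lit 277) (nat_lit 417) (nat_lit 326)) (XT.lf (nat_lit 0) (nat_lit 41833738900) (nat_lit 0) (nat_lit 43786317083) (nat_lit 152) (nat_lit 28316560434) (nat_lit 110) (nat_lit 3) (nat_lit 110) (nat_lit 1) (nat_lit 112) (nat_lit 1) (nat_lit 278) (nat_lit 417) (nat_lit 325))) (XT.nd (nat_lit 78) (nat_lit 152) (nat_lit 0) (XT.lf (nat_lit 76) (nat_lit 9948405608) (nat_lit 0) (nat_lit 89358218193)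 (nat_lit 76) (nat_lit 11756348371) (nat_lit 110) (nat_lit 3) (nat_lit 109) (nat_lit 1) (nat_lit 110) (nat_lit 1) (nat_lit 279) (nat_lit 417) (nat_lit 324)) (XT.lf (nat_lit 0) (nat_lit 45348237729) (nat_lit 0) (nat_lit 46942543516) (nat_lit 152) (nat_lit 15944952928) (nat_lit 107) (nat_lit 3) (nat_lit 107) (nat_lit 1) (nat_lit 109) (nat_lit 1) (nat_lit 280) (nat_lit 417) (nat_lit 323)))))) (XT.nd (nat_lit 546) (nat_lit 760) (nat_lit 0) (XT.nd (nat_lit 234) (nat_lit 456) (nat_lit 0) (XT.nd (nat_lit 78) (nat_lit 380) (nat_lit 0) (XT.lf (nat_lit 76) (nat_lit 4193837326) (nat_lit 0) (nat_lit 95647209979) (nat_lit 76) (nat_lit 5670046389) (nat_lit 107) (nat_lit 3) (nat_lit 106) (nat_lit 1) (nat_lit 107) (nat_lit 1) (nat_lit 281) (nat_lit 417) (nat_lit 322)) (XT.nd (nat_lit 78) (nat_lit 228) (nat_lit 0) (XT.lf (nat_lit 0) (nat_lit 48382512450) (nat_lit 0) (nat_lit 49684284110) (nat_lit 152) (nat_lit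 4755169302) (nat_lit 104) (nat_lit 3) (nat_lit 104) (nat_lit 1) (nat_lit 106) (nat_lit 1) (nat_lit 282) (nat_lit 417) (nat_lit 321)) (XT.lf (nat_lit 152) (nat_lit 99238200670) (nat_lit 0) (nat_lit 842327866) (nat_lit 76) (nat_lit 156536521) (nat_lit 103) (nat_lit 1) (nat_lit 101) (nat_lit 1) (nat_lit 102) (nat_lit 1) (nat_lit 283) (nat_lit 417) (nat_lit 320)))) (XT.nd (nat_lit 156) (nat_lit 228) (nat_lit 0) (XT.nd (nat_lit 78) (nat_lit 152) (nat_lit 0) (XT.lf (nat_lit 76) (nat_lit 45548714189) (nat_lit 0) (nat_lit 5516031577) (nat_lit 76) (nat_lit 46611627883) (nat_lit 101) (nat_lit 3) (nat_lit 100) (nat_lit 1) (nat_lit 101) (nat_lit 1) (nat_lit 284) (nat_lit 417) (nat_lit 319)) (XT.lf (nat_lit 0) (nat_lit 4849754610) (nat_lit 0) (nat_lit 5787068273) (nat_lit 152) (nat_lit 84577461708) (nat_lit 98) (nat_lit 3) (nat_lit 98) (nat_lit 1) (nat_lit 100) (nat_lit 1) (nat_lit 285) (nat_lit 417) (nat_lit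 318))) (XT.nd (nat_lit 78) (nat_lit 152) (nat_lit 0) (XT.lf (nat_lit 76) (nat_lit 38510708366) (nat_lit 0) (nat_lit 14897082999) (nat_lit 76) (nat_lit 39378591388) (nat_lit 98) (nat_lit 3) (nat_lit 97) (nat_lit 1) (nat_lit 98) (nat_lit 1) (nat_lit 286) (nat_lit 417) (nat_lit 317)) (XT.lf (nat_lit 0) (nat_lit 9332703195) (nat_lit 0) (nat_lit 10098032139) (nat_lit 152) (nat_lit 71013841241) (nat_lit 95) (nat_lit 3) (nat_lit 95) (nat_lit 1) (nat_lit 97) (nat_lit 1) (nat_lit 287) (nat_lit 417) (nat_lit 316))))) (XT.nd (nat_lit 234) (nat_lit 456) (nat_lit 0) (XT.nd (nat_lit 78) (nat_lit 228) (nat_lit 0) (XT.lf (nat_lit 76) (nat_lit 32062298579) (nat_lit 0) (nat_lit 23309392132) (nat_lit 76) (nat_lit 32770936489) (nat_lit 95) (nat_lit 3) (nat_lit 94) (nat_lit 1) (nat_lit 95) (nat_lit 1) (nat_lit 288) (nat_lit 417) (nat_lit 315)) (XT.nd (nat_lit 78) (nat_lit 76) (nat_lit 0) (XT.lf (nat_lit 0) (nat_lit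 13338558657) (nat_lit 0) (nat_lit 13963459813) (nat_lit 152) (nat_lit 58613160011) (nat_lit 92) (nat_lit 3) (nat_lit 92) (nat_lit 1) (nat_lit 94) (nat_lit 1) (nat_lit 289) (nat_lit 417) (nat_lit 314)) (XT.lf (nat_lit 76) (nat_lit 26163724166) (nat_lit 0) (nat_lit 30826533040) (nat_lit 76) (nat_lit 26742336348) (nat_lit 92) (nat_lit 3) (nat_lit 91) (nat_lit 1) (nat_lit 92) (nat_lit 1) (nat_lit 290) (nat_lit 417) (nat_lit 313)))) (XT.nd (nat_lit 156) (nat_lit 228) (nat_lit 0) (XT.nd (nat_lit 78) (nat_lit 76) (nat_lit 0) (XT.lf (nat_lit 0) (nat_lit 16905467867) (nat_lit 0) (nat_lit 17415707886) (nat_lit 152) (nat_lit 47292699819) (nat_lit 89) (nat_lit 3) (nat_lit 89) (nat_lit 1) (nat_lit 91) (nat_lit 1) (nat_lit 291) (nat_lit 417) (nat_lit 312)) (XT.lf (nat_lit 76) (nat_lit 20777344153) (nat_lit 0) (nat_lit 37517284754) (nat_lit 76) (nat_lit 21249788614) (nat_lit 89) (nat_lit 3) (nat_lit 88) (nat_lit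 1) (nat_lit 89) (nat_lit 1) (nat_lit 292) (nat_lit 417) (nat_lit 311))) (XT.nd (nat_lit 78) (nat_lit 76) (nat_lit 0) (XT.lf (nat_lit 0) (nat_lit 20068735039) (nat_lit 0) (nat_lit 20485352730) (nat_lit 152) (nat_lit 36974998303) (nat_lit 86) (nat_lit 3) (nat_lit 86) (nat_lit 1) (nat_lit 88) (nat_lit 1) (nat_lit 293) (nat_lit 417) (nat_lit 310)) (XT.lf (nat_lit 76) (nat_lit 15867599836) (nat_lit 0) (nat_lit 43445891465) (nat_lit 76) (nat_lit 16253356958) (nat_lit 86) (nat_lit 3) (nat_lit 85) (nat_lit 1) (nat_lit 86) (nat_lit 1) (nat_lit 294) (nat_lit 417) (nat_lit 309))))))) (XT.nd (nat_lit 1014) (nat_lit 1596) (nat_lit 0) (XT.nd (nat_lit 468) (nat_lit 912) (nat_lit 0) (XT.nd (nat_lit 234) (nat_lit 304) (nat_lit 0) (XT.nd (nat_lit 78) (nat_lit 228) (nat_lit 0) (XT.lf (nat_lit 0) (nat_lit 22861046506) (nat_lit 0) (nat_lit 23201220335) (nat_lit 152) (nat_lit 27587559714) (nat_lit 83) (nat_lit 3)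 (nat_lit 83) (nat_lit 1) (nat_lit 85) (nat_lit 1) (nat_lit 295) (nat_lit 417) (nat_lit 308)) (XT.nd (nat_lit 78) (nat_lit 152) (nat_lit 0) (XT.lf (nat_lit 76) (nat_lit 11400961756) (nat_lit 0) (nat_lit 48672315728) (nat_lit 76) (nat_lit 11715937523) (nat_lit 83) (nat_lit 3) (nat_lit 82) (nat_lit 1) (nat_lit 83) (nat_lit 1) (nat_lit 296) (nat_lit 417) (nat_lit 307)) (XT.lf (nat_lit 0) (nat_lit 25312673807) (nat_lit 0) (nat_lit 25590430216) (nat_lit 152) (nat_lit 19062575506) (nat_lit 80) (nat_lit 3) (nat_lit 80) (nat_lit 1) (nat_lit 82) (nat_lit 1) (nat_lit 297) (nat_lit 417) (nat_lit 306)))) (XT.nd (nat_lit 78) (nat_lit 228) (nat_lit 0) (XT.lf (nat_lit 76) (nat_lit 7345865273) (nat_lit 0) (nat_lit 53252483382) (nat_lit 76) (nat_lit 7603047132) (nat_lit 80) (nat_lit 3) (nat_lit 79) (nat_lit 1) (nat_lit 80) (nat_lit 1) (nat_lit 298) (nat_lit 417) (nat_lit 305)) (XT.nd (nat_lit 78) (nat_lit 76)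 (nat_lit 0) (XT.lf (nat_lit 0) (nat_lit 27451657829) (nat_lit 0) (nat_lit 27678449592) (nat_lit 152) (nat_lit 11336655611) (nat_lit 77) (nat_lit 3) (nat_lit 77) (nat_lit 1) (nat_lit 79) (nat_lit 1) (nat_lit 299) (nat_lit 417) (nat_lit 304)) (XT.lf (nat_lit 76) (nat_lit 3672638173) (nat_lit 0) (nat_lit 57238519328) (nat_lit 76) (nat_lit 3882630547) (nat_lit 77) (nat_lit 3) (nat_lit 76) (nat_lit 1) (nat_lit 77) (nat_lit 1) (nat_lit 300) (nat_lit 417) (nat_lit 303))))) (XT.nd (nat_lit 234) (nat_lit 456) (nat_lit 0) (XT.nd (nat_lit 78) (nat_lit 304) (nat_lit 0) (XT.lf (nat_lit 0) (nat_lit 29303976332) (nat_lit 0) (nat_lit 29489154792) (nat_lit 152) (nat_lit 4350570939) (nat_lit 74) (nat_lit 3) (nat_lit 74) (nat_lit 1) (nat_lit 76) (nat_lit 1) (nat_lit 301) (nat_lit 417) (nat_lit 302)) (XT.nd (nat_lit 78) (nat_lit 228) (nat_lit 0) (XT.lf (nat_lit 76) (nat_lit 353422971) (nat_lit 0) (nat_lit 60678973573)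 (nat_lit 76) (nat_lit 524884508) (nat_lit 74) (nat_lit 3) (nat_lit 73) (nat_lit 1) (nat_lit 74) (nat_lit 1) (nat_lit 302) (nat_lit 417) (nat_lit 301)) (XT.lf (nat_lit 76) (nat_lit 28909663232) (nat_lit 0) (nat_lit 2015501216) (nat_lit 76) (nat_lit 29060863881) (nat_lit 71) (nat_lit 3) (nat_lit 70) (nat_lit 1) (nat_lit 71) (nat_lit 1) (nat_lit 303) (nat_lit 417) (nat_lit 300)))) (XT.nd (nat_lit 156) (nat_lit 228) (nat_lit 0) (XT.nd (nat_lit 78) (nat_lit 76) (nat_lit 0) (XT.lf (nat_lit 0) (nat_lit 2543333489) (nat_lit 0) (nat_lit 2676667395) (nat_lit 152) (nat_lit 53255010109) (nat_lit 68) (nat_lit 3) (nat_lit 68) (nat_lit 1) (nat_lit 70) (nat_lit 1) (nat_lit 304) (nat_lit 417) (nat_lit 299)) (XT.lf (nat_lit 76) (nat_lit 24494405291) (nat_lit 0) (nat_lit 7871609048) (nat_lit 76) (nat_lit 24617862612) (nat_lit 68) (nat_lit 3) (nat_lit 67) (nat_lit 1) (nat_lit 68) (nat_lit 1) (nat_lit 305) (nat_lit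 417) (nat_lit 298))) (XT.nd (nat_lit 78) (nat_lit 76) (nat_lit 0) (XT.lf (nat_lit 0) (nat_lit 5300595615) (nat_lit 0) (nat_lit 5409464505) (nat_lit 152) (nat_lit 44836507878) (nat_lit 65) (nat_lit 3) (nat_lit 65) (nat_lit 1) (nat_lit 67) (nat_lit 1) (nat_lit 306) (nat_lit 417) (nat_lit 297)) (XT.lf (nat_lit 76) (nat_lit 20454116202) (nat_lit 0) (nat_lit 13123671463) (nat_lit 76) (nat_lit 20554920730) (nat_lit 65) (nat_lit 3) (nat_lit 64) (nat_lit 1) (nat_lit 65) (nat_lit 1) (nat_lit 307) (nat_lit 417) (nat_lit 296)))))) (XT.nd (nat_lit 546) (nat_lit 760) (nat_lit 0) (XT.nd (nat_lit 234) (nat_lit 456) (nat_lit 0) (XT.nd (nat_lit 78) (nat_lit 228) (nat_lit 0) (XT.lf (nat_lit 0) (nat_lit 7768106444) (nat_lit 0) (nat_lit 7856999325) (nat_lit 152) (nat_lit 37140391556) (nat_lit 62) (nat_lit 3) (nat_lit 62) (nat_lit 1) (nat_lit 64) (nat_lit 1) (nat_lit 308) (nat_lit 417) (nat_lit 295)) (XT.nd (nat_lit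 78) (nat_lit 152) (nat_lit 0) (XT.lf (nat_lit 76) (nat_lit 16762237192) (nat_lit 0) (nat_lit 17818103028) (nat_lit 76) (nat_lit 16844545416) (nat_lit 62) (nat_lit 3) (nat_lit 61) (nat_lit 1) (nat_lit 62) (nat_lit 1) (nat_lit 309) (nat_lit 417) (nat_lit 294)) (XT.lf (nat_lit 0) (nat_lit 9968484607) (nat_lit 0) (nat_lit 10041066815) (nat_lit 152) (nat_lit 30114788773) (nat_lit 59) (nat_lit 3) (nat_lit 59) (nat_lit 1) (nat_lit 61) (nat_lit 1) (nat_lit 310) (nat_lit 417) (nat_lit 293)))) (XT.nd (nat_lit 156) (nat_lit 228) (nat_lit 0) (XT.nd (nat_lit 78) (nat_lit 152) (nat_lit 0) (XT.lf (nat_lit 76) (nat_lit 13393892117) (nat_lit 0) (nat_lit 21998171274) (nat_lit 76) (nat_lit 13461097865) (nat_lit 59) (nat_lit 3) (nat_lit 58) (nat_lit 1) (nat_lit 59) (nat_lit 1) (nat_lit 311) (nat_lit 417) (nat_lit 292)) (XT.lf (nat_lit 0) (nat_lit 11922762677) (nat_lit 0) (nat_lit 11982027005) (nat_lit 152) (nat_lit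 23711228779) (nat_lit 56) (nat_lit 3) (nat_lit 56) (nat_lit 1) (nat_lit 58) (nat_lit 1) (nat_lit 312) (nat_lit 417) (nat_lit 291))) (XT.nd (nat_lit 78) (nat_lit 152) (nat_lit 0) (XT.lf (nat_lit 76) (nat_lit 10325795242) (nat_lit 0) (nat_lit 25704192353) (nat_lit 76) (nat_lit 10380669620) (nat_lit 56) (nat_lit 3) (nat_lit 55) (nat_lit 1) (nat_lit 56) (nat_lit 1) (nat_lit 313) (nat_lit 417) (nat_lit 290)) (XT.lf (nat_lit 0) (nat_lit 13650495299) (nat_lit 0) (nat_lit 13698885402) (nat_lit 152) (nat_lit 17884434148) (nat_lit 53) (nat_lit 3) (nat_lit 53) (nat_lit 1) (nat_lit 55) (nat_lit 1) (nat_lit 314) (nat_lit 417) (nat_lit 289))))) (XT.nd (nat_lit 234) (nat_lit 456) (nat_lit 0) (XT.nd (nat_lit 78) (nat_lit 228) (nat_lit 0) (XT.lf (nat_lit 76) (nat_lit 7536162095) (nat_lit 0) (nat_lit 28973715874) (nat_lit 76) (nat_lit 7580967747) (nat_lit 53) (nat_lit 3) (nat_lit 52) (nat_lit 1) (nat_lit 53) (nat_lit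 1) (nat_lit 315) (nat_lit 417) (nat_lit 288)) (XT.nd (nat_lit 78) (nat_lit 76) (nat_lit 0) (XT.lf (nat_lit 0) (nat_lit 15169859518) (nat_lit 0) (nat_lit 15209370675) (nat_lit 152) (nat_lit 12592124083) (nat_lit 50) (nat_lit 3) (nat_lit 50) (nat_lit 1) (nat_lit 52) (nat_lit 1) (nat_lit 316) (nat_lit 417) (nat_lit 287)) (XT.lf (nat_lit 76) (nat_lit 5004623678) (nat_lit 0) (nat_lit 31841699340) (nat_lit 76) (nat_lit 5041208082) (nat_lit 50) (nat_lit 3) (nat_lit 49) (nat_lit 1) (nat_lit 50) (nat_lit 1) (nat_lit 317) (nat_lit 417) (nat_lit 286)))) (XT.nd (nat_lit 156) (nat_lit 228) (nat_lit 0) (XT.nd (nat_lit 78) (nat_lit 76) (nat_lit 0) (XT.lf (nat_lit 0) (nat_lit 16497747991) (nat_lit 0) (nat_lit 16530009370) (nat_lit 152) (nat_lit 7794828813) (nat_lit 47) (nat_lit 3) (nat_lit 47) (nat_lit 1) (nat_lit 49) (nat_lit 1) (nat_lit 318) (nat_lit 417) (nat_lit 285)) (XT.lf (nat_lit 76) (nat_lit 2712144231)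 (nat_lit 0) (nat_lit 34340672621) (nat_lit 76) (nat_lit 2742015879) (nat_lit 47) (nat_lit 3) (nat_lit 46) (nat_lit 1) (nat_lit 47) (nat_lit 1) (nat_lit 319) (nat_lit 417) (nat_lit 284))) (XT.nd (nat_lit 78) (nat_lit 76) (nat_lit 0) (XT.lf (nat_lit 0) (nat_lit 17649855657) (nat_lit 0) (nat_lit 17676197498) (nat_lit 152) (nat_lit 3455714608) (nat_lit 44) (nat_lit 3) (nat_lit 44) (nat_lit 1) (nat_lit 46) (nat_lit 1) (nat_lit 320) (nat_lit 417) (nat_lit 283)) (XT.lf (nat_lit 76) (nat_lit 640942642) (nat_lit 0) (nat_lit 36500892893) (nat_lit 76) (nat_lit 665333235) (nat_lit 44) (nat_lit 3) (nat_lit 43) (nat_lit 1) (nat_lit 44) (nat_lit 1) (nat_lit 321) (nat_lit 417) (nat_lit 282))))))))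
noncomputable def ec248 : XT := (XT.nd (nat_lit 2028) (nat_lit 76) (nat_lit 0) (XT.nd (nat_lit 1014) (nat_lit 1596) (nat_lit 0) (XT.nd (nat_lit 468) (nat_lit 760) (nat_lit 0) (XT.nd (nat_lit 234) (nat_lit 380) (nat_lit 0) (XT.nd (nat_lit 78) (nat_lit 228) (nat_lit 0) (XT.lf (nat_lit 76) (nat_lit 18173396103) (nat_lit 0) (nat_lit 474776917) (nat_lit 76) (nat_lit 18194904563) (nat_lit 41) (nat_lit 3) (nat_lit 40) (nat_lit 1) (nat_lit 41) (nat_lit 1) (nat_lit 322) (nat_lit 417) (nat_lit 281)) (XT.nd (nat_lit 78) (nat_lit 76) (nat_lit 0) (XT.lf (nat_lit 0) (nat_lit 1226069661) (nat_lit 0) (nat_lit 1245036557) (nat_lit 152) (nat_lit 33444243855) (nat_lit 38) (nat_lit 3) (nat_lit 38) (nat_lit 1) (nat_lit 40) (nat_lit 1) (nat_lit 323) (nat_lit 417) (nat_lit 280)) (XT.lf (nat_lit 76) (nat_lit 15433437578) (nat_lit 0) (nat_lit 4114804362) (nat_lit 76) (nat_lit 15450999519) (nat_lit 38) (nat_lit 3) (nat_lit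 37) (nat_lit 1) (nat_lit 38) (nat_lit 1) (nat_lit 324) (nat_lit 417) (nat_lit 279)))) (XT.nd (nat_lit 78) (nat_lit 228) (nat_lit 0) (XT.lf (nat_lit 0) (nat_lit 2934505635) (nat_lit 0) (nat_lit 2949992355) (nat_lit 152) (nat_lit 28232256306) (nat_lit 35) (nat_lit 3) (nat_lit 35) (nat_lit 1) (nat_lit 37) (nat_lit 1) (nat_lit 325) (nat_lit 417) (nat_lit 278)) (XT.nd (nat_lit 78) (nat_lit 152) (nat_lit 0) (XT.lf (nat_lit 76) (nat_lit 12926400283) (nat_lit 0) (nat_lit 7380970896) (nat_lit 76) (nat_lit 12940739839) (nat_lit 35) (nat_lit 3) (nat_lit 34) (nat_lit 1) (nat_lit 35) (nat_lit 1) (nat_lit 326) (nat_lit 417) (nat_lit 277)) (XT.lf (nat_lit 0) (nat_lit 4464685378) (nat_lit 0) (nat_lit 4477330489) (nat_lit 152) (nat_lit 23466635175) (nat_lit 32) (nat_lit 3) (nat_lit 32) (nat_lit 1) (nat_lit 34) (nat_lit 1) (nat_lit 327) (nat_lit 417) (nat_lit 276))))) (XT.nd (nat_lit 234) (nat_lit 456) (nat_lit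 0) (XT.nd (nat_lit 78) (nat_lit 228) (nat_lit 0) (XT.lf (nat_lit 76) (nat_lit 10635625915) (nat_lit 0) (nat_lit 10302041667) (nat_lit 76) (nat_lit 10647334351) (nat_lit 32) (nat_lit 3) (nat_lit 31) (nat_lit 1) (nat_lit 32) (nat_lit 1) (nat_lit 328) (nat_lit 417) (nat_lit 275)) (XT.nd (nat_lit 78) (nat_lit 76) (nat_lit 0) (XT.lf (nat_lit 0) (nat_lit 5830425919) (nat_lit 0) (nat_lit 5840750818) (nat_lit 152) (nat_lit 19115287978) (nat_lit 29) (nat_lit 3) (nat_lit 29) (nat_lit 1) (nat_lit 31) (nat_lit 1) (nat_lit 329) (nat_lit 417) (nat_lit 274)) (XT.lf (nat_lit 76) (nat_lit 8545546022) (nat_lit 0) (nat_lit 12904815785) (nat_lit 76) (nat_lit 8555106114) (nat_lit 29) (nat_lit 3) (nat_lit 28) (nat_lit 1) (nat_lit 29) (nat_lit 1) (nat_lit 330) (nat_lit 417) (nat_lit 273)))) (XT.nd (nat_lit 156) (nat_lit 228) (nat_lit 0) (XT.nd (nat_lit 78) (nat_lit 76) (nat_lit 0) (XT.lf (nat_lit 0) (nat_lit 7044590744)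 (nat_lit 0) (nat_lit 7053021161) (nat_lit 152) (nat_lit 15148240473) (nat_lit 26) (nat_lit 3) (nat_lit 26) (nat_lit 1) (nat_lit 28) (nat_lit 1) (nat_lit 331) (nat_lit 417) (nat_lit 272)) (XT.lf (nat_lit 76) (nat_lit 6641615392) (nat_lit 0) (nat_lit 15214251828) (nat_lit 76) (nat_lit 6649421333) (nat_lit 26) (nat_lit 3) (nat_lit 25) (nat_lit 1) (nat_lit 26) (nat_lit 1) (nat_lit 332) (nat_lit 417) (nat_lit 271))) (XT.nd (nat_lit 78) (nat_lit 76) (nat_lit 0) (XT.lf (nat_lit 0) (nat_lit 8119152076) (nat_lit 0) (nat_lit 8126035622) (nat_lit 152) (nat_lit 11537504141) (nat_lit 23) (nat_lit 3) (nat_lit 23) (nat_lit 1) (nat_lit 25) (nat_lit 1) (nat_lit 333) (nat_lit 417) (nat_lit 270)) (XT.lf (nat_lit 76) (nat_lit 4910249143) (nat_lit 0) (nat_lit 17253585758) (nat_lit 76) (nat_lit 4916622797) (nat_lit 23) (nat_lit 3) (nat_lit 22) (nat_lit 1) (nat_lit 23) (nat_lit 1) (nat_lit 334) (nat_lit 417) (nat_lit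 269)))))) (XT.nd (nat_lit 468) (nat_lit 912) (nat_lit 0) (XT.nd (nat_lit 234) (nat_lit 304) (nat_lit 0) (XT.nd (nat_lit 78) (nat_lit 228) (nat_lit 0) (XT.lf (nat_lit 0) (nat_lit 9065249128) (nat_lit 0) (nat_lit 9070869634) (nat_lit 152) (nat_lit 8256951584) (nat_lit 20) (nat_lit 3) (nat_lit 20) (nat_lit 1) (nat_lit 22) (nat_lit 1) (nat_lit 335) (nat_lit 417) (nat_lit 268)) (XT.nd (nat_lit 78) (nat_lit 152) (nat_lit 0) (XT.lf (nat_lit 76) (nat_lit 3338763346) (nat_lit 0) (nat_lit 19044441688) (nat_lit 76) (nat_lit 3343967518) (nat_lit 20) (nat_lit 3) (nat_lit 19) (nat_lit 1) (nat_lit 20) (nat_lit 1) (nat_lit 336) (nat_lit 417) (nat_lit 267)) (XT.lf (nat_lit 0) (nat_lit 9893242625) (nat_lit 0) (nat_lit 9897831842) (nat_lit 152) (nat_lit 5282199405) (nat_lit 17) (nat_lit 3) (nat_lit 17) (nat_lit 1) (nat_lit 19) (nat_lit 1) (nat_lit 337) (nat_lit 417) (nat_lit 266)))) (XT.nd (nat_lit 78) (nat_lit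 228) (nat_lit 0) (XT.lf (nat_lit 76) (nat_lit 1915319043) (nat_lit 0) (nat_lit 20606935895) (nat_lit 76) (nat_lit 1919568318) (nat_lit 17) (nat_lit 3) (nat_lit 16) (nat_lit 1) (nat_lit 17) (nat_lit 1) (nat_lit 338) (nat_lit 417) (nat_lit 265)) (XT.nd (nat_lit 78) (nat_lit 76) (nat_lit 0) (XT.lf (nat_lit 0) (nat_lit 10612765825) (nat_lit 0) (nat_lit 10616512981) (nat_lit 152) (nat_lit 2590498143) (nat_lit 14) (nat_lit 3) (nat_lit 14) (nat_lit 1) (nat_lit 16) (nat_lit 1) (nat_lit 339) (nat_lit 417) (nat_lit 264)) (XT.lf (nat_lit 76) (nat_lit 628869495) (nat_lit 0) (nat_lit 21959774464) (nat_lit 76) (nat_lit 632339083) (nat_lit 14) (nat_lit 3) (nat_lit 13) (nat_lit 1) (nat_lit 14) (nat_lit 1) (nat_lit 340) (nat_lit 417) (nat_lit 263))))) (XT.nd (nat_lit 234) (nat_lit 456) (nat_lit 0) (XT.nd (nat_lit 78) (nat_lit 304) (nat_lit 0) (XT.lf (nat_lit 0) (nat_lit 11232772290) (nat_lit 0) (nat_lit 11235831892)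 (nat_lit 152) (nat_lit 160628861) (nat_lit 11) (nat_lit 3) (nat_lit 11) (nat_lit 1) (nat_lit 13) (nat_lit 1) (nat_lit 341) (nat_lit 417) (nat_lit 262)) (XT.nd (nat_lit 78) (nat_lit 76) (nat_lit 0) (XT.lf (nat_lit 0) (nat_lit 536803878) (nat_lit 0) (nat_lit 539501940) (nat_lit 152) (nat_lit 20983398423) (nat_lit 8) (nat_lit 3) (nat_lit 8) (nat_lit 1) (nat_lit 10) (nat_lit 1) (nat_lit 342) (nat_lit 417) (nat_lit 261)) (XT.lf (nat_lit 76) (nat_lit 9700055094) (nat_lit 0) (nat_lit 2094222179) (nat_lit 76) (nat_lit 9702553299) (nat_lit 8) (nat_lit 3) (nat_lit 7) (nat_lit 1) (nat_lit 8) (nat_lit 1) (nat_lit 343) (nat_lit 417) (nat_lit 260)))) (XT.nd (nat_lit 156) (nat_lit 228) (nat_lit 0) (XT.nd (nat_lit 78) (nat_lit 76) (nat_lit 0) (XT.lf (nat_lit 0) (nat_lit 1597085532) (nat_lit 0) (nat_lit 1599288535) (nat_lit 152) (nat_lit 17758575881) (nat_lit 5) (nat_lit 3) (nat_lit 5) (nat_lit 1) (nat_lit 7)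 (nat_lit 1) (nat_lit 344) (nat_lit 417) (nat_lit 259)) (XT.lf (nat_lit 76) (nat_lit 8147905870) (nat_lit 0) (nat_lit 4123387974) (nat_lit 76) (nat_lit 8149945688) (nat_lit 5) (nat_lit 3) (nat_lit 4) (nat_lit 1) (nat_lit 5) (nat_lit 1) (nat_lit 345) (nat_lit 417) (nat_lit 258))) (XT.nd (nat_lit 78) (nat_lit 76) (nat_lit 0) (XT.lf (nat_lit 0) (nat_lit 2547375304) (nat_lit 0) (nat_lit 2549174085) (nat_lit 152) (nat_lit 14809228727) (nat_lit 2) (nat_lit 3) (nat_lit 2) (nat_lit 1) (nat_lit 4) (nat_lit 1) (nat_lit 346) (nat_lit 417) (nat_lit 257)) (XT.lf (nat_lit 76) (nat_lit 6729367381) (nat_lit 0) (nat_lit 5939312581) (nat_lit 76) (nat_lit 6731032919) (nat_lit 2) (nat_lit 3) (nat_lit 1) (nat_lit 1) (nat_lit 2) (nat_lit 1) (nat_lit 347) (nat_lit 417) (nat_lit 256))))))) (XT.nd (nat_lit 1014) (nat_lit 0) (nat_lit 0) (XT.nd (nat_lit 468) (nat_lit 0) (nat_lit 0) (XT.nd (nat_lit 234) (nat_lit 0) (nat_lit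 0) (XT.nd (nat_lit 78) (nat_lit 0) (nat_lit 0) (XT.lf (nat_lit 0) (nat_lit 402282105045) (nat_lit 0) (nat_lit 0) (nat_lit 0) (nat_lit 0) (nat_lit 0) (nat_lit 0) (nat_lit 1) (nat_lit 0) (nat_lit 1) (nat_lit 0) (nat_lit 348) (nat_lit 417) (nat_lit 255)) (XT.nd (nat_lit 78) (nat_lit 0) (nat_lit 0) (XT.lf (nat_lit 0) (nat_lit 402281990349) (nat_lit 0) (nat_lit 0) (nat_lit 0) (nat_lit 0) (nat_lit 0) (nat_lit 0) (nat_lit 1) (nat_lit 0) (nat_lit 1) (nat_lit 0) (nat_lit 349) (nat_lit 417) (nat_lit 254)) (XT.lf (nat_lit 0) (nat_lit 402281884150) (nat_lit 0) (nat_lit 0) (nat_lit 0) (nat_lit 0) (nat_lit 0) (nat_lit 0) (nat_lit 1) (nat_lit 0) (nat_lit 1) (nat_lit 0) (nat_lit 350) (nat_lit 417) (nat_lit 253)))) (XT.nd (nat_lit 78) (nat_lit 0) (nat_lit 0) (XT.lf (nat_lit 0) (nat_lit 402281785817) (nat_lit 0) (nat_lit 0) (nat_lit 0) (nat_lit 0) (nat_lit 0) (nat_lit 0) (nat_lit 1) (nat_lit 0) (nat_lit 1) (nat_lit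 0) (nat_lit 351) (nat_lit 417) (nat_lit 252)) (XT.nd (nat_lit 78) (nat_lit 0) (nat_lit 0) (XT.lf (nat_lit 0) (nat_lit 402281694768) (nat_lit 0) (nat_lit 0) (nat_lit 0) (nat_lit 0) (nat_lit 0) (nat_lit 0) (nat_lit 1) (nat_lit 0) (nat_lit 1) (nat_lit 0) (nat_lit 352) (nat_lit 417) (nat_lit 251)) (XT.lf (nat_lit 0) (nat_lit 402281610463) (nat_lit 0) (nat_lit 0) (nat_lit 0) (nat_lit 0) (nat_lit 0) (nat_lit 0) (nat_lit 1) (nat_lit 0) (nat_lit 1) (nat_lit 0) (nat_lit 353) (nat_lit 417) (nat_lit 250))))) (XT.nd (nat_lit 234) (nat_lit 0) (nat_lit 0) (XT.nd (nat_lit 78) (nat_lit 0) (nat_lit 0) (XT.lf (nat_lit 0) (nat_lit 402281532403) (nat_lit 0) (nat_lit 0) (nat_lit 0) (nat_lit 0) (nat_lit 0) (nat_lit 0) (nat_lit 1) (nat_lit 0) (nat_lit 1) (nat_lit 0) (nat_lit 354) (nat_lit 417) (nat_lit 249)) (XT.nd (nat_lit 78) (nat_lit 0) (nat_lit 0) (XT.lf (nat_lit 0) (nat_lit 402281460125) (nat_lit 0) (nat_lit 0)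 (nat_lit 0) (nat_lit 0) (nat_lit 0) (nat_lit 0) (nat_lit 1) (nat_lit 0) (nat_lit 1) (nat_lit 0) (nat_lit 355) (nat_lit 417) (nat_lit 248)) (XT.lf (nat_lit 0) (nat_lit 402281393201) (nat_lit 0) (nat_lit 0) (nat_lit 0) (nat_lit 0) (nat_lit 0) (nat_lit 0) (nat_lit 1) (nat_lit 0) (nat_lit 1) (nat_lit 0) (nat_lit 356) (nat_lit 417) (nat_lit 247)))) (XT.nd (nat_lit 156) (nat_lit 0) (nat_lit 0) (XT.nd (nat_lit 78) (nat_lit 0) (nat_lit 0) (XT.lf (nat_lit 0) (nat_lit 402281331235) (nat_lit 0) (nat_lit 0) (nat_lit 0) (nat_lit 0) (nat_lit 0) (nat_lit 0) (nat_lit 1) (nat_lit 0) (nat_lit 1) (nat_lit 0) (nat_lit 357) (nat_lit 417) (nat_lit 246)) (XT.lf (nat_lit 0) (nat_lit 402281273859) (nat_lit 0) (nat_lit 0) (nat_lit 0) (nat_lit 0) (nat_lit 0) (nat_lit 0) (nat_lit 1) (nat_lit 0) (nat_lit 1) (nat_lit 0) (nat_lit 358) (nat_lit 417) (nat_lit 245))) (XT.nd (nat_lit 78) (nat_lit 0) (nat_lit 0) (XT.lf (nat_lit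 0) (nat_lit 402281220732) (nat_lit 0) (nat_lit 0) (nat_lit 0) (nat_lit 0) (nat_lit 0) (nat_lit 0) (nat_lit 1) (nat_lit 0) (nat_lit 1) (nat_lit 0) (nat_lit 359) (nat_lit 417) (nat_lit 244)) (XT.lf (nat_lit 0) (nat_lit 402281171541) (nat_lit 0) (nat_lit 0) (nat_lit 0) (nat_lit 0) (nat_lit 0) (nat_lit 0) (nat_lit 1) (nat_lit 0) (nat_lit 1) (nat_lit 0) (nat_lit 360) (nat_lit 417) (nat_lit 243)))))) (XT.nd (nat_lit 546) (nat_lit 0) (nat_lit 0) (XT.nd (nat_lit 234) (nat_lit 0) (nat_lit 0) (XT.nd (nat_lit 78) (nat_lit 0) (nat_lit 0) (XT.lf (nat_lit 0) (nat_lit 402281125994) (nat_lit 0) (nat_lit 0) (nat_lit 0) (nat_lit 0) (nat_lit 0) (nat_lit 0) (nat_lit 1) (nat_lit 0) (nat_lit 1) (nat_lit 0) (nat_lit 361) (nat_lit 417) (nat_lit 242)) (XT.nd (nat_lit 78) (nat_lit 0) (nat_lit 0) (XT.lf (nat_lit 0) (nat_lit 402281083821) (nat_lit 0) (nat_lit 0) (nat_lit 0) (nat_lit 0) (nat_lit 0) (nat_lit 0) (nat_lit 1)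 (nat_lit 0) (nat_lit 1) (nat_lit 0) (nat_lit 362) (nat_lit 417) (nat_lit 241)) (XT.lf (nat_lit 0) (nat_lit 402281044771) (nat_lit 0) (nat_lit 0) (nat_lit 0) (nat_lit 0) (nat_lit 0) (nat_lit 0) (nat_lit 1) (nat_lit 0) (nat_lit 1) (nat_lit 0) (nat_lit 363) (nat_lit 417) (nat_lit 240)))) (XT.nd (nat_lit 156) (nat_lit 0) (nat_lit 0) (XT.nd (nat_lit 78) (nat_lit 0) (nat_lit 0) (XT.lf (nat_lit 0) (nat_lit 402281008614) (nat_lit 0) (nat_lit 0) (nat_lit 0) (nat_lit 0) (nat_lit 0) (nat_lit 0) (nat_lit 1) (nat_lit 0) (nat_lit 1) (nat_lit 0) (nat_lit 364) (nat_lit 417) (nat_lit 239)) (XT.lf (nat_lit 0) (nat_lit 402280975136) (nat_lit 0) (nat_lit 0) (nat_lit 0) (nat_lit 0) (nat_lit 0) (nat_lit 0) (nat_lit 1) (nat_lit 0) (nat_lit 1) (nat_lit 0) (nat_lit 365) (nat_lit 417) (nat_lit 238))) (XT.nd (nat_lit 78) (nat_lit 0) (nat_lit 0) (XT.lf (nat_lit 0) (nat_lit 402280944137) (nat_lit 0) (nat_lit 0) (nat_lit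 0) (nat_lit 0) (nat_lit 0) (nat_lit 0) (nat_lit 1) (nat_lit 0) (nat_lit 1) (nat_lit 0) (nat_lit 366) (nat_lit 417) (nat_lit 237)) (XT.lf (nat_lit 0) (nat_lit 402280915435) (nat_lit 0) (nat_lit 0) (nat_lit 0) (nat_lit 0) (nat_lit 0) (nat_lit 0) (nat_lit 1) (nat_lit 0) (nat_lit 1) (nat_lit 0) (nat_lit 367) (nat_lit 417) (nat_lit 236))))) (XT.nd (nat_lit 234) (nat_lit 0) (nat_lit 0) (XT.nd (nat_lit 78) (nat_lit 0) (nat_lit 0) (XT.lf (nat_lit 0) (nat_lit 402280888858) (nat_lit 0) (nat_lit 0) (nat_lit 0) (nat_lit 0) (nat_lit 0) (nat_lit 0) (nat_lit 1) (nat_lit 0) (nat_lit 1) (nat_lit 0) (nat_lit 368) (nat_lit 417) (nat_lit 235)) (XT.nd (nat_lit 78) (nat_lit 0) (nat_lit 0) (XT.lf (nat_lit 0) (nat_lit 402280864251) (nat_lit 0) (nat_lit 0) (nat_lit 0) (nat_lit 0) (nat_lit 0) (nat_lit 0) (nat_lit 1) (nat_lit 0) (nat_lit 1) (nat_lit 0) (nat_lit 369) (nat_lit 417) (nat_lit 234)) (XT.lf (nat_lit 0) (nat_lit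 402280841466) (nat_lit 0) (nat_lit 0) (nat_lit 0) (nat_lit 0) (nat_lit 0) (nat_lit 0) (nat_lit 1) (nat_lit 0) (nat_lit 1) (nat_lit 0) (nat_lit 370) (nat_lit 417) (nat_lit 233)))) (XT.nd (nat_lit 156) (nat_lit 0) (nat_lit 0) (XT.nd (nat_lit 78) (nat_lit 0) (nat_lit 0) (XT.lf (nat_lit 0) (nat_lit 402280820369) (nat_lit 0) (nat_lit 0) (nat_lit 0) (nat_lit 0) (nat_lit 0) (nat_lit 0) (nat_lit 1) (nat_lit 0) (nat_lit 1) (nat_lit 0) (nat_lit 371) (nat_lit 417) (nat_lit 232)) (XT.lf (nat_lit 0) (nat_lit 402280800834) (nat_lit 0) (nat_lit 0) (nat_lit 0) (nat_lit 0) (nat_lit 0) (nat_lit 0) (nat_lit 1) (nat_lit 0) (nat_lit 1) (nat_lit 0) (nat_lit 372) (nat_lit 417) (nat_lit 231))) (XT.nd (nat_lit 78) (nat_lit 0) (nat_lit 0) (XT.lf (nat_lit 0) (nat_lit 402280782747) (nat_lit 0) (nat_lit 0) (nat_lit 0) (nat_lit 0) (nat_lit 0) (nat_lit 0) (nat_lit 1) (nat_lit 0) (nat_lit 1) (nat_lit 0) (nat_lit 373) (nat_lit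 417) (nat_lit 230)) (XT.lf (nat_lit 0) (nat_lit 402280765999) (nat_lit 0) (nat_lit 0) (nat_lit 0) (nat_lit 0) (nat_lit 0) (nat_lit 0) (nat_lit 1) (nat_lit 0) (nat_lit 1) (nat_lit 0) (nat_lit 374) (nat_lit 417) (nat_lit 229))))))))
noncomputable def ec249 : XT := (XT.nd (nat_lit 42354) (nat_lit 0) (nat_lit 9880) (XT.nd (nat_lit 1014) (nat_lit 0) (nat_lit 0) (XT.nd (nat_lit 468) (nat_lit 0) (nat_lit 0) (XT.nd (nat_lit 234) (nat_lit 0) (nat_lit 0) (XT.nd (nat_lit 78) (nat_lit 0) (nat_lit 0) (XT.lf (nat_lit 0) (nat_lit 402280750492) (nat_lit 0) (nat_lit 0) (nat_lit 0) (nat_lit 0) (nat_lit 0) (nat_lit 0) (nat_lit 1) (nat_lit 0) (nat_lit 1) (nat_lit 0) (nat_lit 375) (nat_lit 417) (nat_lit 228)) (XT.nd (nat_lit 78) (nat_lit 0) (nat_lit 0) (XT.lf (nat_lit 0) (nat_lit 402280736134) (nat_lit 0) (nat_lit 0) (nat_lit 0) (nat_lit 0) (nat_lit 0) (nat_lit 0) (nat_lit 1) (nat_lit 0) (nat_lit 1) (nat_lit 0) (nat_lit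 376) (nat_lit 417) (nat_lit 227)) (XT.lf (nat_lit 0) (nat_lit 402280722839) (nat_lit 0) (nat_lit 0) (nat_lit 0) (nat_lit 0) (nat_lit 0) (nat_lit 0) (nat_lit 1) (nat_lit 0) (nat_lit 1) (nat_lit 0) (nat_lit 377) (nat_lit 417) (nat_lit 226)))) (XT.nd (nat_lit 78) (nat_lit 0) (nat_lit 0) (XT.lf (nat_lit 0) (nat_lit 402280710529) (nat_lit 0) (nat_lit 0) (nat_lit 0) (nat_lit 0) (nat_lit 0) (nat_lit 0) (nat_lit 1) (nat_lit 0) (nat_lit 1) (nat_lit 0) (nat_lit 378) (nat_lit 417) (nat_lit 225)) (XT.nd (nat_lit 78) (nat_lit 0) (nat_lit 0) (XT.lf (nat_lit 0) (nat_lit 402280699131) (nat_lit 0) (nat_lit 0) (nat_lit 0) (nat_lit 0) (nat_lit 0) (nat_lit 0) (nat_lit 1) (nat_lit 0) (nat_lit 1) (nat_lit 0) (nat_lit 379) (nat_lit 417) (nat_lit 224)) (XT.lf (nat_lit 0) (nat_lit 402280688577) (nat_lit 0) (nat_lit 0) (nat_lit 0) (nat_lit 0) (nat_lit 0) (nat_lit 0) (nat_lit 1) (nat_lit 0) (nat_lit 1) (nat_lit 0) (nat_lit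 380) (nat_lit 417) (nat_lit 223))))) (XT.nd (nat_lit 234) (nat_lit 0) (nat_lit 0) (XT.nd (nat_lit 78) (nat_lit 0) (nat_lit 0) (XT.lf (nat_lit 0) (nat_lit 402280678805) (nat_lit 0) (nat_lit 0) (nat_lit 0) (nat_lit 0) (nat_lit 0) (nat_lit 0) (nat_lit 1) (nat_lit 0) (nat_lit 1) (nat_lit 0) (nat_lit 381) (nat_lit 417) (nat_lit 222)) (XT.nd (nat_lit 78) (nat_lit 0) (nat_lit 0) (XT.lf (nat_lit 0) (nat_lit 402280669757) (nat_lit 0) (nat_lit 0) (nat_lit 0) (nat_lit 0) (nat_lit 0) (nat_lit 0) (nat_lit 1) (nat_lit 0) (nat_lit 1) (nat_lit 0) (nat_lit 382) (nat_lit 417) (nat_lit 221)) (XT.lf (nat_lit 0) (nat_lit 402280661379) (nat_lit 0) (nat_lit 0) (nat_lit 0) (nat_lit 0) (nat_lit 0) (nat_lit 0) (nat_lit 1) (nat_lit 0) (nat_lit 1) (nat_lit 0) (nat_lit 383) (nat_lit 417) (nat_lit 220)))) (XT.nd (nat_lit 156) (nat_lit 0) (nat_lit 0) (XT.nd (nat_lit 78) (nat_lit 0) (nat_lit 0) (XT.lf (nat_lit 0) (nat_lit 402280653621)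 (nat_lit 0) (nat_lit 0) (nat_lit 0) (nat_lit 0) (nat_lit 0) (nat_lit 0) (nat_lit 1) (nat_lit 0) (nat_lit 1) (nat_lit 0) (nat_lit 384) (nat_lit 417) (nat_lit 219)) (XT.lf (nat_lit 0) (nat_lit 402280646438) (nat_lit 0) (nat_lit 0) (nat_lit 0) (nat_lit 0) (nat_lit 0) (nat_lit 0) (nat_lit 1) (nat_lit 0) (nat_lit 1) (nat_lit 0) (nat_lit 385) (nat_lit 417) (nat_lit 218))) (XT.nd (nat_lit 78) (nat_lit 0) (nat_lit 0) (XT.lf (nat_lit 0) (nat_lit 402280639788) (nat_lit 0) (nat_lit 0) (nat_lit 0) (nat_lit 0) (nat_lit 0) (nat_lit 0) (nat_lit 1) (nat_lit 0) (nat_lit 1) (nat_lit 0) (nat_lit 386) (nat_lit 417) (nat_lit 217)) (XT.lf (nat_lit 0) (nat_lit 402280633630) (nat_lit 0) (nat_lit 0) (nat_lit 0) (nat_lit 0) (nat_lit 0) (nat_lit 0) (nat_lit 1) (nat_lit 0) (nat_lit 1) (nat_lit 0) (nat_lit 387) (nat_lit 417) (nat_lit 216)))))) (XT.nd (nat_lit 40794) (nat_lit 0) (nat_lit 13148) (XT.nd (nat_lit 40482) (nat_lit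 0) (nat_lit 13908) (XT.nd (nat_lit 78) (nat_lit 0) (nat_lit 0) (XT.lf (nat_lit 0) (nat_lit 402280627928) (nat_lit 0) (nat_lit 0) (nat_lit 0) (nat_lit 0) (nat_lit 0) (nat_lit 0) (nat_lit 1) (nat_lit 0) (nat_lit 1) (nat_lit 0) (nat_lit 388) (nat_lit 417) (nat_lit 215)) (XT.nd (nat_lit 40326) (nat_lit 0) (nat_lit 14364) (XT.lf (nat_lit 0) (nat_lit 402280622648) (nat_lit 0) (nat_lit 0) (nat_lit 0) (nat_lit 0) (nat_lit 0) (nat_lit 0) (nat_lit 1) (nat_lit 0) (nat_lit 1) (nat_lit 0) (nat_lit 389) (nat_lit 417) (nat_lit 214)) (XT.lf (nat_lit 76) (nat_lit 125600580150) (nat_lit 0) (nat_lit 59846429086) (nat_lit 152) (nat_lit 276114492739) (nat_lit 190) (nat_lit 1) (nat_lit 189) (nat_lit 1) (nat_lit 191) (nat_lit 1) (nat_lit 225) (nat_lit 418) (nat_lit 377)))) (XT.nd (nat_lit 156) (nat_lit 228) (nat_lit 0) (XT.nd (nat_lit 78) (nat_lit 152) (nat_lit 0) (XT.lf (nat_lit 152) (nat_lit 174533655543) (nat_lit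 0) (nat_lit 194224479878) (nat_lit 76) (nat_lit 80645488792) (nat_lit 190) (nat_lit 1) (nat_lit 188) (nat_lit 1) (nat_lit 189) (nat_lit 1) (nat_lit 226) (nat_lit 418) (nat_lit 376)) (XT.lf (nat_lit 76) (nat_lit 158873055763) (nat_lit 0) (nat_lit 44646216453) (nat_lit 152) (nat_lit 234100437837) (nat_lit 187) (nat_lit 1) (nat_lit 186) (nat_lit 1) (nat_lit 188) (nat_lit 1) (nat_lit 227) (nat_lit 418) (nat_lit 375))) (XT.nd (nat_lit 78) (nat_lit 152) (nat_lit 0) (XT.lf (nat_lit 152) (nat_lit 175388135130) (nat_lit 0) (nat_lit 212586970713) (nat_lit 76) (nat_lit 38189501705) (nat_lit 187) (nat_lit 1) (nat_lit 185) (nat_lit 1) (nat_lit 186) (nat_lit 1) (nat_lit 228) (nat_lit 418) (nat_lit 374)) (XT.lf (nat_lit 76) (nat_lit 186233106769) (nat_lit 0) (nat_lit 35310427569) (nat_lit 152) (nat_lit 193490870172) (nat_lit 184) (nat_lit 1) (nat_lit 183) (nat_lit 1) (nat_lit 185) (nat_lit 1) (nat_lit 229)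 (nat_lit 418) (nat_lit 373))))) (XT.nd (nat_lit 234) (nat_lit 456) (nat_lit 0) (XT.nd (nat_lit 78) (nat_lit 228) (nat_lit 0) (XT.lf (nat_lit 152) (nat_lit 171633129211) (nat_lit 0) (nat_lit 230645329923) (nat_lit 76) (nat_lit 1953677758) (nat_lit 184) (nat_lit 1) (nat_lit 182) (nat_lit 1) (nat_lit 183) (nat_lit 1) (nat_lit 230) (nat_lit 418) (nat_lit 372)) (XT.nd (nat_lit 78) (nat_lit 76) (nat_lit 0) (XT.lf (nat_lit 76) (nat_lit 208598937184) (nat_lit 0) (nat_lit 30459096070) (nat_lit 152) (nat_lit 154651124504) (nat_lit 181) (nat_lit 1) (nat_lit 180) (nat_lit 1) (nat_lit 182) (nat_lit 1) (nat_lit 231) (nat_lit 418) (nat_lit 371)) (XT.lf (nat_lit 0) (nat_lit 28043145673) (nat_lit 0) (nat_lit 219482538486) (nat_lit 152) (nat_lit 135966543908) (nat_lit 179) (nat_lit 3) (nat_lit 179) (nat_lit 1) (nat_lit 181) (nat_lit 1) (nat_lit 232) (nat_lit 418) (nat_lit 370)))) (XT.nd (nat_lit 156) (nat_lit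 228) (nat_lit 0) (XT.nd (nat_lit 78) (nat_lit 76) (nat_lit 0) (XT.lf (nat_lit 76) (nat_lit 226736835392) (nat_lit 0) (nat_lit 28988560818) (nat_lit 152) (nat_lit 117832147370) (nat_lit 178) (nat_lit 1) (nat_lit 177) (nat_lit 1) (nat_lit 179) (nat_lit 1) (nat_lit 233) (nat_lit 418) (nat_lit 369)) (XT.lf (nat_lit 0) (nat_lit 53572782914) (nat_lit 0) (nat_lit 209885566908) (nat_lit 152) (nat_lit 100429092318) (nat_lit 176) (nat_lit 3) (nat_lit 176) (nat_lit 1) (nat_lit 178) (nat_lit 1) (nat_lit 234) (nat_lit 418) (nat_lit 368))) (XT.nd (nat_lit 78) (nat_lit 76) (nat_lit 0) (XT.lf (nat_lit 76) (nat_lit 241287787338) (nat_lit 0) (nat_lit 30019194925) (nat_lit 152) (nat_lit 83194709655) (nat_lit 175) (nat_lit 1) (nat_lit 174) (nat_lit 1) (nat_lit 176) (nat_lit 1) (nat_lit 235) (nat_lit 418) (nat_lit 367)) (XT.lf (nat_lit 0) (nat_lit 75317370718) (nat_lit 0) (nat_lit 202948816268) (nat_lit 152) (nat_lit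 67078498084) (nat_lit 173) (nat_lit 3) (nat_lit 173) (nat_lit 1) (nat_lit 175) (nat_lit 1) (nat_lit 236) (nat_lit 418) (nat_lit 366))))))) (XT.nd (nat_lit 1014) (nat_lit 1672) (nat_lit 0) (XT.nd (nat_lit 468) (nat_lit 836) (nat_lit 0) (XT.nd (nat_lit 234) (nat_lit 380) (nat_lit 0) (XT.nd (nat_lit 78) (nat_lit 228) (nat_lit 0) (XT.lf (nat_lit 76) (nat_lit 252789292505) (nat_lit 0) (nat_lit 32852826591) (nat_lit 152) (nat_lit 50828969884) (nat_lit 172) (nat_lit 1) (nat_lit 171) (nat_lit 1) (nat_lit 173) (nat_lit 1) (nat_lit 237) (nat_lit 418) (nat_lit 365)) (XT.nd (nat_lit 78) (nat_lit 152) (nat_lit 0) (XT.lf (nat_lit 0) (nat_lit 93799300333) (nat_lit 0) (nat_lit 198012055534) (nat_lit 152) (nat_lit 35984920645) (nat_lit 170) (nat_lit 3) (nat_lit 170) (nat_lit 1) (nat_lit 172) (nat_lit 1) (nat_lit 238) (nat_lit 418) (nat_lit 364)) (XT.lf (nat_lit 76) (nat_lit 261693257384) (nat_lit 0) (nat_lit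 36938067215) (nat_lit 152) (nat_lit 20770254060) (nat_lit 169) (nat_lit 1) (nat_lit 168) (nat_lit 1) (nat_lit 170) (nat_lit 1) (nat_lit 239) (nat_lit 418) (nat_lit 363)))) (XT.nd (nat_lit 78) (nat_lit 304) (nat_lit 0) (XT.lf (nat_lit 0) (nat_lit 109460390168) (nat_lit 0) (nat_lit 194551476458) (nat_lit 152) (nat_lit 7168677226) (nat_lit 167) (nat_lit 3) (nat_lit 167) (nat_lit 1) (nat_lit 169) (nat_lit 1) (nat_lit 240) (nat_lit 418) (nat_lit 362)) (XT.nd (nat_lit 78) (nat_lit 76) (nat_lit 0) (XT.lf (nat_lit 152) (nat_lit 261274089993) (nat_lit 0) (nat_lit 7219304600) (nat_lit 76) (nat_lit 34735499039) (nat_lit 166) (nat_lit 1) (nat_lit 164) (nat_lit 1) (nat_lit 165) (nat_lit 1) (nat_lit 241) (nat_lit 418) (nat_lit 361)) (XT.lf (nat_lit 76) (nat_lit 102959152256) (nat_lit 0) (nat_lit 20029112555) (nat_lit 76) (nat_lit 172437144197) (nat_lit 164) (nat_lit 3) (nat_lit 163) (nat_lit 1) (nat_lit 164)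 (nat_lit 1) (nat_lit 242) (nat_lit 418) (nat_lit 360))))) (XT.nd (nat_lit 234) (nat_lit 456) (nat_lit 0) (XT.nd (nat_lit 78) (nat_lit 228) (nat_lit 0) (XT.lf (nat_lit 152) (nat_lit 240138312603) (nat_lit 0) (nat_lit 33559359378) (nat_lit 76) (nat_lit 14192266669) (nat_lit 163) (nat_lit 1) (nat_lit 161) (nat_lit 1) (nat_lit 162) (nat_lit 1) (nat_lit 243) (nat_lit 418) (nat_lit 359)) (XT.nd (nat_lit 78) (nat_lit 152) (nat_lit 0) (XT.lf (nat_lit 76) (nat_lit 89291562583) (nat_lit 0) (nat_lit 45177826885) (nat_lit 76) (nat_lit 146021257486) (nat_lit 161) (nat_lit 3) (nat_lit 160) (nat_lit 1) (nat_lit 161) (nat_lit 1) (nat_lit 244) (nat_lit 418) (nat_lit 358)) (XT.lf (nat_lit 0) (nat_lit 3768848472) (nat_lit 0) (nat_lit 53795034453) (nat_lit 152) (nat_lit 215784928392) (nat_lit 158) (nat_lit 3) (nat_lit 158) (nat_lit 1) (nat_lit 160) (nat_lit 1) (nat_lit 245) (nat_lit 418) (nat_lit 357)))) (XT.nd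 (nat_lit 156) (nat_lit 228) (nat_lit 0) (XT.nd (nat_lit 78) (nat_lit 152) (nat_lit 0) (XT.lf (nat_lit 76) (nat_lit 75951556462) (nat_lit 0) (nat_lit 68110495637) (nat_lit 76) (nat_lit 122272099037) (nat_lit 158) (nat_lit 3) (nat_lit 157) (nat_lit 1) (nat_lit 158) (nat_lit 1) (nat_lit 246) (nat_lit 418) (nat_lit 356)) (XT.lf (nat_lit 0) (nat_lit 19167536801) (nat_lit 0) (nat_lit 60014576108) (nat_lit 152) (nat_lit 180371180479) (nat_lit 155) (nat_lit 3) (nat_lit 155) (nat_lit 1) (nat_lit 157) (nat_lit 1) (nat_lit 247) (nat_lit 418) (nat_lit 355))) (XT.nd (nat_lit 78) (nat_lit 152) (nat_lit 0) (XT.lf (nat_lit 76) (nat_lit 63088661343) (nat_lit 0) (nat_lit 88912935031) (nat_lit 76) (nat_lit 100909994036) (nat_lit 155) (nat_lit 3) (nat_lit 154) (nat_lit 1) (nat_lit 155) (nat_lit 1) (nat_lit 248) (nat_lit 418) (nat_lit 354)) (XT.lf (nat_lit 0) (nat_lit 32692705929) (nat_lit 0) (nat_lit 66044851161)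 (nat_lit 152) (nat_lit 147734160212) (nat_lit 152) (nat_lit 3) (nat_lit 152) (nat_lit 1) (nat_lit 154) (nat_lit 1) (nat_lit 249) (nat_lit 418) (nat_lit 353)))))) (XT.nd (nat_lit 546) (nat_lit 912) (nat_lit 0) (XT.nd (nat_lit 234) (nat_lit 456) (nat_lit 0) (XT.nd (nat_lit 78) (nat_lit 228) (nat_lit 0) (XT.lf (nat_lit 76) (nat_lit 50809188856) (nat_lit 0) (nat_lit 107681809037) (nat_lit 76) (nat_lit 81690804811) (nat_lit 152) (nat_lit 3) (nat_lit 151) (nat_lit 1) (nat_lit 152) (nat_lit 1) (nat_lit 250) (nat_lit 418) (nat_lit 352)) (XT.nd (nat_lit 78) (nat_lit 76) (nat_lit 0) (XT.lf (nat_lit 0) (nat_lit 44548665204) (nat_lit 0) (nat_lit 71781130772) (nat_lit 152) (nat_lit 117734535143) (nat_lit 149) (nat_lit 3) (nat_lit 149) (nat_lit 1) (nat_lit 151) (nat_lit 1) (nat_lit 251) (nat_lit 418) (nat_lit 351)) (XT.lf (nat_lit 76) (nat_lit 39185233322) (nat_lit 0) (nat_lit 124520752545) (nat_lit 76) (nat_lit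 64400479219) (nat_lit 149) (nat_lit 3) (nat_lit 148) (nat_lit 1) (nat_lit 149) (nat_lit 1) (nat_lit 252) (nat_lit 418) (nat_lit 350)))) (XT.nd (nat_lit 156) (nat_lit 228) (nat_lit 0) (XT.nd (nat_lit 78) (nat_lit 76) (nat_lit 0) (XT.lf (nat_lit 0) (nat_lit 54914033308) (nat_lit 0) (nat_lit 77149699884) (nat_lit 152) (nat_lit 90230340742) (nat_lit 146) (nat_lit 3) (nat_lit 146) (nat_lit 1) (nat_lit 148) (nat_lit 1) (nat_lit 253) (nat_lit 418) (nat_lit 349)) (XT.lf (nat_lit 76) (nat_lit 28261950861) (nat_lit 0) (nat_lit 139537329687) (nat_lit 76) (nat_lit 48850531024) (nat_lit 146) (nat_lit 3) (nat_lit 145) (nat_lit 1) (nat_lit 146) (nat_lit 1) (nat_lit 254) (nat_lit 418) (nat_lit 348))) (XT.nd (nat_lit 78) (nat_lit 76) (nat_lit 0) (XT.lf (nat_lit 0) (nat_lit 63945607884) (nat_lit 0) (nat_lit 82101322314) (nat_lit 152) (nat_lit 65079385217) (nat_lit 143) (nat_lit 3) (nat_lit 143) (nat_lit 1) (nat_lit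 145) (nat_lit 1) (nat_lit 255) (nat_lit 418) (nat_lit 347)) (XT.lf (nat_lit 76) (nat_lit 18063438782) (nat_lit 0) (nat_lit 152840666297) (nat_lit 76) (nat_lit 34874285476) (nat_lit 143) (nat_lit 3) (nat_lit 142) (nat_lit 1) (nat_lit 143) (nat_lit 1) (nat_lit 256) (nat_lit 418) (nat_lit 346))))) (XT.nd (nat_lit 234) (nat_lit 532) (nat_lit 0) (XT.nd (nat_lit 78) (nat_lit 228) (nat_lit 0) (XT.lf (nat_lit 0) (nat_lit 71781580802) (nat_lit 0) (nat_lit 86605960603) (nat_lit 152) (nat_lit 42141089849) (nat_lit 140) (nat_lit 3) (nat_lit 140) (nat_lit 1) (nat_lit 142) (nat_lit 1) (nat_lit 257) (nat_lit 418) (nat_lit 345)) (XT.nd (nat_lit 78) (nat_lit 152) (nat_lit 0) (XT.lf (nat_lit 76) (nat_lit 8597476035) (nat_lit 0) (nat_lit 164539625552) (nat_lit 76) (nat_lit 22323753628) (nat_lit 140) (nat_lit 3) (nat_lit 139) (nat_lit 1) (nat_lit 140) (nat_lit 1) (nat_lit 258) (nat_lit 418) (nat_lit 344)) (XT.lf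 (nat_lit 0) (nat_lit 78544215656) (nat_lit 0) (nat_lit 90648516884) (nat_lit 152) (nat_lit 21277876005) (nat_lit 137) (nat_lit 3) (nat_lit 137) (nat_lit 1) (nat_lit 139) (nat_lit 1) (nat_lit 259) (nat_lit 418) (nat_lit 343)))) (XT.nd (nat_lit 156) (nat_lit 304) (nat_lit 0) (XT.nd (nat_lit 78) (nat_lit 76) (nat_lit 0) (XT.lf (nat_lit 76) (nat_lit 174602953828) (nat_lit 0) (nat_lit 136160489) (nat_lit 152) (nat_lit 10928557319) (nat_lit 136) (nat_lit 1) (nat_lit 135) (nat_lit 1) (nat_lit 137) (nat_lit 1) (nat_lit 260) (nat_lit 418) (nat_lit 342)) (XT.lf (nat_lit 0) (nat_lit 84342082865) (nat_lit 0) (nat_lit 94225404137) (nat_lit 152) (nat_lit 2356189167) (nat_lit 134) (nat_lit 3) (nat_lit 134) (nat_lit 1) (nat_lit 136) (nat_lit 1) (nat_lit 261) (nat_lit 418) (nat_lit 341))) (XT.nd (nat_lit 78) (nat_lit 76) (nat_lit 0) (XT.lf (nat_lit 152) (nat_lit 168341903428) (nat_lit 0) (nat_lit 7284742959)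 (nat_lit 76) (nat_lit 732801606) (nat_lit 133) (nat_lit 1) (nat_lit 131) (nat_lit 1) (nat_lit 132) (nat_lit 1) (nat_lit 262) (nat_lit 418) (nat_lit 340)) (XT.lf (nat_lit 76) (nat_lit 74269318529) (nat_lit 0) (nat_lit 15240559799) (nat_lit 76) (nat_lit 82339180434) (nat_lit 131) (nat_lit 3) (nat_lit 130) (nat_lit 1) (nat_lit 131) (nat_lit 1) (nat_lit 263) (nat_lit 418) (nat_lit 339))))))))
noncomputable def ec250 : XT := (XT.nd (nat_lit 2028) (nat_lit 3192) (nat_lit 0) (XT.nd (nat_lit 1014) (nat_lit 1596) (nat_lit 0) (XT.nd (nat_lit 468) (nat_lit 836) (nat_lit 0) (XT.nd (nat_lit 234) (nat_lit 304) (nat_lit 0) (XT.nd (nat_lit 78) (nat_lit 228) (nat_lit 0) (XT.lf (nat_lit 0) (nat_lit 8395748990) (nat_lit 0) (nat_lit 15512029330) (nat_lit 152) (nat_lit 143600579638) (nat_lit 128) (nat_lit 3) (nat_lit 128) (nat_lit 1) (nat_lit 130) (nat_lit 1) (nat_lit 264) (nat_lit 418) (nat_lit 338)) (XT.nd (nat_lit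 78) (nat_lit 152) (nat_lit 0) (XT.lf (nat_lit 76) (nat_lit 62736743287) (nat_lit 0) (nat_lit 31170164958) (nat_lit 76) (nat_lit 69325891750) (nat_lit 128) (nat_lit 3) (nat_lit 127) (nat_lit 1) (nat_lit 128) (nat_lit 1) (nat_lit 265) (nat_lit 418) (nat_lit 337)) (XT.lf (nat_lit 0) (nat_lit 16520338380) (nat_lit 0) (nat_lit 22330874943) (nat_lit 152) (nat_lit 120254336812) (nat_lit 125) (nat_lit 3) (nat_lit 125) (nat_lit 1) (nat_lit 127) (nat_lit 1) (nat_lit 266) (nat_lit 418) (nat_lit 336)))) (XT.nd (nat_lit 78) (nat_lit 228) (nat_lit 0) (XT.lf (nat_lit 76) (nat_lit 52098070039) (nat_lit 0) (nat_lit 45476568597) (nat_lit 76) (nat_lit 57478196486) (nat_lit 125) (nat_lit 3) (nat_lit 124) (nat_lit 1) (nat_lit 125) (nat_lit 1) (nat_lit 267) (nat_lit 418) (nat_lit 335)) (XT.nd (nat_lit 78) (nat_lit 76) (nat_lit 0) (XT.lf (nat_lit 0) (nat_lit 23750243169) (nat_lit 0) (nat_lit 28494622752) (nat_lit 152)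 (nat_lit 98883400068) (nat_lit 122) (nat_lit 3) (nat_lit 122) (nat_lit 1) (nat_lit 124) (nat_lit 1) (nat_lit 268) (nat_lit 418) (nat_lit 334)) (XT.lf (nat_lit 76) (nat_lit 42308968787) (nat_lit 0) (nat_lit 58275664833) (nat_lit 76) (nat_lit 46701912846) (nat_lit 122) (nat_lit 3) (nat_lit 121) (nat_lit 1) (nat_lit 122) (nat_lit 1) (nat_lit 269) (nat_lit 418) (nat_lit 333))))) (XT.nd (nat_lit 234) (nat_lit 456) (nat_lit 0) (XT.nd (nat_lit 78) (nat_lit 228) (nat_lit 0) (XT.lf (nat_lit 0) (nat_lit 30163372868) (nat_lit 0) (nat_lit 34037221244) (nat_lit 152) (nat_lit 79353883099) (nat_lit 119) (nat_lit 3) (nat_lit 119) (nat_lit 1) (nat_lit 121) (nat_lit 1) (nat_lit 270) (nat_lit 418) (nat_lit 332)) (XT.nd (nat_lit 78) (nat_lit 152) (nat_lit 0) (XT.lf (nat_lit 76) (nat_lit 33324175326) (nat_lit 0) (nat_lit 69677323611) (nat_lit 76) (nat_lit 36911071971) (nat_lit 119) (nat_lit 3) (nat_lit 118) (nat_lit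 1) (nat_lit 119) (nat_lit 1) (nat_lit 271) (nat_lit 418) (nat_lit 331)) (XT.lf (nat_lit 0) (nat_lit 35830619214) (nat_lit 0) (nat_lit 38993667402) (nat_lit 152) (nat_lit 61539083237) (nat_lit 116) (nat_lit 3) (nat_lit 116) (nat_lit 1) (nat_lit 118) (nat_lit 1) (nat_lit 272) (nat_lit 418) (nat_lit 330)))) (XT.nd (nat_lit 156) (nat_lit 228) (nat_lit 0) (XT.nd (nat_lit 78) (nat_lit 152) (nat_lit 0) (XT.lf (nat_lit 76) (nat_lit 25098279022) (nat_lit 0) (nat_lit 79785409997) (nat_lit 76) (nat_lit 28027027344) (nat_lit 116) (nat_lit 3) (nat_lit 115) (nat_lit 1) (nat_lit 116) (nat_lit 1) (nat_lit 273) (nat_lit 418) (nat_lit 329)) (XT.lf (nat_lit 0) (nat_lit 40816623606) (nat_lit 0) (nat_lit 43399294083) (nat_lit 152) (nat_lit 45319347144) (nat_lit 113) (nat_lit 3) (nat_lit 113) (nat_lit 1) (nat_lit 115) (nat_lit 1) (nat_lit 274) (nat_lit 418) (nat_lit 328))) (XT.nd (nat_lit 78) (nat_lit 152) (nat_lit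 0) (XT.lf (nat_lit 76) (nat_lit 17586326591) (nat_lit 0) (nat_lit 88697871379) (nat_lit 76) (nat_lit 19977688144) (nat_lit 113) (nat_lit 3) (nat_lit 112) (nat_lit 1) (nat_lit 113) (nat_lit 1) (nat_lit 275) (nat_lit 418) (nat_lit 327)) (XT.lf (nat_lit 0) (nat_lit 45180438012) (nat_lit 0) (nat_lit 47289222450) (nat_lit 152) (nat_lit 30581885269) (nat_lit 110) (nat_lit 3) (nat_lit 110) (nat_lit 1) (nat_lit 112) (nat_lit 1) (nat_lit 276) (nat_lit 418) (nat_lit 326)))))) (XT.nd (nat_lit 468) (nat_lit 836) (nat_lit 0) (XT.nd (nat_lit 234) (nat_lit 456) (nat_lit 0) (XT.nd (nat_lit 78) (nat_lit 228) (nat_lit 0) (XT.lf (nat_lit 76) (nat_lit 10744278057) (nat_lit 0) (nat_lit 96506875648) (nat_lit 76) (nat_lit 12696856241) (nat_lit 110) (nat_lit 3) (nat_lit 109) (nat_lit 1) (nat_lit 110) (nat_lit 1) (nat_lit 277) (nat_lit 418) (nat_lit 325)) (XT.nd (nat_lit 78) (nat_lit 76) (nat_lit 0) (XT.lf (nat_lit 0)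 (nat_lit 48976096747) (nat_lit 0) (nat_lit 50697946997) (nat_lit 152) (nat_lit 17220549162) (nat_lit 107) (nat_lit 3) (nat_lit 107) (nat_lit 1) (nat_lit 109) (nat_lit 1) (nat_lit 278) (nat_lit 418) (nat_lit 324)) (XT.lf (nat_lit 76) (nat_lit 4529344312) (nat_lit 0) (nat_lit 103298986777) (nat_lit 76) (nat_lit 6123650100) (nat_lit 107) (nat_lit 3) (nat_lit 106) (nat_lit 1) (nat_lit 107) (nat_lit 1) (nat_lit 279) (nat_lit 418) (nat_lit 323)))) (XT.nd (nat_lit 78) (nat_lit 304) (nat_lit 0) (XT.lf (nat_lit 0) (nat_lit 52253113447) (nat_lit 0) (nat_lit 53659026839) (nat_lit 152) (nat_lit 5135582846) (nat_lit 104) (nat_lit 3) (nat_lit 104) (nat_lit 1) (nat_lit 106) (nat_lit 1) (nat_lit 280) (nat_lit 418) (nat_lit 322)) (XT.nd (nat_lit 78) (nat_lit 76) (nat_lit 0) (XT.lf (nat_lit 152) (nat_lit 107177256724) (nat_lit 0) (nat_lit 909714096) (nat_lit 76) (nat_lit 169059443) (nat_lit 103) (nat_lit 1) (nat_lit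 101) (nat_lit 1) (nat_lit 102) (nat_lit 1) (nat_lit 281) (nat_lit 418) (nat_lit 321)) (XT.lf (nat_lit 76) (nat_lit 49192611324) (nat_lit 0) (nat_lit 5957314104) (nat_lit 76) (nat_lit 50340558114) (nat_lit 101) (nat_lit 3) (nat_lit 100) (nat_lit 1) (nat_lit 101) (nat_lit 1) (nat_lit 282) (nat_lit 418) (nat_lit 320))))) (XT.nd (nat_lit 234) (nat_lit 456) (nat_lit 0) (XT.nd (nat_lit 78) (nat_lit 228) (nat_lit 0) (XT.lf (nat_lit 0) (nat_lit 5237734978) (nat_lit 0) (nat_lit 6250033735) (nat_lit 152) (nat_lit 91343658645) (nat_lit 98) (nat_lit 3) (nat_lit 98) (nat_lit 1) (nat_lit 100) (nat_lit 1) (nat_lit 283) (nat_lit 418) (nat_lit 319)) (XT.nd (nat_lit 78) (nat_lit 152) (nat_lit 0) (XT.lf (nat_lit 76) (nat_lit 41591565035) (nat_lit 0) (nat_lit 16088849639) (nat_lit 76) (nat_lit 42528878699) (nat_lit 98) (nat_lit 3) (nat_lit 97) (nat_lit 1) (nat_lit 98) (nat_lit 1) (nat_lit 284) (nat_lit 418) (nat_lit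 318)) (XT.lf (nat_lit 0) (nat_lit 10079319451) (nat_lit 0) (nat_lit 10905874710) (nat_lit 152) (nat_lit 76694948540) (nat_lit 95) (nat_lit 3) (nat_lit 95) (nat_lit 1) (nat_lit 97) (nat_lit 1) (nat_lit 285) (nat_lit 418) (nat_lit 317)))) (XT.nd (nat_lit 156) (nat_lit 228) (nat_lit 0) (XT.nd (nat_lit 78) (nat_lit 152) (nat_lit 0) (XT.lf (nat_lit 76) (nat_lit 34627282465) (nat_lit 0) (nat_lit 25174143502) (nat_lit 76) (nat_lit 35392611408) (nat_lit 95) (nat_lit 3) (nat_lit 94) (nat_lit 1) (nat_lit 95) (nat_lit 1) (nat_lit 286) (nat_lit 418) (nat_lit 316)) (XT.lf (nat_lit 0) (nat_lit 14405643350) (nat_lit 0) (nat_lit 15080536598) (nat_lit 152) (nat_lit 63302212812) (nat_lit 92) (nat_lit 3) (nat_lit 92) (nat_lit 1) (nat_lit 94) (nat_lit 1) (nat_lit 287) (nat_lit 418) (nat_lit 315))) (XT.nd (nat_lit 78) (nat_lit 152) (nat_lit 0) (XT.lf (nat_lit 76) (nat_lit 28256822100) (nat_lit 0) (nat_lit 33292655683)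 (nat_lit 76) (nat_lit 28881723255) (nat_lit 92) (nat_lit 3) (nat_lit 91) (nat_lit 1) (nat_lit 92) (nat_lit 1) (nat_lit 288) (nat_lit 418) (nat_lit 314)) (XT.lf (nat_lit 0) (nat_lit 18257905297) (nat_lit 0) (nat_lit 18808964517) (nat_lit 152) (nat_lit 51076115805) (nat_lit 89) (nat_lit 3) (nat_lit 89) (nat_lit 1) (nat_lit 91) (nat_lit 1) (nat_lit 289) (nat_lit 418) (nat_lit 313))))))) (XT.nd (nat_lit 1014) (nat_lit 1596) (nat_lit 0) (XT.nd (nat_lit 468) (nat_lit 912) (nat_lit 0) (XT.nd (nat_lit 234) (nat_lit 380) (nat_lit 0) (XT.nd (nat_lit 78) (nat_lit 228) (nat_lit 0) (XT.lf (nat_lit 76) (nat_lit 22439531685) (nat_lit 0) (nat_lit 40518667534) (nat_lit 76) (nat_lit 22949771703) (nat_lit 89) (nat_lit 3) (nat_lit 88) (nat_lit 1) (nat_lit 89) (nat_lit 1) (nat_lit 290) (nat_lit 418) (nat_lit 312)) (XT.nd (nat_lit 78) (nat_lit 76) (nat_lit 0) (XT.lf (nat_lit 0) (nat_lit 21674233842) (nat_lit 0) (nat_lit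 22124180949) (nat_lit 152) (nat_lit 39932998168) (nat_lit 86) (nat_lit 3) (nat_lit 86) (nat_lit 1) (nat_lit 88) (nat_lit 1) (nat_lit 291) (nat_lit 418) (nat_lit 311)) (XT.lf (nat_lit 76) (nat_lit 17137007823) (nat_lit 0) (nat_lit 46921562783) (nat_lit 76) (nat_lit 17553625514) (nat_lit 86) (nat_lit 3) (nat_lit 85) (nat_lit 1) (nat_lit 86) (nat_lit 1) (nat_lit 292) (nat_lit 418) (nat_lit 310)))) (XT.nd (nat_lit 78) (nat_lit 228) (nat_lit 0) (XT.lf (nat_lit 0) (nat_lit 24689930227) (nat_lit 0) (nat_lit 25057317962) (nat_lit 152) (nat_lit 29794564491) (nat_lit 83) (nat_lit 3) (nat_lit 83) (nat_lit 1) (nat_lit 85) (nat_lit 1) (nat_lit 293) (nat_lit 418) (nat_lit 309)) (XT.nd (nat_lit 78) (nat_lit 152) (nat_lit 0) (XT.lf (nat_lit 76) (nat_lit 12313038696) (nat_lit 0) (nat_lit 52566100986) (nat_lit 76) (nat_lit 12653212525) (nat_lit 83) (nat_lit 3) (nat_lit 82) (nat_lit 1) (nat_lit 83) (nat_lit 1)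 (nat_lit 294) (nat_lit 418) (nat_lit 308)) (XT.lf (nat_lit 0) (nat_lit 27337687712) (nat_lit 0) (nat_lit 27637664633) (nat_lit 152) (nat_lit 20587581546) (nat_lit 80) (nat_lit 3) (nat_lit 80) (nat_lit 1) (nat_lit 82) (nat_lit 1) (nat_lit 295) (nat_lit 418) (nat_lit 307))))) (XT.nd (nat_lit 234) (nat_lit 608) (nat_lit 0) (XT.nd (nat_lit 78) (nat_lit 228) (nat_lit 0) (XT.lf (nat_lit 76) (nat_lit 7933534495) (nat_lit 0) (nat_lit 57512682052) (nat_lit 76) (nat_lit 8211290903) (nat_lit 80) (nat_lit 3) (nat_lit 79) (nat_lit 1) (nat_lit 80) (nat_lit 1) (nat_lit 296) (nat_lit 418) (nat_lit 306)) (XT.nd (nat_lit 78) (nat_lit 76) (nat_lit 0) (XT.lf (nat_lit 0) (nat_lit 29647790455) (nat_lit 0) (nat_lit 29892725560) (nat_lit 152) (nat_lit 12243588059) (nat_lit 77) (nat_lit 3) (nat_lit 77) (nat_lit 1) (nat_lit 79) (nat_lit 1) (nat_lit 297) (nat_lit 418) (nat_lit 305)) (XT.lf (nat_lit 76) (nat_lit 3966449227)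 (nat_lit 0) (nat_lit 61817600874) (nat_lit 76) (nat_lit 4193240990) (nat_lit 77) (nat_lit 3) (nat_lit 76) (nat_lit 1) (nat_lit 77) (nat_lit 1) (nat_lit 298) (nat_lit 418) (nat_lit 304)))) (XT.nd (nat_lit 156) (nat_lit 380) (nat_lit 0) (XT.nd (nat_lit 78) (nat_lit 76) (nat_lit 0) (XT.lf (nat_lit 0) (nat_lit 31648294438) (nat_lit 0) (nat_lit 31848287175) (nat_lit 152) (nat_lit 4698616614) (nat_lit 74) (nat_lit 3) (nat_lit 74) (nat_lit 1) (nat_lit 76) (nat_lit 1) (nat_lit 299) (nat_lit 418) (nat_lit 303)) (XT.lf (nat_lit 76) (nat_lit 381696809) (nat_lit 0) (nat_lit 65533291459) (nat_lit 76) (nat_lit 566875268) (nat_lit 74) (nat_lit 3) (nat_lit 73) (nat_lit 1) (nat_lit 74) (nat_lit 1) (nat_lit 300) (nat_lit 418) (nat_lit 302))) (XT.nd (nat_lit 78) (nat_lit 152) (nat_lit 0) (XT.lf (nat_lit 76) (nat_lit 31222436290) (nat_lit 0) (nat_lit 2176741313) (nat_lit 76) (nat_lit 31385732992) (nat_lit 71) (nat_lit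 3) (nat_lit 70) (nat_lit 1) (nat_lit 71) (nat_lit 1) (nat_lit 301) (nat_lit 418) (nat_lit 301)) (XT.lf (nat_lit 0) (nat_lit 2746800168) (nat_lit 0) (nat_lit 2890800787) (nat_lit 152) (nat_lit 57515410918) (nat_lit 68) (nat_lit 3) (nat_lit 68) (nat_lit 1) (nat_lit 70) (nat_lit 1) (nat_lit 302) (nat_lit 418) (nat_lit 300)))))) (XT.nd (nat_lit 546) (nat_lit 836) (nat_lit 0) (XT.nd (nat_lit 234) (nat_lit 456) (nat_lit 0) (XT.nd (nat_lit 78) (nat_lit 228) (nat_lit 0) (XT.lf (nat_lit 76) (nat_lit 26453957715) (nat_lit 0) (nat_lit 8501337771) (nat_lit 76) (nat_lit 26587291621) (nat_lit 68) (nat_lit 3) (nat_lit 67) (nat_lit 1) (nat_lit 68) (nat_lit 1) (nat_lit 303) (nat_lit 418) (nat_lit 299)) (XT.nd (nat_lit 78) (nat_lit 76) (nat_lit 0) (XT.lf (nat_lit 0) (nat_lit 5724643265) (nat_lit 0) (nat_lit 5842221665) (nat_lit 152) (nat_lit 48423428508) (nat_lit 65) (nat_lit 3) (nat_lit 65) (nat_lit 1) (nat_lit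 67) (nat_lit 1) (nat_lit 304) (nat_lit 418) (nat_lit 298)) (XT.lf (nat_lit 76) (nat_lit 22090445499) (nat_lit 0) (nat_lit 14173565180) (nat_lit 76) (nat_lit 22199314388) (nat_lit 65) (nat_lit 3) (nat_lit 64) (nat_lit 1) (nat_lit 65) (nat_lit 1) (nat_lit 305) (nat_lit 418) (nat_lit 297)))) (XT.nd (nat_lit 156) (nat_lit 228) (nat_lit 0) (XT.nd (nat_lit 78) (nat_lit 76) (nat_lit 0) (XT.lf (nat_lit 0) (nat_lit 8389554959) (nat_lit 0) (nat_lit 8485559271) (nat_lit 152) (nat_lit 40111622880) (nat_lit 62) (nat_lit 3) (nat_lit 62) (nat_lit 1) (nat_lit 64) (nat_lit 1) (nat_lit 306) (nat_lit 418) (nat_lit 296)) (XT.lf (nat_lit 76) (nat_lit 18103216168) (nat_lit 0) (nat_lit 19243551270) (nat_lit 76) (nat_lit 18192109049) (nat_lit 62) (nat_lit 3) (nat_lit 61) (nat_lit 1) (nat_lit 62) (nat_lit 1) (nat_lit 307) (nat_lit 418) (nat_lit 295))) (XT.nd (nat_lit 78) (nat_lit 76) (nat_lit 0) (XT.lf (nat_lit 0) (nat_lit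 10765963376) (nat_lit 0) (nat_lit 10844352160) (nat_lit 152) (nat_lit 32523971875) (nat_lit 59) (nat_lit 3) (nat_lit 59) (nat_lit 1) (nat_lit 61) (nat_lit 1) (nat_lit 308) (nat_lit 418) (nat_lit 294)) (XT.lf (nat_lit 76) (nat_lit 14465403487) (nat_lit 0) (nat_lit 23758024976) (nat_lit 76) (nat_lit 14537985694) (nat_lit 59) (nat_lit 3) (nat_lit 58) (nat_lit 1) (nat_lit 59) (nat_lit 1) (nat_lit 309) (nat_lit 418) (nat_lit 293))))) (XT.nd (nat_lit 234) (nat_lit 456) (nat_lit 0) (XT.nd (nat_lit 78) (nat_lit 228) (nat_lit 0) (XT.lf (nat_lit 0) (nat_lit 12876583692) (nat_lit 0) (nat_lit 12940589166) (nat_lit 152) (nat_lit 25608127081) (nat_lit 56) (nat_lit 3) (nat_lit 56) (nat_lit 1) (nat_lit 58) (nat_lit 1) (nat_lit 310) (nat_lit 418) (nat_lit 292)) (XT.nd (nat_lit 78) (nat_lit 152) (nat_lit 0) (XT.lf (nat_lit 76) (nat_lit 11151858862) (nat_lit 0) (nat_lit 27760527741) (nat_lit 76) (nat_lit 11211123190)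 (nat_lit 56) (nat_lit 3) (nat_lit 55) (nat_lit 1) (nat_lit 56) (nat_lit 1) (nat_lit 311) (nat_lit 418) (nat_lit 291)) (XT.lf (nat_lit 0) (nat_lit 14742534923) (nat_lit 0) (nat_lit 14794796235) (nat_lit 152) (nat_lit 19315188880) (nat_lit 53) (nat_lit 3) (nat_lit 53) (nat_lit 1) (nat_lit 55) (nat_lit 1) (nat_lit 312) (nat_lit 418) (nat_lit 290)))) (XT.nd (nat_lit 156) (nat_lit 228) (nat_lit 0) (XT.nd (nat_lit 78) (nat_lit 152) (nat_lit 0) (XT.lf (nat_lit 76) (nat_lit 8139055063) (nat_lit 0) (nat_lit 31291613144) (nat_lit 76) (nat_lit 8187445166) (nat_lit 53) (nat_lit 3) (nat_lit 52) (nat_lit 1) (nat_lit 53) (nat_lit 1) (nat_lit 313) (nat_lit 418) (nat_lit 289)) (XT.lf (nat_lit 0) (nat_lit 16383448280) (nat_lit 0) (nat_lit 16426120329) (nat_lit 152) (nat_lit 13599494010) (nat_lit 50) (nat_lit 3) (nat_lit 50) (nat_lit 1) (nat_lit 52) (nat_lit 1) (nat_lit 314) (nat_lit 418) (nat_lit 288))) (XT.nd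 (nat_lit 78) (nat_lit 152) (nat_lit 0) (XT.lf (nat_lit 76) (nat_lit 5404993572) (nat_lit 0) (nat_lit 34389035288) (nat_lit 76) (nat_lit 5444504729) (nat_lit 50) (nat_lit 3) (nat_lit 49) (nat_lit 1) (nat_lit 50) (nat_lit 1) (nat_lit 315) (nat_lit 418) (nat_lit 287)) (XT.lf (nat_lit 0) (nat_lit 17817567830) (nat_lit 0) (nat_lit 17852410120) (nat_lit 152) (nat_lit 8418415118) (nat_lit 47) (nat_lit 3) (nat_lit 47) (nat_lit 1) (nat_lit 49) (nat_lit 1) (nat_lit 316) (nat_lit 418) (nat_lit 286))))))))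
noncomputable def ec251 : XT := (XT.nd (nat_lit 2106) (nat_lit 304) (nat_lit 0) (XT.nd (nat_lit 1014) (nat_lit 1672) (nat_lit 0) (XT.nd (nat_lit 468) (nat_lit 836) (nat_lit 0) (XT.nd (nat_lit 234) (nat_lit 456) (nat_lit 0) (XT.nd (nat_lit 78) (nat_lit 228) (nat_lit 0) (XT.lf (nat_lit 76) (nat_lit 2929115769) (nat_lit 0) (nat_lit 37087926431) (nat_lit 76) (nat_lit 2961377149) (nat_lit 47) (nat_lit 3) (nat_lit 46) (nat_lit 1) (nat_lit 47) (nat_lit 1) (nat_lit 317) (nat_lit 418) (nat_lit 285)) (XT.nd (nat_lit 78) (nat_lit 76) (nat_lit 0) (XT.lf (nat_lit 0) (nat_lit 19061844110) (nat_lit 0) (nat_lit 19090293298) (nat_lit 152) (nat_lit 3732171776) (nat_lit 44) (nat_lit 3) (nat_lit 44) (nat_lit 1) (nat_lit 46) (nat_lit 1) (nat_lit 318) (nat_lit 418) (nat_lit 284)) (XT.lf (nat_lit 76) (nat_lit 692218053) (nat_lit 0) (nat_lit 39420964324) (nat_lit 76) (nat_lit 718559894) (nat_lit 44) (nat_lit 3) (nat_lit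 43) (nat_lit 1) (nat_lit 44) (nat_lit 1) (nat_lit 319) (nat_lit 418) (nat_lit 283)))) (XT.nd (nat_lit 78) (nat_lit 228) (nat_lit 0) (XT.lf (nat_lit 76) (nat_lit 19627267792) (nat_lit 0) (nat_lit 512759070) (nat_lit 76) (nat_lit 19650496928) (nat_lit 41) (nat_lit 3) (nat_lit 40) (nat_lit 1) (nat_lit 41) (nat_lit 1) (nat_lit 320) (nat_lit 418) (nat_lit 282)) (XT.nd (nat_lit 78) (nat_lit 76) (nat_lit 0) (XT.lf (nat_lit 0) (nat_lit 1324155234) (nat_lit 0) (nat_lit 1344639481) (nat_lit 152) (nat_lit 36119783364) (nat_lit 38) (nat_lit 3) (nat_lit 38) (nat_lit 1) (nat_lit 40) (nat_lit 1) (nat_lit 321) (nat_lit 418) (nat_lit 281)) (XT.lf (nat_lit 76) (nat_lit 16668112585) (nat_lit 0) (nat_lit 4443988711) (nat_lit 76) (nat_lit 16687079480) (nat_lit 38) (nat_lit 3) (nat_lit 37) (nat_lit 1) (nat_lit 38) (nat_lit 1) (nat_lit 322) (nat_lit 418) (nat_lit 280))))) (XT.nd (nat_lit 234) (nat_lit 456) (nat_lit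 0) (XT.nd (nat_lit 78) (nat_lit 228) (nat_lit 0) (XT.lf (nat_lit 0) (nat_lit 3169266086) (nat_lit 0) (nat_lit 3185991743) (nat_lit 152) (nat_lit 30490836810) (nat_lit 35) (nat_lit 3) (nat_lit 35) (nat_lit 1) (nat_lit 37) (nat_lit 1) (nat_lit 323) (nat_lit 418) (nat_lit 279)) (XT.nd (nat_lit 78) (nat_lit 152) (nat_lit 0) (XT.lf (nat_lit 76) (nat_lit 13960512306) (nat_lit 0) (nat_lit 7971448568) (nat_lit 76) (nat_lit 13975999026) (nat_lit 35) (nat_lit 3) (nat_lit 34) (nat_lit 1) (nat_lit 35) (nat_lit 1) (nat_lit 324) (nat_lit 418) (nat_lit 278)) (XT.lf (nat_lit 0) (nat_lit 4821860209) (nat_lit 0) (nat_lit 4835516928) (nat_lit 152) (nat_lit 25343965989) (nat_lit 32) (nat_lit 3) (nat_lit 32) (nat_lit 1) (nat_lit 34) (nat_lit 1) (nat_lit 325) (nat_lit 418) (nat_lit 277)))) (XT.nd (nat_lit 156) (nat_lit 228) (nat_lit 0) (XT.nd (nat_lit 78) (nat_lit 152) (nat_lit 0) (XT.lf (nat_lit 76) (nat_lit 11486475988)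 (nat_lit 0) (nat_lit 11126205000) (nat_lit 76) (nat_lit 11499121099) (nat_lit 32) (nat_lit 3) (nat_lit 31) (nat_lit 1) (nat_lit 32) (nat_lit 1) (nat_lit 326) (nat_lit 418) (nat_lit 276)) (XT.lf (nat_lit 0) (nat_lit 6296859992) (nat_lit 0) (nat_lit 6308010884) (nat_lit 152) (nat_lit 20644511016) (nat_lit 29) (nat_lit 3) (nat_lit 29) (nat_lit 1) (nat_lit 31) (nat_lit 1) (nat_lit 327) (nat_lit 418) (nat_lit 275))) (XT.nd (nat_lit 78) (nat_lit 152) (nat_lit 0) (XT.lf (nat_lit 76) (nat_lit 9229189703) (nat_lit 0) (nat_lit 13937201048) (nat_lit 76) (nat_lit 9239514603) (nat_lit 29) (nat_lit 3) (nat_lit 28) (nat_lit 1) (nat_lit 29) (nat_lit 1) (nat_lit 328) (nat_lit 418) (nat_lit 274)) (XT.lf (nat_lit 0) (nat_lit 7608158004) (nat_lit 0) (nat_lit 7617262853) (nat_lit 152) (nat_lit 16360099711) (nat_lit 26) (nat_lit 3) (nat_lit 26) (nat_lit 1) (nat_lit 28) (nat_lit 1) (nat_lit 329) (nat_lit 418) (nat_lit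 273)))))) (XT.nd (nat_lit 546) (nat_lit 912) (nat_lit 0) (XT.nd (nat_lit 234) (nat_lit 456) (nat_lit 0) (XT.nd (nat_lit 78) (nat_lit 228) (nat_lit 0) (XT.lf (nat_lit 76) (nat_lit 7172944624) (nat_lit 0) (nat_lit 16431391975) (nat_lit 76) (nat_lit 7181375040) (nat_lit 26) (nat_lit 3) (nat_lit 25) (nat_lit 1) (nat_lit 26) (nat_lit 1) (nat_lit 330) (nat_lit 418) (nat_lit 272)) (XT.nd (nat_lit 78) (nat_lit 76) (nat_lit 0) (XT.lf (nat_lit 0) (nat_lit 8768684242) (nat_lit 0) (nat_lit 8776118472) (nat_lit 152) (nat_lit 12460504472) (nat_lit 23) (nat_lit 3) (nat_lit 23) (nat_lit 1) (nat_lit 25) (nat_lit 1) (nat_lit 331) (nat_lit 418) (nat_lit 271)) (XT.lf (nat_lit 76) (nat_lit 5303069074) (nat_lit 0) (nat_lit 18633872619) (nat_lit 76) (nat_lit 5309952620) (nat_lit 23) (nat_lit 3) (nat_lit 22) (nat_lit 1) (nat_lit 23) (nat_lit 1) (nat_lit 332) (nat_lit 418) (nat_lit 270)))) (XT.nd (nat_lit 156) (nat_lit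 228) (nat_lit 0) (XT.nd (nat_lit 78) (nat_lit 76) (nat_lit 0) (XT.lf (nat_lit 0) (nat_lit 9790469059) (nat_lit 0) (nat_lit 9796539205) (nat_lit 152) (nat_lit 8917507711) (nat_lit 20) (nat_lit 3) (nat_lit 20) (nat_lit 1) (nat_lit 22) (nat_lit 1) (nat_lit 333) (nat_lit 418) (nat_lit 269)) (XT.lf (nat_lit 76) (nat_lit 3605864413) (nat_lit 0) (nat_lit 20567997023) (nat_lit 76) (nat_lit 3611484919) (nat_lit 20) (nat_lit 3) (nat_lit 19) (nat_lit 1) (nat_lit 20) (nat_lit 1) (nat_lit 334) (nat_lit 418) (nat_lit 268))) (XT.nd (nat_lit 78) (nat_lit 76) (nat_lit 0) (XT.lf (nat_lit 0) (nat_lit 10684702035) (nat_lit 0) (nat_lit 10689658389) (nat_lit 152) (nat_lit 5704775357) (nat_lit 17) (nat_lit 3) (nat_lit 17) (nat_lit 1) (nat_lit 19) (nat_lit 1) (nat_lit 335) (nat_lit 418) (nat_lit 267)) (XT.lf (nat_lit 76) (nat_lit 2068544566) (nat_lit 0) (nat_lit 22255490766) (nat_lit 76) (nat_lit 2073133783) (nat_lit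 17) (nat_lit 3) (nat_lit 16) (nat_lit 1) (nat_lit 17) (nat_lit 1) (nat_lit 336) (nat_lit 418) (nat_lit 266))))) (XT.nd (nat_lit 234) (nat_lit 532) (nat_lit 0) (XT.nd (nat_lit 78) (nat_lit 228) (nat_lit 0) (XT.lf (nat_lit 0) (nat_lit 11461787091) (nat_lit 0) (nat_lit 11465834020) (nat_lit 152) (nat_lit 2797737994) (nat_lit 14) (nat_lit 3) (nat_lit 14) (nat_lit 1) (nat_lit 16) (nat_lit 1) (nat_lit 337) (nat_lit 418) (nat_lit 265)) (XT.nd (nat_lit 78) (nat_lit 152) (nat_lit 0) (XT.lf (nat_lit 76) (nat_lit 679179054) (nat_lit 0) (nat_lit 23716556422) (nat_lit 76) (nat_lit 682926210) (nat_lit 14) (nat_lit 3) (nat_lit 13) (nat_lit 1) (nat_lit 14) (nat_lit 1) (nat_lit 338) (nat_lit 418) (nat_lit 264)) (XT.lf (nat_lit 0) (nat_lit 12131394073) (nat_lit 0) (nat_lit 12134698444) (nat_lit 152) (nat_lit 173479170) (nat_lit 11) (nat_lit 3) (nat_lit 11) (nat_lit 1) (nat_lit 13) (nat_lit 1) (nat_lit 339) (nat_lit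 418) (nat_lit 263)))) (XT.nd (nat_lit 156) (nat_lit 228) (nat_lit 0) (XT.nd (nat_lit 78) (nat_lit 76) (nat_lit 0) (XT.lf (nat_lit 0) (nat_lit 579748189) (nat_lit 0) (nat_lit 582662096) (nat_lit 152) (nat_lit 22662070297) (nat_lit 8) (nat_lit 3) (nat_lit 8) (nat_lit 1) (nat_lit 10) (nat_lit 1) (nat_lit 340) (nat_lit 418) (nat_lit 262)) (XT.lf (nat_lit 76) (nat_lit 10476059501) (nat_lit 0) (nat_lit 2261759954) (nat_lit 76) (nat_lit 10478757563) (nat_lit 8) (nat_lit 3) (nat_lit 7) (nat_lit 1) (nat_lit 8) (nat_lit 1) (nat_lit 341) (nat_lit 418) (nat_lit 261))) (XT.nd (nat_lit 78) (nat_lit 76) (nat_lit 0) (XT.lf (nat_lit 0) (nat_lit 1724852374) (nat_lit 0) (nat_lit 1727231618) (nat_lit 152) (nat_lit 19179261952) (nat_lit 5) (nat_lit 3) (nat_lit 5) (nat_lit 1) (nat_lit 7) (nat_lit 1) (nat_lit 342) (nat_lit 418) (nat_lit 260)) (XT.lf (nat_lit 76) (nat_lit 8799738340) (nat_lit 0) (nat_lit 4453259012)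 (nat_lit 76) (nat_lit 8801941343) (nat_lit 5) (nat_lit 3) (nat_lit 4) (nat_lit 1) (nat_lit 5) (nat_lit 1) (nat_lit 343) (nat_lit 418) (nat_lit 259))))))) (XT.nd (nat_lit 1014) (nat_lit 0) (nat_lit 0) (XT.nd (nat_lit 468) (nat_lit 0) (nat_lit 0) (XT.nd (nat_lit 234) (nat_lit 0) (nat_lit 0) (XT.nd (nat_lit 78) (nat_lit 152) (nat_lit 0) (XT.lf (nat_lit 0) (nat_lit 2751165328) (nat_lit 0) (nat_lit 2753108012) (nat_lit 152) (nat_lit 15993967025) (nat_lit 2) (nat_lit 3) (nat_lit 2) (nat_lit 1) (nat_lit 4) (nat_lit 1) (nat_lit 344) (nat_lit 418) (nat_lit 258)) (XT.nd (nat_lit 78) (nat_lit 76) (nat_lit 0) (XT.lf (nat_lit 76) (nat_lit 7267716772) (nat_lit 0) (nat_lit 6414457588) (nat_lit 76) (nat_lit 7269515553) (nat_lit 2) (nat_lit 3) (nat_lit 1) (nat_lit 1) (nat_lit 2) (nat_lit 1) (nat_lit 345) (nat_lit 418) (nat_lit 257)) (XT.lf (nat_lit 0) (nat_lit 434464673449) (nat_lit 0) (nat_lit 0) (nat_lit 0)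 (nat_lit 0) (nat_lit 0) (nat_lit 0) (nat_lit 1) (nat_lit 0) (nat_lit 1) (nat_lit 0) (nat_lit 346) (nat_lit 418) (nat_lit 256)))) (XT.nd (nat_lit 78) (nat_lit 0) (nat_lit 0) (XT.lf (nat_lit 0) (nat_lit 434464549577) (nat_lit 0) (nat_lit 0) (nat_lit 0) (nat_lit 0) (nat_lit 0) (nat_lit 0) (nat_lit 1) (nat_lit 0) (nat_lit 1) (nat_lit 0) (nat_lit 347) (nat_lit 418) (nat_lit 255)) (XT.nd (nat_lit 78) (nat_lit 0) (nat_lit 0) (XT.lf (nat_lit 0) (nat_lit 434464434882) (nat_lit 0) (nat_lit 0) (nat_lit 0) (nat_lit 0) (nat_lit 0) (nat_lit 0) (nat_lit 1) (nat_lit 0) (nat_lit 1) (nat_lit 0) (nat_lit 348) (nat_lit 418) (nat_lit 254)) (XT.lf (nat_lit 0) (nat_lit 434464328682) (nat_lit 0) (nat_lit 0) (nat_lit 0) (nat_lit 0) (nat_lit 0) (nat_lit 0) (nat_lit 1) (nat_lit 0) (nat_lit 1) (nat_lit 0) (nat_lit 349) (nat_lit 418) (nat_lit 253))))) (XT.nd (nat_lit 234) (nat_lit 0) (nat_lit 0) (XT.nd (nat_lit 78) (nat_lit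 0) (nat_lit 0) (XT.lf (nat_lit 0) (nat_lit 434464230349) (nat_lit 0) (nat_lit 0) (nat_lit 0) (nat_lit 0) (nat_lit 0) (nat_lit 0) (nat_lit 1) (nat_lit 0) (nat_lit 1) (nat_lit 0) (nat_lit 350) (nat_lit 418) (nat_lit 252)) (XT.nd (nat_lit 78) (nat_lit 0) (nat_lit 0) (XT.lf (nat_lit 0) (nat_lit 434464139300) (nat_lit 0) (nat_lit 0) (nat_lit 0) (nat_lit 0) (nat_lit 0) (nat_lit 0) (nat_lit 1) (nat_lit 0) (nat_lit 1) (nat_lit 0) (nat_lit 351) (nat_lit 418) (nat_lit 251)) (XT.lf (nat_lit 0) (nat_lit 434464054995) (nat_lit 0) (nat_lit 0) (nat_lit 0) (nat_lit 0) (nat_lit 0) (nat_lit 0) (nat_lit 1) (nat_lit 0) (nat_lit 1) (nat_lit 0) (nat_lit 352) (nat_lit 418) (nat_lit 250)))) (XT.nd (nat_lit 156) (nat_lit 0) (nat_lit 0) (XT.nd (nat_lit 78) (nat_lit 0) (nat_lit 0) (XT.lf (nat_lit 0) (nat_lit 434463976935) (nat_lit 0) (nat_lit 0) (nat_lit 0) (nat_lit 0) (nat_lit 0) (nat_lit 0) (nat_lit 1) (nat_lit 0) (nat_lit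 1) (nat_lit 0) (nat_lit 353) (nat_lit 418) (nat_lit 249)) (XT.lf (nat_lit 0) (nat_lit 434463904658) (nat_lit 0) (nat_lit 0) (nat_lit 0) (nat_lit 0) (nat_lit 0) (nat_lit 0) (nat_lit 1) (nat_lit 0) (nat_lit 1) (nat_lit 0) (nat_lit 354) (nat_lit 418) (nat_lit 248))) (XT.nd (nat_lit 78) (nat_lit 0) (nat_lit 0) (XT.lf (nat_lit 0) (nat_lit 434463837734) (nat_lit 0) (nat_lit 0) (nat_lit 0) (nat_lit 0) (nat_lit 0) (nat_lit 0) (nat_lit 1) (nat_lit 0) (nat_lit 1) (nat_lit 0) (nat_lit 355) (nat_lit 418) (nat_lit 247)) (XT.lf (nat_lit 0) (nat_lit 434463775767) (nat_lit 0) (nat_lit 0) (nat_lit 0) (nat_lit 0) (nat_lit 0) (nat_lit 0) (nat_lit 1) (nat_lit 0) (nat_lit 1) (nat_lit 0) (nat_lit 356) (nat_lit 418) (nat_lit 246)))))) (XT.nd (nat_lit 546) (nat_lit 0) (nat_lit 0) (XT.nd (nat_lit 234) (nat_lit 0) (nat_lit 0) (XT.nd (nat_lit 78) (nat_lit 0) (nat_lit 0) (XT.lf (nat_lit 0) (nat_lit 434463718391) (nat_lit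 0) (nat_lit 0) (nat_lit 0) (nat_lit 0) (nat_lit 0) (nat_lit 0) (nat_lit 1) (nat_lit 0) (nat_lit 1) (nat_lit 0) (nat_lit 357) (nat_lit 418) (nat_lit 245)) (XT.nd (nat_lit 78) (nat_lit 0) (nat_lit 0) (XT.lf (nat_lit 0) (nat_lit 434463665265) (nat_lit 0) (nat_lit 0) (nat_lit 0) (nat_lit 0) (nat_lit 0) (nat_lit 0) (nat_lit 1) (nat_lit 0) (nat_lit 1) (nat_lit 0) (nat_lit 358) (nat_lit 418) (nat_lit 244)) (XT.lf (nat_lit 0) (nat_lit 434463616074) (nat_lit 0) (nat_lit 0) (nat_lit 0) (nat_lit 0) (nat_lit 0) (nat_lit 0) (nat_lit 1) (nat_lit 0) (nat_lit 1) (nat_lit 0) (nat_lit 359) (nat_lit 418) (nat_lit 243)))) (XT.nd (nat_lit 156) (nat_lit 0) (nat_lit 0) (XT.nd (nat_lit 78) (nat_lit 0) (nat_lit 0) (XT.lf (nat_lit 0) (nat_lit 434463570526) (nat_lit 0) (nat_lit 0) (nat_lit 0) (nat_lit 0) (nat_lit 0) (nat_lit 0) (nat_lit 1) (nat_lit 0) (nat_lit 1) (nat_lit 0) (nat_lit 360) (nat_lit 418) (nat_lit 242)) (XT.lf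 (nat_lit 0) (nat_lit 434463528353) (nat_lit 0) (nat_lit 0) (nat_lit 0) (nat_lit 0) (nat_lit 0) (nat_lit 0) (nat_lit 1) (nat_lit 0) (nat_lit 1) (nat_lit 0) (nat_lit 361) (nat_lit 418) (nat_lit 241))) (XT.nd (nat_lit 78) (nat_lit 0) (nat_lit 0) (XT.lf (nat_lit 0) (nat_lit 434463489304) (nat_lit 0) (nat_lit 0) (nat_lit 0) (nat_lit 0) (nat_lit 0) (nat_lit 0) (nat_lit 1) (nat_lit 0) (nat_lit 1) (nat_lit 0) (nat_lit 362) (nat_lit 418) (nat_lit 240)) (XT.lf (nat_lit 0) (nat_lit 434463453147) (nat_lit 0) (nat_lit 0) (nat_lit 0) (nat_lit 0) (nat_lit 0) (nat_lit 0) (nat_lit 1) (nat_lit 0) (nat_lit 1) (nat_lit 0) (nat_lit 363) (nat_lit 418) (nat_lit 239))))) (XT.nd (nat_lit 234) (nat_lit 0) (nat_lit 0) (XT.nd (nat_lit 78) (nat_lit 0) (nat_lit 0) (XT.lf (nat_lit 0) (nat_lit 434463419668) (nat_lit 0) (nat_lit 0) (nat_lit 0) (nat_lit 0) (nat_lit 0) (nat_lit 0) (nat_lit 1) (nat_lit 0) (nat_lit 1) (nat_lit 0)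 (nat_lit 364) (nat_lit 418) (nat_lit 238)) (XT.nd (nat_lit 78) (nat_lit 0) (nat_lit 0) (XT.lf (nat_lit 0) (nat_lit 434463388670) (nat_lit 0) (nat_lit 0) (nat_lit 0) (nat_lit 0) (nat_lit 0) (nat_lit 0) (nat_lit 1) (nat_lit 0) (nat_lit 1) (nat_lit 0) (nat_lit 365) (nat_lit 418) (nat_lit 237)) (XT.lf (nat_lit 0) (nat_lit 434463359967) (nat_lit 0) (nat_lit 0) (nat_lit 0) (nat_lit 0) (nat_lit 0) (nat_lit 0) (nat_lit 1) (nat_lit 0) (nat_lit 1) (nat_lit 0) (nat_lit 366) (nat_lit 418) (nat_lit 236)))) (XT.nd (nat_lit 156) (nat_lit 0) (nat_lit 0) (XT.nd (nat_lit 78) (nat_lit 0) (nat_lit 0) (XT.lf (nat_lit 0) (nat_lit 434463333391) (nat_lit 0) (nat_lit 0) (nat_lit 0) (nat_lit 0) (nat_lit 0) (nat_lit 0) (nat_lit 1) (nat_lit 0) (nat_lit 1) (nat_lit 0) (nat_lit 367) (nat_lit 418) (nat_lit 235)) (XT.lf (nat_lit 0) (nat_lit 434463308783) (nat_lit 0) (nat_lit 0) (nat_lit 0) (nat_lit 0) (nat_lit 0) (nat_lit 0)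 (nat_lit 1) (nat_lit 0) (nat_lit 1) (nat_lit 0) (nat_lit 368) (nat_lit 418) (nat_lit 234))) (XT.nd (nat_lit 78) (nat_lit 0) (nat_lit 0) (XT.lf (nat_lit 0) (nat_lit 434463285998) (nat_lit 0) (nat_lit 0) (nat_lit 0) (nat_lit 0) (nat_lit 0) (nat_lit 0) (nat_lit 1) (nat_lit 0) (nat_lit 1) (nat_lit 0) (nat_lit 369) (nat_lit 418) (nat_lit 233)) (XT.lf (nat_lit 0) (nat_lit 434463264901) (nat_lit 0) (nat_lit 0) (nat_lit 0) (nat_lit 0) (nat_lit 0) (nat_lit 0) (nat_lit 1) (nat_lit 0) (nat_lit 1) (nat_lit 0) (nat_lit 370) (nat_lit 418) (nat_lit 232))))))))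
noncomputable def ec252 : XT := (XT.nd (nat_lit 44304) (nat_lit 0) (nat_lit 7144) (XT.nd (nat_lit 43290) (nat_lit 0) (nat_lit 10412) (XT.nd (nat_lit 468) (nat_lit 0) (nat_lit 0) (XT.nd (nat_lit 234) (nat_lit 0) (nat_lit 0) (XT.nd (nat_lit 78) (nat_lit 0) (nat_lit 0) (XT.lf (nat_lit 0) (nat_lit 434463245366) (nat_lit 0) (nat_lit 0) (nat_lit 0) (nat_lit 0) (nat_lit 0) (nat_lit 0) (nat_lit 1) (nat_lit 0) (nat_lit 1) (nat_lit 0) (nat_lit 371) (nat_lit 418) (nat_lit 231)) (XT.nd (nat_lit 78) (nat_lit 0) (nat_lit 0) (XT.lf (nat_lit 0) (nat_lit 434463227279) (nat_lit 0) (nat_lit 0) (nat_lit 0) (nat_lit 0) (nat_lit 0) (nat_lit 0) (nat_lit 1) (nat_lit 0) (nat_lit 1) (nat_lit 0) (nat_lit 372) (nat_lit 418) (nat_lit 230)) (XT.lf (nat_lit 0) (nat_lit 434463210531) (nat_lit 0) (nat_lit 0) (nat_lit 0) (nat_lit 0) (nat_lit 0) (nat_lit 0) (nat_lit 1) (nat_lit 0) (nat_lit 1) (nat_lit 0) (nat_lit 373) (nat_lit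 418) (nat_lit 229)))) (XT.nd (nat_lit 78) (nat_lit 0) (nat_lit 0) (XT.lf (nat_lit 0) (nat_lit 434463195024) (nat_lit 0) (nat_lit 0) (nat_lit 0) (nat_lit 0) (nat_lit 0) (nat_lit 0) (nat_lit 1) (nat_lit 0) (nat_lit 1) (nat_lit 0) (nat_lit 374) (nat_lit 418) (nat_lit 228)) (XT.nd (nat_lit 78) (nat_lit 0) (nat_lit 0) (XT.lf (nat_lit 0) (nat_lit 434463180666) (nat_lit 0) (nat_lit 0) (nat_lit 0) (nat_lit 0) (nat_lit 0) (nat_lit 0) (nat_lit 1) (nat_lit 0) (nat_lit 1) (nat_lit 0) (nat_lit 375) (nat_lit 418) (nat_lit 227)) (XT.lf (nat_lit 0) (nat_lit 434463167371) (nat_lit 0) (nat_lit 0) (nat_lit 0) (nat_lit 0) (nat_lit 0) (nat_lit 0) (nat_lit 1) (nat_lit 0) (nat_lit 1) (nat_lit 0) (nat_lit 376) (nat_lit 418) (nat_lit 226))))) (XT.nd (nat_lit 42510) (nat_lit 0) (nat_lit 11932) (XT.nd (nat_lit 42354) (nat_lit 0) (nat_lit 12388) (XT.lf (nat_lit 0) (nat_lit 434463155061) (nat_lit 0) (nat_lit 0) (nat_lit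 0) (nat_lit 0) (nat_lit 0) (nat_lit 0) (nat_lit 1) (nat_lit 0) (nat_lit 1) (nat_lit 0) (nat_lit 377) (nat_lit 418) (nat_lit 225)) (XT.nd (nat_lit 78) (nat_lit 76) (nat_lit 0) (XT.lf (nat_lit 152) (nat_lit 282176017192) (nat_lit 0) (nat_lit 7796848968) (nat_lit 76) (nat_lit 37514338962) (nat_lit 166) (nat_lit 1) (nat_lit 164) (nat_lit 1) (nat_lit 165) (nat_lit 1) (nat_lit 239) (nat_lit 419) (nat_lit 362)) (XT.lf (nat_lit 76) (nat_lit 111195884437) (nat_lit 0) (nat_lit 21631441559) (nat_lit 76) (nat_lit 186232115733) (nat_lit 164) (nat_lit 3) (nat_lit 163) (nat_lit 1) (nat_lit 164) (nat_lit 1) (nat_lit 240) (nat_lit 419) (nat_lit 361)))) (XT.nd (nat_lit 156) (nat_lit 228) (nat_lit 0) (XT.nd (nat_lit 78) (nat_lit 76) (nat_lit 0) (XT.lf (nat_lit 152) (nat_lit 259349377611) (nat_lit 0) (nat_lit 36244108128) (nat_lit 76) (nat_lit 15327648003) (nat_lit 163) (nat_lit 1) (nat_lit 161) (nat_lit 1) (nat_lit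 162) (nat_lit 1) (nat_lit 241) (nat_lit 419) (nat_lit 360)) (XT.lf (nat_lit 76) (nat_lit 96434887590) (nat_lit 0) (nat_lit 48792053036) (nat_lit 76) (nat_lit 157702958084) (nat_lit 161) (nat_lit 3) (nat_lit 160) (nat_lit 1) (nat_lit 161) (nat_lit 1) (nat_lit 242) (nat_lit 419) (nat_lit 359))) (XT.nd (nat_lit 78) (nat_lit 76) (nat_lit 0) (XT.lf (nat_lit 0) (nat_lit 4070356349) (nat_lit 0) (nat_lit 58098637209) (nat_lit 152) (nat_lit 233047722664) (nat_lit 158) (nat_lit 3) (nat_lit 158) (nat_lit 1) (nat_lit 160) (nat_lit 1) (nat_lit 243) (nat_lit 419) (nat_lit 358)) (XT.lf (nat_lit 76) (nat_lit 82027680978) (nat_lit 0) (nat_lit 73559335288) (nat_lit 76) (nat_lit 132053866960) (nat_lit 158) (nat_lit 3) (nat_lit 157) (nat_lit 1) (nat_lit 158) (nat_lit 1) (nat_lit 244) (nat_lit 419) (nat_lit 357)))))) (XT.nd (nat_lit 468) (nat_lit 836) (nat_lit 0) (XT.nd (nat_lit 234) (nat_lit 304) (nat_lit 0) (XT.nd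 (nat_lit 78) (nat_lit 228) (nat_lit 0) (XT.lf (nat_lit 0) (nat_lit 20700939745) (nat_lit 0) (nat_lit 64815742197) (nat_lit 152) (nat_lit 194800874918) (nat_lit 155) (nat_lit 3) (nat_lit 155) (nat_lit 1) (nat_lit 157) (nat_lit 1) (nat_lit 245) (nat_lit 419) (nat_lit 356)) (XT.nd (nat_lit 78) (nat_lit 152) (nat_lit 0) (XT.lf (nat_lit 76) (nat_lit 68135754251) (nat_lit 0) (nat_lit 96025969833) (nat_lit 76) (nat_lit 108982793558) (nat_lit 155) (nat_lit 3) (nat_lit 154) (nat_lit 1) (nat_lit 155) (nat_lit 1) (nat_lit 246) (nat_lit 419) (nat_lit 355)) (XT.lf (nat_lit 0) (nat_lit 35308122404) (nat_lit 0) (nat_lit 71328439254) (nat_lit 152) (nat_lit 159552893029) (nat_lit 152) (nat_lit 3) (nat_lit 152) (nat_lit 1) (nat_lit 154) (nat_lit 1) (nat_lit 247) (nat_lit 419) (nat_lit 354)))) (XT.nd (nat_lit 78) (nat_lit 228) (nat_lit 0) (XT.lf (nat_lit 76) (nat_lit 54873923965) (nat_lit 0) (nat_lit 116296353760)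 (nat_lit 76) (nat_lit 88226069196) (nat_lit 152) (nat_lit 3) (nat_lit 151) (nat_lit 1) (nat_lit 152) (nat_lit 1) (nat_lit 248) (nat_lit 419) (nat_lit 353)) (XT.nd (nat_lit 78) (nat_lit 76) (nat_lit 0) (XT.lf (nat_lit 0) (nat_lit 48112558420) (nat_lit 0) (nat_lit 77523621234) (nat_lit 152) (nat_lit 127153297954) (nat_lit 149) (nat_lit 3) (nat_lit 149) (nat_lit 1) (nat_lit 151) (nat_lit 1) (nat_lit 249) (nat_lit 419) (nat_lit 352)) (XT.lf (nat_lit 76) (nat_lit 42320051988) (nat_lit 0) (nat_lit 134482412749) (nat_lit 76) (nat_lit 69552517557) (nat_lit 149) (nat_lit 3) (nat_lit 148) (nat_lit 1) (nat_lit 149) (nat_lit 1) (nat_lit 250) (nat_lit 419) (nat_lit 351))))) (XT.nd (nat_lit 234) (nat_lit 456) (nat_lit 0) (XT.nd (nat_lit 78) (nat_lit 228) (nat_lit 0) (XT.lf (nat_lit 0) (nat_lit 59307155973) (nat_lit 0) (nat_lit 83321675875) (nat_lit 152) (nat_lit 97448768001) (nat_lit 146) (nat_lit 3) (nat_lit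 146) (nat_lit 1) (nat_lit 148) (nat_lit 1) (nat_lit 251) (nat_lit 419) (nat_lit 350)) (XT.nd (nat_lit 78) (nat_lit 152) (nat_lit 0) (XT.lf (nat_lit 76) (nat_lit 30522906930) (nat_lit 0) (nat_lit 150700316062) (nat_lit 76) (nat_lit 52758573506) (nat_lit 146) (nat_lit 3) (nat_lit 145) (nat_lit 1) (nat_lit 146) (nat_lit 1) (nat_lit 252) (nat_lit 419) (nat_lit 349)) (XT.lf (nat_lit 0) (nat_lit 69061256515) (nat_lit 0) (nat_lit 88669428099) (nat_lit 152) (nat_lit 70285736034) (nat_lit 143) (nat_lit 3) (nat_lit 143) (nat_lit 1) (nat_lit 145) (nat_lit 1) (nat_lit 253) (nat_lit 419) (nat_lit 348)))) (XT.nd (nat_lit 156) (nat_lit 228) (nat_lit 0) (XT.nd (nat_lit 78) (nat_lit 152) (nat_lit 0) (XT.lf (nat_lit 76) (nat_lit 19508513885) (nat_lit 0) (nat_lit 165067919601) (nat_lit 76) (nat_lit 37664228314) (nat_lit 143) (nat_lit 3) (nat_lit 142) (nat_lit 1) (nat_lit 143) (nat_lit 1) (nat_lit 254) (nat_lit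 419) (nat_lit 347)) (XT.lf (nat_lit 0) (nat_lit 77524107266) (nat_lit 0) (nat_lit 93534437451) (nat_lit 152) (nat_lit 45512377037) (nat_lit 140) (nat_lit 3) (nat_lit 140) (nat_lit 1) (nat_lit 142) (nat_lit 1) (nat_lit 255) (nat_lit 419) (nat_lit 346))) (XT.nd (nat_lit 78) (nat_lit 152) (nat_lit 0) (XT.lf (nat_lit 76) (nat_lit 9285274118) (nat_lit 0) (nat_lit 177702795596) (nat_lit 76) (nat_lit 24109653918) (nat_lit 140) (nat_lit 3) (nat_lit 139) (nat_lit 1) (nat_lit 140) (nat_lit 1) (nat_lit 256) (nat_lit 419) (nat_lit 345)) (XT.lf (nat_lit 0) (nat_lit 84827752908) (nat_lit 0) (nat_lit 97900398235) (nat_lit 152) (nat_lit 22980106086) (nat_lit 137) (nat_lit 3) (nat_lit 137) (nat_lit 1) (nat_lit 139) (nat_lit 1) (nat_lit 257) (nat_lit 419) (nat_lit 344))))))) (XT.nd (nat_lit 1014) (nat_lit 1672) (nat_lit 0) (XT.nd (nat_lit 468) (nat_lit 836) (nat_lit 0) (XT.nd (nat_lit 234) (nat_lit 304) (nat_lit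 0) (XT.nd (nat_lit 78) (nat_lit 304) (nat_lit 0) (XT.lf (nat_lit 76) (nat_lit 188571190135) (nat_lit 0) (nat_lit 147053328) (nat_lit 152) (nat_lit 11802841904) (nat_lit 136) (nat_lit 1) (nat_lit 135) (nat_lit 1) (nat_lit 137) (nat_lit 1) (nat_lit 258) (nat_lit 419) (nat_lit 343)) (XT.nd (nat_lit 78) (nat_lit 228) (nat_lit 0) (XT.lf (nat_lit 0) (nat_lit 91089449494) (nat_lit 0) (nat_lit 101763436468) (nat_lit 152) (nat_lit 2544684300) (nat_lit 134) (nat_lit 3) (nat_lit 134) (nat_lit 1) (nat_lit 136) (nat_lit 1) (nat_lit 259) (nat_lit 419) (nat_lit 342)) (XT.lf (nat_lit 152) (nat_lit 181809255702) (nat_lit 0) (nat_lit 7867522396) (nat_lit 76) (nat_lit 791425734) (nat_lit 133) (nat_lit 1) (nat_lit 131) (nat_lit 1) (nat_lit 132) (nat_lit 1) (nat_lit 260) (nat_lit 419) (nat_lit 341)))) (XT.nd (nat_lit 78) (nat_lit 228) (nat_lit 0) (XT.lf (nat_lit 76) (nat_lit 80210864011) (nat_lit 0) (nat_lit 16459804583)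 (nat_lit 76) (nat_lit 88926314868) (nat_lit 131) (nat_lit 3) (nat_lit 130) (nat_lit 1) (nat_lit 131) (nat_lit 1) (nat_lit 261) (nat_lit 419) (nat_lit 340)) (XT.nd (nat_lit 78) (nat_lit 76) (nat_lit 0) (XT.lf (nat_lit 0) (nat_lit 9067408909) (nat_lit 0) (nat_lit 16752991676) (nat_lit 152) (nat_lit 155088626009) (nat_lit 128) (nat_lit 3) (nat_lit 128) (nat_lit 1) (nat_lit 130) (nat_lit 1) (nat_lit 262) (nat_lit 419) (nat_lit 339)) (XT.lf (nat_lit 76) (nat_lit 67755682750) (nat_lit 0) (nat_lit 33663778155) (nat_lit 76) (nat_lit 74871963090) (nat_lit 128) (nat_lit 3) (nat_lit 127) (nat_lit 1) (nat_lit 128) (nat_lit 1) (nat_lit 263) (nat_lit 419) (nat_lit 338))))) (XT.nd (nat_lit 234) (nat_lit 456) (nat_lit 0) (XT.nd (nat_lit 78) (nat_lit 228) (nat_lit 0) (XT.lf (nat_lit 0) (nat_lit 17841965451) (nat_lit 0) (nat_lit 24117344939) (nat_lit 152) (nat_lit 129874683757) (nat_lit 125) (nat_lit 3) (nat_lit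 125) (nat_lit 1) (nat_lit 127) (nat_lit 1) (nat_lit 264) (nat_lit 419) (nat_lit 337)) (XT.nd (nat_lit 78) (nat_lit 152) (nat_lit 0) (XT.lf (nat_lit 76) (nat_lit 56265915642) (nat_lit 0) (nat_lit 49114694085) (nat_lit 76) (nat_lit 62076452205) (nat_lit 125) (nat_lit 3) (nat_lit 124) (nat_lit 1) (nat_lit 125) (nat_lit 1) (nat_lit 265) (nat_lit 419) (nat_lit 336)) (XT.lf (nat_lit 0) (nat_lit 25650262623) (nat_lit 0) (nat_lit 30774192572) (nat_lit 152) (nat_lit 106794072073) (nat_lit 122) (nat_lit 3) (nat_lit 122) (nat_lit 1) (nat_lit 124) (nat_lit 1) (nat_lit 266) (nat_lit 419) (nat_lit 335)))) (XT.nd (nat_lit 156) (nat_lit 228) (nat_lit 0) (XT.nd (nat_lit 78) (nat_lit 152) (nat_lit 0) (XT.lf (nat_lit 76) (nat_lit 45693686291) (nat_lit 0) (nat_lit 62937718019) (nat_lit 76) (nat_lit 50438065874) (nat_lit 122) (nat_lit 3) (nat_lit 121) (nat_lit 1) (nat_lit 122) (nat_lit 1) (nat_lit 267) (nat_lit 419)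 (nat_lit 334)) (XT.lf (nat_lit 0) (nat_lit 32576442698) (nat_lit 0) (nat_lit 36760198944) (nat_lit 152) (nat_lit 85702193747) (nat_lit 119) (nat_lit 3) (nat_lit 119) (nat_lit 1) (nat_lit 121) (nat_lit 1) (nat_lit 268) (nat_lit 419) (nat_lit 333))) (XT.nd (nat_lit 78) (nat_lit 152) (nat_lit 0) (XT.lf (nat_lit 76) (nat_lit 35990109352) (nat_lit 0) (nat_lit 75251509500) (nat_lit 76) (nat_lit 39863957728) (nat_lit 119) (nat_lit 3) (nat_lit 118) (nat_lit 1) (nat_lit 119) (nat_lit 1) (nat_lit 269) (nat_lit 419) (nat_lit 332)) (XT.lf (nat_lit 0) (nat_lit 38697068751) (nat_lit 0) (nat_lit 42113160794) (nat_lit 152) (nat_lit 66462209896) (nat_lit 116) (nat_lit 3) (nat_lit 116) (nat_lit 1) (nat_lit 118) (nat_lit 1) (nat_lit 270) (nat_lit 419) (nat_lit 331)))))) (XT.nd (nat_lit 546) (nat_lit 912) (nat_lit 0) (XT.nd (nat_lit 234) (nat_lit 456) (nat_lit 0) (XT.nd (nat_lit 78) (nat_lit 228) (nat_lit 0) (XT.lf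 (nat_lit 76) (nat_lit 27106141344) (nat_lit 0) (nat_lit 86168242797) (nat_lit 76) (nat_lit 30269189531) (nat_lit 116) (nat_lit 3) (nat_lit 115) (nat_lit 1) (nat_lit 116) (nat_lit 1) (nat_lit 271) (nat_lit 419) (nat_lit 330)) (XT.nd (nat_lit 78) (nat_lit 76) (nat_lit 0) (XT.lf (nat_lit 0) (nat_lit 44081953494) (nat_lit 0) (nat_lit 46871237610) (nat_lit 152) (nat_lit 48944894915) (nat_lit 113) (nat_lit 3) (nat_lit 113) (nat_lit 1) (nat_lit 115) (nat_lit 1) (nat_lit 272) (nat_lit 419) (nat_lit 329)) (XT.lf (nat_lit 76) (nat_lit 18993232718) (nat_lit 0) (nat_lit 95793701090) (nat_lit 76) (nat_lit 21575903196) (nat_lit 113) (nat_lit 3) (nat_lit 112) (nat_lit 1) (nat_lit 113) (nat_lit 1) (nat_lit 273) (nat_lit 419) (nat_lit 328)))) (XT.nd (nat_lit 156) (nat_lit 228) (nat_lit 0) (XT.nd (nat_lit 78) (nat_lit 76) (nat_lit 0) (XT.lf (nat_lit 0) (nat_lit 48794873053) (nat_lit 0) (nat_lit 51072360246) (nat_lit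 152) (nat_lit 33028436090) (nat_lit 110) (nat_lit 3) (nat_lit 110) (nat_lit 1) (nat_lit 112) (nat_lit 1) (nat_lit 274) (nat_lit 419) (nat_lit 327)) (XT.lf (nat_lit 76) (nat_lit 11603820302) (nat_lit 0) (nat_lit 104227425700) (nat_lit 76) (nat_lit 13712604740) (nat_lit 110) (nat_lit 3) (nat_lit 109) (nat_lit 1) (nat_lit 110) (nat_lit 1) (nat_lit 275) (nat_lit 419) (nat_lit 326))) (XT.nd (nat_lit 78) (nat_lit 76) (nat_lit 0) (XT.lf (nat_lit 0) (nat_lit 52894184487) (nat_lit 0) (nat_lit 54753782757) (nat_lit 152) (nat_lit 18598193095) (nat_lit 107) (nat_lit 3) (nat_lit 107) (nat_lit 1) (nat_lit 109) (nat_lit 1) (nat_lit 276) (nat_lit 419) (nat_lit 325)) (XT.lf (nat_lit 76) (nat_lit 4891691857) (nat_lit 0) (nat_lit 111562905719) (nat_lit 76) (nat_lit 6613542108) (nat_lit 107) (nat_lit 3) (nat_lit 106) (nat_lit 1) (nat_lit 107) (nat_lit 1) (nat_lit 277) (nat_lit 419) (nat_lit 324))))) (XT.nd (nat_lit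 234) (nat_lit 456) (nat_lit 0) (XT.nd (nat_lit 78) (nat_lit 304) (nat_lit 0) (XT.lf (nat_lit 0) (nat_lit 56433362522) (nat_lit 0) (nat_lit 57951748986) (nat_lit 152) (nat_lit 5546429473) (nat_lit 104) (nat_lit 3) (nat_lit 104) (nat_lit 1) (nat_lit 106) (nat_lit 1) (nat_lit 278) (nat_lit 419) (nat_lit 323)) (XT.nd (nat_lit 78) (nat_lit 76) (nat_lit 0) (XT.lf (nat_lit 152) (nat_lit 115751437262) (nat_lit 0) (nat_lit 982491223) (nat_lit 76) (nat_lit 182584198) (nat_lit 103) (nat_lit 1) (nat_lit 101) (nat_lit 1) (nat_lit 102) (nat_lit 1) (nat_lit 279) (nat_lit 419) (nat_lit 322)) (XT.lf (nat_lit 76) (nat_lit 53128020230) (nat_lit 0) (nat_lit 6433899232) (nat_lit 76) (nat_lit 54367802763) (nat_lit 101) (nat_lit 3) (nat_lit 100) (nat_lit 1) (nat_lit 101) (nat_lit 1) (nat_lit 280) (nat_lit 419) (nat_lit 321)))) (XT.nd (nat_lit 156) (nat_lit 228) (nat_lit 0) (XT.nd (nat_lit 78) (nat_lit 76) (nat_lit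 0) (XT.lf (nat_lit 0) (nat_lit 5656753777) (nat_lit 0) (nat_lit 6750036434) (nat_lit 152) (nat_lit 98651151337) (nat_lit 98) (nat_lit 3) (nat_lit 98) (nat_lit 1) (nat_lit 100) (nat_lit 1) (nat_lit 281) (nat_lit 419) (nat_lit 320)) (XT.lf (nat_lit 76) (nat_lit 44918890238) (nat_lit 0) (nat_lit 17375957611) (nat_lit 76) (nat_lit 45931188995) (nat_lit 98) (nat_lit 3) (nat_lit 97) (nat_lit 1) (nat_lit 98) (nat_lit 1) (nat_lit 282) (nat_lit 419) (nat_lit 319))) (XT.nd (nat_lit 78) (nat_lit 76) (nat_lit 0) (XT.lf (nat_lit 0) (nat_lit 10885665007) (nat_lit 0) (nat_lit 11778344687) (nat_lit 152) (nat_lit 82830544424) (nat_lit 95) (nat_lit 3) (nat_lit 95) (nat_lit 1) (nat_lit 97) (nat_lit 1) (nat_lit 283) (nat_lit 419) (nat_lit 318)) (XT.lf (nat_lit 76) (nat_lit 37397465062) (nat_lit 0) (nat_lit 27188074982) (nat_lit 76) (nat_lit 38224020321) (nat_lit 95) (nat_lit 3) (nat_lit 94) (nat_lit 1) (nat_lit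 95) (nat_lit 1) (nat_lit 284) (nat_lit 419) (nat_lit 317))))))))
noncomputable def ec253 : XT := (XT.nd (nat_lit 2106) (nat_lit 3344) (nat_lit 0) (XT.nd (nat_lit 1014) (nat_lit 1672) (nat_lit 0) (XT.nd (nat_lit 468) (nat_lit 836) (nat_lit 0) (XT.nd (nat_lit 234) (nat_lit 304) (nat_lit 0) (XT.nd (nat_lit 78) (nat_lit 228) (nat_lit 0) (XT.lf (nat_lit 0) (nat_lit 15558094818) (nat_lit 0) (nat_lit 16286979526) (nat_lit 152) (nat_lit 68366389837) (nat_lit 92) (nat_lit 3) (nat_lit 92) (nat_lit 1) (nat_lit 94) (nat_lit 1) (nat_lit 285) (nat_lit 419) (nat_lit 316)) (XT.nd (nat_lit 78) (nat_lit 152) (nat_lit 0) (XT.lf (nat_lit 76) (nat_lit 30517367868) (nat_lit 0) (nat_lit 35956068138) (nat_lit 76) (nat_lit 31192261116) (nat_lit 92) (nat_lit 3) (nat_lit 91) (nat_lit 1) (nat_lit 92) (nat_lit 1) (nat_lit 286) (nat_lit 419) (nat_lit 315)) (XT.lf (nat_lit 0) (nat_lit 19718537720) (nat_lit 0) (nat_lit 20313681678)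 (nat_lit 152) (nat_lit 55162205069) (nat_lit 89) (nat_lit 3) (nat_lit 89) (nat_lit 1) (nat_lit 91) (nat_lit 1) (nat_lit 287) (nat_lit 419) (nat_lit 314)))) (XT.nd (nat_lit 78) (nat_lit 228) (nat_lit 0) (XT.lf (nat_lit 76) (nat_lit 24234694220) (nat_lit 0) (nat_lit 43760160937) (nat_lit 76) (nat_lit 24785753440) (nat_lit 89) (nat_lit 3) (nat_lit 88) (nat_lit 1) (nat_lit 89) (nat_lit 1) (nat_lit 288) (nat_lit 419) (nat_lit 313)) (XT.nd (nat_lit 78) (nat_lit 76) (nat_lit 0) (XT.lf (nat_lit 0) (nat_lit 23408172550) (nat_lit 0) (nat_lit 23894115425) (nat_lit 152) (nat_lit 43127638021) (nat_lit 86) (nat_lit 3) (nat_lit 86) (nat_lit 1) (nat_lit 88) (nat_lit 1) (nat_lit 289) (nat_lit 419) (nat_lit 312)) (XT.lf (nat_lit 76) (nat_lit 18507968449) (nat_lit 0) (nat_lit 50675287805) (nat_lit 76) (nat_lit 18957915556) (nat_lit 86) (nat_lit 3) (nat_lit 85) (nat_lit 1) (nat_lit 86) (nat_lit 1) (nat_lit 290)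 (nat_lit 419) (nat_lit 311))))) (XT.nd (nat_lit 234) (nat_lit 456) (nat_lit 0) (XT.nd (nat_lit 78) (nat_lit 228) (nat_lit 0) (XT.lf (nat_lit 0) (nat_lit 26665124645) (nat_lit 0) (nat_lit 27061903399) (nat_lit 152) (nat_lit 32178129650) (nat_lit 83) (nat_lit 3) (nat_lit 83) (nat_lit 1) (nat_lit 85) (nat_lit 1) (nat_lit 291) (nat_lit 419) (nat_lit 310)) (XT.nd (nat_lit 78) (nat_lit 152) (nat_lit 0) (XT.lf (nat_lit 76) (nat_lit 13298081792) (nat_lit 0) (nat_lit 56771389065) (nat_lit 76) (nat_lit 13665469527) (nat_lit 83) (nat_lit 3) (nat_lit 82) (nat_lit 1) (nat_lit 83) (nat_lit 1) (nat_lit 292) (nat_lit 419) (nat_lit 309)) (XT.lf (nat_lit 0) (nat_lit 29524702729) (nat_lit 0) (nat_lit 29848677804) (nat_lit 152) (nat_lit 22234588070) (nat_lit 80) (nat_lit 3) (nat_lit 80) (nat_lit 1) (nat_lit 82) (nat_lit 1) (nat_lit 293) (nat_lit 419) (nat_lit 308)))) (XT.nd (nat_lit 156) (nat_lit 228) (nat_lit 0)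 (XT.nd (nat_lit 78) (nat_lit 152) (nat_lit 0) (XT.lf (nat_lit 76) (nat_lit 8568217254) (nat_lit 0) (nat_lit 62113696616) (nat_lit 76) (nat_lit 8868194175) (nat_lit 80) (nat_lit 3) (nat_lit 79) (nat_lit 1) (nat_lit 80) (nat_lit 1) (nat_lit 294) (nat_lit 419) (nat_lit 307)) (XT.lf (nat_lit 0) (nat_lit 32019613692) (nat_lit 0) (nat_lit 32284143604) (nat_lit 152) (nat_lit 13223075104) (nat_lit 77) (nat_lit 3) (nat_lit 77) (nat_lit 1) (nat_lit 79) (nat_lit 1) (nat_lit 295) (nat_lit 419) (nat_lit 306))) (XT.nd (nat_lit 78) (nat_lit 152) (nat_lit 0) (XT.lf (nat_lit 76) (nat_lit 4283765165) (nat_lit 0) (nat_lit 66763008944) (nat_lit 76) (nat_lit 4528700270) (nat_lit 77) (nat_lit 3) (nat_lit 76) (nat_lit 1) (nat_lit 77) (nat_lit 1) (nat_lit 296) (nat_lit 419) (nat_lit 305)) (XT.lf (nat_lit 0) (nat_lit 34180157994) (nat_lit 0) (nat_lit 34396150149) (nat_lit 152) (nat_lit 5074505943) (nat_lit 74) (nat_lit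 3) (nat_lit 74) (nat_lit 1) (nat_lit 76) (nat_lit 1) (nat_lit 297) (nat_lit 419) (nat_lit 304)))))) (XT.nd (nat_lit 546) (nat_lit 760) (nat_lit 0) (XT.nd (nat_lit 234) (nat_lit 456) (nat_lit 0) (XT.nd (nat_lit 78) (nat_lit 380) (nat_lit 0) (XT.lf (nat_lit 76) (nat_lit 412232553) (nat_lit 0) (nat_lit 70775954776) (nat_lit 76) (nat_lit 612225290) (nat_lit 74) (nat_lit 3) (nat_lit 73) (nat_lit 1) (nat_lit 74) (nat_lit 1) (nat_lit 298) (nat_lit 419) (nat_lit 303)) (XT.nd (nat_lit 78) (nat_lit 152) (nat_lit 0) (XT.lf (nat_lit 76) (nat_lit 33720231193) (nat_lit 0) (nat_lit 2350880618) (nat_lit 76) (nat_lit 33896591631) (nat_lit 71) (nat_lit 3) (nat_lit 70) (nat_lit 1) (nat_lit 71) (nat_lit 1) (nat_lit 299) (nat_lit 419) (nat_lit 302)) (XT.lf (nat_lit 0) (nat_lit 2966544182) (nat_lit 0) (nat_lit 3122064850) (nat_lit 152) (nat_lit 62116643791) (nat_lit 68) (nat_lit 3) (nat_lit 68) (nat_lit 1) (nat_lit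 70) (nat_lit 1) (nat_lit 300) (nat_lit 419) (nat_lit 301)))) (XT.nd (nat_lit 156) (nat_lit 228) (nat_lit 0) (XT.nd (nat_lit 78) (nat_lit 152) (nat_lit 0) (XT.lf (nat_lit 76) (nat_lit 28570274332) (nat_lit 0) (nat_lit 9181444793) (nat_lit 76) (nat_lit 28714274951) (nat_lit 68) (nat_lit 3) (nat_lit 67) (nat_lit 1) (nat_lit 68) (nat_lit 1) (nat_lit 301) (nat_lit 419) (nat_lit 300)) (XT.lf (nat_lit 0) (nat_lit 6182614726) (nat_lit 0) (nat_lit 6309599398) (nat_lit 152) (nat_lit 52297302789) (nat_lit 65) (nat_lit 3) (nat_lit 65) (nat_lit 1) (nat_lit 67) (nat_lit 1) (nat_lit 302) (nat_lit 419) (nat_lit 299))) (XT.nd (nat_lit 78) (nat_lit 152) (nat_lit 0) (XT.lf (nat_lit 76) (nat_lit 23857681139) (nat_lit 0) (nat_lit 15307450395) (nat_lit 76) (nat_lit 23975259539) (nat_lit 65) (nat_lit 3) (nat_lit 64) (nat_lit 1) (nat_lit 65) (nat_lit 1) (nat_lit 303) (nat_lit 419) (nat_lit 298)) (XT.lf (nat_lit 0) (nat_lit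 9060719356) (nat_lit 0) (nat_lit 9164404013) (nat_lit 152) (nat_lit 43320552711) (nat_lit 62) (nat_lit 3) (nat_lit 62) (nat_lit 1) (nat_lit 64) (nat_lit 1) (nat_lit 304) (nat_lit 419) (nat_lit 297))))) (XT.nd (nat_lit 234) (nat_lit 456) (nat_lit 0) (XT.nd (nat_lit 78) (nat_lit 228) (nat_lit 0) (XT.lf (nat_lit 76) (nat_lit 19551473461) (nat_lit 0) (nat_lit 20783035371) (nat_lit 76) (nat_lit 19647477773) (nat_lit 62) (nat_lit 3) (nat_lit 61) (nat_lit 1) (nat_lit 62) (nat_lit 1) (nat_lit 305) (nat_lit 419) (nat_lit 296)) (XT.nd (nat_lit 78) (nat_lit 76) (nat_lit 0) (XT.lf (nat_lit 0) (nat_lit 11627240446) (nat_lit 0) (nat_lit 11711900333) (nat_lit 152) (nat_lit 35125889625) (nat_lit 59) (nat_lit 3) (nat_lit 59) (nat_lit 1) (nat_lit 61) (nat_lit 1) (nat_lit 306) (nat_lit 419) (nat_lit 295)) (XT.lf (nat_lit 76) (nat_lit 15622635766) (nat_lit 0) (nat_lit 25658666974) (nat_lit 76) (nat_lit 15701024550)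 (nat_lit 59) (nat_lit 3) (nat_lit 58) (nat_lit 1) (nat_lit 59) (nat_lit 1) (nat_lit 307) (nat_lit 419) (nat_lit 294)))) (XT.nd (nat_lit 156) (nat_lit 228) (nat_lit 0) (XT.nd (nat_lit 78) (nat_lit 76) (nat_lit 0) (XT.lf (nat_lit 0) (nat_lit 13906710387) (nat_lit 0) (nat_lit 13975836299) (nat_lit 152) (nat_lit 27656777248) (nat_lit 56) (nat_lit 3) (nat_lit 56) (nat_lit 1) (nat_lit 58) (nat_lit 1) (nat_lit 308) (nat_lit 419) (nat_lit 293)) (XT.lf (nat_lit 76) (nat_lit 12044007571) (nat_lit 0) (nat_lit 29981369961) (nat_lit 76) (nat_lit 12108013045) (nat_lit 56) (nat_lit 3) (nat_lit 55) (nat_lit 1) (nat_lit 56) (nat_lit 1) (nat_lit 309) (nat_lit 419) (nat_lit 292))) (XT.nd (nat_lit 78) (nat_lit 76) (nat_lit 0) (XT.lf (nat_lit 0) (nat_lit 15921937717) (nat_lit 0) (nat_lit 15978379934) (nat_lit 152) (nat_lit 20860403991) (nat_lit 53) (nat_lit 3) (nat_lit 53) (nat_lit 1) (nat_lit 55) (nat_lit 1) (nat_lit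 310) (nat_lit 419) (nat_lit 291)) (XT.lf (nat_lit 76) (nat_lit 8790179468) (nat_lit 0) (nat_lit 33794942196) (nat_lit 76) (nat_lit 8842440780) (nat_lit 53) (nat_lit 3) (nat_lit 52) (nat_lit 1) (nat_lit 53) (nat_lit 1) (nat_lit 311) (nat_lit 419) (nat_lit 290))))))) (XT.nd (nat_lit 1014) (nat_lit 1748) (nat_lit 0) (XT.nd (nat_lit 468) (nat_lit 912) (nat_lit 0) (XT.nd (nat_lit 234) (nat_lit 304) (nat_lit 0) (XT.nd (nat_lit 78) (nat_lit 228) (nat_lit 0) (XT.lf (nat_lit 0) (nat_lit 17694124142) (nat_lit 0) (nat_lit 17740209955) (nat_lit 152) (nat_lit 14687453531) (nat_lit 50) (nat_lit 3) (nat_lit 50) (nat_lit 1) (nat_lit 52) (nat_lit 1) (nat_lit 312) (nat_lit 419) (nat_lit 289)) (XT.nd (nat_lit 78) (nat_lit 152) (nat_lit 0) (XT.lf (nat_lit 76) (nat_lit 5837393058) (nat_lit 0) (nat_lit 37140158111) (nat_lit 76) (nat_lit 5880065107) (nat_lit 50) (nat_lit 3) (nat_lit 49) (nat_lit 1) (nat_lit 50) (nat_lit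 1) (nat_lit 313) (nat_lit 419) (nat_lit 288)) (XT.lf (nat_lit 0) (nat_lit 19242973257) (nat_lit 0) (nat_lit 19280602929) (nat_lit 152) (nat_lit 9091888327) (nat_lit 47) (nat_lit 3) (nat_lit 47) (nat_lit 1) (nat_lit 49) (nat_lit 1) (nat_lit 314) (nat_lit 419) (nat_lit 287)))) (XT.nd (nat_lit 78) (nat_lit 228) (nat_lit 0) (XT.lf (nat_lit 76) (nat_lit 3163445031) (nat_lit 0) (nat_lit 40054960545) (nat_lit 76) (nat_lit 3198287321) (nat_lit 47) (nat_lit 3) (nat_lit 46) (nat_lit 1) (nat_lit 47) (nat_lit 1) (nat_lit 315) (nat_lit 419) (nat_lit 286)) (XT.nd (nat_lit 78) (nat_lit 76) (nat_lit 0) (XT.lf (nat_lit 0) (nat_lit 20586791639) (nat_lit 0) (nat_lit 20617516762) (nat_lit 152) (nat_lit 4030745519) (nat_lit 44) (nat_lit 3) (nat_lit 44) (nat_lit 1) (nat_lit 46) (nat_lit 1) (nat_lit 316) (nat_lit 419) (nat_lit 285)) (XT.lf (nat_lit 76) (nat_lit 747595497) (nat_lit 0) (nat_lit 42574641470) (nat_lit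 76) (nat_lit 776044685) (nat_lit 44) (nat_lit 3) (nat_lit 43) (nat_lit 1) (nat_lit 44) (nat_lit 1) (nat_lit 317) (nat_lit 419) (nat_lit 284))))) (XT.nd (nat_lit 234) (nat_lit 456) (nat_lit 0) (XT.nd (nat_lit 78) (nat_lit 228) (nat_lit 0) (XT.lf (nat_lit 76) (nat_lit 21197449215) (nat_lit 0) (nat_lit 553779796) (nat_lit 76) (nat_lit 21222536682) (nat_lit 41) (nat_lit 3) (nat_lit 40) (nat_lit 1) (nat_lit 41) (nat_lit 1) (nat_lit 318) (nat_lit 419) (nat_lit 283)) (XT.nd (nat_lit 78) (nat_lit 76) (nat_lit 0) (XT.lf (nat_lit 0) (nat_lit 1430087653) (nat_lit 0) (nat_lit 1452210640) (nat_lit 152) (nat_lit 39009366033) (nat_lit 38) (nat_lit 3) (nat_lit 38) (nat_lit 1) (nat_lit 40) (nat_lit 1) (nat_lit 319) (nat_lit 419) (nat_lit 282)) (XT.lf (nat_lit 76) (nat_lit 18001561591) (nat_lit 0) (nat_lit 4799507808) (nat_lit 76) (nat_lit 18022045839) (nat_lit 38) (nat_lit 3) (nat_lit 37) (nat_lit 1) (nat_lit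 38) (nat_lit 1) (nat_lit 320) (nat_lit 419) (nat_lit 281)))) (XT.nd (nat_lit 156) (nat_lit 228) (nat_lit 0) (XT.nd (nat_lit 78) (nat_lit 76) (nat_lit 0) (XT.lf (nat_lit 0) (nat_lit 3422807372) (nat_lit 0) (nat_lit 3440871083) (nat_lit 152) (nat_lit 32930103755) (nat_lit 35) (nat_lit 3) (nat_lit 35) (nat_lit 1) (nat_lit 37) (nat_lit 1) (nat_lit 321) (nat_lit 419) (nat_lit 280)) (XT.lf (nat_lit 76) (nat_lit 15077353290) (nat_lit 0) (nat_lit 8609164454) (nat_lit 76) (nat_lit 15094078948) (nat_lit 35) (nat_lit 3) (nat_lit 34) (nat_lit 1) (nat_lit 35) (nat_lit 1) (nat_lit 322) (nat_lit 419) (nat_lit 279))) (XT.nd (nat_lit 78) (nat_lit 76) (nat_lit 0) (XT.lf (nat_lit 0) (nat_lit 5207609026) (nat_lit 0) (nat_lit 5222358283) (nat_lit 152) (nat_lit 27371483268) (nat_lit 32) (nat_lit 3) (nat_lit 32) (nat_lit 1) (nat_lit 34) (nat_lit 1) (nat_lit 323) (nat_lit 419) (nat_lit 278)) (XT.lf (nat_lit 76) (nat_lit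 12405394067) (nat_lit 0) (nat_lit 12016301400) (nat_lit 76) (nat_lit 12419050787) (nat_lit 32) (nat_lit 3) (nat_lit 31) (nat_lit 1) (nat_lit 32) (nat_lit 1) (nat_lit 324) (nat_lit 419) (nat_lit 277)))))) (XT.nd (nat_lit 546) (nat_lit 912) (nat_lit 0) (XT.nd (nat_lit 234) (nat_lit 456) (nat_lit 0) (XT.nd (nat_lit 78) (nat_lit 228) (nat_lit 0) (XT.lf (nat_lit 0) (nat_lit 6800608792) (nat_lit 0) (nat_lit 6812651755) (nat_lit 152) (nat_lit 22296071897) (nat_lit 29) (nat_lit 3) (nat_lit 29) (nat_lit 1) (nat_lit 31) (nat_lit 1) (nat_lit 325) (nat_lit 419) (nat_lit 276)) (XT.nd (nat_lit 78) (nat_lit 152) (nat_lit 0) (XT.lf (nat_lit 76) (nat_lit 9967524880) (nat_lit 0) (nat_lit 15052177132) (nat_lit 76) (nat_lit 9978675771) (nat_lit 29) (nat_lit 3) (nat_lit 28) (nat_lit 1) (nat_lit 29) (nat_lit 1) (nat_lit 326) (nat_lit 419) (nat_lit 275)) (XT.lf (nat_lit 0) (nat_lit 8216810644) (nat_lit 0) (nat_lit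 8226643882) (nat_lit 152) (nat_lit 17668907688) (nat_lit 26) (nat_lit 3) (nat_lit 26) (nat_lit 1) (nat_lit 28) (nat_lit 1) (nat_lit 327) (nat_lit 419) (nat_lit 274)))) (XT.nd (nat_lit 156) (nat_lit 228) (nat_lit 0) (XT.nd (nat_lit 78) (nat_lit 152) (nat_lit 0) (XT.lf (nat_lit 76) (nat_lit 7746780194) (nat_lit 0) (nat_lit 17745903333) (nat_lit 76) (nat_lit 7755885043) (nat_lit 26) (nat_lit 3) (nat_lit 25) (nat_lit 1) (nat_lit 26) (nat_lit 1) (nat_lit 328) (nat_lit 419) (nat_lit 273)) (XT.lf (nat_lit 0) (nat_lit 9470178982) (nat_lit 0) (nat_lit 9478207950) (nat_lit 152) (nat_lit 13457344830) (nat_lit 23) (nat_lit 3) (nat_lit 23) (nat_lit 1) (nat_lit 25) (nat_lit 1) (nat_lit 329) (nat_lit 419) (nat_lit 272))) (XT.nd (nat_lit 78) (nat_lit 152) (nat_lit 0) (XT.lf (nat_lit 76) (nat_lit 5727314600) (nat_lit 0) (nat_lit 20124582428) (nat_lit 76) (nat_lit 5734748830) (nat_lit 23) (nat_lit 3) (nat_lit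 22) (nat_lit 1) (nat_lit 23) (nat_lit 1) (nat_lit 330) (nat_lit 419) (nat_lit 271)) (XT.lf (nat_lit 0) (nat_lit 10573706583) (nat_lit 0) (nat_lit 10580262341) (nat_lit 152) (nat_lit 9630908328) (nat_lit 20) (nat_lit 3) (nat_lit 20) (nat_lit 1) (nat_lit 22) (nat_lit 1) (nat_lit 331) (nat_lit 419) (nat_lit 270))))) (XT.nd (nat_lit 234) (nat_lit 608) (nat_lit 0) (XT.nd (nat_lit 78) (nat_lit 228) (nat_lit 0) (XT.lf (nat_lit 76) (nat_lit 3894333566) (nat_lit 0) (nat_lit 22213436785) (nat_lit 76) (nat_lit 3900403713) (nat_lit 20) (nat_lit 3) (nat_lit 19) (nat_lit 1) (nat_lit 20) (nat_lit 1) (nat_lit 332) (nat_lit 419) (nat_lit 269)) (XT.nd (nat_lit 78) (nat_lit 76) (nat_lit 0) (XT.lf (nat_lit 0) (nat_lit 11539478197) (nat_lit 0) (nat_lit 11544831060) (nat_lit 152) (nat_lit 6161157386) (nat_lit 17) (nat_lit 3) (nat_lit 17) (nat_lit 1) (nat_lit 19) (nat_lit 1) (nat_lit 333) (nat_lit 419) (nat_lit 268))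 (XT.lf (nat_lit 76) (nat_lit 2234028132) (nat_lit 0) (nat_lit 24035930028) (nat_lit 76) (nat_lit 2238984486) (nat_lit 17) (nat_lit 3) (nat_lit 16) (nat_lit 1) (nat_lit 17) (nat_lit 1) (nat_lit 334) (nat_lit 419) (nat_lit 267)))) (XT.nd (nat_lit 156) (nat_lit 380) (nat_lit 0) (XT.nd (nat_lit 78) (nat_lit 76) (nat_lit 0) (XT.lf (nat_lit 0) (nat_lit 12378730058) (nat_lit 0) (nat_lit 12383100741) (nat_lit 152) (nat_lit 3021557034) (nat_lit 14) (nat_lit 3) (nat_lit 14) (nat_lit 1) (nat_lit 16) (nat_lit 1) (nat_lit 335) (nat_lit 419) (nat_lit 266)) (XT.lf (nat_lit 76) (nat_lit 733513378) (nat_lit 0) (nat_lit 25613880935) (nat_lit 76) (nat_lit 737560307) (nat_lit 14) (nat_lit 3) (nat_lit 13) (nat_lit 1) (nat_lit 14) (nat_lit 1) (nat_lit 336) (nat_lit 419) (nat_lit 265))) (XT.nd (nat_lit 78) (nat_lit 228) (nat_lit 0) (XT.lf (nat_lit 0) (nat_lit 13101905599) (nat_lit 0) (nat_lit 13105474319) (nat_lit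 152) (nat_lit 187357503) (nat_lit 11) (nat_lit 3) (nat_lit 11) (nat_lit 1) (nat_lit 13) (nat_lit 1) (nat_lit 337) (nat_lit 419) (nat_lit 264)) (XT.lf (nat_lit 0) (nat_lit 626128044) (nat_lit 0) (nat_lit 629275063) (nat_lit 152) (nat_lit 24475035920) (nat_lit 8) (nat_lit 3) (nat_lit 8) (nat_lit 1) (nat_lit 10) (nat_lit 1) (nat_lit 338) (nat_lit 419) (nat_lit 263))))))))
noncomputable def ec254 : XT := (XT.nd (nat_lit 47034) (nat_lit 0) (nat_lit 6536) (XT.nd (nat_lit 1014) (nat_lit 0) (nat_lit 0) (XT.nd (nat_lit 468) (nat_lit 0) (nat_lit 0) (XT.nd (nat_lit 234) (nat_lit 304) (nat_lit 0) (XT.nd (nat_lit 78) (nat_lit 228) (nat_lit 0) (XT.lf (nat_lit 76) (nat_lit 11314144261) (nat_lit 0) (nat_lit 2442700750) (nat_lit 76) (nat_lit 11317058168) (nat_lit 8) (nat_lit 3) (nat_lit 7) (nat_lit 1) (nat_lit 8) (nat_lit 1) (nat_lit 339) (nat_lit 419) (nat_lit 262)) (XT.nd (nat_lit 78) (nat_lit 76) (nat_lit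 0) (XT.lf (nat_lit 0) (nat_lit 1862840564) (nat_lit 0) (nat_lit 1865410147) (nat_lit 152) (nat_lit 20713602908) (nat_lit 5) (nat_lit 3) (nat_lit 5) (nat_lit 1) (nat_lit 7) (nat_lit 1) (nat_lit 340) (nat_lit 419) (nat_lit 261)) (XT.lf (nat_lit 76) (nat_lit 9503717407) (nat_lit 0) (nat_lit 4809519733) (nat_lit 76) (nat_lit 9506096651) (nat_lit 5) (nat_lit 3) (nat_lit 4) (nat_lit 1) (nat_lit 5) (nat_lit 1) (nat_lit 341) (nat_lit 419) (nat_lit 260)))) (XT.nd (nat_lit 78) (nat_lit 152) (nat_lit 0) (XT.lf (nat_lit 0) (nat_lit 2971258554) (nat_lit 0) (nat_lit 2973356652) (nat_lit 152) (nat_lit 17273484387) (nat_lit 2) (nat_lit 3) (nat_lit 2) (nat_lit 1) (nat_lit 4) (nat_lit 1) (nat_lit 342) (nat_lit 419) (nat_lit 259)) (XT.nd (nat_lit 78) (nat_lit 76) (nat_lit 0) (XT.lf (nat_lit 76) (nat_lit 7849134114) (nat_lit 0) (nat_lit 6927614195) (nat_lit 76) (nat_lit 7851076797) (nat_lit 2) (nat_lit 3) (nat_lit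 1) (nat_lit 1) (nat_lit 2) (nat_lit 1) (nat_lit 343) (nat_lit 419) (nat_lit 258)) (XT.lf (nat_lit 0) (nat_lit 469221847324) (nat_lit 0) (nat_lit 0) (nat_lit 0) (nat_lit 0) (nat_lit 0) (nat_lit 0) (nat_lit 1) (nat_lit 0) (nat_lit 1) (nat_lit 0) (nat_lit 344) (nat_lit 419) (nat_lit 257))))) (XT.nd (nat_lit 234) (nat_lit 0) (nat_lit 0) (XT.nd (nat_lit 78) (nat_lit 0) (nat_lit 0) (XT.lf (nat_lit 0) (nat_lit 469221713543) (nat_lit 0) (nat_lit 0) (nat_lit 0) (nat_lit 0) (nat_lit 0) (nat_lit 0) (nat_lit 1) (nat_lit 0) (nat_lit 1) (nat_lit 0) (nat_lit 345) (nat_lit 419) (nat_lit 256)) (XT.nd (nat_lit 78) (nat_lit 0) (nat_lit 0) (XT.lf (nat_lit 0) (nat_lit 469221589672) (nat_lit 0) (nat_lit 0) (nat_lit 0) (nat_lit 0) (nat_lit 0) (nat_lit 0) (nat_lit 1) (nat_lit 0) (nat_lit 1) (nat_lit 0) (nat_lit 346) (nat_lit 419) (nat_lit 255)) (XT.lf (nat_lit 0) (nat_lit 469221474977) (nat_lit 0) (nat_lit 0) (nat_lit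 0) (nat_lit 0) (nat_lit 0) (nat_lit 0) (nat_lit 1) (nat_lit 0) (nat_lit 1) (nat_lit 0) (nat_lit 347) (nat_lit 419) (nat_lit 254)))) (XT.nd (nat_lit 156) (nat_lit 0) (nat_lit 0) (XT.nd (nat_lit 78) (nat_lit 0) (nat_lit 0) (XT.lf (nat_lit 0) (nat_lit 469221368777) (nat_lit 0) (nat_lit 0) (nat_lit 0) (nat_lit 0) (nat_lit 0) (nat_lit 0) (nat_lit 1) (nat_lit 0) (nat_lit 1) (nat_lit 0) (nat_lit 348) (nat_lit 419) (nat_lit 253)) (XT.lf (nat_lit 0) (nat_lit 469221270444) (nat_lit 0) (nat_lit 0) (nat_lit 0) (nat_lit 0) (nat_lit 0) (nat_lit 0) (nat_lit 1) (nat_lit 0) (nat_lit 1) (nat_lit 0) (nat_lit 349) (nat_lit 419) (nat_lit 252))) (XT.nd (nat_lit 78) (nat_lit 0) (nat_lit 0) (XT.lf (nat_lit 0) (nat_lit 469221179395) (nat_lit 0) (nat_lit 0) (nat_lit 0) (nat_lit 0) (nat_lit 0) (nat_lit 0) (nat_lit 1) (nat_lit 0) (nat_lit 1) (nat_lit 0) (nat_lit 350) (nat_lit 419) (nat_lit 251)) (XT.lf (nat_lit 0) (nat_lit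 469221095090) (nat_lit 0) (nat_lit 0) (nat_lit 0) (nat_lit 0) (nat_lit 0) (nat_lit 0) (nat_lit 1) (nat_lit 0) (nat_lit 1) (nat_lit 0) (nat_lit 351) (nat_lit 419) (nat_lit 250)))))) (XT.nd (nat_lit 468) (nat_lit 0) (nat_lit 0) (XT.nd (nat_lit 234) (nat_lit 0) (nat_lit 0) (XT.nd (nat_lit 78) (nat_lit 0) (nat_lit 0) (XT.lf (nat_lit 0) (nat_lit 469221017030) (nat_lit 0) (nat_lit 0) (nat_lit 0) (nat_lit 0) (nat_lit 0) (nat_lit 0) (nat_lit 1) (nat_lit 0) (nat_lit 1) (nat_lit 0) (nat_lit 352) (nat_lit 419) (nat_lit 249)) (XT.nd (nat_lit 78) (nat_lit 0) (nat_lit 0) (XT.lf (nat_lit 0) (nat_lit 469220944752) (nat_lit 0) (nat_lit 0) (nat_lit 0) (nat_lit 0) (nat_lit 0) (nat_lit 0) (nat_lit 1) (nat_lit 0) (nat_lit 1) (nat_lit 0) (nat_lit 353) (nat_lit 419) (nat_lit 248)) (XT.lf (nat_lit 0) (nat_lit 469220877829) (nat_lit 0) (nat_lit 0) (nat_lit 0) (nat_lit 0) (nat_lit 0) (nat_lit 0) (nat_lit 1) (nat_lit 0)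 (nat_lit 1) (nat_lit 0) (nat_lit 354) (nat_lit 419) (nat_lit 247)))) (XT.nd (nat_lit 78) (nat_lit 0) (nat_lit 0) (XT.lf (nat_lit 0) (nat_lit 469220815862) (nat_lit 0) (nat_lit 0) (nat_lit 0) (nat_lit 0) (nat_lit 0) (nat_lit 0) (nat_lit 1) (nat_lit 0) (nat_lit 1) (nat_lit 0) (nat_lit 355) (nat_lit 419) (nat_lit 246)) (XT.nd (nat_lit 78) (nat_lit 0) (nat_lit 0) (XT.lf (nat_lit 0) (nat_lit 469220758486) (nat_lit 0) (nat_lit 0) (nat_lit 0) (nat_lit 0) (nat_lit 0) (nat_lit 0) (nat_lit 1) (nat_lit 0) (nat_lit 1) (nat_lit 0) (nat_lit 356) (nat_lit 419) (nat_lit 245)) (XT.lf (nat_lit 0) (nat_lit 469220705360) (nat_lit 0) (nat_lit 0) (nat_lit 0) (nat_lit 0) (nat_lit 0) (nat_lit 0) (nat_lit 1) (nat_lit 0) (nat_lit 1) (nat_lit 0) (nat_lit 357) (nat_lit 419) (nat_lit 244))))) (XT.nd (nat_lit 234) (nat_lit 0) (nat_lit 0) (XT.nd (nat_lit 78) (nat_lit 0) (nat_lit 0) (XT.lf (nat_lit 0) (nat_lit 469220656169)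 (nat_lit 0) (nat_lit 0) (nat_lit 0) (nat_lit 0) (nat_lit 0) (nat_lit 0) (nat_lit 1) (nat_lit 0) (nat_lit 1) (nat_lit 0) (nat_lit 358) (nat_lit 419) (nat_lit 243)) (XT.nd (nat_lit 78) (nat_lit 0) (nat_lit 0) (XT.lf (nat_lit 0) (nat_lit 469220610621) (nat_lit 0) (nat_lit 0) (nat_lit 0) (nat_lit 0) (nat_lit 0) (nat_lit 0) (nat_lit 1) (nat_lit 0) (nat_lit 1) (nat_lit 0) (nat_lit 359) (nat_lit 419) (nat_lit 242)) (XT.lf (nat_lit 0) (nat_lit 469220568448) (nat_lit 0) (nat_lit 0) (nat_lit 0) (nat_lit 0) (nat_lit 0) (nat_lit 0) (nat_lit 1) (nat_lit 0) (nat_lit 1) (nat_lit 0) (nat_lit 360) (nat_lit 419) (nat_lit 241)))) (XT.nd (nat_lit 45162) (nat_lit 0) (nat_lit 9728) (XT.nd (nat_lit 78) (nat_lit 0) (nat_lit 0) (XT.lf (nat_lit 0) (nat_lit 469220529399) (nat_lit 0) (nat_lit 0) (nat_lit 0) (nat_lit 0) (nat_lit 0) (nat_lit 0) (nat_lit 1) (nat_lit 0) (nat_lit 1) (nat_lit 0) (nat_lit 361) (nat_lit 419) (nat_lit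 240)) (XT.lf (nat_lit 0) (nat_lit 469220493242) (nat_lit 0) (nat_lit 0) (nat_lit 0) (nat_lit 0) (nat_lit 0) (nat_lit 0) (nat_lit 1) (nat_lit 0) (nat_lit 1) (nat_lit 0) (nat_lit 362) (nat_lit 419) (nat_lit 239))) (XT.nd (nat_lit 78) (nat_lit 152) (nat_lit 0) (XT.lf (nat_lit 76) (nat_lit 86627733132) (nat_lit 0) (nat_lit 17776588950) (nat_lit 76) (nat_lit 96040420058) (nat_lit 131) (nat_lit 3) (nat_lit 130) (nat_lit 1) (nat_lit 131) (nat_lit 1) (nat_lit 259) (nat_lit 420) (nat_lit 341)) (XT.lf (nat_lit 0) (nat_lit 9792801622) (nat_lit 0) (nat_lit 18093231010) (nat_lit 152) (nat_lit 167495716090) (nat_lit 128) (nat_lit 3) (nat_lit 128) (nat_lit 1) (nat_lit 130) (nat_lit 1) (nat_lit 260) (nat_lit 420) (nat_lit 340))))))) (XT.nd (nat_lit 1014) (nat_lit 1748) (nat_lit 0) (XT.nd (nat_lit 468) (nat_lit 760) (nat_lit 0) (XT.nd (nat_lit 234) (nat_lit 380) (nat_lit 0) (XT.nd (nat_lit 78) (nat_lit 228) (nat_lit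 0) (XT.lf (nat_lit 76) (nat_lit 73176137371) (nat_lit 0) (nat_lit 36356880407) (nat_lit 76) (nat_lit 80861720137) (nat_lit 128) (nat_lit 3) (nat_lit 127) (nat_lit 1) (nat_lit 128) (nat_lit 1) (nat_lit 261) (nat_lit 420) (nat_lit 339)) (XT.nd (nat_lit 78) (nat_lit 76) (nat_lit 0) (XT.lf (nat_lit 0) (nat_lit 19269322687) (nat_lit 0) (nat_lit 26046732534) (nat_lit 152) (nat_lit 140264658458) (nat_lit 125) (nat_lit 3) (nat_lit 125) (nat_lit 1) (nat_lit 127) (nat_lit 1) (nat_lit 262) (nat_lit 420) (nat_lit 338)) (XT.lf (nat_lit 76) (nat_lit 60767188894) (nat_lit 0) (nat_lit 53043869612) (nat_lit 76) (nat_lit 67042568382) (nat_lit 125) (nat_lit 3) (nat_lit 124) (nat_lit 1) (nat_lit 125) (nat_lit 1) (nat_lit 263) (nat_lit 420) (nat_lit 337)))) (XT.nd (nat_lit 78) (nat_lit 228) (nat_lit 0) (XT.lf (nat_lit 0) (nat_lit 27702283632) (nat_lit 0) (nat_lit 33236127978) (nat_lit 152) (nat_lit 115337597839)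 (nat_lit 122) (nat_lit 3) (nat_lit 122) (nat_lit 1) (nat_lit 124) (nat_lit 1) (nat_lit 264) (nat_lit 420) (nat_lit 336)) (XT.nd (nat_lit 78) (nat_lit 152) (nat_lit 0) (XT.lf (nat_lit 76) (nat_lit 49349181194) (nat_lit 0) (nat_lit 67972735461) (nat_lit 76) (nat_lit 54473111144) (nat_lit 122) (nat_lit 3) (nat_lit 121) (nat_lit 1) (nat_lit 122) (nat_lit 1) (nat_lit 265) (nat_lit 420) (nat_lit 335)) (XT.lf (nat_lit 0) (nat_lit 35182558113) (nat_lit 0) (nat_lit 39701014859) (nat_lit 152) (nat_lit 92558369246) (nat_lit 119) (nat_lit 3) (nat_lit 119) (nat_lit 1) (nat_lit 121) (nat_lit 1) (nat_lit 266) (nat_lit 420) (nat_lit 334))))) (XT.nd (nat_lit 234) (nat_lit 456) (nat_lit 0) (XT.nd (nat_lit 78) (nat_lit 228) (nat_lit 0) (XT.lf (nat_lit 76) (nat_lit 38869318100) (nat_lit 0) (nat_lit 81271630260) (nat_lit 76) (nat_lit 43053074347) (nat_lit 119) (nat_lit 3) (nat_lit 118) (nat_lit 1) (nat_lit 119) (nat_lit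 1) (nat_lit 267) (nat_lit 420) (nat_lit 333)) (XT.nd (nat_lit 78) (nat_lit 76) (nat_lit 0) (XT.lf (nat_lit 0) (nat_lit 41792834252) (nat_lit 0) (nat_lit 45482213657) (nat_lit 152) (nat_lit 71779186688) (nat_lit 116) (nat_lit 3) (nat_lit 116) (nat_lit 1) (nat_lit 118) (nat_lit 1) (nat_lit 268) (nat_lit 420) (nat_lit 332)) (XT.lf (nat_lit 76) (nat_lit 29274632651) (nat_lit 0) (nat_lit 93061702220) (nat_lit 76) (nat_lit 32690724694) (nat_lit 116) (nat_lit 3) (nat_lit 115) (nat_lit 1) (nat_lit 116) (nat_lit 1) (nat_lit 269) (nat_lit 420) (nat_lit 331)))) (XT.nd (nat_lit 156) (nat_lit 228) (nat_lit 0) (XT.nd (nat_lit 78) (nat_lit 76) (nat_lit 0) (XT.lf (nat_lit 0) (nat_lit 47608509774) (nat_lit 0) (nat_lit 50620936619) (nat_lit 152) (nat_lit 52860486508) (nat_lit 113) (nat_lit 3) (nat_lit 113) (nat_lit 1) (nat_lit 115) (nat_lit 1) (nat_lit 270) (nat_lit 420) (nat_lit 330)) (XT.lf (nat_lit 76) (nat_lit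 20512691336) (nat_lit 0) (nat_lit 103457197177) (nat_lit 76) (nat_lit 23301975451) (nat_lit 113) (nat_lit 3) (nat_lit 112) (nat_lit 1) (nat_lit 113) (nat_lit 1) (nat_lit 271) (nat_lit 420) (nat_lit 329))) (XT.nd (nat_lit 78) (nat_lit 76) (nat_lit 0) (XT.lf (nat_lit 0) (nat_lit 52698462897) (nat_lit 0) (nat_lit 55158149066) (nat_lit 152) (nat_lit 35670710978) (nat_lit 110) (nat_lit 3) (nat_lit 110) (nat_lit 1) (nat_lit 112) (nat_lit 1) (nat_lit 272) (nat_lit 420) (nat_lit 328)) (XT.lf (nat_lit 76) (nat_lit 12532125926) (nat_lit 0) (nat_lit 112565619756) (nat_lit 76) (nat_lit 14809613120) (nat_lit 110) (nat_lit 3) (nat_lit 109) (nat_lit 1) (nat_lit 110) (nat_lit 1) (nat_lit 273) (nat_lit 420) (nat_lit 327)))))) (XT.nd (nat_lit 546) (nat_lit 836) (nat_lit 0) (XT.nd (nat_lit 234) (nat_lit 532) (nat_lit 0) (XT.nd (nat_lit 78) (nat_lit 228) (nat_lit 0) (XT.lf (nat_lit 0) (nat_lit 57125719246) (nat_lit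 0) (nat_lit 59134085378) (nat_lit 152) (nat_lit 20086048543) (nat_lit 107) (nat_lit 3) (nat_lit 107) (nat_lit 1) (nat_lit 109) (nat_lit 1) (nat_lit 274) (nat_lit 420) (nat_lit 326)) (XT.nd (nat_lit 78) (nat_lit 152) (nat_lit 0) (XT.lf (nat_lit 76) (nat_lit 5283027206) (nat_lit 0) (nat_lit 120487938177) (nat_lit 76) (nat_lit 7142625476) (nat_lit 107) (nat_lit 3) (nat_lit 106) (nat_lit 1) (nat_lit 107) (nat_lit 1) (nat_lit 275) (nat_lit 420) (nat_lit 325)) (XT.lf (nat_lit 0) (nat_lit 60948031524) (nat_lit 0) (nat_lit 62587888905) (nat_lit 152) (nat_lit 5990143831) (nat_lit 104) (nat_lit 3) (nat_lit 104) (nat_lit 1) (nat_lit 106) (nat_lit 1) (nat_lit 276) (nat_lit 420) (nat_lit 324)))) (XT.nd (nat_lit 156) (nat_lit 228) (nat_lit 0) (XT.nd (nat_lit 78) (nat_lit 76) (nat_lit 0) (XT.lf (nat_lit 152) (nat_lit 125011552243) (nat_lit 0) (nat_lit 1061090521) (nat_lit 76) (nat_lit 197190934) (nat_lit 103)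 (nat_lit 1) (nat_lit 101) (nat_lit 1) (nat_lit 102) (nat_lit 1) (nat_lit 277) (nat_lit 420) (nat_lit 323)) (XT.lf (nat_lit 76) (nat_lit 57378261848) (nat_lit 0) (nat_lit 6948611171) (nat_lit 76) (nat_lit 58717226984) (nat_lit 101) (nat_lit 3) (nat_lit 100) (nat_lit 1) (nat_lit 101) (nat_lit 1) (nat_lit 278) (nat_lit 420) (nat_lit 322))) (XT.nd (nat_lit 78) (nat_lit 76) (nat_lit 0) (XT.lf (nat_lit 0) (nat_lit 6109294079) (nat_lit 0) (nat_lit 7290039349) (nat_lit 152) (nat_lit 106543243444) (nat_lit 98) (nat_lit 3) (nat_lit 98) (nat_lit 1) (nat_lit 100) (nat_lit 1) (nat_lit 279) (nat_lit 420) (nat_lit 321)) (XT.lf (nat_lit 76) (nat_lit 48512401457) (nat_lit 0) (nat_lit 18766034219) (nat_lit 76) (nat_lit 49605684115) (nat_lit 98) (nat_lit 3) (nat_lit 97) (nat_lit 1) (nat_lit 98) (nat_lit 1) (nat_lit 280) (nat_lit 420) (nat_lit 320))))) (XT.nd (nat_lit 234) (nat_lit 456) (nat_lit 0) (XT.nd (nat_lit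 78) (nat_lit 228) (nat_lit 0) (XT.lf (nat_lit 0) (nat_lit 11756518208) (nat_lit 0) (nat_lit 12720612262) (nat_lit 152) (nat_lit 89456987978) (nat_lit 95) (nat_lit 3) (nat_lit 95) (nat_lit 1) (nat_lit 97) (nat_lit 1) (nat_lit 281) (nat_lit 420) (nat_lit 319)) (XT.nd (nat_lit 78) (nat_lit 152) (nat_lit 0) (XT.lf (nat_lit 76) (nat_lit 40389262267) (nat_lit 0) (nat_lit 29363120981) (nat_lit 76) (nat_lit 41281941947) (nat_lit 95) (nat_lit 3) (nat_lit 94) (nat_lit 1) (nat_lit 95) (nat_lit 1) (nat_lit 282) (nat_lit 420) (nat_lit 318)) (XT.lf (nat_lit 0) (nat_lit 16802742403) (nat_lit 0) (nat_lit 17589937888) (nat_lit 152) (nat_lit 73835701024) (nat_lit 92) (nat_lit 3) (nat_lit 92) (nat_lit 1) (nat_lit 94) (nat_lit 1) (nat_lit 283) (nat_lit 420) (nat_lit 317)))) (XT.nd (nat_lit 156) (nat_lit 228) (nat_lit 0) (XT.nd (nat_lit 78) (nat_lit 152) (nat_lit 0) (XT.lf (nat_lit 76) (nat_lit 32958757297) (nat_lit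 0) (nat_lit 38832553589) (nat_lit 76) (nat_lit 33687642005) (nat_lit 92) (nat_lit 3) (nat_lit 91) (nat_lit 1) (nat_lit 92) (nat_lit 1) (nat_lit 284) (nat_lit 420) (nat_lit 316)) (XT.lf (nat_lit 0) (nat_lit 21296020738) (nat_lit 0) (nat_lit 21938776212) (nat_lit 152) (nat_lit 59575181475) (nat_lit 89) (nat_lit 3) (nat_lit 89) (nat_lit 1) (nat_lit 91) (nat_lit 1) (nat_lit 285) (nat_lit 420) (nat_lit 315))) (XT.nd (nat_lit 78) (nat_lit 152) (nat_lit 0) (XT.lf (nat_lit 76) (nat_lit 26173469757) (nat_lit 0) (nat_lit 47260973812) (nat_lit 76) (nat_lit 26768613715) (nat_lit 89) (nat_lit 3) (nat_lit 88) (nat_lit 1) (nat_lit 89) (nat_lit 1) (nat_lit 286) (nat_lit 420) (nat_lit 314)) (XT.lf (nat_lit 0) (nat_lit 25280826354) (nat_lit 0) (nat_lit 25805644659) (nat_lit 152) (nat_lit 46577849063) (nat_lit 86) (nat_lit 3) (nat_lit 86) (nat_lit 1) (nat_lit 88) (nat_lit 1) (nat_lit 287) (nat_lit 420) (nat_lit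 313))))))))
noncomputable def ec255 : XT := (XT.nd (nat_lit 2106) (nat_lit 3268) (nat_lit 0) (XT.nd (nat_lit 1014) (nat_lit 1596) (nat_lit 0) (XT.nd (nat_lit 468) (nat_lit 912) (nat_lit 0) (XT.nd (nat_lit 234) (nat_lit 380) (nat_lit 0) (XT.nd (nat_lit 78) (nat_lit 228) (nat_lit 0) (XT.lf (nat_lit 76) (nat_lit 19988605925) (nat_lit 0) (nat_lit 54729310830) (nat_lit 76) (nat_lit 20474548800) (nat_lit 86) (nat_lit 3) (nat_lit 85) (nat_lit 1) (nat_lit 86) (nat_lit 1) (nat_lit 288) (nat_lit 420) (nat_lit 312)) (XT.nd (nat_lit 78) (nat_lit 76) (nat_lit 0) (XT.lf (nat_lit 0) (nat_lit 28798334617) (nat_lit 0) (nat_lit 29226855671) (nat_lit 152) (nat_lit 34752380022) (nat_lit 83) (nat_lit 3) (nat_lit 83) (nat_lit 1) (nat_lit 85) (nat_lit 1) (nat_lit 289) (nat_lit 420) (nat_lit 311)) (XT.lf (nat_lit 76) (nat_lit 14361928335) (nat_lit 0) (nat_lit 61313100190) (nat_lit 76) (nat_lit 14758707089) (nat_lit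 83) (nat_lit 3) (nat_lit 82) (nat_lit 1) (nat_lit 83) (nat_lit 1) (nat_lit 290) (nat_lit 420) (nat_lit 310)))) (XT.nd (nat_lit 78) (nat_lit 228) (nat_lit 0) (XT.lf (nat_lit 0) (nat_lit 31886678947) (nat_lit 0) (nat_lit 32236572028) (nat_lit 152) (nat_lit 24013355116) (nat_lit 80) (nat_lit 3) (nat_lit 80) (nat_lit 1) (nat_lit 82) (nat_lit 1) (nat_lit 291) (nat_lit 420) (nat_lit 309)) (XT.nd (nat_lit 78) (nat_lit 152) (nat_lit 0) (XT.lf (nat_lit 76) (nat_lit 9253674635) (nat_lit 0) (nat_lit 67082792346) (nat_lit 76) (nat_lit 9577649709) (nat_lit 80) (nat_lit 3) (nat_lit 79) (nat_lit 1) (nat_lit 80) (nat_lit 1) (nat_lit 292) (nat_lit 420) (nat_lit 308)) (XT.lf (nat_lit 0) (nat_lit 34581182787) (nat_lit 0) (nat_lit 34866875093) (nat_lit 152) (nat_lit 14280921113) (nat_lit 77) (nat_lit 3) (nat_lit 77) (nat_lit 1) (nat_lit 79) (nat_lit 1) (nat_lit 293) (nat_lit 420) (nat_lit 307))))) (XT.nd (nat_lit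 234) (nat_lit 608) (nat_lit 0) (XT.nd (nat_lit 78) (nat_lit 228) (nat_lit 0) (XT.lf (nat_lit 76) (nat_lit 4626466379) (nat_lit 0) (nat_lit 72104049660) (nat_lit 76) (nat_lit 4890996291) (nat_lit 77) (nat_lit 3) (nat_lit 76) (nat_lit 1) (nat_lit 77) (nat_lit 1) (nat_lit 294) (nat_lit 420) (nat_lit 306)) (XT.nd (nat_lit 78) (nat_lit 76) (nat_lit 0) (XT.lf (nat_lit 0) (nat_lit 36914570633) (nat_lit 0) (nat_lit 37147842161) (nat_lit 152) (nat_lit 5480466419) (nat_lit 74) (nat_lit 3) (nat_lit 74) (nat_lit 1) (nat_lit 76) (nat_lit 1) (nat_lit 295) (nat_lit 420) (nat_lit 305)) (XT.lf (nat_lit 76) (nat_lit 445211158) (nat_lit 0) (nat_lit 76438031158) (nat_lit 76) (nat_lit 661203313) (nat_lit 74) (nat_lit 3) (nat_lit 73) (nat_lit 1) (nat_lit 74) (nat_lit 1) (nat_lit 296) (nat_lit 420) (nat_lit 304)))) (XT.nd (nat_lit 156) (nat_lit 228) (nat_lit 0) (XT.nd (nat_lit 78) (nat_lit 152) (nat_lit 0) (XT.lf (nat_lit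 76) (nat_lit 36417849689) (nat_lit 0) (nat_lit 2538951068) (nat_lit 76) (nat_lit 36608318962) (nat_lit 71) (nat_lit 3) (nat_lit 70) (nat_lit 1) (nat_lit 71) (nat_lit 1) (nat_lit 297) (nat_lit 420) (nat_lit 303)) (XT.lf (nat_lit 0) (nat_lit 3203867716) (nat_lit 0) (nat_lit 3371830038) (nat_lit 152) (nat_lit 67085975295) (nat_lit 68) (nat_lit 3) (nat_lit 68) (nat_lit 1) (nat_lit 70) (nat_lit 1) (nat_lit 298) (nat_lit 420) (nat_lit 302))) (XT.nd (nat_lit 78) (nat_lit 152) (nat_lit 0) (XT.lf (nat_lit 76) (nat_lit 30855896279) (nat_lit 0) (nat_lit 9915960377) (nat_lit 76) (nat_lit 31011416947) (nat_lit 68) (nat_lit 3) (nat_lit 67) (nat_lit 1) (nat_lit 68) (nat_lit 1) (nat_lit 299) (nat_lit 420) (nat_lit 301)) (XT.lf (nat_lit 0) (nat_lit 6677223904) (nat_lit 0) (nat_lit 6814367350) (nat_lit 152) (nat_lit 56481087012) (nat_lit 65) (nat_lit 3) (nat_lit 65) (nat_lit 1) (nat_lit 67) (nat_lit 1) (nat_lit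 300) (nat_lit 420) (nat_lit 300)))))) (XT.nd (nat_lit 546) (nat_lit 836) (nat_lit 0) (XT.nd (nat_lit 234) (nat_lit 456) (nat_lit 0) (XT.nd (nat_lit 78) (nat_lit 228) (nat_lit 0) (XT.lf (nat_lit 76) (nat_lit 25766295630) (nat_lit 0) (nat_lit 16532046427) (nat_lit 76) (nat_lit 25893280302) (nat_lit 65) (nat_lit 3) (nat_lit 64) (nat_lit 1) (nat_lit 65) (nat_lit 1) (nat_lit 301) (nat_lit 420) (nat_lit 299)) (XT.nd (nat_lit 78) (nat_lit 76) (nat_lit 0) (XT.lf (nat_lit 0) (nat_lit 9785576904) (nat_lit 0) (nat_lit 9897556334) (nat_lit 152) (nat_lit 46786196928) (nat_lit 62) (nat_lit 3) (nat_lit 62) (nat_lit 1) (nat_lit 64) (nat_lit 1) (nat_lit 302) (nat_lit 420) (nat_lit 298)) (XT.lf (nat_lit 76) (nat_lit 21115591338) (nat_lit 0) (nat_lit 22445678201) (nat_lit 76) (nat_lit 21219275995) (nat_lit 62) (nat_lit 3) (nat_lit 61) (nat_lit 1) (nat_lit 62) (nat_lit 1) (nat_lit 303) (nat_lit 420) (nat_lit 297))))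 (XT.nd (nat_lit 156) (nat_lit 228) (nat_lit 0) (XT.nd (nat_lit 78) (nat_lit 76) (nat_lit 0) (XT.lf (nat_lit 0) (nat_lit 12557419681) (nat_lit 0) (nat_lit 12648852359) (nat_lit 152) (nat_lit 37935960795) (nat_lit 59) (nat_lit 3) (nat_lit 59) (nat_lit 1) (nat_lit 61) (nat_lit 1) (nat_lit 304) (nat_lit 420) (nat_lit 296)) (XT.lf (nat_lit 76) (nat_lit 16872446627) (nat_lit 0) (nat_lit 27711360332) (nat_lit 76) (nat_lit 16957106514) (nat_lit 59) (nat_lit 3) (nat_lit 58) (nat_lit 1) (nat_lit 59) (nat_lit 1) (nat_lit 305) (nat_lit 420) (nat_lit 295))) (XT.nd (nat_lit 78) (nat_lit 76) (nat_lit 0) (XT.lf (nat_lit 0) (nat_lit 15019247218) (nat_lit 0) (nat_lit 15093903203) (nat_lit 152) (nat_lit 29869319427) (nat_lit 56) (nat_lit 3) (nat_lit 56) (nat_lit 1) (nat_lit 58) (nat_lit 1) (nat_lit 306) (nat_lit 420) (nat_lit 294)) (XT.lf (nat_lit 76) (nat_lit 13007528177) (nat_lit 0) (nat_lit 32379879558) (nat_lit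 76) (nat_lit 13076654088) (nat_lit 56) (nat_lit 3) (nat_lit 55) (nat_lit 1) (nat_lit 56) (nat_lit 1) (nat_lit 307) (nat_lit 420) (nat_lit 293))))) (XT.nd (nat_lit 234) (nat_lit 456) (nat_lit 0) (XT.nd (nat_lit 78) (nat_lit 228) (nat_lit 0) (XT.lf (nat_lit 0) (nat_lit 17195692734) (nat_lit 0) (nat_lit 17256650328) (nat_lit 152) (nat_lit 22529236310) (nat_lit 53) (nat_lit 3) (nat_lit 53) (nat_lit 1) (nat_lit 55) (nat_lit 1) (nat_lit 308) (nat_lit 420) (nat_lit 292)) (XT.nd (nat_lit 78) (nat_lit 152) (nat_lit 0) (XT.lf (nat_lit 76) (nat_lit 9493393825) (nat_lit 0) (nat_lit 36498537571) (nat_lit 76) (nat_lit 9549836042) (nat_lit 53) (nat_lit 3) (nat_lit 52) (nat_lit 1) (nat_lit 53) (nat_lit 1) (nat_lit 309) (nat_lit 420) (nat_lit 291)) (XT.lf (nat_lit 0) (nat_lit 19109654073) (nat_lit 0) (nat_lit 19159426752) (nat_lit 152) (nat_lit 15862449813) (nat_lit 50) (nat_lit 3) (nat_lit 50) (nat_lit 1) (nat_lit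 52) (nat_lit 1) (nat_lit 310) (nat_lit 420) (nat_lit 290)))) (XT.nd (nat_lit 156) (nat_lit 228) (nat_lit 0) (XT.nd (nat_lit 78) (nat_lit 152) (nat_lit 0) (XT.lf (nat_lit 76) (nat_lit 6304384503) (nat_lit 0) (nat_lit 40111370760) (nat_lit 76) (nat_lit 6350470316) (nat_lit 50) (nat_lit 3) (nat_lit 49) (nat_lit 1) (nat_lit 50) (nat_lit 1) (nat_lit 311) (nat_lit 420) (nat_lit 289)) (XT.lf (nat_lit 0) (nat_lit 20782411117) (nat_lit 0) (nat_lit 20823051164) (nat_lit 152) (nat_lit 9819239393) (nat_lit 47) (nat_lit 3) (nat_lit 47) (nat_lit 1) (nat_lit 49) (nat_lit 1) (nat_lit 312) (nat_lit 420) (nat_lit 288))) (XT.nd (nat_lit 78) (nat_lit 152) (nat_lit 0) (XT.lf (nat_lit 76) (nat_lit 3416520634) (nat_lit 0) (nat_lit 43259357389) (nat_lit 76) (nat_lit 3454150307) (nat_lit 47) (nat_lit 3) (nat_lit 46) (nat_lit 1) (nat_lit 47) (nat_lit 1) (nat_lit 313) (nat_lit 420) (nat_lit 287)) (XT.lf (nat_lit 0) (nat_lit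 22233734970) (nat_lit 0) (nat_lit 22266918103) (nat_lit 152) (nat_lit 4353205160) (nat_lit 44) (nat_lit 3) (nat_lit 44) (nat_lit 1) (nat_lit 46) (nat_lit 1) (nat_lit 314) (nat_lit 420) (nat_lit 286))))))) (XT.nd (nat_lit 1014) (nat_lit 1672) (nat_lit 0) (XT.nd (nat_lit 468) (nat_lit 836) (nat_lit 0) (XT.nd (nat_lit 234) (nat_lit 304) (nat_lit 0) (XT.nd (nat_lit 78) (nat_lit 380) (nat_lit 0) (XT.lf (nat_lit 76) (nat_lit 807403137) (nat_lit 0) (nat_lit 45980612788) (nat_lit 76) (nat_lit 838128260) (nat_lit 44) (nat_lit 3) (nat_lit 43) (nat_lit 1) (nat_lit 44) (nat_lit 1) (nat_lit 315) (nat_lit 420) (nat_lit 285)) (XT.nd (nat_lit 78) (nat_lit 152) (nat_lit 0) (XT.lf (nat_lit 76) (nat_lit 22893245152) (nat_lit 0) (nat_lit 598082179) (nat_lit 76) (nat_lit 22920339617) (nat_lit 41) (nat_lit 3) (nat_lit 40) (nat_lit 1) (nat_lit 41) (nat_lit 1) (nat_lit 316) (nat_lit 420) (nat_lit 284)) (XT.lf (nat_lit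 0) (nat_lit 1544494665) (nat_lit 0) (nat_lit 1568387491) (nat_lit 152) (nat_lit 42130115315) (nat_lit 38) (nat_lit 3) (nat_lit 38) (nat_lit 1) (nat_lit 40) (nat_lit 1) (nat_lit 317) (nat_lit 420) (nat_lit 283)))) (XT.nd (nat_lit 78) (nat_lit 228) (nat_lit 0) (XT.lf (nat_lit 76) (nat_lit 19441686519) (nat_lit 0) (nat_lit 5183468433) (nat_lit 76) (nat_lit 19463809506) (nat_lit 38) (nat_lit 3) (nat_lit 37) (nat_lit 1) (nat_lit 38) (nat_lit 1) (nat_lit 318) (nat_lit 420) (nat_lit 282)) (XT.nd (nat_lit 78) (nat_lit 76) (nat_lit 0) (XT.lf (nat_lit 0) (nat_lit 3696631962) (nat_lit 0) (nat_lit 3716140769) (nat_lit 152) (nat_lit 35564512056) (nat_lit 35) (nat_lit 3) (nat_lit 35) (nat_lit 1) (nat_lit 37) (nat_lit 1) (nat_lit 319) (nat_lit 420) (nat_lit 281)) (XT.lf (nat_lit 76) (nat_lit 16283541553) (nat_lit 0) (nat_lit 9297897610) (nat_lit 76) (nat_lit 16301605264) (nat_lit 35) (nat_lit 3) (nat_lit 34)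 (nat_lit 1) (nat_lit 35) (nat_lit 1) (nat_lit 320) (nat_lit 420) (nat_lit 280))))) (XT.nd (nat_lit 234) (nat_lit 456) (nat_lit 0) (XT.nd (nat_lit 78) (nat_lit 228) (nat_lit 0) (XT.lf (nat_lit 0) (nat_lit 5624217748) (nat_lit 0) (nat_lit 5640146945) (nat_lit 152) (nat_lit 29561201930) (nat_lit 32) (nat_lit 3) (nat_lit 32) (nat_lit 1) (nat_lit 34) (nat_lit 1) (nat_lit 321) (nat_lit 420) (nat_lit 279)) (XT.nd (nat_lit 78) (nat_lit 152) (nat_lit 0) (XT.lf (nat_lit 76) (nat_lit 13397825593) (nat_lit 0) (nat_lit 12977605512) (nat_lit 76) (nat_lit 13412574850) (nat_lit 32) (nat_lit 3) (nat_lit 31) (nat_lit 1) (nat_lit 32) (nat_lit 1) (nat_lit 322) (nat_lit 420) (nat_lit 278)) (XT.lf (nat_lit 0) (nat_lit 7344657495) (nat_lit 0) (nat_lit 7357663895) (nat_lit 152) (nat_lit 24079757649) (nat_lit 29) (nat_lit 3) (nat_lit 29) (nat_lit 1) (nat_lit 31) (nat_lit 1) (nat_lit 323) (nat_lit 420) (nat_lit 277))))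 (XT.nd (nat_lit 156) (nat_lit 228) (nat_lit 0) (XT.nd (nat_lit 78) (nat_lit 152) (nat_lit 0) (XT.lf (nat_lit 76) (nat_lit 10764926870) (nat_lit 0) (nat_lit 16256351303) (nat_lit 76) (nat_lit 10776969833) (nat_lit 29) (nat_lit 3) (nat_lit 28) (nat_lit 1) (nat_lit 29) (nat_lit 1) (nat_lit 324) (nat_lit 420) (nat_lit 276)) (XT.lf (nat_lit 0) (nat_lit 8874155496) (nat_lit 0) (nat_lit 8884775392) (nat_lit 152) (nat_lit 19082420303) (nat_lit 26) (nat_lit 3) (nat_lit 26) (nat_lit 1) (nat_lit 28) (nat_lit 1) (nat_lit 325) (nat_lit 420) (nat_lit 275))) (XT.nd (nat_lit 78) (nat_lit 152) (nat_lit 0) (XT.lf (nat_lit 76) (nat_lit 8366522609) (nat_lit 0) (nat_lit 19165575599) (nat_lit 76) (nat_lit 8376355847) (nat_lit 26) (nat_lit 3) (nat_lit 25) (nat_lit 1) (nat_lit 26) (nat_lit 1) (nat_lit 326) (nat_lit 420) (nat_lit 274)) (XT.lf (nat_lit 0) (nat_lit 10227793300) (nat_lit 0) (nat_lit 10236464586) (nat_lit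 152) (nat_lit 14533932417) (nat_lit 23) (nat_lit 3) (nat_lit 23) (nat_lit 1) (nat_lit 25) (nat_lit 1) (nat_lit 327) (nat_lit 420) (nat_lit 273)))))) (XT.nd (nat_lit 546) (nat_lit 912) (nat_lit 0) (XT.nd (nat_lit 234) (nat_lit 456) (nat_lit 0) (XT.nd (nat_lit 78) (nat_lit 228) (nat_lit 0) (XT.lf (nat_lit 76) (nat_lit 6185499769) (nat_lit 0) (nat_lit 21734549023) (nat_lit 76) (nat_lit 6193528736) (nat_lit 23) (nat_lit 3) (nat_lit 22) (nat_lit 1) (nat_lit 23) (nat_lit 1) (nat_lit 328) (nat_lit 420) (nat_lit 272)) (XT.nd (nat_lit 78) (nat_lit 76) (nat_lit 0) (XT.lf (nat_lit 0) (nat_lit 11419603110) (nat_lit 0) (nat_lit 11426683329) (nat_lit 152) (nat_lit 10401380994) (nat_lit 20) (nat_lit 3) (nat_lit 20) (nat_lit 1) (nat_lit 22) (nat_lit 1) (nat_lit 329) (nat_lit 420) (nat_lit 271)) (XT.lf (nat_lit 76) (nat_lit 4205880252) (nat_lit 0) (nat_lit 23990511728) (nat_lit 76) (nat_lit 4212436010) (nat_lit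 20) (nat_lit 3) (nat_lit 19) (nat_lit 1) (nat_lit 20) (nat_lit 1) (nat_lit 330) (nat_lit 420) (nat_lit 270)))) (XT.nd (nat_lit 156) (nat_lit 228) (nat_lit 0) (XT.nd (nat_lit 78) (nat_lit 76) (nat_lit 0) (XT.lf (nat_lit 0) (nat_lit 12462636453) (nat_lit 0) (nat_lit 12468417545) (nat_lit 152) (nat_lit 6654049977) (nat_lit 17) (nat_lit 3) (nat_lit 17) (nat_lit 1) (nat_lit 19) (nat_lit 1) (nat_lit 331) (nat_lit 420) (nat_lit 269)) (XT.lf (nat_lit 76) (nat_lit 2412750382) (nat_lit 0) (nat_lit 25958804430) (nat_lit 76) (nat_lit 2418103245) (nat_lit 17) (nat_lit 3) (nat_lit 16) (nat_lit 1) (nat_lit 17) (nat_lit 1) (nat_lit 332) (nat_lit 420) (nat_lit 268))) (XT.nd (nat_lit 78) (nat_lit 76) (nat_lit 0) (XT.lf (nat_lit 0) (nat_lit 13369028463) (nat_lit 0) (nat_lit 13373748801) (nat_lit 152) (nat_lit 3263281597) (nat_lit 14) (nat_lit 3) (nat_lit 14) (nat_lit 1) (nat_lit 16) (nat_lit 1) (nat_lit 333) (nat_lit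 420) (nat_lit 267)) (XT.lf (nat_lit 76) (nat_lit 792194449) (nat_lit 0) (nat_lit 27662991410) (nat_lit 76) (nat_lit 796565132) (nat_lit 14) (nat_lit 3) (nat_lit 13) (nat_lit 1) (nat_lit 14) (nat_lit 1) (nat_lit 334) (nat_lit 420) (nat_lit 266))))) (XT.nd (nat_lit 234) (nat_lit 456) (nat_lit 0) (XT.nd (nat_lit 78) (nat_lit 304) (nat_lit 0) (XT.lf (nat_lit 0) (nat_lit 14150058047) (nat_lit 0) (nat_lit 14153912265) (nat_lit 152) (nat_lit 202346104) (nat_lit 11) (nat_lit 3) (nat_lit 11) (nat_lit 1) (nat_lit 13) (nat_lit 1) (nat_lit 335) (nat_lit 420) (nat_lit 265)) (XT.nd (nat_lit 78) (nat_lit 76) (nat_lit 0) (XT.lf (nat_lit 0) (nat_lit 676218287) (nat_lit 0) (nat_lit 679617068) (nat_lit 152) (nat_lit 26433038794) (nat_lit 8) (nat_lit 3) (nat_lit 8) (nat_lit 1) (nat_lit 10) (nat_lit 1) (nat_lit 336) (nat_lit 420) (nat_lit 264)) (XT.lf (nat_lit 76) (nat_lit 12219275802) (nat_lit 0) (nat_lit 2638116810)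 (nat_lit 76) (nat_lit 12222422822) (nat_lit 8) (nat_lit 3) (nat_lit 7) (nat_lit 1) (nat_lit 8) (nat_lit 1) (nat_lit 337) (nat_lit 420) (nat_lit 263)))) (XT.nd (nat_lit 156) (nat_lit 228) (nat_lit 0) (XT.nd (nat_lit 78) (nat_lit 76) (nat_lit 0) (XT.lf (nat_lit 0) (nat_lit 2011867809) (nat_lit 0) (nat_lit 2014642959) (nat_lit 152) (nat_lit 22370691140) (nat_lit 5) (nat_lit 3) (nat_lit 5) (nat_lit 1) (nat_lit 7) (nat_lit 1) (nat_lit 338) (nat_lit 420) (nat_lit 262)) (XT.lf (nat_lit 76) (nat_lit 10264014800) (nat_lit 0) (nat_lit 5194281311) (nat_lit 76) (nat_lit 10266584383) (nat_lit 5) (nat_lit 3) (nat_lit 4) (nat_lit 1) (nat_lit 5) (nat_lit 1) (nat_lit 339) (nat_lit 420) (nat_lit 261))) (XT.nd (nat_lit 78) (nat_lit 76) (nat_lit 0) (XT.lf (nat_lit 0) (nat_lit 3208959239) (nat_lit 0) (nat_lit 3211225185) (nat_lit 152) (nat_lit 18655363138) (nat_lit 2) (nat_lit 3) (nat_lit 2) (nat_lit 1) (nat_lit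 4) (nat_lit 1) (nat_lit 340) (nat_lit 420) (nat_lit 260)) (XT.lf (nat_lit 76) (nat_lit 8477064843) (nat_lit 0) (nat_lit 7481823331) (nat_lit 76) (nat_lit 8479162941) (nat_lit 2) (nat_lit 3) (nat_lit 1) (nat_lit 1) (nat_lit 2) (nat_lit 1) (nat_lit 341) (nat_lit 420) (nat_lit 259))))))))

set_option maxRecDepth 10000000 in
noncomputable def Tp : PT := (PT.nd (nat_lit 9468420) (PT.nd (nat_lit 8247018) (PT.nd (nat_lit 5221554) (PT.nd (nat_lit 3204630) (PT.nd (nat_lit 1877616) pc0 pc1) (PT.nd (nat_lit 1167816) pc2 pc3)) (PT.nd (nat_lit 1592370) (PT.nd (nat_lit 743262) pc4 pc5) (PT.nd (nat_lit 796224) pc6 pc7))) (PT.nd (nat_lit 849888) (PT.nd (nat_lit 583908) (PT.nd (nat_lit 371436) pc8 pc9) (PT.nd (nat_lit 159198) pc10 pc11)) (PT.nd (nat_lit 211926) (PT.nd (nat_lit 106158) pc12 pc13) (PT.nd (nat_lit 104988) pc14 pc15)))) (PT.nd (nat_lit 1489956) (PT.nd (nat_lit 691938) (PT.nd (nat_lit 316290) (PT.nd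 (nat_lit 106860) pc16 pc17) (PT.nd (nat_lit 163020) pc18 pc19)) (PT.nd (nat_lit 418782) (PT.nd (nat_lit 207090) pc20 pc21) (PT.nd (nat_lit 166608) pc22 pc23))) (PT.nd (nat_lit 1010646) (PT.nd (nat_lit 415272) (PT.nd (nat_lit 203580) pc24 pc25) (PT.nd (nat_lit 264810) pc26 pc27)) (PT.nd (nat_lit 675636) (PT.nd (nat_lit 319254) pc28 pc29) (PT.nd (nat_lit 317928) pc30 pc31)))))

set_option maxRecDepth 10000000 in
noncomputable def Tx : XT := (XT.nd (nat_lit 15279732) (nat_lit 0) (nat_lit 1064) XT.nil (XT.nd (nat_lit 7913880) (nat_lit 0) (nat_lit 0) (XT.nd (nat_lit 3450798) (nat_lit 0) (nat_lit 7068) (XT.nd (nat_lit 2383212) (nat_lit 0) (nat_lit 4560) (XT.nd (nat_lit 1644240) (nat_lit 0) (nat_lit 2888) (XT.nd (nat_lit 1115244) (nat_lit 0) (nat_lit 1596) (XT.nd (nat_lit 794898) (nat_lit 0) (nat_lit 912) (XT.nd (nat_lit 530400) (nat_lit 0) (nat_lit 456) (XT.nd (nat_lit 370890) (nat_lit 0) (nat_lit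 228) (XT.nd (nat_lit 212472) (nat_lit 0) (nat_lit 152) xc0 xc1) (XT.nd (nat_lit 54132) (nat_lit 0) (nat_lit 152) xc2 xc3)) (XT.nd (nat_lit 158106) (nat_lit 0) (nat_lit 228) (XT.nd (nat_lit 53664) (nat_lit 0) (nat_lit 152) xc4 xc5) (XT.nd (nat_lit 53274) (nat_lit 0) (nat_lit 152) xc6 xc7))) (XT.nd (nat_lit 160836) (nat_lit 0) (nat_lit 380) (XT.nd (nat_lit 105690) (nat_lit 0) (nat_lit 228) (XT.nd (nat_lit 52884) (nat_lit 0) (nat_lit 152) xc8 xc9) (XT.nd (nat_lit 2496) (nat_lit 152) (nat_lit 0) xc10 xc11)) (XT.nd (nat_lit 104754) (nat_lit 0) (nat_lit 228) (XT.nd (nat_lit 52416) (nat_lit 0) (nat_lit 76) xc12 xc13) (XT.nd (nat_lit 52182) (nat_lit 0) (nat_lit 684) xc14 xc15)))) (XT.nd (nat_lit 315120) (nat_lit 0) (nat_lit 836) (XT.nd (nat_lit 158184) (nat_lit 0) (nat_lit 456) (XT.nd (nat_lit 103896) (nat_lit 0) (nat_lit 380) (XT.nd (nat_lit 51948) (nat_lit 0) (nat_lit 228) xc16 xc17) (XT.nd (nat_lit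 2496) (nat_lit 228) (nat_lit 0) xc18 xc19)) (XT.nd (nat_lit 54132) (nat_lit 0) (nat_lit 152) (XT.nd (nat_lit 51558) (nat_lit 0) (nat_lit 836) xc20 xc21) (XT.nd (nat_lit 51480) (nat_lit 0) (nat_lit 76) xc22 xc23))) (XT.nd (nat_lit 107250) (nat_lit 0) (nat_lit 228) (XT.nd (nat_lit 53664) (nat_lit 0) (nat_lit 76) (XT.nd (nat_lit 2496) (nat_lit 2128) (nat_lit 0) xc24 xc25) (XT.nd (nat_lit 2574) (nat_lit 1292) (nat_lit 0) xc26 xc27)) (XT.nd (nat_lit 53352) (nat_lit 0) (nat_lit 76) (XT.nd (nat_lit 2496) (nat_lit 532) (nat_lit 0) xc28 xc29) (XT.nd (nat_lit 2574) (nat_lit 152) (nat_lit 0) xc30 xc31))))) (XT.nd (nat_lit 373308) (nat_lit 0) (nat_lit 760) (XT.nd (nat_lit 211302) (nat_lit 0) (nat_lit 456) (XT.nd (nat_lit 105924) (nat_lit 0) (nat_lit 228) (XT.nd (nat_lit 53040) (nat_lit 0) (nat_lit 76) (XT.nd (nat_lit 50466) (nat_lit 0) (nat_lit 4180) xc32 xc33) (XT.nd (nat_lit 2496) (nat_lit 152) (nat_lit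 0) xc34 xc35)) (XT.nd (nat_lit 52728) (nat_lit 0) (nat_lit 76) (XT.nd (nat_lit 2496) (nat_lit 456) (nat_lit 0) xc36 xc37) (XT.nd (nat_lit 2574) (nat_lit 1064) (nat_lit 0) xc38 xc39))) (XT.nd (nat_lit 104754) (nat_lit 0) (nat_lit 228) (XT.nd (nat_lit 52416) (nat_lit 0) (nat_lit 76) (XT.nd (nat_lit 2496) (nat_lit 1824) (nat_lit 0) xc40 xc41) (XT.nd (nat_lit 2574) (nat_lit 2888) (nat_lit 0) xc42 xc43)) (XT.nd (nat_lit 5070) (nat_lit 76) (nat_lit 0) (XT.nd (nat_lit 2496) (nat_lit 4028) (nat_lit 0) xc44 xc45) (XT.nd (nat_lit 49608) (nat_lit 0) (nat_lit 1672) xc46 xc47)))) (XT.nd (nat_lit 206934) (nat_lit 0) (nat_lit 456) (XT.nd (nat_lit 103740) (nat_lit 0) (nat_lit 228) (XT.nd (nat_lit 51948) (nat_lit 0) (nat_lit 152) (XT.nd (nat_lit 49374) (nat_lit 0) (nat_lit 3572) xc48 xc49) (XT.nd (nat_lit 49218) (nat_lit 0) (nat_lit 5548) xc50 xc51)) (XT.nd (nat_lit 51636) (nat_lit 0) (nat_lit 152) (XT.nd (nat_lit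 2496) (nat_lit 1596) (nat_lit 0) xc52 xc53) (XT.nd (nat_lit 2574) (nat_lit 3724) (nat_lit 0) xc54 xc55))) (XT.nd (nat_lit 56472) (nat_lit 0) (nat_lit 152) (XT.nd (nat_lit 5070) (nat_lit 2280) (nat_lit 0) (XT.nd (nat_lit 2496) (nat_lit 4104) (nat_lit 0) xc56 xc57) (XT.nd (nat_lit 48828) (nat_lit 0) (nat_lit 5168) xc58 xc59)) (XT.nd (nat_lit 51168) (nat_lit 0) (nat_lit 228) (XT.nd (nat_lit 2496) (nat_lit 1140) (nat_lit 0) xc60 xc61) (XT.nd (nat_lit 2574) (nat_lit 3876) (nat_lit 0) xc62 xc63)))))) (XT.nd (nat_lit 533052) (nat_lit 0) (nat_lit 1140) (XT.nd (nat_lit 268086) (nat_lit 0) (nat_lit 608) (XT.nd (nat_lit 111774) (nat_lit 0) (nat_lit 228) (XT.nd (nat_lit 55926) (nat_lit 0) (nat_lit 152) (XT.nd (nat_lit 5070) (nat_lit 3192) (nat_lit 0) (XT.nd (nat_lit 2496) (nat_lit 4104) (nat_lit 0) xc64 xc65) (XT.nd (nat_lit 48282) (nat_lit 0) (nat_lit 6840) xc66 xc67)) (XT.nd (nat_lit 50700) (nat_lit 0)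 (nat_lit 2584) (XT.nd (nat_lit 2496) (nat_lit 2812) (nat_lit 0) xc68 xc69) (XT.nd (nat_lit 2574) (nat_lit 4028) (nat_lit 0) xc70 xc71))) (XT.nd (nat_lit 100932) (nat_lit 0) (nat_lit 228) (XT.nd (nat_lit 50544) (nat_lit 0) (nat_lit 152) (XT.nd (nat_lit 47970) (nat_lit 0) (nat_lit 6612) xc72 xc73) (XT.nd (nat_lit 2496) (nat_lit 2584) (nat_lit 0) xc74 xc75)) (XT.nd (nat_lit 5070) (nat_lit 2888) (nat_lit 0) (XT.nd (nat_lit 2496) (nat_lit 3952) (nat_lit 0) xc76 xc77) (XT.nd (nat_lit 47736) (nat_lit 0) (nat_lit 7296) xc78 xc79)))) (XT.nd (nat_lit 110214) (nat_lit 0) (nat_lit 228) (XT.nd (nat_lit 55146) (nat_lit 0) (nat_lit 76) (XT.nd (nat_lit 50076) (nat_lit 0) (nat_lit 4180) (XT.nd (nat_lit 2496) (nat_lit 3268) (nat_lit 0) xc80 xc81) (XT.nd (nat_lit 2496) (nat_lit 3952) (nat_lit 0) xc82 xc83)) (XT.nd (nat_lit 49920) (nat_lit 0) (nat_lit 1140) (XT.nd (nat_lit 2496) (nat_lit 228) (nat_lit 0) xc84 xc85)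 (XT.nd (nat_lit 2574) (nat_lit 4028) (nat_lit 0) xc86 xc87))) (XT.nd (nat_lit 99684) (nat_lit 0) (nat_lit 228) (XT.nd (nat_lit 49764) (nat_lit 0) (nat_lit 76) (XT.nd (nat_lit 47190) (nat_lit 0) (nat_lit 6308) xc88 xc89) (XT.nd (nat_lit 2574) (nat_lit 2280) (nat_lit 0) xc90 xc91)) (XT.nd (nat_lit 5070) (nat_lit 3268) (nat_lit 0) (XT.nd (nat_lit 2496) (nat_lit 4028) (nat_lit 0) xc92 xc93) (XT.nd (nat_lit 47424) (nat_lit 0) (nat_lit 8436) xc94 xc95))))) (XT.nd (nat_lit 266214) (nat_lit 0) (nat_lit 608) (XT.nd (nat_lit 110292) (nat_lit 0) (nat_lit 228) (XT.nd (nat_lit 55068) (nat_lit 0) (nat_lit 152) (XT.nd (nat_lit 5070) (nat_lit 380) (nat_lit 0) (XT.nd (nat_lit 2496) (nat_lit 3952) (nat_lit 0) xc96 xc97) (XT.nd (nat_lit 47424) (nat_lit 0) (nat_lit 5244) xc98 xc99)) (XT.nd (nat_lit 50076) (nat_lit 0) (nat_lit 2052) (XT.nd (nat_lit 2496) (nat_lit 1368) (nat_lit 0) xc100 xc101) (XT.nd (nat_lit 2574)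 (nat_lit 3952) (nat_lit 0) xc102 xc103))) (XT.nd (nat_lit 100464) (nat_lit 0) (nat_lit 228) (XT.nd (nat_lit 50154) (nat_lit 0) (nat_lit 152) (XT.nd (nat_lit 47580) (nat_lit 0) (nat_lit 6612) xc104 xc105) (XT.nd (nat_lit 2574) (nat_lit 2508) (nat_lit 0) xc106 xc107)) (XT.nd (nat_lit 5070) (nat_lit 3116) (nat_lit 0) (XT.nd (nat_lit 2496) (nat_lit 3800) (nat_lit 0) xc108 xc109) (XT.nd (nat_lit 47814) (nat_lit 0) (nat_lit 7296) xc110 xc111)))) (XT.nd (nat_lit 156546) (nat_lit 0) (nat_lit 532) (XT.nd (nat_lit 55458) (nat_lit 0) (nat_lit 76) (XT.nd (nat_lit 50388) (nat_lit 0) (nat_lit 3724) (XT.nd (nat_lit 2496) (nat_lit 3420) (nat_lit 0) xc112 xc113) (XT.nd (nat_lit 2496) (nat_lit 4028) (nat_lit 0) xc114 xc115)) (XT.nd (nat_lit 50466) (nat_lit 0) (nat_lit 152) (XT.nd (nat_lit 47892) (nat_lit 0) (nat_lit 7980) xc116 xc117) (XT.nd (nat_lit 2574) (nat_lit 3724) (nat_lit 0) xc118 xc119))) (XT.nd (nat_lit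 55848) (nat_lit 0) (nat_lit 152) (XT.nd (nat_lit 5070) (nat_lit 3572) (nat_lit 0) (XT.nd (nat_lit 2496) (nat_lit 4028) (nat_lit 0) xc120 xc121) (XT.nd (nat_lit 48204) (nat_lit 0) (nat_lit 7296) xc122 xc123)) (XT.nd (nat_lit 50778) (nat_lit 0) (nat_lit 2964) (XT.nd (nat_lit 2496) (nat_lit 3268) (nat_lit 0) xc124 xc125) (XT.nd (nat_lit 2574) (nat_lit 3876) (nat_lit 0) xc126 xc127))))))) (XT.nd (nat_lit 1379274) (nat_lit 0) (nat_lit 3192) (XT.nd (nat_lit 636090) (nat_lit 0) (nat_lit 1368) (XT.nd (nat_lit 316602) (nat_lit 0) (nat_lit 684) (XT.nd (nat_lit 157950) (nat_lit 0) (nat_lit 380) (XT.nd (nat_lit 101790) (nat_lit 0) (nat_lit 228) (XT.nd (nat_lit 50856) (nat_lit 0) (nat_lit 152) (XT.nd (nat_lit 48282) (nat_lit 0) (nat_lit 6384) xc128 xc129) (XT.nd (nat_lit 2496) (nat_lit 2508) (nat_lit 0) xc130 xc131)) (XT.nd (nat_lit 5070) (nat_lit 1976) (nat_lit 0) (XT.nd (nat_lit 2496) (nat_lit 3800) (nat_lit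 0) xc132 xc133) (XT.nd (nat_lit 48516) (nat_lit 0) (nat_lit 5092) xc134 xc135))) (XT.nd (nat_lit 56160) (nat_lit 0) (nat_lit 76) (XT.nd (nat_lit 51090) (nat_lit 0) (nat_lit 456) (XT.nd (nat_lit 2496) (nat_lit 1140) (nat_lit 0) xc136 xc137) (XT.nd (nat_lit 2496) (nat_lit 3952) (nat_lit 0) xc138 xc139)) (XT.nd (nat_lit 51168) (nat_lit 0) (nat_lit 152) (XT.nd (nat_lit 48594) (nat_lit 0) (nat_lit 3420) xc140 xc141) (XT.nd (nat_lit 48750) (nat_lit 0) (nat_lit 6156) xc142 xc143)))) (XT.nd (nat_lit 159354) (nat_lit 0) (nat_lit 380) (XT.nd (nat_lit 56394) (nat_lit 0) (nat_lit 152) (XT.nd (nat_lit 51324) (nat_lit 0) (nat_lit 1140) (XT.nd (nat_lit 2496) (nat_lit 2280) (nat_lit 0) xc144 xc145) (XT.nd (nat_lit 2496) (nat_lit 3952) (nat_lit 0) xc146 xc147)) (XT.nd (nat_lit 51402) (nat_lit 0) (nat_lit 76) (XT.nd (nat_lit 48828) (nat_lit 0) (nat_lit 3800) xc148 xc149) (XT.nd (nat_lit 48984) (nat_lit 0) (nat_lit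 6384) xc150 xc151))) (XT.nd (nat_lit 56706) (nat_lit 0) (nat_lit 76) (XT.nd (nat_lit 51558) (nat_lit 0) (nat_lit 684) (XT.nd (nat_lit 2496) (nat_lit 2280) (nat_lit 0) xc152 xc153) (XT.nd (nat_lit 2574) (nat_lit 3952) (nat_lit 0) xc154 xc155)) (XT.nd (nat_lit 51636) (nat_lit 0) (nat_lit 152) (XT.nd (nat_lit 49062) (nat_lit 0) (nat_lit 2964) xc156 xc157) (XT.nd (nat_lit 49218) (nat_lit 0) (nat_lit 4940) xc158 xc159))))) (XT.nd (nat_lit 369486) (nat_lit 0) (nat_lit 912) (XT.nd (nat_lit 160758) (nat_lit 0) (nat_lit 380) (XT.nd (nat_lit 103662) (nat_lit 0) (nat_lit 228) (XT.nd (nat_lit 51792) (nat_lit 0) (nat_lit 152) (XT.nd (nat_lit 2496) (nat_lit 1140) (nat_lit 0) xc160 xc161) (XT.nd (nat_lit 2496) (nat_lit 3116) (nat_lit 0) xc162 xc163)) (XT.nd (nat_lit 5070) (nat_lit 1140) (nat_lit 0) (XT.nd (nat_lit 2496) (nat_lit 3952) (nat_lit 0) xc164 xc165) (XT.nd (nat_lit 49452) (nat_lit 0) (nat_lit 2964)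 xc166 xc167))) (XT.nd (nat_lit 104208) (nat_lit 0) (nat_lit 304) (XT.nd (nat_lit 52026) (nat_lit 0) (nat_lit 76) (XT.nd (nat_lit 49452) (nat_lit 0) (nat_lit 4484) xc168 xc169) (XT.nd (nat_lit 2574) (nat_lit 608) (nat_lit 0) xc170 xc171)) (XT.nd (nat_lit 52182) (nat_lit 0) (nat_lit 76) (XT.nd (nat_lit 2496) (nat_lit 1976) (nat_lit 0) xc172 xc173) (XT.nd (nat_lit 2574) (nat_lit 3344) (nat_lit 0) xc174 xc175)))) (XT.nd (nat_lit 162474) (nat_lit 0) (nat_lit 456) (XT.nd (nat_lit 57408) (nat_lit 0) (nat_lit 152) (XT.nd (nat_lit 5070) (nat_lit 684) (nat_lit 0) (XT.nd (nat_lit 2496) (nat_lit 4028) (nat_lit 0) xc176 xc177) (XT.nd (nat_lit 49764) (nat_lit 0) (nat_lit 1976) xc178 xc179)) (XT.nd (nat_lit 52416) (nat_lit 0) (nat_lit 228) (XT.nd (nat_lit 49842) (nat_lit 0) (nat_lit 3040) xc180 xc181) (XT.nd (nat_lit 50076) (nat_lit 0) (nat_lit 3572) xc182 xc183))) (XT.nd (nat_lit 105456) (nat_lit 0) (nat_lit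 228) (XT.nd (nat_lit 52650) (nat_lit 0) (nat_lit 152) (XT.nd (nat_lit 50076) (nat_lit 0) (nat_lit 4560) xc184 xc185) (XT.nd (nat_lit 2574) (nat_lit 304) (nat_lit 0) xc186 xc187)) (XT.nd (nat_lit 52806) (nat_lit 0) (nat_lit 152) (XT.nd (nat_lit 2496) (nat_lit 912) (nat_lit 0) xc188 xc189) (XT.nd (nat_lit 2574) (nat_lit 1216) (nat_lit 0) xc190 xc191)))))) (XT.nd (nat_lit 956202) (nat_lit 0) (nat_lit 2356) (XT.nd (nat_lit 426036) (nat_lit 0) (nat_lit 912) (XT.nd (nat_lit 212394) (nat_lit 0) (nat_lit 456) (XT.nd (nat_lit 106002) (nat_lit 0) (nat_lit 228) (XT.nd (nat_lit 52962) (nat_lit 0) (nat_lit 152) (XT.nd (nat_lit 2496) (nat_lit 1672) (nat_lit 0) xc192 xc193) (XT.nd (nat_lit 2496) (nat_lit 1900) (nat_lit 0) xc194 xc195)) (XT.nd (nat_lit 53118) (nat_lit 0) (nat_lit 152) (XT.nd (nat_lit 2496) (nat_lit 2052) (nat_lit 0) xc196 xc197) (XT.nd (nat_lit 2574) (nat_lit 1900) (nat_lit 0) xc198 xc199)))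 (XT.nd (nat_lit 106626) (nat_lit 0) (nat_lit 228) (XT.nd (nat_lit 53274) (nat_lit 0) (nat_lit 152) (XT.nd (nat_lit 2496) (nat_lit 1824) (nat_lit 0) xc200 xc201) (XT.nd (nat_lit 2496) (nat_lit 1520) (nat_lit 0) xc202 xc203)) (XT.nd (nat_lit 53430) (nat_lit 0) (nat_lit 152) (XT.nd (nat_lit 2496) (nat_lit 1216) (nat_lit 0) xc204 xc205) (XT.nd (nat_lit 2574) (nat_lit 608) (nat_lit 0) xc206 xc207)))) (XT.nd (nat_lit 264030) (nat_lit 0) (nat_lit 760) (XT.nd (nat_lit 107328) (nat_lit 0) (nat_lit 456) (XT.nd (nat_lit 53586) (nat_lit 0) (nat_lit 228) (XT.nd (nat_lit 51012) (nat_lit 0) (nat_lit 3496) xc208 xc209) (XT.nd (nat_lit 51168) (nat_lit 0) (nat_lit 2128) xc210 xc211)) (XT.nd (nat_lit 53820) (nat_lit 0) (nat_lit 76) (XT.nd (nat_lit 51246) (nat_lit 0) (nat_lit 988) xc212 xc213) (XT.nd (nat_lit 51402) (nat_lit 0) (nat_lit 152) xc214 xc215))) (XT.nd (nat_lit 108264) (nat_lit 0) (nat_lit 228) (XT.nd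 (nat_lit 54054) (nat_lit 0) (nat_lit 152) (XT.nd (nat_lit 2496) (nat_lit 2432) (nat_lit 0) xc216 xc217) (XT.nd (nat_lit 2574) (nat_lit 684) (nat_lit 0) xc218 xc219)) (XT.nd (nat_lit 54210) (nat_lit 0) (nat_lit 152) (XT.nd (nat_lit 51636) (nat_lit 0) (nat_lit 1368) xc220 xc221) (XT.nd (nat_lit 51792) (nat_lit 0) (nat_lit 76) xc222 xc223))))) (XT.nd (nat_lit 639600) (nat_lit 0) (nat_lit 1748) (XT.nd (nat_lit 268398) (nat_lit 0) (nat_lit 608) (XT.nd (nat_lit 109122) (nat_lit 0) (nat_lit 228) (XT.nd (nat_lit 54522) (nat_lit 0) (nat_lit 152) (XT.nd (nat_lit 2496) (nat_lit 1444) (nat_lit 0) xc224 xc225) (XT.nd (nat_lit 52026) (nat_lit 0) (nat_lit 760) xc226 xc227)) (XT.nd (nat_lit 104364) (nat_lit 0) (nat_lit 228) (XT.nd (nat_lit 52104) (nat_lit 0) (nat_lit 152) xc228 xc229) (XT.nd (nat_lit 52338) (nat_lit 0) (nat_lit 1064) xc230 xc231))) (XT.nd (nat_lit 210054) (nat_lit 0) (nat_lit 608) (XT.nd (nat_lit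 104832) (nat_lit 0) (nat_lit 228) (XT.nd (nat_lit 52338) (nat_lit 0) (nat_lit 76) xc232 xc233) (XT.nd (nat_lit 52572) (nat_lit 0) (nat_lit 76) xc234 xc235)) (XT.nd (nat_lit 55302) (nat_lit 0) (nat_lit 228) (XT.nd (nat_lit 2496) (nat_lit 836) (nat_lit 0) xc236 xc237) (XT.nd (nat_lit 52884) (nat_lit 0) (nat_lit 76) xc238 xc239)))) (XT.nd (nat_lit 477828) (nat_lit 0) (nat_lit 1596) (XT.nd (nat_lit 212472) (nat_lit 0) (nat_lit 532) (XT.nd (nat_lit 106080) (nat_lit 0) (nat_lit 304) (XT.nd (nat_lit 52962) (nat_lit 0) (nat_lit 76) xc240 xc241) (XT.nd (nat_lit 53118) (nat_lit 0) (nat_lit 76) xc242 xc243)) (XT.nd (nat_lit 106782) (nat_lit 0) (nat_lit 532) (XT.nd (nat_lit 53274) (nat_lit 0) (nat_lit 304) xc244 xc245) (XT.nd (nat_lit 104754) (nat_lit 0) (nat_lit 304) xc246 xc247))) (XT.nd (nat_lit 319098) (nat_lit 0) (nat_lit 1596) (XT.nd (nat_lit 159042) (nat_lit 0) (nat_lit 836) (XT.nd (nat_lit 53742)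 (nat_lit 0) (nat_lit 152) xc248 xc249) (XT.nd (nat_lit 54132) (nat_lit 0) (nat_lit 304) xc250 xc251)) (XT.nd (nat_lit 212784) (nat_lit 0) (nat_lit 1596) (XT.nd (nat_lit 106158) (nat_lit 0) (nat_lit 608) xc252 xc253) (XT.nd (nat_lit 159354) (nat_lit 0) (nat_lit 684) xc254 xc255)))))))) XT.nil))

set_option maxRecDepth 10000000 in
noncomputable def Te : XT := (XT.nd (nat_lit 16285932) (nat_lit 0) (nat_lit 0) XT.nil (XT.nd (nat_lit 6050304) (nat_lit 0) (nat_lit 0) (XT.nd (nat_lit 4139928) (nat_lit 0) (nat_lit 0) (XT.nd (nat_lit 2867592) (nat_lit 5320) (nat_lit 0) (XT.nd (nat_lit 2015364) (nat_lit 3876) (nat_lit 0) (XT.nd (nat_lit 1381302) (nat_lit 3268) (nat_lit 0) (XT.nd (nat_lit 955968) (nat_lit 2128) (nat_lit 0) (XT.nd (nat_lit 688506) (nat_lit 1520) (nat_lit 0) (XT.nd (nat_lit 425100) (nat_lit 2508) (nat_lit 0) (XT.nd (nat_lit 265824) (nat_lit 1596) (nat_lit 0) ec0 ec1) (XT.nd (nat_lit 157716)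 (nat_lit 912) (nat_lit 0) ec2 ec3)) (XT.nd (nat_lit 159276) (nat_lit 608) (nat_lit 0) (XT.nd (nat_lit 54600) (nat_lit 608) (nat_lit 0) ec4 ec5) (XT.nd (nat_lit 54132) (nat_lit 304) (nat_lit 0) ec6 ec7))) (XT.nd (nat_lit 263016) (nat_lit 684) (nat_lit 0) (XT.nd (nat_lit 156702) (nat_lit 684) (nat_lit 0) (XT.nd (nat_lit 53742) (nat_lit 304) (nat_lit 0) ec8 ec9) (XT.nd (nat_lit 53274) (nat_lit 456) (nat_lit 0) ec10 ec11)) (XT.nd (nat_lit 105534) (nat_lit 228) (nat_lit 0) (XT.nd (nat_lit 52806) (nat_lit 228) (nat_lit 0) ec12 ec13) (XT.nd (nat_lit 52572) (nat_lit 0) (nat_lit 456) ec14 ec15)))) (XT.nd (nat_lit 367224) (nat_lit 1444) (nat_lit 0) (XT.nd (nat_lit 208494) (nat_lit 684) (nat_lit 0) (XT.nd (nat_lit 104676) (nat_lit 684) (nat_lit 0) (XT.nd (nat_lit 52416) (nat_lit 228) (nat_lit 0) ec16 ec17) (XT.nd (nat_lit 51948) (nat_lit 228) (nat_lit 0) ec18 ec19)) (XT.nd (nat_lit 55848) (nat_lit 456)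 (nat_lit 0) (XT.nd (nat_lit 4134) (nat_lit 608) (nat_lit 0) ec20 ec21) (XT.nd (nat_lit 51480) (nat_lit 228) (nat_lit 0) ec22 ec23))) (XT.nd (nat_lit 110604) (nat_lit 988) (nat_lit 0) (XT.nd (nat_lit 55380) (nat_lit 228) (nat_lit 0) (XT.nd (nat_lit 4134) (nat_lit 1520) (nat_lit 0) ec24 ec25) (XT.nd (nat_lit 51012) (nat_lit 0) (nat_lit 912) ec26 ec27)) (XT.nd (nat_lit 101634) (nat_lit 456) (nat_lit 0) (XT.nd (nat_lit 50856) (nat_lit 228) (nat_lit 0) ec28 ec29) (XT.nd (nat_lit 4134) (nat_lit 2128) (nat_lit 0) ec30 ec31))))) (XT.nd (nat_lit 475956) (nat_lit 1672) (nat_lit 0) (XT.nd (nat_lit 262236) (nat_lit 1064) (nat_lit 0) (XT.nd (nat_lit 108654) (nat_lit 684) (nat_lit 0) (XT.nd (nat_lit 54366) (nat_lit 228) (nat_lit 0) (XT.nd (nat_lit 50232) (nat_lit 0) (nat_lit 4028) ec32 ec33) (XT.nd (nat_lit 50076) (nat_lit 0) (nat_lit 2280) ec34 ec35)) (XT.nd (nat_lit 54132) (nat_lit 456) (nat_lit 0) (XT.nd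 (nat_lit 49920) (nat_lit 0) (nat_lit 684) ec36 ec37) (XT.nd (nat_lit 49764) (nat_lit 228) (nat_lit 0) ec38 ec39))) (XT.nd (nat_lit 107172) (nat_lit 456) (nat_lit 0) (XT.nd (nat_lit 53664) (nat_lit 228) (nat_lit 0) (XT.nd (nat_lit 4134) (nat_lit 5092) (nat_lit 0) ec40 ec41) (XT.nd (nat_lit 4134) (nat_lit 4256) (nat_lit 0) ec42 ec43)) (XT.nd (nat_lit 53352) (nat_lit 228) (nat_lit 0) (XT.nd (nat_lit 4134) (nat_lit 3648) (nat_lit 0) ec44 ec45) (XT.nd (nat_lit 4134) (nat_lit 3268) (nat_lit 0) ec46 ec47)))) (XT.nd (nat_lit 211146) (nat_lit 760) (nat_lit 0) (XT.nd (nat_lit 105846) (nat_lit 456) (nat_lit 0) (XT.nd (nat_lit 52962) (nat_lit 228) (nat_lit 0) (XT.nd (nat_lit 4134) (nat_lit 3116) (nat_lit 0) ec48 ec49) (XT.nd (nat_lit 4134) (nat_lit 3344) (nat_lit 0) ec50 ec51)) (XT.nd (nat_lit 52728) (nat_lit 228) (nat_lit 0) (XT.nd (nat_lit 4134) (nat_lit 3648) (nat_lit 0) ec52 ec53) (XT.nd (nat_lit 4134)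 (nat_lit 4332) (nat_lit 0) ec54 ec55))) (XT.nd (nat_lit 104676) (nat_lit 304) (nat_lit 0) (XT.nd (nat_lit 52416) (nat_lit 228) (nat_lit 0) (XT.nd (nat_lit 4134) (nat_lit 5168) (nat_lit 0) ec56 ec57) (XT.nd (nat_lit 4134) (nat_lit 6156) (nat_lit 0) ec58 ec59)) (XT.nd (nat_lit 8346) (nat_lit 1140) (nat_lit 0) (XT.nd (nat_lit 4134) (nat_lit 6460) (nat_lit 0) ec60 ec61) (XT.nd (nat_lit 47892) (nat_lit 0) (nat_lit 2356) ec62 ec63)))))) (XT.nd (nat_lit 688818) (nat_lit 2356) (nat_lit 0) (XT.nd (nat_lit 368940) (nat_lit 1444) (nat_lit 0) (XT.nd (nat_lit 206856) (nat_lit 684) (nat_lit 0) (XT.nd (nat_lit 103662) (nat_lit 380) (nat_lit 0) (XT.nd (nat_lit 51870) (nat_lit 228) (nat_lit 0) (XT.nd (nat_lit 47736) (nat_lit 0) (nat_lit 4332) ec64 ec65) (XT.nd (nat_lit 47580) (nat_lit 0) (nat_lit 6384) ec66 ec67)) (XT.nd (nat_lit 51636) (nat_lit 152) (nat_lit 0) (XT.nd (nat_lit 4134) (nat_lit 228) (nat_lit 0)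 ec68 ec69) (XT.nd (nat_lit 4134) (nat_lit 2432) (nat_lit 0) ec70 ec71))) (XT.nd (nat_lit 59748) (nat_lit 456) (nat_lit 0) (XT.nd (nat_lit 51402) (nat_lit 0) (nat_lit 684) (XT.nd (nat_lit 4134) (nat_lit 4788) (nat_lit 0) ec72 ec73) (XT.nd (nat_lit 4134) (nat_lit 6536) (nat_lit 0) ec74 ec75)) (XT.nd (nat_lit 51246) (nat_lit 228) (nat_lit 0) (XT.nd (nat_lit 47034) (nat_lit 0) (nat_lit 3572) ec76 ec77) (XT.nd (nat_lit 46878) (nat_lit 0) (nat_lit 6764) ec78 ec79)))) (XT.nd (nat_lit 160602) (nat_lit 684) (nat_lit 0) (XT.nd (nat_lit 101634) (nat_lit 304) (nat_lit 0) (XT.nd (nat_lit 50856) (nat_lit 228) (nat_lit 0) (XT.nd (nat_lit 4134) (nat_lit 608) (nat_lit 0) ec80 ec81) (XT.nd (nat_lit 4134) (nat_lit 4028) (nat_lit 0) ec82 ec83)) (XT.nd (nat_lit 8346) (nat_lit 1216) (nat_lit 0) (XT.nd (nat_lit 4134) (nat_lit 6536) (nat_lit 0) ec84 ec85) (XT.nd (nat_lit 46410) (nat_lit 0) (nat_lit 4864) ec86 ec87)))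 (XT.nd (nat_lit 100776) (nat_lit 228) (nat_lit 0) (XT.nd (nat_lit 50466) (nat_lit 228) (nat_lit 0) (XT.nd (nat_lit 46254) (nat_lit 0) (nat_lit 8892) ec88 ec89) (XT.nd (nat_lit 4134) (nat_lit 2736) (nat_lit 0) ec90 ec91)) (XT.nd (nat_lit 8346) (nat_lit 532) (nat_lit 0) (XT.nd (nat_lit 4134) (nat_lit 6536) (nat_lit 0) ec92 ec93) (XT.nd (nat_lit 45942) (nat_lit 0) (nat_lit 4864) ec94 ec95))))) (XT.nd (nat_lit 314340) (nat_lit 1064) (nat_lit 0) (XT.nd (nat_lit 157794) (nat_lit 608) (nat_lit 0) (XT.nd (nat_lit 99762) (nat_lit 228) (nat_lit 0) (XT.nd (nat_lit 49920) (nat_lit 228) (nat_lit 0) (XT.nd (nat_lit 45786) (nat_lit 0) (nat_lit 9804) ec96 ec97) (XT.nd (nat_lit 4134) (nat_lit 3724) (nat_lit 0) ec98 ec99)) (XT.nd (nat_lit 8346) (nat_lit 2280) (nat_lit 0) (XT.nd (nat_lit 4134) (nat_lit 6460) (nat_lit 0) ec100 ec101) (XT.nd (nat_lit 45474) (nat_lit 0) (nat_lit 7296) ec102 ec103))) (XT.nd (nat_lit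 57876) (nat_lit 380) (nat_lit 0) (XT.nd (nat_lit 49530) (nat_lit 0) (nat_lit 0) (XT.nd (nat_lit 4134) (nat_lit 1140) (nat_lit 0) ec104 ec105) (XT.nd (nat_lit 4134) (nat_lit 6460) (nat_lit 0) ec106 ec107)) (XT.nd (nat_lit 49374) (nat_lit 152) (nat_lit 0) (XT.nd (nat_lit 45162) (nat_lit 0) (nat_lit 5700) ec108 ec109) (XT.nd (nat_lit 45084) (nat_lit 0) (nat_lit 11400) ec110 ec111)))) (XT.nd (nat_lit 155298) (nat_lit 304) (nat_lit 0) (XT.nd (nat_lit 57486) (nat_lit 532) (nat_lit 0) (XT.nd (nat_lit 49140) (nat_lit 0) (nat_lit 4788) (XT.nd (nat_lit 4134) (nat_lit 5396) (nat_lit 0) ec112 ec113) (XT.nd (nat_lit 4134) (nat_lit 6384) (nat_lit 0) ec114 ec115)) (XT.nd (nat_lit 48984) (nat_lit 228) (nat_lit 0) (XT.nd (nat_lit 44772) (nat_lit 0) (nat_lit 11172) ec116 ec117) (XT.nd (nat_lit 4134) (nat_lit 5016) (nat_lit 0) ec118 ec119))) (XT.nd (nat_lit 57018) (nat_lit 76) (nat_lit 0) (XT.nd (nat_lit 8346)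 (nat_lit 5092) (nat_lit 0) (XT.nd (nat_lit 4134) (nat_lit 6536) (nat_lit 0) ec120 ec121) (XT.nd (nat_lit 44460) (nat_lit 0) (nat_lit 11704) ec122 ec123)) (XT.nd (nat_lit 48516) (nat_lit 0) (nat_lit 5852) (XT.nd (nat_lit 4134) (nat_lit 5548) (nat_lit 0) ec124 ec125) (XT.nd (nat_lit 4134) (nat_lit 6384) (nat_lit 0) ec126 ec127))))))) (XT.nd (nat_lit 1001676) (nat_lit 0) (nat_lit 0) (XT.nd (nat_lit 526812) (nat_lit 0) (nat_lit 0) (XT.nd (nat_lit 265200) (nat_lit 0) (nat_lit 0) (XT.nd (nat_lit 152880) (nat_lit 0) (nat_lit 0) (XT.nd (nat_lit 56628) (nat_lit 0) (nat_lit 0) (XT.nd (nat_lit 48282) (nat_lit 0) (nat_lit 152) (XT.nd (nat_lit 44148) (nat_lit 0) (nat_lit 12996) ec128 ec129) (XT.nd (nat_lit 4134) (nat_lit 6536) (nat_lit 0) ec130 ec131)) (XT.nd (nat_lit 48204) (nat_lit 0) (nat_lit 0) (XT.nd (nat_lit 43992) (nat_lit 0) (nat_lit 7448) ec132 ec133) (XT.nd (nat_lit 4134) (nat_lit 1216) (nat_lit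 0) ec134 ec135))) (XT.nd (nat_lit 56238) (nat_lit 0) (nat_lit 0) (XT.nd (nat_lit 8346) (nat_lit 2204) (nat_lit 0) (XT.nd (nat_lit 4134) (nat_lit 6536) (nat_lit 0) ec136 ec137) (XT.nd (nat_lit 43680) (nat_lit 0) (nat_lit 9956) ec138 ec139)) (XT.nd (nat_lit 47736) (nat_lit 0) (nat_lit 5168) (XT.nd (nat_lit 4134) (nat_lit 3724) (nat_lit 0) ec140 ec141) (XT.nd (nat_lit 4134) (nat_lit 6536) (nat_lit 0) ec142 ec143)))) (XT.nd (nat_lit 150696) (nat_lit 0) (nat_lit 0) (XT.nd (nat_lit 55848) (nat_lit 0) (nat_lit 0) (XT.nd (nat_lit 47502) (nat_lit 0) (nat_lit 836) (XT.nd (nat_lit 4134) (nat_lit 0) (nat_lit 0) ec144 ec145) (XT.nd (nat_lit 4134) (nat_lit 6384) (nat_lit 0) ec146 ec147)) (XT.nd (nat_lit 47502) (nat_lit 0) (nat_lit 0) (XT.nd (nat_lit 43290) (nat_lit 0) (nat_lit 9196) ec148 ec149) (XT.nd (nat_lit 4134) (nat_lit 2812) (nat_lit 0) ec150 ec151))) (XT.nd (nat_lit 55536) (nat_lit 0) (nat_lit 0) (XT.nd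 (nat_lit 8346) (nat_lit 4940) (nat_lit 0) (XT.nd (nat_lit 4134) (nat_lit 6536) (nat_lit 0) ec152 ec153) (XT.nd (nat_lit 4134) (nat_lit 0) (nat_lit 0) ec154 ec155)) (XT.nd (nat_lit 8346) (nat_lit 1064) (nat_lit 0) (XT.nd (nat_lit 4134) (nat_lit 6384) (nat_lit 0) ec156 ec157) (XT.nd (nat_lit 42822) (nat_lit 0) (nat_lit 10184) ec158 ec159))))) (XT.nd (nat_lit 219882) (nat_lit 0) (nat_lit 0) (XT.nd (nat_lit 110214) (nat_lit 0) (nat_lit 0) (XT.nd (nat_lit 55146) (nat_lit 0) (nat_lit 0) (XT.nd (nat_lit 8268) (nat_lit 0) (nat_lit 0) (XT.nd (nat_lit 4134) (nat_lit 3800) (nat_lit 0) ec160 ec161) (XT.nd (nat_lit 42666) (nat_lit 0) (nat_lit 6764) ec162 ec163)) (XT.nd (nat_lit 46722) (nat_lit 0) (nat_lit 3572) (XT.nd (nat_lit 4134) (nat_lit 380) (nat_lit 0) ec164 ec165) (XT.nd (nat_lit 4134) (nat_lit 6384) (nat_lit 0) ec166 ec167))) (XT.nd (nat_lit 54912) (nat_lit 0) (nat_lit 0) (XT.nd (nat_lit 46566) (nat_lit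 0) (nat_lit 532) (XT.nd (nat_lit 4134) (nat_lit 0) (nat_lit 0) ec168 ec169) (XT.nd (nat_lit 4134) (nat_lit 6460) (nat_lit 0) ec170 ec171)) (XT.nd (nat_lit 46410) (nat_lit 0) (nat_lit 0) (XT.nd (nat_lit 42198) (nat_lit 0) (nat_lit 10640) ec172 ec173) (XT.nd (nat_lit 4134) (nat_lit 4256) (nat_lit 0) ec174 ec175)))) (XT.nd (nat_lit 146718) (nat_lit 0) (nat_lit 0) (XT.nd (nat_lit 92352) (nat_lit 0) (nat_lit 0) (XT.nd (nat_lit 46254) (nat_lit 0) (nat_lit 0) (XT.nd (nat_lit 42042) (nat_lit 0) (nat_lit 8132) ec176 ec177) (XT.nd (nat_lit 4134) (nat_lit 1748) (nat_lit 0) ec178 ec179)) (XT.nd (nat_lit 8346) (nat_lit 5852) (nat_lit 0) (XT.nd (nat_lit 4134) (nat_lit 6384) (nat_lit 0) ec180 ec181) (XT.nd (nat_lit 4134) (nat_lit 0) (nat_lit 0) ec182 ec183))) (XT.nd (nat_lit 54210) (nat_lit 0) (nat_lit 0) (XT.nd (nat_lit 8346) (nat_lit 3724) (nat_lit 0) (XT.nd (nat_lit 4134) (nat_lit 6460) (nat_lit 0) ec184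 ec185) (XT.nd (nat_lit 4134) (nat_lit 0) (nat_lit 0) ec186 ec187)) (XT.nd (nat_lit 8346) (nat_lit 1748) (nat_lit 0) (XT.nd (nat_lit 4134) (nat_lit 6536) (nat_lit 0) ec188 ec189) (XT.nd (nat_lit 41496) (nat_lit 0) (nat_lit 12920) ec190 ec191)))))) (XT.nd (nat_lit 426972) (nat_lit 0) (nat_lit 0) (XT.nd (nat_lit 214578) (nat_lit 0) (nat_lit 0) (XT.nd (nat_lit 107562) (nat_lit 0) (nat_lit 0) (XT.nd (nat_lit 53820) (nat_lit 0) (nat_lit 0) (XT.nd (nat_lit 8268) (nat_lit 152) (nat_lit 0) (XT.nd (nat_lit 4134) (nat_lit 6384) (nat_lit 0) ec192 ec193) (XT.nd (nat_lit 41340) (nat_lit 0) (nat_lit 11552) ec194 ec195)) (XT.nd (nat_lit 8346) (nat_lit 0) (nat_lit 0) (XT.nd (nat_lit 4134) (nat_lit 5168) (nat_lit 0) ec196 ec197) (XT.nd (nat_lit 41184) (nat_lit 0) (nat_lit 10412) ec198 ec199))) (XT.nd (nat_lit 53586) (nat_lit 0) (nat_lit 0) (XT.nd (nat_lit 8346) (nat_lit 0) (nat_lit 0) (XT.nd (nat_lit 4134) (nat_lit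 4028) (nat_lit 0) ec200 ec201) (XT.nd (nat_lit 41028) (nat_lit 0) (nat_lit 9424) ec202 ec203)) (XT.nd (nat_lit 8346) (nat_lit 0) (nat_lit 0) (XT.nd (nat_lit 4134) (nat_lit 3040) (nat_lit 0) ec204 ec205) (XT.nd (nat_lit 40872) (nat_lit 0) (nat_lit 8740) ec206 ec207)))) (XT.nd (nat_lit 106470) (nat_lit 0) (nat_lit 0) (XT.nd (nat_lit 53274) (nat_lit 0) (nat_lit 0) (XT.nd (nat_lit 8268) (nat_lit 0) (nat_lit 0) (XT.nd (nat_lit 4134) (nat_lit 2356) (nat_lit 0) ec208 ec209) (XT.nd (nat_lit 40794) (nat_lit 0) (nat_lit 8284) ec210 ec211)) (XT.nd (nat_lit 8346) (nat_lit 0) (nat_lit 0) (XT.nd (nat_lit 4134) (nat_lit 1900) (nat_lit 0) ec212 ec213) (XT.nd (nat_lit 40638) (nat_lit 0) (nat_lit 7904) ec214 ec215))) (XT.nd (nat_lit 53040) (nat_lit 0) (nat_lit 0) (XT.nd (nat_lit 8346) (nat_lit 0) (nat_lit 0) (XT.nd (nat_lit 4134) (nat_lit 1520) (nat_lit 0) ec216 ec217) (XT.nd (nat_lit 40482) (nat_lit 0) (nat_lit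 7676) ec218 ec219)) (XT.nd (nat_lit 8346) (nat_lit 0) (nat_lit 0) (XT.nd (nat_lit 4134) (nat_lit 1444) (nat_lit 0) ec220 ec221) (XT.nd (nat_lit 40326) (nat_lit 0) (nat_lit 7904) ec222 ec223))))) (XT.nd (nat_lit 211458) (nat_lit 0) (nat_lit 0) (XT.nd (nat_lit 105378) (nat_lit 0) (nat_lit 0) (XT.nd (nat_lit 52728) (nat_lit 0) (nat_lit 0) (XT.nd (nat_lit 8268) (nat_lit 0) (nat_lit 0) (XT.nd (nat_lit 4134) (nat_lit 1520) (nat_lit 0) ec224 ec225) (XT.nd (nat_lit 40248) (nat_lit 0) (nat_lit 8284) ec226 ec227)) (XT.nd (nat_lit 8346) (nat_lit 0) (nat_lit 0) (XT.nd (nat_lit 4134) (nat_lit 1900) (nat_lit 0) ec228 ec229) (XT.nd (nat_lit 40092) (nat_lit 0) (nat_lit 8740) ec230 ec231))) (XT.nd (nat_lit 52806) (nat_lit 0) (nat_lit 0) (XT.nd (nat_lit 8346) (nat_lit 0) (nat_lit 0) (XT.nd (nat_lit 4134) (nat_lit 2356) (nat_lit 0) ec232 ec233) (XT.nd (nat_lit 40248) (nat_lit 0) (nat_lit 8968) ec234 ec235)) (XT.nd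 (nat_lit 8346) (nat_lit 0) (nat_lit 0) (XT.nd (nat_lit 4134) (nat_lit 2584) (nat_lit 0) ec236 ec237) (XT.nd (nat_lit 40716) (nat_lit 0) (nat_lit 8512) ec238 ec239)))) (XT.nd (nat_lit 109356) (nat_lit 0) (nat_lit 0) (XT.nd (nat_lit 54054) (nat_lit 0) (nat_lit 0) (XT.nd (nat_lit 8346) (nat_lit 0) (nat_lit 0) (XT.nd (nat_lit 4134) (nat_lit 2128) (nat_lit 0) ec240 ec241) (XT.nd (nat_lit 41496) (nat_lit 0) (nat_lit 6764) ec242 ec243)) (XT.nd (nat_lit 46956) (nat_lit 0) (nat_lit 3268) (XT.nd (nat_lit 4134) (nat_lit 380) (nat_lit 0) ec244 ec245) (XT.nd (nat_lit 4134) (nat_lit 6384) (nat_lit 0) ec246 ec247))) (XT.nd (nat_lit 56940) (nat_lit 0) (nat_lit 0) (XT.nd (nat_lit 48594) (nat_lit 0) (nat_lit 0) (XT.nd (nat_lit 4134) (nat_lit 0) (nat_lit 0) ec248 ec249) (XT.nd (nat_lit 4134) (nat_lit 3572) (nat_lit 0) ec250 ec251)) (XT.nd (nat_lit 50622) (nat_lit 0) (nat_lit 0) (XT.nd (nat_lit 46410) (nat_lit 0)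 (nat_lit 608) ec252 ec253) (XT.nd (nat_lit 49140) (nat_lit 0) (nat_lit 76) ec254 ec255)))))))) XT.nil))

set_option maxRecDepth 10000000 in
noncomputable def Tz : ZL := (ZL.cons (nat_lit 1216) (nat_lit 3) (nat_lit 17412060166886794305910) (ZL.cons (nat_lit 1292) (nat_lit 6) (nat_lit 33534338118574665214518) (ZL.cons (nat_lit 1444) (nat_lit 3) (nat_lit 16122277952217898915579) (ZL.cons (nat_lit 1520) (nat_lit 6) (nat_lit 31050313115771392688902) (ZL.cons (nat_lit 1672) (nat_lit 3) (nat_lit 14928035164171718440655) (ZL.cons (nat_lit 1748) (nat_lit 6) (nat_lit 28750289972185662786678) (ZL.cons (nat_lit 1900) (nat_lit 3) (nat_lit 13822254808735041598000) (ZL.cons (nat_lit 1976) (nat_lit 6) (nat_lit 26620638921659125920998) (ZL.cons (nat_lit 2128) (nat_lit 3) (nat_lit 12798384113765172157703) (ZL.cons (nat_lit 2204) (nat_lit 6) (nat_lit 24648739810539657110006) (ZL.cons (nat_lit 2356) (nat_lit 3)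 (nat_lit 11850355697755529802703) (ZL.cons (nat_lit 2432) (nat_lit 6) (nat_lit 22822907311602764049180) (ZL.cons (nat_lit 2584) (nat_lit 3) (nat_lit 10972551614991524959982) (ZL.cons (nat_lit 2660) (nat_lit 6) (nat_lit 21132321677688008427766) (ZL.cons (nat_lit 2812) (nat_lit 3) (nat_lit 10159770064031184156018) (ZL.cons (nat_lit 2888) (nat_lit 6) (nat_lit 19566964624702093438300) (ZL.cons (nat_lit 3040) (nat_lit 3) (nat_lit 9407194562227704165038) (ZL.cons (nat_lit 3116) (nat_lit 6) (nat_lit 18117559964036596238426) (ZL.cons (nat_lit 3268) (nat_lit 3) (nat_lit 8710365403624737624635) (ZL.cons (nat_lit 3344) (nat_lit 6) (nat_lit 16775518632593095530270) (ZL.cons (nat_lit 3496) (nat_lit 3) (nat_lit 8065153231086360156609) (ZL.cons (nat_lit 3572) (nat_lit 6) (nat_lit 15532887794668447439258) (ZL.cons (nat_lit 3724) (nat_lit 3) (nat_lit 7467734566052525108183) (ZL.cons (nat_lit 3800) (nat_lit 6)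 (nat_lit 14382303714082629697550) (ZL.cons (nat_lit 3952) (nat_lit 3) (nat_lit 6914569150911623269070) (ZL.cons (nat_lit 4028) (nat_lit 6) (nat_lit 13316948117273898357370) (ZL.cons (nat_lit 4180) (nat_lit 3) (nat_lit 6402378969723278476307) (ZL.cons (nat_lit 4256) (nat_lit 6) (nat_lit 12330507788773385301580) (ZL.cons (nat_lit 4408) (nat_lit 3) (nat_lit 5928128822970381177045) (ZL.cons (nat_lit 4484) (nat_lit 6) (nat_lit 11417137159626304632006) (ZL.cons (nat_lit 4636) (nat_lit 3) (nat_lit 5489008341228531458868) (ZL.cons (nat_lit 4712) (nat_lit 6) (nat_lit 10571423667063147663740) (ZL.cons (nat_lit 4864) (nat_lit 3) (nat_lit 5082415331168106180628) (ZL.cons (nat_lit 4940) (nat_lit 6) (nat_lit 9788355680146738713658) (ZL.cons (nat_lit 5092) (nat_lit 3) (nat_lit 4705940355199615240753) (ZL.cons (nat_lit 5168) (nat_lit 6) (nat_lit 9063292801327122034382) (ZL.cons (nat_lit 5320) (nat_lit 3) (nat_lit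 4357352453383661023916) (ZL.cons (nat_lit 5396) (nat_lit 6) (nat_lit 8391938367916071806430) (ZL.cons (nat_lit 5548) (nat_lit 3) (nat_lit 4034585922995989076722) (ZL.cons (nat_lit 5624) (nat_lit 6) (nat_lit 7770313990530006771250) (ZL.cons (nat_lit 5776) (nat_lit 3) (nat_lit 3735728077405935416891) (ZL.cons (nat_lit 5852) (nat_lit 6) (nat_lit 7194735977621515283384) (ZL.cons (nat_lit 6004) (nat_lit 3) (nat_lit 3459007911730184697857) (ZL.cons (nat_lit 6080) (nat_lit 6) (nat_lit 6661793506397101524130) (ZL.cons (nat_lit 6232) (nat_lit 3) (nat_lit 3202785608097551901577) (ZL.cons (nat_lit 6308) (nat_lit 6) (nat_lit 6168328410768399678478) (ZL.cons (nat_lit 6460) (nat_lit 3) (nat_lit 2965542818336340528737) (ZL.cons (nat_lit 6536) (nat_lit 6) (nat_lit 5711416466567317367138) (ZL.cons (nat_lit 6688) (nat_lit 3) (nat_lit 2745873666503207584141) (ZL.cons (nat_lit 6764) (nat_lit 6) (nat_lit 5288350063129170812360)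 (ZL.cons (nat_lit 6916) (nat_lit 3) (nat_lit 2542476417938693170051) (ZL.cons (nat_lit 6992) (nat_lit 6) (nat_lit 4896622158564468386772) (ZL.cons (nat_lit 7144) (nat_lit 3) (nat_lit 2354145765484943420873) (ZL.cons (nat_lit 7220) (nat_lit 6) (nat_lit 4533911423648302918216) (ZL.cons (nat_lit 7372) (nat_lit 3) (nat_lit 2179765687159093290666) (ZL.cons (nat_lit 7448) (nat_lit 6) (nat_lit 4198068486301442553328) (ZL.cons (nat_lit 7600) (nat_lit 3) (nat_lit 2018302832962973159195) (ZL.cons (nat_lit 7676) (nat_lit 6) (nat_lit 3887103195160948917834) (ZL.cons (nat_lit 7828) (nat_lit 3) (nat_lit 1868800401646351471554) (ZL.cons (nat_lit 7904) (nat_lit 6) (nat_lit 3599172826779199635938) (ZL.cons (nat_lit 8056) (nat_lit 3) (nat_lit 1730372471145433595927) (ZL.cons (nat_lit 8132) (nat_lit 6) (nat_lit 3332571166584396249966) (ZL.cons (nat_lit 8284) (nat_lit 3) (nat_lit 1602198749108042301390) (ZL.cons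 (nat_lit 8360) (nat_lit 6) (nat_lit 3085718398916204410596) (ZL.cons (nat_lit 8512) (nat_lit 3) (nat_lit 1483519712407776609878) (ZL.cons (nat_lit 8588) (nat_lit 6) (nat_lit 2857151746247865106590) (ZL.cons (nat_lit 8740) (nat_lit 3) (nat_lit 1373632106856278850296) (ZL.cons (nat_lit 8816) (nat_lit 6) (nat_lit 2645516802149439751134) (ZL.cons (nat_lit 8968) (nat_lit 3) (nat_lit 1271884780459245329258) (ZL.cons (nat_lit 9044) (nat_lit 6) (nat_lit 2449559506662226794988) (ZL.cons (nat_lit 9120) (nat_lit 6) (nat_lit 2362328357577648078396) (ZL.cons (nat_lit 9196) (nat_lit 3) (nat_lit 1177674825540702343040) (ZL.cons (nat_lit 9272) (nat_lit 6) (nat_lit 2268118716566303064478) (ZL.cons (nat_lit 9348) (nat_lit 6) (nat_lit 2187349779060536142790) (ZL.cons (nat_lit 9424) (nat_lit 3) (nat_lit 1090444006893118352731) (ZL.cons (nat_lit 9500) (nat_lit 6) (nat_lit 2100119326554307867370) (ZL.cons (nat_lit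 9576) (nat_lit 6) (nat_lit 2025334025612845860794) (ZL.cons (nat_lit 9652) (nat_lit 3) (nat_lit 1009675454809062079780) (ZL.cons (nat_lit 9728) (nat_lit 6) (nat_lit 1944565900596066893688) (ZL.cons (nat_lit 9804) (nat_lit 6) (nat_lit 1875321129064301656326) (ZL.cons (nat_lit 9880) (nat_lit 3) (nat_lit 934890603423483373890) (ZL.cons (nat_lit 9956) (nat_lit 6) (nat_lit 1800536775809995199974) (ZL.cons (nat_lit 10032) (nat_lit 6) (nat_lit 1736422270116044270734) (ZL.cons (nat_lit 10108) (nat_lit 3) (nat_lit 865646356253700418447) (ZL.cons (nat_lit 10184) (nat_lit 6) (nat_lit 1667178603966577267152) (ZL.cons (nat_lit 10260) (nat_lit 6) (nat_lit 1607814514729504795524) (ZL.cons (nat_lit 10336) (nat_lit 3) (nat_lit 801532462175565622836) (ZL.cons (nat_lit 10412) (nat_lit 6) (nat_lit 1543701298353466526168) (ZL.cons (nat_lit 10488) (nat_lit 6) (nat_lit 1488735941523226576966) (ZL.cons (nat_lit 10564)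 (nat_lit 3) (nat_lit 742169086327181089477) (ZL.cons (nat_lit 10640) (nat_lit 6) (nat_lit 1429373356146567431826) (ZL.cons (nat_lit 10716) (nat_lit 6) (nat_lit 1378481131398924982580) (ZL.cons (nat_lit 10792) (nat_lit 3) (nat_lit 687204561593506751470) (ZL.cons (nat_lit 10868) (nat_lit 6) (nat_lit 1323517528671471137396) (ZL.cons (nat_lit 10944) (nat_lit 6) (nat_lit 1276396992780588973024) (ZL.cons (nat_lit 11020) (nat_lit 3) (nat_lit 636313307403298431123) (ZL.cons (nat_lit 11096) (nat_lit 6) (nat_lit 1225506814018436235504) (ZL.cons (nat_lit 11172) (nat_lit 6) (nat_lit 1181878897857874231228) (ZL.cons (nat_lit 11248) (nat_lit 3) (nat_lit 589193903570607434699) (ZL.cons (nat_lit 11324) (nat_lit 6) (nat_lit 1134760748404467266614) (ZL.cons (nat_lit 11400) (nat_lit 6) (nat_lit 1094367107089753441354) (ZL.cons (nat_lit 11476) (nat_lit 3) (nat_lit 545567307842719608718) (ZL.cons (nat_lit 11552)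 (nat_lit 6) (nat_lit 1050741974469862510074) (ZL.cons (nat_lit 11628) (nat_lit 6) (nat_lit 1013343460957941134412) (ZL.cons (nat_lit 11704) (nat_lit 3) (nat_lit 505175206680676945021) (ZL.cons (nat_lit 11780) (nat_lit 6) (nat_lit 972953066365066048694) (ZL.cons (nat_lit 11856) (nat_lit 6) (nat_lit 938328319572872835860) (ZL.cons (nat_lit 11932) (nat_lit 3) (nat_lit 467778489602831212204) (ZL.cons (nat_lit 12008) (nat_lit 6) (nat_lit 900933593037304165998) (ZL.cons (nat_lit 12084) (nat_lit 6) (nat_lit 868877732238252854156) (ZL.cons (nat_lit 12160) (nat_lit 3) (nat_lit 433155838171343829184) (ZL.cons (nat_lit 12236) (nat_lit 6) (nat_lit 834257402575277437368) (ZL.cons (nat_lit 12312) (nat_lit 6) (nat_lit 804580820483118479468) (ZL.cons (nat_lit 12388) (nat_lit 3) (nat_lit 401102421401019797239) (ZL.cons (nat_lit 12464) (nat_lit 6) (nat_lit 772530111823586804934) (ZL.cons (nat_lit 12540) (nat_lit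 6) (nat_lit 745057359382268978134) (ZL.cons (nat_lit 12616) (nat_lit 3) (nat_lit 371428690023968338609) (ZL.cons (nat_lit 12692) (nat_lit 6) (nat_lit 715386786745645725190) (ZL.cons (nat_lit 12768) (nat_lit 6) (nat_lit 689955543215663335804) (ZL.cons (nat_lit 12844) (nat_lit 3) (nat_lit 343959262656751898958) (ZL.cons (nat_lit 12920) (nat_lit 6) (nat_lit 662489800203282355264) (ZL.cons (nat_lit 12996) (nat_lit 6) (nat_lit 638949922673587492386) (ZL.cons (nat_lit 13072) (nat_lit 3) (nat_lit 318531897493201367543) (ZL.cons (nat_lit 13148) (nat_lit 6) (nat_lit 613526854941517040480) (ZL.cons (nat_lit 13224) (nat_lit 6) (nat_lit 591739501905396319184) (ZL.cons (nat_lit 13300) (nat_lit 3) (nat_lit 294996543690112623804) (ZL.cons (nat_lit 13376) (nat_lit 6) (nat_lit 568209160626385940182) (ZL.cons (nat_lit 13452) (nat_lit 6) (nat_lit 548045984743680070456) (ZL.cons (nat_lit 13528) (nat_lit 3) (nat_lit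 273214467128705279869) (ZL.cons (nat_lit 13604) (nat_lit 6) (nat_lit 526269754790357731152) (ZL.cons (nat_lit 13680) (nat_lit 6) (nat_lit 507612160420978252476) (ZL.cons (nat_lit 13756) (nat_lit 3) (nat_lit 253057445726105093499) (ZL.cons (nat_lit 13832) (nat_lit 6) (nat_lit 487461958502048415508) (ZL.cons (nat_lit 13908) (nat_lit 6) (nat_lit 470200420040908495074) (ZL.cons (nat_lit 13984) (nat_lit 3) (nat_lit 234407029942320883888) (ZL.cons (nat_lit 14060) (nat_lit 6) (nat_lit 451557958502877381006) (ZL.cons (nat_lit 14136) (nat_lit 6) (nat_lit 435591395978196651420) (ZL.cons (nat_lit 14212) (nat_lit 3) (nat_lit 217153864583419285295) (ZL.cons (nat_lit 14288) (nat_lit 6) (nat_lit 418347508451541463466) (ZL.cons (nat_lit 14364) (nat_lit 6) (nat_lit 403582717271265780480) (ZL.cons (nat_lit 14440) (nat_lit 3) (nat_lit 201197068445189334301) (ZL.cons (nat_lit 14516) (nat_lit 6) (nat_lit 387636742796568042856)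 (ZL.cons (nat_lit 14592) (nat_lit 6) (nat_lit 373987874945849967708) (ZL.cons (nat_lit 14668) (nat_lit 3) (nat_lit 186443668778069839465) (ZL.cons (nat_lit 14744) (nat_lit 6) (nat_lit 359247097667074446546) (ZL.cons (nat_lit 14820) (nat_lit 6) (nat_lit 346635192078177885070) (ZL.cons (nat_lit 14896) (nat_lit 3) (nat_lit 172808087988297142175) (ZL.cons (nat_lit 14972) (nat_lit 6) (nat_lit 333014334042169598676) (ZL.cons (nat_lit 15048) (nat_lit 6) (nat_lit 321366894281966761752) (ZL.cons (nat_lit 15124) (nat_lit 3) (nat_lit 160211680427287269433) (ZL.cons (nat_lit 15200) (nat_lit 6) (nat_lit 308787659340947697878) (ZL.cons (nat_lit 15276) (nat_lit 6) (nat_lit 298038277196023138880) (ZL.cons (nat_lit 15352) (nat_lit 3) (nat_lit 148582317566811466250) (ZL.cons (nat_lit 15428) (nat_lit 6) (nat_lit 286428944479504615158) (ZL.cons (nat_lit 15504) (nat_lit 6) (nat_lit 276516968471012785456) (ZL.cons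 (nat_lit 15580) (nat_lit 3) (nat_lit 137854020317728519404) (ZL.cons (nat_lit 15656) (nat_lit 6) (nat_lit 265812034381841609378) (ZL.cons (nat_lit 15732) (nat_lit 6) (nat_lit 256682282718636902094) (ZL.cons (nat_lit 15808) (nat_lit 3) (nat_lit 127966637731746346119) (ZL.cons (nat_lit 15884) (nat_lit 6) (nat_lit 246822150922375818230) (ZL.cons (nat_lit 15960) (nat_lit 6) (nat_lit 238424668909358442916) (ZL.cons (nat_lit 16036) (nat_lit 3) (nat_lit 118865571836556902079) (ZL.cons (nat_lit 16112) (nat_lit 6) (nat_lit 229355388335299677578) (ZL.cons (nat_lit 16188) (nat_lit 6) (nat_lit 221645250803227873292) (ZL.cons (nat_lit 16264) (nat_lit 3) (nat_lit 110501548903352529814) (ZL.cons (nat_lit 16340) (nat_lit 6) (nat_lit 213318302268590324664) (ZL.cons (nat_lit 16416) (nat_lit 6) (nat_lit 206255462191840718698) (ZL.cons (nat_lit 16492) (nat_lit 3) (nat_lit 102830438041974612283) (ZL.cons (nat_lit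 16568) (nat_lit 6) (nat_lit 198627594908951144256) (ZL.cons (nat_lit 16644) (nat_lit 6) (nat_lit 192176780040336835856) (ZL.cons (nat_lit 16720) (nat_lit 3) (nat_lit 95813118673922355828) (ZL.cons (nat_lit 16796) (nat_lit 6) (nat_lit 185209899982233382782) (ZL.cons (nat_lit 16872) (nat_lit 6) (nat_lit 179340560072172794198) (ZL.cons (nat_lit 16948) (nat_lit 3) (nat_lit 89415399159932635897) (ZL.cons (nat_lit 17024) (nat_lit 6) (nat_lit 173983436344121846124) (ZL.cons (nat_lit 17100) (nat_lit 6) (nat_lit 173001672969307358530) (ZL.cons (nat_lit 17176) (nat_lit 6) (nat_lit 167687980965519299798) (ZL.cons (nat_lit 17252) (nat_lit 3) (nat_lit 83607989671506167304) (ZL.cons (nat_lit 17328) (nat_lit 6) (nat_lit 162858233763293462662) (ZL.cons (nat_lit 17404) (nat_lit 6) (nat_lit 161949193601428196370) (ZL.cons (nat_lit 17480) (nat_lit 6) (nat_lit 157170105162382593364) (ZL.cons (nat_lit 17556) (nat_lit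 3) (nat_lit 78366533311512146131) (ZL.cons (nat_lit 17632) (nat_lit 6) (nat_lit 152850393501792292390) (ZL.cons (nat_lit 17708) (nat_lit 6) (nat_lit 152008689648213342118) (ZL.cons (nat_lit 17784) (nat_lit 6) (nat_lit 148964460328335276846) (ZL.cons (nat_lit 17860) (nat_lit 6) (nat_lit 147748066368996466234) (ZL.cons (nat_lit 17936) (nat_lit 3) (nat_lit 73671700527387908532) (ZL.cons (nat_lit 18012) (nat_lit 6) (nat_lit 143925948647422749786) (ZL.cons (nat_lit 18088) (nat_lit 6) (nat_lit 143146593227442240276) (ZL.cons (nat_lit 18164) (nat_lit 6) (nat_lit 140519686896993978162) (ZL.cons (nat_lit 18240) (nat_lit 6) (nat_lit 139393396193902486856) (ZL.cons (nat_lit 18316) (nat_lit 3) (nat_lit 69509353044071313258) (ZL.cons (nat_lit 18392) (nat_lit 6) (nat_lit 136061568786550395298) (ZL.cons (nat_lit 18468) (nat_lit 6) (nat_lit 135339943397679553162) (ZL.cons (nat_lit 18544) (nat_lit 6) (nat_lit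 133131366842972027286) (ZL.cons (nat_lit 18620) (nat_lit 6) (nat_lit 132088505080850276076) (ZL.cons (nat_lit 18696) (nat_lit 3) (nat_lit 65870784898869647140) (ZL.cons (nat_lit 18772) (nat_lit 6) (nat_lit 130585426203501733230) (ZL.cons (nat_lit 18848) (nat_lit 6) (nat_lit 129245123355036547696) (ZL.cons (nat_lit 18924) (nat_lit 6) (nat_lit 128576951698674656826) (ZL.cons (nat_lit 19000) (nat_lit 6) (nat_lit 128408659812498207684) (ZL.cons (nat_lit 19076) (nat_lit 6) (nat_lit 126792948550752064442) (ZL.cons (nat_lit 19152) (nat_lit 6) (nat_lit 125827335808046739248) (ZL.cons (nat_lit 19228) (nat_lit 3) (nat_lit 62753049717397915087) (ZL.cons (nat_lit 19304) (nat_lit 6) (nat_lit 124717449261749214560) (ZL.cons (nat_lit 19380) (nat_lit 6) (nat_lit 123476428105762931658) (ZL.cons (nat_lit 19456) (nat_lit 6) (nat_lit 122857750646168588260) (ZL.cons (nat_lit 19532) (nat_lit 6) (nat_lit 123006326232982055240)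 (ZL.cons (nat_lit 19608) (nat_lit 6) (nat_lit 121510297286920811494) (ZL.cons (nat_lit 19684) (nat_lit 6) (nat_lit 120616211414045510388) (ZL.cons (nat_lit 19760) (nat_lit 3) (nat_lit 60159385163851038032) (ZL.cons (nat_lit 19836) (nat_lit 6) (nat_lit 119634010884238370162) (ZL.cons (nat_lit 19912) (nat_lit 6) (nat_lit 119968263065199922384) (ZL.cons (nat_lit 19988) (nat_lit 6) (nat_lit 120638748180787984178) (ZL.cons (nat_lit 20064) (nat_lit 6) (nat_lit 121649439476131966276) (ZL.cons (nat_lit 20140) (nat_lit 6) (nat_lit 119917292205927240270) (ZL.cons (nat_lit 20216) (nat_lit 6) (nat_lit 118768198542976978320) (ZL.cons (nat_lit 20292) (nat_lit 6) (nat_lit 118195349043352586288) (ZL.cons (nat_lit 20368) (nat_lit 3) (nat_lit 58559904887605864442) (ZL.cons (nat_lit 20444) (nat_lit 6) (nat_lit 117293363792249457920) (ZL.cons (nat_lit 20520) (nat_lit 6) (nat_lit 117815054311611757506) (ZL.cons (nat_lit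 20596) (nat_lit 6) (nat_lit 118687972832672626450) (ZL.cons (nat_lit 20672) (nat_lit 6) (nat_lit 117302760845578882240) (ZL.cons (nat_lit 20748) (nat_lit 6) (nat_lit 116474903555879529364) (ZL.cons (nat_lit 20824) (nat_lit 3) (nat_lit 58099747571299285828) (ZL.cons (nat_lit 20900) (nat_lit 6) (nat_lit 115126097966333798438) (ZL.cons (nat_lit 20976) (nat_lit 6) (nat_lit 115487090321772274838) (ZL.cons (nat_lit 21052) (nat_lit 6) (nat_lit 116211214246607381574) (ZL.cons (nat_lit 21128) (nat_lit 6) (nat_lit 115147238632764546438) (ZL.cons (nat_lit 21204) (nat_lit 6) (nat_lit 114616822429408627886) (ZL.cons (nat_lit 21280) (nat_lit 3) (nat_lit 56726811265353388533) (ZL.cons (nat_lit 21356) (nat_lit 6) (nat_lit 113641060869107524430) (ZL.cons (nat_lit 21432) (nat_lit 6) (nat_lit 114204486630018807980) (ZL.cons (nat_lit 21508) (nat_lit 6) (nat_lit 113437952102519407168) (ZL.cons (nat_lit 21584) (nat_lit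 3) (nat_lit 56591472156222223162) (ZL.cons (nat_lit 21660) (nat_lit 6) (nat_lit 112266026519823937382) (ZL.cons (nat_lit 21736) (nat_lit 6) (nat_lit 112655898263697491896) (ZL.cons (nat_lit 21812) (nat_lit 6) (nat_lit 112164772149479048792) (ZL.cons (nat_lit 21888) (nat_lit 3) (nat_lit 55676919461111027703) (ZL.cons (nat_lit 21964) (nat_lit 6) (nat_lit 111556272327694862556) (ZL.cons (nat_lit 22040) (nat_lit 3) (nat_lit 55660077001775690148) (ZL.cons (nat_lit 22116) (nat_lit 6) (nat_lit 110899092520167941424) (ZL.cons (nat_lit 22192) (nat_lit 1) (nat_lit 18446744073709551617) ZL.nil)))))))))))))))))))))))))))))))))))))))))))))))))))))))))))))))))))))))))))))))))))))))))))))))))))))))))))))))))))))))))))))))))))))))))))))))))))))))))))))))))))))))))))))))))))))))))))))))))))))))))))))))))))))))))))))))))))))))))))))))))))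

noncomputable def vl : XL := ⟨(nat_lit 0), (nat_lit 0), (nat_lit 536870912), (nat_lit 0), (nat_lit 0), (nat_lit 0), (nat_lit 0), (nat_lit 0), (nat_lit 0), (nat_lit 1), (nat_lit 0), (nat_lit 1), (nat_lit 0), (nat_lit 0), (nat_lit 0), (nat_lit 0)⟩

noncomputable def cp0 : Nat := (nat_lit 1900555253320046154399451749149710752723775819116615275675613613144149130495661529210790178909359015924429035318545034722164918769459830986516536100197625049460318949493565676620447086161037518179096986715275261941601752107166614958221450808542138818433299355272126243814740169238704656112834127628339340976749111876909510994938071950155210406310479181235484271756816530006364186758101002635816939230317041215600626373060079788006966597243662445734521469570930131274363808674238420611168210850967910282002398059362424497602617102184011836773500940774273857750669242164047416225356756625457485602553815933695367412466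40348720293139665098741717960699803745725345513788130174393888158425326049062665640495076690085138548753967674243381518431681999256812630652212066403838469881105275029868106373972432791217091105622178694056585608799636811139013418848670628099540495578936448119963034093369186564877002522106425941481953900096020447172729889717912651953752933224638538875306902699204670804909060970300347233282099149610999311431188463750886207079712913139269104426379045753211895513731558114805358286575909884885160900308393683420120472407289806803834147135808016220417810967183864498432286282659545705951408027900947307661485134315562562213707601505667182325078713723065132345090494033942625533268295751986867097403630499788872748288631627211612218186420925666676294822881087686302861772592709311470457298422641449804148840329880387744211702530110899987595014767282300638734409291468063847938364728872658031795819118293961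36758930300508164573910674030538335569115055630402847331878010429716656547924054510810221202236627946440747439057071377204621207532475259718801068566893671060147382311691486107725191089897820709660315387563638145912904553381757008132400802062254367800106983663710819122087721182405674398125563920092114185899662082160984883937581180507049074554628825954283787090364600880729088206329869563517320977812602200584132597394148171914414218303874129305717545382894013020574910968703617019346187175570194608249659924228971738730484916649228988905524367123271700896836766479899335314198731740393025465035933657081194075738706504810904212777619350863020216726765472304450021131149580583700739893736589970022408774794046152649041183595999781850382720267828080000825931828888465222014502152878510016239161552035752619952780342046963097714045572968902657145507628315163500477869413617786788037000205111688655908659653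47262174844223882080318441934515725448729581590447033156858837272046637808750305057539172778590438109059982725557020594195272576842645792066295473189819064300716300060460693359860489406326652061890946771540445811989597823822769060418318888525227161083372722287289911821060638826069699057320005336756611275773329987808363766187987036378567704050947851099189967968315906982705099835797640295142932909453317485598810938217234014458010079006307511215405345195821339433187887209817668057936459047892078137542780074471058269921509083930314381665270754680130828617277926515120473728826850566723810876219438882771224616859503969369166350077846858377619606659250450743543313549056126156230189865985248960799530022126255016015380334293752410934480502330027457983904056108218015899204514106730490767870550961076623995499878467072976872900479070587263088373531825691782398030098746185485045288691902197378919361480001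24148330473507039646906677012793853485222972089462227269305242855508484240171216440244578928464875800045575490211623134588370565854815785379060457565585392729100266309477909615121382816601435479649538347516231566645694874238477745702570603343543201839759388895771774026384651409387033510778640124723507553146142777794053642810208038084835609099478730535329377276391836355977018005557057337428873940840992274765444667515689725944978937893075202704562921581528572357069367638614842692963829376669781947168222687503694549217642389915095257966661028123358868386226111114662649813438727023282341851865825861125849742665322212343054989455533328971422030386970909400538273297360004992230042951662034434965545224949012610810368158082896162378405326056575896968987394093786756750170000130778430770410319723455383035509337886218905049631132039436111708983440618433233853852362095366875196390741347522761148723050819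58083936438489665500931492218556175455033804680733990117969952114595832545609113858552565452423967359473842360922268076872624916170216235160808149996552590201364050852589989787672228319689600123817151935432664662490204857321653189052954333485771801903740052379044346870938296899100454392076364020113963577414886249145744512570523718369105852559195406937562133948343819419589496514568640978204842476246976520425054091095608144204657172453821736718851368425812982931318014481688471583582589313002271063414910330409672189407794658113360990846353616320203020765308701539244381695738558039156731123672868645780058849101878917843291606346385509750370050613661444100851332093908653663134631101346305801880503688406864041100395175039052804701688440888099956923774606417205855553065385093765849010286005023209221297479760463424198762450777905924087761428026686564521630224405186428233326306384971540540484478428431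04019261607428990259179186883773720505114757034568508512904267346189988599866730666745416613314242187584926788534310818947309330591891306013884502171986190386037215933989760487334582108338343987349101925429996304770147193499040248429189601406956578969290752873568049015419345991300947347900652123180217516797555260578849136897442681007681255620979802008973657707089292037220040228893633186422250677776993402277440125489446034607302351328656198133513248508326925731739569859478534055634430977175467828039244138733388918378436721847854896688692802358650833723085287181712693035581414845725708409455683851017384000349104138564750422492181539195316272689943156281994139223563175652165788987097489928604314407784016862382859930320003489137078936458503520722551262376172910023548034422670344910393195530670377809955750190759125614345983040535488284636248831028495331597079635145937671385962709503762544573365724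226891148186771725722930999507709740017541828324366272277565503450017314558428558915005815372091473733985048161888664994129501928981887158762517114797004271136033402532049947400302587601870950215162709874379431116019602450031189080404016693442446594846303100015789703799794596358992466804045228431868894702557469599560477138383142962011859895900887718092703921366586716513477300745105375417004936438150541809801807460283791358892605757387770733201553246710088585034182203259418845201917858204017287575409374518481449866592676071946859117602735918308586515286976067540930283249720259769915265624231919927917149494765424642938710024579754506082006482288640)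

noncomputable def cp1 : Nat := (nat_lit 89540960113778664697410295668182029740764861302148143830878918649709367443378828765745143449059874079520347401031363016360318551458636834443450957487564026679304497778777632630526766429606882792089934139529708053569012264364796688333729351795327282119181168440291132329880454154059700770521116649756178534538024617319135214491789493883064042382411344883287868498900235566317971721162216090487031629146916317797697669224577596625663500528184707384758932432939718861051313212574430627380068959090578617641639997896996753942822128304199813308062597885725677405169804188839034342563220748154140705192256552489533199849180026559059131494659430317242783726562274391795765307843798011118099182125732624089819334496590384148168052052568493088329112881865355541206727579829157248588018804187271567436922861384471210756375381067655044240090549438723525407668589167831701208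74625319116915638606308968634776341262422859095672542026566003584216883232536095558686041712343887044001569989009830248859093204032870301595904290633605622428065305826919787316483632933167040732970853880266285217947821114061417062244314937196931998726879935400778957155352241430466418384620942008600605957947303898727862238442847949050429608954206335530101107943545440016547621161248160274661944646032719943244523179899423908733121299432738660971891465131344265261614235351716725238107016034683304342004619082368999990350520151296354504081660201719092713691582746768797781938091897535588067122043316201080965655156557530504439487730945958528750742732882230375238663591577122041493540408928958231384268786219137965177437392213773498832892353703166096382116104536778675752789963292880322628478359982296558997927239147597299723306984118377383770402526543477466703429909876754475530939100787974365475812057763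86361864595596081557867181094858114904657164458969167960942070619845830176033395444674717388136736828483186025581439053444564361298140162461341188146101184755152069939749449668618887212108464355140943521386673156010608218592785331568668784705924744905476246312024994896028708703091945178503787041236961566157704666945484112796866399067141151526822059229822191928406115016441574303549725407229794670798078250243598203164245490442210673208777165980136945806135227913711359167052989925303732523853518346055215709917919970416193615388873201077552065536135697566708346207642812911032894496368650235277647955422356916272896617681952604342913847283799245569911780762755156282717517999976012068854387407949427584245892070852452874609023063602352328655739378783164504419680866337291091178606219018128551876948722418836232615146127338744702373111038332837577231543748638120312926200109953164620156752320702284105589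05024230582081566146161372459478769293924738405742219729445502565944119219323522810363425333327078470209217932154052839727898781624151516455443298936494114763493316600755744934877781063683923841435960306254177728850066738530239355432383984692225036484059573521339772689498113050586355523337774345394213225031792457769706310590963652257737149946402382496736040649266292366269483401212427973468525881283980435031190131838464066387828904108847554920888501451720671283755435595393830652765665230412242732744196839456018290117469942135807152911665856958224099907942859040578172152585374548645913194680175902823569664535295866420382316304871032991170762236184584977089282304031923442852032761102050437302314380061985004492357841649233984922103951404007751642707112034161463918876566594802299168019881849048050394986989696229885432236259452203279873396765172388060842245234934595992269714173864515385052975650658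06911589942746869577018710006620735745133300139045346561208828356490351501014068465755979495574227537954100894165046493587068899567942276346161049460910464238704258155614303159315831810616253892378259712914447396906135848392765557759879370837508179823009432120022782279500644093753466228713318982636295303716149499979927477341050919539061167044011954906251503999101271838413752535250877975474184908902700393195832970727200469161156622518778376423697253272047054345718701953681616917194704914330625083773932358856079221346278860724783010276021776482908611120721330883943250660406616501191209226519325878011464457936799440824155429022346457770015310299916348838765898400303948554312382339701366649406544152220654960776976929795353646272361573838792848652256810718185035913613990766446834884478222040722476979268041701572466674386525173718150570328992570997178659863597463899741524897678156150047088309026371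50907169764170456519919132815535189162472763619892838071706997101178407262154913033016531005669753957947264079389188568805414611580050405226554520309832657005523536984169912358148775959749263191270602238382657543944547892565024130644127405546718798161017664074063573784667013435312929754664657995049398434731894145602134144154484756452469688273069112914845111177541533860035153800218278970647181191631982413810904780808701109871830787714317600046133515794215749915965273250171180353265465896945902652373852719104632363432614692674860089486990344290594612751330810654527459438005024025216497244795952754764152883842575060325352138548333317103043442680785218158981867443424086792580722640347750954546114028513898523846128672453551605323321162854817131785045261280335249846031405118426948095361466646217845019471129417954055603753871983275849160795817536077886388547490963990556510686697908258382387996132157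71215590903596175591655736478726256220192604087538304194773733256008081878320054394384850123125387276864787570453298620264208812071069626135649412403790615001413911871939545940774586781744569982078354675286011639164499295180389407404045277675744401536335930951035983036365651067396886781520073717381229628546771819560241976325658797045718328593630980736180513113377583713211529395378589583797108213881166821091367947213307646206859214022185182981608350671104824010885549627684776367467563220799095229660077271729647479568882661893110647480631972898635203224548868769650035630995787933126911770506832584400869825159174767992445277006243548804750410986716480609279548555562633851130375553814635553693896639249282806183092799973781549533716143798076546110087797855540690673484668813078099851726659255245977820733151577004281306055323653358782188161604918650375355742069740667823271193920638518995940840003513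54308309956776144645824708577462284778853898268616117400635158158873456126975806306707393819189961657012872750540019121516070376664948381587260410848261032912054607293636787681694251751578951773947704735905374538725440994764950558656986049176409644185833535200629031600250111517758137643976489600226037203845998255595263935631461766151493016964272152140991737573801362009562914557151849762336571807372514053563870758200786112764644307874397044054136167341883987328660996668166455387723253613974820680925350317440871901915978483461596249869777912083425432645061887926120411095579200559787282646165639945177721654893931867022273272077177106634693872884719807583561809961060041786114244263871674297014615429711495578450731239660591656792504659786719720991070155911872073501176435465440812672173892240415929870554075637732975132239114263108998113222413190614549032507286356948702287234707300680987450639806951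1704235094651999442387832837101489021654125627533027525155839888594035440724060725562444783383737573790565313361904265585721109388855197788557988496985952101823685459023648594020646054343392733697641118923721568271784717608820693235527223232026367318542223867283748889064450709422299344749972175635477093206159712363643297357445256639579923706086031289356106235846431608263778051044214207203413293151611453995648280980245070084876360149553316446042077370244288853504225943663901404334318253543612496431008493372676111430210096101759907081516301105182730908683591441400751694301134979086295253000168915881240528055030210218961732073402545728081812338155011458656103303245349791135340796020498272762506789417624857567079494014112176181553431744751048400704565969649304863419791390992257849865896895820797990961358947435467126259249208059437316335354194456786190095495999496207)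

noncomputable def rc0 : Nat := (nat_lit 89540960113778664697410295668182029740764861302148143830878918649709367443378828765745143449059874079520347401031363016360318551458636834443450957487564026679304497778777632630526766429606882792089934139529708053569012264364796688333729351795327282119181168440291132329880454154059700770521116649756178534538024617319135214491789493883064042382411344883287868498900235566317971721162216090487031629146916317797697669224577596625663500528184707384758932432939718861051313212574430627380068959090578617641639997896996753942822128304199813308062597885725677405169804188839034342563220748154140705192256552489533199849180026559059131494659430317242783726562274391795765307843798011118099182125732624089819334496590384148168052052568493088329112881865355541206727579829157248588018804187271567436922861384471210756375381067655044240090549438723525407668589167831701208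74625319116915638606308968634776341262422859095672542026566003584216883232536095558686041712343887044001569989009830248859093204032870301595904290633605622428065305826919787316483632933167040732970853880266285217947821114061417062244314937196931998726879935400778957155352241430466418384620942008600605957947303898727862238442847949050429608954206335530101107943545440016547621161248160274661944646032719943244523179899423908733121299432738660971891465131344265261614235351716725238107016034683304342004619082368999990350520151296354504081660201719092713691582746768797781938091897535588067122043316201080965655156557530504439487730945958528750742732882230375238663591577122041493540408928958231384268786219137965177437392213773498832892353703166096382116104536778675752789963292880322628478359982296558997927239147597299723306984118377383770402526543477466703429909876754475530939100787974365475812057763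86361864595596081557867181094858114904657164458969167960942070619845830176033395444674717388136736828483186025581439053444564361298140162461341188146101184755152069939749449668618887212108464355140943521386673156010608218592785331568668784705924744905476246312024994896028708703091945178503787041236961566157704666945484112796866399067141151526822059229822191928406115016441574303549725407229794670798078250243598203164245490442210673208777165980136945806135227913711359167052989925303732523853518346055215709917919970416193615388873201077552065536135697566708346207642812911032894496368650235277647955422356916272896617681952604342913847283799245569911780762755156282717517999976012068854387407949427584245892070852452874609023063602352328655739378783164504419680866337291091178606219018128551876948722418836232615146127338744702373111038332837577231543748638120312926200109953164620156752320702284105589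05024230582081566146161372459478769293924738405742219729445502565944119219323522810363425333327078470209217932154052839727898781624151516455443298936494114763493316600755744934877781063683923841435960306254177728850066738530239355432383984692225036484059573521339772689498113050586355523337774345394213225031792457769706310590963652257737149946402382496736040649266292366269483401212427973468525881283980435031190131838464066387828904108847554920888501451720671283755435595393830652765665230412242732744196839456018290117469942135807152911665856958224099907942859040578172152585374548645913194680175902823569664535295866420382316304871032991170762236184584977089282304031923442852032761102050437302314380061985004492357841649233984922103951404007751642707112034161463918876566594802299168019881849048050394986989696229885432236259452203279873396765172388060842245234934595992269714173864515385052975650658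06911589942746869577018710006620735745133300139045346561208828356490351501014068465755979495574227537954100894165046493587068899567942276346161049460910464238704258155614303159315831810616253892378259712914447396906135848392765557759879370837508179823009432120022782279500644093753466228713318982636295303716149499979927477341050919539061167044011954906251503999101271838413752535250877975474184908902700393195832970727200469161156622518778376423697253272047054345718701953681616917194704914330625083773932358856079221346278860724783010276021776482908611120721330883943250660406616501191209226519325878011464457936799440824155429022346457770015310299916348838765898400303948554312382339701366649406544152220654960776976929795353646272361573838792848652256810718185035913613990766446834884478222040722476979268041701572466674386525173718150570328992570997178659863597463899741524897678156150047088309026371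50907169764170456519919132815535189162472763619892838071706997101178407262154913033016531005669753957947264079389188568805414611580050405226554520309832657005523536984169912358148775959749263191270602238382657543944547892565024130644127405546718798161017664074063573784667013435312929754664657995049398434731894145602134144154484756452469688273069112914845111177541533860035153800218278970647181191631982413810904780808701109871830787714317600046133515794215749915965273250171180353265465896945902652373852719104632363432614692674860089486990344290594612751330810654527459438005024025216497244795952754764152883842575060325352138548333317103043442680785218158981867443424086792580722640347750954546114028513898523846128672453551605323321162854817131785045261280335249846031405118426948095361466646217845019471129417954055603753871983275849160795817536077886388547490963990556510686697908258382387996132157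71215590903596175591655736478726256220192604087538304194773733256008081878320054394384850123125387276864787570453298620264208812071069626135649412403790615001413911871939545940774586781744569982078354675286011639164499295180389407404045277675744401536335930951035983036365651067396886781520073717381229628546771819560241976325658797045718328593630980736180513113377583713211529395378589583797108213881166821091367947213307646206859214022185182981608350671104824010885549627684776367467563220799095229660077271729647479568882661893110647480631972898635203224548868769650035630995787933126911770506832584400869825159174767992445277006243548804750410986716480609279548555562633851130375553814635553693896639249282806183092799973781549533716143798076546110087797855540690673484668813078099851726659255245977820733151577004281306055323653358782188161604918650375355742069740667823271193920638518995940840003513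54308309956776144645824708577462284778853898268616117400635158158873456126975806306707393819189961657012872750540019121516070376664948381587260410848261032912054607293636787681694251751578951773947704735905374538725440994764950558656986049176409644185833535200629031600250111517758137643976489600226037203845998255595263935631461766151493016964272152140991737573801362009562914557151849762336571807372514053563870758200786112764644307874397044054136167341883987328660996668166455387723253613974820680925350317440871901915978483461596249869777912083425432645061887926120411095579200559787282646165639945177721654893931867022273272077177106634693872884719807583561809961060041786114244263871674297014615429711495578450731239660591656792504659786719720991070155911872073501176435465440812672173892240415929870554075637732975132239114263108998113222413190614549032507286356948702287234707300680987450639806951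1704235094651999442387832837101489021654125627533027525155839888594035440724060725562444783383737573790565313361904265585721109388855197788557988496985952101823685459023648594020646054343392733697641118923721568271784717608820693235527223232026367318542223867283748889064450709422299344749972175635477093206159712363643297357445256639579923706086031289356106235846431608263778051044214207203413293151611453995648280980245070084876360149553316446042077370244288853504225943663901404334318253543612496431008493372676111430210096101759907081516301105182730908683591441400751694301134979086295253000168915881240528055030210218961732073402545728081812338155011458656103303245349791135340796020498272762506789417624857567079494014112176181553431744751048400704565969649304863419791390992257849865896895820797990961358947435467126259249208059437316335354194456786190095495999496207)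

end Vale.Agent.Lib.P154.PChain.BA.S3
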